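import Crest.Agent.R330.GPar_984

/-!
# The Gaussian amplitude `a0` of the trial maps in the normal form of 547 (helper151)

`nh A j g X = j X / ∫ z, exp (-g ⟪A X z, z⟫)`, `a0 A j g X z = √(nh A j g X) * exp (-(g/2) ⟪A X z, z⟫)`.

* `a0_eq` : `a0 = √(j X) * GPar984.G g (A X) z`.
* `a0_sq`, `integral_a0_sq` (`= j X`), `hasFDerivAt_a0` (in `z`), `moment_a0`, `tail_a0`,
  `second_moment_a0`, `odd_a0`; `exists_bounds` : uniformity near a point.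
-/

set_option autoImplicit false
set_option linter.unusedSectionVars false

open MeasureTheory Filter Topology Set Real
open scoped InnerProductSpace

noncomputable section

namespace Crest.Agent.R330.A0151

open SqrtPD984 GPar984

variable {P Z : Type*} [NormedAddCommGroup Z] [InnerProductSpace ℝ Z] [FiniteDimensional ℝ Z]
  [MeasurableSpace Z] [BorelSpace Z]

/-- Squared normalisation. -/
def nh (A : P → (Z →L[ℝ] Z)) (j : P → ℝ) (g : ℝ) (X : P) : ℝ :=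
  j X / ∫ z : Z, exp (-g * ⟪A X z, z⟫_ℝ)

/-- Gaussian amplitude. -/
def a0 (A : P → (Z →L[ℝ] Z)) (j : P → ℝ) (g : ℝ) (X : P) (z : Z) : ℝ :=
  √(nh A j g X) * exp (-(g / 2) * ⟪A X z, z⟫_ℝ)

variable {A : P → (Z →L[ℝ] Z)} {j : P → ℝ} {g : ℝ} {X : P}

theorem integral_exp_pos (hg : 0 < g) (hA : PD (A X)) :
    0 < ∫ z : Z, exp (-g * ⟪A X z, z⟫_ℝ) := by
  rw [integral_exp_quad hA hg]
  exact div_pos (Real.rpow_pos_of_pos (div_pos pi_pos hg) _) (abs_pos.2 (dt_ne_zero (psq_pd hA)))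

theorem nh_pos (hg : 0 < g) (hA : PD (A X)) (hj : 0 < j X) : 0 < nh A j g X :=
  div_pos hj (integral_exp_pos hg hA)

theorem a0_nonneg (z : Z) : 0 ≤ a0 A j g X z := mul_nonneg (Real.sqrt_nonneg _) (exp_pos _).le

theorem a0_pos (hg : 0 < g) (hA : PD (A X)) (hj : 0 < j X) (z : Z) : 0 < a0 A j g X z :=
  mul_pos (Real.sqrt_pos.2 (nh_pos hg hA hj)) (exp_pos _)

/-- The amplitude is `√j` times the normalised Gaussian. -/
theorem a0_eq (hg : 0 < g) (hA : PD (A X)) (_hj : 0 ≤ j X) (z : Z) :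
    a0 A j g X z = √(j X) * G g (A X) z := by
  have hd : 0 < |dt (psq (A X))| := abs_pos.2 (dt_ne_zero (psq_pd hA))
  have hgp : 0 < g / π := div_pos hg pi_pos
  unfold a0 nh G
  rw [integral_exp_quad hA hg, Real.sqrt_div' _ (by positivity)]
  have h1 : √((π / g) ^ (Module.finrank ℝ Z / 2 : ℝ) / |dt (psq (A X))|) =
      ((g / π) ^ (Module.finrank ℝ Z / 4 : ℝ))⁻¹ * (√|dt (psq (A X))|)⁻¹ := by
    rw [Real.sqrt_div' _ hd.le, div_eq_mul_inv]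
    congr 1
    rw [Real.sqrt_eq_rpow, ← Real.rpow_mul (by positivity), ← inv_div g π,
      Real.inv_rpow hgp.le]
    congr 2
    ring
  rw [h1]
  have h2 : 0 < (g / π) ^ (Module.finrank ℝ Z / 4 : ℝ) := by positivity
  have h3 : 0 < √|dt (psq (A X))| := Real.sqrt_pos.2 hd
  field_simp

theorem a0_sq (hg : 0 < g) (hA : PD (A X)) (hj : 0 ≤ j X) (z : Z) :
    a0 A j g X z ^ 2 = j X * G g (A X) z ^ 2 := by
  rw [a0_eq hg hA hj, mul_pow, Real.sq_sqrt hj]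

theorem a0_sq_exp (hg : 0 < g) (hA : PD (A X)) (hj : 0 ≤ j X) (z : Z) :
    a0 A j g X z ^ 2 = nh A j g X * exp (-g * ⟪A X z, z⟫_ℝ) := by
  have h0 : 0 ≤ nh A j g X := div_nonneg hj (integral_exp_pos hg hA).le
  unfold a0
  rw [mul_pow, Real.sq_sqrt h0, ← Real.exp_nat_mul]
  congr 2
  push_cast
  ring

theorem continuous_a0 : Continuous (a0 A j g X) := by
  unfold a0
  fun_prop

/-- Even in `z`. -/
theorem a0_neg (z : Z) : a0 A j g X (-z) = a0 A j g X z := by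
  unfold a0
  rw [map_neg, inner_neg_neg]

/-- Derivative in `z`. -/
theorem hasFDerivAt_a0 (hA : Sy (A X)) (z : Z) :
    HasFDerivAt (a0 A j g X) ((-(g * a0 A j g X z)) • innerSL ℝ (A X z)) z := by
  have h := ((hasFDerivAt_quad hA z).const_mul (-(g / 2))).exp.const_mul (√(nh A j g X))
  refine h.congr_fderiv ?_
  ext v
  simp only [_root_.smul_apply, innerSL_apply_apply, smul_eq_mul, a0]
  ring

theorem fderiv_a0 (hA : Sy (A X)) (z v : Z) :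
    fderiv ℝ (a0 A j g X) z v = -(g * a0 A j g X z) * ⟪A X z, v⟫_ℝ := by
  rw [(hasFDerivAt_a0 hA z).fderiv]
  rfl

theorem contDiff_a0_z {n : WithTop ℕ∞} : ContDiff ℝ n (a0 A j g X) := by
  unfold a0
  exact contDiff_const.mul ((contDiff_const.mul ((A X).contDiff.inner ℝ contDiff_id)).exp)

/-- Integrals against `a0²`. -/
theorem integral_mul_a0_sq (hg : 0 < g) (hA : PD (A X)) (hj : 0 ≤ j X) (u : Z → ℝ) :
    ∫ z : Z, u z * a0 A j g X z ^ 2 = j X * ∫ z : Z, u z * G g (A X) z ^ 2 := by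
  rw [← integral_const_mul]
  refine integral_congr_ae (ae_of_all _ fun z => ?_)
  show u z * a0 A j g X z ^ 2 = j X * (u z * G g (A X) z ^ 2)
  rw [a0_sq hg hA hj]
  ring

theorem setIntegral_mul_a0_sq (hg : 0 < g) (hA : PD (A X)) (hj : 0 ≤ j X) (u : Z → ℝ) (S : Set Z) :
    ∫ z in S, u z * a0 A j g X z ^ 2 = j X * ∫ z in S, u z * G g (A X) z ^ 2 := by
  rw [← integral_const_mul]
  refine integral_congr_ae (ae_of_all _ fun z => ?_)
  show u z * a0 A j g X z ^ 2 = j X * (u z * G g (A X) z ^ 2)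
  rw [a0_sq hg hA hj]
  ring

/-- **Normalisation.** -/
theorem integral_a0_sq (hg : 0 < g) (hA : PD (A X)) (hj : 0 ≤ j X) :
    ∫ z : Z, a0 A j g X z ^ 2 = j X := by
  have h := integral_mul_a0_sq hg hA hj fun _ => 1
  simp only [one_mul] at h
  rw [h, integral_G_sq hg hA, mul_one]

theorem integrable_a0_sq {a K : ℝ} (ha : 0 < a) (hg : 0 < g) (hA : UB a K (A X)) (hj : 0 ≤ j X)
    (k : ℕ) : Integrable (fun z : Z => (g * ‖z‖ ^ 2) ^ k * a0 A j g X z ^ 2) := by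
  refine ((integrable_mul_G_sq ha hg hA k).const_mul (j X)).congr (ae_of_all _ fun z => ?_)
  show j X * ((g * ‖z‖ ^ 2) ^ k * G g (A X) z ^ 2) = (g * ‖z‖ ^ 2) ^ k * a0 A j g X z ^ 2
  rw [a0_sq hg hA.1 hj]
  ring

/-- Integrability against continuous functions of polynomial growth. -/
theorem integrable_poly_a0_sq {a K : ℝ} (ha : 0 < a) (hg : 0 < g) (hA : UB a K (A X))
    (hj : 0 ≤ j X) {G' : Type*} [NormedAddCommGroup G'] [NormedSpace ℝ G'] {u : Z → G'}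
    (hu : Continuous u) {C : ℝ} {k : ℕ} (hb : ∀ z, ‖u z‖ ≤ C * (1 + (g * ‖z‖ ^ 2) ^ k)) :
    Integrable (fun z : Z => (a0 A j g X z ^ 2) • u z) := by
  have h0 := integrable_a0_sq (j := j) ha hg hA hj 0
  have hk := integrable_a0_sq (j := j) ha hg hA hj k
  have h1 : Integrable (fun z : Z => C * ((g * ‖z‖ ^ 2) ^ 0 * a0 A j g X z ^ 2 +
      (g * ‖z‖ ^ 2) ^ k * a0 A j g X z ^ 2)) := (h0.add hk).const_mul C
  refine h1.mono' ((continuous_a0.pow 2).smul hu).aestronglyMeasurable (ae_of_all _ fun z => ?_)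
  rw [norm_smul, Real.norm_of_nonneg (sq_nonneg _)]
  calc a0 A j g X z ^ 2 * ‖u z‖ ≤ a0 A j g X z ^ 2 * (C * (1 + (g * ‖z‖ ^ 2) ^ k)) :=
        mul_le_mul_of_nonneg_left (hb z) (sq_nonneg _)
    _ = _ := by ring

/-- **Moments.** -/
theorem moment_a0 (a K J : ℝ) (ha : 0 < a) (k : ℕ) :
    ∃ C : ℝ, 0 ≤ C ∧ ∀ (A : P → (Z →L[ℝ] Z)) (j : P → ℝ) (g : ℝ) (X : P), 0 < g →
      UB a K (A X) → 0 ≤ j X → j X ≤ J →
      ∫ z : Z, (g * ‖z‖ ^ 2) ^ k * a0 A j g X z ^ 2 ≤ C := by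
  obtain ⟨C, hC0, hC⟩ := moment_le (Z := Z) a K ha k
  refine ⟨|J| * C, by positivity, fun A j g X hg hA hj hJ => ?_⟩
  rw [integral_mul_a0_sq hg hA.1 hj]
  have h1 : j X ≤ |J| := hJ.trans (le_abs_self J)
  have h2 : 0 ≤ ∫ z : Z, (g * ‖z‖ ^ 2) ^ k * G g (A X) z ^ 2 :=
    integral_nonneg fun z => by positivity
  exact mul_le_mul h1 (hC g hg (A X) hA) h2 (abs_nonneg _)

/-- Moments, `|z|` form: `∫ ‖z‖^(2k) a0² ≤ C g^(-k)`. -/
theorem moment_a0' (a K J : ℝ) (ha : 0 < a) (k : ℕ) :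
    ∃ C : ℝ, 0 ≤ C ∧ ∀ (A : P → (Z →L[ℝ] Z)) (j : P → ℝ) (g : ℝ) (X : P), 0 < g →
      UB a K (A X) → 0 ≤ j X → j X ≤ J →
      ∫ z : Z, ‖z‖ ^ (2 * k) * a0 A j g X z ^ 2 ≤ C * (g ^ k)⁻¹ := by
  obtain ⟨C, hC0, hC⟩ := moment_a0 (P := P) (Z := Z) a K J ha k
  refine ⟨C, hC0, fun A j g X hg hA hj hJ => ?_⟩
  have h1 := hC A j g X hg hA hj hJ
  have h2 : ∀ z : Z, (g * ‖z‖ ^ 2) ^ k * a0 A j g X z ^ 2 =
      g ^ k * (‖z‖ ^ (2 * k) * a0 A j g X z ^ 2) := fun z => by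
    rw [mul_pow, ← pow_mul]
    ring
  simp only [h2] at h1
  rw [integral_const_mul] at h1
  have h3 : 0 < g ^ k := by positivity
  rw [← div_eq_mul_inv, le_div_iff₀ h3]
  linarith

/-- **Tails.** -/
theorem tail_a0 (a K J : ℝ) (ha : 0 < a) (k l : ℕ) :
    ∃ C : ℝ, 0 ≤ C ∧ ∀ (A : P → (Z →L[ℝ] Z)) (j : P → ℝ) (g : ℝ) (X : P) (δ : ℝ), 0 < g →
      0 < δ → UB a K (A X) → 0 ≤ j X → j X ≤ J →
      ∫ z in {z : Z | δ ≤ ‖z‖}, (g * ‖z‖ ^ 2) ^ k * a0 A j g X z ^ 2 ≤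
        C * (g * δ ^ 2)⁻¹ ^ l := by
  obtain ⟨C, hC0, hC⟩ := tail_le (Z := Z) a K ha k l
  refine ⟨|J| * C, by positivity, fun A j g X δ hg hδ hA hj hJ => ?_⟩
  rw [setIntegral_mul_a0_sq hg hA.1 hj]
  have h1 : j X ≤ |J| := hJ.trans (le_abs_self J)
  have h2 : 0 ≤ ∫ z in {z : Z | δ ≤ ‖z‖}, (g * ‖z‖ ^ 2) ^ k * G g (A X) z ^ 2 :=
    integral_nonneg fun z => by positivity
  have h3 := mul_le_mul h1 (hC g hg δ hδ (A X) hA) h2 (abs_nonneg _)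
  rw [mul_assoc]
  exact h3

/-- **Second moment.** -/
theorem second_moment_a0 (hg : 0 < g) (hA : PD (A X)) (hj : 0 ≤ j X) (u v : Z) :
    ∫ z : Z, ⟪u, z⟫_ℝ * ⟪A X z, v⟫_ℝ * a0 A j g X z ^ 2 = j X * (⟪u, v⟫_ℝ / (2 * g)) := by
  rw [integral_mul_a0_sq hg hA hj, second_moment hg hA]

/-- Odd functions integrate to zero against `a0²`. -/
theorem odd_a0 {G' : Type*} [NormedAddCommGroup G'] [NormedSpace ℝ G'] {u : Z → G'}
    (hu : ∀ z, u (-z) = -u z) : ∫ z : Z, (a0 A j g X z ^ 2) • u z = 0 := by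
  have h1 : ∫ z : Z, (a0 A j g X z ^ 2) • u z = -∫ z : Z, (a0 A j g X z ^ 2) • u z := by
    conv_lhs => rw [← integral_neg_eq_self]
    simp only [a0_neg, hu, smul_neg]
    rw [integral_neg]
  have h2 : (2 : ℝ) • ∫ z : Z, (a0 A j g X z ^ 2) • u z = 0 := by
    rw [two_smul]
    nth_rewrite 2 [h1]
    exact add_neg_cancel _
  exact (smul_eq_zero.1 h2).resolve_left two_ne_zero

/-! ### Uniformity near a point -/

variable [NormedAddCommGroup P] [NormedSpace ℝ P]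

/-- Uniform class near a point. -/
theorem exists_UB {X₀ : P} {m : WithTop ℕ∞} (hm : m ≠ 0) (hA : ContDiffAt ℝ m A X₀)
    (hs : ∀ᶠ X in 𝓝 X₀, Sy (A X)) (hp : PD (A X₀)) :
    ∃ a K : ℝ, 0 < a ∧ ∀ᶠ X in 𝓝 X₀, UB a K (A X) := by
  obtain ⟨a, K, M, l, ha, _, h⟩ := exists_param_bounds hm hA hs hp
  exact ⟨a, K, ha, h.mono fun X hX => hX.1⟩

/-- **All bounds near a point.** -/
theorem exists_bounds {X₀ : P} {m : WithTop ℕ∞} (hm : m ≠ 0) (hA : ContDiffAt ℝ m A X₀)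
    (hs : ∀ᶠ X in 𝓝 X₀, Sy (A X)) (hp : PD (A X₀)) (hj : ContinuousAt j X₀) (hj0 : 0 < j X₀) :
    ∃ (a K J : ℝ) (C : ℕ → ℝ) (T : ℕ → ℕ → ℝ), 0 < a ∧ (∀ k, 0 ≤ C k) ∧ (∀ k l, 0 ≤ T k l) ∧
      ∀ᶠ X in 𝓝 X₀, UB a K (A X) ∧ 0 < j X ∧ j X ≤ J ∧ ∀ g : ℝ, 0 < g →
        (∀ k, ∫ z : Z, (g * ‖z‖ ^ 2) ^ k * a0 A j g X z ^ 2 ≤ C k) ∧
        (∀ k, ∫ z : Z, ‖z‖ ^ (2 * k) * a0 A j g X z ^ 2 ≤ C k * (g ^ k)⁻¹) ∧
        ∀ k l, ∀ δ : ℝ, 0 < δ → ∫ z in {z : Z | δ ≤ ‖z‖}, (g * ‖z‖ ^ 2) ^ k * a0 A j g X z ^ 2 ≤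
          T k l * (g * δ ^ 2)⁻¹ ^ l := by
  obtain ⟨a, K, ha, h⟩ := exists_UB hm hA hs hp
  choose C1 hC1 hC1' using fun k => moment_a0 (P := P) (Z := Z) a K (j X₀ + 1) ha k
  choose C2 hC2 hC2' using fun k => moment_a0' (P := P) (Z := Z) a K (j X₀ + 1) ha k
  choose T hT hT' using fun k l => tail_a0 (P := P) (Z := Z) a K (j X₀ + 1) ha k l
  refine ⟨a, K, j X₀ + 1, fun k => max (C1 k) (C2 k), T, ha, fun k => le_max_of_le_left (hC1 k),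
    hT, ?_⟩
  filter_upwards [h, hj.eventually (eventually_gt_nhds hj0),
    hj.eventually (eventually_lt_nhds (lt_add_one (j X₀)))] with X h1 h2 h3
  refine ⟨h1, h2, h3.le, fun g hg => ⟨fun k => ?_, fun k => ?_, fun k l δ hδ => ?_⟩⟩
  · exact (hC1' k A j g X hg h1 h2.le h3.le).trans (le_max_left _ _)
  · exact (hC2' k A j g X hg h1 h2.le h3.le).trans
      (mul_le_mul_of_nonneg_right (le_max_right _ _) (by positivity))
  · exact hT' k l A j g X δ hg hδ h1 h2.le h3.le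

end Crest.Agent.R330.A0151

end
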