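import Crest.Agent.R330.GPar_984

/-!
# Row 330, S8-PAIR (e1): the bosonic amplitude `a0 = √(J X) · G_g(A_X; z)` (helper416)

`P` parameter space (centre directions), `Z` the fibre of heavy transverse directions.
`a0 J A g X z = √(J X) * G g (A X) z`.  Everything is uniform for `X` in an open set `W`.

* `Pk` : the package of hypotheses on an open set; `exists_pk` : it exists near every point.
* `contDiffAt_a0`, `hasFDerivAt_a0`, `fderiv_a0` : joint smoothness and derivative.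
* `abs_dx_le` : `|∂_x a0| ≤ C (1 + g|z|²) a0`.
* `int_a0_sq`, `moment`, `tail`, `int_dx_sq_le` : `L²` bounds.
* `vac_dx` : `∫ G ∂_e a0 = ∂_e √J`; `vac_dx_cut` : the same with a cut-off.
-/

set_option autoImplicit false
set_option linter.unusedSectionVars false
set_option linter.unusedVariables false
set_option linter.deprecated false

open MeasureTheory Filter Topology Real
open scoped InnerProductSpace ContDiff

noncomputable section

namespace Crest.Agent.R330.A0416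

open Crest.Agent.R330.SqrtPD984 Crest.Agent.R330.GPar984

variable {P : Type*} [NormedAddCommGroup P] [NormedSpace ℝ P]
  {Z : Type*} [NormedAddCommGroup Z] [InnerProductSpace ℝ Z] [FiniteDimensional ℝ Z]
  [MeasurableSpace Z] [BorelSpace Z]

/-- logarithmic derivative of `G` (or `a0`) in the parameter -/
def xi (l : P →L[ℝ] ℝ) (A' : P →L[ℝ] (Z →L[ℝ] Z)) (g : ℝ) (z : Z) : P →L[ℝ] ℝ :=
  l - (g / 2) • ((innerSL ℝ z).comp ((ContinuousLinearMap.apply ℝ Z z).comp A'))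

theorem xi_apply (l : P →L[ℝ] ℝ) (A' : P →L[ℝ] (Z →L[ℝ] Z)) (g : ℝ) (z : Z) (v : P) :
    xi l A' g z v = l v - (g / 2) * ⟪z, (A' v) z⟫_ℝ := by
  simp only [xi, ContinuousLinearMap.sub_apply, ContinuousLinearMap.smul_apply,
    ContinuousLinearMap.comp_apply, ContinuousLinearMap.apply_apply, innerSL_apply_apply,
    smul_eq_mul]

/-- the amplitude -/
def a0 (J : P → ℝ) (A : P → (Z →L[ℝ] Z)) (g : ℝ) (X : P) (z : Z) : ℝ :=
  Real.sqrt (J X) * G g (A X) z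

/-- the package, on the open set `W` -/
structure Pk (m : WithTop ℕ∞) (A : P → (Z →L[ℝ] Z)) (J : P → ℝ) (l : P → (P →L[ℝ] ℝ))
    (a K M j0 : ℝ) (W : Set P) : Prop where
  isOpen : IsOpen W
  a_pos : 0 < a
  M_nonneg : 0 ≤ M
  j_pos : 0 < j0
  cdA : ∀ X ∈ W, ContDiffAt ℝ m A X
  cdJ : ∀ X ∈ W, ContDiffAt ℝ m J X
  ub : ∀ X ∈ W, UB a K (A X)
  dA : ∀ X ∈ W, ‖fderiv ℝ A X‖ ≤ M
  hl : ∀ X ∈ W, ‖l X‖ ≤ M
  dG : ∀ X ∈ W, ∀ (g : ℝ) (z : Z),
    HasFDerivAt (fun c => G g (A c) z) (G g (A X) z • xi (l X) (fderiv ℝ A X) g z) X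
  J0 : ∀ X ∈ W, j0 ≤ J X
  J1 : ∀ X ∈ W, J X ≤ M
  dJ : ∀ X ∈ W, ‖fderiv ℝ J X‖ ≤ M

theorem exists_pk {m : WithTop ℕ∞} (hm : m ≠ 0) {A : P → (Z →L[ℝ] Z)} {J : P → ℝ} {b : P}
    {W0 : Set P} (hW : IsOpen W0) (hb : b ∈ W0) (hA : ∀ X ∈ W0, ContDiffAt ℝ m A X)
    (hs : ∀ X ∈ W0, Sy (A X)) (hp : PD (A b)) (hJ : ∀ X ∈ W0, ContDiffAt ℝ m J X)
    (hJ0 : 0 < J b) :
    ∃ (l : P → (P →L[ℝ] ℝ)) (a K M j0 : ℝ) (W : Set P), b ∈ W ∧ W ⊆ W0 ∧
      Pk m A J l a K M j0 W := by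
  have hW' : ∀ᶠ X in 𝓝 b, X ∈ W0 := hW.mem_nhds hb
  obtain ⟨a, K, M, l, ha, hM, h⟩ := exists_param_bounds hm (hA b hb)
    (hW'.mono fun X hX => hs X hX) hp
  have h1m : (1 : WithTop ℕ∞) ≤ m := ENat.one_le_iff_ne_zero_withTop.mpr hm
  have hJ1 : ContDiffAt ℝ 1 J b := (hJ b hb).of_le h1m
  have hJc : ContinuousAt J b := hJ1.continuousAt
  have hdJ : ContinuousAt (fderiv ℝ J) b :=
    (hJ1.fderiv_right (m := 0) (by norm_num)).continuousAt
  have hdJ' : Tendsto (fun b' => ‖fderiv ℝ J b'‖) (𝓝 b) (𝓝 ‖fderiv ℝ J b‖) :=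
    (continuous_norm (E := P →L[ℝ] ℝ)).continuousAt.tendsto.comp hdJ
  set M' : ℝ := max M (max (J b + 1) (‖fderiv ℝ J b‖ + 1)) with hM'
  have e1 : ∀ᶠ X in 𝓝 b, J b / 2 < J X := hJc.eventually (lt_mem_nhds (by linarith))
  have e2 : ∀ᶠ X in 𝓝 b, J X < J b + 1 := hJc.eventually (gt_mem_nhds (by linarith))
  have e3 : ∀ᶠ X in 𝓝 b, ‖fderiv ℝ J X‖ < ‖fderiv ℝ J b‖ + 1 :=
    Filter.Tendsto.eventually_lt_const (by linarith) hdJ'
  have hall := (((h.and e1).and e2).and e3).and hW'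
  obtain ⟨W, hWs, hWo, hbW⟩ := eventually_nhds_iff.mp hall
  refine ⟨l, a, K, M', J b / 2, W, hbW, fun X hX => (hWs X hX).2, ?_⟩
  have hMM : M ≤ M' := le_max_left _ _
  refine ⟨hWo, ha, hM.trans hMM, by linarith, fun X hX => hA X (hWs X hX).2,
    fun X hX => hJ X (hWs X hX).2, fun X hX => (hWs X hX).1.1.1.1.1,
    fun X hX => (hWs X hX).1.1.1.1.2.1.trans hMM, fun X hX => (hWs X hX).1.1.1.1.2.2.1.trans hMM,
    fun X hX g z => (hWs X hX).1.1.1.1.2.2.2 g z, fun X hX => (hWs X hX).1.1.1.2.le,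
    fun X hX => (hWs X hX).1.1.2.le.trans ((le_max_left _ _).trans (le_max_right _ _)),
    fun X hX => (hWs X hX).1.2.le.trans ((le_max_right _ _).trans (le_max_right _ _))⟩

section use

variable {m : WithTop ℕ∞} {A : P → (Z →L[ℝ] Z)} {J : P → ℝ} {l : P → (P →L[ℝ] ℝ)}
  {a K M j0 : ℝ} {W : Set P}

theorem Pk.pd (h : Pk m A J l a K M j0 W) {X : P} (hX : X ∈ W) : PD (A X) := (h.ub X hX).1

theorem Pk.J_pos (h : Pk m A J l a K M j0 W) {X : P} (hX : X ∈ W) : 0 < J X :=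
  h.j_pos.trans_le (h.J0 X hX)

theorem Pk.a0_pos (h : Pk m A J l a K M j0 W) {X : P} (hX : X ∈ W) {g : ℝ} (hg : 0 < g) (z : Z) :
    0 < a0 J A g X z :=
  mul_pos (Real.sqrt_pos.mpr (h.J_pos hX)) (G_pos hg (h.pd hX) z)

theorem Pk.a0_sq (h : Pk m A J l a K M j0 W) {X : P} (hX : X ∈ W) (g : ℝ) (z : Z) :
    a0 J A g X z ^ 2 = J X * G g (A X) z ^ 2 := by
  rw [a0, mul_pow, Real.sq_sqrt (h.J_pos hX).le]

theorem continuous_a0 (J : P → ℝ) (A : P → (Z →L[ℝ] Z)) (g : ℝ) (X : P) :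
    Continuous (a0 J A g X) := (continuous_G g (A X)).const_mul _

/-- `∫ a0² = J` -/
theorem Pk.int_a0_sq (h : Pk m A J l a K M j0 W) {X : P} (hX : X ∈ W) {g : ℝ} (hg : 0 < g) :
    ∫ z : Z, a0 J A g X z ^ 2 = J X := by
  simp only [h.a0_sq hX]
  rw [integral_const_mul, integral_G_sq hg (h.pd hX), mul_one]

/-- the logarithmic derivative of `a0` -/
def la (J : P → ℝ) (l : P → (P →L[ℝ] ℝ)) (X : P) : P →L[ℝ] ℝ :=
  l X + (2 * J X)⁻¹ • fderiv ℝ J X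

theorem Pk.hasFDerivAt_sqrt (h : Pk m A J l a K M j0 W) (hm : m ≠ 0) {X : P} (hX : X ∈ W) :
    HasFDerivAt (fun X => Real.sqrt (J X)) ((Real.sqrt (J X) * (2 * J X)⁻¹) • fderiv ℝ J X) X := by
  have hJ : HasFDerivAt J (fderiv ℝ J X) X :=
    ((h.cdJ X hX).differentiableAt hm).hasFDerivAt
  have h1 := hJ.sqrt (h.J_pos hX).ne'
  refine h1.congr_fderiv ?_
  congr 1
  have h2 : Real.sqrt (J X) * Real.sqrt (J X) = J X := Real.mul_self_sqrt (h.J_pos hX).le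
  have h3 : 0 < Real.sqrt (J X) := Real.sqrt_pos.mpr (h.J_pos hX)
  rw [← h2]
  rw [Real.sqrt_mul_self h3.le]
  field_simp

/-- derivative in the parameter -/
theorem Pk.hasFDerivAt_x (h : Pk m A J l a K M j0 W) (hm : m ≠ 0) {X : P} (hX : X ∈ W) (g : ℝ)
    (z : Z) : HasFDerivAt (fun X' => a0 J A g X' z)
      (a0 J A g X z • xi (la J l X) (fderiv ℝ A X) g z) X := by
  have h1 := (h.hasFDerivAt_sqrt hm hX).mul (h.dG X hX g z)
  refine h1.congr_fderiv ?_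
  ext v
  simp only [ContinuousLinearMap.add_apply, ContinuousLinearMap.smul_apply, smul_eq_mul, xi_apply,
    la, a0]
  ring

/-- derivative in the fibre -/
theorem Pk.hasFDerivAt_z (h : Pk m A J l a K M j0 W) {X : P} (hX : X ∈ W) (g : ℝ) (z : Z) :
    HasFDerivAt (a0 J A g X) ((-(g * a0 J A g X z)) • innerSL ℝ (A X z)) z := by
  have h1 := (hasFDerivAt_G g (h.pd hX).1 z).const_mul (Real.sqrt (J X))
  refine h1.congr_fderiv ?_
  ext v
  simp only [ContinuousLinearMap.smul_apply, smul_eq_mul, a0]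
  ring

theorem Pk.contDiffAt_a0 (h : Pk m A J l a K M j0 W) (hm : m ≠ 0) {X : P} (hX : X ∈ W) (g : ℝ)
    (z : Z) : ContDiffAt ℝ m (fun q : P × Z => a0 J A g q.1 q.2) (X, z) := by
  have h1 : ContDiffAt ℝ m (fun q : P × Z => G g (A q.1) q.2) (X, z) :=
    contDiffAt_G hm g (h.cdA X hX)
      (by filter_upwards [h.isOpen.mem_nhds hX] with X' h' using (h.pd h').1) (h.pd hX)
  have h2 : ContDiffAt ℝ m (fun q : P × Z => Real.sqrt (J q.1)) (X, z) := by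
    have h3 : ContDiffAt ℝ m (fun q : P × Z => J q.1) (X, z) :=
      ContDiffAt.comp (X, z) (g := J) (f := Prod.fst) (h.cdJ X hX) contDiffAt_fst
    exact h3.sqrt (h.J_pos hX).ne'
  exact h2.mul h1

/-- joint derivative -/
theorem Pk.hasFDerivAt_a0 (h : Pk m A J l a K M j0 W) (hm : m ≠ 0) {X : P} (hX : X ∈ W) (g : ℝ)
    (z : Z) : HasFDerivAt (fun q : P × Z => a0 J A g q.1 q.2)
      (a0 J A g X z • ((xi (la J l X) (fderiv ℝ A X) g z).comp (ContinuousLinearMap.fst ℝ P Z) -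
        g • (innerSL ℝ (A X z)).comp (ContinuousLinearMap.snd ℝ P Z))) (X, z) := by
  have hd : DifferentiableAt ℝ (fun q : P × Z => a0 J A g q.1 q.2) (X, z) :=
    (h.contDiffAt_a0 hm hX g z).differentiableAt hm
  have h0 := hd.hasFDerivAt
  have e1 : HasFDerivAt (fun X' => a0 J A g X' z)
      ((fderiv ℝ (fun q : P × Z => a0 J A g q.1 q.2) (X, z)).comp
        (ContinuousLinearMap.inl ℝ P Z)) X := by
    exact HasFDerivAt.comp (g := fun q : P × Z => a0 J A g q.1 q.2) (f := fun X' : P => (X', z))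
      X h0 (hasFDerivAt_prodMk_left X z)
  have e2 : HasFDerivAt (a0 J A g X)
      ((fderiv ℝ (fun q : P × Z => a0 J A g q.1 q.2) (X, z)).comp
        (ContinuousLinearMap.inr ℝ P Z)) z := by
    exact HasFDerivAt.comp (g := fun q : P × Z => a0 J A g q.1 q.2) (f := fun z' : Z => (X, z'))
      z h0 (hasFDerivAt_prodMk_right X z)
  have u1 := e1.unique (h.hasFDerivAt_x hm hX g z)
  have u2 := e2.unique (h.hasFDerivAt_z hX g z)
  refine h0.congr_fderiv ?_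
  ext v
  · have := congrArg (fun L : P →L[ℝ] ℝ => L v) u1
    simp only [ContinuousLinearMap.comp_apply, ContinuousLinearMap.smul_apply, smul_eq_mul] at this
    simp only [ContinuousLinearMap.comp_apply, ContinuousLinearMap.smul_apply,
      ContinuousLinearMap.sub_apply, smul_eq_mul]
    rw [this]
    simp
  · have := congrArg (fun L : Z →L[ℝ] ℝ => L v) u2
    simp only [ContinuousLinearMap.comp_apply, ContinuousLinearMap.smul_apply, smul_eq_mul] at this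
    simp only [ContinuousLinearMap.comp_apply, ContinuousLinearMap.smul_apply,
      ContinuousLinearMap.sub_apply, smul_eq_mul]
    rw [this]
    simp
    ring

theorem Pk.fderiv_a0 (h : Pk m A J l a K M j0 W) (hm : m ≠ 0) {X : P} (hX : X ∈ W) (g : ℝ)
    (z : Z) (e : P) (ζ : Z) : fderiv ℝ (fun q : P × Z => a0 J A g q.1 q.2) (X, z) (e, ζ) =
      a0 J A g X z * (xi (la J l X) (fderiv ℝ A X) g z e - g * ⟪A X z, ζ⟫_ℝ) := by
  rw [(h.hasFDerivAt_a0 hm hX g z).fderiv]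
  simp

/-- the constant of the logarithmic derivative -/
theorem Pk.norm_la (h : Pk m A J l a K M j0 W) {X : P} (hX : X ∈ W) :
    ‖la J l X‖ ≤ M + M / (2 * j0) := by
  have h0 := h.J_pos hX
  have h1 : ‖(2 * J X)⁻¹ • fderiv ℝ J X‖ ≤ M / (2 * j0) := by
    rw [norm_smul, norm_inv, Real.norm_of_nonneg (by positivity), inv_mul_eq_div]
    have := h.j_pos
    have hM := h.M_nonneg
    gcongr
    · exact h.dJ X hX
    · exact h.J0 X hX
  exact (norm_add_le _ _).trans (add_le_add (h.hl X hX) h1)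

/-- the uniform constant -/
def CC (M j0 : ℝ) : ℝ := M + M / (2 * j0)

theorem Pk.CC_nonneg (h : Pk m A J l a K M j0 W) : 0 ≤ CC M j0 := by
  have := h.M_nonneg; have := h.j_pos; unfold CC; positivity

theorem Pk.M_le_CC (h : Pk m A J l a K M j0 W) : M ≤ CC M j0 := by
  have := h.M_nonneg; have := h.j_pos
  have : 0 ≤ M / (2 * j0) := by positivity
  unfold CC; linarith

theorem Pk.norm_xi_le (h : Pk m A J l a K M j0 W) {X : P} (hX : X ∈ W) {g : ℝ} (hg : 0 < g)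
    (z : Z) : ‖xi (la J l X) (fderiv ℝ A X) g z‖ ≤ CC M j0 * (1 + g * ‖z‖ ^ 2) :=
  norm_L_le g hg h.CC_nonneg (h.norm_la hX) ((h.dA X hX).trans h.M_le_CC) z

theorem Pk.abs_xi_le (h : Pk m A J l a K M j0 W) {X : P} (hX : X ∈ W) {g : ℝ} (hg : 0 < g)
    (z : Z) (e : P) :
    |xi (la J l X) (fderiv ℝ A X) g z e| ≤ CC M j0 * (1 + g * ‖z‖ ^ 2) * ‖e‖ := by
  have h1 := (xi (la J l X) (fderiv ℝ A X) g z).le_opNorm e
  rw [Real.norm_eq_abs] at h1
  exact h1.trans (mul_le_mul_of_nonneg_right (h.norm_xi_le hX hg z) (norm_nonneg _))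

/-- `|∂_e a0| ≤ C (1 + g|z|²) a0 |e|` -/
theorem Pk.abs_dx_le (h : Pk m A J l a K M j0 W) {X : P} (hX : X ∈ W) {g : ℝ} (hg : 0 < g)
    (z : Z) (e : P) : |a0 J A g X z * xi (la J l X) (fderiv ℝ A X) g z e| ≤
      CC M j0 * (1 + g * ‖z‖ ^ 2) * ‖e‖ * a0 J A g X z := by
  rw [abs_mul, abs_of_pos (h.a0_pos hX hg z), mul_comm]
  exact mul_le_mul_of_nonneg_right (h.abs_xi_le hX hg z e) (h.a0_pos hX hg z).le

theorem Pk.integrable_mom (h : Pk m A J l a K M j0 W) {X : P} (hX : X ∈ W) {g : ℝ} (hg : 0 < g)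
    (k : ℕ) : Integrable (fun z : Z => (g * ‖z‖ ^ 2) ^ k * a0 J A g X z ^ 2) := by
  have h1 := (integrable_mul_G_sq h.a_pos hg (h.ub X hX) k).const_mul (J X)
  refine h1.congr (ae_of_all _ fun z => ?_)
  simp only [h.a0_sq hX]
  ring

theorem Pk.memLp_a0 (h : Pk m A J l a K M j0 W) {X : P} (hX : X ∈ W) {g : ℝ} (hg : 0 < g) :
    MemLp (a0 J A g X) 2 := by
  rw [memLp_two_iff_integrable_sq (continuous_a0 J A g X).aestronglyMeasurable]
  simpa using h.integrable_mom hX hg 0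

theorem memLp_G {a K g : ℝ} (ha : 0 < a) (hg : 0 < g) {B : Z →L[ℝ] Z} (h : UB a K B) :
    MemLp (G g B) 2 := by
  rw [memLp_two_iff_integrable_sq (continuous_G g B).aestronglyMeasurable]
  simpa using integrable_mul_G_sq ha hg h 0

/-- all moments, uniformly on `W` -/
theorem Pk.moment (h : Pk m A J l a K M j0 W) (k : ℕ) :
    ∃ C : ℝ, 0 ≤ C ∧ ∀ g : ℝ, 0 < g → ∀ X ∈ W,
      ∫ z : Z, (g * ‖z‖ ^ 2) ^ k * a0 J A g X z ^ 2 ≤ C := by
  obtain ⟨C, hC0, hC⟩ := moment_le (Z := Z) a K h.a_pos k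
  refine ⟨M * C, mul_nonneg h.M_nonneg hC0, fun g hg X hX => ?_⟩
  have h1 : ∀ z : Z, (g * ‖z‖ ^ 2) ^ k * a0 J A g X z ^ 2 =
      J X * ((g * ‖z‖ ^ 2) ^ k * G g (A X) z ^ 2) := fun z => by rw [h.a0_sq hX]; ring
  simp only [h1]
  rw [integral_const_mul]
  have h2 : 0 ≤ ∫ z : Z, (g * ‖z‖ ^ 2) ^ k * G g (A X) z ^ 2 :=
    integral_nonneg fun z => by positivity
  exact mul_le_mul (h.J1 X hX) (hC g hg _ (h.ub X hX)) h2 h.M_nonneg

/-- tails, uniformly on `W` -/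
theorem Pk.tail (h : Pk m A J l a K M j0 W) (k n : ℕ) :
    ∃ C : ℝ, 0 ≤ C ∧ ∀ g : ℝ, 0 < g → ∀ δ : ℝ, 0 < δ → ∀ X ∈ W,
      ∫ z in {z : Z | δ ≤ ‖z‖}, (g * ‖z‖ ^ 2) ^ k * a0 J A g X z ^ 2 ≤ C * (g * δ ^ 2)⁻¹ ^ n := by
  obtain ⟨C, hC0, hC⟩ := tail_le (Z := Z) a K h.a_pos k n
  refine ⟨M * C, mul_nonneg h.M_nonneg hC0, fun g hg δ hδ X hX => ?_⟩
  have h1 : ∀ z : Z, (g * ‖z‖ ^ 2) ^ k * a0 J A g X z ^ 2 =
      J X * ((g * ‖z‖ ^ 2) ^ k * G g (A X) z ^ 2) := fun z => by rw [h.a0_sq hX]; ring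
  simp only [h1]
  rw [integral_const_mul, mul_assoc]
  have h2 : 0 ≤ ∫ z in {z : Z | δ ≤ ‖z‖}, (g * ‖z‖ ^ 2) ^ k * G g (A X) z ^ 2 :=
    integral_nonneg fun z => by positivity
  exact mul_le_mul (h.J1 X hX) (hC g hg δ hδ _ (h.ub X hX)) h2 h.M_nonneg

theorem continuous_xi (l : P →L[ℝ] ℝ) (A' : P →L[ℝ] (Z →L[ℝ] Z)) (g : ℝ) (e : P) :
    Continuous fun z : Z => xi l A' g z e := by
  simp only [xi_apply]
  fun_prop

/-- `∫ |∂_e a0|² ≤ C |e|²` -/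
theorem Pk.int_dx_sq_le (h : Pk m A J l a K M j0 W) :
    ∃ C : ℝ, 0 ≤ C ∧ ∀ g : ℝ, 0 < g → ∀ X ∈ W, ∀ e : P,
      Integrable (fun z : Z => (a0 J A g X z * xi (la J l X) (fderiv ℝ A X) g z e) ^ 2) ∧
      ∫ z : Z, (a0 J A g X z * xi (la J l X) (fderiv ℝ A X) g z e) ^ 2 ≤ C * ‖e‖ ^ 2 := by
  obtain ⟨C0, hC0, h0⟩ := h.moment 0
  obtain ⟨C2, hC2, h2⟩ := h.moment 2
  refine ⟨2 * CC M j0 ^ 2 * (C0 + C2), by positivity, fun g hg X hX e => ?_⟩
  have i0 := h.integrable_mom hX hg 0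
  have i2 := h.integrable_mom hX hg 2
  have hb : ∀ z : Z, (a0 J A g X z * xi (la J l X) (fderiv ℝ A X) g z e) ^ 2 ≤
      2 * CC M j0 ^ 2 * ‖e‖ ^ 2 * ((g * ‖z‖ ^ 2) ^ 0 * a0 J A g X z ^ 2 +
        (g * ‖z‖ ^ 2) ^ 2 * a0 J A g X z ^ 2) := by
    intro z
    have h1 := h.abs_dx_le hX hg z e
    have h3 : (a0 J A g X z * xi (la J l X) (fderiv ℝ A X) g z e) ^ 2 ≤
        (CC M j0 * (1 + g * ‖z‖ ^ 2) * ‖e‖ * a0 J A g X z) ^ 2 := by
      rw [← sq_abs]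
      exact pow_le_pow_left₀ (abs_nonneg _) h1 2
    have h4 : (1 + g * ‖z‖ ^ 2) ^ 2 ≤ 2 * (1 + (g * ‖z‖ ^ 2) ^ 2) := by
      nlinarith [sq_nonneg (1 - g * ‖z‖ ^ 2)]
    calc (a0 J A g X z * xi (la J l X) (fderiv ℝ A X) g z e) ^ 2
        ≤ (CC M j0 * (1 + g * ‖z‖ ^ 2) * ‖e‖ * a0 J A g X z) ^ 2 := h3
      _ = CC M j0 ^ 2 * ‖e‖ ^ 2 * a0 J A g X z ^ 2 * (1 + g * ‖z‖ ^ 2) ^ 2 := by ring
      _ ≤ CC M j0 ^ 2 * ‖e‖ ^ 2 * a0 J A g X z ^ 2 * (2 * (1 + (g * ‖z‖ ^ 2) ^ 2)) := by gcongr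
      _ = _ := by ring
  have hmeas : AEStronglyMeasurable
      (fun z : Z => (a0 J A g X z * xi (la J l X) (fderiv ℝ A X) g z e) ^ 2) volume :=
    (((continuous_a0 J A g X).mul (continuous_xi _ _ g e)).pow 2).aestronglyMeasurable
  have ib := (i0.add i2).const_mul (2 * CC M j0 ^ 2 * ‖e‖ ^ 2)
  have hi : Integrable (fun z : Z => (a0 J A g X z * xi (la J l X) (fderiv ℝ A X) g z e) ^ 2) := by
    refine ib.mono' hmeas (ae_of_all _ fun z => ?_)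
    rw [Real.norm_of_nonneg (sq_nonneg _)]
    exact hb z
  refine ⟨hi, ?_⟩
  calc ∫ z : Z, (a0 J A g X z * xi (la J l X) (fderiv ℝ A X) g z e) ^ 2
      ≤ ∫ z : Z, 2 * CC M j0 ^ 2 * ‖e‖ ^ 2 * ((g * ‖z‖ ^ 2) ^ 0 * a0 J A g X z ^ 2 +
        (g * ‖z‖ ^ 2) ^ 2 * a0 J A g X z ^ 2) := integral_mono hi ib hb
    _ = 2 * CC M j0 ^ 2 * ‖e‖ ^ 2 * ((∫ z : Z, (g * ‖z‖ ^ 2) ^ 0 * a0 J A g X z ^ 2) +
        ∫ z : Z, (g * ‖z‖ ^ 2) ^ 2 * a0 J A g X z ^ 2) := by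
        rw [integral_const_mul, integral_add i0 i2]
    _ ≤ 2 * CC M j0 ^ 2 * ‖e‖ ^ 2 * (C0 + C2) := by
        gcongr
        · exact h0 g hg X hX
        · exact h2 g hg X hX
    _ = _ := by ring

/-- the vacuum mean of the logarithmic derivative of the normalised Gaussian vanishes -/
theorem Pk.vac_G (h : Pk m A J l a K M j0 W) {X : P} (hX : X ∈ W) {g : ℝ} (hg : 0 < g) (e : P) :
    ∫ z : Z, G g (A X) z ^ 2 * xi (l X) (fderiv ℝ A X) g z e = 0 := by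
  have hev : ∀ᶠ b' in 𝓝 X, UB a K (A b') ∧ ‖fderiv ℝ A b'‖ ≤ M ∧ ‖l b'‖ ≤ M ∧
      (∀ (g : ℝ) (z : Z), HasFDerivAt (fun c => G g (A c) z) ((G g (A b') z) • (l b' -
        (g / 2) • ((innerSL ℝ z).comp ((ContinuousLinearMap.apply ℝ Z z).comp
          (fderiv ℝ A b'))))) b') := by
    filter_upwards [h.isOpen.mem_nhds hX] with b' hb'
    exact ⟨h.ub b' hb', h.dA b' hb', h.hl b' hb', h.dG b' hb'⟩
  have := param_orth h.a_pos h.M_nonneg hev g hg e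
  simpa only [xi_apply] using this

/-- `∫ G ∂_e a0 = ∂_e √J` -/
theorem Pk.vac_dx (h : Pk m A J l a K M j0 W) {X : P} (hX : X ∈ W) {g : ℝ} (hg : 0 < g) (e : P) :
    Integrable (fun z : Z => G g (A X) z * (a0 J A g X z * xi (la J l X) (fderiv ℝ A X) g z e)) ∧
    ∫ z : Z, G g (A X) z * (a0 J A g X z * xi (la J l X) (fderiv ℝ A X) g z e) =
      Real.sqrt (J X) * ((2 * J X)⁻¹ * fderiv ℝ J X e) := by
  have i1 : Integrable (fun z : Z => G g (A X) z ^ 2 * xi (l X) (fderiv ℝ A X) g z e) := by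
    have hb := ((integrable_mul_G_sq h.a_pos hg (h.ub X hX) 0).add
      (integrable_mul_G_sq h.a_pos hg (h.ub X hX) 1)).const_mul (M * ‖e‖)
    refine hb.mono' ((((continuous_G g (A X)).pow 2).mul
      (continuous_xi _ _ g e)).aestronglyMeasurable) (ae_of_all _ fun z => ?_)
    have h1 : |xi (l X) (fderiv ℝ A X) g z e| ≤ M * (1 + g * ‖z‖ ^ 2) * ‖e‖ := by
      have h2 := (xi (l X) (fderiv ℝ A X) g z).le_opNorm e
      rw [Real.norm_eq_abs] at h2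
      exact h2.trans (mul_le_mul_of_nonneg_right
        (norm_L_le g hg h.M_nonneg (h.hl X hX) (h.dA X hX) z) (norm_nonneg _))
    simp only [Pi.add_apply]
    rw [norm_mul, Real.norm_of_nonneg (sq_nonneg _), Real.norm_eq_abs]
    calc G g (A X) z ^ 2 * |xi (l X) (fderiv ℝ A X) g z e|
        ≤ G g (A X) z ^ 2 * (M * (1 + g * ‖z‖ ^ 2) * ‖e‖) := by gcongr
      _ = _ := by ring
  have i0 : Integrable (fun z : Z => G g (A X) z ^ 2) := by
    simpa using integrable_mul_G_sq h.a_pos hg (h.ub X hX) 0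
  have hpt : ∀ z : Z, G g (A X) z * (a0 J A g X z * xi (la J l X) (fderiv ℝ A X) g z e) =
      Real.sqrt (J X) * (G g (A X) z ^ 2 * xi (l X) (fderiv ℝ A X) g z e) +
      (Real.sqrt (J X) * ((2 * J X)⁻¹ * fderiv ℝ J X e)) * G g (A X) z ^ 2 := by
    intro z
    simp only [xi_apply, la, a0, ContinuousLinearMap.add_apply, ContinuousLinearMap.smul_apply,
      smul_eq_mul]
    ring
  refine ⟨?_, ?_⟩
  · simp only [hpt]
    exact (i1.const_mul _).add (i0.const_mul _)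
  · simp only [hpt]
    rw [integral_add (i1.const_mul _) (i0.const_mul _), integral_const_mul, integral_const_mul,
      h.vac_G hX hg e, integral_G_sq hg (h.pd hX)]
    ring

/-- the same with a cut-off `κ` (`0 ≤ κ ≤ 1`, `κ = 1` on `|z| < δ`) -/
theorem Pk.vac_dx_cut (h : Pk m A J l a K M j0 W) (n : ℕ) :
    ∃ C : ℝ, 0 ≤ C ∧ ∀ g : ℝ, 0 < g → ∀ δ : ℝ, 0 < δ → ∀ X ∈ W, ∀ e : P, ∀ κ : Z → ℝ,
      Measurable κ → (∀ z, 0 ≤ κ z) → (∀ z, κ z ≤ 1) → (∀ z, ‖z‖ < δ → κ z = 1) →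
      |(∫ z : Z, G g (A X) z * (κ z * (a0 J A g X z * xi (la J l X) (fderiv ℝ A X) g z e))) -
        Real.sqrt (J X) * ((2 * J X)⁻¹ * fderiv ℝ J X e)| ≤ C * ‖e‖ * (g * δ ^ 2)⁻¹ ^ n := by
  obtain ⟨C0, hC0, h0⟩ := tail_le (Z := Z) a K h.a_pos 0 n
  obtain ⟨C1, hC1, h1⟩ := tail_le (Z := Z) a K h.a_pos 1 n
  have hMn := h.M_nonneg
  refine ⟨Real.sqrt M * CC M j0 * (C0 + C1), by have := h.CC_nonneg; positivity,
    fun g hg δ hδ X hX e κ hκm hκ0 hκ1 hκ => ?_⟩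
  obtain ⟨hi, hv⟩ := h.vac_dx hX hg e
  set f : Z → ℝ := fun z => G g (A X) z * (a0 J A g X z * xi (la J l X) (fderiv ℝ A X) g z e)
    with hf
  have e1 : ∀ z : Z, G g (A X) z * (κ z * (a0 J A g X z * xi (la J l X) (fderiv ℝ A X) g z e)) =
      κ z * f z := fun z => by simp only [hf]; ring
  have hκi : Integrable (fun z => κ z * f z) := by
    refine hi.norm.mono' (hκm.aestronglyMeasurable.mul hi.1) (ae_of_all _ fun z => ?_)
    rw [norm_mul, Real.norm_of_nonneg (hκ0 z)]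
    exact mul_le_of_le_one_left (norm_nonneg _) (hκ1 z)
  simp only [e1]
  rw [← hv, ← integral_sub hκi hi]
  have hmeas : MeasurableSet {z : Z | δ ≤ ‖z‖} := measurableSet_le measurable_const measurable_norm
  have i0 := integrable_mul_G_sq h.a_pos hg (h.ub X hX) 0
  have i1 := integrable_mul_G_sq h.a_pos hg (h.ub X hX) 1
  have hbd : ∀ z : Z, ‖κ z * f z - f z‖ ≤ Set.indicator {z : Z | δ ≤ ‖z‖}
      (fun z => Real.sqrt M * CC M j0 * ‖e‖ * ((g * ‖z‖ ^ 2) ^ 0 * G g (A X) z ^ 2 +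
        (g * ‖z‖ ^ 2) ^ 1 * G g (A X) z ^ 2)) z := by
    intro z
    by_cases hz : ‖z‖ < δ
    · rw [Set.indicator_of_notMem (by simpa using hz), hκ z hz]
      simp
    · rw [Set.indicator_of_mem (by simpa using hz)]
      have h2 : ‖κ z * f z - f z‖ ≤ ‖f z‖ := by
        have h3 : κ z * f z - f z = -((1 - κ z) * f z) := by ring
        rw [h3, norm_neg, norm_mul, Real.norm_of_nonneg (by linarith [hκ1 z])]
        exact mul_le_of_le_one_left (norm_nonneg _) (by linarith [hκ0 z])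
      refine h2.trans ?_
      have h4 := h.abs_xi_le hX hg z e
      have hsq : Real.sqrt (J X) ≤ Real.sqrt M := Real.sqrt_le_sqrt (h.J1 X hX)
      have hCCn := h.CC_nonneg
      have h5 : ‖f z‖ = Real.sqrt (J X) * G g (A X) z ^ 2 *
          |xi (la J l X) (fderiv ℝ A X) g z e| := by
        simp only [hf, a0]
        rw [norm_mul, norm_mul, norm_mul, Real.norm_of_nonneg (G_pos hg (h.pd hX) z).le,
          Real.norm_of_nonneg (Real.sqrt_nonneg _), Real.norm_eq_abs]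
        ring
      rw [h5]
      calc Real.sqrt (J X) * G g (A X) z ^ 2 * |xi (la J l X) (fderiv ℝ A X) g z e|
          ≤ Real.sqrt M * G g (A X) z ^ 2 * (CC M j0 * (1 + g * ‖z‖ ^ 2) * ‖e‖) := by gcongr
        _ = _ := by ring
  calc |∫ z : Z, (κ z * f z - f z)| ≤ ∫ z : Z, ‖κ z * f z - f z‖ := by
        rw [← Real.norm_eq_abs]; exact norm_integral_le_integral_norm _
    _ ≤ ∫ z : Z, Set.indicator {z : Z | δ ≤ ‖z‖}
        (fun z => Real.sqrt M * CC M j0 * ‖e‖ * ((g * ‖z‖ ^ 2) ^ 0 * G g (A X) z ^ 2 +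
        (g * ‖z‖ ^ 2) ^ 1 * G g (A X) z ^ 2)) z := by
        refine integral_mono (hκi.sub hi).norm ?_ hbd
        exact ((i0.add i1).const_mul _).indicator hmeas
    _ = Real.sqrt M * CC M j0 * ‖e‖ * ((∫ z in {z : Z | δ ≤ ‖z‖}, (g * ‖z‖ ^ 2) ^ 0 *
        G g (A X) z ^ 2) + ∫ z in {z : Z | δ ≤ ‖z‖}, (g * ‖z‖ ^ 2) ^ 1 * G g (A X) z ^ 2) := by
        rw [integral_indicator hmeas, integral_const_mul,
          integral_add i0.integrableOn i1.integrableOn]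
    _ ≤ Real.sqrt M * CC M j0 * ‖e‖ * (C0 * (g * δ ^ 2)⁻¹ ^ n + C1 * (g * δ ^ 2)⁻¹ ^ n) := by
        have := h.CC_nonneg
        gcongr
        · exact h0 g hg δ hδ _ (h.ub X hX)
        · exact h1 g hg δ hδ _ (h.ub X hX)
    _ = _ := by ring

end use

end Crest.Agent.R330.A0416

end
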