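import Mathlib

/-!
# Row 330, section 6 (helper839): commuting tuples in a compact Lie algebra

* `ColAlg V` : bracket on a real inner product space, antisymmetric, Jacobi, ad-invariant.
* `kk c` : commutant of the tuple `c`; `[k,k] ⊆ k`, `[k,kᗮ] ⊆ kᗮ`, `[c_i, ω] ∈ kᗮ`.
* `pot_comm` : `Σ_ij |[c_i,z_j] - [c_j,z_i]|² = 2 (Σ_ij |[c_i,z_j]|² - |Σ_i [c_i,z_i]|²)`.
* `V4` : quartic potential; `V4_slice` : lower bound at `c + ξ + z`.
-/

set_option autoImplicit false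
set_option linter.unusedSectionVars false

open scoped InnerProductSpace

noncomputable section

namespace Crest.Agent.R330.Clus839

/-- A real inner product space with an ad-invariant Lie bracket. -/
structure ColAlg (V : Type*) [NormedAddCommGroup V] [InnerProductSpace ℝ V] where
  /-- the bracket -/
  br : V →ₗ[ℝ] V →ₗ[ℝ] V
  anti : ∀ u v, br u v = - br v u
  jac : ∀ u v w, br u (br v w) = br (br u v) w + br v (br u w)
  inv : ∀ u v w, ⟪br u v, w⟫_ℝ = ⟪u, br v w⟫_ℝ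

variable {V : Type*} [NormedAddCommGroup V] [InnerProductSpace ℝ V] (L : ColAlg V)
  {ι : Type*} [Fintype ι]

namespace ColAlg

theorem skew (c u v : V) : ⟪L.br c u, v⟫_ℝ = - ⟪u, L.br c v⟫_ℝ := by
  rw [L.anti c u, inner_neg_left, L.inv]

theorem br_self (u : V) : L.br u u = 0 := by
  have h := L.anti u u
  have h2 : (2 : ℝ) • L.br u u = 0 := by rw [two_smul]; nth_rw 1 [h]; simp
  simpa using h2

/-- Commuting tuples. -/
def Comm (c : ι → V) : Prop := ∀ i j, L.br (c i) (c j) = 0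

theorem comm_ad {c : ι → V} (h : L.Comm c) (i j : ι) (w : V) :
    L.br (c i) (L.br (c j) w) = L.br (c j) (L.br (c i) w) := by
  rw [L.jac, h i j]
  simp

/-- The commutant of a tuple. -/
def kk (c : ι → V) : Submodule ℝ V where
  carrier := {w | ∀ i, L.br (c i) w = 0}
  add_mem' h1 h2 i := by rw [map_add, h1 i, h2 i, add_zero]
  zero_mem' i := map_zero _
  smul_mem' a w h i := by rw [map_smul, h i, smul_zero]

theorem mem_kk {c : ι → V} {w : V} : w ∈ L.kk c ↔ ∀ i, L.br (c i) w = 0 := Iff.rfl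

theorem br_mem_kk {c : ι → V} {u v : V} (hu : u ∈ L.kk c) (hv : v ∈ L.kk c) :
    L.br u v ∈ L.kk c := by
  intro i
  rw [L.jac, hu i, hv i]
  simp

theorem self_mem_kk {c : ι → V} (h : L.Comm c) (i : ι) : c i ∈ L.kk c := fun j => h j i

theorem ad_mem_perp {c : ι → V} (i : ι) (w : V) : L.br (c i) w ∈ (L.kk c)ᗮ := by
  rw [Submodule.mem_orthogonal']
  intro u hu
  rw [L.skew, hu i, inner_zero_right, neg_zero]

theorem br_mem_perp {c : ι → V} {u v : V} (hu : u ∈ L.kk c) (hv : v ∈ (L.kk c)ᗮ) :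
    L.br u v ∈ (L.kk c)ᗮ := by
  rw [Submodule.mem_orthogonal']
  intro w hw
  rw [L.skew, (Submodule.mem_orthogonal' _ _).1 hv _ (L.br_mem_kk hu hw), neg_zero]

/-! ## The quadratic potential -/

theorem cross_comm {c : ι → V} (h : L.Comm c) (z : ι → V) :
    ∑ i, ∑ j, ⟪L.br (c i) (z j), L.br (c j) (z i)⟫_ℝ = ‖∑ i, L.br (c i) (z i)‖ ^ 2 := by
  rw [← real_inner_self_eq_norm_sq, sum_inner]
  refine Finset.sum_congr rfl fun i _ => ?_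
  rw [inner_sum]
  refine Finset.sum_congr rfl fun j _ => ?_
  rw [L.skew, L.comm_ad h i j, ← L.skew, real_inner_comm]

/-- **The quadratic potential (exact).** -/
theorem pot_comm {c : ι → V} (h : L.Comm c) (z : ι → V) :
    ∑ i, ∑ j, ‖L.br (c i) (z j) - L.br (c j) (z i)‖ ^ 2 =
      2 * (∑ i, ∑ j, ‖L.br (c i) (z j)‖ ^ 2 - ‖∑ i, L.br (c i) (z i)‖ ^ 2) := by
  rw [← L.cross_comm h z]
  have h1 : ∑ i, ∑ j, ‖L.br (c j) (z i)‖ ^ 2 = ∑ i, ∑ j, ‖L.br (c i) (z j)‖ ^ 2 :=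
    Finset.sum_comm
  have h2 : ∀ i j, ‖L.br (c i) (z j) - L.br (c j) (z i)‖ ^ 2 =
      ‖L.br (c i) (z j)‖ ^ 2 - 2 * ⟪L.br (c i) (z j), L.br (c j) (z i)⟫_ℝ +
        ‖L.br (c j) (z i)‖ ^ 2 := fun i j => norm_sub_sq_real _ _
  simp only [h2, Finset.sum_add_distrib, Finset.sum_sub_distrib, ← Finset.mul_sum, h1]
  ring

/-- Gap of the adjoint action of the tuple. -/
def Gap (c : ι → V) (r : ℝ) : Prop :=
  ∀ w ∈ (L.kk c)ᗮ, r ^ 2 * ‖w‖ ^ 2 ≤ ∑ i, ‖L.br (c i) w‖ ^ 2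

/-- Tangent directions. -/
def tang (c : ι → V) (w : V) : ι → V := fun i => L.br (c i) w

theorem pot_tang {c : ι → V} (h : L.Comm c) (w : V) :
    ∑ i, ∑ j, ‖L.br (c i) (L.tang c w j) - L.br (c j) (L.tang c w i)‖ ^ 2 = 0 := by
  refine Finset.sum_eq_zero fun i _ => Finset.sum_eq_zero fun j _ => ?_
  unfold tang
  rw [L.comm_ad h i j]
  simp

theorem inner_tang (c : ι → V) (w : V) (y : ι → V) :
    ∑ i, ⟪L.tang c w i, y i⟫_ℝ = - ⟪w, ∑ i, L.br (c i) (y i)⟫_ℝ := by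
  unfold tang
  rw [inner_sum, ← Finset.sum_neg_distrib]
  exact Finset.sum_congr rfl fun i _ => L.skew _ _ _

/-- Transverse off-diagonal directions `Z_c`. -/
def Zc (c : ι → V) (z : ι → V) : Prop :=
  (∀ i, z i ∈ (L.kk c)ᗮ) ∧ ∑ i, L.br (c i) (z i) = 0

theorem pot_Z {c : ι → V} (h : L.Comm c) {r : ℝ} (hr : L.Gap c r) {z : ι → V}
    (hz : L.Zc c z) :
    2 * r ^ 2 * ∑ j, ‖z j‖ ^ 2 ≤
      ∑ i, ∑ j, ‖L.br (c i) (z j) - L.br (c j) (z i)‖ ^ 2 := by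
  rw [L.pot_comm h, hz.2, norm_zero, Finset.sum_comm]
  have h1 : r ^ 2 * ∑ j, ‖z j‖ ^ 2 ≤ ∑ j, ∑ i, ‖L.br (c i) (z j)‖ ^ 2 := by
    rw [Finset.mul_sum]
    exact Finset.sum_le_sum fun j _ => hr (z j) (hz.1 j)
  nlinarith

/-! ## The quartic potential -/

/-- `V4 x = (1/4) Σ_ij |[x_i,x_j]|² = (1/2) Σ_{i<j} |[x_i,x_j]|²`. -/
def V4 (x : ι → V) : ℝ := 1 / 4 * ∑ i, ∑ j, ‖L.br (x i) (x j)‖ ^ 2

theorem V4_nonneg (x : ι → V) : 0 ≤ L.V4 x := by unfold V4; positivity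

theorem half_sq_le (a b : V) : 1 / 2 * ‖a‖ ^ 2 - ‖b‖ ^ 2 ≤ ‖a + b‖ ^ 2 := by
  have h := norm_sub_norm_le a (-b)
  rw [norm_neg, sub_neg_eq_add] at h
  have h0 := norm_nonneg (a + b)
  have h1 := norm_nonneg a
  have h2 := norm_nonneg b
  have h3 : ‖a‖ ≤ ‖a + b‖ + ‖b‖ := by linarith
  nlinarith [sq_nonneg (‖a + b‖ - ‖b‖), mul_self_le_mul_self h1 h3]

theorem three_sq_le (a b c : V) : ‖a + b + c‖ ^ 2 ≤ 3 * (‖a‖ ^ 2 + ‖b‖ ^ 2 + ‖c‖ ^ 2) := by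
  have h := norm_add₃_le (a := a) (b := b) (c := c)
  have h1 := norm_nonneg (a + b + c)
  calc ‖a + b + c‖ ^ 2 ≤ (‖a‖ + ‖b‖ + ‖c‖) ^ 2 := by gcongr
    _ ≤ _ := by nlinarith [sq_nonneg (‖a‖ - ‖b‖), sq_nonneg (‖b‖ - ‖c‖), sq_nonneg (‖a‖ - ‖c‖)]

/-- Bound for the bracket. -/
def BrBound (B : ℝ) : Prop := ∀ u v : V, ‖L.br u v‖ ≤ B * ‖u‖ * ‖v‖

theorem sum_br_sq_le {B : ℝ} (hB : L.BrBound B) (x y : ι → V) :
    ∑ i, ∑ j, ‖L.br (x i) (y j)‖ ^ 2 ≤ B ^ 2 * (∑ i, ‖x i‖ ^ 2) * ∑ j, ‖y j‖ ^ 2 := by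
  have h : ∀ i j, ‖L.br (x i) (y j)‖ ^ 2 ≤ B ^ 2 * ‖x i‖ ^ 2 * ‖y j‖ ^ 2 := fun i j => by
    calc ‖L.br (x i) (y j)‖ ^ 2 ≤ (B * ‖x i‖ * ‖y j‖) ^ 2 := by
          gcongr
          exact hB _ _
      _ = _ := by ring
  calc _ ≤ ∑ i, ∑ j, B ^ 2 * ‖x i‖ ^ 2 * ‖y j‖ ^ 2 :=
        Finset.sum_le_sum fun i _ => Finset.sum_le_sum fun j _ => h i j
    _ = _ := by
        simp only [← Finset.mul_sum, ← Finset.sum_mul]

theorem pyth [FiniteDimensional ℝ V] (K : Submodule ℝ V) {a b : V} (ha : a ∈ K) (hb : b ∈ Kᗮ) :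
    ‖a + b‖ ^ 2 = ‖a‖ ^ 2 + ‖b‖ ^ 2 := by
  have h : ⟪a, b⟫_ℝ = 0 := (Submodule.mem_orthogonal _ _).1 hb a ha
  have h2 := norm_add_sq_real a b
  rw [h] at h2
  linarith

/-- **Lower bound of the quartic potential in the slice.** -/
theorem V4_slice [FiniteDimensional ℝ V] {c : ι → V} (h : L.Comm c) {r : ℝ} (hr : L.Gap c r)
    {B : ℝ} (hB : L.BrBound B) {ξ z : ι → V} (hξ : ∀ i, ξ i ∈ L.kk c) (hz : L.Zc c z)
    (hs : 14 * B ^ 2 * (∑ i, ‖ξ i‖ ^ 2 + ∑ i, ‖z i‖ ^ 2) ≤ r ^ 2) :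
    1 / 2 * L.V4 ξ + 1 / 8 * r ^ 2 * ∑ i, ‖z i‖ ^ 2 ≤ L.V4 (fun i => c i + ξ i + z i) := by
  classical
  set K := L.kk c with hK
  -- decomposition of the bracket
  set P : V → V := fun v => K.starProjection v with hP
  set P' : V → V := fun v => Kᗮ.starProjection v with hP'
  have hdec : ∀ v, v = P v + P' v := fun v =>
    (Submodule.starProjection_add_starProjection_orthogonal (K := K) v).symm
  have hPn : ∀ v, ‖P v‖ ^ 2 + ‖P' v‖ ^ 2 = ‖v‖ ^ 2 := fun v => by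
    conv_rhs => rw [hdec v]
    exact (pyth K (Submodule.starProjection_apply_mem _ _) (Submodule.starProjection_apply_mem _ _)).symm
  have hbr : ∀ i j, L.br (c i + ξ i + z i) (c j + ξ j + z j) =
      (L.br (ξ i) (ξ j) + P (L.br (z i) (z j))) +
      ((L.br (c i) (z j) - L.br (c j) (z i)) +
        (L.br (ξ i) (z j) + (- L.br (ξ j) (z i)) + P' (L.br (z i) (z j)))) := by
    intro i j
    have h1 : L.br (c i) (c j) = 0 := h i j
    have h2 : L.br (c i) (ξ j) = 0 := hξ j i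
    have h3 : L.br (ξ i) (c j) = 0 := by rw [L.anti, hξ i j, neg_zero]
    have h4 : L.br (z i) (c j) = - L.br (c j) (z i) := L.anti _ _
    have h5 : L.br (z i) (ξ j) = - L.br (ξ j) (z i) := L.anti _ _
    have h6 := hdec (L.br (z i) (z j))
    simp only [map_add, LinearMap.add_apply, h1, h2, h3, h4, h5]
    conv_lhs => rw [h6]
    abel
  have hmemK : ∀ i j, L.br (ξ i) (ξ j) + P (L.br (z i) (z j)) ∈ K := fun i j =>
    K.add_mem (L.br_mem_kk (hξ i) (hξ j)) (Submodule.starProjection_apply_mem _ _)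
  have hmemP : ∀ i j, (L.br (c i) (z j) - L.br (c j) (z i)) +
        (L.br (ξ i) (z j) + (- L.br (ξ j) (z i)) + P' (L.br (z i) (z j))) ∈ Kᗮ := fun i j =>
    Kᗮ.add_mem (Kᗮ.sub_mem (L.ad_mem_perp i _) (L.ad_mem_perp j _))
      (Kᗮ.add_mem (Kᗮ.add_mem (L.br_mem_perp (hξ i) (hz.1 j))
        (Kᗮ.neg_mem (L.br_mem_perp (hξ j) (hz.1 i)))) (Submodule.starProjection_apply_mem _ _))
  have hlow : ∀ i j, 1 / 2 * ‖L.br (ξ i) (ξ j)‖ ^ 2 - ‖P (L.br (z i) (z j))‖ ^ 2 +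
      (1 / 2 * ‖L.br (c i) (z j) - L.br (c j) (z i)‖ ^ 2 -
        3 * (‖L.br (ξ i) (z j)‖ ^ 2 + ‖L.br (ξ j) (z i)‖ ^ 2 + ‖P' (L.br (z i) (z j))‖ ^ 2)) ≤
      ‖L.br (c i + ξ i + z i) (c j + ξ j + z j)‖ ^ 2 := by
    intro i j
    rw [hbr i j, pyth K (hmemK i j) (hmemP i j)]
    have e1 := half_sq_le (L.br (ξ i) (ξ j)) (P (L.br (z i) (z j)))
    have e2 := half_sq_le (L.br (c i) (z j) - L.br (c j) (z i))
      (L.br (ξ i) (z j) + (- L.br (ξ j) (z i)) + P' (L.br (z i) (z j)))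
    have e3 := three_sq_le (L.br (ξ i) (z j)) (- L.br (ξ j) (z i)) (P' (L.br (z i) (z j)))
    rw [norm_neg] at e3
    linarith
  have hsum := Finset.sum_le_sum fun i (_ : i ∈ (Finset.univ : Finset ι)) =>
    Finset.sum_le_sum fun j (_ : j ∈ (Finset.univ : Finset ι)) => hlow i j
  have hq := L.pot_Z h hr hz
  have hb1 := L.sum_br_sq_le hB ξ z
  have hb2 : ∑ i, ∑ j, ‖L.br (ξ j) (z i)‖ ^ 2 ≤ B ^ 2 * (∑ i, ‖ξ i‖ ^ 2) * ∑ j, ‖z j‖ ^ 2 := by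
    rw [Finset.sum_comm]
    exact hb1
  have hb3 := L.sum_br_sq_le hB z z
  have hb4 : ∑ i, ∑ j, (‖P (L.br (z i) (z j))‖ ^ 2 + 3 * ‖P' (L.br (z i) (z j))‖ ^ 2) ≤
      3 * ∑ i, ∑ j, ‖L.br (z i) (z j)‖ ^ 2 := by
    rw [Finset.mul_sum]
    refine Finset.sum_le_sum fun i _ => ?_
    rw [Finset.mul_sum]
    refine Finset.sum_le_sum fun j _ => ?_
    have := hPn (L.br (z i) (z j))
    nlinarith [sq_nonneg ‖P (L.br (z i) (z j))‖]
  simp only [Finset.sum_add_distrib, Finset.sum_sub_distrib, ← Finset.mul_sum] at hsum hb4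
  unfold V4
  set X := ∑ i, ‖ξ i‖ ^ 2
  set Z := ∑ i, ‖z i‖ ^ 2
  have hZ : 0 ≤ Z := Finset.sum_nonneg fun i _ => by positivity
  have hX : 0 ≤ X := Finset.sum_nonneg fun i _ => by positivity
  have hs' := mul_le_mul_of_nonneg_right hs hZ
  have hB2 : 0 ≤ B ^ 2 := sq_nonneg B
  have hp1 : 0 ≤ B ^ 2 * X * Z := by positivity
  have hp2 : 0 ≤ B ^ 2 * Z * Z := by positivity
  nlinarith

end ColAlg

end Crest.Agent.R330.Clus839

end
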