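import Crest.Agent.R330.GPar_984

/-!
Row 330, S8-PAIR, error term e1: the derivative of the normalised Gaussian in the parameter.
`PR` is the class of parameter regions; on a region, `dG g v X z` is the derivative of `G` in the
direction `v`; `dG_size`, `dG_mom`: its weighted `L²` size; `dG_orth`, `dG_cut`: its component along
`G` vanishes (with a cut-off: is `O((g δ²)^{-k})`).
-/

set_option autoImplicit false
set_option linter.unusedSectionVars false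

namespace Crest.Agent.R330.E1984

open Topology Filter MeasureTheory Real
open scoped InnerProductSpace ContDiff
open Crest.Agent.R330.SqrtPD984 Crest.Agent.R330.GPar984

variable {Z : Type*} [NormedAddCommGroup Z] [InnerProductSpace ℝ Z] [FiniteDimensional ℝ Z]
  [MeasurableSpace Z] [BorelSpace Z]
variable {P : Type*} [NormedAddCommGroup P] [NormedSpace ℝ P]

/-- a region of parameters with uniform bounds -/
structure PR (A : P → (Z →L[ℝ] Z)) (S : Set P) (a K M : ℝ) (l : P → (P →L[ℝ] ℝ)) : Prop where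
  isOpen : IsOpen S
  pos : 0 < a
  M_nonneg : 0 ≤ M
  ub : ∀ X ∈ S, UB a K (A X)
  dA : ∀ X ∈ S, ‖fderiv ℝ A X‖ ≤ M
  dl : ∀ X ∈ S, ‖l X‖ ≤ M
  der : ∀ X ∈ S, ∀ (g : ℝ) (z : Z), HasFDerivAt (fun c => G g (A c) z) ((G g (A X) z) • (l X -
        (g / 2) • ((innerSL ℝ z).comp ((ContinuousLinearMap.apply ℝ Z z).comp
          (fderiv ℝ A X))))) X

/-- every smooth positive definite family has such regions -/
theorem exists_PR {A : P → (Z →L[ℝ] Z)} {b : P} {m : WithTop ℕ∞} (hm : m ≠ 0)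
    (hA : ContDiffAt ℝ m A b) (hs : ∀ᶠ b' in 𝓝 b, Sy (A b')) (hp : PD (A b)) :
    ∃ (δ a K M : ℝ) (l : P → (P →L[ℝ] ℝ)), 0 < δ ∧ PR A (Metric.ball b δ) a K M l := by
  obtain ⟨a, K, M, l, ha, hM, h⟩ := exists_param_bounds hm hA hs hp
  obtain ⟨δ, hδ, hδ2⟩ := Metric.eventually_nhds_iff_ball.mp h
  exact ⟨δ, a, K, M, l, hδ, Metric.isOpen_ball, ha, hM, fun X hX => (hδ2 X hX).1,
    fun X hX => (hδ2 X hX).2.1, fun X hX => (hδ2 X hX).2.2.1, fun X hX => (hδ2 X hX).2.2.2⟩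

theorem PR.mono {A : P → (Z →L[ℝ] Z)} {S S' : Set P} {a K M : ℝ} {l : P → (P →L[ℝ] ℝ)}
    (h : PR A S a K M l) (h' : IsOpen S') (hs : S' ⊆ S) : PR A S' a K M l :=
  ⟨h', h.pos, h.M_nonneg, fun X hX => h.ub X (hs hX), fun X hX => h.dA X (hs hX),
    fun X hX => h.dl X (hs hX), fun X hX => h.der X (hs hX)⟩

/-- the logarithmic derivative of `G` in the direction `v` -/
noncomputable def lf (A : P → (Z →L[ℝ] Z)) (l : P → (P →L[ℝ] ℝ)) (g : ℝ) (X v : P) (z : Z) : ℝ :=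
  l X v - (g / 2) * ⟪z, (fderiv ℝ A X v) z⟫_ℝ

/-- the derivative of `G` in the direction `v` -/
noncomputable def dG (A : P → (Z →L[ℝ] Z)) (l : P → (P →L[ℝ] ℝ)) (g : ℝ) (X v : P) (z : Z) : ℝ :=
  G g (A X) z * lf A l g X v z

section

variable {A : P → (Z →L[ℝ] Z)} {S : Set P} {a K M : ℝ} {l : P → (P →L[ℝ] ℝ)}

theorem PR.fderiv_eq (h : PR A S a K M l) {X : P} (hX : X ∈ S) (g : ℝ) (z : Z) (v : P) :
    fderiv ℝ (fun c => G g (A c) z) X v = dG A l g X v z := by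
  rw [(h.der X hX g z).fderiv]
  simp [dG, lf]

theorem PR.lineDeriv (h : PR A S a K M l) {X : P} (hX : X ∈ S) (g : ℝ) (z : Z) :
    DifferentiableAt ℝ (fun c => G g (A c) z) X := (h.der X hX g z).differentiableAt

theorem continuous_lf (A : P → (Z →L[ℝ] Z)) (l : P → (P →L[ℝ] ℝ)) (g : ℝ) (X v : P) :
    Continuous (lf A l g X v) := by
  unfold lf
  fun_prop

theorem continuous_dG (A : P → (Z →L[ℝ] Z)) (l : P → (P →L[ℝ] ℝ)) (g : ℝ) (X v : P) :
    Continuous (dG A l g X v) := (continuous_G g (A X)).mul (continuous_lf A l g X v)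

theorem PR.lf_le (h : PR A S a K M l) {X : P} (hX : X ∈ S) {g : ℝ} (hg : 0 < g) (v : P) (z : Z) :
    |lf A l g X v z| ≤ M * (1 + g * ‖z‖ ^ 2) * ‖v‖ := by
  have h1 := norm_L_le g hg h.M_nonneg (h.dl X hX) (h.dA X hX) z
  have h2 := (l X - (g / 2) • ((innerSL ℝ z).comp ((ContinuousLinearMap.apply ℝ Z z).comp
    (fderiv ℝ A X)))).le_of_opNorm_le h1 v
  simpa [lf] using h2

theorem PR.dG_sq_le (h : PR A S a K M l) {X : P} (hX : X ∈ S) {g : ℝ} (hg : 0 < g) (v : P)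
    (z : Z) (k : ℕ) :
    (g * ‖z‖ ^ 2) ^ k * dG A l g X v z ^ 2 ≤
      2 * (M * ‖v‖) ^ 2 * ((g * ‖z‖ ^ 2) ^ k * G g (A X) z ^ 2 +
        (g * ‖z‖ ^ 2) ^ (k + 2) * G g (A X) z ^ 2) := by
  have h1 := h.lf_le hX hg v z
  have h2 : lf A l g X v z ^ 2 ≤ (M * (1 + g * ‖z‖ ^ 2) * ‖v‖) ^ 2 := by
    rw [← sq_abs]
    exact pow_le_pow_left₀ (abs_nonneg _) h1 2
  have h3 : (M * (1 + g * ‖z‖ ^ 2) * ‖v‖) ^ 2 ≤
      2 * (M * ‖v‖) ^ 2 * (1 + (g * ‖z‖ ^ 2) ^ 2) := by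
    have : 0 ≤ (M * ‖v‖) ^ 2 * (1 - g * ‖z‖ ^ 2) ^ 2 := by positivity
    nlinarith
  have h4 : 0 ≤ (g * ‖z‖ ^ 2) ^ k * G g (A X) z ^ 2 := by positivity
  unfold dG
  calc (g * ‖z‖ ^ 2) ^ k * (G g (A X) z * lf A l g X v z) ^ 2
      = ((g * ‖z‖ ^ 2) ^ k * G g (A X) z ^ 2) * lf A l g X v z ^ 2 := by ring
    _ ≤ ((g * ‖z‖ ^ 2) ^ k * G g (A X) z ^ 2) *
        (2 * (M * ‖v‖) ^ 2 * (1 + (g * ‖z‖ ^ 2) ^ 2)) :=
        mul_le_mul_of_nonneg_left (h2.trans h3) h4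
    _ = _ := by ring

theorem PR.integrable_dG (h : PR A S a K M l) {X : P} (hX : X ∈ S) {g : ℝ} (hg : 0 < g) (v : P)
    (k : ℕ) : Integrable (fun z : Z => (g * ‖z‖ ^ 2) ^ k * dG A l g X v z ^ 2) := by
  have h1 := ((integrable_mul_G_sq h.pos hg (h.ub X hX) k).add
    (integrable_mul_G_sq h.pos hg (h.ub X hX) (k + 2))).const_mul (2 * (M * ‖v‖) ^ 2)
  refine Integrable.mono' h1 ?_ (ae_of_all _ fun z => ?_)
  · have := continuous_dG A l g X v
    exact (by fun_prop : Continuous fun z : Z => (g * ‖z‖ ^ 2) ^ k *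
      dG A l g X v z ^ 2).aestronglyMeasurable
  · rw [Real.norm_of_nonneg (by positivity)]
    exact h.dG_sq_le hX hg v z k

end

/-- weighted size of the derivative -/
theorem dG_mom (a K M : ℝ) (ha : 0 < a) (k : ℕ) :
    ∃ C : ℝ, 0 ≤ C ∧ ∀ (A : P → (Z →L[ℝ] Z)) (S : Set P) (l : P → (P →L[ℝ] ℝ)),
      PR A S a K M l → ∀ X ∈ S, ∀ g : ℝ, 0 < g → ∀ v : P,
        ∫ z : Z, (g * ‖z‖ ^ 2) ^ k * dG A l g X v z ^ 2 ≤ C * ‖v‖ ^ 2 := by
  obtain ⟨C1, h1, hC1⟩ := moment_le (Z := Z) a K ha k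
  obtain ⟨C2, h2, hC2⟩ := moment_le (Z := Z) a K ha (k + 2)
  refine ⟨2 * M ^ 2 * (C1 + C2), by positivity, fun A S l h X hX g hg v => ?_⟩
  have hi := ((integrable_mul_G_sq h.pos hg (h.ub X hX) k).add
    (integrable_mul_G_sq h.pos hg (h.ub X hX) (k + 2))).const_mul (2 * (M * ‖v‖) ^ 2)
  calc ∫ z : Z, (g * ‖z‖ ^ 2) ^ k * dG A l g X v z ^ 2
      ≤ ∫ z : Z, 2 * (M * ‖v‖) ^ 2 * ((g * ‖z‖ ^ 2) ^ k * G g (A X) z ^ 2 +
        (g * ‖z‖ ^ 2) ^ (k + 2) * G g (A X) z ^ 2) :=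
        integral_mono (h.integrable_dG hX hg v k) hi fun z => h.dG_sq_le hX hg v z k
    _ = 2 * (M * ‖v‖) ^ 2 * ((∫ z : Z, (g * ‖z‖ ^ 2) ^ k * G g (A X) z ^ 2) +
        (∫ z : Z, (g * ‖z‖ ^ 2) ^ (k + 2) * G g (A X) z ^ 2)) := by
        rw [integral_const_mul, integral_add (integrable_mul_G_sq h.pos hg (h.ub X hX) k)
          (integrable_mul_G_sq h.pos hg (h.ub X hX) (k + 2))]
    _ ≤ 2 * (M * ‖v‖) ^ 2 * (C1 + C2) := by
        have e1 := hC1 g hg (A X) (h.ub X hX)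
        have e2 := hC2 g hg (A X) (h.ub X hX)
        gcongr
    _ = _ := by ring

section

variable {A : P → (Z →L[ℝ] Z)} {S : Set P} {a K M : ℝ} {l : P → (P →L[ℝ] ℝ)}

theorem PR.integrable_G_dG (h : PR A S a K M l) {X : P} (hX : X ∈ S) {g : ℝ} (hg : 0 < g) (v : P)
    {κ : Z → ℝ} (hκ : AEStronglyMeasurable κ volume) (hκ1 : ∀ z, |κ z| ≤ 1) :
    Integrable (fun z : Z => κ z * (G g (A X) z * dG A l g X v z)) := by
  have h0 := integrable_mul_G_sq h.pos hg (h.ub X hX) 0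
  have h1 := h.integrable_dG hX hg v 0
  refine Integrable.mono' (h0.add h1) ?_ (ae_of_all _ fun z => ?_)
  · exact hκ.mul (((continuous_G g (A X)).mul (continuous_dG A l g X v)).aestronglyMeasurable)
  · simp only [pow_zero, one_mul, Pi.add_apply]
    rw [norm_mul, Real.norm_eq_abs, Real.norm_eq_abs, abs_mul]
    have h2 := hκ1 z
    have h3 : |G g (A X) z| * |dG A l g X v z| ≤ G g (A X) z ^ 2 + dG A l g X v z ^ 2 := by
      rw [← sq_abs (G g (A X) z), ← sq_abs (dG A l g X v z)]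
      nlinarith [sq_nonneg (|G g (A X) z| - |dG A l g X v z|), abs_nonneg (G g (A X) z),
        abs_nonneg (dG A l g X v z), mul_nonneg (abs_nonneg (G g (A X) z))
          (abs_nonneg (dG A l g X v z))]
    calc |κ z| * (|G g (A X) z| * |dG A l g X v z|)
        ≤ 1 * (|G g (A X) z| * |dG A l g X v z|) := by gcongr
      _ ≤ _ := by rw [one_mul]; exact h3

/-- the derivative is orthogonal to `G` -/
theorem PR.dG_orth (h : PR A S a K M l) {X : P} (hX : X ∈ S) {g : ℝ} (hg : 0 < g) (v : P) :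
    ∫ z : Z, G g (A X) z * dG A l g X v z = 0 := by
  have h1 : ∀ᶠ b' in 𝓝 X, UB a K (A b') ∧ ‖fderiv ℝ A b'‖ ≤ M ∧ ‖l b'‖ ≤ M ∧
      (∀ (g : ℝ) (z : Z), HasFDerivAt (fun c => G g (A c) z) ((G g (A b') z) • (l b' -
        (g / 2) • ((innerSL ℝ z).comp ((ContinuousLinearMap.apply ℝ Z z).comp
          (fderiv ℝ A b'))))) b') := by
    filter_upwards [h.isOpen.mem_nhds hX] with b' hb'
    exact ⟨h.ub b' hb', h.dA b' hb', h.dl b' hb', h.der b' hb'⟩
  have h2 := param_orth h.pos h.M_nonneg h1 g hg v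
  rw [← h2]
  refine integral_congr_ae (ae_of_all _ fun z => ?_)
  simp only [dG, lf]
  ring

end

/-- with a cut-off the component along `G` is smaller than any power -/
theorem dG_cut (a K M : ℝ) (ha : 0 < a) (k : ℕ) :
    ∃ C : ℝ, 0 ≤ C ∧ ∀ (A : P → (Z →L[ℝ] Z)) (S : Set P) (l : P → (P →L[ℝ] ℝ)),
      PR A S a K M l → ∀ X ∈ S, ∀ g : ℝ, 0 < g → ∀ v : P, ∀ δ : ℝ, 0 < δ → ∀ κ : Z → ℝ,
        Continuous κ → (∀ z, 0 ≤ κ z) → (∀ z, κ z ≤ 1) → (∀ z, ‖z‖ ≤ δ → κ z = 1) →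
        |∫ z : Z, κ z * (G g (A X) z * dG A l g X v z)| ≤ C * (g * δ ^ 2)⁻¹ ^ k * ‖v‖ := by
  obtain ⟨C1, h1, hC1⟩ := moment_le (Z := Z) a K ha k
  obtain ⟨C2, h2, hC2⟩ := dG_mom (Z := Z) (P := P) a K M ha k
  refine ⟨Real.sqrt C1 * Real.sqrt C2, by positivity,
    fun A S l h X hX g hg v δ hδ κ hκ hκ0 hκ1 hκ2 => ?_⟩
  have hi1 := h.integrable_G_dG hX hg v hκ.aestronglyMeasurable
    (fun z => by rw [abs_of_nonneg (hκ0 z)]; exact hκ1 z)
  have hi2 := h.integrable_G_dG hX hg v (κ := fun _ => 1) aestronglyMeasurable_const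
    (fun z => by simp)
  have e1 : ∫ z : Z, κ z * (G g (A X) z * dG A l g X v z) =
      -∫ z : Z, (1 - κ z) * (G g (A X) z * dG A l g X v z) := by
    have e2 : ∫ z : Z, (1 - κ z) * (G g (A X) z * dG A l g X v z) =
        (∫ z : Z, 1 * (G g (A X) z * dG A l g X v z)) -
          ∫ z : Z, κ z * (G g (A X) z * dG A l g X v z) := by
      rw [← integral_sub hi2 hi1]
      refine integral_congr_ae (ae_of_all _ fun z => ?_)
      simp only; ring
    have e3 : ∫ z : Z, 1 * (G g (A X) z * dG A l g X v z) = 0 := by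
      simp only [one_mul]; exact h.dG_orth hX hg v
    rw [e2, e3]; ring
  rw [e1, abs_neg]
  set q : ℝ := (g * δ ^ 2)⁻¹ ^ k with hq
  have hq0 : 0 < q := by positivity
  -- pointwise: `|1 - κ| ≤ (g|z|²)^k q`
  have hpt : ∀ z, |(1 - κ z) * (G g (A X) z * dG A l g X v z)| ≤
      q * ((g * ‖z‖ ^ 2) ^ k * (|G g (A X) z| * |dG A l g X v z|)) := by
    intro z
    rw [abs_mul, abs_mul]
    have h3 : |1 - κ z| ≤ q * (g * ‖z‖ ^ 2) ^ k := by
      by_cases hz : ‖z‖ ≤ δ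
      · rw [hκ2 z hz, sub_self, abs_zero]; positivity
      · push Not at hz
        have h4 : 1 ≤ (g * ‖z‖ ^ 2) * (g * δ ^ 2)⁻¹ := by
          rw [← div_eq_mul_inv, le_div_iff₀ (by positivity), one_mul]
          gcongr
        have h5 : 1 ≤ ((g * ‖z‖ ^ 2) * (g * δ ^ 2)⁻¹) ^ k := one_le_pow₀ h4
        have h6 : |1 - κ z| ≤ 1 := by
          rw [abs_le]; constructor <;> linarith [hκ0 z, hκ1 z]
        calc |1 - κ z| ≤ ((g * ‖z‖ ^ 2) * (g * δ ^ 2)⁻¹) ^ k := h6.trans h5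
          _ = _ := by rw [mul_pow, hq]; ring
    have h7 : 0 ≤ |G g (A X) z| * |dG A l g X v z| := by positivity
    calc _ ≤ (q * (g * ‖z‖ ^ 2) ^ k) * (|G g (A X) z| * |dG A l g X v z|) :=
          mul_le_mul_of_nonneg_right h3 h7
      _ = _ := by ring
  have hsq : ∀ (z : Z) (x : ℝ), (Real.sqrt ((g * ‖z‖ ^ 2) ^ k) * |x|) ^ 2 =
      (g * ‖z‖ ^ 2) ^ k * x ^ 2 := by
    intro z x
    rw [mul_pow, Real.sq_sqrt (pow_nonneg (mul_nonneg hg.le (sq_nonneg _)) k), sq_abs]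
  have hm1 : MemLp (fun z : Z => Real.sqrt ((g * ‖z‖ ^ 2) ^ k) * |G g (A X) z|) 2 := by
    have hc : Continuous (fun z : Z => Real.sqrt ((g * ‖z‖ ^ 2) ^ k) * |G g (A X) z|) := by
      have := continuous_G g (A X)
      fun_prop
    rw [memLp_two_iff_integrable_sq hc.aestronglyMeasurable]
    exact (integrable_mul_G_sq h.pos hg (h.ub X hX) k).congr
      (ae_of_all _ fun z => (hsq z (G g (A X) z)).symm)
  have hm2 : MemLp (fun z : Z => Real.sqrt ((g * ‖z‖ ^ 2) ^ k) * |dG A l g X v z|) 2 := by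
    have hc : Continuous (fun z : Z => Real.sqrt ((g * ‖z‖ ^ 2) ^ k) * |dG A l g X v z|) := by
      have := continuous_dG A l g X v
      fun_prop
    rw [memLp_two_iff_integrable_sq hc.aestronglyMeasurable]
    exact (h.integrable_dG hX hg v k).congr
      (ae_of_all _ fun z => (hsq z (dG A l g X v z)).symm)
  have hprod : ∀ z : Z, (g * ‖z‖ ^ 2) ^ k * (|G g (A X) z| * |dG A l g X v z|) =
      (Real.sqrt ((g * ‖z‖ ^ 2) ^ k) * |G g (A X) z|) *
        (Real.sqrt ((g * ‖z‖ ^ 2) ^ k) * |dG A l g X v z|) := by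
    intro z
    have : Real.sqrt ((g * ‖z‖ ^ 2) ^ k) * Real.sqrt ((g * ‖z‖ ^ 2) ^ k) = (g * ‖z‖ ^ 2) ^ k :=
      Real.mul_self_sqrt (by positivity)
    calc _ = (Real.sqrt ((g * ‖z‖ ^ 2) ^ k) * Real.sqrt ((g * ‖z‖ ^ 2) ^ k)) *
          (|G g (A X) z| * |dG A l g X v z|) := by rw [this]
      _ = _ := by ring
  have hint : Integrable (fun z : Z => (g * ‖z‖ ^ 2) ^ k * (|G g (A X) z| * |dG A l g X v z|)) := by
    simp only [hprod]
    exact hm1.integrable_mul hm2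
  calc |∫ z : Z, (1 - κ z) * (G g (A X) z * dG A l g X v z)|
      ≤ ∫ z : Z, |(1 - κ z) * (G g (A X) z * dG A l g X v z)| := abs_integral_le_integral_abs
    _ ≤ ∫ z : Z, q * ((g * ‖z‖ ^ 2) ^ k * (|G g (A X) z| * |dG A l g X v z|)) := by
        refine integral_mono_of_nonneg (ae_of_all _ fun z => abs_nonneg _) (hint.const_mul q)
          (ae_of_all _ hpt)
    _ = q * ∫ z : Z, (Real.sqrt ((g * ‖z‖ ^ 2) ^ k) * |G g (A X) z|) *
        (Real.sqrt ((g * ‖z‖ ^ 2) ^ k) * |dG A l g X v z|) := by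
        rw [integral_const_mul]
        simp only [hprod]
    _ ≤ q * (Real.sqrt C1 * (Real.sqrt C2 * ‖v‖)) := by
        refine mul_le_mul_of_nonneg_left ?_ hq0.le
        have hh := integral_mul_le_Lp_mul_Lq_of_nonneg (μ := (volume : Measure Z))
          Real.HolderConjugate.two_two
          (f := fun z : Z => Real.sqrt ((g * ‖z‖ ^ 2) ^ k) * |G g (A X) z|)
          (g := fun z : Z => Real.sqrt ((g * ‖z‖ ^ 2) ^ k) * |dG A l g X v z|)
          (ae_of_all _ fun z => by positivity) (ae_of_all _ fun z => by positivity)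
          (by simpa using hm1) (by simpa using hm2)
        refine hh.trans ?_
        have t1 : ∀ z : Z, (Real.sqrt ((g * ‖z‖ ^ 2) ^ k) * |G g (A X) z|) ^ (2 : ℝ) =
            (g * ‖z‖ ^ 2) ^ k * G g (A X) z ^ 2 := by
          intro z
          rw [Real.rpow_two, hsq]
        have t2 : ∀ z : Z, (Real.sqrt ((g * ‖z‖ ^ 2) ^ k) * |dG A l g X v z|) ^ (2 : ℝ) =
            (g * ‖z‖ ^ 2) ^ k * dG A l g X v z ^ 2 := by
          intro z
          rw [Real.rpow_two, hsq]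
        simp only [t1, t2]
        rw [← Real.sqrt_eq_rpow, ← Real.sqrt_eq_rpow]
        have u1 := hC1 g hg (A X) (h.ub X hX)
        have u2 := hC2 A S l h X hX g hg v
        have u3 : Real.sqrt (C2 * ‖v‖ ^ 2) = Real.sqrt C2 * ‖v‖ := by
          rw [Real.sqrt_mul h2, Real.sqrt_sq (norm_nonneg v)]
        rw [← u3]
        gcongr
    _ = _ := by ring

end Crest.Agent.R330.E1984
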