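import Crest.Agent.R330.Cliff5_442

/-!
# Row 330 (helper442): covariance and smoothness of the vacuum projection; bridge to matrices

* `num_comm_th` / `proj_comm_th` : `proj J` commutes with `θ x` if `J x = 0`.
* `proj_cov` : `U θ x = θ' (R x) U` (`R` linear isometry equivalence, `U` additive and real linear;
  complex linear or antilinear) implies `U proj J = proj (± R J R⁻¹) U`.
* `proj_even` : `proj J` commutes with the parity.
* `contDiffAt_proj` : smooth in parameters.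
* `proj_add` : orthogonal sum of two partial complex structures.
* `CRep.of` : bridge from `θ : κ → F →ₗ F`.
-/

set_option autoImplicit false
set_option linter.unusedSectionVars false

open scoped InnerProductSpace

noncomputable section

namespace Crest.Agent.R330.Cliff442

variable {V V' F F' : Type*} [NormedAddCommGroup V] [InnerProductSpace ℝ V]
  [NormedAddCommGroup V'] [InnerProductSpace ℝ V']
  [NormedAddCommGroup F] [InnerProductSpace ℂ F] [NormedAddCommGroup F'] [InnerProductSpace ℂ F']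

namespace CRep

variable (M : CRep V F) (M' : CRep V' F') [FiniteDimensional ℝ V] [FiniteDimensional ℝ V']

theorem num_apply (J : V →ₗ[ℝ] V) (f : F) : M.num J f =
    (Complex.I / 2) • ∑ i, M.θ (J (stdOrthonormalBasis ℝ V i)) (M.θ (stdOrthonormalBasis ℝ V i) f) +
      ((1 / 4 * ∑ i, ‖J (stdOrthonormalBasis ℝ V i)‖ ^ 2 : ℝ) : ℂ) • f := by
  rw [num, LinearMap.add_apply, quad_apply, LinearMap.smul_apply, Module.End.one_apply]

theorem num_apply' {κ : Type*} [Fintype κ] (b : OrthonormalBasis κ ℝ V) {J : V →ₗ[ℝ] V}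
    (hJ : Skew J) (f : F) : M.num J f =
    (Complex.I / 2) • ∑ i, M.θ (J (b i)) (M.θ (b i) f) +
      ((1 / 4 * ∑ i, ‖J (b i)‖ ^ 2 : ℝ) : ℂ) • f := by
  rw [num, LinearMap.add_apply, M.quad_indep (stdOrthonormalBasis ℝ V) b, quad_apply,
    LinearMap.smul_apply, Module.End.one_apply, sum_norm_indep (stdOrthonormalBasis ℝ V) b hJ]

/-- `num J` commutes with `θ x`, `J x = 0`. -/
theorem num_comm_th {J : V →ₗ[ℝ] V} (hJ : Skew J) {x : V} (hx : J x = 0) (f : F) :
    M.θ x (M.num J f) = M.num J (M.θ x f) := by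
  have h1 := M.quad_comm (stdOrthonormalBasis ℝ V) hJ x f
  rw [hx, M.zero, LinearMap.zero_apply, smul_zero, sub_eq_zero] at h1
  rw [num, LinearMap.add_apply, LinearMap.add_apply, map_add, h1]
  simp

theorem proj_comm_th {J : V →ₗ[ℝ] V} (hJ : Skew J) {x : V} (hx : J x = 0) (f : F) :
    M.θ x (M.proj J f) = M.proj J (M.θ x f) :=
  fall_comm _ _ (M.θ x) (fun _ _ => map_sub _ _ _) (fun _ _ => map_smul _ _ _)
    (M.num_comm_th hJ hx) _ f

/-- Parity commutes with the number operator and the projection. -/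
theorem proj_even {J : V →ₗ[ℝ] V} (Γ : F → F) (hadd : ∀ f g, Γ (f + g) = Γ f + Γ g)
    (hsm : ∀ (c : ℂ) f, Γ (c • f) = c • Γ f) (h : ∀ x f, Γ (M.θ x f) = -M.θ x (Γ f)) (f : F) :
    Γ (M.proj J f) = M.proj J (Γ f) := by
  have hneg : ∀ f, Γ (-f) = -Γ f := fun f => by
    have := hsm (-1) f
    simpa using this
  have hsub : ∀ f g, Γ (f - g) = Γ f - Γ g := fun f g => by
    rw [sub_eq_add_neg, hadd, hneg, sub_eq_add_neg]
  have hz : Γ 0 = 0 := by
    have := hsm 0 0
    simpa using this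
  have hsum : ∀ {κ : Type} (s : Finset κ) (g : κ → F), Γ (∑ i ∈ s, g i) = ∑ i ∈ s, Γ (g i) := by
    intro κ s g
    classical
    induction s using Finset.induction_on with
    | empty => simpa using hz
    | insert a s ha ih => rw [Finset.sum_insert ha, Finset.sum_insert ha, hadd, ih]
  refine fall_comm _ _ Γ hsub (fun _ _ => hsm _ _) (fun f => ?_) _ f
  rw [num_apply, num_apply, hadd, hsm, hsm, hsum]
  congr 2
  refine Finset.sum_congr rfl fun i _ => ?_
  rw [h, h, map_neg, neg_neg]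

/-- Conjugation of `J` by an isometry. -/
def conjJ (R : V ≃ₗᵢ[ℝ] V') (J : V →ₗ[ℝ] V) : V' →ₗ[ℝ] V' :=
  R.toLinearEquiv.toLinearMap ∘ₗ J ∘ₗ R.symm.toLinearEquiv.toLinearMap

theorem conjJ_apply (R : V ≃ₗᵢ[ℝ] V') (J : V →ₗ[ℝ] V) (x : V') :
    conjJ R J x = R (J (R.symm x)) := rfl

theorem conjJ_skew (R : V ≃ₗᵢ[ℝ] V') {J : V →ₗ[ℝ] V} (hJ : Skew J) : Skew (conjJ R J) := by
  intro x y
  rw [conjJ_apply, conjJ_apply]
  have h1 : ⟪R (J (R.symm x)), y⟫_ℝ = ⟪J (R.symm x), R.symm y⟫_ℝ := by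
    conv_lhs => rw [← R.apply_symm_apply y]
    rw [R.inner_map_map]
  have h2 : ⟪x, R (J (R.symm y))⟫_ℝ = ⟪R.symm x, J (R.symm y)⟫_ℝ := by
    conv_lhs => rw [← R.apply_symm_apply x]
    rw [R.inner_map_map]
  rw [h1, h2, hJ]

theorem conjJ_pcs (R : V ≃ₗᵢ[ℝ] V') {J : V →ₗ[ℝ] V} (hJ : PCS J) : PCS (conjJ R J) :=
  ⟨conjJ_skew R hJ.skew, fun x => by
    simp only [conjJ_apply, LinearIsometryEquiv.symm_apply_apply]
    rw [hJ.cube, map_neg]⟩

/-- **Covariance** (`c = 1`: complex linear `U`; `c = -1`: antilinear `U`). -/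
theorem proj_cov {J : V →ₗ[ℝ] V} (hJ : Skew J) (R : V ≃ₗᵢ[ℝ] V') (U : F → F')
    (hadd : ∀ f g, U (f + g) = U f + U g) (hsm : ∀ (r : ℝ) f, U ((r : ℂ) • f) = (r : ℂ) • U f)
    (h : ∀ x f, U (M.θ x f) = M'.θ (R x) (U f)) (J' : V' →ₗ[ℝ] V')
    (hI : (J' = conjJ R J ∧ ∀ f, U (Complex.I • f) = Complex.I • U f) ∨
      (J' = -conjJ R J ∧ ∀ f, U (Complex.I • f) = -(Complex.I • U f))) (f : F) :
    U (M.proj J f) = M'.proj J' (U f) := by
  have hneg : ∀ f, U (-f) = -U f := fun f => by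
    have := hsm (-1) f
    simpa using this
  have hsub : ∀ f g, U (f - g) = U f - U g := fun f g => by
    rw [sub_eq_add_neg, hadd, hneg, sub_eq_add_neg]
  have hz : U 0 = 0 := by
    have := hsm 0 0
    simpa using this
  have hsum : ∀ {κ : Type} (s : Finset κ) (g : κ → F), U (∑ i ∈ s, g i) = ∑ i ∈ s, U (g i) := by
    intro κ s g
    classical
    induction s using Finset.induction_on with
    | empty => simpa using hz
    | insert a s ha ih => rw [Finset.sum_insert ha, Finset.sum_insert ha, hadd, ih]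
  have hR : Module.finrank ℝ V = Module.finrank ℝ V' := R.toLinearEquiv.finrank_eq
  have hJ' : Skew J' := by
    rcases hI with ⟨e, -⟩ | ⟨e, -⟩
    · rw [e]; exact conjJ_skew R hJ
    · rw [e]
      intro x y
      rw [LinearMap.neg_apply, LinearMap.neg_apply, inner_neg_left, inner_neg_right,
        conjJ_skew R hJ]
  rw [proj, proj, ← hR]
  refine fall_comm _ _ U hsub hsm (fun f => ?_) _ f
  set e := stdOrthonormalBasis ℝ V with he
  rw [M'.num_apply' (e.map R) hJ', num_apply, hadd, hsm]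
  have hb : ∀ i, (e.map R) i = R (e i) := fun i => by rw [OrthonormalBasis.map_apply]
  have hn : ∀ i, ‖J' ((e.map R) i)‖ ^ 2 = ‖J (e i)‖ ^ 2 := by
    intro i
    rw [hb]
    rcases hI with ⟨e1, -⟩ | ⟨e1, -⟩
    · rw [e1, conjJ_apply, R.symm_apply_apply, R.norm_map]
    · rw [e1, LinearMap.neg_apply, norm_neg, conjJ_apply, R.symm_apply_apply, R.norm_map]
  rw [Finset.sum_congr rfl (fun i _ => hn i)]
  congr 1
  have hhalf : ∀ g : F, (Complex.I / 2) • g = ((1 / 2 : ℝ) : ℂ) • Complex.I • g := fun g => by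
    rw [smul_smul]; congr 1; push_cast; ring
  have hhalf' : ∀ g : F', (Complex.I / 2) • g = ((1 / 2 : ℝ) : ℂ) • Complex.I • g := fun g => by
    rw [smul_smul]; congr 1; push_cast; ring
  rw [hhalf, hsm, hhalf']
  congr 1
  rcases hI with ⟨e1, e2⟩ | ⟨e1, e2⟩
  · rw [e2, hsum]
    congr 1
    refine Finset.sum_congr rfl fun i _ => ?_
    rw [h, h, hb, e1, conjJ_apply, R.symm_apply_apply]
  · rw [e2, hsum, ← smul_neg, ← Finset.sum_neg_distrib]
    congr 1
    refine Finset.sum_congr rfl fun i _ => ?_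
    rw [h, h, hb, e1, LinearMap.neg_apply, conjJ_apply, R.symm_apply_apply, M'.neg]
    rfl

/-- Two commuting partial complex structures with `J K = 0`. -/
theorem proj_add {J K : V →ₗ[ℝ] V} (hJ : PCS J) (hK : PCS K) (h1 : ∀ x, J (K x) = 0)
    (h2 : ∀ x, K (J x) = 0) (f : F) : M.proj (J + K) f = M.proj J (M.proj K f) := by
  have hS : PCS (J + K) := by
    refine ⟨fun x y => ?_, fun x => ?_⟩
    · rw [LinearMap.add_apply, LinearMap.add_apply, inner_add_left, inner_add_right, hJ.skew,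
        hK.skew]
      ring
    · simp only [LinearMap.add_apply, map_add, h1, h2, add_zero, zero_add, hJ.cube, hK.cube]
      abel
  have hnum : ∀ g, M.num (J + K) g = M.num J g + M.num K g := by
    intro g
    rw [num_apply, num_apply, num_apply]
    have e1 : ∀ i, ‖(J + K) (stdOrthonormalBasis ℝ V i)‖ ^ 2 =
        ‖J (stdOrthonormalBasis ℝ V i)‖ ^ 2 + ‖K (stdOrthonormalBasis ℝ V i)‖ ^ 2 := by
      intro i
      have e2 : ⟪J (stdOrthonormalBasis ℝ V i), K (stdOrthonormalBasis ℝ V i)⟫_ℝ = 0 := by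
        rw [hJ.skew, h1]
        simp
      rw [LinearMap.add_apply, @norm_add_sq ℝ, e2]
      simp
    rw [Finset.sum_congr rfl (fun i _ => e1 i)]
    simp only [LinearMap.add_apply, M.add, Finset.sum_add_distrib]
    push_cast
    module
  have hpos : ∀ (L : V →ₗ[ℝ] V), PCS L → ∀ g, 0 ≤ (⟪g, M.num L g⟫_ℂ).re := fun L hL g =>
    (sq_nonneg _).trans (M.num_gap hL g)
  -- `vacJ (J + K) = vacJ J ⊓ vacJ K`
  have hvac : ∀ g, g ∈ M.vacJ (J + K) ↔ g ∈ M.vacJ J ∧ g ∈ M.vacJ K := by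
    intro g
    rw [M.mem_vacJ_iff hS, M.mem_vacJ_iff hJ, M.mem_vacJ_iff hK, hnum]
    constructor
    · intro hg
      have e1 : (⟪g, M.num J g⟫_ℂ).re + (⟪g, M.num K g⟫_ℂ).re = 0 := by
        rw [← Complex.add_re, ← inner_add_right, hg, inner_zero_right, Complex.zero_re]
      have e2 := hpos J hJ g
      have e3 := hpos K hK g
      have key : ∀ (L : V →ₗ[ℝ] V), PCS L → (⟪g, M.num L g⟫_ℂ).re = 0 → M.num L g = 0 := by
        intro L hL h0
        have e4 := M.num_gap hL g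
        rw [h0] at e4
        have e5 : ‖g - M.proj L g‖ = 0 := by
          have := sq_nonneg ‖g - M.proj L g‖
          exact pow_eq_zero_iff two_ne_zero |>.1 (le_antisymm e4 this)
        have e6 : g = M.proj L g := sub_eq_zero.1 (norm_eq_zero.1 e5)
        rw [← M.mem_vacJ_iff hL, e6]
        exact proj_mem hL g
      exact ⟨key J hJ (by linarith), key K hK (by linarith)⟩
    · rintro ⟨e1, e2⟩
      rw [e1, e2, add_zero]
  -- `proj J` preserves `vacJ K`
  have hpres : ∀ g ∈ M.vacJ K, M.proj J g ∈ M.vacJ K := by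
    intro g hg x
    rw [M.proj_comm_th hJ.skew (h1 x), M.proj_comm_th hJ.skew (h1 (K x)), hg x, map_smul]
  have hmem : M.proj J (M.proj K f) ∈ M.vacJ (J + K) :=
    (hvac _).2 ⟨proj_mem hJ _, hpres _ (proj_mem hK f)⟩
  -- the difference is orthogonal to the vacuum space
  have horth : ∀ g ∈ M.vacJ (J + K), ⟪g, f - M.proj J (M.proj K f)⟫_ℂ = 0 := by
    intro g hg
    obtain ⟨g1, g2⟩ := (hvac g).1 hg
    rw [inner_sub_right, ← M.proj_symm hJ, M.proj_of_mem hJ g1, ← M.proj_symm hK,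
      M.proj_of_mem hK g2, sub_self]
  have h3 : ∀ g ∈ M.vacJ (J + K), ⟪g, M.proj (J + K) f - M.proj J (M.proj K f)⟫_ℂ = 0 := by
    intro g hg
    have e1 := M.proj_orth hS hg f
    have e2 := horth g hg
    rw [inner_sub_right] at e1 e2 ⊢
    linear_combination e2 - e1
  have h4 := h3 _ (Submodule.sub_mem _ (proj_mem hS f) hmem)
  exact sub_eq_zero.1 (inner_self_eq_zero.1 h4)

section smooth

variable [FiniteDimensional ℂ F] {E : Type*} [NormedAddCommGroup E] [NormedSpace ℝ E]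

/-- Complex linear maps of `F` are smooth. -/
theorem contDiff_lin {G G' : Type*} [NormedAddCommGroup G] [InnerProductSpace ℂ G]
    [NormedAddCommGroup G'] [InnerProductSpace ℂ G'] [FiniteDimensional ℂ G] (T : G →ₗ[ℂ] G')
    (n : WithTop ℕ∞) : ContDiff ℝ n (fun g : G => T g) :=
  ((LinearMap.toContinuousLinearMap T).restrictScalars ℝ).contDiff

/-- **Smoothness of the number operator in parameters.** -/
theorem contDiffAt_num {n : WithTop ℕ∞} {J : E → V →ₗ[ℝ] V} {f : E → F} {x : E}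
    (hJ : ∀ y, ContDiffAt ℝ n (fun t => J t y) x) (hf : ContDiffAt ℝ n f x) :
    ContDiffAt ℝ n (fun t => M.num (J t) (f t)) x := by
  set e := stdOrthonormalBasis ℝ V with he
  have h1 : (fun t => M.num (J t) (f t)) = fun t => (Complex.I / 2) •
      ∑ i, ∑ j, ((⟪e j, J t (e i)⟫_ℝ : ℝ) : ℂ) • M.θ (e j) (M.θ (e i) (f t)) +
      ((1 / 4 * ∑ i, ‖J t (e i)‖ ^ 2 : ℝ) : ℂ) • f t := by
    funext t
    rw [num_apply]
    congr 2
    refine Finset.sum_congr rfl fun i _ => ?_
    rw [← M.expand_basis e (J t (e i))]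
  rw [h1]
  have h2 : ∀ i j, ContDiffAt ℝ n
      (fun t => ((⟪e j, J t (e i)⟫_ℝ : ℝ) : ℂ) • M.θ (e j) (M.θ (e i) (f t))) x := by
    intro i j
    refine ContDiffAt.smul ?_ ?_
    · exact Complex.ofRealCLM.contDiff.contDiffAt.comp x
        (ContDiffAt.inner ℝ contDiffAt_const (hJ (e i)))
    · exact (contDiff_lin (M.θ (e j) ∘ₗ M.θ (e i)) n).contDiffAt.comp x hf
  have h3 : ContDiffAt ℝ n (fun t => ((1 / 4 * ∑ i, ‖J t (e i)‖ ^ 2 : ℝ) : ℂ)) x := by
    refine Complex.ofRealCLM.contDiff.contDiffAt.comp x ?_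
    refine contDiffAt_const.mul ?_
    refine ContDiffAt.sum fun i _ => ?_
    exact ContDiffAt.norm_sq ℝ (hJ (e i))
  have h4 : ContDiffAt ℝ n (fun t => (Complex.I / 2) •
      ∑ i, ∑ j, ((⟪e j, J t (e i)⟫_ℝ : ℝ) : ℂ) • M.θ (e j) (M.θ (e i) (f t))) x := by
    refine ContDiffAt.const_smul _ ?_
    exact ContDiffAt.sum fun i _ => ContDiffAt.sum fun j _ => h2 i j
  exact h4.add (h3.smul hf)

theorem contDiffAt_fall {n : WithTop ℕ∞} {N : E → Module.End ℂ F} {f : E → F} {x : E}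
    (hN : ∀ g : E → F, ContDiffAt ℝ n g x → ContDiffAt ℝ n (fun t => N t (g t)) x)
    (hf : ContDiffAt ℝ n f x) (m : ℕ) : ContDiffAt ℝ n (fun t => fall (N t) m (f t)) x := by
  induction m with
  | zero => exact hf
  | succ m ih =>
    have h1 : (fun t => fall (N t) (m + 1) (f t)) = fun t =>
        fall (N t) m (f t) - (1 / ((m : ℂ) + 1)) • N t (fall (N t) m (f t)) := rfl
    rw [h1]
    exact ih.sub (ContDiffAt.const_smul _ (hN _ ih))

/-- **Smoothness of the vacuum projection in parameters.** -/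
theorem contDiffAt_proj {n : WithTop ℕ∞} {J : E → V →ₗ[ℝ] V} {f : E → F} {x : E}
    (hJ : ∀ y, ContDiffAt ℝ n (fun t => J t y) x) (hf : ContDiffAt ℝ n f x) :
    ContDiffAt ℝ n (fun t => M.proj (J t) (f t)) x :=
  contDiffAt_fall (fun _ hg => M.contDiffAt_num hJ hg) hf _

end smooth

end CRep

/-! ### Bridge to families of generators -/

section bridge

variable {κ : Type*} [Fintype κ] [DecidableEq κ]

/-- The module of a family of generators. -/
def CRep.of (θ : κ → F →ₗ[ℂ] F) (hs : ∀ k, (θ k).IsSymmetric)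
    (hc : ∀ j k, θ j ∘ₗ θ k + θ k ∘ₗ θ j = if j = k then (LinearMap.id : F →ₗ[ℂ] F) else 0) :
    CRep (EuclideanSpace ℝ κ) F where
  θ u := ∑ k, ((u k : ℝ) : ℂ) • θ k
  add u v := by
    simp only [PiLp.add_apply, Complex.ofReal_add, add_smul, Finset.sum_add_distrib]
  smul r u := by
    simp only [PiLp.smul_apply, smul_eq_mul, Complex.ofReal_mul, mul_smul, Finset.smul_sum]
  symm u f g := by
    simp only [LinearMap.sum_apply, LinearMap.smul_apply, sum_inner, inner_sum, inner_smul_left,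
      inner_smul_right, Complex.conj_ofReal]
    exact Finset.sum_congr rfl fun k _ => by rw [hs k]
  anti u v := by
    have h1 : ∀ j k, (θ j : Module.End ℂ F) * θ k + θ k * θ j = if j = k then 1 else 0 := by
      intro j k
      exact hc j k
    have h2 : (∑ k, ((u k : ℝ) : ℂ) • (θ k : Module.End ℂ F)) *
        (∑ k, ((v k : ℝ) : ℂ) • (θ k : Module.End ℂ F)) =
        ∑ j, ∑ k, (((u j : ℝ) : ℂ) * ((v k : ℝ) : ℂ)) • ((θ j : Module.End ℂ F) * θ k) := by
      rw [Finset.sum_mul]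
      refine Finset.sum_congr rfl fun j _ => ?_
      rw [Finset.mul_sum]
      refine Finset.sum_congr rfl fun k _ => ?_
      rw [smul_mul_smul_comm]
    have h3 : (∑ k, ((v k : ℝ) : ℂ) • (θ k : Module.End ℂ F)) *
        (∑ k, ((u k : ℝ) : ℂ) • (θ k : Module.End ℂ F)) =
        ∑ j, ∑ k, (((u j : ℝ) : ℂ) * ((v k : ℝ) : ℂ)) • ((θ k : Module.End ℂ F) * θ j) := by
      rw [Finset.sum_mul]
      simp only [Finset.mul_sum, smul_mul_smul_comm]
      rw [Finset.sum_comm]
      refine Finset.sum_congr rfl fun j _ => Finset.sum_congr rfl fun k _ => ?_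
      rw [mul_comm]
    rw [h2, h3, ← Finset.sum_add_distrib]
    simp only [← Finset.sum_add_distrib, ← smul_add, h1]
    have h4 : ∀ j, ∑ k, (((u j : ℝ) : ℂ) * ((v k : ℝ) : ℂ)) •
        (if j = k then (1 : Module.End ℂ F) else 0) =
        (((u j : ℝ) : ℂ) * ((v j : ℝ) : ℂ)) • (1 : Module.End ℂ F) := by
      intro j
      rw [Finset.sum_eq_single_of_mem j (Finset.mem_univ j)]
      · rw [if_pos rfl]
      · intro k _ hk
        rw [if_neg (Ne.symm hk), smul_zero]
    rw [Finset.sum_congr rfl (fun j _ => h4 j), ← Finset.sum_smul]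
    congr 1
    rw [PiLp.inner_apply]
    push_cast
    refine Finset.sum_congr rfl fun j _ => ?_
    simp [mul_comm]

theorem CRep.of_single (θ : κ → F →ₗ[ℂ] F) (hs : ∀ k, (θ k).IsSymmetric)
    (hc : ∀ j k, θ j ∘ₗ θ k + θ k ∘ₗ θ j = if j = k then (LinearMap.id : F →ₗ[ℂ] F) else 0)
    (k : κ) : (CRep.of θ hs hc).θ (EuclideanSpace.single k (1 : ℝ)) = θ k := by
  change ∑ j, (((EuclideanSpace.single k (1 : ℝ) : EuclideanSpace ℝ κ) j : ℝ) : ℂ) • θ j = θ k
  rw [Finset.sum_eq_single_of_mem k (Finset.mem_univ k)]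
  · simp
  · intro j _ hj
    simp [hj]

theorem CRep.of_irr (θ : κ → F →ₗ[ℂ] F) (hs : ∀ k, (θ k).IsSymmetric)
    (hc : ∀ j k, θ j ∘ₗ θ k + θ k ∘ₗ θ j = if j = k then (LinearMap.id : F →ₗ[ℂ] F) else 0)
    (hi : ∀ W : Submodule ℂ F, (∀ k, ∀ f ∈ W, θ k f ∈ W) → W = ⊥ ∨ W = ⊤) :
    (CRep.of θ hs hc).Irr := by
  refine ⟨fun _ _ _ _ => trivial, fun W _ hW => hi W fun k f hf => ?_⟩
  have h := hW (EuclideanSpace.single k (1 : ℝ)) trivial f hf
  rwa [CRep.of_single] at h

end bridge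

end Crest.Agent.R330.Cliff442

end
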