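import Crest.Prelude.Def_MatrixModel

/-!
# Row 330: shared literal definitions (helper478, after r330_doc 0)

* `cc j` : `1/3` for the first three directions, `-1/6` for the other six.
* `Gam G` : `γ¹ γ² γ³`.
* `wpot` : the real coefficients of the potential part of the charges `Q_α^{g,m}`.
* `dcharge b M G g m α φ x` : the charges `Q_α^{g,m}`; `dcharge_one_zero` : `Q^{1,0}` is the
  supercharge of the statement.
* `qf b M G g m φ` : the form `(1/16) Σ_α ‖Q_α^{g,m} φ‖²` (extended real valued).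
* `core b R` : the core as a complex subspace.
* `zset b M R G g m` : the zero states of the charges `Q^{g,m}`; `zset_one_zero`.
* `zker b M R G g m` : the same as a complex subspace of `L²`.
* `HasDim` : "the kernel has dimension `d`".
-/

set_option autoImplicit false
set_option linter.unusedSectionVars false

open MeasureTheory Filter Topology Crest.MathPhysics.MatrixQM
open scoped ContDiff InnerProductSpace ENNReal

noncomputable section

namespace Crest.Agent.R330.Defs478

variable {N : ℕ} {F : Type*} [NormedAddCommGroup F] [InnerProductSpace ℂ F]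

/-- The mass coefficients. -/
def cc (j : Fin 9) : ℝ := if (j : ℕ) < 3 then 1 / 3 else -(1 / 6)

/-- `Γ = γ¹ γ² γ³`. -/
def Gam (G : GammaNine) : Matrix (Fin 16) (Fin 16) ℝ := G.γ 0 * G.γ 1 * G.γ 2

/-- The real coefficients `w_{αβ}^A(x)` of the potential part of `Q_α^{g,m}`. -/
def wpot (b : ColorBasis N) (G : GammaNine) (g m : ℝ) (α β : Fin 16) (A : Fin (N ^ 2 - 1))
    (x : Cfg N) : ℝ :=
  g * (∑ B : Fin (N ^ 2 - 1), ∑ C : Fin (N ^ 2 - 1), ∑ i : Fin 9, ∑ j : Fin 9,
    1 / 2 * b.structConst A B C * x (i, B) * x (j, C) * G.γ2 i j α β) -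
  m * ∑ j : Fin 9, cc j * x (j, A) * (Gam G * G.γ j) α β

/-- The kinetic part of the charges. -/
def kin (M : FermionRep N F) (G : GammaNine) (α : Fin 16) (φ : Cfg N → F) (x : Cfg N) : F :=
  ∑ i : Fin 9, ∑ A : Fin (N ^ 2 - 1), ∑ β : Fin 16,
    (-Complex.I * (G.γ i α β : ℂ)) • M.θ β A (fderiv ℝ φ x (EuclideanSpace.single (i, A) 1))

/-- The charges `Q_α^{g,m}`. -/
def dcharge (b : ColorBasis N) (M : FermionRep N F) (G : GammaNine) (g m : ℝ) (α : Fin 16)
    (φ : Cfg N → F) (x : Cfg N) : F :=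
  kin M G α φ x + ∑ A : Fin (N ^ 2 - 1), ∑ β : Fin 16,
    ((wpot b G g m α β A x : ℝ) : ℂ) • M.θ β A (φ x)

theorem dcharge_one_zero (b : ColorBasis N) (M : FermionRep N F) (G : GammaNine) (α : Fin 16)
    (φ : Cfg N → F) (x : Cfg N) :
    dcharge b M G 1 0 α φ x = supercharge b M G α φ x := by
  unfold dcharge supercharge kin
  congr 1
  refine Finset.sum_congr rfl fun A _ => ?_
  unfold wpot
  simp only [one_mul, zero_mul, sub_zero, Complex.ofReal_sum, Finset.sum_smul]
  rw [Finset.sum_comm]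
  refine Finset.sum_congr rfl fun B _ => ?_
  rw [Finset.sum_comm]
  refine Finset.sum_congr rfl fun C _ => ?_
  rw [Finset.sum_comm]
  refine Finset.sum_congr rfl fun i _ => ?_
  rw [Finset.sum_comm]

/-- The form `(1/16) Σ_α ‖Q_α^{g,m} φ‖²`. -/
def qf (b : ColorBasis N) (M : FermionRep N F) (G : GammaNine) (g m : ℝ) (φ : Cfg N → F) : ℝ :=
  (1 / 16 : ℝ) * ∑ α : Fin 16, ∫ x, ‖dcharge b M G g m α φ x‖ ^ 2

/-- The zero states of the charges `Q^{g,m}`, literally as in `zeroEnergyStates`. -/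
def zset [FiniteDimensional ℂ F] (b : ColorBasis N) (M : FermionRep N F) (R : GaugeAction b M)
    (G : GammaNine) (g m : ℝ) : Set (Cfg N → F) :=
  {Ψ | MemLp Ψ 2 volume ∧ ∃ φ : ℕ → Cfg N → F, (∀ n, IsCoreVec b R (φ n)) ∧
      Tendsto (fun n => eLpNorm (φ n - Ψ) 2 volume) atTop (𝓝 0) ∧
      ∀ α, Tendsto (fun n => eLpNorm (dcharge b M G g m α (φ n)) 2 volume) atTop (𝓝 0)}

theorem zset_one_zero [FiniteDimensional ℂ F] (b : ColorBasis N) (M : FermionRep N F)
    (R : GaugeAction b M) (G : GammaNine) : zset b M R G 1 0 = zeroEnergyStates b M R G := by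
  have h : ∀ α (φ : Cfg N → F), dcharge b M G 1 0 α φ = supercharge b M G α φ := fun α φ =>
    funext fun x => dcharge_one_zero b M G α φ x
  unfold zset zeroEnergyStates
  simp only [h]

/-! ## Linearity and continuity of the charges -/

section lin

variable [FiniteDimensional ℂ F] (b : ColorBasis N) (M : FermionRep N F) (G : GammaNine)
  (g m : ℝ) (α : Fin 16)

theorem dcharge_add {φ ψ : Cfg N → F} (hφ : Differentiable ℝ φ) (hψ : Differentiable ℝ ψ) :
    dcharge b M G g m α (φ + ψ) = dcharge b M G g m α φ + dcharge b M G g m α ψ := by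
  funext x
  simp only [dcharge, kin, Pi.add_apply, fderiv_add (hφ x) (hψ x), ContinuousLinearMap.add_apply,
    map_add, smul_add, Finset.sum_add_distrib]
  abel

theorem dcharge_smul (c : ℂ) {φ : Cfg N → F} (hφ : Differentiable ℝ φ) :
    dcharge b M G g m α (c • φ) = c • dcharge b M G g m α φ := by
  funext x
  have h : ∀ v, fderiv ℝ (c • φ) x v = c • fderiv ℝ φ x v := fun v => by
    rw [fderiv_const_smul (hφ x) c]
    rfl
  simp only [dcharge, kin, Pi.smul_apply, h, map_smul, smul_comm _ c, Finset.smul_sum, smul_add]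

theorem continuous_wpot (β : Fin 16) (A : Fin (N ^ 2 - 1)) :
    Continuous (wpot b G g m α β A) := by
  unfold wpot
  fun_prop

theorem continuous_theta (β : Fin 16) (A : Fin (N ^ 2 - 1)) : Continuous (M.θ β A) :=
  LinearMap.continuous_of_finiteDimensional _

theorem continuous_dcharge {φ : Cfg N → F} (hφ : ContDiff ℝ 1 φ) :
    Continuous (dcharge b M G g m α φ) := by
  unfold dcharge kin
  refine Continuous.add ?_ ?_
  · refine continuous_finsetSum _ fun i _ => continuous_finsetSum _ fun A _ =>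
      continuous_finsetSum _ fun β _ => Continuous.const_smul ?_ _
    exact (continuous_theta M β A).comp
      ((hφ.continuous_fderiv one_ne_zero).clm_apply continuous_const)
  · refine continuous_finsetSum _ fun A _ => continuous_finsetSum _ fun β _ => ?_
    exact (Complex.continuous_ofReal.comp (continuous_wpot b G g m α β A)).smul
      ((continuous_theta M β A).comp hφ.continuous)

end lin

/-! ## The core and the kernel as complex subspaces -/

section ker

variable [FiniteDimensional ℂ F] {b : ColorBasis N} {M : FermionRep N F}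

theorem cv_zero (R : GaugeAction b M) : IsCoreVec b R (0 : Cfg N → F) :=
  ⟨contDiff_const, HasCompactSupport.zero, fun g x => by simp⟩

theorem cv_add {R : GaugeAction b M} {φ ψ : Cfg N → F} (hφ : IsCoreVec b R φ)
    (hψ : IsCoreVec b R ψ) : IsCoreVec b R (φ + ψ) :=
  ⟨hφ.1.add hψ.1, hφ.2.1.add hψ.2.1, fun g x => by
    simp only [Pi.add_apply, hφ.2.2 g x, hψ.2.2 g x, map_add]⟩

theorem cv_smul {R : GaugeAction b M} {φ : Cfg N → F} (c : ℂ) (hφ : IsCoreVec b R φ) :
    IsCoreVec b R (c • φ) :=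
  ⟨contDiff_const.smul hφ.1, by
    refine hφ.2.1.mono fun x hx => ?_
    rw [Function.mem_support] at hx ⊢
    intro h
    exact hx (by simp [h]), fun g x => by
    simp only [Pi.smul_apply, hφ.2.2 g x, map_smul]⟩

/-- The core as a complex subspace of the functions. -/
def core (b : ColorBasis N) {M : FermionRep N F} (R : GaugeAction b M) :
    Submodule ℂ (Cfg N → F) where
  carrier := {φ | IsCoreVec b R φ}
  add_mem' h1 h2 := cv_add h1 h2
  zero_mem' := cv_zero R
  smul_mem' c _ h := cv_smul c h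

theorem cv_diff {R : GaugeAction b M} {φ : Cfg N → F} (h : IsCoreVec b R φ) :
    Differentiable ℝ φ := h.1.differentiable (by simp)

theorem cv_c1 {R : GaugeAction b M} {φ : Cfg N → F} (h : IsCoreVec b R φ) :
    ContDiff ℝ 1 φ := h.1.of_le (by simp)

theorem cv_aesm {R : GaugeAction b M} {φ : Cfg N → F} (h : IsCoreVec b R φ) :
    AEStronglyMeasurable φ volume := h.1.continuous.aestronglyMeasurable

theorem cv_aesm_dcharge {R : GaugeAction b M} {φ : Cfg N → F} (h : IsCoreVec b R φ)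
    (G : GammaNine) (g m : ℝ) (α : Fin 16) :
    AEStronglyMeasurable (dcharge b M G g m α φ) volume :=
  (continuous_dcharge b M G g m α (cv_c1 h)).aestronglyMeasurable

theorem zset_add {R : GaugeAction b M} {G : GammaNine} {g m : ℝ} {Ψ Ψ' : Cfg N → F}
    (h : Ψ ∈ zset b M R G g m) (h' : Ψ' ∈ zset b M R G g m) : Ψ + Ψ' ∈ zset b M R G g m := by
  obtain ⟨hΨ, φ, hφ, h1, h2⟩ := h
  obtain ⟨hΨ', φ', hφ', h1', h2'⟩ := h'
  refine ⟨hΨ.add hΨ', fun n => φ n + φ' n, fun n => cv_add (hφ n) (hφ' n), ?_, fun α => ?_⟩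
  · refine tendsto_of_tendsto_of_tendsto_of_le_of_le tendsto_const_nhds
      (by simpa using h1.add h1') (fun _ => zero_le) fun n => ?_
    have : φ n + φ' n - (Ψ + Ψ') = (φ n - Ψ) + (φ' n - Ψ') := by abel
    rw [this]
    exact eLpNorm_add_le ((cv_aesm (hφ n)).sub hΨ.1) ((cv_aesm (hφ' n)).sub hΨ'.1) (by norm_num)
  · refine tendsto_of_tendsto_of_tendsto_of_le_of_le tendsto_const_nhds
      (by simpa using (h2 α).add (h2' α)) (fun _ => zero_le) fun n => ?_
    change eLpNorm (dcharge b M G g m α (φ n + φ' n)) 2 volume ≤ _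
    rw [dcharge_add b M G g m α (cv_diff (hφ n)) (cv_diff (hφ' n))]
    exact eLpNorm_add_le (cv_aesm_dcharge (hφ n) G g m α) (cv_aesm_dcharge (hφ' n) G g m α)
      (by norm_num)

theorem zset_smul {R : GaugeAction b M} {G : GammaNine} {g m : ℝ} {Ψ : Cfg N → F} (c : ℂ)
    (h : Ψ ∈ zset b M R G g m) : c • Ψ ∈ zset b M R G g m := by
  obtain ⟨hΨ, φ, hφ, h1, h2⟩ := h
  refine ⟨hΨ.const_smul c, fun n => c • φ n, fun n => cv_smul c (hφ n), ?_, fun α => ?_⟩
  · have h3 : ∀ n, eLpNorm (c • φ n - c • Ψ) 2 volume = ‖c‖ₑ * eLpNorm (φ n - Ψ) 2 volume :=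
      fun n => by rw [← smul_sub, eLpNorm_const_smul]
    simp only [h3]
    simpa using ENNReal.Tendsto.const_mul h1 (Or.inr (by simp))
  · have h3 : ∀ n, eLpNorm (dcharge b M G g m α (c • φ n)) 2 volume =
        ‖c‖ₑ * eLpNorm (dcharge b M G g m α (φ n)) 2 volume := fun n => by
      rw [dcharge_smul b M G g m α c (cv_diff (hφ n)), eLpNorm_const_smul]
    simp only [h3]
    simpa using ENNReal.Tendsto.const_mul (h2 α) (Or.inr (by simp))

theorem zset_zero {R : GaugeAction b M} {G : GammaNine} {g m : ℝ} :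
    (0 : Cfg N → F) ∈ zset b M R G g m := by
  refine ⟨MemLp.zero, fun _ => 0, fun _ => cv_zero R, by simp, fun α => ?_⟩
  have h : dcharge b M G g m α (0 : Cfg N → F) = 0 := by
    have := dcharge_smul b M G g m α (0 : ℂ) (φ := (0 : Cfg N → F)) (by fun_prop)
    simpa using this
  simp [h]

theorem zset_congr {R : GaugeAction b M} {G : GammaNine} {g m : ℝ} {Ψ Ψ' : Cfg N → F}
    (h : Ψ ∈ zset b M R G g m) (he : Ψ =ᵐ[volume] Ψ') : Ψ' ∈ zset b M R G g m := by
  obtain ⟨hΨ, φ, hφ, h1, h2⟩ := h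
  refine ⟨hΨ.ae_eq he, φ, hφ, ?_, h2⟩
  have h3 : ∀ n, eLpNorm (φ n - Ψ') 2 volume = eLpNorm (φ n - Ψ) 2 volume := fun n =>
    eLpNorm_congr_ae ((EventuallyEq.refl _ (φ n)).sub he.symm)
  simpa only [h3] using h1

/-- The kernel of the charges `Q^{g,m}` as a complex subspace of `L²`. -/
def zker (b : ColorBasis N) (M : FermionRep N F) (R : GaugeAction b M) (G : GammaNine)
    (g m : ℝ) : Submodule ℂ (Lp F 2 (volume : Measure (Cfg N))) where
  carrier := {ψ | (ψ : Cfg N → F) ∈ zset b M R G g m}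
  add_mem' {ψ ψ'} h1 h2 := zset_congr (zset_add h1 h2) (Lp.coeFn_add ψ ψ').symm
  zero_mem' := zset_congr zset_zero (Lp.coeFn_zero F 2 volume).symm
  smul_mem' c ψ h := zset_congr (zset_smul c h) (Lp.coeFn_smul c ψ).symm

theorem mem_zker {R : GaugeAction b M} {G : GammaNine} {g m : ℝ}
    {ψ : Lp F 2 (volume : Measure (Cfg N))} :
    ψ ∈ zker b M R G g m ↔ (ψ : Cfg N → F) ∈ zset b M R G g m := Iff.rfl

theorem toLp_mem_zker {R : GaugeAction b M} {G : GammaNine} {g m : ℝ} {Ψ : Cfg N → F}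
    (h : Ψ ∈ zset b M R G g m) : h.1.toLp Ψ ∈ zker b M R G g m :=
  zset_congr h (MemLp.coeFn_toLp h.1).symm

/-- The kernel has finite dimension `d`. -/
def HasDim (b : ColorBasis N) (M : FermionRep N F) (R : GaugeAction b M) (G : GammaNine)
    (g m : ℝ) (d : ℕ) : Prop := Module.rank ℂ (zker b M R G g m) = d

/-- **The conclusion of S0512** from `dim ker = 1`. -/
theorem line_of_hasDim {R : GaugeAction b M} {G : GammaNine} (h : HasDim b M R G 1 0 1) :
    ∃ Ψ₀ ∈ zeroEnergyStates b M R G, ¬ (Ψ₀ =ᵐ[volume] 0) ∧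
      ∀ Ψ ∈ zeroEnergyStates b M R G, ∃ c : ℂ, Ψ =ᵐ[volume] c • Ψ₀ := by
  unfold HasDim at h
  rw [Nat.cast_one, rank_eq_one_iff] at h
  obtain ⟨⟨v, hv⟩, hv0, hall⟩ := h
  rw [← zset_one_zero]
  refine ⟨(v : Cfg N → F), hv, fun h0 => hv0 ?_, fun Ψ hΨ => ?_⟩
  · apply Subtype.ext
    exact (Lp.eq_zero_iff_ae_eq_zero).2 h0
  · obtain ⟨c, hc⟩ := hall ⟨_, toLp_mem_zker hΨ⟩
    refine ⟨c, ?_⟩
    have h1 : (hΨ.1.toLp Ψ : Lp F 2 (volume : Measure (Cfg N))) = c • v := by
      have := congrArg Subtype.val hc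
      simpa using this.symm
    have h2 := MemLp.coeFn_toLp hΨ.1
    rw [h1] at h2
    exact h2.symm.trans (Lp.coeFn_smul c v)

end ker

end Crest.Agent.R330.Defs478

end
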