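import Mathlib

/-!
# Neutrality of Clifford vacua (row 330, section 5.3), helper45

Abstract part. `κ` finite index set, `θ : κ → End F` with `θ_j θ_k + θ_k θ_j = δ_jk`, `J`, `K` real
matrices on `κ`.

* `vacuum_exists` : a finite family of mutually anticommuting operators on a nonzero space has a common
  nonzero kernel vector.
* `spinB θ K = (1/2) Σ K_jk θ_j θ_k`.
* `spinB_vac` : if `J` is antisymmetric, `K` antisymmetric, `K J = J K` and
  `θ_k Ω = -i Σ_l J_lk θ_l Ω` (vacuum of `J`), then `spinB θ K Ω = (i/4) tr (K J) Ω`.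
* `trace_flip` : `tr (K J) = 0` if some invertible `S` commutes with `K` and anticommutes with `J`.
-/

set_option autoImplicit false

open scoped BigOperators ComplexOrder

noncomputable section

namespace Crest.Agent.R330.Neut45

section anticomm

variable {V : Type*} [AddCommGroup V] [Module ℂ V] {κ : Type*}

/-- A finite family of mutually anticommuting operators has a common kernel vector. -/
theorem vacuum_exists [Nontrivial V] (s : Finset κ) (a : κ → V →ₗ[ℂ] V)
    (h : ∀ j k, a j ∘ₗ a k + a k ∘ₗ a j = 0) : ∃ v : V, v ≠ 0 ∧ ∀ k ∈ s, a k v = 0 := by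
  classical
  induction s using Finset.induction_on with
  | empty =>
    obtain ⟨v, hv⟩ := exists_ne (0 : V)
    exact ⟨v, hv, fun k hk => absurd hk (Finset.notMem_empty k)⟩
  | insert k s hk ih =>
    obtain ⟨v, hv, hs⟩ := ih
    by_cases h0 : a k v = 0
    · refine ⟨v, hv, fun j hj => ?_⟩
      rcases Finset.mem_insert.1 hj with rfl | hj
      · exact h0
      · exact hs j hj
    · refine ⟨a k v, h0, fun j hj => ?_⟩
      have h1 := LinearMap.congr_fun (h j k) v
      simp only [LinearMap.add_apply, LinearMap.comp_apply, LinearMap.zero_apply] at h1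
      rcases Finset.mem_insert.1 hj with rfl | hj
      · have h2 : (2 : ℂ) • a j (a j v) = 0 := by rw [two_smul]; exact h1
        exact (smul_eq_zero.1 h2).resolve_left two_ne_zero
      · rw [hs j hj, map_zero, add_zero] at h1
        exact h1

end anticomm

section cliff

variable {F : Type*} [AddCommGroup F] [Module ℂ F] {κ : Type*} [Fintype κ] [DecidableEq κ]

/-- Clifford relations `θ_j θ_k + θ_k θ_j = δ_jk`. -/
def Cliff (θ : κ → F →ₗ[ℂ] F) : Prop :=
  ∀ j k, θ j ∘ₗ θ k + θ k ∘ₗ θ j = if j = k then (LinearMap.id : F →ₗ[ℂ] F) else 0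

/-- The bilinear `(1/2) Σ K_jk θ_j θ_k`. -/
def spinB (θ : κ → F →ₗ[ℂ] F) (K : Matrix κ κ ℝ) : F →ₗ[ℂ] F :=
  (1 / 2 : ℂ) • ∑ j, ∑ k, ((K j k : ℝ) : ℂ) • (θ j ∘ₗ θ k)

/-- `Ω` is a vacuum of the complex structure `J` : `θ_k Ω = -i Σ_l J_lk θ_l Ω`. -/
def IsVac (θ : κ → F →ₗ[ℂ] F) (J : Matrix κ κ ℝ) (Ω : F) : Prop :=
  ∀ k, θ k Ω = -Complex.I • ∑ l, ((J l k : ℝ) : ℂ) • θ l Ω

variable {θ : κ → F →ₗ[ℂ] F}

/-- A bilinear with a symmetric matrix is a scalar. -/
theorem sum_symm (hθ : Cliff θ) {A : Matrix κ κ ℝ} (hA : A.transpose = A) (v : F) :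
    ∑ j, ∑ k, ((A j k : ℝ) : ℂ) • θ j (θ k v) = ((A.trace / 2 : ℝ) : ℂ) • v := by
  have h1 : ∑ j, ∑ k, ((A j k : ℝ) : ℂ) • θ j (θ k v) =
      ∑ j, ∑ k, ((A j k : ℝ) : ℂ) • θ k (θ j v) := by
    rw [Finset.sum_comm]
    refine Finset.sum_congr rfl fun k _ => Finset.sum_congr rfl fun j _ => ?_
    have h2 : A j k = A k j := by
      have := congrFun (congrFun hA k) j
      rwa [Matrix.transpose_apply] at this
    rw [h2]
  have h3 : ∑ j, ∑ k, ((A j k : ℝ) : ℂ) • θ j (θ k v) +
      ∑ j, ∑ k, ((A j k : ℝ) : ℂ) • θ k (θ j v) = ((A.trace : ℝ) : ℂ) • v := by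
    rw [← Finset.sum_add_distrib]
    simp only [← Finset.sum_add_distrib, ← smul_add]
    have h4 : ∀ j k, θ j (θ k v) + θ k (θ j v) = if j = k then v else 0 := by
      intro j k
      have := LinearMap.congr_fun (hθ j k) v
      simp only [LinearMap.add_apply, LinearMap.comp_apply] at this
      rw [this]
      split_ifs <;> rfl
    simp only [h4, smul_ite, smul_zero]
    simp only [Finset.sum_ite_eq, Finset.mem_univ, if_true]
    rw [← Finset.sum_smul, Matrix.trace, Complex.ofReal_sum]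
    rfl
  rw [← h1] at h3
  have h5 : (2 : ℂ) • ∑ j, ∑ k, ((A j k : ℝ) : ℂ) • θ j (θ k v) = ((A.trace : ℝ) : ℂ) • v := by
    rw [two_smul]; exact h3
  calc ∑ j, ∑ k, ((A j k : ℝ) : ℂ) • θ j (θ k v)
      = (1 / 2 : ℂ) • ((2 : ℂ) • ∑ j, ∑ k, ((A j k : ℝ) : ℂ) • θ j (θ k v)) := by
        rw [smul_smul]; norm_num
    _ = ((A.trace / 2 : ℝ) : ℂ) • v := by
        rw [h5, smul_smul]
        congr 1
        push_cast
        ring

/-- **The action of a bilinear on a vacuum.** -/
theorem spinB_vac (hθ : Cliff θ) {J K : Matrix κ κ ℝ} (hJ : J.transpose = -J)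
    (hK : K.transpose = -K) (hc : K * J = J * K) {Ω : F} (hΩ : IsVac θ J Ω) :
    spinB θ K Ω = (Complex.I * ((((K * J).trace / 4 : ℝ)) : ℂ)) • Ω := by
  have hs : (K * J).transpose = K * J := by
    rw [Matrix.transpose_mul, hJ, hK, hc]
    simp
  have h1 : ∑ j, ∑ k, ((K j k : ℝ) : ℂ) • θ j (θ k Ω) =
      Complex.I • ∑ j, ∑ l, (((K * J) j l : ℝ) : ℂ) • θ j (θ l Ω) := by
    rw [Finset.smul_sum]
    refine Finset.sum_congr rfl fun j _ => ?_
    have h2 : ∀ k, ((K j k : ℝ) : ℂ) • θ j (θ k Ω) =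
        Complex.I • ∑ l, ((K j k * J k l : ℝ) : ℂ) • θ j (θ l Ω) := by
      intro k
      have h3 := hΩ k
      rw [h3, map_smul, map_sum, Finset.smul_sum, Finset.smul_sum, Finset.smul_sum]
      refine Finset.sum_congr rfl fun l _ => ?_
      have h4 : J l k = - J k l := by
        have := congrFun (congrFun hJ k) l
        rwa [Matrix.transpose_apply, Matrix.neg_apply] at this
      rw [map_smul, h4, smul_smul, smul_smul, smul_smul]
      congr 1
      push_cast
      ring
    simp only [h2]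
    rw [← Finset.smul_sum, Finset.sum_comm]
    congr 1
    refine Finset.sum_congr rfl fun l _ => ?_
    rw [← Finset.sum_smul, Matrix.mul_apply, Complex.ofReal_sum]
  have h5 : spinB θ K Ω = (1 / 2 : ℂ) • ∑ j, ∑ k, ((K j k : ℝ) : ℂ) • θ j (θ k Ω) := by
    unfold spinB
    simp only [LinearMap.smul_apply, LinearMap.sum_apply, LinearMap.comp_apply]
  rw [h5, h1, sum_symm hθ hs, smul_smul, smul_smul]
  congr 1
  push_cast
  ring

omit [DecidableEq κ] in
/-- The trace vanishes if `S` commutes with `K` and flips `J`. -/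
theorem trace_flip [DecidableEq κ] {J K S S' : Matrix κ κ ℝ} (hS : S' * S = 1) (hK : S * K = K * S)
    (hJ : S * J = -(J * S)) : (K * J).trace = 0 := by
  have h1 : (K * J).trace = -(K * J).trace := by
    calc (K * J).trace = (S' * S * (K * J)).trace := by rw [hS, Matrix.one_mul]
      _ = (S' * (S * (K * J))).trace := by rw [Matrix.mul_assoc]
      _ = (S' * -(K * J * S)).trace := by
          rw [← Matrix.mul_assoc S, hK, Matrix.mul_assoc K, hJ]
          simp [Matrix.mul_assoc]
      _ = -(K * J * S * S').trace := by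
          rw [Matrix.mul_neg, Matrix.trace_neg, Matrix.trace_mul_comm]
      _ = -(K * J).trace := by
          have hS' : S * S' = 1 := mul_eq_one_comm.1 hS
          rw [Matrix.mul_assoc, hS', Matrix.mul_one]
  linarith

/-- **A bilinear commuting with `J` kills the vacuum**, if some `S` flips `J` and commutes with it. -/
theorem spinB_vac_zero (hθ : Cliff θ) {J K S S' : Matrix κ κ ℝ} (hJ : J.transpose = -J)
    (hK : K.transpose = -K) (hc : K * J = J * K) (hS : S' * S = 1) (hSK : S * K = K * S)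
    (hSJ : S * J = -(J * S)) {Ω : F} (hΩ : IsVac θ J Ω) : spinB θ K Ω = 0 := by
  rw [spinB_vac hθ hJ hK hc hΩ, trace_flip hS hSK hSJ]
  simp

/-- **Existence of a vacuum** of a complex structure. -/
theorem exists_vac [Nontrivial F] (hθ : Cliff θ) {J : Matrix κ κ ℝ} (hJ : J.transpose = -J)
    (hJJ : J * J = -1) : ∃ Ω : F, Ω ≠ 0 ∧ IsVac θ J Ω := by
  have hJJ' : ∀ j k, ∑ l, J l j * J l k = if j = k then 1 else 0 := by
    intro j k
    have h1 : (J.transpose * J) j k = (1 : Matrix κ κ ℝ) j k := by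
      rw [hJ, Matrix.neg_mul, hJJ, neg_neg]
    rw [Matrix.mul_apply, Matrix.one_apply] at h1
    simpa only [Matrix.transpose_apply] using h1
  set a : κ → F →ₗ[ℂ] F := fun k => θ k + Complex.I • ∑ l, ((J l k : ℝ) : ℂ) • θ l with ha
  have hanti : ∀ j k, a j ∘ₗ a k + a k ∘ₗ a j = 0 := by
    intro j k
    refine LinearMap.ext fun v => ?_
    have hc : ∀ p q, θ p (θ q v) + θ q (θ p v) = if p = q then v else 0 := by
      intro p q
      have := LinearMap.congr_fun (hθ p q) v
      simp only [LinearMap.add_apply, LinearMap.comp_apply] at this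
      rw [this]
      split_ifs <;> rfl
    have e1 : ∀ p q, a p (a q v) = θ p (θ q v) + Complex.I • ∑ l, ((J l q : ℝ) : ℂ) • θ p (θ l v) +
        Complex.I • ∑ l, ((J l p : ℝ) : ℂ) • θ l (θ q v) -
        ∑ l, ∑ l', ((J l p * J l' q : ℝ) : ℂ) • θ l (θ l' v) := by
      intro p q
      have ea : ∀ r w, a r w = θ r w + Complex.I • ∑ l, ((J l r : ℝ) : ℂ) • θ l w := by
        intro r w
        simp only [ha, LinearMap.add_apply, LinearMap.smul_apply, LinearMap.sum_apply]
      rw [ea p, ea q]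
      have e2 : ∀ r, θ r (θ q v + Complex.I • ∑ l, ((J l q : ℝ) : ℂ) • θ l v) =
          θ r (θ q v) + Complex.I • ∑ l, ((J l q : ℝ) : ℂ) • θ r (θ l v) := by
        intro r
        simp only [map_add, map_smul, map_sum]
      have e3 : ∑ l, ((J l p : ℝ) : ℂ) • θ l (θ q v + Complex.I • ∑ l', ((J l' q : ℝ) : ℂ) • θ l' v) =
          ∑ l, ((J l p : ℝ) : ℂ) • θ l (θ q v) +
          Complex.I • ∑ l, ∑ l', ((J l p * J l' q : ℝ) : ℂ) • θ l (θ l' v) := by
        simp only [e2, smul_add, Finset.sum_add_distrib]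
        congr 1
        rw [Finset.smul_sum]
        refine Finset.sum_congr rfl fun l _ => ?_
        rw [smul_comm, Finset.smul_sum]
        congr 1
        refine Finset.sum_congr rfl fun l' _ => ?_
        rw [smul_smul]
        push_cast
        rfl
      rw [e2, e3, smul_add, smul_smul, Complex.I_mul_I, neg_one_smul]
      abel
    have hskew : J k j = - J j k := by
      have := congrFun (congrFun hJ j) k
      rwa [Matrix.transpose_apply, Matrix.neg_apply] at this
    simp only [LinearMap.add_apply, LinearMap.comp_apply, LinearMap.zero_apply]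
    rw [e1 j k, e1 k j]
    have s1 : ∑ l, ((J l k : ℝ) : ℂ) • θ j (θ l v) + ∑ l, ((J l k : ℝ) : ℂ) • θ l (θ j v) =
        ((J j k : ℝ) : ℂ) • v := by
      rw [← Finset.sum_add_distrib]
      simp only [← smul_add, hc, smul_ite, smul_zero, Finset.sum_ite_eq, Finset.mem_univ, if_true]
    have s2 : ∑ l, ((J l j : ℝ) : ℂ) • θ l (θ k v) + ∑ l, ((J l j : ℝ) : ℂ) • θ k (θ l v) =
        ((J k j : ℝ) : ℂ) • v := by
      rw [← Finset.sum_add_distrib]
      have : ∀ l, ((J l j : ℝ) : ℂ) • θ l (θ k v) + ((J l j : ℝ) : ℂ) • θ k (θ l v) =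
          if l = k then ((J l j : ℝ) : ℂ) • v else 0 := by
        intro l
        rw [← smul_add, hc, smul_ite, smul_zero]
      simp only [this, Finset.sum_ite_eq', Finset.mem_univ, if_true]
    have s3 : ∑ l, ∑ l', ((J l j * J l' k : ℝ) : ℂ) • θ l (θ l' v) +
        ∑ l, ∑ l', ((J l k * J l' j : ℝ) : ℂ) • θ l (θ l' v) = (if j = k then (1 : ℂ) else 0) • v := by
      have : ∑ l, ∑ l', ((J l k * J l' j : ℝ) : ℂ) • θ l (θ l' v) =
          ∑ l, ∑ l', ((J l j * J l' k : ℝ) : ℂ) • θ l' (θ l v) := by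
        rw [Finset.sum_comm]
        refine Finset.sum_congr rfl fun l _ => Finset.sum_congr rfl fun l' _ => ?_
        rw [mul_comm]
      rw [this, ← Finset.sum_add_distrib]
      simp only [← Finset.sum_add_distrib, ← smul_add, hc, smul_ite, smul_zero, Finset.sum_ite_eq,
        Finset.mem_univ, if_true]
      rw [← Finset.sum_smul, ← Complex.ofReal_sum, hJJ']
      split_ifs <;> simp
    have t1 : θ j (θ k v) + θ k (θ j v) = (if j = k then (1 : ℂ) else 0) • v := by
      rw [hc]
      split_ifs <;> simp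
    have key : θ j (θ k v) + Complex.I • ∑ l, ((J l k : ℝ) : ℂ) • θ j (θ l v) +
        Complex.I • ∑ l, ((J l j : ℝ) : ℂ) • θ l (θ k v) -
        ∑ l, ∑ l', ((J l j * J l' k : ℝ) : ℂ) • θ l (θ l' v) +
        (θ k (θ j v) + Complex.I • ∑ l, ((J l j : ℝ) : ℂ) • θ k (θ l v) +
        Complex.I • ∑ l, ((J l k : ℝ) : ℂ) • θ l (θ j v) -
        ∑ l, ∑ l', ((J l k * J l' j : ℝ) : ℂ) • θ l (θ l' v)) =
        (θ j (θ k v) + θ k (θ j v)) + Complex.I •
          (∑ l, ((J l k : ℝ) : ℂ) • θ j (θ l v) + ∑ l, ((J l k : ℝ) : ℂ) • θ l (θ j v)) +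
        Complex.I •
          (∑ l, ((J l j : ℝ) : ℂ) • θ l (θ k v) + ∑ l, ((J l j : ℝ) : ℂ) • θ k (θ l v)) -
        (∑ l, ∑ l', ((J l j * J l' k : ℝ) : ℂ) • θ l (θ l' v) +
          ∑ l, ∑ l', ((J l k * J l' j : ℝ) : ℂ) • θ l (θ l' v)) := by
      simp only [smul_add]
      abel
    rw [key, t1, s1, s2, s3, hskew]
    simp only [Complex.ofReal_neg, neg_smul, smul_neg]
    abel
  obtain ⟨Ω, h0, h1⟩ := vacuum_exists Finset.univ a hanti
  refine ⟨Ω, h0, fun k => ?_⟩
  have h2 := h1 k (Finset.mem_univ k)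
  simp only [ha, LinearMap.add_apply, LinearMap.smul_apply, LinearMap.sum_apply] at h2
  rw [neg_smul]
  exact eq_neg_of_add_eq_zero_left h2

end cliff

end Crest.Agent.R330.Neut45

end
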