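import Crest.Agent.R330.Vac_973
import Crest.Agent.R330.Neut_45

/-!
# Gauge-invariant complex structures have gauge-fixed vacua (row 330, S5.3 / S8 / S11), helper331

`J` any real matrix on the pair index `Fin 16 × Fin (N^2-1)`.

* `vac_line` : two vacua of `J` are proportional (irreducible module, no condition on `J`).
* `rho_vac` : if `J` commutes with `1 ⊗ R(g)` for every `g`, then `ρ g` maps vacua of `J` to vacua.
* `rho_vac_char` : `ρ g Ω = χ g • Ω` with a monoid hom `χ : SU(N) →* ℂ`.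
* `rho_fix_of_char` : if every monoid hom `SU(N) →* ℂ` is trivial then `ρ g Ω = Ω`.
* `tens K` = `K ⊗ 1` commutes with `1 ⊗ R(g)`.
-/

set_option autoImplicit false
set_option linter.unusedSectionVars false

noncomputable section

open scoped InnerProductSpace BigOperators

namespace Crest.Agent.R330.Om0331

open Crest.MathPhysics.MatrixQM Crest.Agent.R330

variable {N : ℕ} {F : Type*} [NormedAddCommGroup F] [InnerProductSpace ℂ F]

/-- The pair index. -/
abbrev Idx (N : ℕ) := Fin 16 × Fin (N ^ 2 - 1)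

/-- The generators on the pair index. -/
abbrev tht (M : FermionRep N F) (p : Idx N) : F →ₗ[ℂ] F := M.θ p.1 p.2

variable (M : FermionRep N F)

theorem cliff_tht : Neut45.Cliff (tht M) := by
  intro p q
  rw [tht, tht, M.anticomm]
  by_cases h : p = q
  · subst h
    simp
  · rw [if_neg h, if_neg]
    rintro ⟨h1, h2⟩
    exact h (Prod.ext h1 h2)

theorem tht_anti (p q : Idx N) (v : F) :
    tht M p (tht M q v) + tht M q (tht M p v) = if p = q then v else 0 := by
  have := LinearMap.congr_fun (cliff_tht M p q) v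
  simp only [LinearMap.add_apply, LinearMap.comp_apply] at this
  rw [this]
  split_ifs <;> rfl

/-- A complex combination of the generators. -/
def lin (x : Idx N → ℂ) : F →ₗ[ℂ] F := ∑ p, x p • tht M p

theorem lin_apply (x : Idx N → ℂ) (v : F) : lin M x v = ∑ p, x p • tht M p v := by
  simp only [lin, LinearMap.sum_apply, LinearMap.smul_apply]

theorem lin_anti (x y : Idx N → ℂ) (v : F) :
    lin M x (lin M y v) + lin M y (lin M x v) = (∑ p, x p * y p) • v := by
  have h1 : lin M x (lin M y v) = ∑ p, ∑ q, (x p * y q) • tht M p (tht M q v) := by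
    rw [lin_apply]
    refine Finset.sum_congr rfl fun p _ => ?_
    rw [lin_apply, map_sum, Finset.smul_sum]
    refine Finset.sum_congr rfl fun q _ => ?_
    rw [map_smul, smul_smul]
  have h2 : lin M y (lin M x v) = ∑ p, ∑ q, (x p * y q) • tht M q (tht M p v) := by
    rw [lin_apply, Finset.sum_comm]
    refine Finset.sum_congr rfl fun q _ => ?_
    rw [lin_apply, map_sum, Finset.smul_sum]
    refine Finset.sum_congr rfl fun p _ => ?_
    rw [map_smul, smul_smul, mul_comm]
  rw [h1, h2, ← Finset.sum_add_distrib, Finset.sum_smul]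
  refine Finset.sum_congr rfl fun p _ => ?_
  rw [← Finset.sum_add_distrib]
  simp only [← smul_add, tht_anti]
  simp only [smul_ite, smul_zero, Finset.sum_ite_eq, Finset.mem_univ, if_true]

theorem lin_inner (x : Idx N → ℂ) (u v : F) :
    ⟪u, lin M (fun p => (starRingEnd ℂ) (x p)) v⟫_ℂ = ⟪lin M x u, v⟫_ℂ := by
  rw [lin_apply, lin_apply, inner_sum, sum_inner]
  refine Finset.sum_congr rfl fun p _ => ?_
  rw [inner_smul_right, inner_smul_left]
  congr 1
  exact (M.selfAdjoint p.1 p.2 u v).symm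

/-- Coefficients of the annihilator `θ_k + i θ(J e_k)`. -/
def cJ (J : Matrix (Idx N) (Idx N) ℝ) (k p : Idx N) : ℂ :=
  (if p = k then 1 else 0) + Complex.I * ((J p k : ℝ) : ℂ)

/-- The annihilator `θ_k + i θ(J e_k)`. -/
def annJ (J : Matrix (Idx N) (Idx N) ℝ) (k : Idx N) : F →ₗ[ℂ] F := lin M (cJ J k)

/-- The creator `θ_k - i θ(J e_k)`. -/
def creJ (J : Matrix (Idx N) (Idx N) ℝ) (k : Idx N) : F →ₗ[ℂ] F :=
  lin M (fun p => (starRingEnd ℂ) (cJ J k p))

theorem annJ_apply (J : Matrix (Idx N) (Idx N) ℝ) (k : Idx N) (v : F) :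
    annJ M J k v = tht M k v + Complex.I • ∑ l, ((J l k : ℝ) : ℂ) • tht M l v := by
  rw [annJ, lin_apply]
  simp only [cJ, add_smul, Finset.sum_add_distrib, ite_smul, one_smul, zero_smul,
    Finset.sum_ite_eq', Finset.mem_univ, if_true, mul_smul]
  rw [← Finset.smul_sum]

theorem creJ_apply (J : Matrix (Idx N) (Idx N) ℝ) (k : Idx N) (v : F) :
    creJ M J k v = tht M k v - Complex.I • ∑ l, ((J l k : ℝ) : ℂ) • tht M l v := by
  rw [creJ, lin_apply]
  have h : ∀ p, (starRingEnd ℂ) (cJ J k p) = (if p = k then 1 else 0) -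
      Complex.I * ((J p k : ℝ) : ℂ) := by
    intro p
    rw [cJ, map_add, map_mul, Complex.conj_I, Complex.conj_ofReal]
    split_ifs <;> simp [sub_eq_add_neg]
  simp only [h, sub_smul, Finset.sum_sub_distrib, ite_smul, one_smul, zero_smul,
    Finset.sum_ite_eq', Finset.mem_univ, if_true, mul_smul]
  rw [← Finset.smul_sum]

theorem isVac_iff (J : Matrix (Idx N) (Idx N) ℝ) (Ω : F) :
    Neut45.IsVac (tht M) J Ω ↔ ∀ k, annJ M J k Ω = 0 := by
  constructor
  · intro h k
    have hk := h k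
    have e := annJ_apply M J k Ω
    rw [e, hk, neg_smul]
    simp
  · intro h k
    have hk := h k
    rw [annJ_apply] at hk
    rw [neg_smul]
    exact eq_neg_of_add_eq_zero_left hk

/-- **The vacuum of any `J` is at most a line.** -/
theorem vac_line {J : Matrix (Idx N) (Idx N) ℝ} {Ω Ω' : F} (h0 : Ω ≠ 0)
    (h : Neut45.IsVac (tht M) J Ω) (h' : Neut45.IsVac (tht M) J Ω') : ∃ c : ℂ, Ω' = c • Ω := by
  rw [isVac_iff] at h h'
  have hcd : ∀ j k (v : F), ∃ a : ℂ, annJ M J j (creJ M J k v) = a • v - creJ M J k (annJ M J j v) := by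
    intro j k v
    exact ⟨_, eq_sub_of_add_eq (lin_anti M _ _ v)⟩
  have hgen : Vac973.gen (creJ M J) Ω = ⊤ := by
    have hinv : ∀ α A, ∀ v ∈ Vac973.gen (creJ M J) Ω, M.θ α A v ∈ Vac973.gen (creJ M J) Ω := by
      intro α A v hv
      have e : M.θ α A v = (1 / 2 : ℂ) • (annJ M J (α, A) v + creJ M J (α, A) v) := by
        rw [annJ_apply, creJ_apply]
        have : tht M (α, A) v + Complex.I • ∑ l, ((J l (α, A) : ℝ) : ℂ) • tht M l v +
            (tht M (α, A) v - Complex.I • ∑ l, ((J l (α, A) : ℝ) : ℂ) • tht M l v) =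
            (2 : ℂ) • tht M (α, A) v := by
          rw [two_smul]; abel
        rw [this, smul_smul]
        norm_num
      rw [e]
      exact Submodule.smul_mem _ _ (Submodule.add_mem _
        (Vac973.gen_c h hcd (α, A) hv) (Vac973.gen_d (α, A) hv))
    rcases M.irreducible _ hinv with h1 | h1
    · exfalso
      have : Ω ∈ (⊥ : Submodule ℂ F) := h1 ▸ Vac973.base_mem
      exact h0 ((Submodule.mem_bot ℂ).1 this)
    · exact h1
  refine Vac973.vac_unique (V := F) (d := creJ M J) (c := annJ M J)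
    (fun u => (innerSL ℂ u : F →L[ℂ] ℂ).toLinearMap) ?_ ?_ ?_ h (by rw [hgen]; trivial) h'
  · intro u hu
    exact inner_self_eq_zero.1 hu
  · intro v
    simp
  · intro j u v
    exact lin_inner M (cJ J j) u v

/-! ### The gauge action -/

section gauge

variable [FiniteDimensional ℂ F] {b : ColorBasis N} {M} (R : GaugeAction b M)

/-- `1 ⊗ R(g)` on the pair index. -/
def adI (b : ColorBasis N) (g : Matrix.specialUnitaryGroup (Fin N) ℂ) : Matrix (Idx N) (Idx N) ℝ :=
  fun p q => if p.1 = q.1 then b.adjMat g p.2 q.2 else 0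

theorem rho_tht (g : Matrix.specialUnitaryGroup (Fin N) ℂ) (q : Idx N) (v : F) :
    R.ρ g (tht M q v) = ∑ p, ((adI b g p q : ℝ) : ℂ) • tht M p (R.ρ g v) := by
  have h := LinearMap.congr_fun (R.intertwine g q.1 q.2) v
  simp only [LinearMap.comp_apply, LinearMap.sum_apply, LinearMap.smul_apply] at h
  rw [tht, h, Fintype.sum_prod_type]
  rw [Finset.sum_eq_single q.1]
  · refine Finset.sum_congr rfl fun B _ => ?_
    simp only [adI, if_true]
  · intro α _ hα
    refine Finset.sum_eq_zero fun B _ => ?_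
    simp only [adI, if_neg hα, Complex.ofReal_zero, zero_smul]
  · intro h
    exact absurd (Finset.mem_univ _) h

theorem rho_annJ {J : Matrix (Idx N) (Idx N) ℝ} (g : Matrix.specialUnitaryGroup (Fin N) ℂ)
    (hJ : J * adI b g = adI b g * J) (k : Idx N) (v : F) :
    R.ρ g (annJ M J k v) = ∑ l, ((adI b g l k : ℝ) : ℂ) • annJ M J l (R.ρ g v) := by
  have hJ' : ∀ p q, ∑ l, J p l * adI b g l q = ∑ l, adI b g p l * J l q := by
    intro p q
    have := congrFun (congrFun hJ p) q
    rwa [Matrix.mul_apply, Matrix.mul_apply] at this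
  rw [annJ_apply, map_add, map_smul, map_sum, rho_tht]
  have h1 : ∑ l, R.ρ g (((J l k : ℝ) : ℂ) • tht M l v) =
      ∑ p, ((∑ l, adI b g p l * J l k : ℝ) : ℂ) • tht M p (R.ρ g v) := by
    simp only [map_smul, rho_tht, Finset.smul_sum, smul_smul]
    rw [Finset.sum_comm]
    refine Finset.sum_congr rfl fun p _ => ?_
    rw [← Finset.sum_smul]
    congr 1
    push_cast
    exact Finset.sum_congr rfl fun l _ => mul_comm _ _
  have h2 : ∑ l, ((adI b g l k : ℝ) : ℂ) • annJ M J l (R.ρ g v) =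
      ∑ l, ((adI b g l k : ℝ) : ℂ) • tht M l (R.ρ g v) +
      Complex.I • ∑ p, ((∑ l, J p l * adI b g l k : ℝ) : ℂ) • tht M p (R.ρ g v) := by
    simp only [annJ_apply, smul_add, Finset.sum_add_distrib]
    congr 1
    rw [Finset.smul_sum]
    have e : ∀ l, ((adI b g l k : ℝ) : ℂ) • Complex.I • ∑ p, ((J p l : ℝ) : ℂ) • tht M p (R.ρ g v) =
        ∑ p, (Complex.I * ((J p l * adI b g l k : ℝ) : ℂ)) • tht M p (R.ρ g v) := by
      intro l
      rw [smul_smul, Finset.smul_sum]
      refine Finset.sum_congr rfl fun p _ => ?_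
      rw [smul_smul]
      congr 1
      push_cast
      ring
    simp only [e]
    rw [Finset.sum_comm]
    refine Finset.sum_congr rfl fun p _ => ?_
    rw [← Finset.sum_smul, smul_smul]
    congr 1
    push_cast
    rw [Finset.mul_sum]
  rw [h1, h2]
  simp only [hJ']

/-- **`ρ g` maps vacua of a gauge-invariant `J` to vacua.** -/
theorem rho_vac {J : Matrix (Idx N) (Idx N) ℝ} (hJ : ∀ g, J * adI b g = adI b g * J)
    (g : Matrix.specialUnitaryGroup (Fin N) ℂ) {Ω : F} (h : Neut45.IsVac (tht M) J Ω) :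
    Neut45.IsVac (tht M) J (R.ρ g Ω) := by
  rw [isVac_iff] at h ⊢
  intro k
  have e1 : ∀ w : F, R.ρ g (R.ρ g⁻¹ w) = w := by
    intro w
    have : (R.ρ g * R.ρ g⁻¹) w = w := by rw [← map_mul, mul_inv_cancel, map_one]; rfl
    exact this
  have e2 : ∀ w : F, R.ρ g⁻¹ (R.ρ g w) = w := by
    intro w
    have : (R.ρ g⁻¹ * R.ρ g) w = w := by rw [← map_mul, inv_mul_cancel, map_one]; rfl
    exact this
  rw [← e1 (annJ M J k (R.ρ g Ω)), rho_annJ R g⁻¹ (hJ g⁻¹), e2]
  simp only [h, smul_zero, Finset.sum_const_zero, map_zero]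

/-- The character of the vacuum line. -/
theorem rho_vac_char {J : Matrix (Idx N) (Idx N) ℝ} (hJ : ∀ g, J * adI b g = adI b g * J)
    {Ω : F} (h0 : Ω ≠ 0) (h : Neut45.IsVac (tht M) J Ω) :
    ∃ χ : Matrix.specialUnitaryGroup (Fin N) ℂ →* ℂ, ∀ g, R.ρ g Ω = χ g • Ω := by
  have hc : ∀ g, ∃ c : ℂ, R.ρ g Ω = c • Ω := fun g => vac_line M h0 h (rho_vac R hJ g h)
  choose c hc using hc
  refine ⟨⟨⟨c, ?_⟩, ?_⟩, fun g => hc g⟩
  · have : c 1 • Ω = (1 : ℂ) • Ω := by rw [← hc, map_one, one_smul]; rfl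
    exact smul_left_injective ℂ h0 this
  · intro g g'
    have : c (g * g') • Ω = (c g * c g') • Ω := by
      rw [← hc, map_mul]
      change R.ρ g (R.ρ g' Ω) = _
      rw [hc, map_smul, hc, smul_smul, mul_comm]
    exact smul_left_injective ℂ h0 this

/-- **Every vacuum of a gauge-invariant `J` is fixed by the gauge group.** -/
theorem rho_fix_of_char (hchar : ∀ (χ : Matrix.specialUnitaryGroup (Fin N) ℂ →* ℂ) g, χ g = 1)
    {J : Matrix (Idx N) (Idx N) ℝ} (hJ : ∀ g, J * adI b g = adI b g * J)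
    {Ω : F} (h : Neut45.IsVac (tht M) J Ω) (g : Matrix.specialUnitaryGroup (Fin N) ℂ) :
    R.ρ g Ω = Ω := by
  by_cases h0 : Ω = 0
  · rw [h0, map_zero]
  obtain ⟨χ, hχ⟩ := rho_vac_char R hJ h0 h
  rw [hχ, hchar, one_smul]

end gauge

/-- `K ⊗ 1` on the pair index. -/
def tens (N : ℕ) (K : Matrix (Fin 16) (Fin 16) ℝ) : Matrix (Idx N) (Idx N) ℝ :=
  fun p q => if p.2 = q.2 then K p.1 q.1 else 0

theorem tens_comm_adI (b : ColorBasis N) (K : Matrix (Fin 16) (Fin 16) ℝ)
    (g : Matrix.specialUnitaryGroup (Fin N) ℂ) :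
    tens N K * adI b g = adI b g * tens N K := by
  ext p q
  rw [Matrix.mul_apply, Matrix.mul_apply, Fintype.sum_prod_type, Fintype.sum_prod_type]
  simp only [tens, adI]
  have h1 : ∀ x : Fin 16, ∑ y : Fin (N ^ 2 - 1),
      ((if p.2 = y then K p.1 x else 0) * if x = q.1 then b.adjMat g y q.2 else 0) =
      if x = q.1 then K p.1 x * b.adjMat g p.2 q.2 else 0 := by
    intro x
    rw [Finset.sum_eq_single p.2]
    · simp
    · intro y _ hy; rw [if_neg (Ne.symm hy), zero_mul]
    · intro h; exact absurd (Finset.mem_univ _) h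
  have h2 : ∀ x : Fin 16, ∑ y : Fin (N ^ 2 - 1),
      ((if p.1 = x then b.adjMat g p.2 y else 0) * if y = q.2 then K x q.1 else 0) =
      if p.1 = x then b.adjMat g p.2 q.2 * K x q.1 else 0 := by
    intro x
    rw [Finset.sum_eq_single q.2]
    · simp
    · intro y _ hy; rw [if_neg hy, mul_zero]
    · intro h; exact absurd (Finset.mem_univ _) h
  simp only [h1, h2, Finset.sum_ite_eq, Finset.sum_ite_eq', Finset.mem_univ, if_true]
  ring

theorem tens_mul (K L : Matrix (Fin 16) (Fin 16) ℝ) : tens N K * tens N L = tens N (K * L) := by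
  ext p q
  rw [Matrix.mul_apply, Fintype.sum_prod_type]
  simp only [tens]
  have h1 : ∀ x : Fin 16, ∑ y : Fin (N ^ 2 - 1),
      ((if p.2 = y then K p.1 x else 0) * if y = q.2 then L x q.1 else 0) =
      if p.2 = q.2 then K p.1 x * L x q.1 else 0 := by
    intro x
    rw [Finset.sum_eq_single p.2]
    · simp
    · intro y _ hy; rw [if_neg (Ne.symm hy), zero_mul]
    · intro h; exact absurd (Finset.mem_univ _) h
  simp only [h1, Matrix.mul_apply]
  split_ifs <;> simp

theorem tens_one : tens N (1 : Matrix (Fin 16) (Fin 16) ℝ) = 1 := by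
  ext p q
  simp only [tens, Matrix.one_apply, Prod.ext_iff]
  split_ifs <;> simp_all

theorem tens_neg (K : Matrix (Fin 16) (Fin 16) ℝ) : tens N (-K) = - tens N K := by
  ext p q
  simp only [tens, Matrix.neg_apply]
  split_ifs <;> simp

theorem tens_transpose (K : Matrix (Fin 16) (Fin 16) ℝ) :
    (tens N K).transpose = tens N K.transpose := by
  ext p q
  simp only [tens, Matrix.transpose_apply, eq_comm]

end Crest.Agent.R330.Om0331

end
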