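import Crest.Agent.R330.Ovl_693
import Crest.Agent.R330.Om0_331
import Crest.Agent.R330.Defs_478
import Crest.Agent.R330.Gam_962

/-!
# Row 330 (helper693): neutrality and parity of Clifford vacua, literal form

`G3 G = γ^4 γ^5 γ^6` (indices 3, 4, 5) : antisymmetric, square `-1`, anticommutes with `Gam G` and with
`γ^1, γ^2, γ^3`.

* `rho_vac1` : `J` commutes with `1 ⊗ R(h^{-1})` ⟹ `ρ h` maps vacua of `J` to vacua.
* `overlap_lit` : `J^2 = -1`, `J` anticommutes with `J'`, `J'^2 = -1` ⟹ vacua of `J`, `J'` have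
  non-zero inner product.
* `neutral_lit` : if moreover `J` commutes with `1 ⊗ R(h^{-1})` and `ρ h` fixes the vacuum of `J'` then
  `ρ h` fixes the vacuum of `J`.
* `neutral_G3` : `J' = (γ^4 γ^5 γ^6) ⊗ 1`.
* `parity_lit` : a unitary `U` with `U θ_k = -θ_k U` has the same eigenvalue on the two vacua.
-/

set_option autoImplicit false
set_option linter.unusedSectionVars false

open scoped InnerProductSpace BigOperators

noncomputable section

namespace Crest.Agent.R330.Ovl693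

open Crest.MathPhysics.MatrixQM Crest.Agent.R330 Crest.Agent.R330.Neut45 Crest.Agent.R330.Om0331

/-! ### `γ^4 γ^5 γ^6` -/

section gam

variable (G : GammaNine)

/-- `γ^4 γ^5 γ^6` -/
def G3 : Matrix (Fin 16) (Fin 16) ℝ := G.γ 3 * G.γ 4 * G.γ 5

/-- a product of three pairwise different gammas, general -/
theorem triple_sq {i j k : Fin 9} (hij : i ≠ j) (hik : i ≠ k) (hjk : j ≠ k) :
    (G.γ i * G.γ j * G.γ k) * (G.γ i * G.γ j * G.γ k) = -1 := by
  have a := Gam962.anti G hij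
  have b := Gam962.anti G hik
  have c := Gam962.anti G hjk
  have si := Gam962.sq_one G i
  have sj := Gam962.sq_one G j
  have sk := Gam962.sq_one G k
  calc (G.γ i * G.γ j * G.γ k) * (G.γ i * G.γ j * G.γ k)
      = G.γ i * G.γ j * (G.γ k * G.γ i) * G.γ j * G.γ k := by simp only [mul_assoc]
    _ = G.γ i * G.γ j * (-(G.γ i * G.γ k)) * G.γ j * G.γ k := by rw [b, neg_neg]
    _ = -(G.γ i * (G.γ j * G.γ i) * (G.γ k * G.γ j) * G.γ k) := by
        simp only [mul_neg, neg_mul, mul_assoc]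
    _ = -(G.γ i * (-(G.γ i * G.γ j)) * (-(G.γ j * G.γ k)) * G.γ k) := by
        rw [a, c, neg_neg, neg_neg]
    _ = -((G.γ i * G.γ i) * (G.γ j * G.γ j) * (G.γ k * G.γ k)) := by
        simp only [mul_neg, neg_mul, neg_neg, mul_assoc]
    _ = -1 := by rw [si, sj, sk, mul_one, mul_one]

theorem triple_anti {i j k l : Fin 9} (hi : i ≠ l) (hj : j ≠ l) (hk : k ≠ l) :
    (G.γ i * G.γ j * G.γ k) * G.γ l = -(G.γ l * (G.γ i * G.γ j * G.γ k)) := by
  have a := Gam962.anti G hi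
  have b := Gam962.anti G hj
  have c := Gam962.anti G hk
  calc (G.γ i * G.γ j * G.γ k) * G.γ l = G.γ i * G.γ j * (G.γ k * G.γ l) := by
        simp only [mul_assoc]
    _ = -(G.γ i * (G.γ j * G.γ l) * G.γ k) := by
        rw [c]; simp only [mul_neg, mul_assoc]
    _ = (G.γ i * G.γ l) * G.γ j * G.γ k := by
        rw [b]; simp only [mul_neg, neg_mul, neg_neg, mul_assoc]
    _ = -(G.γ l * (G.γ i * G.γ j * G.γ k)) := by
        rw [a]; simp only [neg_mul, mul_assoc]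

theorem triple_transpose {i j k : Fin 9} (hij : i ≠ j) (hik : i ≠ k) (hjk : j ≠ k) :
    (G.γ i * G.γ j * G.γ k).transpose = -(G.γ i * G.γ j * G.γ k) := by
  have a := Gam962.anti G hij
  have b := Gam962.anti G hik
  have c := Gam962.anti G hjk
  rw [Matrix.transpose_mul, Matrix.transpose_mul, G.symm, G.symm, G.symm]
  calc G.γ k * (G.γ j * G.γ i) = G.γ k * (-(G.γ i * G.γ j)) := by rw [a, neg_neg]
    _ = -((G.γ k * G.γ i) * G.γ j) := by simp only [mul_neg, mul_assoc]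
    _ = -((-(G.γ i * G.γ k)) * G.γ j) := by rw [b, neg_neg]
    _ = G.γ i * (G.γ k * G.γ j) := by simp only [neg_mul, neg_neg, mul_assoc]
    _ = -(G.γ i * G.γ j * G.γ k) := by rw [mul_assoc, c]; simp only [mul_neg, neg_neg]

theorem G3_sq : G3 G * G3 G = -1 := triple_sq G (by decide) (by decide) (by decide)

theorem G3_transpose : (G3 G).transpose = -G3 G :=
  triple_transpose G (by decide) (by decide) (by decide)

theorem G3_anti {l : Fin 9} (hl : (l : ℕ) < 3) : G3 G * G.γ l = -(G.γ l * G3 G) :=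
  triple_anti G (by rintro rfl; simp at hl) (by rintro rfl; simp at hl)
    (by rintro rfl; simp at hl)

theorem G3_Gam : G3 G * Defs478.Gam G = -(Defs478.Gam G * G3 G) := by
  unfold Defs478.Gam
  have h0 := G3_anti G (l := 0) (by decide)
  have h1 := G3_anti G (l := 1) (by decide)
  have h2 := G3_anti G (l := 2) (by decide)
  calc G3 G * (G.γ 0 * G.γ 1 * G.γ 2) = G3 G * G.γ 0 * G.γ 1 * G.γ 2 := by
        simp only [mul_assoc]
    _ = -(G.γ 0 * (G3 G * G.γ 1) * G.γ 2) := by rw [h0]; simp only [neg_mul, mul_assoc]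
    _ = G.γ 0 * G.γ 1 * (G3 G * G.γ 2) := by
        rw [h1]; simp only [mul_neg, neg_mul, neg_neg, mul_assoc]
    _ = -(G.γ 0 * G.γ 1 * G.γ 2 * G3 G) := by rw [h2]; simp only [mul_neg, mul_assoc]

theorem Gam_sq : Defs478.Gam G * Defs478.Gam G = -1 :=
  triple_sq G (by decide) (by decide) (by decide)

end gam

/-! ### literal forms -/

section lit

variable {N : ℕ} {F : Type*} [NormedAddCommGroup F] [InnerProductSpace ℂ F] {M : FermionRep N F}

theorem tht_symm (M : FermionRep N F) (k : Idx N) : (tht M k).IsSymmetric := M.selfAdjoint k.1 k.2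

theorem tht_irr (M : FermionRep N F) (V : Submodule ℂ F)
    (h : ∀ k, ∀ v ∈ V, tht M k v ∈ V) : V = ⊥ ∨ V = ⊤ :=
  M.irreducible V fun α A v hv => h (α, A) v hv

/-- **Overlap, literal.** -/
theorem overlap_lit {J J' : Matrix (Idx N) (Idx N) ℝ} (hJ : J * J = -1) (hJ' : J' * J' = -1)
    (hJJ : J * J' = -(J' * J)) {Ω Ω' : F} (h : IsVac (tht M) J Ω) (h' : IsVac (tht M) J' Ω')
    (h0 : Ω ≠ 0) (h0' : Ω' ≠ 0) : ⟪Ω', Ω⟫_ℂ ≠ 0 :=
  overlap_ne_zero_of_anti (cliff_tht M) (tht_symm M) (tht_irr M) hJ hJ' hJJ h h' h0 h0'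

/-- a unitary (anti)commuting with the generators maps vacua to vacua -/
theorem vac_flip {U : F →ₗ[ℂ] F} (hU : ∀ k x, U (tht M k x) = -tht M k (U x))
    {J : Matrix (Idx N) (Idx N) ℝ} {Ω : F} (h : IsVac (tht M) J Ω) : IsVac (tht M) J (U Ω) := by
  intro k
  have h1 := congrArg U (h k)
  rw [hU, map_smul, map_sum] at h1
  have h2 : ∀ l, U (((J l k : ℝ) : ℂ) • tht M l Ω) = -(((J l k : ℝ) : ℂ) • tht M l (U Ω)) := by
    intro l
    rw [map_smul, hU, smul_neg]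
  simp only [h2, Finset.sum_neg_distrib, smul_neg] at h1
  exact neg_injective h1

/-- **Parity, literal.** -/
theorem parity_lit {U : F →ₗ[ℂ] F} (hiso : ∀ x y, ⟪U x, U y⟫_ℂ = ⟪x, y⟫_ℂ)
    (hU : ∀ k x, U (tht M k x) = -tht M k (U x)) {J J' : Matrix (Idx N) (Idx N) ℝ}
    (hJ : J * J = -1) (hJ' : J' * J' = -1) (hJJ : J * J' = -(J' * J)) {Ω Ω' : F}
    (h : IsVac (tht M) J Ω) (h' : IsVac (tht M) J' Ω') (h0 : Ω ≠ 0) (h0' : Ω' ≠ 0) :
    ∃ s : ℂ, U Ω' = s • Ω' ∧ U Ω = s • Ω := by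
  obtain ⟨t, ht⟩ := vac_line M h0 h (vac_flip hU h)
  obtain ⟨s, hs⟩ := vac_line M h0' h' (vac_flip hU h')
  have := same_parity hiso (overlap_lit hJ hJ' hJJ h h' h0 h0') hs ht
  exact ⟨s, hs, by rw [ht, this]⟩

variable [FiniteDimensional ℂ F] {b : ColorBasis N} (R : GaugeAction b M)

/-- `ρ h` maps vacua of `J` to vacua if `J` commutes with `1 ⊗ R(h^{-1})`. -/
theorem rho_vac1 {J : Matrix (Idx N) (Idx N) ℝ} (g : Matrix.specialUnitaryGroup (Fin N) ℂ)
    (hJ : J * adI b g⁻¹ = adI b g⁻¹ * J) {Ω : F} (h : IsVac (tht M) J Ω) :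
    IsVac (tht M) J (R.ρ g Ω) := by
  rw [isVac_iff] at h ⊢
  intro k
  have e1 : ∀ w : F, R.ρ g (R.ρ g⁻¹ w) = w := by
    intro w
    have : (R.ρ g * R.ρ g⁻¹) w = w := by rw [← map_mul, mul_inv_cancel, map_one]; rfl
    exact this
  have e2 : ∀ w : F, R.ρ g⁻¹ (R.ρ g w) = w := by
    intro w
    have : (R.ρ g⁻¹ * R.ρ g) w = w := by rw [← map_mul, inv_mul_cancel, map_one]; rfl
    exact this
  rw [← e1 (annJ M J k (R.ρ g Ω)), rho_annJ R g⁻¹ hJ, e2]
  simp only [h, smul_zero, Finset.sum_const_zero, map_zero]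

/-- **Neutrality, literal.** -/
theorem neutral_lit {J J' : Matrix (Idx N) (Idx N) ℝ} (hJ : J * J = -1) (hJ' : J' * J' = -1)
    (hJJ : J * J' = -(J' * J)) {Ω Ω' : F} (h : IsVac (tht M) J Ω) (h' : IsVac (tht M) J' Ω')
    (h0 : Ω ≠ 0) (h0' : Ω' ≠ 0) (g : Matrix.specialUnitaryGroup (Fin N) ℂ)
    (hg : J * adI b g⁻¹ = adI b g⁻¹ * J) (hfix : R.ρ g Ω' = Ω') : R.ρ g Ω = Ω := by
  obtain ⟨lam, hlam⟩ := vac_line M h0 h (rho_vac1 R g hg h)
  have := neutral (U := R.ρ g) (R.unitary g) (overlap_lit hJ hJ' hJJ h h' h0 h0') hfix hlam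
  rw [hlam, this, one_smul]

/-- **Neutrality with `J' = (γ^4 γ^5 γ^6) ⊗ 1`.** -/
theorem neutral_G3 [Nontrivial F]
    (hchar : ∀ (χ : Matrix.specialUnitaryGroup (Fin N) ℂ →* ℂ) g, χ g = 1) (G : GammaNine)
    {J : Matrix (Idx N) (Idx N) ℝ} (hJ : J * J = -1)
    (hJJ : J * tens N (G3 G) = -(tens N (G3 G) * J)) {Ω : F} (h : IsVac (tht M) J Ω)
    (g : Matrix.specialUnitaryGroup (Fin N) ℂ) (hg : J * adI b g⁻¹ = adI b g⁻¹ * J) :
    R.ρ g Ω = Ω := by
  by_cases h0 : Ω = 0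
  · rw [h0, map_zero]
  have hJ' : tens N (G3 G) * tens N (G3 G) = -1 := by
    rw [tens_mul, G3_sq, tens_neg, tens_one]
  have hJT : (tens N (G3 G)).transpose = -tens N (G3 G) := by
    rw [tens_transpose, G3_transpose, tens_neg]
  obtain ⟨Ω', h0', h'⟩ := exists_vac (cliff_tht M) hJT hJ'
  exact neutral_lit R hJ hJ' hJJ h h' h0 h0' g hg
    (rho_fix_of_char R hchar (fun g => tens_comm_adI b (G3 G) g) h' g)

end lit

end Crest.Agent.R330.Ovl693

end
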