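import Crest.Agent.R330.Om0_331
import Crest.Agent.R330.Char_973
import Crest.Agent.R330.Ovl2_693

/-!
# Closed forms of the neutrality statements (row 330), helper331

The characters of `SU(N)` are trivial (`Char973.char_trivial`), so `Om0331.rho_fix_of_char` and
`Ovl693.neutral_G3` hold without hypotheses.
-/

set_option autoImplicit false

noncomputable section

open scoped InnerProductSpace BigOperators

namespace Crest.Agent.R330.Om0331

open Crest.MathPhysics.MatrixQM Crest.Agent.R330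

variable {N : ℕ} {F : Type*} [NormedAddCommGroup F] [InnerProductSpace ℂ F]
  [FiniteDimensional ℂ F] {b : ColorBasis N} {M : FermionRep N F} (R : GaugeAction b M)

theorem char_one (χ : Matrix.specialUnitaryGroup (Fin N) ℂ →* ℂ)
    (g : Matrix.specialUnitaryGroup (Fin N) ℂ) : χ g = 1 := Char973.char_trivial χ g

/-- **Every vacuum of a gauge-invariant `J` is fixed by the gauge group.** -/
theorem rho_fix {J : Matrix (Idx N) (Idx N) ℝ} (hJ : ∀ g, J * adI b g = adI b g * J)
    {Ω : F} (h : Neut45.IsVac (tht M) J Ω) (g : Matrix.specialUnitaryGroup (Fin N) ℂ) :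
    R.ρ g Ω = Ω :=
  rho_fix_of_char R char_one hJ h g

/-- **The vacuum of `K ⊗ 1` is fixed by the gauge group**, for every real `16 × 16` matrix `K`. -/
theorem rho_fix_tens (K : Matrix (Fin 16) (Fin 16) ℝ) {Ω : F}
    (h : Neut45.IsVac (tht M) (tens N K) Ω) (g : Matrix.specialUnitaryGroup (Fin N) ℂ) :
    R.ρ g Ω = Ω :=
  rho_fix R (tens_comm_adI b K) h g

/-- **The vacuum of `Γ ⊗ 1` is fixed by the gauge group** (`Γ = γ^1 γ^2 γ^3`). -/
theorem rho_fix_Gam (G : GammaNine) {Ω : F}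
    (h : Neut45.IsVac (tht M) (tens N (Defs478.Gam G)) Ω)
    (g : Matrix.specialUnitaryGroup (Fin N) ℂ) : R.ρ g Ω = Ω :=
  rho_fix_tens R _ h g

/-- The other sign. -/
theorem rho_fix_neg_Gam (G : GammaNine) {Ω : F}
    (h : Neut45.IsVac (tht M) (-tens N (Defs478.Gam G)) Ω)
    (g : Matrix.specialUnitaryGroup (Fin N) ℂ) : R.ρ g Ω = Ω := by
  rw [← tens_neg] at h
  exact rho_fix_tens R _ h g

/-- **Neutrality of the vacua of every `J` which anticommutes with `(γ^4 γ^5 γ^6) ⊗ 1`**: the elements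
`g` commuting with `J` fix the vacuum. -/
theorem neutral [Nontrivial F] (G : GammaNine) {J : Matrix (Idx N) (Idx N) ℝ} (hJ : J * J = -1)
    (hJJ : J * tens N (Ovl693.G3 G) = -(tens N (Ovl693.G3 G) * J)) {Ω : F}
    (h : Neut45.IsVac (tht M) J Ω) (g : Matrix.specialUnitaryGroup (Fin N) ℂ)
    (hg : J * adI b g⁻¹ = adI b g⁻¹ * J) : R.ρ g Ω = Ω :=
  Ovl693.neutral_G3 R char_one G hJ hJJ h g hg

/-- Existence of a unit vacuum of `K ⊗ 1`, `K` a real orthogonal complex structure on `ℝ^16`. -/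
theorem exists_vac_tens [Nontrivial F] (M : FermionRep N F) {K : Matrix (Fin 16) (Fin 16) ℝ}
    (hK : K.transpose = -K) (hKK : K * K = -1) :
    ∃ Ω : F, ‖Ω‖ = 1 ∧ Neut45.IsVac (tht M) (tens N K) Ω := by
  have h1 : (tens N K).transpose = -tens N K := by rw [tens_transpose, hK, tens_neg]
  have h2 : tens N K * tens N K = -1 := by rw [tens_mul, hKK, tens_neg, tens_one]
  obtain ⟨Ω, h0, h⟩ := Neut45.exists_vac (cliff_tht M) h1 h2
  refine ⟨((‖Ω‖⁻¹ : ℝ) : ℂ) • Ω, ?_, ?_⟩
  · rw [norm_smul, Complex.norm_real, norm_inv, norm_norm, inv_mul_cancel₀ (norm_ne_zero_iff.2 h0)]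
  · rw [isVac_iff] at h ⊢
    intro k
    rw [map_smul, h k, smul_zero]

end Crest.Agent.R330.Om0331

end
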