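import Crest.Agent.R330.Defs_478

/-!
# Row 330 (helper494): multiplicity lift of the small system

* `gcharge b θ G g m α φ x` : the charges `Q_α^{g,m}` of the `SU(N)` system acting on functions
  `φ : Cfg N → F` with values in an arbitrary space `F`, through operators `θ_α^A` on `F`
  (no irreducibility). `gcharge_theta` : for `θ = M.θ` this is `dcharge`.
* `Mult M θ ι` : `F` is a multiple of the module `M` : isometries `J w : F₁ → F` with orthogonal
  ranges spanning `F`, intertwining the generators. `comp w = (J w)^*`.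
* `gcharge_split`, `norm_sq_gcharge` : the charges act componentwise.
* `Low b M R G g m c ω ψ` : the lower bound `c ∫ ω |f - <ψ,f> ψ|² ≤ q(f)` on the core of the small
  system (HARDY: `ω = (1+|y|²)⁻¹`; GAP with one zero mode: `ω = 1`).
* `Low.lift` : the same for `F`-valued functions, with the projection `proj1`.
-/

set_option autoImplicit false
set_option linter.unusedSectionVars false

open MeasureTheory Filter Topology Crest.MathPhysics.MatrixQM
open scoped ContDiff InnerProductSpace ENNReal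

noncomputable section

namespace Crest.Agent.R330.Prod494

open Crest.Agent.R330.Defs478

variable {N : ℕ} {F₁ F : Type*} [NormedAddCommGroup F₁] [InnerProductSpace ℂ F₁]
  [FiniteDimensional ℂ F₁] [NormedAddCommGroup F] [InnerProductSpace ℂ F] [FiniteDimensional ℂ F]
  {ι : Type*} [Fintype ι] [DecidableEq ι]

theorem isc {V : Type*} [NormedAddCommGroup V] [InnerProductSpace ℂ V] (v : V) :
    ⟪v, v⟫_ℂ = ((‖v‖ ^ 2 : ℝ) : ℂ) := by
  rw [inner_self_eq_norm_sq_to_K]
  simp

/-- The charges `Q_α^{g,m}` of the `SU(N)` system on functions with values in `F`, through the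
operators `θ` on `F`. -/
def gcharge (b : ColorBasis N) (θ : Fin 16 → Fin (N ^ 2 - 1) → (F →ₗ[ℂ] F)) (G : GammaNine)
    (g m : ℝ) (α : Fin 16) (φ : Cfg N → F) (x : Cfg N) : F :=
  (∑ i : Fin 9, ∑ A : Fin (N ^ 2 - 1), ∑ β : Fin 16,
    (-Complex.I * (G.γ i α β : ℂ)) • θ β A (fderiv ℝ φ x (EuclideanSpace.single (i, A) 1))) +
  ∑ A : Fin (N ^ 2 - 1), ∑ β : Fin 16, ((wpot b G g m α β A x : ℝ) : ℂ) • θ β A (φ x)

theorem gcharge_theta (b : ColorBasis N) (M : FermionRep N F) (G : GammaNine) (g m : ℝ)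
    (α : Fin 16) (φ : Cfg N → F) (x : Cfg N) :
    gcharge b M.θ G g m α φ x = dcharge b M G g m α φ x := rfl

/-- `F` is a multiple of the Clifford module `M`. -/
structure Mult (M : FermionRep N F₁) (θ : Fin 16 → Fin (N ^ 2 - 1) → (F →ₗ[ℂ] F))
    (ι : Type*) [Fintype ι] [DecidableEq ι] where
  /-- the embeddings -/
  J : ι → (F₁ →ₗ[ℂ] F)
  inner_J : ∀ w w' u v, ⟪J w u, J w' v⟫_ℂ = if w = w' then ⟪u, v⟫_ℂ else 0
  span : ∀ v : F, ∃ c : ι → F₁, ∑ w, J w (c w) = v
  inter : ∀ w β A u, θ β A (J w u) = J w (M.θ β A u)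

namespace Mult

variable {M : FermionRep N F₁} {θ : Fin 16 → Fin (N ^ 2 - 1) → (F →ₗ[ℂ] F)} (L : Mult M θ ι)

/-- the components -/
def comp (w : ι) : F →ₗ[ℂ] F₁ := LinearMap.adjoint (L.J w)

theorem inner_comp (w : ι) (v : F) (u : F₁) : ⟪L.comp w v, u⟫_ℂ = ⟪v, L.J w u⟫_ℂ := by
  unfold comp
  rw [LinearMap.adjoint_inner_left]

theorem comp_J (w w' : ι) (u : F₁) : L.comp w (L.J w' u) = if w = w' then u else 0 := by
  refine ext_inner_right ℂ fun v => ?_
  rw [L.inner_comp, L.inner_J]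
  by_cases h : w = w'
  · subst h; simp
  · rw [if_neg h, if_neg (Ne.symm h), inner_zero_left]

theorem sum_J_comp (v : F) : ∑ w, L.J w (L.comp w v) = v := by
  obtain ⟨c, rfl⟩ := L.span v
  refine Finset.sum_congr rfl fun w _ => ?_
  rw [map_sum]
  simp only [L.comp_J]
  rw [Finset.sum_ite_eq Finset.univ w]
  simp

theorem norm_sq_sum (u : ι → F₁) : ‖∑ w, L.J w (u w)‖ ^ 2 = ∑ w, ‖u w‖ ^ 2 := by
  have h : ((‖∑ w, L.J w (u w)‖ ^ 2 : ℝ) : ℂ) = ((∑ w, ‖u w‖ ^ 2 : ℝ) : ℂ) := by
    rw [← isc, sum_inner, Complex.ofReal_sum]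
    refine Finset.sum_congr rfl fun w _ => ?_
    rw [inner_sum]
    simp only [L.inner_J]
    rw [Finset.sum_ite_eq Finset.univ w]
    simp only [Finset.mem_univ, if_true]
    rw [isc]
  exact_mod_cast h

theorem norm_sq_comp (v : F) : ‖v‖ ^ 2 = ∑ w, ‖L.comp w v‖ ^ 2 := by
  rw [← L.norm_sq_sum, L.sum_J_comp]

theorem norm_J (w : ι) (u : F₁) : ‖L.J w u‖ = ‖u‖ := by
  have h := L.norm_sq_sum (fun w' => if w' = w then u else 0)
  have h1 : ∑ w', L.J w' (if w' = w then u else 0) = L.J w u := by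
    rw [Finset.sum_eq_single w (fun w' _ hw => by rw [if_neg hw, map_zero])
      (fun h => absurd (Finset.mem_univ w) h), if_pos rfl]
  have h2 : ∑ w', ‖(if w' = w then u else 0 : F₁)‖ ^ 2 = ‖u‖ ^ 2 := by
    rw [Finset.sum_eq_single w (fun w' _ hw => by rw [if_neg hw]; simp)
      (fun h => absurd (Finset.mem_univ w) h), if_pos rfl]
  rw [h1, h2] at h
  exact (sq_eq_sq₀ (norm_nonneg _) (norm_nonneg _)).1 h

theorem norm_comp_le (w : ι) (v : F) : ‖L.comp w v‖ ≤ ‖v‖ := by
  have h := L.norm_sq_comp v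
  have h1 : ‖L.comp w v‖ ^ 2 ≤ ‖v‖ ^ 2 := by
    rw [h]
    exact Finset.single_le_sum (f := fun w => ‖L.comp w v‖ ^ 2) (fun _ _ => sq_nonneg _)
      (Finset.mem_univ w)
  exact (sq_le_sq₀ (norm_nonneg _) (norm_nonneg _)).1 h1

/-- the components as continuous real linear maps -/
def compL (w : ι) : F →L[ℝ] F₁ := (LinearMap.toContinuousLinearMap (L.comp w)).restrictScalars ℝ

theorem compL_apply (w : ι) (v : F) : L.compL w v = L.comp w v := rfl

/-- the embeddings as continuous real linear maps -/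
def JL (w : ι) : F₁ →L[ℝ] F := (LinearMap.toContinuousLinearMap (L.J w)).restrictScalars ℝ

theorem JL_apply (w : ι) (v : F₁) : L.JL w v = L.J w v := rfl

theorem fderiv_comp {E : Type*} [NormedAddCommGroup E] [NormedSpace ℝ E] {φ : E → F} {x : E}
    (hφ : DifferentiableAt ℝ φ x) (w : ι) (v : E) :
    fderiv ℝ (fun y => L.comp w (φ y)) x v = L.comp w (fderiv ℝ φ x v) := by
  have h : HasFDerivAt (fun y => L.comp w (φ y)) ((L.compL w).comp (fderiv ℝ φ x)) x :=
    (L.compL w).hasFDerivAt.comp x hφ.hasFDerivAt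
  rw [h.fderiv]
  rfl

theorem contDiff_comp {E : Type*} [NormedAddCommGroup E] [NormedSpace ℝ E] {φ : E → F}
    {n : WithTop ℕ∞} (hφ : ContDiff ℝ n φ) (w : ι) : ContDiff ℝ n fun y => L.comp w (φ y) :=
  (L.compL w).contDiff.comp hφ

theorem gcharge_split (b : ColorBasis N) (G : GammaNine) (g m : ℝ) (α : Fin 16) {φ : Cfg N → F}
    {x : Cfg N} (hφ : DifferentiableAt ℝ φ x) :
    gcharge b θ G g m α φ x =
      ∑ w, L.J w (dcharge b M G g m α (fun y => L.comp w (φ y)) x) := by
  have key : ∀ (β : Fin 16) (A : Fin (N ^ 2 - 1)) (v : F),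
      θ β A v = ∑ w, L.J w (M.θ β A (L.comp w v)) := by
    intro β A v
    conv_lhs => rw [← L.sum_J_comp v]
    rw [map_sum]
    exact Finset.sum_congr rfl fun w _ => L.inter w β A _
  unfold gcharge dcharge kin
  simp only [L.fderiv_comp hφ, key, map_add, map_sum, map_smul, Finset.sum_add_distrib,
    Finset.smul_sum]
  congr 1
  · rw [Finset.sum_comm]
    conv_rhs => rw [Finset.sum_comm]
    rw [Finset.sum_comm]
    refine Finset.sum_congr rfl fun i _ => ?_
    rw [Finset.sum_comm (s := (Finset.univ : Finset ι))]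
    refine Finset.sum_congr rfl fun A _ => ?_
    rw [Finset.sum_comm]
  · rw [Finset.sum_comm (s := (Finset.univ : Finset ι))]
    refine Finset.sum_congr rfl fun A _ => ?_
    rw [Finset.sum_comm]

theorem norm_sq_gcharge (b : ColorBasis N) (G : GammaNine) (g m : ℝ) (α : Fin 16) {φ : Cfg N → F}
    {x : Cfg N} (hφ : DifferentiableAt ℝ φ x) :
    ‖gcharge b θ G g m α φ x‖ ^ 2 =
      ∑ w, ‖dcharge b M G g m α (fun y => L.comp w (φ y)) x‖ ^ 2 := by
  rw [L.gcharge_split b G g m α hφ, L.norm_sq_sum]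

end Mult

end Crest.Agent.R330.Prod494

end
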