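import Crest.Agent.R330.Neut_45
import Mathlib.Analysis.InnerProductSpace.Symmetric

/-!
# Row 330 (helper693): overlap of Clifford vacua

`θ : κ → End F` symmetric with `θ_j θ_k + θ_k θ_j = δ_jk`, irreducible; `J`, `J'` real matrices.
(Conventions of `Neut_45`: `IsVac θ J Ω : θ_k Ω = -i Σ_l J_lk θ_l Ω`.)

* `overlap_ne_zero` : `J' ^ 2 = -1`, `J'` antisymmetric, `1 - J' J` surjective, `Ω' ≠ 0` vacuum of `J'`,
  `Ω ≠ 0` vacuum of `J`  ⟹  `⟪Ω', Ω⟫ ≠ 0`.
* `overlap_ne_zero_of_anti` : the case `J ^ 2 = -1`, `J J' = - J' J`.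
* `neutral` : an isometry `U` with `U Ω' = Ω'` and `U Ω = lam • Ω` has `lam = 1`.
* `same_parity` : an isometry `U` with `U Ω' = s • Ω'` and `U Ω = t • Ω` has `s = t`.
-/

set_option autoImplicit false

open scoped InnerProductSpace BigOperators

noncomputable section

namespace Crest.Agent.R330.Ovl693

open Crest.Agent.R330.Neut45

variable {F : Type*} [NormedAddCommGroup F] [InnerProductSpace ℂ F] {κ : Type*} [Fintype κ]
  [DecidableEq κ]

/-- `θ(v) = Σ_k v_k θ_k`. -/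
def th (θ : κ → F →ₗ[ℂ] F) (v : κ → ℝ) : F →ₗ[ℂ] F := ∑ k, ((v k : ℝ) : ℂ) • θ k

variable {θ : κ → F →ₗ[ℂ] F}

omit [DecidableEq κ] in
theorem th_apply (v : κ → ℝ) (x : F) : th θ v x = ∑ k, ((v k : ℝ) : ℂ) • θ k x := by
  simp only [th, LinearMap.sum_apply, LinearMap.smul_apply]

omit [DecidableEq κ] in
theorem th_add (u v : κ → ℝ) : th θ (u + v) = th θ u + th θ v := by
  simp only [th, Pi.add_apply, Complex.ofReal_add, add_smul, Finset.sum_add_distrib]

omit [DecidableEq κ] in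
theorem th_sub (u v : κ → ℝ) : th θ (u - v) = th θ u - th θ v := by
  simp only [th, Pi.sub_apply, Complex.ofReal_sub, sub_smul, Finset.sum_sub_distrib]

omit [DecidableEq κ] in
theorem th_neg (v : κ → ℝ) : th θ (-v) = -th θ v := by
  simp only [th, Pi.neg_apply, Complex.ofReal_neg, neg_smul, Finset.sum_neg_distrib]

omit [DecidableEq κ] in
theorem th_smul (r : ℝ) (v : κ → ℝ) : th θ (r • v) = ((r : ℝ) : ℂ) • th θ v := by
  simp only [th, Pi.smul_apply, smul_eq_mul, Complex.ofReal_mul, mul_smul, Finset.smul_sum]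

theorem th_single (k : κ) : th θ (Pi.single k 1) = θ k := by
  unfold th
  rw [Finset.sum_eq_single k]
  · simp
  · intro j _ hj
    simp [Pi.single_eq_of_ne hj]
  · intro h
    exact absurd (Finset.mem_univ k) h

omit [DecidableEq κ] in
theorem th_symm (hs : ∀ k, (θ k).IsSymmetric) (v : κ → ℝ) (x y : F) :
    ⟪th θ v x, y⟫_ℂ = ⟪x, th θ v y⟫_ℂ := by
  rw [th_apply, th_apply, sum_inner, inner_sum]
  refine Finset.sum_congr rfl fun k _ => ?_
  rw [inner_smul_left, inner_smul_right, Complex.conj_ofReal, hs k x y]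

theorem th_anti (hθ : Cliff θ) (u v : κ → ℝ) (x : F) :
    th θ u (th θ v x) + th θ v (th θ u x) = (((u ⬝ᵥ v : ℝ)) : ℂ) • x := by
  have hc : ∀ p q, θ p (θ q x) + θ q (θ p x) = if p = q then x else 0 := by
    intro p q
    have := LinearMap.congr_fun (hθ p q) x
    simp only [LinearMap.add_apply, LinearMap.comp_apply] at this
    rw [this]
    split_ifs <;> rfl
  have e1 : th θ u (th θ v x) = ∑ p, ∑ q, ((u p * v q : ℝ) : ℂ) • θ p (θ q x) := by
    rw [th_apply, th_apply]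
    refine Finset.sum_congr rfl fun p _ => ?_
    rw [map_sum, Finset.smul_sum]
    refine Finset.sum_congr rfl fun q _ => ?_
    rw [map_smul, smul_smul]
    push_cast
    rfl
  have e2 : th θ v (th θ u x) = ∑ p, ∑ q, ((u p * v q : ℝ) : ℂ) • θ q (θ p x) := by
    rw [th_apply, th_apply, Finset.sum_comm]
    · refine Finset.sum_congr rfl fun q _ => ?_
      rw [map_sum, Finset.smul_sum]
      refine Finset.sum_congr rfl fun p _ => ?_
      rw [map_smul, smul_smul]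
      push_cast
      rw [mul_comm]
  rw [e1, e2, ← Finset.sum_add_distrib]
  simp only [← Finset.sum_add_distrib, ← smul_add, hc, smul_ite, smul_zero, Finset.sum_ite_eq,
    Finset.mem_univ, if_true]
  rw [← Finset.sum_smul, dotProduct, Complex.ofReal_sum]

omit [DecidableEq κ] in
/-- the vacuum relation for all vectors -/
theorem IsVac.all {J : Matrix κ κ ℝ} {Ω : F} (h : IsVac θ J Ω) (v : κ → ℝ) :
    th θ v Ω = -Complex.I • th θ (J.mulVec v) Ω := by
  rw [th_apply, th_apply]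
  have h1 : ∀ k, ((v k : ℝ) : ℂ) • θ k Ω =
      -Complex.I • ∑ l, ((J l k * v k : ℝ) : ℂ) • θ l Ω := by
    intro k
    rw [h k, smul_comm, Finset.smul_sum]
    congr 1
    refine Finset.sum_congr rfl fun l _ => ?_
    rw [smul_smul]
    push_cast
    rw [mul_comm]
  simp only [h1]
  rw [← Finset.smul_sum, Finset.sum_comm]
  congr 1
  refine Finset.sum_congr rfl fun l _ => ?_
  rw [← Finset.sum_smul, Matrix.mulVec, dotProduct, Complex.ofReal_sum]

/-- annihilation operators of `J` -/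
def an (θ : κ → F →ₗ[ℂ] F) (J : Matrix κ κ ℝ) (v : κ → ℝ) : F →ₗ[ℂ] F :=
  th θ v + Complex.I • th θ (J.mulVec v)

/-- creation operators of `J` -/
def cr (θ : κ → F →ₗ[ℂ] F) (J : Matrix κ κ ℝ) (v : κ → ℝ) : F →ₗ[ℂ] F :=
  th θ v - Complex.I • th θ (J.mulVec v)

omit [DecidableEq κ] in
theorem inner_cr (hs : ∀ k, (θ k).IsSymmetric) (J : Matrix κ κ ℝ) (v : κ → ℝ) (x y : F) :
    ⟪cr θ J v x, y⟫_ℂ = ⟪x, an θ J v y⟫_ℂ := by
  simp only [cr, an, LinearMap.sub_apply, LinearMap.add_apply, LinearMap.smul_apply,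
    inner_sub_left, inner_add_right, inner_smul_left, inner_smul_right, th_symm hs, Complex.conj_I]
  ring

omit [DecidableEq κ] in
theorem inner_an (hs : ∀ k, (θ k).IsSymmetric) (J : Matrix κ κ ℝ) (v : κ → ℝ) (x y : F) :
    ⟪an θ J v x, y⟫_ℂ = ⟪x, cr θ J v y⟫_ℂ := by
  simp only [cr, an, LinearMap.sub_apply, LinearMap.add_apply, LinearMap.smul_apply,
    inner_sub_right, inner_add_left, inner_smul_left, inner_smul_right, th_symm hs, Complex.conj_I]
  ring

theorem an_cr (hθ : Cliff θ) (J : Matrix κ κ ℝ) (u v : κ → ℝ) (x : F) :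
    ∃ c : ℂ, an θ J u (cr θ J v x) = c • x - cr θ J v (an θ J u x) := by
  refine ⟨(((u ⬝ᵥ v : ℝ)) : ℂ) - Complex.I * (((u ⬝ᵥ J.mulVec v : ℝ)) : ℂ) +
    Complex.I * (((J.mulVec u ⬝ᵥ v : ℝ)) : ℂ) + (((J.mulVec u ⬝ᵥ J.mulVec v : ℝ)) : ℂ), ?_⟩
  have h1 := th_anti hθ u v x
  have h2 := th_anti hθ u (J.mulVec v) x
  have h3 := th_anti hθ (J.mulVec u) v x
  have h4 := th_anti hθ (J.mulVec u) (J.mulVec v) x
  rw [eq_sub_iff_add_eq]
  simp only [cr, an, LinearMap.sub_apply, LinearMap.add_apply, LinearMap.smul_apply, map_add,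
    map_sub, map_smul, smul_add, smul_sub, smul_smul, Complex.I_mul_I]
  have e : (((u ⬝ᵥ v : ℝ)) : ℂ) • x - (Complex.I * (((u ⬝ᵥ J.mulVec v : ℝ)) : ℂ)) • x +
      (Complex.I * (((J.mulVec u ⬝ᵥ v : ℝ)) : ℂ)) • x +
      (((J.mulVec u ⬝ᵥ J.mulVec v : ℝ)) : ℂ) • x =
      (th θ u (th θ v x) + th θ v (th θ u x)) -
      Complex.I • (th θ u (th θ (J.mulVec v) x) + th θ (J.mulVec v) (th θ u x)) +
      Complex.I • (th θ (J.mulVec u) (th θ v x) + th θ v (th θ (J.mulVec u) x)) +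
      (th θ (J.mulVec u) (th θ (J.mulVec v) x) + th θ (J.mulVec v) (th θ (J.mulVec u) x)) := by
    rw [h1, h2, h3, h4, smul_smul, smul_smul]
  rw [add_smul, add_smul, sub_smul, e]
  module

omit [DecidableEq κ] in
theorem an_vac {J : Matrix κ κ ℝ} {Ω : F} (h : IsVac θ J Ω) (v : κ → ℝ) : an θ J v Ω = 0 := by
  simp only [an, LinearMap.add_apply, LinearMap.smul_apply]
  rw [IsVac.all h v, neg_smul, neg_add_cancel]

omit [DecidableEq κ] in
theorem th_eq (J : Matrix κ κ ℝ) (v : κ → ℝ) (x : F) :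
    th θ v x = (1 / 2 : ℂ) • (an θ J v x + cr θ J v x) := by
  simp only [cr, an, LinearMap.sub_apply, LinearMap.add_apply, LinearMap.smul_apply]
  module

/-- words of length at most `n` in the creation operators on `Ω'` -/
def W (θ : κ → F →ₗ[ℂ] F) (J : Matrix κ κ ℝ) (Ω : F) : ℕ → Submodule ℂ F
  | 0 => Submodule.span ℂ {Ω}
  | n + 1 => W θ J Ω n ⊔ ⨆ v : κ → ℝ, (W θ J Ω n).map (cr θ J v)

omit [DecidableEq κ] in
theorem W_le (J : Matrix κ κ ℝ) (Ω : F) (n : ℕ) : W θ J Ω n ≤ W θ J Ω (n + 1) := le_sup_left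

omit [DecidableEq κ] in
theorem cr_mem_W {J : Matrix κ κ ℝ} {Ω : F} {n : ℕ} {x : F} (hx : x ∈ W θ J Ω n) (v : κ → ℝ) :
    cr θ J v x ∈ W θ J Ω (n + 1) :=
  Submodule.mem_sup_right (Submodule.mem_iSup_of_mem v (Submodule.mem_map_of_mem hx))

theorem an_mem_W (hθ : Cliff θ) {J : Matrix κ κ ℝ} {Ω : F} (h : IsVac θ J Ω) {n : ℕ} {x : F}
    (hx : x ∈ W θ J Ω n) (u : κ → ℝ) : an θ J u x ∈ W θ J Ω n := by
  induction n generalizing x with
  | zero =>
    obtain ⟨c, rfl⟩ := Submodule.mem_span_singleton.1 hx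
    rw [map_smul, an_vac h, smul_zero]
    exact Submodule.zero_mem _
  | succ n ih =>
    have key : W θ J Ω (n + 1) ≤ (W θ J Ω (n + 1)).comap (an θ J u) := by
      refine sup_le (fun y hy => ?_) (iSup_le fun v => ?_)
      · exact W_le J Ω n (ih hy)
      · rintro _ ⟨y, hy, rfl⟩
        obtain ⟨c, hc⟩ := an_cr hθ J u v y
        rw [Submodule.mem_comap, hc]
        exact Submodule.sub_mem _ (Submodule.smul_mem _ _ (W_le J Ω n hy)) (cr_mem_W (ih hy) v)
    exact key hx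

/-- **The overlap of two Clifford vacua.** -/
theorem overlap_ne_zero (hθ : Cliff θ) (hs : ∀ k, (θ k).IsSymmetric)
    (hirr : ∀ V : Submodule ℂ F, (∀ k, ∀ v ∈ V, θ k v ∈ V) → V = ⊥ ∨ V = ⊤)
    {J J' : Matrix κ κ ℝ} (hJ' : J' * J' = -1)
    (hsur : ∀ u : κ → ℝ, ∃ v, v - J'.mulVec (J.mulVec v) = u)
    {Ω Ω' : F} (h : IsVac θ J Ω) (h' : IsVac θ J' Ω') (h0 : Ω ≠ 0) (h0' : Ω' ≠ 0) :
    ⟪Ω', Ω⟫_ℂ ≠ 0 := by
  intro hz
  -- the relation `an' u Ω = - cr' u' Ω`
  have hrel : ∀ u : κ → ℝ, ∃ u', an θ J' u Ω = -cr θ J' u' Ω := by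
    intro u
    obtain ⟨v, hv⟩ := hsur u
    refine ⟨v + J'.mulVec (J.mulVec v), ?_⟩
    have h1 := IsVac.all h v
    have h2 : J'.mulVec (J'.mulVec (J.mulVec v)) = -J.mulVec v := by
      rw [Matrix.mulVec_mulVec, hJ', Matrix.neg_mulVec, Matrix.one_mulVec]
    rw [← hv]
    simp only [an, cr, LinearMap.add_apply, LinearMap.sub_apply, LinearMap.smul_apply,
      Matrix.mulVec_sub, Matrix.mulVec_add, h2, th_sub, th_add, th_neg, LinearMap.neg_apply]
    have h3 : Complex.I • th θ (J.mulVec v) Ω = -th θ v Ω := by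
      rw [h1]
      module
    simp only [smul_sub, smul_add, smul_neg, h3]
    abel
  have hW : ∀ n, ∀ x ∈ W θ J' Ω' n, ⟪x, Ω⟫_ℂ = 0 := by
    intro n
    induction n with
    | zero =>
      intro x hx
      obtain ⟨c, rfl⟩ := Submodule.mem_span_singleton.1 hx
      rw [inner_smul_left, hz, mul_zero]
    | succ n ih =>
      have key : W θ J' Ω' (n + 1) ≤ (LinearMap.ker (innerₛₗ ℂ Ω : F →ₗ[ℂ] ℂ)) := by
        refine sup_le (fun y hy => ?_) (iSup_le fun v => ?_)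
        · rw [LinearMap.mem_ker]
          change ⟪Ω, y⟫_ℂ = 0
          rw [← inner_conj_symm, ih y hy, map_zero]
        · rintro _ ⟨y, hy, rfl⟩
          rw [LinearMap.mem_ker]
          change ⟪Ω, cr θ J' v y⟫_ℂ = 0
          obtain ⟨u', hu'⟩ := hrel v
          rw [← inner_conj_symm, inner_cr hs, hu', inner_neg_right, ← inner_an hs,
            ih _ (an_mem_W hθ h' hy u'), neg_zero, map_zero]
      intro x hx
      have h1 := key hx
      rw [LinearMap.mem_ker] at h1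
      change ⟪Ω, x⟫_ℂ = 0 at h1
      rw [← inner_conj_symm, h1, map_zero]
  -- the submodule orthogonal to all words
  let U : Submodule ℂ F :=
    { carrier := {y | ∀ n, ∀ x ∈ W θ J' Ω' n, ⟪x, y⟫_ℂ = 0}
      add_mem' := by
        intro a b ha hb n x hx
        rw [inner_add_right, ha n x hx, hb n x hx, add_zero]
      zero_mem' := by
        intro n x _
        rw [inner_zero_right]
      smul_mem' := by
        intro c a ha n x hx
        rw [inner_smul_right, ha n x hx, mul_zero] }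
  have hU : ∀ k, ∀ y ∈ U, θ k y ∈ U := by
    intro k y hy n x hx
    have e : θ k x = th θ (Pi.single k 1) x := by rw [th_single]
    rw [← hs k x y, e, th_eq J']
    exact hy (n + 1) _ (Submodule.smul_mem _ _ (Submodule.add_mem _
      (W_le J' Ω' n (an_mem_W hθ h' hx _)) (cr_mem_W hx _)))
  rcases hirr U hU with hb | ht
  · have : Ω ∈ U := hW
    rw [hb, Submodule.mem_bot] at this
    exact h0 this
  · have : Ω' ∈ U := by rw [ht]; trivial
    exact h0' (inner_self_eq_zero.1 (this 0 Ω' (Submodule.mem_span_singleton_self Ω')))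

/-- **Anticommuting complex structures have non-orthogonal vacua.** -/
theorem overlap_ne_zero_of_anti (hθ : Cliff θ) (hs : ∀ k, (θ k).IsSymmetric)
    (hirr : ∀ V : Submodule ℂ F, (∀ k, ∀ v ∈ V, θ k v ∈ V) → V = ⊥ ∨ V = ⊤)
    {J J' : Matrix κ κ ℝ} (hJ : J * J = -1) (hJ' : J' * J' = -1) (hJJ : J * J' = -(J' * J))
    {Ω Ω' : F} (h : IsVac θ J Ω) (h' : IsVac θ J' Ω') (h0 : Ω ≠ 0) (h0' : Ω' ≠ 0) :
    ⟪Ω', Ω⟫_ℂ ≠ 0 := by
  refine overlap_ne_zero hθ hs hirr hJ' (fun u => ⟨(1 / 2 : ℝ) • (u + J'.mulVec (J.mulVec u)), ?_⟩)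
    h h' h0 h0'
  have h1 : J' * J * (J' * J) = -1 := by
    have : J' * J * (J' * J) = J' * (J * J') * J := by simp only [Matrix.mul_assoc]
    rw [this, hJJ, Matrix.mul_neg, Matrix.neg_mul]
    have : J' * (J' * J) * J = (J' * J') * (J * J) := by simp only [Matrix.mul_assoc]
    rw [this, hJ, hJ']
    simp
  have h2 : J'.mulVec (J.mulVec (J'.mulVec (J.mulVec u))) = -u := by
    simp only [Matrix.mulVec_mulVec]
    rw [show J' * (J * (J' * J)) = J' * J * (J' * J) by simp only [Matrix.mul_assoc], h1,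
      Matrix.neg_mulVec, Matrix.one_mulVec]
  simp only [Matrix.mulVec_smul, Matrix.mulVec_add, h2]
  rw [← smul_sub]
  have h3 : u + J'.mulVec (J.mulVec u) - (J'.mulVec (J.mulVec u) + -u) = (2 : ℝ) • u := by
    rw [two_smul]; abel
  rw [h3, smul_smul]
  norm_num

omit [Fintype κ] [DecidableEq κ] in
/-- **Neutrality.** -/
theorem neutral {U : F →ₗ[ℂ] F} (hU : ∀ x y, ⟪U x, U y⟫_ℂ = ⟪x, y⟫_ℂ) {Ω Ω' : F} {lam : ℂ}
    (hz : ⟪Ω', Ω⟫_ℂ ≠ 0) (h' : U Ω' = Ω') (h : U Ω = lam • Ω) : lam = 1 := by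
  have h1 := hU Ω' Ω
  rw [h', h, inner_smul_right] at h1
  exact mul_right_cancel₀ hz (by rw [h1, one_mul])

/-- **Equal eigenvalues** (parity). -/
theorem same_parity {U : F →ₗ[ℂ] F} (hU : ∀ x y, ⟪U x, U y⟫_ℂ = ⟪x, y⟫_ℂ) {Ω Ω' : F} {s t : ℂ}
    (hz : ⟪Ω', Ω⟫_ℂ ≠ 0) (h' : U Ω' = s • Ω') (h : U Ω = t • Ω) : t = s := by
  have h0' : Ω' ≠ 0 := by
    rintro rfl
    exact hz (inner_zero_left _)
  have h1 := hU Ω' Ω
  rw [h', h, inner_smul_right, inner_smul_left] at h1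
  have h2 : t * (starRingEnd ℂ) s = 1 := by
    refine mul_right_cancel₀ hz ?_
    rw [one_mul, mul_assoc, h1]
  have h3 := hU Ω' Ω'
  rw [h', inner_smul_left, inner_smul_right] at h3
  have h4 : (starRingEnd ℂ) s * s = 1 := by
    have h5 : ⟪Ω', Ω'⟫_ℂ ≠ 0 := fun hh => h0' (inner_self_eq_zero.1 hh)
    refine mul_right_cancel₀ h5 ?_
    rw [one_mul, mul_assoc, h3]
  calc t = t * ((starRingEnd ℂ) s * s) := by rw [h4, mul_one]
    _ = (t * (starRingEnd ℂ) s) * s := by ring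
    _ = s := by rw [h2, one_mul]

end Crest.Agent.R330.Ovl693

end
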