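import Crest.Agent.R330.Cliff4_442
import Crest.Agent.R330.Ovl_693

/-!
# Row 330 (helper311): antiunitary lifts, reality of the heavy vacuum section

* `CF F` : the conjugate space (`c • f := conj c • f`), `conjO M O` : the conjugate module with
  `θ' x = θ (O x)`.
* `exists_anti` : an orthogonal `O` with `O J = -J O` has an antiunitary lift `Θ` with
  `Θ (θ x f) = θ (O x) (Θ f)` and `Θ Ω = Ω` for the vacuum `Ω` of the complex structure `J`.
* `AntiU.starProjection`, `AntiU.im_inner_eq_zero` : `Θ` commutes with the projections on the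
  subspaces it preserves; the inner products of the projections of `Ω` are real.
* `hvac θ S` : the heavy vacuum space of a real matrix `S`; preserved by `Θ` if `O S = -S O`.
-/

set_option autoImplicit false
set_option linter.unusedSectionVars false

open scoped InnerProductSpace BigOperators

noncomputable section

namespace Crest.Agent.R330.Real311

open Crest.Agent.R330.Cliff442 Crest.Agent.R330.Neut45 Crest.Agent.R330.Ovl693

/-! ### The conjugate space -/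

/-- The conjugate space of `F`. -/
def CF (F : Type*) : Type _ := F

namespace CF

variable {F : Type*} [NormedAddCommGroup F] [InnerProductSpace ℂ F]

instance : NormedAddCommGroup (CF F) := inferInstanceAs (NormedAddCommGroup F)

/-- The identity `F → CF F`. -/
def mk (f : F) : CF F := f

/-- The identity `CF F → F`. -/
def un (f : CF F) : F := f

@[simp] theorem un_mk (f : F) : un (mk f) = f := rfl

@[simp] theorem mk_un (f : CF F) : mk (un f) = f := rfl

instance : Module ℂ (CF F) := Module.compHom F (starRingEnd ℂ)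

theorem smul_mk (c : ℂ) (f : F) : c • mk f = mk ((starRingEnd ℂ) c • f) := rfl

theorem un_smul (c : ℂ) (f : CF F) : un (c • f) = (starRingEnd ℂ) c • un f := rfl

theorem un_add (f g : CF F) : un (f + g) = un f + un g := rfl

theorem norm_mk (f : F) : ‖mk f‖ = ‖f‖ := rfl

theorem norm_un (f : CF F) : ‖un f‖ = ‖f‖ := rfl

instance : NormedSpace ℂ (CF F) where
  norm_smul_le c f := by
    rw [← norm_un, un_smul, norm_smul, norm_un, RCLike.norm_conj]

instance : InnerProductSpace ℂ (CF F) where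
  inner f g := ⟪un g, un f⟫_ℂ
  norm_sq_eq_re_inner f := norm_sq_eq_re_inner (𝕜 := ℂ) (un f)
  conj_inner_symm f g := inner_conj_symm (𝕜 := ℂ) (un g) (un f)
  add_left f g h := inner_add_right (𝕜 := ℂ) (un h) (un f) (un g)
  smul_left f g c := by
    change ⟪un g, (starRingEnd ℂ) c • un f⟫_ℂ = (starRingEnd ℂ) c * ⟪un g, un f⟫_ℂ
    rw [inner_smul_right]

theorem inner_def (f g : CF F) : ⟪f, g⟫_ℂ = ⟪un g, un f⟫_ℂ := rfl

end CF

section crep

variable {V F : Type*} [NormedAddCommGroup V] [InnerProductSpace ℝ V]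
  [NormedAddCommGroup F] [InnerProductSpace ℂ F]

/-- The conjugate module with `θ' x = θ (O x)`. -/
def conjO (M : CRep V F) (O : V →ₗᵢ[ℝ] V) : CRep V (CF F) where
  θ x :=
    { toFun := fun f => CF.mk (M.θ (O x) (CF.un f))
      map_add' := fun f g => by
        change CF.mk (M.θ (O x) (CF.un f + CF.un g)) = _
        rw [map_add]
        rfl
      map_smul' := fun c f => by
        change CF.mk (M.θ (O x) ((starRingEnd ℂ) c • CF.un f)) = _
        rw [map_smul]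
        rfl }
  add u v := by
    ext f
    change M.θ (O (u + v)) (CF.un f) = M.θ (O u) (CF.un f) + M.θ (O v) (CF.un f)
    rw [map_add, M.add]
    rfl
  smul r u := by
    ext f
    change M.θ (O (r • u)) (CF.un f) = (starRingEnd ℂ) (r : ℂ) • M.θ (O u) (CF.un f)
    rw [map_smul, M.smul, Complex.conj_ofReal]
    rfl
  symm u f g := by
    change ⟪CF.un g, M.θ (O u) (CF.un f)⟫_ℂ = ⟪M.θ (O u) (CF.un g), CF.un f⟫_ℂ
    exact (M.symm _ _ _).symm
  anti u v := by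
    ext f
    change M.θ (O u) (M.θ (O v) (CF.un f)) + M.θ (O v) (M.θ (O u) (CF.un f)) =
      (starRingEnd ℂ) ((⟪u, v⟫_ℝ : ℝ) : ℂ) • CF.un f
    rw [M.anti_apply, O.inner_map_map, Complex.conj_ofReal]

theorem conjO_θ (M : CRep V F) (O : V →ₗᵢ[ℝ] V) (x : V) (f : CF F) :
    CF.un ((conjO M O).θ x f) = M.θ (O x) (CF.un f) := rfl

theorem conjO_ann (M : CRep V F) (O : V →ₗᵢ[ℝ] V) (x y : V) (f : CF F) :
    CF.un ((conjO M O).ann x y f) = M.cre (O x) (O y) (CF.un f) := by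
  change M.θ (O x) (CF.un f) + (starRingEnd ℂ) Complex.I • M.θ (O y) (CF.un f) = _
  rw [CRep.cre_apply, Complex.conj_I, neg_smul, sub_eq_add_neg]

end crep

/-! ### Antiunitary maps -/

section anti

variable {F : Type*} [NormedAddCommGroup F] [InnerProductSpace ℂ F]

/-- Conjugate linear isometries. -/
structure AntiU (Θ : F → F) : Prop where
  add : ∀ f g, Θ (f + g) = Θ f + Θ g
  smul : ∀ (c : ℂ) f, Θ (c • f) = (starRingEnd ℂ) c • Θ f
  inner : ∀ f g, ⟪Θ f, Θ g⟫_ℂ = ⟪g, f⟫_ℂ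

namespace AntiU

variable {Θ : F → F} (h : AntiU Θ)
include h

theorem zero : Θ 0 = 0 := by
  have := h.smul 0 0
  simpa using this

theorem neg (f : F) : Θ (-f) = -Θ f := by
  have := h.smul (-1) f
  simpa using this

theorem sub (f g : F) : Θ (f - g) = Θ f - Θ g := by
  rw [sub_eq_add_neg, h.add, h.neg, sub_eq_add_neg]

theorem real_smul (r : ℝ) (f : F) : Θ ((r : ℂ) • f) = (r : ℂ) • Θ f := by
  rw [h.smul, Complex.conj_ofReal]

theorem norm (f : F) : ‖Θ f‖ = ‖f‖ := by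
  have h1 := h.inner f f
  rw [inner_self_c, inner_self_c] at h1
  have h2 : ‖Θ f‖ ^ 2 = ‖f‖ ^ 2 := by exact_mod_cast h1
  exact (sq_eq_sq₀ (norm_nonneg _) (norm_nonneg _)).1 h2

/-- `⟪f, g⟫` is real for `Θ f = f`, `Θ g = g`. -/
theorem conj_inner {f g : F} (hf : Θ f = f) (hg : Θ g = g) :
    (starRingEnd ℂ) ⟪f, g⟫_ℂ = ⟪f, g⟫_ℂ := by
  have h1 := h.inner f g
  rw [hf, hg] at h1
  rw [inner_conj_symm]
  exact h1.symm

theorem im_inner {f g : F} (hf : Θ f = f) (hg : Θ g = g) : (⟪f, g⟫_ℂ).im = 0 :=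
  Complex.conj_eq_iff_im.1 (h.conj_inner hf hg)

/-- An involutive `Θ` commutes with the projection on a subspace it preserves. -/
theorem starProjection (hi : ∀ f, Θ (Θ f) = f) (W : Submodule ℂ F) [W.HasOrthogonalProjection]
    (hW : ∀ f ∈ W, Θ f ∈ W) (f : F) : Θ (W.starProjection f) = W.starProjection (Θ f) := by
  symm
  refine Submodule.eq_starProjection_of_mem_of_inner_eq_zero (hW _ ?_) ?_
  · exact Submodule.starProjection_apply_mem W f
  · intro w hw
    rw [← h.sub]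
    conv_lhs => rw [← hi w]
    rw [h.inner, ← inner_conj_symm, Submodule.starProjection_inner_eq_zero _ _ (hW w hw), map_zero]

/-- **The projections of fixed vectors on invariant subspaces have real inner products.** -/
theorem im_inner_starProjection (hi : ∀ f, Θ (Θ f) = f) (W W' : Submodule ℂ F)
    [W.HasOrthogonalProjection] [W'.HasOrthogonalProjection] (hW : ∀ f ∈ W, Θ f ∈ W)
    (hW' : ∀ f ∈ W', Θ f ∈ W') {Ω : F} (hΩ : Θ Ω = Ω) :
    (⟪W.starProjection Ω, W'.starProjection Ω⟫_ℂ).im = 0 := by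
  refine h.im_inner ?_ ?_
  · rw [h.starProjection hi W hW, hΩ]
  · rw [h.starProjection hi W' hW', hΩ]

end AntiU

/-- The derivative of a unit vector along which all inner products are real. -/
theorem inner_deriv_eq_zero {v : ℝ → F} {v' : F} (hv : HasDerivAt v v' 0) (hn : ∀ t, ‖v t‖ = 1)
    (hr : ∀ t, (⟪v 0, v t⟫_ℂ).im = 0) : ⟪v 0, v'⟫_ℂ = 0 := by
  have h1 : HasDerivAt (fun t => ⟪v 0, v t⟫_ℂ) ⟪v 0, v'⟫_ℂ 0 := by
    have := (hasDerivAt_const (0 : ℝ) (v 0)).inner ℂ hv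
    simpa using this
  have h2 : HasDerivAt (fun t => (⟪v 0, v t⟫_ℂ).im) (⟪v 0, v'⟫_ℂ).im 0 :=
    (Complex.imCLM.hasFDerivAt.comp_hasDerivAt 0 h1)
  have h3 : (⟪v 0, v'⟫_ℂ).im = 0 := by
    have h4 : (fun t => (⟪v 0, v t⟫_ℂ).im) = fun _ => 0 := funext hr
    rw [h4] at h2
    exact h2.unique (hasDerivAt_const 0 0)
  have h5 : HasDerivAt (fun t => ‖v t‖ ^ 2) (2 * (⟪v 0, v'⟫_ℂ).re) 0 := by
    have h6 : HasDerivAt (fun t => ⟪v t, v t⟫_ℂ) (⟪v 0, v'⟫_ℂ + ⟪v', v 0⟫_ℂ) 0 := hv.inner ℂ hv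
    have h7 : HasDerivAt (fun t => (⟪v t, v t⟫_ℂ).re) (⟪v 0, v'⟫_ℂ + ⟪v', v 0⟫_ℂ).re 0 :=
      (Complex.reCLM.hasFDerivAt.comp_hasDerivAt 0 h6)
    have h8 : (fun t => (⟪v t, v t⟫_ℂ).re) = fun t => ‖v t‖ ^ 2 := by
      funext t
      rw [inner_self_c, Complex.ofReal_re]
    rw [h8] at h7
    convert h7 using 1
    rw [Complex.add_re, ← inner_conj_symm v' (v 0), Complex.conj_re]
    ring
  have h9 : (⟪v 0, v'⟫_ℂ).re = 0 := by
    have h4 : (fun t => ‖v t‖ ^ 2) = fun _ => (1 : ℝ) := by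
      funext t
      rw [hn, one_pow]
    rw [h4] at h5
    have := h5.unique (hasDerivAt_const 0 (1 : ℝ))
    linarith
  exact Complex.ext h9 h3

end anti

/-! ### The lift -/

section lift

variable {V F : Type*} [NormedAddCommGroup V] [InnerProductSpace ℝ V]
  [NormedAddCommGroup F] [InnerProductSpace ℂ F] {ι : Type*}

/-- **Antiunitary lift**, pair form. -/
theorem exists_anti_of_vac {M : CRep V F} {u v : ι → V} {s : Finset ι} {Ω : F}
    (h : M.Vac u v s Ω) (hI : M.Irr) (O : V →ₗᵢ[ℝ] V)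
    (hO : ∀ k ∈ s, M.cre (O (u k)) (O (v k)) Ω = 0) :
    ∃ Θ : F → F, AntiU Θ ∧ Θ Ω = Ω ∧ ∀ x f, Θ (M.θ x f) = M.θ (O x) (Θ f) := by
  obtain ⟨T, hT⟩ := h.exists_map hI (conjO M O)
  have hk : ∀ k ∈ s, (conjO M O).ann (u k) (v k) (CF.mk Ω) = 0 := fun k hk => by
    have := conjO_ann M O (u k) (v k) (CF.mk Ω)
    rw [CF.un_mk, hO k hk] at this
    exact this
  obtain ⟨t1, t2, t3⟩ := hT (CF.mk Ω) hk
  refine ⟨fun f => CF.un (T (CF.mk Ω) f), ⟨fun f g => ?_, fun c f => ?_, fun f g => ?_⟩, ?_,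
    fun x f => ?_⟩
  · rw [map_add]
    rfl
  · rw [map_smul]
    rfl
  · have e := t3 (CF.mk Ω) hk g f
    rw [CF.inner_def, CF.inner_def, CF.un_mk, inner_self_c, h.norm] at e
    rw [e]
    simp
  · change CF.un (T (CF.mk Ω) Ω) = Ω
    rw [t1]
    rfl
  · change CF.un (T (CF.mk Ω) (M.θ x f)) = _
    rw [t2]
    rfl

/-- Two antiunitary lifts with `Θ Ω = Ω` compose to the identity if `O O' = 1`. -/
theorem anti_comp {M : CRep V F} (hI : M.Irr) {Ω : F} (h0 : Ω ≠ 0) {Θ Θ' : F → F}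
    (h : AntiU Θ) (h' : AntiU Θ') {O O' : V →ₗᵢ[ℝ] V} (hΩ : Θ Ω = Ω) (hΩ' : Θ' Ω = Ω)
    (hθ : ∀ x f, Θ (M.θ x f) = M.θ (O x) (Θ f)) (hθ' : ∀ x f, Θ' (M.θ x f) = M.θ (O' x) (Θ' f))
    (hO : ∀ x, O (O' x) = x) (f : F) : Θ (Θ' f) = f := by
  set J : F →ₗ[ℂ] F :=
    { toFun := fun f => Θ (Θ' f)
      map_add' := fun f g => by rw [h'.add, h.add]
      map_smul' := fun c f => by rw [h'.smul, h.smul, Complex.conj_conj, RingHom.id_apply] }
    with hJ
  have e : J = LinearMap.id := by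
    refine CRep.Irr.ext (M := M) (M' := M) hI (fun x f => ?_) (fun x f => rfl) h0 ?_
    · change Θ (Θ' (M.θ x f)) = M.θ x (Θ (Θ' f))
      rw [hθ', hθ, hO]
    · change Θ (Θ' Ω) = Ω
      rw [hΩ', hΩ]
  exact LinearMap.congr_fun e f

/-- A complex structure `A` (skew, `A² = -1`) and its vacuum vector in pair form. -/
theorem exists_pairs [FiniteDimensional ℝ V] {M : CRep V F} {A : V →ₗ[ℝ] V} (hA : Skew A)
    (hA2 : ∀ x, A (A x) = -x) {Ω : F} (h1 : ‖Ω‖ = 1)
    (hΩ : ∀ x, M.θ x Ω + Complex.I • M.θ (A x) Ω = 0) :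
    ∃ (m : ℕ) (u v : ℕ → V), M.Vac u v (Finset.range m) Ω ∧ (∀ k ∈ Finset.range m, v k = A (u k)) := by
  have hB : Skew (-A) := fun x y => by
    rw [LinearMap.neg_apply, LinearMap.neg_apply, inner_neg_left, inner_neg_right, hA]
  obtain ⟨m, u, v, lam, hNF⟩ := hB.exists_NF
  have hau : ∀ k ∈ Finset.range m, A (u k) = lam k • v k := fun k hk => by
    have := hNF.au k hk
    rw [LinearMap.neg_apply, neg_smul, neg_inj] at this
    exact this
  have hav : ∀ k ∈ Finset.range m, A (v k) = -(lam k • u k) := fun k hk => by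
    have := hNF.av k hk
    rw [LinearMap.neg_apply] at this
    rw [← this, neg_neg]
  have hl : ∀ k ∈ Finset.range m, lam k = 1 := fun k hk => by
    have e1 := hA2 (u k)
    rw [hau k hk, map_smul, hav k hk, smul_neg, smul_smul, neg_inj] at e1
    have e2 : ⟪(lam k * lam k) • u k, u k⟫_ℝ = ⟪u k, u k⟫_ℝ := by rw [e1]
    rw [inner_smul_left, real_inner_self_eq_norm_sq, (hNF.prs.pr k hk).1] at e2
    simp only [conj_trivial, one_pow, mul_one] at e2
    nlinarith [hNF.pos k hk]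
  have hv : ∀ k ∈ Finset.range m, v k = A (u k) := fun k hk => by
    rw [hau k hk, hl k hk, one_smul]
  refine ⟨m, u, v, ⟨hNF.prs, fun x hx => ?_, fun k hk => ?_, h1⟩, hv⟩
  · have e := hNF.ker x hx
    rw [LinearMap.neg_apply, neg_eq_zero] at e
    have := hA2 x
    rw [e, map_zero] at this
    exact neg_eq_zero.1 this.symm
  · rw [CRep.ann_apply, hv k hk]
    exact hΩ (u k)

/-- **Antiunitary lift**, complex-structure form. -/
theorem exists_anti [FiniteDimensional ℝ V] {M : CRep V F} (hI : M.Irr) {A : V →ₗ[ℝ] V}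
    (hA : Skew A) (hA2 : ∀ x, A (A x) = -x) {Ω : F} (h1 : ‖Ω‖ = 1)
    (hΩ : ∀ x, M.θ x Ω + Complex.I • M.θ (A x) Ω = 0) (O : V →ₗᵢ[ℝ] V)
    (hO : ∀ x, O (A x) = -A (O x)) :
    ∃ Θ : F → F, AntiU Θ ∧ Θ Ω = Ω ∧ ∀ x f, Θ (M.θ x f) = M.θ (O x) (Θ f) := by
  obtain ⟨m, u, v, hV, hv⟩ := exists_pairs hA hA2 h1 hΩ
  refine exists_anti_of_vac hV hI O fun k hk => ?_
  rw [CRep.cre_apply, hv k hk, hO, M.neg, LinearMap.neg_apply, smul_neg, sub_neg_eq_add]
  exact hΩ (O (u k))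

end lift

/-! ### The index form -/

section index

variable {F : Type*} [NormedAddCommGroup F] [InnerProductSpace ℂ F] {κ : Type*} [Fintype κ]
  [DecidableEq κ] {θ : κ → F →ₗ[ℂ] F}

/-- The module over `EuclideanSpace ℝ κ`. -/
def ofCliff (hθ : Cliff θ) (hs : ∀ k, (θ k).IsSymmetric) : CRep (EuclideanSpace ℝ κ) F where
  θ x := th θ x
  add u v := th_add _ _
  smul r u := th_smul r _
  symm u f g := th_symm hs _ f g
  anti u v := by
    ext f
    change th θ u (th θ v f) + th θ v (th θ u f) = ((⟪u, v⟫_ℝ : ℝ) : ℂ) • f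
    rw [th_anti hθ]
    congr 2
    rw [PiLp.inner_apply, dotProduct]
    refine Finset.sum_congr rfl fun k _ => ?_
    change u k * v k = v k * u k
    ring

theorem ofCliff_irr (hθ : Cliff θ) (hs : ∀ k, (θ k).IsSymmetric)
    (hirr : ∀ V : Submodule ℂ F, (∀ k, ∀ v ∈ V, θ k v ∈ V) → V = ⊥ ∨ V = ⊤) :
    (ofCliff hθ hs).Irr := by
  refine ⟨fun _ _ _ _ => trivial, fun W' _ hW' => hirr W' fun k f hf => ?_⟩
  have := hW' (EuclideanSpace.single k 1) trivial f hf
  have e : (ofCliff hθ hs).θ (EuclideanSpace.single k 1) = θ k := by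
    change th θ (Pi.single k 1) = θ k
    exact th_single k
  rwa [e] at this

/-- The linear map of a matrix. -/
def mlin (J : Matrix κ κ ℝ) : EuclideanSpace ℝ κ →ₗ[ℝ] EuclideanSpace ℝ κ where
  toFun x := WithLp.toLp 2 (J.mulVec x)
  map_add' x y := by
    change WithLp.toLp 2 (J.mulVec ((x : κ → ℝ) + (y : κ → ℝ))) = _
    rw [Matrix.mulVec_add]
    rfl
  map_smul' r x := by
    change WithLp.toLp 2 (J.mulVec (r • (x : κ → ℝ))) = _
    rw [Matrix.mulVec_smul]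
    rfl

theorem mlin_apply (J : Matrix κ κ ℝ) (x : EuclideanSpace ℝ κ) :
    mlin J x = WithLp.toLp 2 (J.mulVec x) := rfl

theorem inner_toLp (x y : EuclideanSpace ℝ κ) : ⟪x, y⟫_ℝ = (x : κ → ℝ) ⬝ᵥ (y : κ → ℝ) := by
  rw [PiLp.inner_apply, dotProduct]
  refine Finset.sum_congr rfl fun k _ => ?_
  change y k * x k = x k * y k
  ring

theorem mlin_adj (J : Matrix κ κ ℝ) (x y : EuclideanSpace ℝ κ) :
    ⟪mlin J x, y⟫_ℝ = ⟪x, mlin J.transpose y⟫_ℝ := by
  rw [inner_toLp, inner_toLp]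
  change J.mulVec x ⬝ᵥ (y : κ → ℝ) = (x : κ → ℝ) ⬝ᵥ J.transpose.mulVec y
  rw [Matrix.mulVec_transpose, dotProduct_comm, Matrix.dotProduct_mulVec, dotProduct_comm]

theorem mlin_mul (J K : Matrix κ κ ℝ) (x : EuclideanSpace ℝ κ) :
    mlin J (mlin K x) = mlin (J * K) x := by
  rw [mlin_apply, mlin_apply, mlin_apply, ← Matrix.mulVec_mulVec]

theorem mlin_neg (J : Matrix κ κ ℝ) (x : EuclideanSpace ℝ κ) : mlin (-J) x = -mlin J x := by
  rw [mlin_apply, mlin_apply, Matrix.neg_mulVec]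
  rfl

theorem mlin_one (x : EuclideanSpace ℝ κ) : mlin (1 : Matrix κ κ ℝ) x = x := by
  rw [mlin_apply, Matrix.one_mulVec]

theorem skew_mlin {J : Matrix κ κ ℝ} (hJ : J.transpose = -J) : Skew (mlin J) := by
  intro x y
  rw [mlin_adj, hJ, mlin_neg, inner_neg_right]

/-- The isometry of an orthogonal matrix. -/
def isoM (O : Matrix κ κ ℝ) (hO : O.transpose * O = 1) :
    EuclideanSpace ℝ κ →ₗᵢ[ℝ] EuclideanSpace ℝ κ :=
  (mlin O).isometryOfInner fun x y => by rw [mlin_adj, mlin_mul, hO, mlin_one]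

theorem isoM_apply (O : Matrix κ κ ℝ) (hO : O.transpose * O = 1) (x : EuclideanSpace ℝ κ) :
    isoM O hO x = mlin O x := rfl

/-- **Antiunitary lift**, matrix form: `O` orthogonal, `O J = -J O`, `J² = -1`. -/
theorem exists_anti_mat (hθ : Cliff θ) (hs : ∀ k, (θ k).IsSymmetric)
    (hirr : ∀ V : Submodule ℂ F, (∀ k, ∀ v ∈ V, θ k v ∈ V) → V = ⊥ ∨ V = ⊤)
    {J O : Matrix κ κ ℝ} (hJt : J.transpose = -J) (hJ : J * J = -1) {Ω : F} (h1 : ‖Ω‖ = 1)
    (hΩ : IsVac θ J Ω) (hO : O.transpose * O = 1) (hOJ : O * J = -(J * O)) :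
    ∃ Θ : F → F, AntiU Θ ∧ Θ Ω = Ω ∧ ∀ v f, Θ (th θ v f) = th θ (O.mulVec v) (Θ f) := by
  have hk : ∀ x : EuclideanSpace ℝ κ, (ofCliff hθ hs).θ x Ω +
      Complex.I • (ofCliff hθ hs).θ (mlin J x) Ω = 0 := fun x => by
    change th θ x Ω + Complex.I • th θ (J.mulVec x) Ω = 0
    rw [IsVac.all hΩ, neg_smul, neg_add_cancel]
  obtain ⟨Θ, t1, t2, t3⟩ := exists_anti (M := ofCliff hθ hs) (ofCliff_irr hθ hs hirr)
    (skew_mlin hJt) (fun x => by rw [mlin_mul, hJ, mlin_neg, mlin_one]) h1 hk (isoM O hO)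
    (fun x => by rw [isoM_apply, isoM_apply, mlin_mul, mlin_mul, hOJ, mlin_neg])
  exact ⟨Θ, t1, t2, fun v f => t3 (WithLp.toLp 2 v) f⟩

/-- The lift of an orthogonal involution is an involution. -/
theorem anti_invol (hθ : Cliff θ) (hs : ∀ k, (θ k).IsSymmetric)
    (hirr : ∀ V : Submodule ℂ F, (∀ k, ∀ v ∈ V, θ k v ∈ V) → V = ⊥ ∨ V = ⊤)
    {O : Matrix κ κ ℝ} (hO : O.transpose * O = 1) (hO2 : O * O = 1) {Ω : F} (h0 : Ω ≠ 0)
    {Θ : F → F} (h : AntiU Θ) (hΩ : Θ Ω = Ω)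
    (hΘ : ∀ v f, Θ (th θ v f) = th θ (O.mulVec v) (Θ f)) (f : F) : Θ (Θ f) = f :=
  anti_comp (M := ofCliff hθ hs) (ofCliff_irr hθ hs hirr) h0 h h (O := isoM O hO)
    (O' := isoM O hO) hΩ hΩ (fun x f => hΘ x f) (fun x f => hΘ x f)
    (fun x => by rw [isoM_apply, isoM_apply, mlin_mul, hO2, mlin_one]) f

/-- The heavy vacuum space of a real matrix `S`: `θ(Sv) f = -i θ(SSv) f`. -/
def hvac (θ : κ → F →ₗ[ℂ] F) (S : Matrix κ κ ℝ) : Submodule ℂ F where
  carrier := {f | ∀ v : κ → ℝ, an θ S (S.mulVec v) f = 0}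
  add_mem' := fun {f g} hf hg v => by rw [map_add, hf v, hg v, add_zero]
  zero_mem' := fun v => map_zero _
  smul_mem' := fun c f hf v => by rw [map_smul, hf v, smul_zero]

theorem mem_hvac {S : Matrix κ κ ℝ} {f : F} :
    f ∈ hvac θ S ↔ ∀ v : κ → ℝ, an θ S (S.mulVec v) f = 0 := Iff.rfl

/-- `Θ` preserves the heavy vacuum space of `S` if `O S = -S O`. -/
theorem hvac_anti {S O : Matrix κ κ ℝ} (hO2 : O * O = 1) (hOS : O * S = -(S * O)) {Θ : F → F}
    (h : AntiU Θ) (hΘ : ∀ v f, Θ (th θ v f) = th θ (O.mulVec v) (Θ f)) {f : F}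
    (hf : f ∈ hvac θ S) : Θ f ∈ hvac θ S := by
  have hOS' : ∀ v, O.mulVec (S.mulVec v) = -S.mulVec (O.mulVec v) := fun v => by
    rw [Matrix.mulVec_mulVec, Matrix.mulVec_mulVec, hOS, Matrix.neg_mulVec]
  intro v
  have h2 := hf (O.mulVec v)
  have h3 : Θ (an θ S (S.mulVec (O.mulVec v)) f) = 0 := by rw [h2, h.zero]
  simp only [an, LinearMap.add_apply, LinearMap.smul_apply] at h3 ⊢
  rw [h.add, h.smul, hΘ, hΘ, Complex.conj_I, hOS', hOS', hOS', Matrix.mulVec_neg, neg_neg,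
    Matrix.mulVec_mulVec (v := v) (M := O) (N := O), hO2, Matrix.one_mulVec, th_neg,
    LinearMap.neg_apply] at h3
  have h4 : -(th θ (S.mulVec v) (Θ f) + Complex.I • th θ (S.mulVec (S.mulVec v)) (Θ f)) = 0 := by
    rw [← h3]
    module
  exact neg_eq_zero.1 h4

/-- **Reality of the heavy vacuum section**: `J² = -1`, `O` an orthogonal involution which
anticommutes with `J`, `S` and `S'`; `Ω` the vacuum of `J`. -/
theorem im_inner_hvac [FiniteDimensional ℂ F] (hθ : Cliff θ) (hs : ∀ k, (θ k).IsSymmetric)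
    (hirr : ∀ V : Submodule ℂ F, (∀ k, ∀ v ∈ V, θ k v ∈ V) → V = ⊥ ∨ V = ⊤)
    {J S S' O : Matrix κ κ ℝ} (hJt : J.transpose = -J) (hJ : J * J = -1) {Ω : F} (h1 : ‖Ω‖ = 1)
    (hΩ : IsVac θ J Ω) (hO : O.transpose * O = 1) (hO2 : O * O = 1) (hOJ : O * J = -(J * O))
    (hOS : O * S = -(S * O)) (hOS' : O * S' = -(S' * O)) :
    (⟪(hvac θ S).starProjection Ω, (hvac θ S').starProjection Ω⟫_ℂ).im = 0 := by
  obtain ⟨Θ, t1, t2, t3⟩ := exists_anti_mat hθ hs hirr hJt hJ h1 hΩ hO hOJ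
  have h0 : Ω ≠ 0 := by
    rintro rfl
    rw [norm_zero] at h1
    exact zero_ne_one h1
  exact t1.im_inner_starProjection (anti_invol hθ hs hirr hO hO2 h0 t1 t2 t3) _ _
    (fun f hf => hvac_anti hO2 hOS t1 t3 hf) (fun f hf => hvac_anti hO2 hOS' t1 t3 hf) t2

end index

end Crest.Agent.R330.Real311

end
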