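import Crest.Agent.R330.Defs_478

/-!
# Row 330: the case `N = 1` (helper547)

For one colour the configuration space is a point, the fermionic module is a line, all charges
vanish, and the kernel of the charges is one-dimensional.
-/

set_option autoImplicit false

open MeasureTheory Filter Topology Crest.MathPhysics.MatrixQM
open scoped ContDiff InnerProductSpace ENNReal

noncomputable section

namespace Crest.Agent.R330.BaseOne547

open Crest.Agent.R330.Defs478

instance emptyCol : IsEmpty (Fin (1 ^ 2 - 1)) := by
  rw [show 1 ^ 2 - 1 = 0 from rfl]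
  infer_instance

instance subCfg : Subsingleton (Cfg 1) :=
  ⟨fun x y => by
    ext i
    exact isEmptyElim i⟩

variable {F : Type*} [NormedAddCommGroup F] [InnerProductSpace ℂ F]

/-- Every vector spans an invariant subspace. -/
theorem span_top (M : FermionRep 1 F) {v : F} (hv : v ≠ 0) : Submodule.span ℂ {v} = ⊤ := by
  rcases M.irreducible (Submodule.span ℂ {v}) (fun _ A => isEmptyElim A) with h | h
  · exact absurd (Submodule.span_singleton_eq_bot.1 h) hv
  · exact h

theorem finrank_one [Nontrivial F] (M : FermionRep 1 F) : Module.finrank ℂ F = 1 := by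
  obtain ⟨v, hv⟩ := exists_ne (0 : F)
  exact finrank_eq_one v hv fun w => Submodule.mem_span_singleton.1
    (by rw [span_top M hv]; exact Submodule.mem_top)

/-- All charges vanish. -/
theorem dcharge_zero (b : ColorBasis 1) (M : FermionRep 1 F) (G : GammaNine) (g m : ℝ)
    (α : Fin 16) (φ : Cfg 1 → F) : dcharge b M G g m α φ = 0 := by
  funext x
  simp [dcharge, kin]

theorem qf_zero (b : ColorBasis 1) (M : FermionRep 1 F) (G : GammaNine) (g m : ℝ)
    (φ : Cfg 1 → F) : qf b M G g m φ = 0 := by
  simp [qf, dcharge_zero]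

theorem su_one (g : Matrix.specialUnitaryGroup (Fin 1) ℂ) : g = 1 := by
  have h := (Matrix.mem_specialUnitaryGroup_iff.1 g.2).2
  apply Subtype.ext
  ext i j
  rw [Matrix.det_fin_one] at h
  have hi : i = 0 := Subsingleton.elim _ _
  have hj : j = 0 := Subsingleton.elim _ _
  rw [hi, hj, h]
  simp

/-- Every function on the point is a core vector. -/
theorem isCore [FiniteDimensional ℂ F] {b : ColorBasis 1} {M : FermionRep 1 F}
    (R : GaugeAction b M) (φ : Cfg 1 → F) : IsCoreVec b R φ := by
  have hc : φ = fun _ => φ 0 := funext fun x => congrArg φ (Subsingleton.elim _ _)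
  refine ⟨by rw [hc]; exact contDiff_const, ?_, fun g x => ?_⟩
  · exact HasCompactSupport.of_compactSpace φ
  · rw [su_one g, map_one]
    exact congrArg φ (Subsingleton.elim _ _)

theorem volume_eq : (volume : Measure (Cfg 1)) = Measure.dirac 0 :=
  volume_euclideanSpace_eq_dirac _

instance probVol : IsProbabilityMeasure (volume : Measure (Cfg 1)) := by
  rw [volume_eq]
  infer_instance

variable [FiniteDimensional ℂ F]

theorem memLp_any (φ : Cfg 1 → F) : MemLp φ 2 volume := by
  have hc : φ = fun _ => φ 0 := funext fun x => congrArg φ (Subsingleton.elim _ _)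
  rw [hc]
  exact memLp_const _

/-- Every function is a zero state. -/
theorem mem_zset {b : ColorBasis 1} {M : FermionRep 1 F} (R : GaugeAction b M) (G : GammaNine)
    (g m : ℝ) (Ψ : Cfg 1 → F) : Ψ ∈ zset b M R G g m := by
  refine ⟨memLp_any Ψ, fun _ => Ψ, fun _ => isCore R Ψ, by simp, fun α => ?_⟩
  simp [dcharge_zero]

/-- Almost everywhere equal functions on the point are equal. -/
theorem eq_of_ae {Ψ Φ : Cfg 1 → F} (h : Ψ =ᵐ[volume] Φ) : Ψ = Φ := by
  rw [volume_eq, Filter.EventuallyEq, ae_dirac_eq] at h
  have h0 : Ψ 0 = Φ 0 := h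
  exact funext fun x => by rw [Subsingleton.elim x 0, h0]

/-- `L²` of the point is `F`. -/
def lpEquiv : Lp F 2 (volume : Measure (Cfg 1)) ≃ₗ[ℂ] F where
  toFun ψ := ψ 0
  invFun v := (memLp_any fun _ => v).toLp _
  map_add' ψ ψ' := by
    have h := eq_of_ae (Lp.coeFn_add ψ ψ')
    rw [h]
    rfl
  map_smul' c ψ := by
    have h := eq_of_ae (Lp.coeFn_smul c ψ)
    rw [h]
    rfl
  left_inv ψ := by
    apply Lp.ext
    have h := MemLp.coeFn_toLp (memLp_any (F := F) fun _ => ψ 0)
    refine h.trans (Eventually.of_forall fun x => ?_)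
    exact congrArg ψ (Subsingleton.elim _ _)
  right_inv v := by
    have h := eq_of_ae (MemLp.coeFn_toLp (memLp_any (F := F) fun _ => v))
    exact congrFun h 0

theorem zker_top {b : ColorBasis 1} {M : FermionRep 1 F} (R : GaugeAction b M) (G : GammaNine)
    (g m : ℝ) : zker b M R G g m = ⊤ := by
  rw [eq_top_iff]
  exact fun ψ _ => mem_zker.2 (mem_zset R G g m _)

/-- **`dim ker = 1` for one colour.** -/
theorem hasDim_one [Nontrivial F] {b : ColorBasis 1} {M : FermionRep 1 F} (R : GaugeAction b M)
    (G : GammaNine) (g m : ℝ) : HasDim b M R G g m 1 := by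
  unfold HasDim
  rw [zker_top R G g m, rank_top, lpEquiv.rank_eq, Nat.cast_one, ← Module.finrank_eq_rank,
    finrank_one M, Nat.cast_one]

/-- The gauge group acts trivially. -/
theorem rho_one {b : ColorBasis 1} {M : FermionRep 1 F} (R : GaugeAction b M)
    (g : Matrix.specialUnitaryGroup (Fin 1) ℂ) : R.ρ g = LinearMap.id := by
  rw [su_one g, map_one]
  rfl

/-- Every gauge action for one colour exists: the trivial one. -/
def gauge (b : ColorBasis 1) (M : FermionRep 1 F) : GaugeAction b M where
  ρ := 1
  continuous := by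
    change Continuous fun _ : Matrix.specialUnitaryGroup (Fin 1) ℂ =>
      LinearMap.toContinuousLinearMap (1 : F →ₗ[ℂ] F)
    exact continuous_const
  unitary _ _ _ := rfl
  intertwine _ _ A := isEmptyElim A

end Crest.Agent.R330.BaseOne547

end
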