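import Crest.Agent.R330.PairA_547

/-!
# Row 330, S8-PAIR (P2): the pairing identity in product coordinates (helper547)

`N = (Tn A c)ᗮ = L ⊕ Z` (orthogonal sum).  Functions on the slice are functions of
`x = (p, z) ∈ L × Z`.

* `Dec A c L Z`  : the decomposition.
* `eLZ`          : `L × Z ≃L N`.
* `norB`         : orthonormal basis of `N` from bases of `L` and `Z`.
* `QdP`          : the adjoint slice charge in product coordinates.
* `pairingP`     : the pairing identity.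
-/

set_option autoImplicit false
set_option linter.unusedSectionVars false

open MeasureTheory Filter Topology
open scoped ContDiff InnerProductSpace

noncomputable section

namespace Crest.Agent.R330.PairB547

open Crest.Agent.R330.Frame839 Crest.Agent.R330.IBP837 Crest.Agent.R330.PairA547

variable {V E : Type*} [NormedAddCommGroup V] [InnerProductSpace ℝ V] [FiniteDimensional ℝ V]
  [NormedAddCommGroup E] [InnerProductSpace ℝ E] [FiniteDimensional ℝ E]
  {F : Type*} [NormedAddCommGroup F] [InnerProductSpace ℂ F] [FiniteDimensional ℂ F]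
  {σ ι κ η : Type*} [Fintype σ] [Fintype ι] [Fintype κ] [Fintype η]

variable (A : V →L[ℝ] E →L[ℝ] E) (c : E) (L Z : Submodule ℝ E)

/-- `N = L ⊕ Z`, orthogonally. -/
structure Dec : Prop where
  L_le : L ≤ (Tn A c)ᗮ
  Z_le : Z ≤ (Tn A c)ᗮ
  orth : ∀ x ∈ L, ∀ z ∈ Z, ⟪x, z⟫_ℝ = 0
  dec : ∀ x ∈ (Tn A c)ᗮ, ∃ y ∈ L, ∃ z ∈ Z, x = y + z

variable {A c L Z}

theorem Dec.inner_zero (h : Dec A c L Z) (x : L) (z : Z) : ⟪(x : E), (z : E)⟫_ℝ = 0 :=
  h.orth x x.2 z z.2

/-- The sum map. -/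
def sumMap (h : Dec A c L Z) : (L × Z) →ₗ[ℝ] (Tn A c)ᗮ where
  toFun x := ⟨x.1 + x.2, Submodule.add_mem _ (h.L_le x.1.2) (h.Z_le x.2.2)⟩
  map_add' x y := by
    apply Subtype.ext
    simp only [Prod.fst_add, Prod.snd_add, Submodule.coe_add]
    abel
  map_smul' r x := by
    apply Subtype.ext
    simp

theorem sumMap_coe (h : Dec A c L Z) (x : L × Z) : ((sumMap h x : (Tn A c)ᗮ) : E) = x.1 + x.2 :=
  rfl

theorem norm_sq_sum (h : Dec A c L Z) (p : L) (z : Z) :
    ‖(p : E) + (z : E)‖ ^ 2 = ‖p‖ ^ 2 + ‖z‖ ^ 2 := by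
  rw [← real_inner_self_eq_norm_sq, inner_add_left, inner_add_right, inner_add_right,
    h.inner_zero, real_inner_comm (p : E) (z : E), h.inner_zero, real_inner_self_eq_norm_sq,
    real_inner_self_eq_norm_sq]
  simp

theorem sumMap_bij (h : Dec A c L Z) : Function.Bijective (sumMap h) := by
  constructor
  · rw [← LinearMap.ker_eq_bot, LinearMap.ker_eq_bot']
    intro x hx
    have h1 : ((x.1 : E) + (x.2 : E)) = 0 := congrArg Subtype.val hx
    have h2 := norm_sq_sum h x.1 x.2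
    rw [h1, norm_zero] at h2
    have h3 : ‖x.1‖ = 0 := by nlinarith [norm_nonneg x.1, norm_nonneg x.2]
    have h4 : ‖x.2‖ = 0 := by nlinarith [norm_nonneg x.1, norm_nonneg x.2]
    exact Prod.ext (norm_eq_zero.1 h3) (norm_eq_zero.1 h4)
  · intro u
    obtain ⟨y, hy, z, hz, hu⟩ := h.dec u u.2
    exact ⟨(⟨y, hy⟩, ⟨z, hz⟩), Subtype.ext hu.symm⟩

/-- `L × Z ≃L N`. -/
def eLZ (h : Dec A c L Z) : (L × Z) ≃L[ℝ] (Tn A c)ᗮ :=
  (LinearEquiv.ofBijective (sumMap h) (sumMap_bij h)).toContinuousLinearEquiv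

theorem eLZ_coe (h : Dec A c L Z) (x : L × Z) : ((eLZ h x : (Tn A c)ᗮ) : E) = x.1 + x.2 :=
  rfl

/-- Orthonormal basis of `N` from bases of `L` and `Z`. -/
def norB (h : Dec A c L Z) (u : OrthonormalBasis ι ℝ L) (v : OrthonormalBasis κ ℝ Z) :
    OrthonormalBasis (ι ⊕ κ) ℝ (Tn A c)ᗮ := by
  classical
  refine OrthonormalBasis.mk (v := Sum.elim
    (fun s => eLZ h (u s, 0)) (fun a => eLZ h (0, v a))) ?_ ?_
  · rw [orthonormal_iff_ite]
    rintro (i | i) (j | j)
    · have := u.inner_eq_ite i j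
      simpa [Submodule.coe_inner, eLZ_coe] using this
    · have : ⟪((u i : L) : E), ((v j : Z) : E)⟫_ℝ = 0 := h.inner_zero _ _
      simpa [Submodule.coe_inner, eLZ_coe] using this
    · have : ⟪((v i : Z) : E), ((u j : L) : E)⟫_ℝ = 0 := by
        rw [real_inner_comm]
        exact h.inner_zero _ _
      simpa [Submodule.coe_inner, eLZ_coe] using this
    · have := v.inner_eq_ite i j
      simpa [Submodule.coe_inner, eLZ_coe] using this
  · intro x _
    have hx : x = eLZ h (((eLZ h).symm x).1, 0) + eLZ h (0, ((eLZ h).symm x).2) := by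
      rw [← map_add, Prod.mk_add_mk, add_zero, zero_add]
      simp
    rw [hx]
    refine Submodule.add_mem _ ?_ ?_
    · have h2 : eLZ h (((eLZ h).symm x).1, 0) =
          ∑ s, ⟪u s, ((eLZ h).symm x).1⟫_ℝ • eLZ h (u s, 0) := by
        conv_lhs => rw [← u.sum_repr' ((eLZ h).symm x).1]
        have h3 : ((∑ s, ⟪u s, ((eLZ h).symm x).1⟫_ℝ • u s, 0) : L × Z) =
            ∑ s, ⟪u s, ((eLZ h).symm x).1⟫_ℝ • ((u s, 0) : L × Z) := by
          refine Prod.ext ?_ ?_
          · simp [Prod.fst_sum]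
          · simp [Prod.snd_sum]
        rw [h3, map_sum]
        exact Finset.sum_congr rfl fun s _ => map_smul _ _ _
      rw [h2]
      exact Submodule.sum_mem _ fun s _ =>
        Submodule.smul_mem _ _ (Submodule.subset_span ⟨Sum.inl s, rfl⟩)
    · have h2 : eLZ h (0, ((eLZ h).symm x).2) =
          ∑ s, ⟪v s, ((eLZ h).symm x).2⟫_ℝ • eLZ h (0, v s) := by
        conv_lhs => rw [← v.sum_repr' ((eLZ h).symm x).2]
        have h3 : ((0, ∑ s, ⟪v s, ((eLZ h).symm x).2⟫_ℝ • v s) : L × Z) =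
            ∑ s, ⟪v s, ((eLZ h).symm x).2⟫_ℝ • ((0, v s) : L × Z) := by
          refine Prod.ext ?_ ?_
          · simp [Prod.fst_sum]
          · simp [Prod.snd_sum]
        rw [h3, map_sum]
        exact Finset.sum_congr rfl fun s _ => map_smul _ _ _
      rw [h2]
      exact Submodule.sum_mem _ fun s _ =>
        Submodule.smul_mem _ _ (Submodule.subset_span ⟨Sum.inr s, rfl⟩)

theorem norB_inl (h : Dec A c L Z) (u : OrthonormalBasis ι ℝ L) (v : OrthonormalBasis κ ℝ Z)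
    (s : ι) : norB h u v (Sum.inl s) = eLZ h (u s, 0) := by
  unfold norB
  simp

theorem norB_inr (h : Dec A c L Z) (u : OrthonormalBasis ι ℝ L) (v : OrthonormalBasis κ ℝ Z)
    (s : κ) : norB h u v (Sum.inr s) = eLZ h (0, v s) := by
  unfold norB
  simp

/-! ## The slice charge in product coordinates -/

variable (A c L Z)

/-- components of the horizontal remainder at `c + p + z` -/
def nP (t : Tn A c) (x : L × Z) : L × Z :=
  (L.orthogonalProjection (nn A c (c + x.1 + x.2) t),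
    Z.orthogonalProjection (nn A c (c + x.1 + x.2) t))

variable {A c L Z} in
/-- divergence of the horizontal remainder -/
def dvP (h : Dec A c L Z) (eT : OrthonormalBasis η ℝ (Tn A c)) (u : OrthonormalBasis ι ℝ L)
    (v : OrthonormalBasis κ ℝ Z) (t : η) (x : L × Z) : ℝ :=
  ∑ n, fderiv ℝ (cf A c eT (norB h u v) n t) (eLZ h x) (norB h u v n)

variable {A c L Z} in
/-- **The adjoint slice charge in product coordinates.** -/
def QdP (h : Dec A c L Z) (Θ : E →ₗ[ℝ] (F →ₗ[ℂ] F)) (W : E → (F →ₗ[ℂ] F))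
    (Bf : V →ₗ[ℝ] (F →ₗ[ℝ] F)) (eT : OrthonormalBasis η ℝ (Tn A c))
    (u : OrthonormalBasis ι ℝ L) (v : OrthonormalBasis κ ℝ Z) (τ : L × Z → F) (x : L × Z) : F :=
  (∑ s, (-Complex.I) • Θ (u s) (fderiv ℝ τ x (u s, 0))) +
    (∑ s, (-Complex.I) • Θ (v s) (fderiv ℝ τ x (0, v s))) + W (c + x.1 + x.2) (τ x) +
    (∑ t, (-Complex.I) • Bf (om A c (c + x.1 + x.2) (eT t)) (Θ (eT t) (τ x))) +
    ∑ t, Complex.I • Θ (eT t) (dvP h eT u v t x • τ x + fderiv ℝ τ x (nP A c L Z (eT t) x))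

variable {A c L Z}
variable {r B : ℝ}

theorem eLZ_nP (h : Dec A c L Z) (hr0 : 0 < r) (hr : GapAt A c r) (hB : ActBound A B)
    (t : Tn A c) {x : L × Z} (hx : B * ‖(x.1 : E) + x.2‖ ≤ r / 2) :
    ((eLZ h (nP A c L Z t x) : (Tn A c)ᗮ) : E) = nn A c (c + x.1 + x.2) t := by
  have hx' : B * ‖(c + x.1 + x.2 : E) - c‖ ≤ r / 2 := by
    rw [show (c + x.1 + x.2 : E) - c = x.1 + x.2 by abel]
    exact hx
  have hm := nn_mem hr0 hr hB hx' t
  obtain ⟨y, hy, z, hz, hu⟩ := h.dec _ hm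
  have h1 : ∀ w ∈ L, ⟪w, z⟫_ℝ = 0 := fun w hw => h.orth w hw z hz
  have h2 : ∀ w ∈ Z, ⟪w, y⟫_ℝ = 0 := fun w hw => by
    rw [real_inner_comm]
    exact h.orth y hy w hw
  rw [eLZ_coe]
  unfold nP
  simp only
  rw [hu, map_add, map_add]
  have e1 : L.orthogonalProjection y = ⟨y, hy⟩ :=
    Submodule.orthogonalProjection_mem_subspace_eq_self (⟨y, hy⟩ : L)
  have e2 : L.orthogonalProjection z = 0 :=
    Submodule.orthogonalProjection_mem_subspace_orthogonalComplement_eq_zero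
      ((Submodule.mem_orthogonal _ _).2 h1)
  have e3 : Z.orthogonalProjection z = ⟨z, hz⟩ :=
    Submodule.orthogonalProjection_mem_subspace_eq_self (⟨z, hz⟩ : Z)
  have e4 : Z.orthogonalProjection y = 0 :=
    Submodule.orthogonalProjection_mem_subspace_orthogonalComplement_eq_zero
      ((Submodule.mem_orthogonal _ _).2 h2)
  rw [e1, e2, e3, e4]
  simp

/-- `Qd` on `N` is `QdP` on `L × Z`. -/
theorem Qd_eq (h : Dec A c L Z) (hr0 : 0 < r) (hr : GapAt A c r) (hB : ActBound A B)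
    (Θ : E →ₗ[ℝ] (F →ₗ[ℂ] F)) (W : E → (F →ₗ[ℂ] F))
    (Bf : V →ₗ[ℝ] (F →ₗ[ℝ] F)) (eT : OrthonormalBasis η ℝ (Tn A c))
    (u : OrthonormalBasis ι ℝ L) (v : OrthonormalBasis κ ℝ Z) {τ : L × Z → F} {x : L × Z}
    (hτ : DifferentiableAt ℝ τ x) (hx : B * ‖(x.1 : E) + x.2‖ ≤ r / 2) :
    Qd A c Θ W Bf eT (norB h u v) (fun w => τ ((eLZ h).symm w)) (eLZ h x) =
      QdP h Θ W Bf eT u v τ x := by
  have hs : (eLZ h).symm (eLZ h x) = x := (eLZ h).symm_apply_apply x
  have hd : HasFDerivAt (fun w => τ ((eLZ h).symm w))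
      ((fderiv ℝ τ x).comp ((eLZ h).symm : (Tn A c)ᗮ →L[ℝ] L × Z)) (eLZ h x) := by
    have h1 : HasFDerivAt τ (fderiv ℝ τ x) ((eLZ h).symm (eLZ h x)) := by
      rw [hs]
      exact hτ.hasFDerivAt
    exact h1.comp (eLZ h x) (eLZ h).symm.hasFDerivAt
  have hD : ∀ w, fderiv ℝ (fun w => τ ((eLZ h).symm w)) (eLZ h x) (eLZ h w) = fderiv ℝ τ x w := by
    intro w
    rw [hd.fderiv]
    simp
  have hcoe : (c + ((eLZ h x : (Tn A c)ᗮ) : E)) = c + x.1 + x.2 := by
    rw [eLZ_coe, add_assoc]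
  unfold Qd QdP
  simp only [hs]
  rw [hcoe, Fintype.sum_sum_type]
  simp only [norB_inl, norB_inr, hD]
  have hi : ∀ s, ((eLZ h (u s, 0) : (Tn A c)ᗮ) : E) = u s := fun s => by simp [eLZ_coe]
  have hj : ∀ s, ((eLZ h (0, v s) : (Tn A c)ᗮ) : E) = v s := fun s => by simp [eLZ_coe]
  simp only [hi, hj]
  congr 1
  rw [Finset.sum_comm]
  refine Finset.sum_congr rfl fun t _ => ?_
  rw [← Finset.smul_sum, ← map_sum]
  congr 2
  have hu' : B * ‖eLZ h x‖ ≤ r / 2 := hx
  have hcf : ∀ n, DifferentiableAt ℝ (cf A c eT (norB h u v) n t) (eLZ h x) := fun n =>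
    (contDiffAt_cf hr0 hr hB eT (norB h u v) n t hu').differentiableAt (by simp)
  have h3 : ∀ n, fderiv ℝ (fun w => cf A c eT (norB h u v) n t w • τ ((eLZ h).symm w))
      (eLZ h x) (norB h u v n) =
      fderiv ℝ (cf A c eT (norB h u v) n t) (eLZ h x) (norB h u v n) • τ x +
      cf A c eT (norB h u v) n t (eLZ h x) •
        fderiv ℝ (fun w => τ ((eLZ h).symm w)) (eLZ h x) (norB h u v n) := by
    intro n
    have h4 := (hcf n).hasFDerivAt.fun_smul hd
    rw [h4.fderiv, hd.fderiv, hs]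
    simp only [ContinuousLinearMap.add_apply, ContinuousLinearMap.smul_apply,
      ContinuousLinearMap.smulRight_apply]
    rw [add_comm]
  simp only [h3]
  rw [Finset.sum_add_distrib, ← Finset.sum_smul]
  unfold dvP
  congr 1
  simp only [← map_smul]
  rw [← map_sum]
  have h5 : ∑ n, cf A c eT (norB h u v) n t (eLZ h x) • (norB h u v n) =
      eLZ h (nP A c L Z (eT t) x) := by
    have h6 := (norB h u v).sum_repr' (eLZ h (nP A c L Z (eT t) x))
    rw [← h6]
    refine Finset.sum_congr rfl fun n _ => ?_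
    congr 1
    unfold cf
    rw [hcoe, Submodule.coe_inner, eLZ_nP h hr0 hr hB (eT t) hx]
  rw [h5, hD]

section integral

variable [MeasurableSpace E] [BorelSpace E]

/-- The measure of the slice. -/
def muN (h : Dec A c L Z) : Measure (Tn A c)ᗮ :=
  ((volume : Measure L).prod (volume : Measure Z)).map (eLZ h)

instance (h : Dec A c L Z) : (muN h).IsAddHaarMeasure := by
  unfold muN
  exact (eLZ h).isAddHaarMeasure_map _

theorem integral_muN (h : Dec A c L Z) {G : Type*} [NormedAddCommGroup G] [NormedSpace ℝ G]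
    (f : (Tn A c)ᗮ → G) : ∫ w, f w ∂(muN h) = ∫ x : L × Z, f (eLZ h x) := by
  exact (eLZ h).toHomeomorph.measurableEmbedding.integral_map f

/-- **The exact pairing identity in product coordinates.** -/
theorem pairingP (h : Dec A c L Z) (hr0 : 0 < r) (hr : GapAt A c r)
    (hB : ActBound A B) {Θ : E →ₗ[ℝ] (F →ₗ[ℂ] F)} (hΘ : ∀ v, (Θ v).IsSymmetric)
    {W : E → (F →ₗ[ℂ] F)} (hW : ∀ x, (W x).IsSymmetric)
    (hWc : ∀ v, Continuous fun x => W x v) {Bf : V →ₗ[ℝ] (F →ₗ[ℝ] F)}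
    (hBf : ∀ w v v', ⟪Bf w v, v'⟫_ℂ = - ⟪v, Bf w v'⟫_ℂ) (e : OrthonormalBasis σ ℝ E)
    (eT : OrthonormalBasis η ℝ (Tn A c)) (u : OrthonormalBasis ι ℝ L)
    (v : OrthonormalBasis κ ℝ Z)
    {φ : E → F} (hφ : ContDiff ℝ 1 φ) {τ : L × Z → F} (hτ : ContDiff ℝ 1 τ)
    (hc : HasCompactSupport τ) (hs : ∀ x ∈ tsupport τ, B * ‖(x.1 : E) + x.2‖ ≤ r / 2)
    (hI : ∀ x ∈ tsupport τ, InfEq A Bf φ (c + x.1 + x.2)) :
    ∫ x : L × Z, ⟪chg Θ W e φ (c + x.1 + x.2), τ x⟫_ℂ =
      ∫ x : L × Z, ⟪φ (c + x.1 + x.2), QdP h Θ W Bf eT u v τ x⟫_ℂ := by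
  set τN : (Tn A c)ᗮ → F := fun w => τ ((eLZ h).symm w) with hτN
  have hts : ∀ w ∈ tsupport τN, (eLZ h).symm w ∈ tsupport τ := by
    intro w hw
    have h1 : tsupport τN = (eLZ h).symm ⁻¹' tsupport τ :=
      tsupport_comp_eq_preimage τ (eLZ h).symm.toHomeomorph
    rw [h1] at hw
    exact hw
  have hce : ∀ w : (Tn A c)ᗮ, (c + (w : E)) =
      c + (((eLZ h).symm w).1 : E) + (((eLZ h).symm w).2 : E) := by
    intro w
    conv_lhs => rw [← (eLZ h).apply_symm_apply w]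
    rw [eLZ_coe, add_assoc]
  have key := pairing (muN h) hr0 hr hB hΘ hW hWc hBf e eT (norB h u v) hφ (τ := τN)
    (hτ.comp (eLZ h).symm.contDiff) (hc.comp_homeomorph (eLZ h).symm.toHomeomorph)
    (fun w hw => by
      have h2 := hs _ (hts w hw)
      have h3 : ((((eLZ h).symm w).1 : E) + (((eLZ h).symm w).2 : E)) = w := by
        rw [← eLZ_coe h, ContinuousLinearEquiv.apply_symm_apply]
      rw [h3] at h2
      exact h2)
    (fun w hw => by
      rw [hce w]
      exact hI _ (hts w hw))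
  rw [integral_muN, integral_muN] at key
  have hcoe : ∀ x : L × Z, (c + ((eLZ h x : (Tn A c)ᗮ) : E)) = c + x.1 + x.2 := fun x => by
    rw [eLZ_coe, add_assoc]
  have h1 : (fun x : L × Z => ⟪chg Θ W e φ (c + ((eLZ h x : (Tn A c)ᗮ) : E)), τN (eLZ h x)⟫_ℂ) =
      fun x => ⟪chg Θ W e φ (c + x.1 + x.2), τ x⟫_ℂ := by
    funext x
    rw [hcoe x, hτN]
    simp
  rw [h1] at key
  rw [key]
  refine integral_congr_ae (Eventually.of_forall fun x => ?_)
  change ⟪φ (c + ((eLZ h x : (Tn A c)ᗮ) : E)), Qd A c Θ W Bf eT (norB h u v) τN (eLZ h x)⟫_ℂ =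
    ⟪φ (c + x.1 + x.2), QdP h Θ W Bf eT u v τ x⟫_ℂ
  rw [hcoe x]
  by_cases hx : x ∈ tsupport τ
  · rw [Qd_eq h hr0 hr hB Θ W Bf eT u v (hτ.differentiable one_ne_zero x) (hs x hx)]
  · have h0 : τ =ᶠ[𝓝 x] 0 := notMem_tsupport_iff_eventuallyEq.mp hx
    have h2 : QdP h Θ W Bf eT u v τ x = 0 := by
      have h3 : fderiv ℝ τ x = 0 := by
        rw [h0.fderiv_eq]
        simp
      have h4 : τ x = 0 := h0.self_of_nhds
      unfold QdP
      rw [h3, h4]
      simp
    have h5 : Qd A c Θ W Bf eT (norB h u v) τN (eLZ h x) = 0 := by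
      have h6 : τN =ᶠ[𝓝 (eLZ h x)] 0 := by
        have h7 : Tendsto (eLZ h).symm (𝓝 (eLZ h x)) (𝓝 x) := by
          have := (eLZ h).symm.continuous.tendsto (eLZ h x)
          rwa [(eLZ h).symm_apply_apply] at this
        exact h7.eventually h0
      have h8 : fderiv ℝ τN (eLZ h x) = 0 := by
        rw [h6.fderiv_eq]
        simp
      have h9 : τN (eLZ h x) = 0 := h6.self_of_nhds
      have h10 : ∀ n t, fderiv ℝ (fun w => cf A c eT (norB h u v) n t w • τN w) (eLZ h x) = 0 := by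
        intro n t
        have h11 : (fun w => cf A c eT (norB h u v) n t w • τN w) =ᶠ[𝓝 (eLZ h x)] 0 := by
          filter_upwards [h6] with w hw
          rw [hw]
          simp
        rw [h11.fderiv_eq]
        simp
      unfold Qd
      rw [h8, h9]
      simp [h10]
    rw [h2, h5]

end integral

end Crest.Agent.R330.PairB547

end
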