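import Crest.Agent.R330.AX_984
import Crest.Agent.R330.FactI_161
import Crest.Agent.R330.PairB_547

/-!
# Row 330 (helper942), S8-PAIR: the heavy main term vanishes

`X` a commuting configuration, `D i = ad X_i`, `K` the common kernel (984's `Fam`), `A_X` 984's
`|r| P_{r^⊥}`, `J = -Σ γ^i ⊗ D_i |D|⁻¹` the complex structure of the heavy vacuum.

* `tv`, `wv` : spinor-colour vectors of `Theta` and `vco`.
* `J_tv`  : `J (Γ_α (A_X z)) = 2 wb_α(X, z)` for EVERY `z` (no transversality).
* `J_J`   : `J² = -1` on heavy vectors.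
* `heavy_main` : `(i g Θ_α(A_X z) + 2 g wb_α(X, z)) f = 0` for `f` in the heavy vacuum.
* `AX_act` : `A_X [ω, X] = 0`.
* `heavy_main_slice` : the same on the FIXED slice at `c` (gradient along `Zs b c` + oblique term).
-/

set_option autoImplicit false
set_option linter.unusedSectionVars false

open MeasureTheory Filter Topology Crest.MathPhysics.MatrixQM
open scoped ContDiff InnerProductSpace

noncomputable section

namespace Crest.Agent.R330.HMain942

open Crest.Agent.R330.AX984 Crest.Agent.R330.FactI161 Crest.Agent.R330.Bind6839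
  Crest.Agent.R330.LS839 Crest.Agent.R330.Frame839 Crest.Agent.R330.Defs478
  Crest.Agent.R330.IBP837 Crest.Agent.R330.Cliff442

variable {N : ℕ} {F : Type*} [NormedAddCommGroup F] [InnerProductSpace ℂ F]
  [FiniteDimensional ℂ F]

/-! ### vectors -/

/-- `w` as a spinor-colour vector -/
def wv (w : Fin 16 → Fin (N ^ 2 - 1) → ℝ) : W16 N := WithLp.toLp 2 fun p => w p.1 p.2

theorem row_wv (w : Fin 16 → Fin (N ^ 2 - 1) → ℝ) (β : Fin 16) :
    row β (wv w) = WithLp.toLp 2 (w β) := rfl

/-- `Γ_α e` as a spinor-colour vector -/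
def tv (G : GammaNine) (α : Fin 16) (e : Cfg N) : W16 N :=
  wv fun β A => ∑ i, G.γ i α β * e (i, A)

theorem row_tv (G : GammaNine) (α β : Fin 16) (e : Cfg N) :
    row β (tv G α e) = ∑ i, G.γ i α β • comp e i := by
  ext A
  rw [row_apply]
  simp [tv, wv, comp]

theorem vco_eq (M : FermionRep N F) (w : Fin 16 → Fin (N ^ 2 - 1) → ℝ) :
    vco M w = (cr M).θ (wv w) := by
  ext f
  rw [cr_apply, vco_apply, Fintype.sum_prod_type, Finset.sum_comm]
  rfl

theorem Theta_cr (M : FermionRep N F) (G : GammaNine) (α : Fin 16) (e : Cfg N) :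
    Theta M G α e = (cr M).θ (tv G α e) := by
  rw [Theta_eq, vco_eq]
  rfl

/-! ### gamma matrices -/

theorem gam_sym (G : GammaNine) (i : Fin 9) (α β : Fin 16) : G.γ i α β = G.γ i β α := by
  have := congrFun (congrFun (G.symm i) β) α
  rwa [Matrix.transpose_apply] at this

theorem gam_ne (G : GammaNine) {i j : Fin 9} (h : i ≠ j) (α β : Fin 16) :
    (G.γ i * G.γ j) α β + (G.γ j * G.γ i) α β = 0 := by
  have h1 := G.clifford i j
  rw [if_neg h] at h1
  have := congrFun (congrFun h1 α) β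
  simpa using this

theorem gam_self (G : GammaNine) (i : Fin 9) (α β : Fin 16) :
    (G.γ i * G.γ i) α β = (1 : Matrix (Fin 16) (Fin 16) ℝ) α β := by
  have h1 := G.clifford i i
  rw [if_pos rfl] at h1
  have h2 := congrFun (congrFun h1 α) β
  rw [Matrix.add_apply] at h2
  by_cases h : α = β
  · subst h
    have h3 : (2 : Matrix (Fin 16) (Fin 16) ℝ) α α = 2 := by
      simp [Matrix.ofNat_apply]
    rw [Matrix.one_apply_eq]
    linarith
  · have h3 : (2 : Matrix (Fin 16) (Fin 16) ℝ) α β = 0 := by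
      simp [Matrix.ofNat_apply, h]
    rw [Matrix.one_apply_ne h]
    linarith

theorem gam2 (G : GammaNine) (i j : Fin 9) (α β : Fin 16) :
    G.γ2 i j α β = (if i = j then (1 : Matrix (Fin 16) (Fin 16) ℝ) α β else 0) -
      (G.γ j * G.γ i) α β := by
  unfold GammaNine.γ2
  rw [Matrix.smul_apply, Matrix.sub_apply, smul_eq_mul]
  by_cases h : i = j
  · subst h
    rw [if_pos rfl, gam_self]
    ring
  · rw [if_neg h]
    have := gam_ne G h α β
    linarith

/-! ### the symmetric part -/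

section sym

variable {ι V : Type*} [Fintype ι] [NormedAddCommGroup V] [InnerProductSpace ℝ V]
  [FiniteDimensional ℝ V] {K : Submodule ℝ V} {s : ℝ} {D : ι → V →L[ℝ] V}

theorem sum_sym (h : Fam K s D) {κ : ℝ} {c : ι → ι → ℝ}
    (hc : ∀ i j, i ≠ j → c i j + c j i = 0) (hd : ∀ i, c i i = κ) (u : V) :
    ∑ i, ∑ j, c i j • D i (D j u) = κ • ∑ j, D j (D j u) := by
  have h4 : (2 : ℝ) • ∑ i, ∑ j, c i j • D i (D j u) = (2 : ℝ) • κ • ∑ j, D j (D j u) := by
    calc (2 : ℝ) • ∑ i, ∑ j, c i j • D i (D j u)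
        = ∑ i, ∑ j, c i j • D i (D j u) + ∑ i, ∑ j, c j i • D j (D i u) := by
          rw [two_smul]
          congr 1
          exact Finset.sum_comm
      _ = ∑ i, ∑ j, (c i j + c j i) • D i (D j u) := by
          rw [← Finset.sum_add_distrib]
          refine Finset.sum_congr rfl fun i _ => ?_
          rw [← Finset.sum_add_distrib]
          refine Finset.sum_congr rfl fun j _ => ?_
          rw [h.comm j i, add_smul]
      _ = ∑ i, (2 * κ) • D i (D i u) := by
          refine Finset.sum_congr rfl fun i _ => ?_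
          rw [Finset.sum_eq_single i]
          · rw [hd, two_mul]
          · intro j _ hj
            rw [hc i j (Ne.symm hj), zero_smul]
          · intro hn; exact absurd (Finset.mem_univ i) hn
      _ = _ := by rw [← Finset.smul_sum, smul_smul]
  exact smul_right_injective V (two_ne_zero (α := ℝ)) h4

theorem sum_DD (h : Fam K s D) (hs : 0 < s) {v : V} (hv : v ∈ Kᗮ) :
    ∑ j, D j (D j (li K D (li K D v))) = -v := by
  have h1 := h.lr_lr hs (li K D (li K D v))
  rw [h.lr_li hs, h.lr_li hs, proj_zero (h.li_mem hs (h.li_mem hs hv)), zero_sub] at h1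
  have h2 := congrArg Neg.neg h1
  rw [neg_neg] at h2
  exact h2.symm

end sym

/-! ### the complex structure -/

section J

variable (G : GammaNine) {K : Submodule ℝ (Colg N)} {s : ℝ} {D : Fin 9 → Colg N →L[ℝ] Colg N}

/-- `J = -Σ γ^i ⊗ D_i |D|⁻¹` -/
def JX (K : Submodule ℝ (Colg N)) (D : Fin 9 → Colg N →L[ℝ] Colg N) : W16 N →ₗ[ℝ] W16 N :=
  -∑ β, ∑ β', ∑ i, G.γ i β β' • (ins β ∘ₗ (D i : Colg N →ₗ[ℝ] Colg N) ∘ₗ
    (li K D : Colg N →ₗ[ℝ] Colg N) ∘ₗ row β')

theorem row_JX (x : W16 N) (β : Fin 16) :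
    row β (JX G K D x) = -∑ i, ∑ β', G.γ i β β' • D i (li K D (row β' x)) := by
  unfold JX
  rw [LinearMap.neg_apply, map_neg, LinearMap.sum_apply, map_sum]
  congr 1
  rw [Finset.sum_eq_single β]
  · rw [LinearMap.sum_apply, map_sum, Finset.sum_comm]
    refine Finset.sum_congr rfl fun β' _ => ?_
    rw [LinearMap.sum_apply, map_sum]
    refine Finset.sum_congr rfl fun i _ => ?_
    simp only [LinearMap.smul_apply, LinearMap.comp_apply, map_smul, row_ins_self]
    rfl
  · intro β₁ _ hβ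
    rw [LinearMap.sum_apply, map_sum]
    refine Finset.sum_eq_zero fun β' _ => ?_
    rw [LinearMap.sum_apply, map_sum]
    refine Finset.sum_eq_zero fun i _ => ?_
    simp only [LinearMap.smul_apply, LinearMap.comp_apply, map_smul, row_ins, if_neg hβ.symm,
      smul_zero]
  · intro h
    exact absurd (Finset.mem_univ _) h

variable {G} {J : W16 N →ₗ[ℝ] W16 N}
  (hJ : ∀ x β, row β (J x) = -∑ i, ∑ β', G.γ i β β' • D i (li K D (row β' x)))
include hJ

/-- `J² = -1` on heavy vectors -/
theorem J_J (h : Fam K s D) (hs : 0 < s) {x : W16 N} (hx : ∀ β, row β x ∈ Kᗮ) :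
    J (J x) = -x := by
  refine ext_row fun β => ?_
  rw [hJ, map_neg]
  congr 1
  have h1 : ∀ i β', G.γ i β β' • D i (li K D (row β' (J x))) =
      -∑ β'', ∑ j, (G.γ i β β' * G.γ j β' β'') • D i (D j (li K D (li K D (row β'' x)))) := by
    intro i β'
    rw [hJ, map_neg, map_neg, smul_neg, map_sum, map_sum, Finset.smul_sum, Finset.sum_comm]
    congr 1
    refine Finset.sum_congr rfl fun j _ => ?_
    rw [map_sum, map_sum, Finset.smul_sum]
    refine Finset.sum_congr rfl fun β'' _ => ?_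
    rw [map_smul, map_smul, smul_smul, ← h.D_li hs j]
  simp only [h1, Finset.sum_neg_distrib]
  have h2 : ∑ i, ∑ β', ∑ β'', ∑ j, (G.γ i β β' * G.γ j β' β'') •
      D i (D j (li K D (li K D (row β'' x)))) =
      ∑ β'', ∑ i, ∑ j, (G.γ i * G.γ j) β β'' • D i (D j (li K D (li K D (row β'' x)))) := by
    have h3 : ∀ i, ∑ β', ∑ β'', ∑ j, (G.γ i β β' * G.γ j β' β'') •
        D i (D j (li K D (li K D (row β'' x)))) =
        ∑ β'', ∑ j, (G.γ i * G.γ j) β β'' • D i (D j (li K D (li K D (row β'' x)))) := by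
      intro i
      rw [Finset.sum_comm]
      refine Finset.sum_congr rfl fun β'' _ => ?_
      rw [Finset.sum_comm]
      refine Finset.sum_congr rfl fun j _ => ?_
      rw [← Finset.sum_smul, Matrix.mul_apply]
    simp only [h3]
    rw [Finset.sum_comm]
  rw [h2]
  have h4 : ∀ β'', ∑ i, ∑ j, (G.γ i * G.γ j) β β'' • D i (D j (li K D (li K D (row β'' x)))) =
      (1 : Matrix (Fin 16) (Fin 16) ℝ) β β'' • (-(row β'' x)) := by
    intro β''
    rw [sum_sym h (fun i j hij => gam_ne G hij β β'') (fun i => gam_self G i β β''),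
      sum_DD h hs (hx β'')]
  simp only [h4]
  rw [Finset.sum_eq_single β]
  · rw [Matrix.one_apply_eq, one_smul, neg_neg]
  · intro β'' _ hβ
    rw [Matrix.one_apply_ne hβ.symm, zero_smul]
  · intro hn
    exact absurd (Finset.mem_univ _) hn

variable (b : ColorBasis N) {X : Cfg N} (τ : Ten (Fin 9) (Colg N) (Cfg N))
  (hτ : ∀ i x, τ.pr i x = comp x i) (hD : ∀ i u, D i u = (colAlg b).br (comp X i) u)
include hτ hD

/-- **`J Γ_α A_X z = 2 wb_α(X, z)`** -/
theorem J_tv (h : Fam K s D) (hs : 0 < s) (α : Fin 16) (z : Cfg N) :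
    J (tv G α (τ.AX K D z)) = wv fun β A => 2 * wb b G α β A X z := by
  refine ext_row fun β => ?_
  rw [hJ]
  have h1 : ∀ i, ∑ β', G.γ i β β' • D i (li K D (row β' (tv G α (τ.AX K D z)))) =
      ∑ j, (G.γ j * G.γ i) α β • D i (li K D (τ.pr j (τ.AX K D z))) := by
    intro i
    have h2 : ∀ β', G.γ i β β' • D i (li K D (row β' (tv G α (τ.AX K D z)))) =
        ∑ j, (G.γ j α β' * G.γ i β' β) • D i (li K D (τ.pr j (τ.AX K D z))) := by
      intro β'
      rw [row_tv, map_sum, map_sum, Finset.smul_sum]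
      refine Finset.sum_congr rfl fun j _ => ?_
      rw [map_smul, map_smul, smul_smul, gam_sym G i β β', mul_comm, hτ]
    simp only [h2]
    rw [Finset.sum_comm]
    refine Finset.sum_congr rfl fun j _ => ?_
    rw [← Finset.sum_smul, Matrix.mul_apply]
  simp only [h1]
  rw [h.charge τ hs (c := fun i j => (G.γ j * G.γ i) α β)
    (κ := (1 : Matrix (Fin 16) (Fin 16) ℝ) α β) (fun i j hij => gam_ne G hij.symm α β)
    (fun i => gam_self G i α β)]
  have h3 : row β (wv fun β A => 2 * wb b G α β A X z) =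
      ∑ i, ∑ j, G.γ2 i j α β • D i (τ.pr j z) := by
    ext A
    rw [row_apply]
    change 2 * wb b G α β A X z = _
    rw [wb_eq, Finset.mul_sum]
    have : (∑ i, ∑ j, G.γ2 i j α β • D i (τ.pr j z) : Colg N) A =
        ∑ i, ∑ j, G.γ2 i j α β * (D i (τ.pr j z)) A := by
      simp
    rw [this]
    refine Finset.sum_congr rfl fun i _ => ?_
    rw [Finset.mul_sum]
    refine Finset.sum_congr rfl fun j _ => ?_
    rw [hD, hτ]
    have h5 : ((colAlg b).br (comp X i) (comp z j)) A =
        SlB314.br b (fun B => X (i, B)) (fun C => z (j, C)) A := rfl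
    rw [h5]
    ring
  rw [h3]
  have h6 : ∑ i, ∑ j, G.γ2 i j α β • D i (τ.pr j z) =
      (1 : Matrix (Fin 16) (Fin 16) ℝ) α β • τ.dv D z -
        ∑ i, ∑ j, (G.γ j * G.γ i) α β • D i (τ.pr j z) := by
    rw [τ.dv_apply, Finset.smul_sum, ← Finset.sum_sub_distrib]
    refine Finset.sum_congr rfl fun i _ => ?_
    simp only [gam2, sub_smul, Finset.sum_sub_distrib]
    congr 1
    rw [Finset.sum_eq_single i]
    · rw [if_pos rfl]
    · intro j _ hj
      rw [if_neg (Ne.symm hj), zero_smul]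
    · intro hn
      exact absurd (Finset.mem_univ _) hn
  rw [h6, neg_sub]

omit hJ hD in
theorem row_tv_AX (h : Fam K s D) (hs : 0 < s) (α β : Fin 16) (z : Cfg N) :
    row β (tv G α (τ.AX K D z)) ∈ Kᗮ := by
  rw [row_tv]
  refine Submodule.sum_mem _ fun i _ => Submodule.smul_mem _ _ ?_
  rw [← hτ]
  exact h.pr_AX_mem τ hs z i

/-- **The heavy main term vanishes on the heavy vacuum.** -/
theorem heavy_main (M : FermionRep N F) (h : Fam K s D) (hs : 0 < s) (g : ℝ) (α : Fin 16)
    (z : Cfg N) {f : F} (hf : f ∈ (cr M).vacJ J) :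
    (Complex.I * (g : ℂ)) • Theta M G α (τ.AX K D z) f +
      vco M (fun β A => 2 * g * wb b G α β A X z) f = 0 := by
  have h1 := J_J hJ h hs (fun β => row_tv_AX τ hτ (G := G) h hs α β z)
  have h2 := J_tv hJ b τ hτ hD h hs α z
  have h3 : (cr M).θ (J (tv G α (τ.AX K D z))) f =
      Complex.I • (cr M).θ (J (J (tv G α (τ.AX K D z)))) f := hf _
  have h4 : wv (fun β A => 2 * g * wb b G α β A X z) =
      g • wv (N := N) (fun β A => 2 * wb b G α β A X z) := by
    ext p
    simp [wv]
    ring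
  rw [vco_eq, h4, ← h2, (cr M).smul, LinearMap.smul_apply, h3, h1, (cr M).neg,
    LinearMap.neg_apply, Theta_cr, smul_neg, smul_neg, smul_smul, mul_comm (g : ℂ)]
  abel

end J

/-! ### gauge directions and the fixed slice -/

section slice

variable {G : GammaNine} {K : Submodule ℝ (Colg N)} {s : ℝ} {D : Fin 9 → Colg N →L[ℝ] Colg N}
  {b : ColorBasis N} {X : Cfg N} (τ : Ten (Fin 9) (Colg N) (Cfg N))
  (hτ : ∀ i x, τ.pr i x = comp x i) (hD : ∀ i u, D i u = (colAlg b).br (comp X i) u)
include hτ hD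

/-- `[w, X] = -gd w` -/
theorem act_eq_gd (w : Colg N) : actB b w X = -τ.gd D w := by
  refine τ.ext' fun i => ?_
  rw [map_neg, τ.pr_gd, hτ, comp_act, hD, (colAlg b).anti]

/-- **`A_X [w, X] = 0`** -/
theorem AX_act (h : Fam K s D) (hs : 0 < s) (w : Colg N) : τ.AX K D (actB b w X) = 0 := by
  rw [act_eq_gd τ hτ hD w, map_neg, h.AX_gd τ hs, neg_zero]

/-- pairings of `A_X z` with gauge directions vanish -/
theorem inner_AX_act (h : Fam K s D) (hs : 0 < s) (z : Cfg N) (w : Colg N) :
    ⟪τ.AX K D z, actB b w X⟫_ℝ = 0 := by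
  rw [h.AX_sy τ hs, AX_act τ hτ hD h hs, inner_zero_right]

variable {c : Cfg N}

/-- the pairing with the oblique correction of the fixed slice at `c` -/
theorem inner_AX_nn (h : Fam K s D) (hs : 0 < s) (z : Cfg N) (t : Tn (actB b) c) :
    ⟪τ.AX K D z, nn (actB b) c X t⟫_ℝ = -⟪τ.AX K D z, (t : Cfg N)⟫_ℝ := by
  unfold nn
  rw [inner_sub_right, inner_AX_act τ hτ hD h hs, zero_sub]

omit hD in
/-- `A_X z` is off-diagonal -/
theorem AX_mem_Mm (h : Fam K s D) (hs : 0 < s) (hK : K = kc (actB b) c) (z : Cfg N) :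
    τ.AX K D z ∈ Mm b c := by
  intro i
  rw [← hτ, ← hK]
  exact h.pr_AX_mem τ hs z i

omit hτ hD in
/-- expansion of an off-diagonal vector over the transverse and the gauge directions -/
theorem Mm_expand {κ η : Type*} [Fintype κ] [Fintype η] (v : OrthonormalBasis κ ℝ (Zs b c))
    (e : OrthonormalBasis η ℝ (Tn (actB b) c)) {x : Cfg N} (hx : x ∈ Mm b c) :
    x = (∑ k, ⟪x, (v k : Cfg N)⟫_ℝ • (v k : Cfg N)) +
      ∑ t, ⟪x, (e t : Cfg N)⟫_ℝ • (e t : Cfg N) := by
  have h1 : (Tn (actB b) c).starProjection x + (Tn (actB b) c)ᗮ.starProjection x = x :=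
    Submodule.starProjection_add_starProjection_orthogonal (K := Tn (actB b) c) x
  have hz : (Tn (actB b) c)ᗮ.starProjection x ∈ Zs b c := by
    refine ⟨?_, Submodule.starProjection_apply_mem _ _⟩
    have h2 : (Tn (actB b) c)ᗮ.starProjection x = x - (Tn (actB b) c).starProjection x := by
      rw [Submodule.starProjection_orthogonal_val]
    rw [h2]
    exact Submodule.sub_mem _ hx (Tn_le_Mm (Submodule.starProjection_apply_mem _ _))
  have h3 : (Tn (actB b) c).starProjection x = ∑ t, ⟪x, (e t : Cfg N)⟫_ℝ • (e t : Cfg N) := by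
    have h4 := congrArg (fun w : Tn (actB b) c => (w : Cfg N))
      (e.sum_repr' ((Tn (actB b) c).orthogonalProjectionOnto x))
    simp only [Submodule.coe_sum, Submodule.coe_smul] at h4
    rw [Submodule.starProjection_apply, ← h4]
    refine Finset.sum_congr rfl fun t _ => ?_
    congr 1
    rw [Submodule.inner_orthogonalProjectionOnto_eq_of_mem_left, real_inner_comm]
  have h5 : (Tn (actB b) c)ᗮ.starProjection x = ∑ k, ⟪x, (v k : Cfg N)⟫_ℝ • (v k : Cfg N) := by
    have h6 := congrArg (fun w : Zs b c => (w : Cfg N)) (v.sum_repr' ⟨_, hz⟩)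
    simp only [Submodule.coe_sum, Submodule.coe_smul] at h6
    rw [← h6]
    refine Finset.sum_congr rfl fun k _ => ?_
    congr 1
    have h7 : ⟪(Tn (actB b) c).starProjection x, (v k : Cfg N)⟫_ℝ = 0 :=
      Submodule.inner_right_of_mem_orthogonal (Submodule.starProjection_apply_mem _ _) (v k).2.2
    have h8 : ⟪x, (v k : Cfg N)⟫_ℝ = ⟪(Tn (actB b) c)ᗮ.starProjection x, (v k : Cfg N)⟫_ℝ := by
      conv_lhs => rw [← h1]
      rw [inner_add_left, h7, zero_add]
    rw [h8, real_inner_comm]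
    rfl
  rw [← h3, ← h5, add_comm, h1]

/-- **The heavy main term on the FIXED slice at `c` vanishes**: gradient of the Gaussian along
`Zs b c`, oblique correction, potential. -/
theorem heavy_main_slice (M : FermionRep N F) (h : Fam K s D) (hs : 0 < s)
    (hK : K = kc (actB b) c) {J : W16 N →ₗ[ℝ] W16 N}
    (hJ : ∀ x β, row β (J x) = -∑ i, ∑ β', G.γ i β β' • D i (li K D (row β' x)))
    {κ η : Type*} [Fintype κ] [Fintype η] (v : OrthonormalBasis κ ℝ (Zs b c))
    (e : OrthonormalBasis η ℝ (Tn (actB b) c)) (g : ℝ) (α : Fin 16) (z : Cfg N) {f : F}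
    (hf : f ∈ (cr M).vacJ J) :
    (∑ k, (-Complex.I) • Theta M G α (v k) ((-(g * ⟪τ.AX K D z, (v k : Cfg N)⟫_ℝ)) • f)) +
      (∑ t, Complex.I • Theta M G α (e t)
        ((-(g * ⟪τ.AX K D z, nn (actB b) c X (e t)⟫_ℝ)) • f)) +
      vco M (fun β A => 2 * g * wb b G α β A X z) f = 0 := by
  have h1 := heavy_main hJ b τ hτ hD M h hs g α z hf
  rw [← h1]
  congr 1
  have h2 := Mm_expand (b := b) (c := c) v e (AX_mem_Mm τ hτ h hs hK z)
  have hadd : ∀ x y : Cfg N, Theta M G α (x + y) f = Theta M G α x f + Theta M G α y f :=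
    fun x y => by rw [Theta_add]; rfl
  have hsmul : ∀ (r : ℝ) (x : Cfg N), Theta M G α (r • x) f = (r : ℂ) • Theta M G α x f :=
    fun r x => by rw [Theta_smul]; rfl
  set TL : Cfg N →ₗ[ℝ] F :=
    { toFun := fun x => Theta M G α x f
      map_add' := hadd
      map_smul' := fun r x => by rw [hsmul]; exact Complex.coe_smul _ _ } with hTL
  have h3 : Theta M G α (τ.AX K D z) f =
      (∑ k, ⟪τ.AX K D z, (v k : Cfg N)⟫_ℝ • Theta M G α (v k) f) +
        ∑ t, ⟪τ.AX K D z, (e t : Cfg N)⟫_ℝ • Theta M G α (e t) f := by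
    have h4 := congrArg TL h2
    rw [map_add, map_sum, map_sum] at h4
    simp only [map_smul] at h4
    exact h4
  rw [h3, smul_add, Finset.smul_sum, Finset.smul_sum]
  congr 1
  · refine Finset.sum_congr rfl fun k _ => ?_
    rw [← Complex.coe_smul, map_smul, ← Complex.coe_smul, smul_smul, smul_smul]
    congr 1
    push_cast
    ring
  · refine Finset.sum_congr rfl fun t _ => ?_
    rw [inner_AX_nn τ hτ hD h hs, ← Complex.coe_smul, map_smul, ← Complex.coe_smul, smul_smul,
      smul_smul]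
    congr 1
    push_cast
    ring

end slice

end Crest.Agent.R330.HMain942

end
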