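import Crest.Agent.R330.TDef_414
import Crest.Agent.R330.GBind_984
import Crest.Agent.R330.HMain_942

/-!
# Row 330, S8 (helper288): the Gaussian exponent of a `TPack` is forced

* `sqrt_uniq` : a positive semidefinite symmetric operator is determined by its square.
* `pair_real` : annihilators `θ(y) + i θ(x)` of a nonzero vector satisfy `⟪y, y'⟫ = ⟪x, x'⟫`.
* `A_eq` : if `F` has a nonzero light vacuum vector, `P.A X = AXc b C.kk (C.cf X)` at every
  `BReg` position, for every `P : TPack C M R G`.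
-/

set_option autoImplicit false
set_option linter.unusedSectionVars false

open scoped InnerProductSpace ContDiff

noncomputable section

namespace Crest.Agent.R330.AEq288

open Crest.MathPhysics.MatrixQM
open Crest.Agent.R330.AX984 Crest.Agent.R330.SqrtPD984 Crest.Agent.R330.GBind984
open Crest.Agent.R330.FactI161 Crest.Agent.R330.HMain942 Crest.Agent.R330.Cliff442
open Crest.Agent.R330.Bind6839 Crest.Agent.R330.LS839 Crest.Agent.R330.Frame839
open Crest.Agent.R330.Defs478 Crest.Agent.R330.TDef414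

section sqrt

variable {E : Type*} [NormedAddCommGroup E] [InnerProductSpace ℝ E] [FiniteDimensional ℝ E]

/-- uniqueness of the positive semidefinite square root -/
theorem sqrt_uniq {A B : E →L[ℝ] E} (hA : PS A) (hB : PS B)
    (h : ∀ v w, ⟪A v, A w⟫_ℝ = ⟪B v, B w⟫_ℝ) : A = B := by
  have hD : ((A - B : E →L[ℝ] E) : E →ₗ[ℝ] E).IsSymmetric := by
    intro v w
    change ⟪A v - B v, w⟫_ℝ = ⟪v, A w - B w⟫_ℝ
    rw [inner_sub_left, inner_sub_right, hA.1, hB.1]
  set e := hD.eigenvectorBasis rfl with he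
  have key : ∀ i, A (e i) - B (e i) = 0 := by
    intro i
    have h1 : A (e i) - B (e i) = (hD.eigenvalues rfl i : ℝ) • e i :=
      hD.apply_eigenvectorBasis rfl i
    set μ : ℝ := hD.eigenvalues rfl i with hμ
    have hn : ⟪e i, e i⟫_ℝ = 1 := by
      rw [real_inner_self_eq_norm_sq, e.orthonormal.1 i, one_pow]
    have h2 : A (e i) = B (e i) + μ • e i := by rw [← h1]; abel
    have h3 : ⟪A (e i), A (e i)⟫_ℝ = ⟪B (e i), B (e i)⟫_ℝ := h _ _
    have h4 : ⟪A (e i), e i⟫_ℝ = ⟪B (e i), e i⟫_ℝ + μ := by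
      rw [h2, inner_add_left, real_inner_smul_left, hn, mul_one]
    have h5 : ⟪A (e i), A (e i)⟫_ℝ = ⟪B (e i), B (e i)⟫_ℝ + 2 * μ * ⟪B (e i), e i⟫_ℝ + μ ^ 2 := by
      rw [h2, inner_add_left, inner_add_right, inner_add_right, real_inner_smul_left,
        real_inner_smul_left, real_inner_smul_right, real_inner_smul_right, hn,
        real_inner_comm (B (e i)) (e i)]
      ring
    have h6 : μ * (⟪A (e i), e i⟫_ℝ + ⟪B (e i), e i⟫_ℝ) = 0 := by
      rw [h4]
      linear_combination h3 - h5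
    have h7 := hA.2 (e i)
    have h8 := hB.2 (e i)
    have h9 : μ = 0 := by
      rcases mul_eq_zero.1 h6 with h10 | h10
      · exact h10
      · have a1 : ⟪A (e i), e i⟫_ℝ = 0 := by linarith
        have a2 : ⟪B (e i), e i⟫_ℝ = 0 := by linarith
        linarith
    rw [h1, h9, zero_smul]
  have h11 : (A : E →ₗ[ℝ] E) = B := by
    refine e.toBasis.ext fun i => ?_
    rw [OrthonormalBasis.coe_toBasis]
    exact sub_eq_zero.1 (key i)
  ext v
  exact LinearMap.congr_fun h11 v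

end sqrt

section pair

variable {V F : Type*} [NormedAddCommGroup V] [InnerProductSpace ℝ V]
  [NormedAddCommGroup F] [InnerProductSpace ℂ F]

/-- Annihilators of a nonzero vector. -/
theorem pair_real (M : CRep V F) {x y x' y' : V} {f : F} (hf : f ≠ 0)
    (h : Complex.I • M.θ x f + M.θ y f = 0) (h' : Complex.I • M.θ x' f + M.θ y' f = 0) :
    ⟪y, y'⟫_ℝ = ⟪x, x'⟫_ℝ := by
  have a1 := congrArg (M.θ y) h'
  have a2 := congrArg (M.θ x) h'
  have b1 := congrArg (M.θ y') h
  have b2 := congrArg (M.θ x') h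
  rw [map_zero, map_add, map_smul] at a1 a2 b1 b2
  have e1 := M.anti_apply y y' f
  have e2 := M.anti_apply x x' f
  have e3 := M.anti_apply y x' f
  have e4 := M.anti_apply x y' f
  have key : (((⟪y, y'⟫_ℝ : ℝ) : ℂ) - ((⟪x, x'⟫_ℝ : ℝ) : ℂ) +
      Complex.I * (((⟪y, x'⟫_ℝ : ℝ) : ℂ) + ((⟪x, y'⟫_ℝ : ℝ) : ℂ))) • f = 0 := by
    rw [add_smul, sub_smul, mul_smul, add_smul, ← e1, ← e2, ← e3, ← e4]
    have hI : Complex.I * Complex.I = -1 := Complex.I_mul_I
    have c : ∀ v : F, Complex.I • Complex.I • v = -v := fun v => by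
      rw [smul_smul, hI, neg_one_smul]
    have a2' := congrArg (fun v => Complex.I • v) a2
    have b2' := congrArg (fun v => Complex.I • v) b2
    simp only [smul_add, smul_zero, c] at a2' b2'
    have : M.θ y (M.θ y' f) + M.θ y' (M.θ y f) - (M.θ x (M.θ x' f) + M.θ x' (M.θ x f)) +
        Complex.I • (M.θ y (M.θ x' f) + M.θ x' (M.θ y f) + (M.θ x (M.θ y' f) +
          M.θ y' (M.θ x f))) =
        (Complex.I • M.θ y (M.θ x' f) + M.θ y (M.θ y' f)) +
        (-M.θ x (M.θ x' f) + Complex.I • M.θ x (M.θ y' f)) +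
        ((Complex.I • M.θ y' (M.θ x f) + M.θ y' (M.θ y f)) +
        (-M.θ x' (M.θ x f) + Complex.I • M.θ x' (M.θ y f))) := by
      simp only [smul_add]
      abel
    rw [this, a1, a2', b1, b2', add_zero, add_zero]
  have h0 := (smul_eq_zero.1 key).resolve_right hf
  have h1 := congrArg Complex.re h0
  simp at h1
  linarith

end pair

section lit

variable {N : ℕ}

theorem inner_tv (G : GammaNine) (α : Fin 16) (e e' : Cfg N) :
    ⟪tv G α e, tv G α e'⟫_ℝ = ⟪e, e'⟫_ℝ := by
  rw [inner_row, inner_comp]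
  simp only [row_tv, sum_inner, inner_sum, real_inner_smul_left, real_inner_smul_right]
  rw [Finset.sum_comm]
  refine Finset.sum_congr rfl fun i _ => ?_
  rw [Finset.sum_comm, Finset.sum_eq_single i]
  · have h1 := gam_self G i α α
    rw [Matrix.mul_apply, Matrix.one_apply_eq] at h1
    have h2 : ∀ β, G.γ i α β * (G.γ i α β * ⟪comp e i, comp e' i⟫_ℝ) =
        (G.γ i α β * G.γ i β α) * ⟪comp e i, comp e' i⟫_ℝ := fun β => by
      rw [gam_sym G i β α]; ring
    rw [Finset.sum_congr rfl fun β _ => h2 β, ← Finset.sum_mul, h1, one_mul]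
  · intro j _ hj
    have h1 := gam_ne G (Ne.symm hj) α α
    have h3 : (G.γ j * G.γ i) α α = (G.γ i * G.γ j) α α := by
      rw [Matrix.mul_apply, Matrix.mul_apply]
      refine Finset.sum_congr rfl fun β _ => ?_
      rw [gam_sym G j α β, gam_sym G i β α, mul_comm]
    have h4 : (G.γ i * G.γ j) α α = 0 := by linarith
    rw [Matrix.mul_apply] at h4
    have h2 : ∀ β, G.γ i α β * (G.γ j α β * ⟪comp e j, comp e' i⟫_ℝ) =
        (G.γ i α β * G.γ j β α) * ⟪comp e j, comp e' i⟫_ℝ := fun β => by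
      rw [gam_sym G j β α]; ring
    rw [Finset.sum_congr rfl fun β _ => h2 β, ← Finset.sum_mul, h4, zero_mul]
  · intro h
    exact absurd (Finset.mem_univ _) h

variable {G : GammaNine} {K : Submodule ℝ (Colg N)} {s : ℝ} {D : Fin 9 → Colg N →L[ℝ] Colg N}

theorem JX_skew (h : Fam K s D) (hs : 0 < s) (x y : W16 N) :
    ⟪JX G K D x, y⟫_ℝ = -⟪x, JX G K D y⟫_ℝ := by
  rw [inner_row, inner_row]
  simp only [row_JX, inner_neg_left, inner_neg_right, Finset.sum_neg_distrib, neg_neg, sum_inner,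
    inner_sum, real_inner_smul_left, real_inner_smul_right]
  have h1 : ∀ β i β', G.γ i β β' * ⟪D i (li K D (row β' x)), row β y⟫_ℝ =
      -(G.γ i β' β * ⟪row β' x, D i (li K D (row β y))⟫_ℝ) := by
    intro β i β'
    rw [h.skew, (h.li_pd hs).1, ← h.D_li hs, gam_sym G i β β']
    ring
  simp only [h1, Finset.sum_neg_distrib, neg_neg]
  have h2 : ∀ β, ∑ i, ∑ β', G.γ i β' β * ⟪row β' x, D i (li K D (row β y))⟫_ℝ =
      ∑ β', ∑ i, G.γ i β' β * ⟪row β' x, D i (li K D (row β y))⟫_ℝ := fun β => Finset.sum_comm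
  rw [Finset.sum_congr rfl fun β _ => h2 β, Finset.sum_comm]
  exact Finset.sum_congr rfl fun β _ => Finset.sum_comm

variable {b : ColorBasis N} {p : ℕ} {S : Type} [Group S] [Fintype S] {C : Chn b p S}

theorem comc_cf (X : Pos p) : Comc b (C.cf X) := by
  intro i j
  rw [C.comp_cf, C.comp_cf]
  exact C.cen_comm _ _ (C.cen_mem _)

variable {F : Type*} [NormedAddCommGroup F] [InnerProductSpace ℂ F] [FiniteDimensional ℂ F]
  {M : FermionRep N F} {R : GaugeAction b M}

/-- The operator determined by its annihilated vector. -/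
theorem A_eq_of {X : Pos p} (hX : C.Reg X) {A : Cfg N →L[ℝ] Cfg N} (hA : PS A)
    (hoff : ∀ z, A z ∈ Tup C.kkᗮ) {f : F} (hf : f ≠ 0)
    (hk : ∀ z ∈ Tup C.kkᗮ, ∀ α,
      Complex.I • Theta M G α (A z) f + wB b M G 1 α (C.cf X) z f = 0) :
    A = AXc b C.kk (C.cf X) := by
  have hcm : Comc b (C.cf X) := comc_cf X
  obtain ⟨s, hs, hF⟩ := fam_of_eq (b := b) hcm hX
  set A₀ := AXc b C.kk (C.cf X) with hA₀
  have hA₀ps : PS A₀ := hF.AX_ps tenC hs
  have hoff₀ : ∀ z, A₀ z ∈ Tup C.kkᗮ := fun z i => comp_AXc_mem hcm hX z i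
  -- on the off-diagonal space
  have h1 : ∀ z ∈ Tup C.kkᗮ, ∀ z' ∈ Tup C.kkᗮ, ⟪A z, A z'⟫_ℝ = ⟪A₀ z, A₀ z'⟫_ℝ := by
    intro z hz z' hz'
    obtain ⟨α⟩ : Nonempty (Fin 16) := ⟨0⟩
    have e1 : ∀ z, wB b M G 1 α (C.cf X) z =
        (cr M).θ (wv fun β A => 2 * wb b G α β A (C.cf X) z) := by
      intro z
      unfold wB
      rw [vco_eq]
      congr 2
      funext β A
      ring
    have k1 := hk z hz α
    have k2 := hk z' hz' α
    rw [Theta_cr, e1] at k1 k2
    have h2 := pair_real (cr M) hf k1 k2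
    have hA1 : ∀ z, A₀ z = tenC.AX C.kk (adX b (C.cf X)) z := fun z => rfl
    have hJ : ∀ (x : W16 N) (β : Fin 16), row β (JX G C.kk (adX b (C.cf X)) x) =
        -∑ i, ∑ β', G.γ i β β' • adX b (C.cf X) i (li C.kk (adX b (C.cf X)) (row β' x)) :=
      fun x β => row_JX G x β
    have hτ : ∀ (i : Fin 9) (x : Cfg N), (tenC (N := N)).pr i x = comp x i := pr_tenC
    have hD : ∀ (i : Fin 9) (u : Colg N), adX b (C.cf X) i u =
        (colAlg b).br (comp (C.cf X) i) u := adX_apply b (C.cf X)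
    have h3 : ∀ z, JX G C.kk (adX b (C.cf X)) (tv G α (A₀ z)) =
        wv fun β A => 2 * wb b G α β A (C.cf X) z := by
      intro z
      have h5 := J_tv hJ b tenC hτ hD hF hs α z
      rw [hA1]
      exact h5
    have h4 : ∀ z, JX G C.kk (adX b (C.cf X)) (JX G C.kk (adX b (C.cf X)) (tv G α (A₀ z))) =
        -tv G α (A₀ z) := by
      intro z
      have h5 := J_J hJ hF hs fun β => row_tv_AX (G := G) tenC hτ hF hs α β z
      rw [hA1]
      exact h5
    rw [← h3, ← h3, JX_skew hF hs, h4, inner_neg_right, neg_neg, inner_tv, inner_tv] at h2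
    exact h2.symm
  have kill : ∀ {T : Cfg N →L[ℝ] Cfg N}, PS T → (∀ z, T z ∈ Tup C.kkᗮ) → ∀ x ∈ Tup C.kk,
      T x = 0 := by
    intro T hT ho x hx
    have h2 : ⟪T x, T x⟫_ℝ = 0 := by
      rw [hT.1]
      have h3 : T (T x) ∈ ((Tup C.kk)ᗮ : Submodule ℝ (Cfg N)) := by
        rw [Tup_orth]
        exact ho _
      exact (Submodule.mem_orthogonal _ _).1 h3 x hx
    exact inner_self_eq_zero.1 h2
  refine sqrt_uniq hA hA₀ps fun v w => ?_
  have dec : ∀ v : Cfg N, ∃ v' ∈ Tup C.kkᗮ, A v = A v' ∧ A₀ v = A₀ v' := by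
    intro v
    have hm : v - (Tup C.kk).starProjection v ∈ Tup C.kkᗮ := by
      have := Submodule.sub_starProjection_mem_orthogonal (K := Tup C.kk) v
      rw [Tup_orth] at this
      exact this
    refine ⟨v - (Tup C.kk).starProjection v, hm, ?_, ?_⟩
    · rw [map_sub, kill hA hoff _ (Submodule.starProjection_apply_mem _ v), sub_zero]
    · rw [map_sub, kill hA₀ps hoff₀ _ (Submodule.starProjection_apply_mem _ v), sub_zero]
  obtain ⟨v', hv', e1, e2⟩ := dec v
  obtain ⟨w', hw', e3, e4⟩ := dec w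
  rw [e1, e2, e3, e4]
  exact h1 v' hv' w' hw'

/-- **The exponent of a `TPack` is `|r| P_{r^⊥}`.** -/
theorem A_eq (P : TPack C M R G) {X : Pos p} (hX : C.BReg X) {f : F} (hf : f ∈ C.Fl M G)
    (hf0 : f ≠ 0) : P.A X = AXc b C.kk (C.cf X) := by
  have hU : P.U X f ≠ 0 := by
    intro h0
    have h1 := P.U_inner X hX f hf f hf
    rw [h0, inner_zero_left] at h1
    exact hf0 (inner_self_eq_zero.1 h1.symm)
  exact A_eq_of hX.reg ⟨P.A_symm X, P.A_nonneg X⟩ (P.A_off X hX.reg) hU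
    (fun z hz α => P.U_kill X hX f hf z hz α)

end lit

end Crest.Agent.R330.AEq288
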