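import Crest.Agent.R330.TDef_414
import Crest.Agent.R330.GBind_984

/-!
# The Gaussian exponent of the trial states: fields of `TPack` (helper151)

* `AP C X` : `AXc b C.kk (C.cf X)` at regular positions, zero otherwise.
* `A_smooth`, `A_symm`, `A_nonneg`, `A_off`, `A_gauge`, `A_low` : the fields of `TPack` (414).
* `low_rel` : for any `TPack`, the exponent at `X` near `X1` is positive on the transverse space of the
  centre `X0` of a chart containing `X1`.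
-/

set_option autoImplicit false
set_option linter.unusedSectionVars false

open MeasureTheory Filter Topology Crest.MathPhysics.MatrixQM
open scoped ContDiff InnerProductSpace

noncomputable section

namespace Crest.Agent.R330.AF151

open Crest.Agent.R330.TDef414 Crest.Agent.R330.GBind984 Crest.Agent.R330.LS839
  Crest.Agent.R330.Frame839 Crest.Agent.R330.Clus839 Crest.Agent.R330.Bind6839
  Crest.Agent.R330.SqrtPD984 Crest.Agent.R330.SlF944 Crest.Agent.R330.SlG944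
  Crest.Agent.R330.AX984
open Crest.Agent.R330.SlB314 (Nor Tan brx)

variable {N p : ℕ} {b : ColorBasis N} {S : Type} [Group S] [Fintype S] (C : Chn b p S)

theorem kk_le_kc (X : Pos p) : C.kk ≤ kc (actB b) (C.cf X) := by
  intro u hu
  rw [kc_eq, ColAlg.mem_kk]
  intro i
  rw [Chn.comp_cf]
  exact C.cen_comm _ u hu

theorem comc_cf (X : Pos p) : Comc b (C.cf X) := by
  intro i j
  rw [Chn.comp_cf, Chn.comp_cf]
  exact C.cen_comm _ _ (C.cen_mem _)

theorem ll_pd_reg {X : Pos p} (h : C.Reg X) : PD (ll C.kk (adX b (C.cf X))) := by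
  have h1 := ll_pd_self b (comc_cf C X)
  have h2 : kc (actB b) (C.cf X) = C.kk := h
  rw [h2] at h1
  exact h1

theorem reg_of_pd {X : Pos p} (h : PD (ll C.kk (adX b (C.cf X)))) : C.Reg X := by
  refine le_antisymm (fun v hv => ?_) (kk_le_kc C X)
  have hv' : ∀ i, adX b (C.cf X) i v = 0 := (mem_kc_iff' b).1 hv
  set v1 : Colg N := C.kk.starProjection v with hv1
  have h1 : v1 ∈ C.kk := Submodule.starProjection_apply_mem _ _
  have h2 : v - v1 ∈ C.kkᗮ := Submodule.sub_starProjection_mem_orthogonal _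
  have h3 : ∀ i, adX b (C.cf X) i v1 = 0 := (mem_kc_iff' b).1 (kk_le_kc C X h1)
  have h4 : ∀ i, adX b (C.cf X) i (v - v1) = 0 := fun i => by rw [map_sub, hv' i, h3 i, sub_zero]
  by_contra hne
  have h5 : v - v1 ≠ 0 := fun h0 => hne (by rw [sub_eq_zero.1 h0]; exact h1)
  have h6 := h.2 _ h5
  rw [inner_ll_of (adX_skew b (C.cf X))] at h6
  have h7 : C.kk.starProjection (v - v1) = 0 :=
    (Submodule.starProjection_apply_eq_zero_iff _).2 h2
  simp only [h7, h4, inner_zero_left, Finset.sum_const_zero, add_zero, lt_self_iff_false] at h6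

theorem eventually_reg {X : Pos p} (h : C.Reg X) : ∀ᶠ Y in 𝓝 X, C.Reg Y := by
  have h1 := eventually_ll b (ll_pd_reg C h)
  have h2 : Tendsto C.cf (𝓝 X) (𝓝 (C.cf X)) := C.cf.continuous.continuousAt
  exact (h2.eventually h1).mono fun Y hY => reg_of_pd C hY

theorem isOpen_reg : IsOpen {X | C.Reg X} :=
  isOpen_iff_mem_nhds.2 fun _ hX => eventually_reg C hX

open Classical in
/-- The exponent. -/
def AP (X : Pos p) : Cfg N →L[ℝ] Cfg N := if C.Reg X then AXc b C.kk (C.cf X) else 0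

theorem AP_reg {X : Pos p} (h : C.Reg X) : AP C X = AXc b C.kk (C.cf X) := if_pos h

theorem AP_not {X : Pos p} (h : ¬ C.Reg X) : AP C X = 0 := if_neg h

theorem A_smooth : ∀ X, C.Reg X → ContDiffAt ℝ ∞ (AP C) X := by
  intro X hX
  have h1 : ContDiffAt ℝ ∞ (fun Y => AXc b C.kk Y) (C.cf X) := contDiffAt_AXc b (ll_pd_reg C hX)
  have h2 : ContDiffAt ℝ ∞ (fun Y => AXc b C.kk (C.cf Y)) X :=
    h1.comp X C.cf.toContinuousLinearMap.contDiff.contDiffAt
  refine h2.congr_of_eventuallyEq ?_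
  filter_upwards [eventually_reg C hX] with Y hY
  exact AP_reg C hY

theorem A_symm : ∀ X z z', ⟪AP C X z, z'⟫_ℝ = ⟪z, AP C X z'⟫_ℝ := by
  intro X z z'
  by_cases h : C.Reg X
  · rw [AP_reg C h]
    exact AXc_sy (comc_cf C X) h z z'
  · rw [AP_not C h]
    simp

theorem A_nonneg : ∀ X z, 0 ≤ ⟪AP C X z, z⟫_ℝ := by
  intro X z
  by_cases h : C.Reg X
  · rw [AP_reg C h]
    exact QX_nonneg (comc_cf C X) h z
  · rw [AP_not C h]
    simp

theorem A_off : ∀ X, C.Reg X → ∀ z, AP C X z ∈ Tup C.kkᗮ := by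
  intro X h z
  rw [AP_reg C h]
  exact fun i => comp_AXc_mem (comc_cf C X) h z i

theorem A_gauge : ∀ X, C.Reg X → ∀ om : Colg N, AP C X (actB b om (C.cf X)) = 0 := by
  intro X h om
  rw [AP_reg C h]
  exact AXc_act (comc_cf C X) h om

theorem A_light : ∀ X, C.Reg X → ∀ y ∈ Tup C.kk, AP C X y = 0 := by
  intro X h y hy
  rw [AP_reg C h]
  exact AXc_Tup (comc_cf C X) h hy

theorem Zt_eq {X : Pos p} (h : C.Reg X) : C.Zt X = Zs b (C.cf X) := by
  have h1 : kc (actB b) (C.cf X) = C.kk := h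
  unfold Chn.Zt Zs Mm
  rw [h1, Nor_eq]

/-- Perturbation of a lower bound. -/
theorem low_of_cont {A : Pos p → Cfg N →L[ℝ] Cfg N} {X1 : Pos p} (hA : ContinuousAt A X1)
    {Z : Submodule ℝ (Cfg N)} {c : ℝ} (hc : 0 < c)
    (h : ∀ z ∈ Z, c * ‖z‖ ^ 2 ≤ ⟪A X1 z, z⟫_ℝ) :
    ∃ c' ε : ℝ, 0 < c' ∧ 0 < ε ∧ ∀ X, ‖X - X1‖ < ε → ∀ z ∈ Z, c' * ‖z‖ ^ 2 ≤ ⟪A X z, z⟫_ℝ := by
  obtain ⟨ε, hε, h1⟩ := Metric.continuousAt_iff.1 hA (c / 2) (by positivity)
  refine ⟨c / 2, ε, by positivity, hε, fun X hX z hz => ?_⟩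
  have h2 : ‖A X - A X1‖ < c / 2 := by
    have h3 := h1 (x := X) (by rwa [dist_eq_norm])
    rwa [dist_eq_norm] at h3
  have h4 : |⟪(A X - A X1) z, z⟫_ℝ| ≤ c / 2 * ‖z‖ ^ 2 := by
    calc |⟪(A X - A X1) z, z⟫_ℝ| ≤ ‖(A X - A X1) z‖ * ‖z‖ := abs_real_inner_le_norm _ _
      _ ≤ (‖A X - A X1‖ * ‖z‖) * ‖z‖ := by gcongr; exact (A X - A X1).le_opNorm z
      _ ≤ (c / 2 * ‖z‖) * ‖z‖ := by gcongr
      _ = _ := by ring
  have h5 : ⟪A X z, z⟫_ℝ = ⟪A X1 z, z⟫_ℝ + ⟪(A X - A X1) z, z⟫_ℝ := by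
    rw [_root_.sub_apply, inner_sub_left]
    ring
  have h6 := h z hz
  have h7 := (abs_le.1 h4).1
  rw [h5]
  linarith

theorem A_low : ∀ X0, C.Reg X0 → ∃ c ε : ℝ, 0 < c ∧ 0 < ε ∧ ∀ X, ‖X - X0‖ < ε →
    ∀ z ∈ C.Zt X0, c * ‖z‖ ^ 2 ≤ ⟪AP C X z, z⟫_ℝ := by
  intro X0 h0
  obtain ⟨s, hs, hf⟩ := fam_of_eq (comc_cf C X0) h0
  refine low_of_cont (A := AP C) (A_smooth C X0 h0).continuousAt hs fun z hz => ?_
  rw [Zt_eq C h0, mem_Zs_iff] at hz
  have h1 : kc (actB b) (C.cf X0) = C.kk := h0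
  rw [h1] at hz
  rw [AP_reg C h0]
  exact hf.AX_low tenC hs hz.1 hz.2

/-! ### Relaxed charts -/

variable {C}

/-- A pointwise positive symmetric form on a finite dimensional space has a lower bound. -/
theorem exists_low_of_pos {Z : Submodule ℝ (Cfg N)} (T : Cfg N →L[ℝ] Cfg N)
    (hs : ∀ z z', ⟪T z, z'⟫_ℝ = ⟪z, T z'⟫_ℝ) (h : ∀ z ∈ Z, z ≠ 0 → 0 < ⟪T z, z⟫_ℝ) :
    ∃ c : ℝ, 0 < c ∧ ∀ z ∈ Z, c * ‖z‖ ^ 2 ≤ ⟪T z, z⟫_ℝ := by
  have h1 : PD (cmp Z T) := by
    refine ⟨cmp_sy hs, fun z hz => ?_⟩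
    rw [inner_cmp]
    exact h z z.2 fun h0 => hz (by ext1; exact h0)
  obtain ⟨c, hc, h2⟩ := GPar984.PD.exists_low h1
  refine ⟨c, hc, fun z hz => ?_⟩
  have h3 := h2 ⟨z, hz⟩
  rw [inner_cmp] at h3
  exact h3

variable {F : Type*} [NormedAddCommGroup F] [InnerProductSpace ℂ F] [FiniteDimensional ℂ F]
  {M : FermionRep N F} {R : GaugeAction b M} {G : GammaNine}

omit [Group S] [Fintype S] in
theorem inner_comp_sum (x y : Cfg N) : ⟪x, y⟫_ℝ = ∑ i, ⟪comp x i, comp y i⟫_ℝ := by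
  rw [PiLp.inner_apply, Fintype.sum_prod_type]
  refine Finset.sum_congr rfl fun i _ => ?_
  rw [PiLp.inner_apply]
  rfl

/-- **Lower bound of the exponent in a relaxed chart**: centre `X0`, evaluation near `X1`. -/
theorem low_rel (P : TPack C M R G) {X0 X1 : Pos p} {r : ℝ} (hg : Good b (C.cf X0) r)
    (h0 : C.Reg X0) (h1 : C.Reg X1) (hr : ‖X1 - X0‖ < r) :
    ∃ c ε : ℝ, 0 < c ∧ 0 < ε ∧ ∀ X, ‖X - X1‖ < ε →
      ∀ z ∈ C.Zt X0, c * ‖z‖ ^ 2 ≤ ⟪P.A X z, z⟫_ℝ := by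
  have hpos : ∀ z ∈ C.Zt X0, z ≠ 0 → 0 < ⟪P.A X1 z, z⟫_ℝ := by
    intro z hz hne
    refine lt_of_le_of_ne (P.A_nonneg X1 z) fun he => hne ?_
    obtain ⟨c, ε, hc, hε, hlow⟩ := P.A_low X1 h1
    -- split `z` along the orbit of `X1`
    have hTn : Nor b (C.cf X1) = (Tn (actB b) (C.cf X1))ᗮ := (Nor_eq b (C.cf X1)).symm
    set t : Cfg N := (Tn (actB b) (C.cf X1)).starProjection z with ht
    have htm : t ∈ Tn (actB b) (C.cf X1) := Submodule.starProjection_apply_mem _ _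
    have hzt : z - t ∈ Nor b (C.cf X1) := by
      rw [hTn]
      exact Submodule.sub_starProjection_mem_orthogonal _
    obtain ⟨om, hom⟩ : ∃ om : Colg N, actB b om (C.cf X1) = t := by
      obtain ⟨om, hom⟩ := htm
      exact ⟨om, hom⟩
    have hAt : P.A X1 t = 0 := by rw [← hom]; exact P.A_gauge X1 h1 om
    have htk : t ∈ Tup C.kkᗮ := by
      intro i
      rw [Submodule.mem_orthogonal]
      intro u hu
      rw [← hom, comp_act]
      have h2 : (colAlg b).br (comp (C.cf X1) i) u = 0 := by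
        rw [Chn.comp_cf]
        exact C.cen_comm _ u hu
      rw [(colAlg b).anti, inner_neg_right, ← (colAlg b).skew, h2, inner_zero_left]
    have hzk : z - t ∈ Tup C.kkᗮ := Submodule.sub_mem _ hz.1 htk
    have h3 := hlow X1 (by simpa using hε) (z - t) ⟨hzk, hzt⟩
    have h4 : ⟪P.A X1 (z - t), z - t⟫_ℝ = ⟪P.A X1 z, z⟫_ℝ := by
      rw [map_sub, hAt, sub_zero, inner_sub_right, P.A_symm X1 z t, hAt, inner_zero_right, sub_zero]
    rw [h4, ← he] at h3
    have h5 : z - t = 0 := by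
      have h6 : ‖z - t‖ ^ 2 ≤ 0 := by
        by_contra h7
        push Not at h7
        nlinarith
      exact norm_eq_zero.1 (pow_eq_zero_iff two_ne_zero |>.1 (le_antisymm h6 (sq_nonneg _)))
    have h6 : z = t := sub_eq_zero.1 h5
    -- `t` is tangent at `X1` and normal at `X0`
    have h7 : brx b om.ofLp (C.cf X0) = 0 := by
      refine hg.nondeg (C.cf (X1 - X0)) om.ofLp ?_ ?_ ?_
      · rw [← Nor_eq, Submodule.mem_orthogonal]
        rintro _ ⟨w, rfl⟩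
        show ⟪actB b w (C.cf X0), C.cf (X1 - X0)⟫_ℝ = 0
        rw [inner_comp_sum]
        refine Finset.sum_eq_zero fun i _ => ?_
        rw [comp_act, (colAlg b).anti, inner_neg_left, (colAlg b).skew, neg_neg]
        have h2 : (colAlg b).br (comp (C.cf X0) i) (comp (C.cf (X1 - X0)) i) = 0 := by
          rw [Chn.comp_cf, Chn.comp_cf]
          exact C.cen_comm _ _ (C.cen_mem _)
        rw [h2, inner_zero_right]
      · rwa [C.cf.norm_map]
      · have h8 : C.cf X0 + C.cf (X1 - X0) = C.cf X1 := by rw [← map_add]; congr 1; abel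
        rw [h8, ← actB_apply, hom, ← h6]
        exact hz.2
    have h8 : om ∈ kc (actB b) (C.cf X0) := by
      rw [mem_kc, actB_apply]
      exact h7
    have h9 : kc (actB b) (C.cf X0) = C.kk := h0
    rw [h9] at h8
    have h10 : om ∈ kc (actB b) (C.cf X1) := kk_le_kc C X1 h8
    rw [h6, ← hom]
    exact (mem_kc _ _).1 h10
  obtain ⟨c, hc, hlow⟩ := exists_low_of_pos (Z := C.Zt X0) (P.A X1) (P.A_symm X1) hpos
  exact low_of_cont (P.A_smooth X1 h1).continuousAt hc hlow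

end Crest.Agent.R330.AF151

end
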