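import Mathlib
import Crest.Agent.R330.IBP_837

/-!
Row 330 (helper122): the free massive abelian model, part A: Fourier injectivity on `L¹` and the
transport equation satisfied by the Fourier transform of `Φ f`.
-/

set_option autoImplicit false
set_option linter.unusedSectionVars false

noncomputable section

namespace Crest.Agent.R330.FreeA122

open MeasureTheory Filter Topology Crest.Agent.R330.IBP837
open scoped ContDiff InnerProductSpace ENNReal

section Fourier

variable {E : Type*} [NormedAddCommGroup E] [InnerProductSpace ℝ E] [FiniteDimensional ℝ E]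
  [MeasurableSpace E] [BorelSpace E]

/-- real version: an integrable real function with vanishing Fourier transform is zero a.e. -/
theorem ae_zero_of_char_real {r : E → ℝ} (hr : Integrable r)
    (h : ∀ k : E, ∫ x, (r x : ℂ) * Complex.exp (⟪x, k⟫_ℝ * Complex.I) = 0) : r =ᵐ[volume] 0 := by
  -- positive and negative parts
  set μ : Measure E := volume.withDensity (fun x => ENNReal.ofReal (r x)) with hμ
  set ν : Measure E := volume.withDensity (fun x => ENNReal.ofReal (-r x)) with hν
  have fμ : IsFiniteMeasure μ := isFiniteMeasure_withDensity_ofReal hr.2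
  have fν : IsFiniteMeasure ν := isFiniteMeasure_withDensity_ofReal hr.neg.2
  have hmeas : AEMeasurable r volume := hr.1.aemeasurable
  have key : ∀ (s : E → ℝ), AEMeasurable s volume → ∀ (g : E → ℂ),
      ∫ x, g x ∂(volume.withDensity (fun x => ENNReal.ofReal (s x))) =
        ∫ x, (max (s x) 0 : ℝ) • g x := by
    intro s hs g
    rw [integral_withDensity_eq_integral_toReal_smul₀ hs.ennreal_ofReal
      (Eventually.of_forall fun x => ENNReal.ofReal_lt_top)]
    refine integral_congr_ae (Eventually.of_forall fun x => ?_)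
    simp [ENNReal.toReal_ofReal']
  have hE : μ = ν := by
    apply Measure.ext_of_charFun
    ext k
    rw [charFun_apply, charFun_apply, hμ, hν, key r hmeas, key (fun x => -r x) hmeas.neg]
    have hbd : ∀ x : E, ‖Complex.exp (⟪x, k⟫_ℝ * Complex.I)‖ ≤ 1 := by
      intro x; rw [Complex.norm_exp_ofReal_mul_I]
    have hcont : Continuous fun x : E => Complex.exp (⟪x, k⟫_ℝ * Complex.I) := by fun_prop
    have i1 : Integrable fun x => (max (r x) 0 : ℝ) • Complex.exp (⟪x, k⟫_ℝ * Complex.I) := by
      simp only [Complex.real_smul]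
      exact (hr.pos_part.ofReal (𝕜 := ℂ)).mul_bdd (c := 1) hcont.aestronglyMeasurable
        (Eventually.of_forall hbd)
    have i2 : Integrable fun x => (max (-r x) 0 : ℝ) • Complex.exp (⟪x, k⟫_ℝ * Complex.I) := by
      simp only [Complex.real_smul]
      exact (hr.neg_part.ofReal (𝕜 := ℂ)).mul_bdd (c := 1) hcont.aestronglyMeasurable
        (Eventually.of_forall hbd)
    rw [← sub_eq_zero, ← integral_sub i1 i2, ← h k]
    refine integral_congr_ae (Eventually.of_forall fun x => ?_)
    simp only [Complex.real_smul]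
    rw [← sub_mul, ← Complex.ofReal_sub]
    congr 2
    rcases le_total 0 (r x) with h0 | h0
    · rw [max_eq_left h0, max_eq_right (by linarith)]; ring
    · rw [max_eq_right h0, max_eq_left (by linarith)]; ring
  have hEq : (fun x => ENNReal.ofReal (r x)) =ᵐ[volume] fun x => ENNReal.ofReal (-r x) := by
    have := (withDensity_eq_iff (μ := (volume : Measure E)) hmeas.ennreal_ofReal
      hmeas.neg.ennreal_ofReal ?_).mp hE
    · exact this
    · have := hr.lintegral_lt_top
      exact this.ne
  filter_upwards [hEq] with x hx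
  by_contra hne
  rcases lt_or_gt_of_ne hne with h0 | h0
  · have h0' : r x < 0 := h0
    rw [ENNReal.ofReal_of_nonpos h0'.le] at hx
    have : ENNReal.ofReal (-r x) ≠ 0 := by
      rw [Ne, ENNReal.ofReal_eq_zero, not_le]; linarith
    exact this hx.symm
  · have h0' : 0 < r x := h0
    rw [ENNReal.ofReal_of_nonpos (show -r x ≤ 0 by linarith)] at hx
    have : ENNReal.ofReal (r x) ≠ 0 := by
      rw [Ne, ENNReal.ofReal_eq_zero, not_le]; linarith
    exact this hx

/-- an integrable complex function with vanishing Fourier transform is zero a.e. -/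
theorem ae_zero_of_char {g : E → ℂ} (hg : Integrable g)
    (h : ∀ k : E, ∫ x, g x * Complex.exp (⟪x, k⟫_ℝ * Complex.I) = 0) : g =ᵐ[volume] 0 := by
  have hbd : ∀ k x : E, ‖Complex.exp (⟪x, k⟫_ℝ * Complex.I)‖ ≤ 1 := by
    intro k x; rw [Complex.norm_exp_ofReal_mul_I]
  have hcont : ∀ k : E, Continuous fun x : E => Complex.exp (⟪x, k⟫_ℝ * Complex.I) := by
    intro k; fun_prop
  have hint : ∀ {u : E → ℂ}, Integrable u → ∀ k,
      Integrable fun x => u x * Complex.exp (⟪x, k⟫_ℝ * Complex.I) := by
    intro u hu k
    exact hu.mul_bdd (c := 1) (hcont k).aestronglyMeasurable (Eventually.of_forall (hbd k))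
  have hconj : ∀ k : E, ∫ x, (starRingEnd ℂ) (g x) * Complex.exp (⟪x, k⟫_ℝ * Complex.I) = 0 := by
    intro k
    have h1 := h (-k)
    have h2 := congrArg (starRingEnd ℂ) h1
    rw [map_zero, ← integral_conj] at h2
    rw [← h2]
    refine integral_congr_ae (Eventually.of_forall fun x => ?_)
    simp only [map_mul, ← Complex.exp_conj, inner_neg_right, Complex.conj_I, Complex.conj_ofReal]
    congr 2
    push_cast
    ring
  have hgc : Integrable fun x => (starRingEnd ℂ) (g x) := by
    have := (Complex.conjLIE.toContinuousLinearEquiv.toContinuousLinearMap).integrable_comp hg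
    exact this
  have hre : (fun x => (g x).re) =ᵐ[volume] 0 := by
    refine ae_zero_of_char_real (r := fun x => (g x).re) hg.re ?_
    intro k
    have e : ∀ x, (((g x).re : ℝ) : ℂ) * Complex.exp (⟪x, k⟫_ℝ * Complex.I) =
        (1 / 2 : ℂ) * (g x * Complex.exp (⟪x, k⟫_ℝ * Complex.I)) +
        (1 / 2 : ℂ) * ((starRingEnd ℂ) (g x) * Complex.exp (⟪x, k⟫_ℝ * Complex.I)) := by
      intro x
      rw [Complex.re_eq_add_conj]; ring
    rw [integral_congr_ae (Eventually.of_forall e)]
    rw [integral_add ((hint hg k).const_mul _) ((hint hgc k).const_mul _),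
      integral_const_mul, integral_const_mul, h k, hconj k]
    simp
  have him : (fun x => (g x).im) =ᵐ[volume] 0 := by
    refine ae_zero_of_char_real (r := fun x => (g x).im) hg.im ?_
    intro k
    have e : ∀ x, (((g x).im : ℝ) : ℂ) * Complex.exp (⟪x, k⟫_ℝ * Complex.I) =
        (1 / (2 * Complex.I) : ℂ) * (g x * Complex.exp (⟪x, k⟫_ℝ * Complex.I)) -
        (1 / (2 * Complex.I) : ℂ) * ((starRingEnd ℂ) (g x) *
          Complex.exp (⟪x, k⟫_ℝ * Complex.I)) := by
      intro x
      rw [Complex.im_eq_sub_conj]; ring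
    rw [integral_congr_ae (Eventually.of_forall e)]
    rw [integral_sub ((hint hg k).const_mul _) ((hint hgc k).const_mul _),
      integral_const_mul, integral_const_mul, h k, hconj k]
    simp
  filter_upwards [hre, him] with x h1 h2
  exact Complex.ext h1 h2

end Fourier

/-! ### The transport equation -/

section Transport

variable {κ : Type*} [Fintype κ] [DecidableEq κ]

/-- the plane wave phase `Σ k_l x_l` -/
def ph (k x : EuclideanSpace ℝ κ) : ℝ := ∑ l, k l * x l

theorem ph_eq_inner (k x : EuclideanSpace ℝ κ) : ph k x = ⟪x, k⟫_ℝ := by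
  unfold ph
  rw [PiLp.inner_apply]
  refine Finset.sum_congr rfl fun l _ => ?_
  simp

/-- the plane wave -/
def pw (k x : EuclideanSpace ℝ κ) : ℂ := Complex.exp (ph k x * Complex.I)

theorem norm_pw (k x : EuclideanSpace ℝ κ) : ‖pw k x‖ = 1 := by
  unfold pw; rw [Complex.norm_exp_ofReal_mul_I]

theorem continuous_pw (k : EuclideanSpace ℝ κ) : Continuous (pw k) := by
  unfold pw ph; fun_prop

/-- scaled frequency `k_l e^{om_l t}` -/
def kt (om : κ → ℝ) (k : EuclideanSpace ℝ κ) (t : ℝ) : EuclideanSpace ℝ κ :=
  WithLp.toLp 2 (fun l => k l * Real.exp (om l * t))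

theorem kt_apply (om : κ → ℝ) (k : EuclideanSpace ℝ κ) (t : ℝ) (l : κ) :
    kt om k t l = k l * Real.exp (om l * t) := rfl

theorem kt_zero (om : κ → ℝ) (k : EuclideanSpace ℝ κ) : kt om k 0 = k := by
  ext l; simp [kt_apply]

/-- TRANSPORT LEMMA: if `g`, `|x| g` are integrable and
`∫ g (½|k|² + λ + i Σ om_l k_l x_l) e^{i k·x} = 0` for all `k`, with `om_l > 0` and (`λ > 0` or
`λ = 0` and `∫ g = 0`), then `g = 0` a.e. -/
theorem transport {om : κ → ℝ} (hom : ∀ l, 0 < om l) {lam : ℝ} {g : EuclideanSpace ℝ κ → ℂ}
    (hg : Integrable g) (hxg : ∀ l, Integrable fun x : EuclideanSpace ℝ κ => (x l : ℂ) * g x)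
    (hlam : 0 < lam ∨ (lam = 0 ∧ ∫ x, g x = 0))
    (h : ∀ k : EuclideanSpace ℝ κ, ∫ x, g x *
      ((((1 / 2) * ∑ l, k l ^ 2 + lam : ℝ) : ℂ) + Complex.I * ∑ l, ((om l * k l : ℝ) : ℂ) * x l) *
        pw k x = 0) :
    g =ᵐ[volume] 0 := by
  apply ae_zero_of_char hg
  intro k
  -- the function y(t)
  set y : ℝ → ℂ := fun t => ∫ x, g x * pw (kt om k t) x with hy
  have hy0 : y 0 = ∫ x, g x * Complex.exp (⟪x, k⟫_ℝ * Complex.I) := by
    simp only [hy, kt_zero]
    refine integral_congr_ae (Eventually.of_forall fun x => ?_)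
    simp only [pw, ph_eq_inner]
  rw [← hy0]
  have hgp : ∀ q, Integrable fun x => g x * pw q x := by
    intro q
    exact hg.mul_bdd (c := 1) (continuous_pw q).aestronglyMeasurable
      (Eventually.of_forall fun x => (norm_pw q x).le)
  -- derivative
  have hder : ∀ t, HasDerivAt y (-(((1 / 2) * ∑ l, (kt om k t l) ^ 2 + lam : ℝ) : ℂ) * y t) t := by
    intro t
    have hd := hasDerivAt_integral_of_dominated_loc_of_deriv_le (μ := volume)
      (F := fun (t : ℝ) (x : EuclideanSpace ℝ κ) => g x * pw (kt om k t) x)
      (F' := fun t x => g x * (Complex.I * ∑ l, ((om l * (kt om k t l) : ℝ) : ℂ) * x l) *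
        pw (kt om k t) x) (x₀ := t) (s := Metric.ball t 1)
      (bound := fun x => ∑ l, (om l * |k l| * Real.exp (om l * (|t| + 1))) * ‖(x l : ℂ) * g x‖)
      (Metric.ball_mem_nhds t one_pos)
      (Eventually.of_forall fun t => (hgp _).1) (hgp _) ?_ ?_ ?_ ?_
    · have e := hd.2
      have h1 := h (kt om k t)
      have hI : Integrable fun x : EuclideanSpace ℝ κ =>
          g x * (Complex.I * ∑ l, ((om l * (kt om k t l) : ℝ) : ℂ) * x l) * pw (kt om k t) x := hd.1
      have hJ : Integrable fun x : EuclideanSpace ℝ κ =>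
          (((1 / 2) * ∑ l, (kt om k t l) ^ 2 + lam : ℝ) : ℂ) * (g x * pw (kt om k t) x) :=
        (hgp _).const_mul _
      have e3 : (∫ x, g x *
          ((((1 / 2) * ∑ l, (kt om k t l) ^ 2 + lam : ℝ) : ℂ) +
            Complex.I * ∑ l, ((om l * (kt om k t l) : ℝ) : ℂ) * x l) * pw (kt om k t) x) =
          (((1 / 2) * ∑ l, (kt om k t l) ^ 2 + lam : ℝ) : ℂ) * (∫ x, g x * pw (kt om k t) x) +
          ∫ x, g x * (Complex.I * ∑ l, ((om l * (kt om k t l) : ℝ) : ℂ) * x l) *
            pw (kt om k t) x := by
        rw [← integral_const_mul, ← integral_add hJ hI]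
        refine integral_congr_ae (Eventually.of_forall fun x => ?_)
        ring
      rw [e3] at h1
      have h2 : ∫ x, g x * (Complex.I * ∑ l, ((om l * (kt om k t l) : ℝ) : ℂ) * x l) *
            pw (kt om k t) x = -(((1 / 2) * ∑ l, (kt om k t l) ^ 2 + lam : ℝ) : ℂ) * y t := by
        rw [neg_mul, ← sub_eq_zero, sub_neg_eq_add, add_comm]
        exact h1
      rw [← h2]
      exact e
    · have hc : Continuous fun x : EuclideanSpace ℝ κ =>
          (Complex.I * ∑ l, ((om l * (kt om k t l) : ℝ) : ℂ) * x l) * pw (kt om k t) x := by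
        apply Continuous.mul
        · fun_prop
        · exact continuous_pw _
      have := hg.1.mul hc.aestronglyMeasurable
      refine this.congr (Eventually.of_forall fun x => ?_)
      simp only [Pi.mul_apply]; ring
    · refine Eventually.of_forall fun x s hs => ?_
      rw [norm_mul, norm_pw, mul_one, norm_mul, norm_mul, Complex.norm_I, one_mul]
      have hb : ‖∑ l, ((om l * (kt om k s l) : ℝ) : ℂ) * (x l : ℂ)‖ ≤
          ∑ l, (om l * |k l| * Real.exp (om l * (|t| + 1))) * |x l| := by
        refine (norm_sum_le _ _).trans (Finset.sum_le_sum fun l _ => ?_)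
        rw [norm_mul, Complex.norm_real, Complex.norm_real, Real.norm_eq_abs, Real.norm_eq_abs,
          abs_mul, kt_apply, abs_mul, abs_of_pos (hom l), abs_of_pos (Real.exp_pos _)]
        have hs' : s ≤ |t| + 1 := by
          have := Metric.mem_ball.mp hs
          rw [Real.dist_eq] at this
          have h3 := abs_lt.mp this
          have h4 := le_abs_self t
          linarith [h3.2]
        have h5 : Real.exp (om l * s) ≤ Real.exp (om l * (|t| + 1)) := by
          apply Real.exp_le_exp.mpr
          exact mul_le_mul_of_nonneg_left hs' (hom l).le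
        have h6 : om l * (|k l| * Real.exp (om l * s)) ≤
            om l * |k l| * Real.exp (om l * (|t| + 1)) := by
          rw [mul_assoc]
          exact mul_le_mul_of_nonneg_left (mul_le_mul_of_nonneg_left h5 (abs_nonneg _)) (hom l).le
        exact mul_le_mul_of_nonneg_right h6 (abs_nonneg _)
      calc ‖g x‖ * ‖∑ l, ((om l * (kt om k s l) : ℝ) : ℂ) * (x l : ℂ)‖
          ≤ ‖g x‖ * ∑ l, (om l * |k l| * Real.exp (om l * (|t| + 1))) * |x l| :=
            mul_le_mul_of_nonneg_left hb (norm_nonneg _)
        _ = ∑ l, (om l * |k l| * Real.exp (om l * (|t| + 1))) * ‖(x l : ℂ) * g x‖ := by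
            rw [Finset.mul_sum]
            refine Finset.sum_congr rfl fun l _ => ?_
            rw [norm_mul, Complex.norm_real, Real.norm_eq_abs]; ring
    · exact integrable_finsetSum _ fun l _ => ((hxg l).norm).const_mul _
    · refine Eventually.of_forall fun x s _ => ?_
      have h1 : HasDerivAt (fun s : ℝ => ph (kt om k s) x)
          (∑ l, (om l * kt om k s l) * x l) s := by
        unfold ph
        apply HasDerivAt.fun_sum
        intro l _
        have h2 : HasDerivAt (fun s : ℝ => k l * Real.exp (om l * s) * x l)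
            (k l * (Real.exp (om l * s) * (om l * 1)) * x l) s :=
          (((((hasDerivAt_id s).const_mul (om l)).exp).const_mul (k l)).mul_const (x l))
        refine h2.congr_deriv ?_
        rw [kt_apply]; ring
      have h3 : HasDerivAt (fun s : ℝ => pw (kt om k s) x)
          (pw (kt om k s) x * (((∑ l, (om l * kt om k s l) * x l : ℝ) : ℂ) * Complex.I)) s := by
        unfold pw
        exact ((h1.ofReal_comp).mul_const Complex.I).cexp
      have h4 := h3.const_mul (g x)
      refine h4.congr_deriv ?_
      push_cast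
      ring
  -- the conserved quantity
  set Ef : ℝ → ℝ := fun t => ∑ l, (k l) ^ 2 * Real.exp (2 * om l * t) / (4 * om l) with hEf
  have hEd : ∀ t, HasDerivAt Ef ((1 / 2) * ∑ l, (kt om k t l) ^ 2) t := by
    intro t
    rw [Finset.mul_sum]
    apply HasDerivAt.fun_sum
    intro l _
    have h2 : HasDerivAt (fun s : ℝ => k l ^ 2 * Real.exp (2 * om l * s) / (4 * om l))
        (k l ^ 2 * (Real.exp (2 * om l * t) * (2 * om l * 1)) / (4 * om l)) t :=
      (((((hasDerivAt_id t).const_mul (2 * om l)).exp).const_mul (k l ^ 2)).div_const _)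
    refine h2.congr_deriv ?_
    rw [kt_apply]
    have : Real.exp (2 * om l * t) = Real.exp (om l * t) ^ 2 := by
      rw [← Real.exp_nat_mul]; congr 1; push_cast; ring
    rw [this]
    have := (hom l).ne'
    field_simp
    ring
  set z : ℝ → ℂ := fun t => y t * Complex.exp ((Ef t + lam * t : ℝ) : ℂ) with hz
  have hzd : ∀ t, HasDerivAt z 0 t := by
    intro t
    have h1 : HasDerivAt (fun t : ℝ => ((Ef t + lam * t : ℝ) : ℂ))
        (((1 / 2) * ∑ l, (kt om k t l) ^ 2 + lam : ℝ) : ℂ) t := by
      have := ((hEd t).add ((hasDerivAt_id t).const_mul lam)).ofReal_comp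
      simpa using this
    have h2 := (hder t).mul h1.cexp
    refine h2.congr_deriv ?_
    ring
  have hzc : ∀ t, z t = z 0 := by
    intro t
    exact is_const_of_deriv_eq_zero (fun t => (hzd t).differentiableAt)
      (fun t => (hzd t).deriv) t 0
  -- limit at -∞
  have hylim : Tendsto y atBot (𝓝 (∫ x, g x)) := by
    have hlim : ∀ x : EuclideanSpace ℝ κ,
        Tendsto (fun t : ℝ => g x * pw (kt om k t) x) atBot (𝓝 (g x)) := by
      intro x
      have h1 : Tendsto (fun t : ℝ => ph (kt om k t) x) atBot (𝓝 0) := by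
        have h2 : ∀ l ∈ (Finset.univ : Finset κ), Tendsto (fun t : ℝ => kt om k t l * x l) atBot
            (𝓝 0) := by
          intro l _
          have h3 : Tendsto (fun t : ℝ => Real.exp (om l * t)) atBot (𝓝 0) :=
            Real.tendsto_exp_atBot.comp (tendsto_id.const_mul_atBot (hom l))
          have h4 := (h3.const_mul (k l)).mul_const (x l)
          simpa [kt_apply] using h4
        have h5 := tendsto_finsetSum Finset.univ h2
        simpa [ph] using h5
      have h2 : Tendsto (fun t : ℝ => pw (kt om k t) x) atBot (𝓝 1) := by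
        have h3 : Continuous fun r : ℝ => Complex.exp ((r : ℂ) * Complex.I) := by fun_prop
        have h4 := (h3.tendsto 0).comp h1
        simpa [pw, Function.comp_def] using h4
      simpa using h2.const_mul (g x)
    refine tendsto_integral_filter_of_dominated_convergence (fun x => ‖g x‖)
      (Eventually.of_forall fun t => (hgp _).1) (Eventually.of_forall fun t =>
        Eventually.of_forall fun x => ?_) hg.norm (Eventually.of_forall hlim)
    rw [norm_mul, norm_pw, mul_one]
  have hElim : Tendsto Ef atBot (𝓝 0) := by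
    have h2 : ∀ l ∈ (Finset.univ : Finset κ), Tendsto
        (fun t : ℝ => k l ^ 2 * Real.exp (2 * om l * t) / (4 * om l)) atBot (𝓝 0) := by
      intro l _
      have h3 : Tendsto (fun t : ℝ => Real.exp (2 * om l * t)) atBot (𝓝 0) :=
        Real.tendsto_exp_atBot.comp (tendsto_id.const_mul_atBot (by have := hom l; positivity))
      have h4 := (h3.const_mul (k l ^ 2)).div_const (4 * om l)
      simpa using h4
    have h5 := tendsto_finsetSum Finset.univ h2
    simpa [hEf] using h5
  have hz0 : z 0 = 0 := by
    have hzl : Tendsto z atBot (𝓝 0) := by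
      have e1 : z = fun t => y t * Complex.exp ((Ef t : ℝ) : ℂ) *
          ((Real.exp (lam * t) : ℝ) : ℂ) := by
        funext t
        simp only [hz]
        push_cast
        rw [Complex.exp_add]; ring
      rw [e1]
      have h1 : Tendsto (fun t => Complex.exp ((Ef t : ℝ) : ℂ)) atBot (𝓝 1) := by
        have h3 : Continuous fun r : ℝ => Complex.exp (r : ℂ) := by fun_prop
        have h4 := (h3.tendsto 0).comp hElim
        simpa [Function.comp_def] using h4
      rcases hlam with hl | ⟨hl, hi⟩
      · have h3 : Tendsto (fun t : ℝ => ((Real.exp (lam * t) : ℝ) : ℂ)) atBot (𝓝 0) := by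
          have h4 : Tendsto (fun t : ℝ => Real.exp (lam * t)) atBot (𝓝 0) :=
            Real.tendsto_exp_atBot.comp (tendsto_id.const_mul_atBot hl)
          have := (Complex.continuous_ofReal.tendsto 0).comp h4
          simpa [Function.comp_def] using this
        have := (hylim.mul h1).mul h3
        simpa using this
      · rw [hi] at hylim
        subst hl
        have := (hylim.mul h1)
        simpa using this
    have hcst : Tendsto z atBot (𝓝 (z 0)) := by
      have : z = fun _ => z 0 := funext hzc
      rw [this]; exact tendsto_const_nhds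
    exact tendsto_nhds_unique hcst hzl
  have : z 0 = y 0 * Complex.exp ((Ef 0 + lam * 0 : ℝ) : ℂ) := rfl
  rw [this] at hz0
  exact (mul_eq_zero.mp hz0).resolve_right (Complex.exp_ne_zero _)

end Transport

end Crest.Agent.R330.FreeA122
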