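import Mathlib
import Crest.Agent.R330.IBP_837
import Crest.Agent.R330.FreeA_122

/-!
Row 330 (helper122): part B.  Removable sets, extension of weak equations to non compactly
supported test functions, abstract oscillator systems and their weak zero modes.
-/

set_option autoImplicit false
set_option linter.unusedSectionVars false

noncomputable section

namespace Crest.Agent.R330.FreeB122

open MeasureTheory Filter Topology Crest.Agent.R330.IBP837 Crest.Agent.R330.FreeA122
open scoped ContDiff InnerProductSpace ENNReal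

section Weak

variable {κ : Type*} [Fintype κ] [DecidableEq κ]
  {F : Type*} [NormedAddCommGroup F] [InnerProductSpace ℂ F] [FiniteDimensional ℂ F]

/-- weak zero mode of one first order operator, tested off the set `S` -/
def WeakZ (S : Set (EuclideanSpace ℝ κ)) (a : κ → F →ₗ[ℂ] F)
    (V : EuclideanSpace ℝ κ → F →ₗ[ℂ] F) (f : EuclideanSpace ℝ κ → F) : Prop :=
  ∀ ψ : EuclideanSpace ℝ κ → F, ContDiff ℝ ∞ ψ → HasCompactSupport ψ →
    Disjoint (tsupport ψ) S → ∫ x, ⟪f x, dirac a V ψ x⟫_ℂ = 0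

/-- cut-offs removing `S` with small `H¹` cost on balls -/
structure Cuts (S : Set (EuclideanSpace ℝ κ)) where
  ζ : ℕ → EuclideanSpace ℝ κ → ℝ
  smooth : ∀ n, ContDiff ℝ ∞ (ζ n)
  nonneg : ∀ n x, 0 ≤ ζ n x
  le_one : ∀ n x, ζ n x ≤ 1
  disj : ∀ n, Disjoint (tsupport (ζ n)) S
  lim : ∀ᵐ x ∂(volume : Measure (EuclideanSpace ℝ κ)), Tendsto (fun n => ζ n x) atTop (𝓝 1)
  grad : ∀ (R : ℝ) (l : κ), Tendsto (fun n => eLpNorm (fun x =>
    (Metric.closedBall (0 : EuclideanSpace ℝ κ) R).indicator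
      (fun x => fderiv ℝ (ζ n) x (EuclideanSpace.single l 1)) x) 2 volume) atTop (𝓝 0)

variable {a : κ → F →ₗ[ℂ] F} {V : EuclideanSpace ℝ κ → F →ₗ[ℂ] F}
  {f : EuclideanSpace ℝ κ → F}

theorem inner_dirac_cut {χ : EuclideanSpace ℝ κ → ℝ} {ψ : EuclideanSpace ℝ κ → F}
    (hχ : ContDiff ℝ ∞ χ) (hψ : ContDiff ℝ ∞ ψ) (x : EuclideanSpace ℝ κ) :
    ⟪f x, dirac a V (fun y => χ y • ψ y) x⟫_ℂ = (χ x : ℂ) * ⟪f x, dirac a V ψ x⟫_ℂ +
      ∑ l, (-Complex.I * (fderiv ℝ χ x (EuclideanSpace.single l 1) : ℝ)) *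
        ⟪f x, a l (ψ x)⟫_ℂ := by
  rw [dirac_leibniz ((hχ.differentiable (by simp)) x) ((hψ.differentiable (by simp)) x)]
  rw [inner_add_right, inner_sum]
  congr 1
  · rw [← Complex.coe_smul, inner_smul_right]
  · refine Finset.sum_congr rfl fun l _ => ?_
    rw [← Complex.coe_smul, inner_smul_right, inner_smul_right]
    ring

/-- (D1) removable sets: weak zero modes in `L²` off `S` are weak zero modes. -/
theorem weakZ_remove {S : Set (EuclideanSpace ℝ κ)} (C : Cuts S)
    (hV : ∀ v, ContDiff ℝ ∞ (fun x => V x v)) (hf : MemLp f 2 volume)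
    (h : WeakZ S a V f) : WeakZ ∅ a V f := by
  intro ψ hψ hc _
  have hVc : ∀ v, Continuous (fun x => V x v) := fun v => (hV v).continuous
  have hψ1 : ContDiff ℝ 1 ψ := hψ.of_le (by simp)
  have hI : Integrable (fun x => ⟪f x, dirac a V ψ x⟫_ℂ) :=
    integrable_inner_of_memLp hf (memLp_dirac hVc hψ1 hc)
  obtain ⟨R, hR⟩ : ∃ R : ℝ, tsupport ψ ⊆ Metric.closedBall 0 R :=
    hc.isBounded.subset_closedBall 0
  -- each cut version vanishes
  have hz : ∀ n, ∫ x, ⟪f x, dirac a V (fun y => C.ζ n y • ψ y) x⟫_ℂ = 0 := by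
    intro n
    apply h
    · exact (C.smooth n).smul hψ
    · exact hc.smul_left
    · refine (C.disj n).mono_left ?_
      exact tsupport_smul_subset_left (C.ζ n) ψ
  obtain ⟨K, hK⟩ : ∃ K : ℝ, ∀ l, ∀ x, ‖a l (ψ x)‖ ≤ K := by
    have h1 : ∀ l, ∃ K : ℝ, ∀ x, ‖a l (ψ x)‖ ≤ K := by
      intro l
      have hcl : Continuous fun x => a l (ψ x) :=
        (contDiff_linMap_apply (n := 0) (a l) (contDiff_zero.mpr hψ.continuous)).continuous
      have hcc : HasCompactSupport fun x => a l (ψ x) :=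
        hc.mono' (fun x hx => subset_tsupport _ (by intro h0; apply hx; simp [h0]))
      exact hcl.bounded_above_of_compact_support hcc
    choose K hK using h1
    refine ⟨∑ l, |K l|, fun l x => (hK l x).trans ?_⟩
    exact (le_abs_self _).trans (Finset.single_le_sum (f := fun l => |K l|)
      (fun _ _ => abs_nonneg _) (Finset.mem_univ l))
  have hK0 : 0 ≤ K ∨ IsEmpty κ := by
    rcases isEmpty_or_nonempty κ with he | ⟨⟨l⟩⟩
    · exact Or.inr he
    · exact Or.inl ((norm_nonneg _).trans (hK l 0))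
  -- limits
  have hlim1 : Tendsto (fun n => ∫ x, (C.ζ n x : ℂ) * ⟪f x, dirac a V ψ x⟫_ℂ) atTop
      (𝓝 (∫ x, ⟪f x, dirac a V ψ x⟫_ℂ)) := by
    refine tendsto_integral_of_dominated_convergence (fun x => ‖⟪f x, dirac a V ψ x⟫_ℂ‖)
      (fun n => ?_) hI.norm (fun n => Eventually.of_forall fun x => ?_) ?_
    · exact ((Complex.continuous_ofReal.comp (C.smooth n).continuous).aestronglyMeasurable).mul
        hI.1
    · rw [norm_mul, Complex.norm_real, Real.norm_eq_abs, abs_of_nonneg (C.nonneg n x)]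
      exact mul_le_of_le_one_left (norm_nonneg _) (C.le_one n x)
    · filter_upwards [C.lim] with x hx
      have := ((Complex.continuous_ofReal.tendsto 1).comp hx).mul_const ⟪f x, dirac a V ψ x⟫_ℂ
      simpa using this
  have hlim2 : ∀ l, Tendsto (fun n => ∫ x,
      (-Complex.I * (fderiv ℝ (C.ζ n) x (EuclideanSpace.single l 1) : ℝ)) *
        ⟪f x, a l (ψ x)⟫_ℂ) atTop (𝓝 0) := by
    intro l
    have hK0' : 0 ≤ K := by
      rcases hK0 with h0 | h0
      · exact h0
      · exact (h0.false l).elim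
    rw [tendsto_zero_iff_norm_tendsto_zero]
    have hbound : ∀ n, ENNReal.ofReal ‖∫ x,
        (-Complex.I * (fderiv ℝ (C.ζ n) x (EuclideanSpace.single l 1) : ℝ)) *
        ⟪f x, a l (ψ x)⟫_ℂ‖ ≤ eLpNorm f 2 volume * (ENNReal.ofReal K * eLpNorm (fun x =>
        (Metric.closedBall (0 : EuclideanSpace ℝ κ) R).indicator
        (fun x => fderiv ℝ (C.ζ n) x (EuclideanSpace.single l 1)) x) 2 volume) := by
      intro n
      set u : EuclideanSpace ℝ κ → F := fun x =>
        (-Complex.I * (fderiv ℝ (C.ζ n) x (EuclideanSpace.single l 1) : ℝ)) • a l (ψ x) with hu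
      have hu_cont : Continuous u := by
        have h1 : Continuous fun x => fderiv ℝ (C.ζ n) x (EuclideanSpace.single l 1) :=
          ((C.smooth n).continuous_fderiv (by simp)).clm_apply continuous_const
        have h2 : Continuous fun x => a l (ψ x) :=
          (contDiff_linMap_apply (n := 0) (a l) (contDiff_zero.mpr hψ.continuous)).continuous
        exact (continuous_const.mul (Complex.continuous_ofReal.comp h1)).smul h2
      have hu_cs : HasCompactSupport u :=
        hc.mono' (fun x hx => subset_tsupport _ (by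
          intro h0; apply hx; simp [hu, h0]))
      have hu_mem : MemLp u 2 volume := hu_cont.memLp_of_hasCompactSupport hu_cs
      have e1 : ∫ x, (-Complex.I * (fderiv ℝ (C.ζ n) x (EuclideanSpace.single l 1) : ℝ)) *
        ⟪f x, a l (ψ x)⟫_ℂ = ∫ x, ⟪f x, u x⟫_ℂ := by
        refine integral_congr_ae (Eventually.of_forall fun x => ?_)
        simp only [hu, inner_smul_right]
      rw [e1]
      refine (norm_integral_inner_le hf hu_mem).trans (mul_le_mul_right ?_ _)
      have e2 : ENNReal.ofReal K * eLpNorm (fun x =>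
        (Metric.closedBall (0 : EuclideanSpace ℝ κ) R).indicator
        (fun x => fderiv ℝ (C.ζ n) x (EuclideanSpace.single l 1)) x) 2 volume =
          eLpNorm (fun x => K • (Metric.closedBall (0 : EuclideanSpace ℝ κ) R).indicator
        (fun x => fderiv ℝ (C.ζ n) x (EuclideanSpace.single l 1)) x) 2 volume := by
        have := eLpNorm_const_smul (μ := (volume : Measure (EuclideanSpace ℝ κ))) (p := 2) K
          (fun x => (Metric.closedBall (0 : EuclideanSpace ℝ κ) R).indicator
        (fun x => fderiv ℝ (C.ζ n) x (EuclideanSpace.single l 1)) x)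
        rw [show (fun x => K • (Metric.closedBall (0 : EuclideanSpace ℝ κ) R).indicator
          (fun x => fderiv ℝ (C.ζ n) x (EuclideanSpace.single l 1)) x) =
          K • (fun x => (Metric.closedBall (0 : EuclideanSpace ℝ κ) R).indicator
          (fun x => fderiv ℝ (C.ζ n) x (EuclideanSpace.single l 1)) x) from rfl, this]
        congr 1
        rw [Real.enorm_eq_ofReal_abs, abs_of_nonneg hK0']
      rw [e2]
      refine eLpNorm_mono fun x => ?_
      by_cases hx : x ∈ Metric.closedBall (0 : EuclideanSpace ℝ κ) R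
      · rw [Set.indicator_of_mem hx]
        simp only [hu, norm_smul, norm_mul, norm_neg, Complex.norm_I, one_mul, Complex.norm_real]
        rw [Real.norm_eq_abs K, abs_of_nonneg hK0', mul_comm]
        exact mul_le_mul_of_nonneg_right (hK l x) (norm_nonneg _)
      · rw [Set.indicator_of_notMem hx]
        have : ψ x = 0 := by
          by_contra h0
          exact hx (hR (subset_tsupport _ h0))
        simp [hu, this]
    have hto : Tendsto (fun n => eLpNorm f 2 volume * (ENNReal.ofReal K * eLpNorm (fun x =>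
        (Metric.closedBall (0 : EuclideanSpace ℝ κ) R).indicator
        (fun x => fderiv ℝ (C.ζ n) x (EuclideanSpace.single l 1)) x) 2 volume)) atTop (𝓝 0) := by
      have h1 := ENNReal.Tendsto.const_mul (a := ENNReal.ofReal K) (C.grad R l)
        (Or.inr ENNReal.ofReal_ne_top)
      have h2 := ENNReal.Tendsto.const_mul (a := eLpNorm f 2 volume) h1 (Or.inr hf.2.ne)
      simpa using h2
    have h3 := tendsto_of_tendsto_of_tendsto_of_le_of_le tendsto_const_nhds hto
      (fun n => bot_le) hbound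
    have h4 := (ENNReal.tendsto_toReal ENNReal.zero_ne_top).comp h3
    simpa [Function.comp_def, ENNReal.toReal_ofReal] using h4
  -- assemble
  have hsum : ∀ n, (0 : ℂ) = (∫ x, (C.ζ n x : ℂ) * ⟪f x, dirac a V ψ x⟫_ℂ) +
      ∑ l, ∫ x, (-Complex.I * (fderiv ℝ (C.ζ n) x (EuclideanSpace.single l 1) : ℝ)) *
        ⟪f x, a l (ψ x)⟫_ℂ := by
    intro n
    rw [← hz n]
    have hi1 : Integrable fun x => (C.ζ n x : ℂ) * ⟪f x, dirac a V ψ x⟫_ℂ := by
      refine hI.bdd_mul (c := 1)
        (Complex.continuous_ofReal.comp (C.smooth n).continuous).aestronglyMeasurable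
        (Eventually.of_forall fun x => ?_)
      rw [Complex.norm_real, Real.norm_eq_abs, abs_of_nonneg (C.nonneg n x)]
      exact C.le_one n x
    have hi2 : ∀ l, Integrable fun x =>
        (-Complex.I * (fderiv ℝ (C.ζ n) x (EuclideanSpace.single l 1) : ℝ)) *
        ⟪f x, a l (ψ x)⟫_ℂ := by
      intro l
      have h1 : Continuous fun x => fderiv ℝ (C.ζ n) x (EuclideanSpace.single l 1) :=
        ((C.smooth n).continuous_fderiv (by simp)).clm_apply continuous_const
      have h2 : Continuous fun x => a l (ψ x) :=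
        (contDiff_linMap_apply (n := 0) (a l) (contDiff_zero.mpr hψ.continuous)).continuous
      have h3 : Continuous fun x =>
          (-Complex.I * (fderiv ℝ (C.ζ n) x (EuclideanSpace.single l 1) : ℝ)) • a l (ψ x) :=
        (continuous_const.mul (Complex.continuous_ofReal.comp h1)).smul h2
      have h4 : HasCompactSupport fun x =>
          (-Complex.I * (fderiv ℝ (C.ζ n) x (EuclideanSpace.single l 1) : ℝ)) • a l (ψ x) :=
        hc.mono' (fun x hx => subset_tsupport _ (by
          intro h0; apply hx; simp [h0]))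
      have h5 := integrable_inner_of_memLp hf (h3.memLp_of_hasCompactSupport (p := 2) h4)
      refine h5.congr (Eventually.of_forall fun x => ?_)
      simp only [inner_smul_right]
    rw [← integral_finsetSum _ (fun l _ => hi2 l),
      ← integral_add hi1 (integrable_finsetSum _ (fun l _ => hi2 l))]
    exact integral_congr_ae (Eventually.of_forall fun x => inner_dirac_cut (C.smooth n) hψ x)
  have hfin : Tendsto (fun n => (∫ x, (C.ζ n x : ℂ) * ⟪f x, dirac a V ψ x⟫_ℂ) +
      ∑ l, ∫ x, (-Complex.I * (fderiv ℝ (C.ζ n) x (EuclideanSpace.single l 1) : ℝ)) *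
        ⟪f x, a l (ψ x)⟫_ℂ) atTop (𝓝 ((∫ x, ⟪f x, dirac a V ψ x⟫_ℂ) + ∑ _l : κ, 0)) :=
    hlim1.add (tendsto_finsetSum _ fun l _ => hlim2 l)
  have hconst : Tendsto (fun _ : ℕ => (0 : ℂ)) atTop
      (𝓝 ((∫ x, ⟪f x, dirac a V ψ x⟫_ℂ) + ∑ _l : κ, 0)) := by
    refine hfin.congr (fun n => (hsum n).symm)
  have := tendsto_nhds_unique hconst tendsto_const_nhds
  simpa using this

/-- smooth cut-offs at infinity -/
def bump (κ : Type*) [Fintype κ] : ContDiffBump (0 : EuclideanSpace ℝ κ) :=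
  ⟨1, 2, one_pos, one_lt_two⟩

/-- `χ_n(x) = χ(x/(n+1))` -/
def cutInf (κ : Type*) [Fintype κ] (n : ℕ) (x : EuclideanSpace ℝ κ) : ℝ :=
  bump κ ((1 / ((n : ℝ) + 1)) • x)

theorem cutInf_smooth (n : ℕ) : ContDiff ℝ ∞ (cutInf κ n) := by
  unfold cutInf
  exact (bump κ).contDiff.comp (contDiff_const_smul _)

theorem cutInf_nonneg (n : ℕ) (x : EuclideanSpace ℝ κ) : 0 ≤ cutInf κ n x := (bump κ).nonneg

theorem cutInf_le_one (n : ℕ) (x : EuclideanSpace ℝ κ) : cutInf κ n x ≤ 1 := (bump κ).le_one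

theorem cutInf_eq_one {n : ℕ} {x : EuclideanSpace ℝ κ} (h : ‖x‖ ≤ (n : ℝ) + 1) :
    cutInf κ n x = 1 := by
  unfold cutInf
  apply (bump κ).one_of_mem_closedBall
  have hn : (0 : ℝ) < (n : ℝ) + 1 := by positivity
  rw [mem_closedBall_zero_iff, norm_smul, Real.norm_eq_abs, abs_of_pos (by positivity)]
  rw [one_div, inv_mul_le_iff₀ hn]
  show ‖x‖ ≤ ((n : ℝ) + 1) * 1
  linarith

theorem cutInf_compact (n : ℕ) : HasCompactSupport (cutInf κ n) := by
  have hn : (0 : ℝ) < (n : ℝ) + 1 := by positivity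
  apply HasCompactSupport.of_support_subset_isCompact
    (isCompact_closedBall (0 : EuclideanSpace ℝ κ) (2 * ((n : ℝ) + 1)))
  intro x hx
  by_contra h
  apply hx
  unfold cutInf
  have h2 : (2 : ℝ) ≤ dist ((1 / ((n : ℝ) + 1)) • x) 0 := by
    rw [dist_zero_right, norm_smul, Real.norm_eq_abs, abs_of_pos (by positivity)]
    rw [mem_closedBall_zero_iff, not_le] at h
    rw [one_div, le_inv_mul_iff₀ hn]
    linarith
  exact (bump κ).zero_of_le_dist h2

theorem cutInf_grad : ∃ C : ℝ, ∀ (n : ℕ) (x : EuclideanSpace ℝ κ) (l : κ),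
    |fderiv ℝ (cutInf κ n) x (EuclideanSpace.single l 1)| ≤ C / ((n : ℝ) + 1) := by
  obtain ⟨C, hC⟩ : ∃ C : ℝ, ∀ x, ‖fderiv ℝ (bump κ : EuclideanSpace ℝ κ → ℝ) x‖ ≤ C := by
    have h1 : Continuous (fderiv ℝ (bump κ : EuclideanSpace ℝ κ → ℝ)) :=
      ((bump κ).contDiff (n := 1)).continuous_fderiv (by norm_num)
    exact h1.bounded_above_of_compact_support ((bump κ).hasCompactSupport.fderiv (𝕜 := ℝ))
  refine ⟨C, fun n x l => ?_⟩
  have hn : (0 : ℝ) < (n : ℝ) + 1 := by positivity
  have h2 : HasFDerivAt (cutInf κ n)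
      ((fderiv ℝ (bump κ : EuclideanSpace ℝ κ → ℝ) ((1 / ((n : ℝ) + 1)) • x)).comp
        ((1 / ((n : ℝ) + 1)) • ContinuousLinearMap.id ℝ (EuclideanSpace ℝ κ))) x := by
    have h3 : HasFDerivAt (fun x : EuclideanSpace ℝ κ => (1 / ((n : ℝ) + 1)) • x)
        ((1 / ((n : ℝ) + 1)) • ContinuousLinearMap.id ℝ (EuclideanSpace ℝ κ)) x :=
      (hasFDerivAt_id (𝕜 := ℝ) x).fun_const_smul _
    have h4 : DifferentiableAt ℝ (bump κ : EuclideanSpace ℝ κ → ℝ) ((1 / ((n : ℝ) + 1)) • x) :=
      (((bump κ).contDiff (n := 1)).differentiable (by norm_num)) _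
    exact h4.hasFDerivAt.comp x h3
  rw [h2.fderiv]
  simp only [ContinuousLinearMap.comp_apply, ContinuousLinearMap.coe_smul', Pi.smul_apply,
    ContinuousLinearMap.id_apply, map_smul, smul_eq_mul, abs_mul]
  rw [abs_of_pos (show (0 : ℝ) < 1 / ((n : ℝ) + 1) by positivity)]
  rw [show C / ((n : ℝ) + 1) = 1 / ((n : ℝ) + 1) * C by ring]
  apply mul_le_mul_of_nonneg_left _ (by positivity)
  have h5 := (fderiv ℝ (bump κ : EuclideanSpace ℝ κ → ℝ)
    ((1 / ((n : ℝ) + 1)) • x)).le_opNorm (EuclideanSpace.single l (1 : ℝ))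
  rw [Real.norm_eq_abs] at h5
  refine h5.trans ?_
  rw [EuclideanSpace.norm_single, norm_one, mul_one]
  exact hC _

/-- (D2) weak equations hold for non compactly supported test functions -/
theorem weak_extend (h : WeakZ ∅ a V f) {ψ : EuclideanSpace ℝ κ → F} (hψ : ContDiff ℝ ∞ ψ)
    (hI : Integrable (fun x => ⟪f x, dirac a V ψ x⟫_ℂ))
    (hJ : ∀ l, Integrable (fun x => ⟪f x, a l (ψ x)⟫_ℂ)) :
    ∫ x, ⟪f x, dirac a V ψ x⟫_ℂ = 0 := by
  obtain ⟨C, hC⟩ := cutInf_grad (κ := κ)
  have hz : ∀ n, ∫ x, ⟪f x, dirac a V (fun y => cutInf κ n y • ψ y) x⟫_ℂ = 0 := by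
    intro n
    apply h
    · exact (cutInf_smooth n).smul hψ
    · exact (cutInf_compact n).smul_right
    · exact Set.disjoint_empty _
  have hlim1 : Tendsto (fun n => ∫ x, (cutInf κ n x : ℂ) * ⟪f x, dirac a V ψ x⟫_ℂ) atTop
      (𝓝 (∫ x, ⟪f x, dirac a V ψ x⟫_ℂ)) := by
    refine tendsto_integral_of_dominated_convergence (fun x => ‖⟪f x, dirac a V ψ x⟫_ℂ‖)
      (fun n => ?_) hI.norm (fun n => Eventually.of_forall fun x => ?_)
      (Eventually.of_forall fun x => ?_)
    · exact ((Complex.continuous_ofReal.comp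
        (cutInf_smooth n).continuous).aestronglyMeasurable).mul hI.1
    · rw [norm_mul, Complex.norm_real, Real.norm_eq_abs, abs_of_nonneg (cutInf_nonneg n x)]
      exact mul_le_of_le_one_left (norm_nonneg _) (cutInf_le_one n x)
    · apply tendsto_const_nhds.congr'
      obtain ⟨n0, hn0⟩ := exists_nat_ge ‖x‖
      filter_upwards [eventually_ge_atTop n0] with n hn
      have : (n0 : ℝ) ≤ n := by exact_mod_cast hn
      rw [cutInf_eq_one (by linarith)]
      simp
  have hCn : Tendsto (fun n : ℕ => C / ((n : ℝ) + 1)) atTop (𝓝 0) := by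
    have h1 := (tendsto_one_div_add_atTop_nhds_zero_nat (𝕜 := ℝ)).const_mul C
    simpa [div_eq_mul_inv] using h1
  have hi2 : ∀ n l, Integrable fun x =>
      (-Complex.I * (fderiv ℝ (cutInf κ n) x (EuclideanSpace.single l 1) : ℝ)) *
      ⟪f x, a l (ψ x)⟫_ℂ := by
    intro n l
    have h1 : Continuous fun x => fderiv ℝ (cutInf κ n) x (EuclideanSpace.single l 1) :=
      ((cutInf_smooth n).continuous_fderiv (by simp)).clm_apply continuous_const
    refine (hJ l).bdd_mul (c := C / ((n : ℝ) + 1))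
      (continuous_const.mul (Complex.continuous_ofReal.comp h1)).aestronglyMeasurable
      (Eventually.of_forall fun x => ?_)
    rw [norm_mul, norm_neg, Complex.norm_I, one_mul, Complex.norm_real, Real.norm_eq_abs]
    exact hC n x l
  have hlim2 : ∀ l, Tendsto (fun n => ∫ x,
      (-Complex.I * (fderiv ℝ (cutInf κ n) x (EuclideanSpace.single l 1) : ℝ)) *
        ⟪f x, a l (ψ x)⟫_ℂ) atTop (𝓝 0) := by
    intro l
    apply squeeze_zero_norm (a := fun n : ℕ => (C / ((n : ℝ) + 1)) * ∫ x, ‖⟪f x, a l (ψ x)⟫_ℂ‖)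
    · intro n
      refine (norm_integral_le_integral_norm _).trans ?_
      rw [← integral_const_mul]
      refine integral_mono (hi2 n l).norm ((hJ l).norm.const_mul _) fun x => ?_
      simp only [norm_mul, norm_neg, Complex.norm_I, one_mul, Complex.norm_real, Real.norm_eq_abs]
      exact mul_le_mul_of_nonneg_right (hC n x l) (norm_nonneg _)
    · simpa using hCn.mul_const (∫ x, ‖⟪f x, a l (ψ x)⟫_ℂ‖)
  have hsum : ∀ n, (0 : ℂ) = (∫ x, (cutInf κ n x : ℂ) * ⟪f x, dirac a V ψ x⟫_ℂ) +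
      ∑ l, ∫ x, (-Complex.I * (fderiv ℝ (cutInf κ n) x (EuclideanSpace.single l 1) : ℝ)) *
        ⟪f x, a l (ψ x)⟫_ℂ := by
    intro n
    rw [← hz n]
    have hi1 : Integrable fun x => (cutInf κ n x : ℂ) * ⟪f x, dirac a V ψ x⟫_ℂ := by
      refine hI.bdd_mul (c := 1)
        (Complex.continuous_ofReal.comp (cutInf_smooth n).continuous).aestronglyMeasurable
        (Eventually.of_forall fun x => ?_)
      rw [Complex.norm_real, Real.norm_eq_abs, abs_of_nonneg (cutInf_nonneg n x)]
      exact cutInf_le_one n x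
    rw [← integral_finsetSum _ (fun l _ => hi2 n l),
      ← integral_add hi1 (integrable_finsetSum _ (fun l _ => hi2 n l))]
    exact integral_congr_ae (Eventually.of_forall fun x => inner_dirac_cut (cutInf_smooth n) hψ x)
  have hfin : Tendsto (fun n => (∫ x, (cutInf κ n x : ℂ) * ⟪f x, dirac a V ψ x⟫_ℂ) +
      ∑ l, ∫ x, (-Complex.I * (fderiv ℝ (cutInf κ n) x (EuclideanSpace.single l 1) : ℝ)) *
        ⟪f x, a l (ψ x)⟫_ℂ) atTop (𝓝 ((∫ x, ⟪f x, dirac a V ψ x⟫_ℂ) + ∑ _l : κ, 0)) :=
    hlim1.add (tendsto_finsetSum _ fun l _ => hlim2 l)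
  have hconst : Tendsto (fun _ : ℕ => (0 : ℂ)) atTop
      (𝓝 ((∫ x, ⟪f x, dirac a V ψ x⟫_ℂ) + ∑ _l : κ, 0)) := by
    refine hfin.congr (fun n => (hsum n).symm)
  have := tendsto_nhds_unique hconst tendsto_const_nhds
  simpa using this

end Weak

end Crest.Agent.R330.FreeB122
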