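import Mathlib
import Crest.Agent.R330.IBP_837
import Crest.Agent.R330.FreeA_122
import Crest.Agent.R330.FreeB_122

/-!
Row 330 (helper122): part C.  Abstract oscillator systems: charges
`D_α = Σ_k (-i) a_αk ∂_k + Σ_k x_k v_αk` with `Σ_α {a,a} = 2c δ`, `Σ_α {a,v} = 0`,
`Σ_α {v,v} = 2c ω² δ`.  Weak `L²` zero modes are exactly `Gauss ⊗ e`, `e ∈ ker M`.
-/

set_option autoImplicit false
set_option linter.unusedSectionVars false

noncomputable section

namespace Crest.Agent.R330.FreeC122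

open MeasureTheory Filter Topology Crest.Agent.R330.IBP837 Crest.Agent.R330.FreeA122
  Crest.Agent.R330.FreeB122
open scoped ContDiff InnerProductSpace ENNReal

section Sys

variable {ι κ : Type*} [Fintype ι] [Fintype κ] [DecidableEq κ]
  {F : Type*} [NormedAddCommGroup F] [InnerProductSpace ℂ F] [FiniteDimensional ℂ F]

/-- the linear potential `Σ_k x_k v_k` -/
def lin (v : κ → F →ₗ[ℂ] F) (x : EuclideanSpace ℝ κ) : F →ₗ[ℂ] F :=
  ∑ l, ((x l : ℝ) : ℂ) • v l

theorem lin_apply (v : κ → F →ₗ[ℂ] F) (x : EuclideanSpace ℝ κ) (w : F) :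
    lin v x w = ∑ l, ((x l : ℝ) : ℂ) • v l w := by
  simp [lin, LinearMap.sum_apply]

theorem lin_smooth (v : κ → F →ₗ[ℂ] F) (w : F) :
    ContDiff ℝ ∞ (fun x : EuclideanSpace ℝ κ => lin v x w) := by
  simp only [lin_apply]
  apply ContDiff.sum
  intro l _
  have h1 : ContDiff ℝ ∞ (fun x : EuclideanSpace ℝ κ => ((x l : ℝ) : ℂ)) :=
    Complex.ofRealCLM.contDiff.comp (EuclideanSpace.proj (𝕜 := ℝ) l).contDiff
  exact h1.smul contDiff_const

/-- an oscillator system -/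
structure OscSys (ι κ : Type*) [Fintype ι] [Fintype κ] [DecidableEq κ]
    (F : Type*) [NormedAddCommGroup F] [InnerProductSpace ℂ F] where
  a : ι → κ → F →ₗ[ℂ] F
  v : ι → κ → F →ₗ[ℂ] F
  om : κ → ℝ
  c : ℝ
  om_pos : ∀ k, 0 < om k
  c_pos : 0 < c
  a_symm : ∀ α k, (a α k).IsSymmetric
  v_symm : ∀ α k, (v α k).IsSymmetric
  aa : ∀ k l, ∀ w : F, ∑ α, (a α k (a α l w) + a α l (a α k w)) =
    if k = l then ((2 * c : ℝ) : ℂ) • w else 0
  av : ∀ k l, ∀ w : F, ∑ α, (a α k (v α l w) + v α l (a α k w)) = 0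
  vv : ∀ k l, ∀ w : F, ∑ α, (v α k (v α l w) + v α l (v α k w)) =
    if k = l then ((2 * c * om k ^ 2 : ℝ) : ℂ) • w else 0

namespace OscSys

variable (S : OscSys ι κ F)

/-- the charge -/
def D (α : ι) (φ : EuclideanSpace ℝ κ → F) (x : EuclideanSpace ℝ κ) : F :=
  dirac (S.a α) (lin (S.v α)) φ x

/-- `C_αk = i ω_k a_αk + v_αk` -/
def C (α : ι) (k : κ) : F →ₗ[ℂ] F := (Complex.I * S.om k) • S.a α k + S.v α k

/-- the fermionic mass operator (times `2c`) -/
def M : F →ₗ[ℂ] F := ((S.c * ∑ k, S.om k : ℝ) : ℂ) • LinearMap.id -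
  Complex.I • ∑ α, ∑ k, S.a α k ∘ₗ S.v α k

theorem M_apply (w : F) : S.M w = ((S.c * ∑ k, S.om k : ℝ) : ℂ) • w -
    Complex.I • ∑ α, ∑ k, S.a α k (S.v α k w) := by
  simp [M, LinearMap.sum_apply]

/-- the Gaussian -/
def gs (x : EuclideanSpace ℝ κ) : ℝ := Real.exp (-(1 / 2) * ∑ k, S.om k * x k ^ 2)

theorem gs_pos (x : EuclideanSpace ℝ κ) : 0 < S.gs x := Real.exp_pos _

theorem gs_smooth : ContDiff ℝ ∞ S.gs := by
  unfold gs
  apply Real.contDiff_exp.comp
  apply contDiff_const.mul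
  apply ContDiff.sum
  intro k _
  exact contDiff_const.mul ((EuclideanSpace.proj (𝕜 := ℝ) k).contDiff.pow 2)

/-- symmetrisation of a double sum -/
theorem sym_sum {T : κ → κ → F} {s : κ → F}
    (h : ∀ j l, T j l + T l j = if j = l then s j else 0) (p : κ → ℂ) :
    ∑ j, ∑ l, (p j * p l) • T j l = ∑ j, (p j ^ 2 / 2) • s j := by
  have h4 : ∑ j, ∑ l, (p j * p l) • T l j = ∑ j, ∑ l, (p j * p l) • T j l := by
    rw [Finset.sum_comm]
    refine Finset.sum_congr rfl fun j _ => Finset.sum_congr rfl fun l _ => ?_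
    rw [mul_comm (p l) (p j)]
  have h2 : (2 : ℂ) • ∑ j, ∑ l, (p j * p l) • T j l =
      (2 : ℂ) • ∑ j, (p j ^ 2 / 2) • s j := by
    rw [two_smul]
    nth_rewrite 2 [← h4]
    rw [← Finset.sum_add_distrib, Finset.smul_sum]
    refine Finset.sum_congr rfl fun j _ => ?_
    rw [← Finset.sum_add_distrib]
    have : ∀ l, (p j * p l) • T j l + (p j * p l) • T l j =
        if j = l then (p j * p l) • s j else 0 := by
      intro l
      rw [← smul_add, h j l]
      split_ifs <;> simp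
    simp only [this, Finset.sum_ite_eq, Finset.mem_univ, if_true]
    rw [smul_smul]
    congr 1; ring
  exact smul_right_injective F (two_ne_zero : (2 : ℂ) ≠ 0) h2

/-- `Σ_α (Σ p_j a_αj + Σ q_j v_αj)² = c (Σ p² + Σ ω² q²)` -/
theorem sq_sum (p q : κ → ℂ) (w : F) :
    ∑ α, ∑ j, (p j • S.a α j (∑ l, (p l • S.a α l w + q l • S.v α l w)) +
      q j • S.v α j (∑ l, (p l • S.a α l w + q l • S.v α l w))) =
    ((S.c : ℂ) * (∑ j, p j ^ 2 + ∑ j, (S.om j : ℂ) ^ 2 * q j ^ 2)) • w := by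
  have e1 : ∀ α, (∑ j, (p j • S.a α j (∑ l, (p l • S.a α l w + q l • S.v α l w)) +
      q j • S.v α j (∑ l, (p l • S.a α l w + q l • S.v α l w)))) =
      (∑ j, ∑ l, (p j * p l) • S.a α j (S.a α l w)) +
      (∑ j, ∑ l, (q j * q l) • S.v α j (S.v α l w)) +
      (∑ j, ∑ l, (p j * q l) • (S.a α j (S.v α l w) + S.v α l (S.a α j w))) := by
    intro α
    have h1 : ∑ j, ∑ l, (p j * q l) • S.v α l (S.a α j w) =
        ∑ j, ∑ l, (q j * p l) • S.v α j (S.a α l w) := by
      rw [Finset.sum_comm]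
      refine Finset.sum_congr rfl fun j _ => Finset.sum_congr rfl fun l _ => ?_
      rw [mul_comm]
    have h2 : ∑ j, ∑ l, (p j * q l) • (S.a α j (S.v α l w) + S.v α l (S.a α j w)) =
        (∑ j, ∑ l, (p j * q l) • S.a α j (S.v α l w)) +
          ∑ j, ∑ l, (q j * p l) • S.v α j (S.a α l w) := by
      rw [← h1, ← Finset.sum_add_distrib]
      refine Finset.sum_congr rfl fun j _ => ?_
      rw [← Finset.sum_add_distrib]
      refine Finset.sum_congr rfl fun l _ => ?_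
      rw [smul_add]
    rw [h2]
    have h3 : ∀ j, (p j • S.a α j (∑ l, (p l • S.a α l w + q l • S.v α l w)) +
        q j • S.v α j (∑ l, (p l • S.a α l w + q l • S.v α l w))) =
        (∑ l, (p j * p l) • S.a α j (S.a α l w)) + (∑ l, (p j * q l) • S.a α j (S.v α l w)) +
        ((∑ l, (q j * p l) • S.v α j (S.a α l w)) + ∑ l, (q j * q l) • S.v α j (S.v α l w)) := by
      intro j
      simp only [map_sum, map_add, map_smul, Finset.smul_sum, smul_add, smul_smul,
        Finset.sum_add_distrib]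
    rw [Finset.sum_congr rfl (fun j _ => h3 j)]
    simp only [Finset.sum_add_distrib]
    abel
  rw [Finset.sum_congr rfl (fun α _ => e1 α), Finset.sum_add_distrib, Finset.sum_add_distrib]
  have hA : ∑ α, ∑ j, ∑ l, (p j * p l) • S.a α j (S.a α l w) =
      ((S.c : ℂ) * ∑ j, p j ^ 2) • w := by
    have h3 : ∑ α, ∑ j, ∑ l, (p j * p l) • S.a α j (S.a α l w) =
        ∑ j, ∑ l, (p j * p l) • ∑ α, S.a α j (S.a α l w) := by
      rw [Finset.sum_comm]
      refine Finset.sum_congr rfl fun j _ => ?_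
      rw [Finset.sum_comm]
      refine Finset.sum_congr rfl fun l _ => ?_
      rw [Finset.smul_sum]
    rw [h3, sym_sum (s := fun _ => ((2 * S.c : ℝ) : ℂ) • w)]
    · simp only [smul_smul]
      rw [← Finset.sum_smul]
      congr 1
      rw [Finset.mul_sum]
      refine Finset.sum_congr rfl fun j _ => ?_
      push_cast; ring
    · intro j l
      rw [← Finset.sum_add_distrib]
      exact S.aa j l w
  have hB : ∑ α, ∑ j, ∑ l, (q j * q l) • S.v α j (S.v α l w) =
      ((S.c : ℂ) * ∑ j, (S.om j : ℂ) ^ 2 * q j ^ 2) • w := by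
    have h3 : ∑ α, ∑ j, ∑ l, (q j * q l) • S.v α j (S.v α l w) =
        ∑ j, ∑ l, (q j * q l) • ∑ α, S.v α j (S.v α l w) := by
      rw [Finset.sum_comm]
      refine Finset.sum_congr rfl fun j _ => ?_
      rw [Finset.sum_comm]
      refine Finset.sum_congr rfl fun l _ => ?_
      rw [Finset.smul_sum]
    rw [h3, sym_sum (s := fun j => ((2 * S.c * S.om j ^ 2 : ℝ) : ℂ) • w)]
    · simp only [smul_smul]
      rw [← Finset.sum_smul]
      congr 1
      rw [Finset.mul_sum]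
      refine Finset.sum_congr rfl fun j _ => ?_
      push_cast; ring
    · intro j l
      rw [← Finset.sum_add_distrib]
      exact S.vv j l w
  have hC : ∑ α, ∑ j, ∑ l, (p j * q l) • (S.a α j (S.v α l w) + S.v α l (S.a α j w)) = 0 := by
    rw [Finset.sum_comm]
    refine Finset.sum_eq_zero fun j _ => ?_
    rw [Finset.sum_comm]
    refine Finset.sum_eq_zero fun l _ => ?_
    rw [← Finset.smul_sum, S.av j l w, smul_zero]
  rw [hA, hB, hC, add_zero, ← add_smul]
  congr 1; ring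

/-- `Σ_α Σ_j a_αj a_αj = c |κ|`-type identity, weighted -/
theorem sum_aa (w : F) : ∑ α, ∑ j, (S.om j : ℂ) • S.a α j (S.a α j w) =
    ((S.c * ∑ j, S.om j : ℝ) : ℂ) • w := by
  rw [Finset.sum_comm]
  have h : ∀ j, ∑ α, (S.om j : ℂ) • S.a α j (S.a α j w) = ((S.c * S.om j : ℝ) : ℂ) • w := by
    intro j
    have h1 := S.aa j j w
    simp only [if_true] at h1
    have h2 : (2 : ℂ) • ∑ α, S.a α j (S.a α j w) = (2 : ℂ) • ((S.c : ℂ) • w) := by
      rw [two_smul, ← Finset.sum_add_distrib, h1, smul_smul]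
      congr 1; push_cast; ring
    have h3 := smul_right_injective F (two_ne_zero : (2 : ℂ) ≠ 0) h2
    rw [← Finset.smul_sum, h3, smul_smul]
    congr 1; push_cast; ring
  simp only [h]
  rw [← Finset.sum_smul]
  congr 1
  rw [Finset.mul_sum]; push_cast; rfl

/-- `M = Σ_k (1/(2 ω_k)) Σ_α C† C` -/
theorem inner_M (w : F) : ⟪w, S.M w⟫_ℂ =
    ((∑ k, ∑ α, (1 / (2 * S.om k)) * ‖S.C α k w‖ ^ 2 : ℝ) : ℂ) := by
  have hC : ∀ α k, ((‖S.C α k w‖ ^ 2 : ℝ) : ℂ) =
      (S.om k : ℂ) ^ 2 * ⟪w, S.a α k (S.a α k w)⟫_ℂ + ⟪w, S.v α k (S.v α k w)⟫_ℂ +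
      (-Complex.I * S.om k) * ⟪w, S.a α k (S.v α k w)⟫_ℂ +
      (Complex.I * S.om k) * ⟪w, S.v α k (S.a α k w)⟫_ℂ := by
    intro α k
    have h0 : ((‖S.C α k w‖ ^ 2 : ℝ) : ℂ) = ⟪S.C α k w, S.C α k w⟫_ℂ := by
      rw [inner_self_eq_norm_sq_to_K]; norm_cast
    rw [h0]
    have hCw : S.C α k w = (Complex.I * S.om k) • S.a α k w + S.v α k w := by
      simp [C]
    rw [hCw]
    simp only [inner_add_left, inner_add_right, inner_smul_left, inner_smul_right]
    rw [← S.a_symm α k w (S.a α k w), ← S.v_symm α k w (S.v α k w),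
      ← S.a_symm α k w (S.v α k w), ← S.v_symm α k w (S.a α k w)]
    simp only [map_mul, Complex.conj_I, Complex.conj_ofReal]
    ring_nf
    simp only [Complex.I_sq]
    ring
  have hsum : ∀ k, ((∑ α, ‖S.C α k w‖ ^ 2 : ℝ) : ℂ) = ((2 * S.om k : ℝ) : ℂ) *
      (((S.c * S.om k : ℝ) : ℂ) * ⟪w, w⟫_ℂ - Complex.I * ∑ α, ⟪w, S.a α k (S.v α k w)⟫_ℂ) := by
    intro k
    push_cast
    have h1 : ∀ α, ((‖S.C α k w‖ : ℂ)) ^ 2 = (S.om k : ℂ) ^ 2 * ⟪w, S.a α k (S.a α k w)⟫_ℂ +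
      ⟪w, S.v α k (S.v α k w)⟫_ℂ +
      (-Complex.I * S.om k) * ⟪w, S.a α k (S.v α k w)⟫_ℂ +
      (Complex.I * S.om k) * ⟪w, S.v α k (S.a α k w)⟫_ℂ := by
      intro α
      have := hC α k
      push_cast at this
      exact this
    simp only [h1, Finset.sum_add_distrib, ← Finset.mul_sum, ← inner_sum]
    have ha : ∑ α, S.a α k (S.a α k w) = (S.c : ℂ) • w := by
      have h1 := S.aa k k w
      simp only [if_true] at h1
      have h2 : (2 : ℂ) • ∑ α, S.a α k (S.a α k w) = (2 : ℂ) • ((S.c : ℂ) • w) := by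
        rw [two_smul, ← Finset.sum_add_distrib, h1, smul_smul]
        congr 1; push_cast; ring
      exact smul_right_injective F (two_ne_zero : (2 : ℂ) ≠ 0) h2
    have hv : ∑ α, S.v α k (S.v α k w) = ((S.c : ℂ) * (S.om k : ℂ) ^ 2) • w := by
      have h1 := S.vv k k w
      simp only [if_true] at h1
      have h2 : (2 : ℂ) • ∑ α, S.v α k (S.v α k w) =
          (2 : ℂ) • (((S.c : ℂ) * (S.om k : ℂ) ^ 2) • w) := by
        rw [two_smul, ← Finset.sum_add_distrib, h1, smul_smul]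
        congr 1; push_cast; ring
      exact smul_right_injective F (two_ne_zero : (2 : ℂ) ≠ 0) h2
    have hva : ∑ α, S.v α k (S.a α k w) = - ∑ α, S.a α k (S.v α k w) := by
      have h1 := S.av k k w
      rw [Finset.sum_add_distrib] at h1
      rw [eq_neg_iff_add_eq_zero, add_comm]; exact h1
    rw [ha, hv, hva, inner_neg_right, inner_smul_right, inner_smul_right]
    ring
  rw [M_apply, inner_sub_right, inner_smul_right, inner_smul_right]
  have e1 : ⟪w, ∑ α, ∑ k, S.a α k (S.v α k w)⟫_ℂ = ∑ k, ∑ α, ⟪w, S.a α k (S.v α k w)⟫_ℂ := by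
    rw [Finset.sum_comm, inner_sum]
    refine Finset.sum_congr rfl fun k _ => ?_
    rw [inner_sum]
  rw [e1]
  have e2 : ((∑ k, ∑ α, (1 / (2 * S.om k)) * ‖S.C α k w‖ ^ 2 : ℝ) : ℂ) =
      ∑ k, (((1 / (2 * S.om k) : ℝ) : ℂ) * ((∑ α, ‖S.C α k w‖ ^ 2 : ℝ) : ℂ)) := by
    push_cast
    refine Finset.sum_congr rfl fun k _ => ?_
    rw [Finset.mul_sum]
  rw [e2]
  have e3 : ∀ k, (((1 / (2 * S.om k) : ℝ) : ℂ) * ((∑ α, ‖S.C α k w‖ ^ 2 : ℝ) : ℂ)) =
      ((S.c * S.om k : ℝ) : ℂ) * ⟪w, w⟫_ℂ - Complex.I * ∑ α, ⟪w, S.a α k (S.v α k w)⟫_ℂ := by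
    intro k
    rw [hsum k, ← mul_assoc, ← Complex.ofReal_mul]
    have : 1 / (2 * S.om k) * (2 * S.om k) = 1 := by
      have := (S.om_pos k).ne'
      field_simp
    rw [this, Complex.ofReal_one, one_mul]
  simp only [e3, Finset.sum_sub_distrib, ← Finset.sum_mul, ← Finset.mul_sum]
  push_cast
  rw [Finset.mul_sum]

/-! ### test functions -/

/-- complex Gaussian wave `gs x * e^{i k x}` -/
def G (k x : EuclideanSpace ℝ κ) : ℂ :=
  Complex.exp ((-(1 / 2) * ∑ l, (S.om l : ℂ) * (x l : ℂ) ^ 2) + Complex.I * ∑ l, (k l : ℂ) * x l)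

theorem G_eq (k x : EuclideanSpace ℝ κ) : S.G k x = (S.gs x : ℂ) * pw k x := by
  unfold G gs pw ph
  rw [Complex.exp_add]
  congr 1
  · push_cast; rfl
  · push_cast; rw [mul_comm]

theorem norm_G (k x : EuclideanSpace ℝ κ) : ‖S.G k x‖ = S.gs x := by
  rw [G_eq, norm_mul, norm_pw, mul_one, Complex.norm_real, Real.norm_eq_abs,
    abs_of_pos (S.gs_pos x)]

/-- coordinate functional, complex valued -/
def pr (κ : Type*) [Fintype κ] (l : κ) : EuclideanSpace ℝ κ →L[ℝ] ℂ :=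
  Complex.ofRealCLM.comp (EuclideanSpace.proj (𝕜 := ℝ) l)

theorem pr_apply (l : κ) (x : EuclideanSpace ℝ κ) : pr κ l x = (x l : ℂ) := rfl

theorem hasFDerivAt_coord (l : κ) (x : EuclideanSpace ℝ κ) :
    HasFDerivAt (fun x : EuclideanSpace ℝ κ => (x l : ℂ)) (pr κ l) x :=
  (pr κ l).hasFDerivAt

theorem hasFDerivAt_G (k x : EuclideanSpace ℝ κ) :
    HasFDerivAt (S.G k) (S.G k x • ∑ l, (-(S.om l : ℂ) * x l + Complex.I * k l) • pr κ l) x := by
  have h1 : HasFDerivAt (fun x : EuclideanSpace ℝ κ =>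
      ((-(1 / 2) * ∑ l, (S.om l : ℂ) * (x l : ℂ) ^ 2) + Complex.I * ∑ l, (k l : ℂ) * x l))
      (∑ l, (-(S.om l : ℂ) * x l + Complex.I * k l) • pr κ l) x := by
    have h2 : HasFDerivAt (fun x : EuclideanSpace ℝ κ => ∑ l, (S.om l : ℂ) * (x l : ℂ) ^ 2)
        (∑ l, (S.om l : ℂ) • ((2 * (x l : ℂ)) • pr κ l)) x := by
      apply HasFDerivAt.fun_sum
      intro l _
      have h3 := ((hasFDerivAt_coord l x).pow 2).const_mul (S.om l : ℂ)
      refine h3.congr_fderiv ?_
      ext e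
      simp [smul_smul]
    have h4 : HasFDerivAt (fun x : EuclideanSpace ℝ κ => ∑ l, (k l : ℂ) * (x l : ℂ))
        (∑ l, (k l : ℂ) • pr κ l) x := by
      apply HasFDerivAt.fun_sum
      intro l _
      exact (hasFDerivAt_coord l x).const_mul (k l : ℂ)
    refine ((h2.const_mul (-(1 / 2) : ℂ)).add (h4.const_mul Complex.I)).congr_fderiv ?_
    rw [Finset.smul_sum, Finset.smul_sum, ← Finset.sum_add_distrib]
    refine Finset.sum_congr rfl fun l _ => ?_
    rw [smul_smul, smul_smul, smul_smul, ← add_smul]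
    congr 1; ring
  exact h1.cexp

theorem G_smooth (k : EuclideanSpace ℝ κ) : ContDiff ℝ ∞ (S.G k) := by
  unfold G
  have hc : ∀ l, ContDiff ℝ ∞ (fun x : EuclideanSpace ℝ κ => (x l : ℂ)) :=
    fun l => (pr κ l).contDiff
  apply ContDiff.cexp
  apply ContDiff.add
  · exact contDiff_const.mul (ContDiff.sum fun l _ => contDiff_const.mul ((hc l).pow 2))
  · exact contDiff_const.mul (ContDiff.sum fun l _ => contDiff_const.mul (hc l))

/-- test functions `G_k (w0 + Σ x_l w_l)` -/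
def tf (k : EuclideanSpace ℝ κ) (w0 : F) (w : κ → F) (x : EuclideanSpace ℝ κ) : F :=
  S.G k x • (w0 + ∑ l, (x l : ℂ) • w l)

theorem tf_smooth (k : EuclideanSpace ℝ κ) (w0 : F) (w : κ → F) : ContDiff ℝ ∞ (S.tf k w0 w) := by
  unfold tf
  have hc : ∀ l, ContDiff ℝ ∞ (fun x : EuclideanSpace ℝ κ => (x l : ℂ)) :=
    fun l => (pr κ l).contDiff
  exact (S.G_smooth k).smul (contDiff_const.add (ContDiff.sum fun l _ =>
    (hc l).smul contDiff_const))

theorem fderiv_tf (k : EuclideanSpace ℝ κ) (w0 : F) (w : κ → F) (x : EuclideanSpace ℝ κ) (j : κ) :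
    fderiv ℝ (S.tf k w0 w) x (EuclideanSpace.single j 1) =
      S.G k x • ((-(S.om j : ℂ) * x j + Complex.I * k j) • (w0 + ∑ l, (x l : ℂ) • w l) + w j) := by
  have h1 : HasFDerivAt (fun x : EuclideanSpace ℝ κ => w0 + ∑ l, (x l : ℂ) • w l)
      (∑ l, (pr κ l).smulRight (w l)) x := by
    apply HasFDerivAt.const_add
    apply HasFDerivAt.fun_sum
    intro l _
    exact (hasFDerivAt_coord l x).smul_const (w l)
  have h2 := (S.hasFDerivAt_G k x).smul h1
  have h3 : HasFDerivAt (S.tf k w0 w) _ x := h2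
  rw [h3.fderiv]
  have hs : ∀ l, pr κ l (EuclideanSpace.single j (1 : ℝ)) = if l = j then 1 else 0 := by
    intro l
    rw [pr_apply]
    by_cases h : l = j
    · subst h; simp
    · simp [h]
  simp only [ContinuousLinearMap.add_apply, ContinuousLinearMap.smulRight_apply,
    FunLike.coe_smul, Pi.smul_apply, ContinuousLinearMap.sum_apply, hs, smul_eq_mul, ite_smul,
    one_smul, zero_smul, mul_ite, mul_one, mul_zero, Finset.sum_ite_eq', Finset.mem_univ,
    if_true, smul_add, smul_smul]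
  abel

theorem D_tf (α : ι) (k : EuclideanSpace ℝ κ) (w0 : F) (w : κ → F) (x : EuclideanSpace ℝ κ) :
    S.D α (S.tf k w0 w) x = S.G k x •
      ((∑ j, (((k j : ℂ) + Complex.I * S.om j * x j) • S.a α j (w0 + ∑ l, (x l : ℂ) • w l) +
        (x j : ℂ) • S.v α j (w0 + ∑ l, (x l : ℂ) • w l))) +
        (-Complex.I) • ∑ j, S.a α j (w j)) := by
  unfold D dirac
  simp only [fderiv_tf, lin_apply]
  set W := w0 + ∑ l, (x l : ℂ) • w l with hW
  have htf : S.tf k w0 w x = S.G k x • W := rfl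
  rw [htf]
  simp only [map_smul, map_add, smul_add, Finset.sum_add_distrib, Finset.smul_sum, smul_smul]
  have e1 : ∑ j, (-Complex.I * (S.G k x * (-(S.om j : ℂ) * x j + Complex.I * k j))) • S.a α j W =
      ∑ j, (S.G k x * ((k j : ℂ) + Complex.I * S.om j * x j)) • S.a α j W := by
    refine Finset.sum_congr rfl fun j _ => ?_
    congr 1
    ring_nf
    simp only [Complex.I_sq]
    ring
  have e2 : ∑ j, (-Complex.I * S.G k x) • S.a α j (w j) =
      ∑ j, (S.G k x * -Complex.I) • S.a α j (w j) := by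
    refine Finset.sum_congr rfl fun j _ => ?_
    rw [mul_comm]
  have e3 : ∑ j, ((x j : ℂ) * S.G k x) • S.v α j W = ∑ j, (S.G k x * (x j : ℂ)) • S.v α j W := by
    refine Finset.sum_congr rfl fun j _ => ?_
    rw [mul_comm]
  rw [e1, e2, e3]
  abel

/-- first level: `D_α (G_k e) = tf` -/
theorem D_G (α : ι) (k : EuclideanSpace ℝ κ) (e : F) :
    S.D α (S.tf k e 0) = S.tf k (∑ j, (k j : ℂ) • S.a α j e) (fun j => S.C α j e) := by
  funext x
  rw [D_tf]
  unfold tf
  congr 1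
  simp only [Pi.zero_apply, smul_zero, Finset.sum_const_zero, add_zero, map_zero]
  rw [← Finset.sum_add_distrib]
  refine Finset.sum_congr rfl fun j _ => ?_
  simp only [C, LinearMap.add_apply, LinearMap.smul_apply, smul_add, smul_smul, add_smul]
  have : (x j : ℂ) * (Complex.I * (S.om j : ℂ)) = Complex.I * S.om j * x j := by ring
  rw [this, add_assoc]

/-- second level: the sum of squares on Gaussian waves -/
theorem DD_G (k : EuclideanSpace ℝ κ) (e : F) (x : EuclideanSpace ℝ κ) :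
    ∑ α, S.D α (S.D α (S.tf k e 0)) x = S.G k x •
      ((((S.c : ℂ) * (∑ j, (k j : ℂ) ^ 2 + 2 * Complex.I * ∑ j, (S.om j : ℂ) * k j * x j)) • e) +
        S.M e) := by
  have h1 : ∀ α, S.D α (S.D α (S.tf k e 0)) x = S.G k x •
      ((∑ j, (((k j : ℂ) + Complex.I * S.om j * x j) • S.a α j
          (∑ l, (((k l : ℂ) + Complex.I * S.om l * x l) • S.a α l e + (x l : ℂ) • S.v α l e)) +
        (x j : ℂ) • S.v α j
          (∑ l, (((k l : ℂ) + Complex.I * S.om l * x l) • S.a α l e + (x l : ℂ) • S.v α l e)))) +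
        (-Complex.I) • ∑ j, S.a α j (S.C α j e)) := by
    intro α
    rw [D_G, D_tf]
    have h2 : (∑ j, (k j : ℂ) • S.a α j e) + ∑ l, (x l : ℂ) • S.C α l e =
        ∑ l, (((k l : ℂ) + Complex.I * S.om l * x l) • S.a α l e + (x l : ℂ) • S.v α l e) := by
      rw [← Finset.sum_add_distrib]
      refine Finset.sum_congr rfl fun j _ => ?_
      simp only [C, LinearMap.add_apply, LinearMap.smul_apply, smul_add, smul_smul, add_smul]
      have : (x j : ℂ) * (Complex.I * (S.om j : ℂ)) = Complex.I * S.om j * x j := by ring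
      rw [this, add_assoc]
    rw [h2]
  rw [Finset.sum_congr rfl (fun α _ => h1 α), ← Finset.smul_sum, Finset.sum_add_distrib]
  congr 1
  rw [S.sq_sum (fun j => (k j : ℂ) + Complex.I * S.om j * x j) (fun j => (x j : ℂ)) e]
  congr 1
  · congr 1
    congr 1
    rw [Finset.mul_sum, ← Finset.sum_add_distrib, ← Finset.sum_add_distrib]
    refine Finset.sum_congr rfl fun j _ => ?_
    ring_nf
    simp only [Complex.I_sq]
    ring
  · rw [M_apply, ← S.sum_aa e]
    rw [← Finset.smul_sum]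
    have h3 : ∑ α, ∑ j, S.a α j (S.C α j e) =
        Complex.I • (∑ α, ∑ j, (S.om j : ℂ) • S.a α j (S.a α j e)) +
          ∑ α, ∑ j, S.a α j (S.v α j e) := by
      rw [Finset.smul_sum, ← Finset.sum_add_distrib]
      refine Finset.sum_congr rfl fun α _ => ?_
      rw [Finset.smul_sum, ← Finset.sum_add_distrib]
      refine Finset.sum_congr rfl fun j _ => ?_
      simp only [C, LinearMap.add_apply, LinearMap.smul_apply, map_add, map_smul, smul_smul]
    rw [h3, smul_add, smul_smul]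
    have : -Complex.I * Complex.I = 1 := by rw [neg_mul, Complex.I_mul_I, neg_neg]
    rw [this, one_smul, neg_smul]
    abel

/-! ### square integrability -/

theorem exists_lower : ∃ c0 : ℝ, 0 < c0 ∧ ∀ k, c0 ≤ S.om k := by
  rcases isEmpty_or_nonempty κ with he | hne
  · exact ⟨1, one_pos, fun k => (he.false k).elim⟩
  · obtain ⟨k0, hk0⟩ := Finite.exists_min S.om
    exact ⟨S.om k0, S.om_pos k0, hk0⟩

theorem gs_le {c0 : ℝ} (h : ∀ k, c0 ≤ S.om k) (x : EuclideanSpace ℝ κ) :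
    S.gs x ≤ Real.exp (-(c0 / 2) * ‖x‖ ^ 2) := by
  unfold gs
  apply Real.exp_le_exp.mpr
  rw [EuclideanSpace.norm_sq_eq]
  have : c0 * ∑ k, ‖x k‖ ^ 2 ≤ ∑ k, S.om k * x k ^ 2 := by
    rw [Finset.mul_sum]
    refine Finset.sum_le_sum fun k _ => ?_
    rw [Real.norm_eq_abs, sq_abs]
    exact mul_le_mul_of_nonneg_right (h k) (sq_nonneg _)
  linarith

theorem poly_le {d : ℝ} (hd : 0 < d) (r : ℝ) :
    (1 + r) ^ 2 ≤ (2 + 2 / d) * Real.exp (d * r ^ 2) := by
  have h1 : d * r ^ 2 + 1 ≤ Real.exp (d * r ^ 2) := Real.add_one_le_exp _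
  have h2 : (1 + r) ^ 2 ≤ 2 + 2 * r ^ 2 := by nlinarith [sq_nonneg (1 - r)]
  have h3 : 2 + 2 * r ^ 2 ≤ (2 + 2 / d) * (d * r ^ 2 + 1) := by
    have : (2 + 2 / d) * (d * r ^ 2 + 1) = 2 * d * r ^ 2 + 2 + 2 * r ^ 2 + 2 / d := by
      field_simp
      ring
    rw [this]
    have h4 : 0 ≤ 2 / d := by positivity
    have h5 : 0 ≤ 2 * d * r ^ 2 := by positivity
    linarith
  calc (1 + r) ^ 2 ≤ (2 + 2 / d) * (d * r ^ 2 + 1) := h2.trans h3
    _ ≤ _ := mul_le_mul_of_nonneg_left h1 (by positivity)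

theorem memLp_of_bound {u : EuclideanSpace ℝ κ → F} (hu : Continuous u) {K : ℝ}
    (h : ∀ x, ‖u x‖ ≤ K * (1 + ‖x‖) ^ 2 * S.gs x) : MemLp u 2 volume := by
  obtain ⟨c0, hc0, hc⟩ := S.exists_lower
  have hK : 0 ≤ K ∨ ∀ x, u x = 0 := by
    by_contra hcon
    push Not at hcon
    obtain ⟨h1, x, hx⟩ := hcon
    have h2 := h x
    have h3 : 0 < ‖u x‖ := norm_pos_iff.mpr hx
    have h4 : K * (1 + ‖x‖) ^ 2 * S.gs x ≤ 0 := by
      apply mul_nonpos_of_nonpos_of_nonneg _ (S.gs_pos x).le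
      exact mul_nonpos_of_nonpos_of_nonneg h1.le (sq_nonneg _)
    linarith
  rcases hK with hK | hK
  · have hint : MemLp (fun x : EuclideanSpace ℝ κ => Real.exp (-(c0 / 4) * ‖x‖ ^ 2)) 2 volume := by
      rw [memLp_two_iff_integrable_sq]
      · have h0 := GaussianFourier.integrable_cexp_neg_mul_sq_norm_add
          (V := EuclideanSpace ℝ κ) (b := ((c0 / 2 : ℝ) : ℂ)) (by simpa using hc0) 0 0
        have h1 := h0.re
        refine h1.congr (Eventually.of_forall fun x => ?_)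
        simp only [zero_mul, add_zero]
        have : Complex.exp (-((c0 / 2 : ℝ) : ℂ) * (‖x‖ : ℂ) ^ 2) =
            ((Real.exp (-(c0 / 2) * ‖x‖ ^ 2) : ℝ) : ℂ) := by
          push_cast; rfl
        rw [this]
        rw [← Real.exp_nat_mul]
        show Real.exp (-(c0 / 2) * ‖x‖ ^ 2) = _
        congr 1
        push_cast; ring
      · exact (by fun_prop : Continuous fun x : EuclideanSpace ℝ κ =>
          Real.exp (-(c0 / 4) * ‖x‖ ^ 2)).aestronglyMeasurable
    refine (hint.const_mul (K * (2 + 2 / (c0 / 4)))).mono hu.aestronglyMeasurable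
      (Eventually.of_forall fun x => ?_)
    rw [Real.norm_eq_abs, abs_of_nonneg (by positivity)]
    refine (h x).trans ?_
    have h1 := poly_le (d := c0 / 4) (by positivity) ‖x‖
    have h2 := S.gs_le hc x
    calc K * (1 + ‖x‖) ^ 2 * S.gs x
        ≤ K * ((2 + 2 / (c0 / 4)) * Real.exp (c0 / 4 * ‖x‖ ^ 2)) *
            Real.exp (-(c0 / 2) * ‖x‖ ^ 2) := by
          apply mul_le_mul (mul_le_mul_of_nonneg_left h1 hK) h2 (S.gs_pos x).le
          positivity
      _ = K * (2 + 2 / (c0 / 4)) * Real.exp (-(c0 / 4) * ‖x‖ ^ 2) := by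
          rw [show -(c0 / 4) * ‖x‖ ^ 2 = c0 / 4 * ‖x‖ ^ 2 + -(c0 / 2) * ‖x‖ ^ 2 by ring,
            Real.exp_add]
          ring
  · have : u = 0 := funext hK
    rw [this]; exact MemLp.zero

theorem norm_poly_le (w0 : F) (w : κ → F) (x : EuclideanSpace ℝ κ) :
    ‖w0 + ∑ l, (x l : ℂ) • w l‖ ≤ (‖w0‖ + ∑ l, ‖w l‖) * (1 + ‖x‖) := by
  refine (norm_add_le _ _).trans ?_
  have h1 : ‖∑ l, (x l : ℂ) • w l‖ ≤ (∑ l, ‖w l‖) * ‖x‖ := by
    refine (norm_sum_le _ _).trans ?_
    rw [Finset.sum_mul]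
    refine Finset.sum_le_sum fun l _ => ?_
    rw [norm_smul, Complex.norm_real, mul_comm]
    exact mul_le_mul_of_nonneg_left (PiLp.norm_apply_le x l) (norm_nonneg _)
  have h2 : 0 ≤ ‖w0‖ * ‖x‖ := by positivity
  have h3 : 0 ≤ ∑ l, ‖w l‖ := Finset.sum_nonneg fun _ _ => norm_nonneg _
  nlinarith

theorem memLp_tf (k : EuclideanSpace ℝ κ) (w0 : F) (w : κ → F) :
    MemLp (S.tf k w0 w) 2 volume := by
  apply S.memLp_of_bound (S.tf_smooth k w0 w).continuous (K := ‖w0‖ + ∑ l, ‖w l‖)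
  intro x
  unfold tf
  rw [norm_smul, norm_G, mul_comm]
  apply mul_le_mul_of_nonneg_right _ (S.gs_pos x).le
  refine (norm_poly_le w0 w x).trans ?_
  apply mul_le_mul_of_nonneg_left
  · nlinarith [norm_nonneg x]
  · have h3 : 0 ≤ ∑ l, ‖w l‖ := Finset.sum_nonneg fun _ _ => norm_nonneg _
    positivity

theorem memLp_D_tf (α : ι) (k : EuclideanSpace ℝ κ) (w0 : F) (w : κ → F) :
    MemLp (S.D α (S.tf k w0 w)) 2 volume := by
  obtain ⟨K, hK⟩ : ∃ K : ℝ, ∀ j, ∀ u : F, ‖S.a α j u‖ ≤ K * ‖u‖ ∧ ‖S.v α j u‖ ≤ K * ‖u‖ := by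
    have h1 : ∀ j, ∀ u : F, ‖S.a α j u‖ ≤ ‖LinearMap.toContinuousLinearMap (S.a α j)‖ * ‖u‖ :=
      fun j u => (LinearMap.toContinuousLinearMap (S.a α j)).le_opNorm u
    have h2 : ∀ j, ∀ u : F, ‖S.v α j u‖ ≤ ‖LinearMap.toContinuousLinearMap (S.v α j)‖ * ‖u‖ :=
      fun j u => (LinearMap.toContinuousLinearMap (S.v α j)).le_opNorm u
    refine ⟨∑ j, (‖LinearMap.toContinuousLinearMap (S.a α j)‖ +
      ‖LinearMap.toContinuousLinearMap (S.v α j)‖), fun j u => ?_⟩
    have h3 : ‖LinearMap.toContinuousLinearMap (S.a α j)‖ +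
      ‖LinearMap.toContinuousLinearMap (S.v α j)‖ ≤
      ∑ j, (‖LinearMap.toContinuousLinearMap (S.a α j)‖ +
      ‖LinearMap.toContinuousLinearMap (S.v α j)‖) :=
      Finset.single_le_sum (f := fun j => ‖LinearMap.toContinuousLinearMap (S.a α j)‖ +
        ‖LinearMap.toContinuousLinearMap (S.v α j)‖) (fun _ _ => by positivity)
        (Finset.mem_univ j)
    constructor
    · refine (h1 j u).trans (mul_le_mul_of_nonneg_right ?_ (norm_nonneg _))
      linarith [norm_nonneg (LinearMap.toContinuousLinearMap (S.v α j))]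
    · refine (h2 j u).trans (mul_le_mul_of_nonneg_right ?_ (norm_nonneg _))
      linarith [norm_nonneg (LinearMap.toContinuousLinearMap (S.a α j))]
  set A : ℝ := ‖w0‖ + ∑ l, ‖w l‖ with hA
  have hA0 : 0 ≤ A := by
    have h3 : 0 ≤ ∑ l, ‖w l‖ := Finset.sum_nonneg fun _ _ => norm_nonneg _
    positivity
  set B : ℝ := ∑ j, (|k j| + S.om j + 1) * (|K| * A) + ∑ j, |K| * ‖w j‖ with hB
  apply S.memLp_of_bound (K := B)
  · exact (contDiff_dirac_top (fun u => lin_smooth (S.v α) u) (S.tf_smooth k w0 w)).continuous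
  · intro x
    rw [D_tf, norm_smul, norm_G, mul_comm]
    apply mul_le_mul_of_nonneg_right _ (S.gs_pos x).le
    set W := w0 + ∑ l, (x l : ℂ) • w l with hW
    have hWn : ‖W‖ ≤ A * (1 + ‖x‖) := norm_poly_le w0 w x
    have hx : ∀ j, |x j| ≤ ‖x‖ := fun j => by
      have := PiLp.norm_apply_le x j
      rwa [Real.norm_eq_abs] at this
    have h1 : ∀ j, ‖(((k j : ℂ) + Complex.I * S.om j * x j) • S.a α j W +
        (x j : ℂ) • S.v α j W)‖ ≤ (|k j| + S.om j + 1) * (|K| * A) * (1 + ‖x‖) ^ 2 := by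
      intro j
      refine (norm_add_le _ _).trans ?_
      rw [norm_smul, norm_smul]
      have h2 : ‖((k j : ℂ) + Complex.I * S.om j * x j)‖ ≤ (|k j| + S.om j) * (1 + ‖x‖) := by
        refine (norm_add_le _ _).trans ?_
        rw [norm_mul, norm_mul, Complex.norm_I, one_mul, Complex.norm_real, Complex.norm_real,
          Complex.norm_real, Real.norm_eq_abs, Real.norm_eq_abs, Real.norm_eq_abs,
          abs_of_pos (S.om_pos j)]
        have h3 := mul_le_mul_of_nonneg_left (hx j) (S.om_pos j).le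
        have h4 : 0 ≤ |k j| * ‖x‖ := by positivity
        have h5 := (S.om_pos j)
        nlinarith
      have h6 : ‖S.a α j W‖ ≤ |K| * (A * (1 + ‖x‖)) := by
        refine (hK j W).1.trans ?_
        refine (mul_le_mul_of_nonneg_right (le_abs_self K) (norm_nonneg _)).trans ?_
        exact mul_le_mul_of_nonneg_left hWn (abs_nonneg _)
      have h7 : ‖S.v α j W‖ ≤ |K| * (A * (1 + ‖x‖)) := by
        refine (hK j W).2.trans ?_
        refine (mul_le_mul_of_nonneg_right (le_abs_self K) (norm_nonneg _)).trans ?_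
        exact mul_le_mul_of_nonneg_left hWn (abs_nonneg _)
      have h8 : ‖((x j : ℝ) : ℂ)‖ ≤ 1 + ‖x‖ := by
        rw [Complex.norm_real, Real.norm_eq_abs]; linarith [hx j]
      calc ‖((k j : ℂ) + Complex.I * S.om j * x j)‖ * ‖S.a α j W‖ +
            ‖((x j : ℝ) : ℂ)‖ * ‖S.v α j W‖
          ≤ ((|k j| + S.om j) * (1 + ‖x‖)) * (|K| * (A * (1 + ‖x‖))) +
            (1 + ‖x‖) * (|K| * (A * (1 + ‖x‖))) := by
            apply add_le_add
            · exact mul_le_mul h2 h6 (norm_nonneg _) (by have := S.om_pos j; positivity)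
            · exact mul_le_mul h8 h7 (norm_nonneg _) (by positivity)
        _ = (|k j| + S.om j + 1) * (|K| * A) * (1 + ‖x‖) ^ 2 := by ring
    have h9 : ‖(-Complex.I) • ∑ j, S.a α j (w j)‖ ≤ (∑ j, |K| * ‖w j‖) * (1 + ‖x‖) ^ 2 := by
      rw [norm_smul, norm_neg, Complex.norm_I, one_mul]
      refine (norm_sum_le _ _).trans ?_
      have h10 : ∑ j, ‖S.a α j (w j)‖ ≤ ∑ j, |K| * ‖w j‖ :=
        Finset.sum_le_sum fun j _ => (hK j (w j)).1.trans
          (mul_le_mul_of_nonneg_right (le_abs_self K) (norm_nonneg _))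
      have h11 : 0 ≤ ∑ j, |K| * ‖w j‖ := Finset.sum_nonneg fun _ _ => by positivity
      have h12 : 1 ≤ (1 + ‖x‖) ^ 2 := by nlinarith [norm_nonneg x]
      nlinarith
    refine (norm_add_le _ _).trans ?_
    rw [hB, add_mul, Finset.sum_mul]
    exact add_le_add ((norm_sum_le _ _).trans (Finset.sum_le_sum fun j _ => h1 j)) h9

end OscSys

end Sys

end Crest.Agent.R330.FreeC122
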