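import Crest.Agent.R330.SlD_314

/-!
Row 330, S5b (slice theorem), part P: the chart `Psi(v) = exp(om(P_T v)) . (c + P_N v)`.
-/

set_option autoImplicit false
noncomputable section

open Matrix
open Crest.MathPhysics.MatrixQM
open Crest.Agent.R330.SlA314 Crest.Agent.R330.SlB314 Crest.Agent.R330.SlC314
open Crest.Agent.R330.SlD314
open scoped ContDiff Topology

namespace Crest.Agent.R330.SlP314

variable {N : ℕ} (b : ColorBasis N)

/-- projection to the tangent space of the orbit -/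
def PT (c : Cfg N) : Cfg N →L[ℝ] Cfg N := (Tan b c).starProjection

/-- projection to the normal space of the orbit -/
def PN (c : Cfg N) : Cfg N →L[ℝ] Cfg N := (Nor b c).starProjection

theorem PT_add_PN (c v : Cfg N) : PT b c v + PN b c v = v :=
  Submodule.starProjection_add_starProjection_orthogonal (K := Tan b c) v

theorem PT_mem (c v : Cfg N) : PT b c v ∈ Tan b c := Submodule.starProjection_apply_mem _ _

theorem PN_mem (c v : Cfg N) : PN b c v ∈ Nor b c := Submodule.starProjection_apply_mem _ _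

theorem PT_of_mem {c v : Cfg N} (h : v ∈ Tan b c) : PT b c v = v :=
  Submodule.starProjection_eq_self_iff.2 h

theorem PN_of_mem {c v : Cfg N} (h : v ∈ Nor b c) : PN b c v = v :=
  Submodule.starProjection_eq_self_iff.2 h

theorem PT_of_mem_Nor {c v : Cfg N} (h : v ∈ Nor b c) : PT b c v = 0 := by
  have := PT_add_PN b c v
  rw [PN_of_mem b h] at this
  simpa using this

theorem PN_of_mem_Tan {c v : Cfg N} (h : v ∈ Tan b c) : PN b c v = 0 := by
  have := PT_add_PN b c v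
  rw [PT_of_mem b h] at this
  simpa using this

theorem norm_PT_le (c v : Cfg N) : ‖PT b c v‖ ≤ ‖v‖ := Submodule.norm_starProjection_apply_le _ _

theorem norm_PN_le (c v : Cfg N) : ‖PN b c v‖ ≤ ‖v‖ := Submodule.norm_starProjection_apply_le _ _

theorem exists_omL (c : Cfg N) : ∃ s : Cfg N →ₗ[ℝ] (Fin (N ^ 2 - 1) → ℝ),
    (∀ t ∈ Tan b c, brx b (s t) c = t) ∧ ∀ y ∈ Nor b c, s y = 0 := by
  obtain ⟨s, hs⟩ := (adL b c).rangeRestrict.exists_rightInverse_of_surjective
    (LinearMap.range_eq_top.2 (adL b c).surjective_rangeRestrict)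
  refine ⟨s ∘ₗ (Tan b c).orthogonalProjectionOnto.toLinearMap, ?_, ?_⟩
  · intro t ht
    have h1 := LinearMap.congr_fun hs ⟨t, ht⟩
    have h2 := congrArg Subtype.val h1
    have h3 : (Tan b c).orthogonalProjectionOnto t = ⟨t, ht⟩ :=
      Submodule.orthogonalProjectionOnto_mem_subspace_eq_self (⟨t, ht⟩ : Tan b c)
    change brx b (s ((Tan b c).orthogonalProjectionOnto t)) c = t
    rw [h3]
    exact h2
  · intro y hy
    have h3 : (Tan b c).orthogonalProjectionOnto y = 0 :=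
      Submodule.orthogonalProjectionOnto_eq_zero_iff.2 hy
    change s ((Tan b c).orthogonalProjectionOnto y) = 0
    rw [h3]
    exact map_zero s

/-- a linear right inverse of `om ↦ [om, c]`, zero on the normal space -/
def omL (c : Cfg N) : Cfg N →L[ℝ] (Fin (N ^ 2 - 1) → ℝ) :=
  LinearMap.toContinuousLinearMap (Classical.choose (exists_omL b c))

theorem brx_omL {c t : Cfg N} (h : t ∈ Tan b c) : brx b (omL b c t) c = t :=
  (Classical.choose_spec (exists_omL b c)).1 t h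

theorem omL_of_Nor {c y : Cfg N} (h : y ∈ Nor b c) : omL b c y = 0 :=
  (Classical.choose_spec (exists_omL b c)).2 y h

theorem omL_PT (c v : Cfg N) : omL b c (PT b c v) = omL b c v := by
  conv_rhs => rw [← PT_add_PN b c v]
  rw [map_add, omL_of_Nor b (PN_mem b c v), add_zero]

theorem brx_omL' (c v : Cfg N) : brx b (omL b c v) c = PT b c v := by
  rw [← omL_PT, brx_omL b (PT_mem b c v)]

/-- the chart -/
def Psi (c v : Cfg N) : Cfg N := b.act (gexp b (omL b c v)) (c + PN b c v)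

theorem Psi_nor {c y : Cfg N} (hy : y ∈ Nor b c) : Psi b c y = c + y := by
  unfold Psi
  rw [omL_of_Nor b hy, gexp_zero, act_one, PN_of_mem b hy]

theorem Psi_add {c t y : Cfg N} (ht : t ∈ Tan b c) (hy : y ∈ Nor b c) :
    Psi b c (t + y) = b.act (gexp b (omL b c t)) (c + y) := by
  unfold Psi
  rw [map_add, omL_of_Nor b hy, add_zero, map_add, PN_of_mem b hy, PN_of_mem_Tan b ht, zero_add]

theorem contDiff_Psi (c : Cfg N) : ContDiff ℝ ∞ (Psi b c) := by
  have h := contDiff_act_gexp b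
  have h2 : ContDiff ℝ ∞ (fun v : Cfg N => (omL b c v, c + PN b c v)) :=
    (omL b c).contDiff.prodMk (contDiff_const.add (PN b c).contDiff)
  change ContDiff ℝ ∞ ((fun p : (Fin (N ^ 2 - 1) → ℝ) × Cfg N => b.act (gexp b p.1) p.2) ∘
    (fun v : Cfg N => (omL b c v, c + PN b c v)))
  exact ContDiff.comp h h2

theorem hasDerivAt_Psi_line (c v : Cfg N) :
    HasDerivAt (fun τ : ℝ => Psi b c (τ • v)) v 0 := by
  have h1 : HasDerivAt (fun τ : ℝ => b.act (gexp b (τ • omL b c v)) c)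
      (brx b (omL b c v) c) 0 := hasDerivAt_act_zero b _ _
  have h2 : HasDerivAt (fun τ : ℝ => b.act (gexp b (τ • omL b c v)) (PN b c v))
      (brx b (omL b c v) (PN b c v)) 0 := hasDerivAt_act_zero b _ _
  have h3 := h1.add ((hasDerivAt_id (0 : ℝ)).smul h2)
  simp only [id_eq, zero_smul, gexp_zero, act_one, zero_add, one_smul] at h3
  have e1 : (fun τ : ℝ => Psi b c (τ • v)) =
      ((fun τ : ℝ => b.act (gexp b (τ • omL b c v)) c) +
        ((id : ℝ → ℝ) • fun τ : ℝ => b.act (gexp b (τ • omL b c v)) (PN b c v))) := by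
    funext τ
    simp only [Psi, Pi.add_apply, Pi.smul_apply', id_eq]
    rw [map_smul, map_smul, act_add, act_smul]
  rw [e1]
  refine h3.congr_deriv ?_
  rw [brx_omL', PT_add_PN]

theorem fderiv_Psi_zero (c : Cfg N) : fderiv ℝ (Psi b c) 0 = ContinuousLinearMap.id ℝ (Cfg N) := by
  ext1 v
  have h1 : HasFDerivAt (Psi b c) (fderiv ℝ (Psi b c) 0) 0 :=
    ((contDiff_Psi b c).differentiable (by simp)).differentiableAt.hasFDerivAt
  have h2 : HasDerivAt (fun τ : ℝ => τ • v) v 0 := by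
    simpa using (hasDerivAt_id (0 : ℝ)).smul_const v
  have h3 : HasDerivAt (fun τ : ℝ => Psi b c (τ • v)) (fderiv ℝ (Psi b c) 0 v) 0 := by
    have h1' : HasFDerivAt (Psi b c) (fderiv ℝ (Psi b c) 0) ((0 : ℝ) • v) := by
      rwa [zero_smul]
    exact h1'.comp_hasDerivAt (0 : ℝ) h2
  exact h3.unique (hasDerivAt_Psi_line b c v)

/-- the box -/
def box (c : Cfg N) (δ : ℝ) : Set (Cfg N) := {v | ‖PT b c v‖ < δ ∧ ‖PN b c v‖ < δ}

theorem isOpen_box (c : Cfg N) (δ : ℝ) : IsOpen (box b c δ) :=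
  (isOpen_lt (PT b c).continuous.norm continuous_const).inter
    (isOpen_lt (PN b c).continuous.norm continuous_const)

theorem box_subset_ball (c : Cfg N) (δ : ℝ) : box b c δ ⊆ Metric.ball 0 (2 * δ) := by
  rintro v ⟨h1, h2⟩
  rw [mem_ball_zero_iff, ← PT_add_PN b c v]
  calc ‖PT b c v + PN b c v‖ ≤ ‖PT b c v‖ + ‖PN b c v‖ := norm_add_le _ _
    _ < 2 * δ := by linarith

theorem add_mem_box {c t y : Cfg N} {δ : ℝ} (ht : t ∈ Tan b c) (hy : y ∈ Nor b c)
    (h1 : ‖t‖ < δ) (h2 : ‖y‖ < δ) : t + y ∈ box b c δ := by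
  constructor
  · rw [map_add, PT_of_mem b ht, PT_of_mem_Nor b hy, add_zero]; exact h1
  · rw [map_add, PN_of_mem b hy, PN_of_mem_Tan b ht, zero_add]; exact h2

/-- chart theorem: radius `δ` for which the chart is good on the box -/
structure GoodRad (c : Cfg N) (δ : ℝ) : Prop where
  pos : 0 < δ
  near : ∀ v ∈ Metric.ball (0 : Cfg N) (2 * δ),
    ‖fderiv ℝ (Psi b c) v - ContinuousLinearMap.id ℝ (Cfg N)‖ ≤ 1 / 2
  star : ∀ (g : Matrix.specialUnitaryGroup (Fin N) ℂ) (y y' : Cfg N), y ∈ Nor b c → y' ∈ Nor b c →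
      ‖y‖ < δ → ‖y'‖ < δ → b.act g (c + y) = c + y' → b.act g c = c

theorem exists_goodRad (c : Cfg N) : ∃ δ, GoodRad b c δ := by
  obtain ⟨r1, hr1, -, hstar⟩ := star b c
  have hcont : Continuous (fun v => fderiv ℝ (Psi b c) v) :=
    (contDiff_Psi b c).continuous_fderiv (by simp)
  have h00 : Continuous (fun v => ‖fderiv ℝ (Psi b c) v - ContinuousLinearMap.id ℝ (Cfg N)‖) :=
    (hcont.sub continuous_const).norm
  have h0 := h00.continuousAt (x := (0 : Cfg N))
  have h1 : ∀ᶠ v in 𝓝 (0 : Cfg N),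
      ‖fderiv ℝ (Psi b c) v - ContinuousLinearMap.id ℝ (Cfg N)‖ < 1 / 2 := by
    have : ‖fderiv ℝ (Psi b c) 0 - ContinuousLinearMap.id ℝ (Cfg N)‖ < 1 / 2 := by
      rw [fderiv_Psi_zero, sub_self, norm_zero]; norm_num
    exact h0.eventually_lt continuousAt_const this
  obtain ⟨ε, hε, h2⟩ := Metric.eventually_nhds_iff_ball.1 h1
  refine ⟨min (ε / 2) r1, lt_min (by positivity) hr1, ?_, ?_⟩
  · intro v hv
    refine (h2 v ?_).le
    refine Metric.ball_subset_ball ?_ hv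
    have := min_le_left (ε / 2) r1
    linarith
  · intro g y y' hy hy' h3 h4 he
    exact hstar g y y' hy hy' (h3.trans_le (min_le_right _ _)) (h4.trans_le (min_le_right _ _)) he

variable {b}

theorem GoodRad.mono {c : Cfg N} {δ δ' : ℝ} (h : GoodRad b c δ) (h0 : 0 < δ') (hle : δ' ≤ δ) :
    GoodRad b c δ' where
  pos := h0
  near v hv := h.near v (Metric.ball_subset_ball (by linarith) hv)
  star g y y' hy hy' h1 h2 he := h.star g y y' hy hy' (h1.trans_le hle) (h2.trans_le hle) he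

theorem GoodRad.antilip {c : Cfg N} {δ : ℝ} (h : GoodRad b c δ) {v w : Cfg N}
    (hv : v ∈ Metric.ball (0 : Cfg N) (2 * δ)) (hw : w ∈ Metric.ball (0 : Cfg N) (2 * δ)) :
    ‖v - w‖ ≤ 2 * ‖Psi b c v - Psi b c w‖ := by
  have hd : Differentiable ℝ (Psi b c) := (contDiff_Psi b c).differentiable (by simp)
  have h1 : ‖(Psi b c v - v) - (Psi b c w - w)‖ ≤ 1 / 2 * ‖v - w‖ := by
    refine (convex_ball (0 : Cfg N) (2 * δ)).norm_image_sub_le_of_norm_hasFDerivWithin_le
      (f := fun x => Psi b c x - x)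
      (f' := fun x => fderiv ℝ (Psi b c) x - ContinuousLinearMap.id ℝ (Cfg N)) ?_ ?_ hw hv
    · intro x _
      exact (hd.differentiableAt.hasFDerivAt.sub (hasFDerivAt_id x)).hasFDerivWithinAt
    · intro x hx
      exact h.near x hx
  have h2 : v - w = (Psi b c v - Psi b c w) - ((Psi b c v - v) - (Psi b c w - w)) := by abel
  have h3 : ‖v - w‖ ≤ ‖Psi b c v - Psi b c w‖ + ‖(Psi b c v - v) - (Psi b c w - w)‖ := by
    conv_lhs => rw [h2]
    exact norm_sub_le _ _
  linarith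

theorem GoodRad.injOn {c : Cfg N} {δ : ℝ} (h : GoodRad b c δ) :
    Set.InjOn (Psi b c) (box b c δ) := by
  intro v hv w hw he
  have := h.antilip (box_subset_ball b c δ hv) (box_subset_ball b c δ hw)
  rw [he, sub_self, norm_zero, mul_zero] at this
  exact sub_eq_zero.1 (norm_le_zero_iff.1 this)

theorem GoodRad.fderiv_ker {c : Cfg N} {δ : ℝ} (h : GoodRad b c δ) {v : Cfg N}
    (hv : v ∈ Metric.ball (0 : Cfg N) (2 * δ)) (w : Cfg N) :
    ‖w‖ ≤ 2 * ‖fderiv ℝ (Psi b c) v w‖ := by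
  have h1 := h.near v hv
  have h2 : ‖(fderiv ℝ (Psi b c) v - ContinuousLinearMap.id ℝ (Cfg N)) w‖ ≤ 1 / 2 * ‖w‖ :=
    (ContinuousLinearMap.le_opNorm _ _).trans (by gcongr)
  have h3 : w = fderiv ℝ (Psi b c) v w -
      (fderiv ℝ (Psi b c) v - ContinuousLinearMap.id ℝ (Cfg N)) w := by
    simp
  have h4 : ‖w‖ ≤ ‖fderiv ℝ (Psi b c) v w‖ +
      ‖(fderiv ℝ (Psi b c) v - ContinuousLinearMap.id ℝ (Cfg N)) w‖ := by
    conv_lhs => rw [h3]
    exact norm_sub_le _ _
  linarith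

/-- the derivative of the chart as an equivalence -/
def GoodRad.equiv {c : Cfg N} {δ : ℝ} (h : GoodRad b c δ) {v : Cfg N}
    (hv : v ∈ Metric.ball (0 : Cfg N) (2 * δ)) : Cfg N ≃L[ℝ] Cfg N :=
  (LinearEquiv.ofInjectiveEndo (fderiv ℝ (Psi b c) v : Cfg N →ₗ[ℝ] Cfg N) (by
    rw [injective_iff_map_eq_zero]
    intro w hw
    have h1 := h.fderiv_ker hv w
    have h2 : fderiv ℝ (Psi b c) v w = 0 := hw
    rw [h2, norm_zero, mul_zero] at h1
    exact norm_le_zero_iff.1 h1)).toContinuousLinearEquiv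

theorem GoodRad.equiv_coe {c : Cfg N} {δ : ℝ} (h : GoodRad b c δ) {v : Cfg N}
    (hv : v ∈ Metric.ball (0 : Cfg N) (2 * δ)) :
    (h.equiv hv : Cfg N →L[ℝ] Cfg N) = fderiv ℝ (Psi b c) v := by
  ext1 w
  rfl

theorem GoodRad.hasFDerivAt {c : Cfg N} {δ : ℝ} (h : GoodRad b c δ) {v : Cfg N}
    (hv : v ∈ Metric.ball (0 : Cfg N) (2 * δ)) :
    HasFDerivAt (Psi b c) (h.equiv hv : Cfg N →L[ℝ] Cfg N) v := by
  rw [h.equiv_coe hv]
  exact ((contDiff_Psi b c).differentiable (by simp)).differentiableAt.hasFDerivAt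

theorem GoodRad.det_ne_zero {c : Cfg N} {δ : ℝ} (h : GoodRad b c δ) {v : Cfg N}
    (hv : v ∈ Metric.ball (0 : Cfg N) (2 * δ)) : (fderiv ℝ (Psi b c) v).det ≠ 0 := by
  rw [← h.equiv_coe hv]
  exact (h.equiv hv).toLinearEquiv.isUnit_det'.ne_zero

theorem GoodRad.isOpen_image {c : Cfg N} {δ : ℝ} (h : GoodRad b c δ) :
    IsOpen (Psi b c '' box b c δ) := by
  rw [isOpen_iff_mem_nhds]
  rintro _ ⟨v, hv, rfl⟩
  have hv' := box_subset_ball b c δ hv
  have hs : HasStrictFDerivAt (Psi b c) (h.equiv hv' : Cfg N →L[ℝ] Cfg N) v := by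
    have := (contDiff_Psi b c).contDiffAt.hasStrictFDerivAt (x := v) (by simp)
    rwa [← h.equiv_coe hv'] at this
  have := hs.map_nhds_eq_of_equiv
  rw [← this]
  exact Filter.image_mem_map ((isOpen_box b c δ).mem_nhds hv)

variable (b)

/-- inverse of the chart on the box -/
def PsiInv (c : Cfg N) (δ : ℝ) : Cfg N → Cfg N := Function.invFunOn (Psi b c) (box b c δ)

variable {b}

theorem PsiInv_mem {c : Cfg N} {δ : ℝ} {x : Cfg N} (hx : x ∈ Psi b c '' box b c δ) :
    PsiInv b c δ x ∈ box b c δ := Function.invFunOn_mem hx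

theorem Psi_PsiInv {c : Cfg N} {δ : ℝ} {x : Cfg N} (hx : x ∈ Psi b c '' box b c δ) :
    Psi b c (PsiInv b c δ x) = x := Function.invFunOn_eq hx

theorem GoodRad.PsiInv_Psi {c : Cfg N} {δ : ℝ} (h : GoodRad b c δ) {v : Cfg N}
    (hv : v ∈ box b c δ) : PsiInv b c δ (Psi b c v) = v :=
  h.injOn (PsiInv_mem ⟨v, hv, rfl⟩) hv (Psi_PsiInv ⟨v, hv, rfl⟩)

theorem GoodRad.contDiffAt_PsiInv {c : Cfg N} {δ : ℝ} (h : GoodRad b c δ) {x : Cfg N}
    (hx : x ∈ Psi b c '' box b c δ) : ContDiffAt ℝ ∞ (PsiInv b c δ) x := by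
  obtain ⟨v, hv, rfl⟩ := hx
  have hv' := box_subset_ball b c δ hv
  have hcd : ContDiffAt ℝ ∞ (Psi b c) v := (contDiff_Psi b c).contDiffAt
  have hne : (∞ : WithTop ℕ∞) ≠ 0 := by simp
  have hloc : ContDiffAt ℝ ∞ (hcd.localInverse (h.hasFDerivAt hv') hne) (Psi b c v) :=
    hcd.to_localInverse (h.hasFDerivAt hv') hne
  refine hloc.congr_of_eventuallyEq ?_
  set e := hcd.toOpenPartialHomeomorph (Psi b c) (h.hasFDerivAt hv') hne with he
  have hsrc : v ∈ e.source := hcd.mem_toOpenPartialHomeomorph_source (h.hasFDerivAt hv') hne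
  have htgt : Psi b c v ∈ e.target :=
    hcd.image_mem_toOpenPartialHomeomorph_target (h.hasFDerivAt hv') hne
  have hcoe : ∀ w, e w = Psi b c w := fun w => rfl
  have hsym : e.symm (Psi b c v) = v := by
    rw [← hcoe]; exact e.left_inv hsrc
  have hc : ContinuousAt e.symm (Psi b c v) := e.continuousAt_symm htgt
  have h1 : ∀ᶠ x in 𝓝 (Psi b c v), e.symm x ∈ box b c δ := by
    apply hc
    rw [hsym]
    exact (isOpen_box b c δ).mem_nhds hv
  have h2 : ∀ᶠ x in 𝓝 (Psi b c v), x ∈ e.target := e.open_target.mem_nhds htgt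
  filter_upwards [h1, h2] with x hx1 hx2
  have h3 : Psi b c (e.symm x) = x := e.right_inv hx2
  have h4 : PsiInv b c δ x = e.symm x := by
    conv_lhs => rw [← h3]
    exact h.PsiInv_Psi hx1
  rw [h4]
  rfl

end Crest.Agent.R330.SlP314
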