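import Crest.Agent.R330.GCov_984
import Crest.Agent.R330.TDef_414

/-!
# Row 330, T7 (helper984): the Gaussian exponent of `TPack`

`Afld C X` = `|r| P_{r^⊥}` at `C.cf X` for regular `X`, zero otherwise; the fields `A_smooth` ...
`A_cov` of `TDef414.TPack`.
-/

set_option autoImplicit false
set_option linter.unusedSectionVars false

open MeasureTheory Filter Topology Crest.MathPhysics.MatrixQM
open Crest.Agent.R330.Frame839 Crest.Agent.R330.LS839 Crest.Agent.R330.Clus839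
open Crest.Agent.R330.Bind6839 Crest.Agent.R330.SqrtPD984 Crest.Agent.R330.GPar984
open Crest.Agent.R330.AX984 Crest.Agent.R330.E1984 Crest.Agent.R330.GBind984
open Crest.Agent.R330.GCov984 Crest.Agent.R330.TDef414
open Crest.Agent.R330.SlB314 (Nor)
open scoped ContDiff InnerProductSpace

noncomputable section

namespace Crest.Agent.R330.AFld984

variable {N p : ℕ} {b : ColorBasis N} {S : Type} [Group S] [Fintype S] (C : Chn b p S)

theorem comc_cf (X : Pos p) : Comc b (C.cf X) := by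
  intro i j
  rw [C.comp_cf, C.comp_cf]
  exact C.cen_comm _ _ (C.cen_mem _)

theorem kk_le (X : Pos p) : C.kk ≤ kc (actB b) (C.cf X) := by
  intro u hu
  rw [mem_kc_iff']
  intro i
  rw [adX_apply, C.comp_cf]
  exact C.cen_comm _ _ hu

theorem reg_of_pd {X : Pos p} (h : PD (ll C.kk (adX b (C.cf X)))) : C.Reg X := by
  refine le_antisymm (fun w hw => ?_) (kk_le C X)
  have h1 : w - C.kk.starProjection w ∈ C.kkᗮ := Submodule.sub_starProjection_mem_orthogonal w
  have h2 : ∀ i, adX b (C.cf X) i (w - C.kk.starProjection w) = 0 := by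
    intro i
    rw [map_sub, (mem_kc_iff' b).mp hw i,
      (mem_kc_iff' b).mp (kk_le C X (Submodule.starProjection_apply_mem C.kk w)) i, sub_zero]
  by_contra hne
  have h3 : w - C.kk.starProjection w ≠ 0 := by
    intro h0
    apply hne
    rw [sub_eq_zero.mp h0]
    exact Submodule.starProjection_apply_mem _ _
  have h4 := h.2 _ h3
  rw [inner_ll_of (adX_skew b _), proj_zero h1, inner_zero_left, zero_add] at h4
  simp only [h2, inner_zero_left, Finset.sum_const_zero, lt_self_iff_false] at h4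

theorem pd_of_reg {X : Pos p} (h : C.Reg X) : PD (ll C.kk (adX b (C.cf X))) :=
  ll_pd_of_eq (comc_cf C X) h

theorem reg_iff_pd (X : Pos p) : C.Reg X ↔ PD (ll C.kk (adX b (C.cf X))) :=
  ⟨pd_of_reg C, reg_of_pd C⟩

theorem eventually_reg {X : Pos p} (h : C.Reg X) : ∀ᶠ Y in 𝓝 X, C.Reg Y := by
  have h1 := eventually_ll b (pd_of_reg C h)
  have h2 : ContinuousAt (fun Y : Pos p => C.cf Y) X := C.cf.continuous.continuousAt
  filter_upwards [h2.eventually h1] with Y hY
  exact reg_of_pd C hY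

theorem isOpen_reg : IsOpen {X | C.Reg X} := by
  rw [isOpen_iff_mem_nhds]
  intro X hX
  exact eventually_reg C hX

theorem Zt_eq {X0 : Pos p} (h : C.Reg X0) : C.Zt X0 = Zs b (C.cf X0) := by
  unfold Chn.Zt Zs Mm
  rw [Nor_eq, h]

open Classical in
/-- **the Gaussian exponent** -/
def Afld (X : Pos p) : Cfg N →L[ℝ] Cfg N := if C.Reg X then AXc b C.kk (C.cf X) else 0

theorem Afld_reg {X : Pos p} (h : C.Reg X) : Afld C X = AXc b C.kk (C.cf X) := if_pos h

theorem Afld_not {X : Pos p} (h : ¬ C.Reg X) : Afld C X = 0 := if_neg h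

theorem inner_Afld {X : Pos p} (h : C.Reg X) (z : Cfg N) :
    ⟪Afld C X z, z⟫_ℝ = QX b C.kk (C.cf X) z := by rw [Afld_reg C h]; rfl

theorem A_smooth (X : Pos p) (h : C.Reg X) : ContDiffAt ℝ ∞ (Afld C) X := by
  have h1 : ContDiffAt ℝ ∞ (fun Y : Pos p => AXc b C.kk (C.cf Y)) X :=
    ContDiffAt.comp X (g := fun Y => AXc b C.kk Y) (contDiffAt_AXc b (pd_of_reg C h))
      C.cf.toContinuousLinearMap.contDiff.contDiffAt
  refine h1.congr_of_eventuallyEq ?_
  filter_upwards [eventually_reg C h] with Y hY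
  exact Afld_reg C hY

theorem A_symm (X : Pos p) (z z' : Cfg N) : ⟪Afld C X z, z'⟫_ℝ = ⟪z, Afld C X z'⟫_ℝ := by
  by_cases h : C.Reg X
  · rw [Afld_reg C h]
    exact AXc_sy (comc_cf C X) h z z'
  · rw [Afld_not C h]
    simp

theorem A_nonneg (X : Pos p) (z : Cfg N) : 0 ≤ ⟪Afld C X z, z⟫_ℝ := by
  by_cases h : C.Reg X
  · rw [inner_Afld C h]
    exact QX_nonneg (comc_cf C X) h z
  · rw [Afld_not C h]
    simp

theorem A_off (X : Pos p) (h : C.Reg X) (z : Cfg N) : Afld C X z ∈ Tup C.kkᗮ := by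
  intro i
  rw [Afld_reg C h]
  exact comp_AXc_mem (comc_cf C X) h z i

theorem A_gauge (X : Pos p) (h : C.Reg X) (om : Colg N) :
    Afld C X (actB b om (C.cf X)) = 0 := by
  rw [Afld_reg C h]
  exact AXc_act (comc_cf C X) h om

theorem A_light (X : Pos p) (h : C.Reg X) {y : Cfg N} (hy : y ∈ Tup C.kk) : Afld C X y = 0 := by
  rw [Afld_reg C h]
  exact AXc_Tup (comc_cf C X) h hy

theorem A_low (X0 : Pos p) (h : C.Reg X0) : ∃ c ε : ℝ, 0 < c ∧ 0 < ε ∧ ∀ X, ‖X - X0‖ < ε →
    ∀ z ∈ C.Zt X0, c * ‖z‖ ^ 2 ≤ ⟪Afld C X z, z⟫_ℝ := by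
  obtain ⟨δ, a, K, M, l, hδ, hPR, -⟩ := exists_chart b (comc_cf C X0)
  obtain ⟨δ', hδ', h'⟩ := Metric.eventually_nhds_iff_ball.mp (eventually_reg C h)
  refine ⟨a, min δ δ', hPR.pos, lt_min hδ hδ', fun X hX z hz => ?_⟩
  have hX1 : ‖X - X0‖ < δ := lt_of_lt_of_le hX (min_le_left _ _)
  have hX2 : X ∈ Metric.ball X0 δ' := by
    rw [mem_ball_iff_norm]; exact lt_of_lt_of_le hX (min_le_right _ _)
  have hX3 : C.cf X ∈ Metric.ball (C.cf X0) δ := by
    rw [mem_ball_iff_norm, ← map_sub, C.cf.norm_map]; exact hX1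
  rw [inner_Afld C (h' X hX2)]
  rw [Zt_eq C h] at hz
  have h1 := QX_low b hPR hX3 hz
  have h2 : kc (actB b) (C.cf X0) = C.kk := h
  rwa [h2] at h1

theorem A_cov (k : Matrix.specialUnitaryGroup (Fin N) ℂ) (X X' : Pos p) (h : C.Reg X)
    (h' : C.Reg X') (he : b.act k (C.cf X) = C.cf X') (z : Cfg N) :
    Afld C X' (b.act k z) = b.act k (Afld C X z) := by
  rw [Afld_reg C h, Afld_reg C h']
  have h1 := AXc_cov (b := b) k (comc_cf C X) z
  rw [he] at h1
  have h2 : kc (actB b) (C.cf X) = C.kk := h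
  have h3 : kc (actB b) (C.cf X') = C.kk := h'
  rwa [h2, h3] at h1

end Crest.Agent.R330.AFld984
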