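import Crest.Agent.R330.TDef_414

/-!
R330, S8 (helper302): the Gaussian exponent is coercive on the fixed fibre `Zt X0` for all positions
of the chart (414's names).

* `a_pos` : `0 < ⟪A X z, z⟫` for `‖X - X0‖ < r`, `z ∈ Zt X0`, `z ≠ 0`.
* `a_low_chart` : uniform on smaller closed balls.
-/

set_option autoImplicit false
set_option linter.unusedSectionVars false

open MeasureTheory Filter Topology Crest.MathPhysics.MatrixQM
open scoped ContDiff InnerProductSpace ENNReal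

noncomputable section

namespace Crest.Agent.R330.ALow302

open Crest.Agent.R330.TDef414 Crest.Agent.R330.LS839 Crest.Agent.R330.Frame839
  Crest.Agent.R330.Bind6839
open Crest.Agent.R330.SlB314 (Nor Tan br brx)

variable {N p : ℕ} {b : ColorBasis N} {S : Type} [Group S] [Fintype S] {C : Chn b p S}
  {F : Type*} [NormedAddCommGroup F] [InnerProductSpace ℂ F] [FiniteDimensional ℂ F]
  {M : FermionRep N F} {R : GaugeAction b M} {G : GammaNine}

theorem cf_mem_Tup (X : Pos p) : C.cf X ∈ Tup C.kk := fun i => by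
  rw [C.comp_cf]
  exact C.cen_mem _

theorem cf_mem_Nor {X0 : Pos p} (h0 : C.Reg X0) (X : Pos p) : C.cf X ∈ Nor b (C.cf X0) := by
  have h1 : C.cf X ∈ Uk b (C.cf X0) := by
    unfold Uk
    rw [show kc (actB b) (C.cf X0) = C.kk from h0]
    exact cf_mem_Tup X
  have h2 := Uk_le_Nor h1
  rwa [Nor_eq] at h2

/-- gauge directions at a regular position are off-diagonal -/
theorem tan_mem_Tup {X : Pos p} (hX : C.Reg X) (om : Colg N) :
    actB b om (C.cf X) ∈ Tup C.kkᗮ := by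
  have h1 : actB b om (C.cf X) ∈ Mm b (C.cf X) := Tn_le_Mm ⟨om, rfl⟩
  unfold Mm at h1
  rwa [show kc (actB b) (C.cf X) = C.kk from hX] at h1

/-- the decomposition of an off-diagonal vector at the position `X` -/
theorem exists_decomp {X : Pos p} (hX : C.Reg X) {z : Cfg N} (hz : z ∈ Tup C.kkᗮ) :
    ∃ om : Colg N, z - actB b om (C.cf X) ∈ C.Zt X := by
  have h1 := Submodule.starProjection_apply_mem (Tn (actB b) (C.cf X)) z
  obtain ⟨om, hom⟩ := h1
  have hom' : actB b om (C.cf X) = (Tn (actB b) (C.cf X)).starProjection z := hom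
  refine ⟨om, Submodule.sub_mem _ hz (tan_mem_Tup hX om), ?_⟩
  rw [hom', ← Nor_eq]
  exact Submodule.sub_starProjection_mem_orthogonal z

/-- the exponent only sees the transverse part -/
theorem a_eq (P : TPack C M R G) {X : Pos p} (hX : C.Reg X) (om : Colg N) (z : Cfg N) :
    ⟪P.A X z, z⟫_ℝ = ⟪P.A X (z - actB b om (C.cf X)), z - actB b om (C.cf X)⟫_ℝ := by
  have h1 := P.A_gauge X hX om
  rw [map_sub, h1, sub_zero, inner_sub_right, P.A_symm X z (actB b om (C.cf X)), h1,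
    inner_zero_right, sub_zero]

/-- **Positivity on the fixed fibre.** -/
theorem a_pos (P : TPack C M R G) (σ : Sl C) {X : Pos p} (hX : ‖X - σ.X0‖ < σ.r) {z : Cfg N}
    (hz : z ∈ C.Zt σ.X0) (hz0 : z ≠ 0) : 0 < ⟪P.A X z, z⟫_ℝ := by
  have hB : C.Reg X := σ.reg X hX
  have hR0 : C.Reg σ.X0 := σ.reg σ.X0 (by rw [sub_self, norm_zero]; exact σ.pos)
  obtain ⟨om, hom⟩ := exists_decomp hB hz.1
  obtain ⟨c, ε, hc, hε, hlow⟩ := P.A_low X hB
  have h1 := hlow X (by rw [sub_self, norm_zero]; exact hε) _ hom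
  rw [a_eq P hB om z]
  refine lt_of_lt_of_le ?_ h1
  have hne : z - actB b om (C.cf X) ≠ 0 := by
    intro h0
    apply hz0
    have h2 : z = actB b om (C.cf X) := sub_eq_zero.1 h0
    have h3 : C.cf X = C.cf σ.X0 + C.cf (X - σ.X0) := by
      rw [← map_add]; congr 1; abel
    have h4 : brx b om.ofLp (C.cf σ.X0 + C.cf (X - σ.X0)) ∈ Nor b (C.cf σ.X0) := by
      rw [← h3, ← actB_apply, ← h2]
      exact hz.2
    have h5 := σ.good.nondeg (C.cf (X - σ.X0)) om.ofLp (cf_mem_Nor hR0 _)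
      (by rw [C.cf.norm_map]; exact hX) h4
    have h6 : om ∈ kc (actB b) (C.cf σ.X0) := by
      rw [mem_kc, actB_apply]; exact h5
    rw [show kc (actB b) (C.cf σ.X0) = C.kk from hR0,
      ← show kc (actB b) (C.cf X) = C.kk from hB, mem_kc] at h6
    rw [h2, h6]
  have := norm_pos_iff.2 hne
  positivity

/-- **Uniform coercivity on the fixed fibre.** -/
theorem a_low_chart (P : TPack C M R G) (σ : Sl C) {r' : ℝ} (hr : r' < σ.r) :
    ∃ c : ℝ, 0 < c ∧ ∀ X : Pos p, ‖X - σ.X0‖ ≤ r' → ∀ z ∈ C.Zt σ.X0,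
      c * ‖z‖ ^ 2 ≤ ⟪P.A X z, z⟫_ℝ := by
  set K : Set (Pos p × Cfg N) := Metric.closedBall σ.X0 r' ×ˢ
    (Metric.sphere (0 : Cfg N) 1 ∩ (C.Zt σ.X0 : Set (Cfg N))) with hK
  have hKc : IsCompact K := (isCompact_closedBall _ _).prod
    ((isCompact_sphere _ _).inter_right (Submodule.closed_of_finiteDimensional _))
  have hf : ContinuousOn (fun q : Pos p × Cfg N => ⟪P.A q.1 q.2, q.2⟫_ℝ) K := by
    intro q hq
    have h1 : ContinuousAt P.A q.1 :=
      (P.A_smooth q.1 (σ.reg q.1 (lt_of_le_of_lt (mem_closedBall_iff_norm.1 hq.1) hr))).continuousAt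
    have h2 : ContinuousAt (fun q : Pos p × Cfg N => P.A q.1 q.2) q :=
      (h1.comp continuousAt_fst).clm_apply continuousAt_snd
    exact (ContinuousAt.inner (𝕜 := ℝ) h2 continuousAt_snd).continuousWithinAt
  rcases K.eq_empty_or_nonempty with hE | hE
  · refine ⟨1, one_pos, fun X hX z hz => ?_⟩
    have hz0 : z = 0 := by
      by_contra h0
      have hn : ‖z‖ ≠ 0 := norm_ne_zero_iff.2 h0
      have : ((X, (‖z‖)⁻¹ • z) : Pos p × Cfg N) ∈ K := by
        refine ⟨mem_closedBall_iff_norm.2 hX, ?_, Submodule.smul_mem _ _ hz⟩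
        rw [mem_sphere_iff_norm, sub_zero, norm_smul, norm_inv, norm_norm, inv_mul_cancel₀ hn]
      rw [hE] at this
      exact this
    rw [hz0]
    simp
  · obtain ⟨q, hq, hmin⟩ := hKc.exists_isMinOn hE hf
    have hpos : 0 < ⟪P.A q.1 q.2, q.2⟫_ℝ := by
      refine a_pos P σ (lt_of_le_of_lt (mem_closedBall_iff_norm.1 hq.1) hr) hq.2.2 ?_
      intro h0
      have := hq.2.1
      rw [mem_sphere_iff_norm, h0, sub_zero, norm_zero] at this
      exact zero_ne_one this
    refine ⟨_, hpos, fun X hX z hz => ?_⟩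
    by_cases hz0 : z = 0
    · rw [hz0]; simp
    · have hn : ‖z‖ ≠ 0 := norm_ne_zero_iff.2 hz0
      have hmem : ((X, (‖z‖)⁻¹ • z) : Pos p × Cfg N) ∈ K := by
        refine ⟨mem_closedBall_iff_norm.2 hX, ?_, Submodule.smul_mem _ _ hz⟩
        rw [mem_sphere_iff_norm, sub_zero, norm_smul, norm_inv, norm_norm, inv_mul_cancel₀ hn]
      have h1 := hmin hmem
      simp only [Set.mem_ofPred_eq, map_smul, inner_smul_left, inner_smul_right,
        conj_trivial] at h1
      have h2 : 0 ≤ ‖z‖ ^ 2 := by positivity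
      calc ⟪P.A q.1 q.2, q.2⟫_ℝ * ‖z‖ ^ 2 ≤
          (‖z‖⁻¹ * (‖z‖⁻¹ * ⟪P.A X z, z⟫_ℝ)) * ‖z‖ ^ 2 := mul_le_mul_of_nonneg_right h1 h2
        _ = ⟪P.A X z, z⟫_ℝ := by field_simp

end Crest.Agent.R330.ALow302
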