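import Crest.Agent.R330.GPar_984

/-!
Block-free operators of the heavy sector.  `D i` is a commuting skew family on a colour space `V`
(`D i = ad X_i`, `X` a commuting configuration), `K` the common kernel.  We build `lr = |ad X|`
(one on `K`), its inverse `li`, the operator `AX = |r| P_{r^⊥}` on `E = ℝ^ι ⊗ V` (square root of the
Hessian of the potential), its kernel, positivity, covariance and smooth dependence.
-/

set_option autoImplicit false
set_option linter.unusedSectionVars false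

namespace Crest.Agent.R330.AX984

open Topology Filter
open scoped InnerProductSpace ContDiff
open Crest.Agent.R330.SqrtPD984 Crest.Agent.R330.GPar984

section prelim

variable {Z : Type*} [NormedAddCommGroup Z] [InnerProductSpace ℝ Z] [FiniteDimensional ℝ Z]

/-- a positive definite operator is a unit -/
theorem PD.isUnit {S : Z →L[ℝ] Z} (hS : PD S) : IsUnit S := by
  have hinj : Function.Injective S := by
    rw [injective_iff_map_eq_zero]
    intro v hv
    by_contra hne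
    have := hS.2 v hne
    rw [hv, inner_zero_left] at this
    exact lt_irrefl _ this
  have h2 : Function.Bijective (S : Z →ₗ[ℝ] Z) :=
    ⟨hinj, LinearMap.surjective_of_injective hinj⟩
  let e : Z ≃L[ℝ] Z := (LinearEquiv.ofBijective (S : Z →ₗ[ℝ] Z) h2).toContinuousLinearEquiv
  have he : (e : Z →L[ℝ] Z) = S := by ext v; rfl
  refine ⟨⟨S, (e.symm : Z →L[ℝ] Z), ?_, ?_⟩, rfl⟩
  · ext v
    have h := e.apply_symm_apply v
    rw [← he]
    simp
  · ext v
    rw [← he]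
    simp

/-- an operator commuting with a positive definite operator commutes with its square root -/
theorem comm_psq {S T : Z →L[ℝ] Z} (hS : PD S) (h : T * S = S * T) : T * psq S = psq S * T := by
  have h1 : PD (psq S) := psq_pd hS
  have h2 : T * psq S - psq S * T = 0 := by
    refine sylvester_inj h1 h1.ps fun v => ?_
    have h3 : psq S * psq S = S := psq_mul_self hS.ps
    have h4 : psq S * (T * psq S - psq S * T) + (T * psq S - psq S * T) * psq S = 0 := by
      have : psq S * (T * psq S - psq S * T) + (T * psq S - psq S * T) * psq S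
          = T * (psq S * psq S) - (psq S * psq S) * T := by noncomm_ring
      rw [this, h3, h, sub_self]
    have h5 := congrArg (fun R : Z →L[ℝ] Z => R v) h4
    simpa using h5
  exact sub_eq_zero.mp h2

theorem mul_inverse {S : Z →L[ℝ] Z} (hS : PD S) : S * Ring.inverse S = 1 :=
  Ring.mul_inverse_cancel _ (PD.isUnit hS)

theorem inverse_mul {S : Z →L[ℝ] Z} (hS : PD S) : Ring.inverse S * S = 1 :=
  Ring.inverse_mul_cancel _ (PD.isUnit hS)

theorem comm_inverse {S T : Z →L[ℝ] Z} (hS : PD S) (h : T * S = S * T) :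
    T * Ring.inverse S = Ring.inverse S * T := by
  have h1 := mul_inverse hS
  have h2 := inverse_mul hS
  calc T * Ring.inverse S = (Ring.inverse S * S) * T * Ring.inverse S := by rw [h2, one_mul]
    _ = Ring.inverse S * (S * T) * Ring.inverse S := by noncomm_ring
    _ = Ring.inverse S * (T * S) * Ring.inverse S := by rw [h]
    _ = Ring.inverse S * T * (S * Ring.inverse S) := by noncomm_ring
    _ = _ := by rw [h1, mul_one]

theorem inverse_pd {S : Z →L[ℝ] Z} (hS : PD S) : PD (Ring.inverse S) := by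
  have h1 : ∀ v, S (Ring.inverse S v) = v := fun v => by
    have := congrArg (fun R : Z →L[ℝ] Z => R v) (mul_inverse hS)
    simpa using this
  refine ⟨fun v w => ?_, fun v hv => ?_⟩
  · have h2 := hS.1 (Ring.inverse S v) (Ring.inverse S w)
    rw [h1, h1] at h2
    exact h2.symm
  · have h2 : Ring.inverse S v ≠ 0 := by
      intro h0
      have := h1 v
      rw [h0, map_zero] at this
      exact hv this.symm
    have h3 := hS.2 _ h2
    rw [h1, real_inner_comm] at h3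
    exact h3

theorem contDiffAt_inverse {P : Type*} [NormedAddCommGroup P] [NormedSpace ℝ P] {m : WithTop ℕ∞}
    {A : P → (Z →L[ℝ] Z)} {b : P} (hA : ContDiffAt ℝ m A b) (hb : PD (A b)) :
    ContDiffAt ℝ m (fun x => Ring.inverse (A x)) b := by
  obtain ⟨u, hu⟩ := PD.isUnit hb
  have h1 : ContDiffAt ℝ m Ring.inverse (u : Z →L[ℝ] Z) := contDiffAt_ringInverse ℝ u
  rw [hu] at h1
  exact h1.comp b hA

end prelim

variable {ι : Type*} [Fintype ι] {V E : Type*}
  [NormedAddCommGroup V] [InnerProductSpace ℝ V] [FiniteDimensional ℝ V]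
  [NormedAddCommGroup E] [InnerProductSpace ℝ E] [FiniteDimensional ℝ E]

/-- A commuting skew family killing `K` with gap `s` on `Kᗮ`. -/
structure Fam (K : Submodule ℝ V) (s : ℝ) (D : ι → V →L[ℝ] V) : Prop where
  skew : ∀ i u v, ⟪D i u, v⟫_ℝ = -⟪u, D i v⟫_ℝ
  comm : ∀ i j v, D i (D j v) = D j (D i v)
  ker : ∀ i, ∀ w ∈ K, D i w = 0
  gap : ∀ w ∈ Kᗮ, s ^ 2 * ‖w‖ ^ 2 ≤ ∑ i, ‖D i w‖ ^ 2

/-- `|ad X|² + P_K` -/
noncomputable def ll (K : Submodule ℝ V) (D : ι → V →L[ℝ] V) : V →L[ℝ] V :=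
  K.starProjection - ∑ i, D i * D i

/-- `|ad X| + P_K` -/
noncomputable def lr (K : Submodule ℝ V) (D : ι → V →L[ℝ] V) : V →L[ℝ] V := psq (ll K D)

/-- the inverse of `lr` -/
noncomputable def li (K : Submodule ℝ V) (D : ι → V →L[ℝ] V) : V →L[ℝ] V :=
  Ring.inverse (lr K D)

theorem ll_apply (K : Submodule ℝ V) (D : ι → V →L[ℝ] V) (v : V) :
    ll K D v = K.starProjection v - ∑ i, D i (D i v) := by
  simp [ll]

section fam

variable {K : Submodule ℝ V} {s : ℝ} {D : ι → V →L[ℝ] V}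

theorem Fam.proj_D (h : Fam K s D) (i : ι) (v : V) : K.starProjection (D i v) = 0 := by
  rw [Submodule.starProjection_apply_eq_zero_iff, Submodule.mem_orthogonal]
  intro w hw
  rw [real_inner_comm, h.skew, h.ker i w hw, inner_zero_right, neg_zero]

theorem Fam.D_mem (h : Fam K s D) (i : ι) (v : V) : D i v ∈ Kᗮ := by
  rw [← Submodule.starProjection_apply_eq_zero_iff]; exact h.proj_D i v

theorem Fam.D_proj (h : Fam K s D) (i : ι) (v : V) : D i (K.starProjection v) = 0 :=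
  h.ker i _ (Submodule.starProjection_apply_mem K v)

theorem Fam.inner_DD (h : Fam K s D) (v w : V) :
    ⟪-∑ i, D i (D i v), w⟫_ℝ = ∑ i, ⟪D i v, D i w⟫_ℝ := by
  rw [inner_neg_left, sum_inner, ← Finset.sum_neg_distrib]
  refine Finset.sum_congr rfl fun i _ => ?_
  rw [h.skew, neg_neg]

theorem Fam.inner_ll (h : Fam K s D) (v w : V) :
    ⟪ll K D v, w⟫_ℝ = ⟪K.starProjection v, w⟫_ℝ + ∑ i, ⟪D i v, D i w⟫_ℝ := by
  rw [ll_apply, sub_eq_add_neg, inner_add_left, h.inner_DD]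

theorem proj_zero {K : Submodule ℝ V} {v : V} (hv : v ∈ Kᗮ) : K.starProjection v = 0 :=
  (Submodule.starProjection_apply_eq_zero_iff (K := K)).mpr hv

theorem proj_inner (K : Submodule ℝ V) (v w : V) :
    ⟪K.starProjection v, w⟫_ℝ = ⟪K.starProjection v, K.starProjection w⟫_ℝ := by
  have h1 : ⟪K.starProjection v, w - K.starProjection w⟫_ℝ = 0 := by
    refine Submodule.inner_right_of_mem_orthogonal (K := K)
      (Submodule.starProjection_apply_mem K v) ?_
    exact Submodule.sub_starProjection_mem_orthogonal w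
  rw [inner_sub_right, sub_eq_zero] at h1
  exact h1

theorem Fam.ll_sy (h : Fam K s D) : Sy (ll K D) := by
  intro v w
  rw [h.inner_ll, real_inner_comm (ll K D w) v, h.inner_ll, proj_inner K v w, proj_inner K w v,
    real_inner_comm (K.starProjection v)]
  congr 1
  exact Finset.sum_congr rfl fun i _ => real_inner_comm _ _

theorem Fam.ll_pd (h : Fam K s D) (hs : 0 < s) : PD (ll K D) := by
  refine ⟨h.ll_sy, fun v hv => ?_⟩
  rw [h.inner_ll, proj_inner, real_inner_self_eq_norm_sq]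
  have h0 : ∀ i, ⟪D i v, D i v⟫_ℝ = ‖D i v‖ ^ 2 := fun i => real_inner_self_eq_norm_sq _
  simp only [h0]
  set p := K.starProjection v with hp
  have hq : v - p ∈ Kᗮ := Submodule.sub_starProjection_mem_orthogonal v
  have h1 := h.gap _ hq
  have h2 : ∀ i, D i (v - p) = D i v := fun i => by rw [map_sub, h.D_proj, sub_zero]
  simp only [h2] at h1
  by_cases hp0 : p = 0
  · have h3 : 0 < ‖v - p‖ ^ 2 := by
      rw [hp0, sub_zero]
      have := norm_pos_iff.mpr hv
      positivity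
    have h4 : 0 < s ^ 2 * ‖v - p‖ ^ 2 := by positivity
    have h5 : 0 ≤ ‖p‖ ^ 2 := by positivity
    linarith
  · have h3 : 0 < ‖p‖ ^ 2 := by
      have := norm_pos_iff.mpr hp0
      positivity
    have h4 : 0 ≤ ∑ i, ‖D i v‖ ^ 2 := Finset.sum_nonneg fun i _ => by positivity
    linarith

theorem Fam.lr_pd (h : Fam K s D) (hs : 0 < s) : PD (lr K D) := psq_pd (h.ll_pd hs)

theorem Fam.li_pd (h : Fam K s D) (hs : 0 < s) : PD (li K D) := inverse_pd (h.lr_pd hs)

theorem Fam.lr_lr (h : Fam K s D) (hs : 0 < s) (v : V) :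
    lr K D (lr K D v) = K.starProjection v - ∑ i, D i (D i v) := by
  rw [lr, psq_apply_apply (h.ll_pd hs).ps, ll_apply]

theorem Fam.lr_li (h : Fam K s D) (hs : 0 < s) (v : V) : lr K D (li K D v) = v := by
  have := congrArg (fun R : V →L[ℝ] V => R v) (mul_inverse (h.lr_pd hs))
  simpa [li] using this

theorem Fam.li_lr (h : Fam K s D) (hs : 0 < s) (v : V) : li K D (lr K D v) = v := by
  have := congrArg (fun R : V →L[ℝ] V => R v) (inverse_mul (h.lr_pd hs))
  simpa [li] using this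

theorem Fam.comm_lr_of (h : Fam K s D) (hs : 0 < s) {T : V →L[ℝ] V}
    (hT : ∀ v, T (ll K D v) = ll K D (T v)) (v : V) : T (lr K D v) = lr K D (T v) := by
  have h1 : T * ll K D = ll K D * T := by ext v; simpa using hT v
  have := congrArg (fun R : V →L[ℝ] V => R v) (comm_psq (h.ll_pd hs) h1)
  simpa [lr] using this

theorem Fam.comm_li_of (h : Fam K s D) (hs : 0 < s) {T : V →L[ℝ] V}
    (hT : ∀ v, T (ll K D v) = ll K D (T v)) (v : V) : T (li K D v) = li K D (T v) := by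
  have h1 : T * lr K D = lr K D * T := by ext v; simpa using h.comm_lr_of hs hT v
  have := congrArg (fun R : V →L[ℝ] V => R v) (comm_inverse (h.lr_pd hs) h1)
  simpa [li] using this

theorem Fam.D_ll (h : Fam K s D) (i : ι) (v : V) : D i (ll K D v) = ll K D (D i v) := by
  rw [ll_apply, ll_apply, map_sub, h.D_proj, h.proj_D, map_sum]
  congr 1
  refine Finset.sum_congr rfl fun j _ => ?_
  rw [h.comm i j, h.comm i j]

theorem Fam.proj_ll (h : Fam K s D) (v : V) :
    K.starProjection (ll K D v) = ll K D (K.starProjection v) := by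
  rw [ll_apply, ll_apply, map_sub, map_sum]
  have h1 : ∀ i, K.starProjection (D i (D i v)) = 0 := fun i => h.proj_D i _
  have h2 : ∀ i, D i (D i (K.starProjection v)) = 0 := fun i => by rw [h.D_proj, map_zero]
  simp only [h1, h2]

theorem Fam.D_lr (h : Fam K s D) (hs : 0 < s) (i : ι) (v : V) :
    D i (lr K D v) = lr K D (D i v) := h.comm_lr_of hs (h.D_ll i) v

theorem Fam.D_li (h : Fam K s D) (hs : 0 < s) (i : ι) (v : V) :
    D i (li K D v) = li K D (D i v) := h.comm_li_of hs (h.D_ll i) v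

theorem Fam.proj_lr (h : Fam K s D) (hs : 0 < s) (v : V) :
    K.starProjection (lr K D v) = lr K D (K.starProjection v) := h.comm_lr_of hs h.proj_ll v

theorem Fam.proj_li (h : Fam K s D) (hs : 0 < s) (v : V) :
    K.starProjection (li K D v) = li K D (K.starProjection v) := h.comm_li_of hs h.proj_ll v

theorem Fam.lr_mem (h : Fam K s D) (hs : 0 < s) {v : V} (hv : v ∈ Kᗮ) : lr K D v ∈ Kᗮ := by
  rw [← Submodule.starProjection_apply_eq_zero_iff] at hv ⊢
  rw [h.proj_lr hs, hv, map_zero]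

theorem Fam.li_mem (h : Fam K s D) (hs : 0 < s) {v : V} (hv : v ∈ Kᗮ) : li K D v ∈ Kᗮ := by
  rw [← Submodule.starProjection_apply_eq_zero_iff] at hv ⊢
  rw [h.proj_li hs, hv, map_zero]

/-- `|lr v|² = Σ |D_i v|²` on `Kᗮ` -/
theorem Fam.norm_lr_sq (h : Fam K s D) (hs : 0 < s) {v : V} (hv : v ∈ Kᗮ) :
    ‖lr K D v‖ ^ 2 = ∑ i, ‖D i v‖ ^ 2 := by
  rw [lr, norm_psq_sq (h.ll_pd hs).ps, h.inner_ll]
  rw [(Submodule.starProjection_apply_eq_zero_iff (K := K)).mpr hv, inner_zero_left, zero_add]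
  exact Finset.sum_congr rfl fun i _ => real_inner_self_eq_norm_sq _

theorem Fam.lr_fix (h : Fam K s D) (hs : 0 < s) {v : V} (hv : v ∈ K) : lr K D v = v := by
  have h1 : lr K D (lr K D v) = v := by
    rw [h.lr_lr hs, Submodule.starProjection_eq_self_iff.mpr hv]
    have : ∀ i, D i (D i v) = 0 := fun i => by rw [h.ker i v hv, map_zero]
    simp [this]
  by_contra hne
  have h2 : lr K D v - v ≠ 0 := sub_ne_zero.mpr hne
  have h3 := (h.lr_pd hs).2 _ h2
  rw [map_sub, h1] at h3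
  have h4 : ⟪v - lr K D v, lr K D v - v⟫_ℝ = -‖lr K D v - v‖ ^ 2 := by
    rw [← neg_sub (lr K D v) v, inner_neg_left, real_inner_self_eq_norm_sq]
  rw [h4] at h3
  nlinarith [sq_nonneg ‖lr K D v - v‖]

theorem Fam.lr_ge (h : Fam K s D) (hs : 0 < s) {v : V} (hv : v ∈ Kᗮ) :
    s * ‖v‖ ^ 2 ≤ ⟪lr K D v, v⟫_ℝ := by
  have hp : PD (lr K D) := h.lr_pd hs
  set T : V →L[ℝ] V := lr K D + s • (1 : V →L[ℝ] V) with hT
  have hTa : ∀ w, T w = lr K D w + s • w := fun w => by simp [hT]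
  have hTp : PD T := by
    refine ⟨fun a b => ?_, fun a ha => ?_⟩
    · rw [hTa, hTa, inner_add_left, inner_add_right, hp.1, real_inner_smul_left,
        real_inner_smul_right]
    · rw [hTa, inner_add_left, real_inner_smul_left, real_inner_self_eq_norm_sq]
      have h1 := hp.2 a ha
      have h2 : 0 ≤ s * ‖a‖ ^ 2 := by positivity
      linarith
  have hq : PD (psq T) := psq_pd hTp
  have hc1 : lr K D * T = T * lr K D := by
    ext w; simp [hT]
  have hc2 : K.starProjection * T = T * K.starProjection := by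
    ext w
    have := h.proj_lr hs w
    simp [hT, this]
  have hq1 : ∀ w, lr K D (psq T w) = psq T (lr K D w) := fun w => by
    have := congrArg (fun R : V →L[ℝ] V => R w) (comm_psq hTp hc1)
    simpa using this
  set w : V := Ring.inverse (psq T) v with hw
  have hvw : psq T w = v := by
    have := congrArg (fun R : V →L[ℝ] V => R v) (mul_inverse hq)
    simpa using this
  have hwK : w ∈ Kᗮ := by
    rw [← Submodule.starProjection_apply_eq_zero_iff] at hv ⊢
    have h1 := congrArg (fun R : V →L[ℝ] V => R v) (comm_inverse hq (comm_psq hTp hc2))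
    simp only [mul_apply_eq_comp] at h1
    rw [hw, h1, hv, map_zero]
  have hlow : s ^ 2 * ‖w‖ ^ 2 ≤ ‖lr K D w‖ ^ 2 := by
    rw [h.norm_lr_sq hs hwK]; exact h.gap w hwK
  have e1 : ⟪lr K D v, v⟫_ℝ - s * ‖v‖ ^ 2 = ⟪T (lr K D w) - (s • T w), w⟫_ℝ := by
    have e2 : ⟪T (lr K D w), w⟫_ℝ = ⟪lr K D v, v⟫_ℝ := by
      rw [← psq_apply_apply hTp.ps, hq.1, ← hq1, hvw]
    have e3 : ⟪T w, w⟫_ℝ = ‖v‖ ^ 2 := by
      rw [← psq_apply_apply hTp.ps, hq.1, hvw, real_inner_self_eq_norm_sq]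
    rw [inner_sub_left, real_inner_smul_left, e2, e3]
  have e4 : ⟪T (lr K D w) - (s • T w), w⟫_ℝ = ‖lr K D w‖ ^ 2 - s ^ 2 * ‖w‖ ^ 2 := by
    rw [hTa, hTa, smul_add, inner_sub_left, inner_add_left, inner_add_left, real_inner_smul_left,
      real_inner_smul_left, real_inner_smul_left, hp.1,
      real_inner_self_eq_norm_sq, real_inner_self_eq_norm_sq]
    ring
  linarith

end fam

/-- `E = ℝ^ι ⊗ V` through its components. -/
structure Ten (ι V E : Type*) [Fintype ι] [NormedAddCommGroup V] [InnerProductSpace ℝ V]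
    [NormedAddCommGroup E] [InnerProductSpace ℝ E] where
  pr : ι → E →L[ℝ] V
  ij : ι → V →L[ℝ] E
  pr_same : ∀ i v, pr i (ij i v) = v
  pr_ne : ∀ i j v, i ≠ j → pr i (ij j v) = 0
  sum_ij : ∀ e, ∑ i, ij i (pr i e) = e
  adj : ∀ i v e, ⟪ij i v, e⟫_ℝ = ⟪v, pr i e⟫_ℝ

namespace Ten

variable (τ : Ten ι V E)

theorem pr_sum (i : ι) (v : ι → V) : τ.pr i (∑ j, τ.ij j (v j)) = v i := by
  classical
  rw [map_sum, Finset.sum_eq_single i]
  · exact τ.pr_same i _
  · intro j _ hj; exact τ.pr_ne i j _ (Ne.symm hj)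
  · intro h; exact absurd (Finset.mem_univ i) h

theorem inner_eq (e e' : E) : ⟪e, e'⟫_ℝ = ∑ i, ⟪τ.pr i e, τ.pr i e'⟫_ℝ := by
  conv_lhs => rw [← τ.sum_ij e]
  rw [sum_inner]
  exact Finset.sum_congr rfl fun i _ => τ.adj i _ _

theorem norm_sq (e : E) : ‖e‖ ^ 2 = ∑ i, ‖τ.pr i e‖ ^ 2 := by
  rw [← real_inner_self_eq_norm_sq, τ.inner_eq]
  exact Finset.sum_congr rfl fun i _ => real_inner_self_eq_norm_sq _

theorem ext' {e e' : E} (h : ∀ i, τ.pr i e = τ.pr i e') : e = e' := by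
  rw [← τ.sum_ij e, ← τ.sum_ij e']
  exact Finset.sum_congr rfl fun i _ => by rw [h i]

/-- the divergence `Σ_j D_j e_j` -/
noncomputable def dv (D : ι → V →L[ℝ] V) : E →L[ℝ] V := ∑ j, (D j).comp (τ.pr j)

theorem dv_apply (D : ι → V →L[ℝ] V) (e : E) : τ.dv D e = ∑ j, D j (τ.pr j e) := by
  simp [dv]

/-- the gauge direction `(D_i w)_i` -/
noncomputable def gd (D : ι → V →L[ℝ] V) : V →L[ℝ] E := ∑ j, (τ.ij j).comp (D j)

theorem gd_apply (D : ι → V →L[ℝ] V) (w : V) : τ.gd D w = ∑ j, τ.ij j (D j w) := by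
  simp [gd]

theorem pr_gd (D : ι → V →L[ℝ] V) (w : V) (i : ι) : τ.pr i (τ.gd D w) = D i w := by
  rw [τ.gd_apply, τ.pr_sum]

/-- `1 ⊗ T` -/
noncomputable def ten (T : V →L[ℝ] V) : E →L[ℝ] E := ∑ j, (τ.ij j).comp (T.comp (τ.pr j))

theorem pr_ten (T : V →L[ℝ] V) (e : E) (i : ι) : τ.pr i (τ.ten T e) = T (τ.pr i e) := by
  have : τ.ten T e = ∑ j, τ.ij j (T (τ.pr j e)) := by simp [ten]
  rw [this, τ.pr_sum]

/-- the operator `|r| P_{r^⊥}` -/
noncomputable def AX (K : Submodule ℝ V) (D : ι → V →L[ℝ] V) : E →L[ℝ] E :=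
  τ.ten (lr K D - K.starProjection) + (τ.gd D).comp ((li K D).comp (τ.dv D))

theorem AX_def (K : Submodule ℝ V) (D : ι → V →L[ℝ] V) (e : E) :
    τ.AX K D e = τ.ten (lr K D - K.starProjection) e + τ.gd D (li K D (τ.dv D e)) := by
  simp [AX]

theorem pr_AX (K : Submodule ℝ V) (D : ι → V →L[ℝ] V) (e : E) (i : ι) :
    τ.pr i (τ.AX K D e)
      = lr K D (τ.pr i e) - K.starProjection (τ.pr i e) + D i (li K D (τ.dv D e)) := by
  rw [AX_def, map_add, τ.pr_ten, τ.pr_gd]
  simp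

end Ten

section ops

variable {K : Submodule ℝ V} {s : ℝ} {D : ι → V →L[ℝ] V} (τ : Ten ι V E)

theorem Fam.dv_mem (h : Fam K s D) (e : E) : τ.dv D e ∈ Kᗮ := by
  rw [τ.dv_apply]; exact Submodule.sum_mem _ fun i _ => h.D_mem i _

theorem Fam.inner_gd (h : Fam K s D) (w : V) (e : E) :
    ⟪τ.gd D w, e⟫_ℝ = -⟪w, τ.dv D e⟫_ℝ := by
  rw [τ.inner_eq, τ.dv_apply, inner_sum, ← Finset.sum_neg_distrib]
  refine Finset.sum_congr rfl fun i _ => ?_
  rw [τ.pr_gd, h.skew]

theorem Fam.inner_AX (h : Fam K s D) (e e' : E) :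
    ⟪τ.AX K D e, e'⟫_ℝ = ∑ i, ⟪lr K D (τ.pr i e) - K.starProjection (τ.pr i e), τ.pr i e'⟫_ℝ
      - ⟪li K D (τ.dv D e), τ.dv D e'⟫_ℝ := by
  rw [τ.AX_def, inner_add_left, h.inner_gd, τ.inner_eq, ← sub_eq_add_neg]
  congr 1
  refine Finset.sum_congr rfl fun i _ => ?_
  rw [τ.pr_ten]
  simp

theorem Fam.AX_sy (h : Fam K s D) (hs : 0 < s) : Sy (τ.AX K D) := by
  intro e e'
  rw [h.inner_AX τ, real_inner_comm (τ.AX K D e') e, h.inner_AX τ]
  congr 1
  · refine Finset.sum_congr rfl fun i _ => ?_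
    rw [inner_sub_left, inner_sub_left, (h.lr_pd hs).1, proj_inner K (τ.pr i e),
      proj_inner K (τ.pr i e'), real_inner_comm (lr K D (τ.pr i e')),
      real_inner_comm (K.starProjection (τ.pr i e'))]
  · rw [(h.li_pd hs).1, real_inner_comm]

/-- gauge directions are in the kernel -/
theorem Fam.AX_gd (h : Fam K s D) (hs : 0 < s) (w : V) : τ.AX K D (τ.gd D w) = 0 := by
  refine τ.ext' fun i => ?_
  rw [τ.pr_AX, τ.pr_gd, map_zero, h.proj_D, sub_zero, τ.dv_apply]
  have h1 : ∑ j, D j (τ.pr j (τ.gd D w)) = K.starProjection w - lr K D (lr K D w) := by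
    rw [h.lr_lr hs]
    simp only [τ.pr_gd]
    abel
  rw [h1, map_sub, h.li_lr hs, ← h.proj_li hs, map_sub, h.D_proj, zero_sub, h.D_lr hs]
  abel

/-- `R^ι ⊗ K` is in the kernel -/
theorem Fam.AX_ker (h : Fam K s D) (hs : 0 < s) {e : E} (he : ∀ i, τ.pr i e ∈ K) :
    τ.AX K D e = 0 := by
  refine τ.ext' fun i => ?_
  have h1 : τ.dv D e = 0 := by
    rw [τ.dv_apply]
    exact Finset.sum_eq_zero fun j _ => h.ker j _ (he j)
  rw [τ.pr_AX, map_zero, h1, map_zero, map_zero, h.lr_fix hs (he i),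
    Submodule.starProjection_eq_self_iff.mpr (he i), sub_self, add_zero]

/-- the divergence of `AX` vanishes -/
theorem Fam.dv_AX (h : Fam K s D) (hs : 0 < s) (e : E) : τ.dv D (τ.AX K D e) = 0 := by
  have h1 : ∀ w, ⟪w, τ.dv D (τ.AX K D e)⟫_ℝ = 0 := by
    intro w
    have := h.inner_gd τ w (τ.AX K D e)
    rw [← h.AX_sy τ hs, h.AX_gd τ hs, inner_zero_left] at this
    linarith
  have := h1 (τ.dv D (τ.AX K D e))
  exact inner_self_eq_zero.mp this

/-- `AX` is heavy -/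
theorem Fam.pr_AX_mem (h : Fam K s D) (hs : 0 < s) (e : E) (i : ι) :
    τ.pr i (τ.AX K D e) ∈ Kᗮ := by
  rw [← Submodule.starProjection_apply_eq_zero_iff, τ.pr_AX, map_add, map_sub, h.proj_D,
    h.proj_lr hs]
  have h2 : K.starProjection (K.starProjection (τ.pr i e)) = K.starProjection (τ.pr i e) :=
    Submodule.starProjection_eq_self_iff.mpr (Submodule.starProjection_apply_mem K _)
  rw [h2, h.lr_fix hs (Submodule.starProjection_apply_mem K _)]
  abel

/-- `AX² = Hessian of the potential` -/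
theorem Fam.AX_AX (h : Fam K s D) (hs : 0 < s) (e : E) (i : ι) :
    τ.pr i (τ.AX K D (τ.AX K D e)) = -∑ j, D j (D j (τ.pr i e)) + D i (τ.dv D e) := by
  rw [τ.pr_AX, h.dv_AX τ hs, map_zero, map_zero, add_zero,
    proj_zero (h.pr_AX_mem τ hs e i), sub_zero, τ.pr_AX,
    map_add, map_sub, h.lr_lr hs, h.lr_fix hs (Submodule.starProjection_apply_mem K _),
    ← h.D_lr hs, h.lr_li hs]
  abel

theorem Fam.inner_AX_self (h : Fam K s D) {e : E} (he : ∀ i, τ.pr i e ∈ Kᗮ) :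
    ⟪τ.AX K D e, e⟫_ℝ = ∑ i, ⟪lr K D (τ.pr i e), τ.pr i e⟫_ℝ
      - ⟪li K D (τ.dv D e), τ.dv D e⟫_ℝ := by
  rw [h.inner_AX τ]
  congr 1
  refine Finset.sum_congr rfl fun i _ => ?_
  rw [proj_zero (he i), sub_zero]

/-- `AX` is bounded below on the transverse heavy space. -/
theorem Fam.AX_low (h : Fam K s D) (hs : 0 < s) {e : E} (he : ∀ i, τ.pr i e ∈ Kᗮ)
    (hd : τ.dv D e = 0) : s * ‖e‖ ^ 2 ≤ ⟪τ.AX K D e, e⟫_ℝ := by
  rw [h.inner_AX_self τ he, hd, inner_zero_right, sub_zero, τ.norm_sq, Finset.mul_sum]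
  exact Finset.sum_le_sum fun i _ => h.lr_ge hs (he i)

/-- `AX` is positive semidefinite. -/
theorem Fam.AX_ps (h : Fam K s D) (hs : 0 < s) : PS (τ.AX K D) := by
  refine ⟨h.AX_sy τ hs, fun e => ?_⟩
  -- subtract the light part and the gauge part
  set w := li K D (li K D (τ.dv D e)) with hw
  have hwK : w ∈ Kᗮ := h.li_mem hs (h.li_mem hs (h.dv_mem τ e))
  set e1 : E := ∑ i, τ.ij i (τ.pr i e - K.starProjection (τ.pr i e)) + τ.gd D w with he1
  have hpr : ∀ i, τ.pr i e1 = τ.pr i e - K.starProjection (τ.pr i e) + D i w := by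
    intro i
    rw [he1, map_add, τ.pr_sum, τ.pr_gd]
  have hmem : ∀ i, τ.pr i e1 ∈ Kᗮ := by
    intro i
    rw [hpr]
    exact Submodule.add_mem _ (Submodule.sub_starProjection_mem_orthogonal _) (h.D_mem i w)
  have hdv : τ.dv D e1 = 0 := by
    rw [τ.dv_apply]
    have h1 : ∀ j, D j (τ.pr j e1) = D j (τ.pr j e) + D j (D j w) := by
      intro j
      rw [hpr, map_add, map_sub, h.D_proj, sub_zero]
    simp only [h1]
    rw [Finset.sum_add_distrib, ← τ.dv_apply]
    have h2 : ∑ j, D j (D j w) = K.starProjection w - lr K D (lr K D w) := by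
      rw [h.lr_lr hs]; abel
    rw [h2, proj_zero hwK, hw, h.lr_li hs, h.lr_li hs]
    abel
  have hAX : τ.AX K D e = τ.AX K D e1 := by
    have h3 : e1 = e - ∑ i, τ.ij i (K.starProjection (τ.pr i e)) + τ.gd D w := by
      rw [he1]
      congr 1
      conv_rhs => rw [← τ.sum_ij e]
      rw [← Finset.sum_sub_distrib]
      refine Finset.sum_congr rfl fun i _ => ?_
      rw [map_sub]
      congr 2
      have := τ.sum_ij e
      rw [this]
    rw [h3, map_add, map_sub, h.AX_gd τ hs, add_zero, h.AX_ker τ hs (e := ∑ i, τ.ij i (K.starProjection (τ.pr i e))), sub_zero]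
    intro i
    rw [τ.pr_sum]
    exact Submodule.starProjection_apply_mem K _
  have h4 : ⟪τ.AX K D e, e⟫_ℝ = ⟪τ.AX K D e1, e1⟫_ℝ := by
    rw [hAX, h.AX_sy τ hs, hAX, real_inner_comm]
  rw [h4]
  have h5 := h.AX_low τ hs hmem hdv
  have h6 : 0 ≤ s * ‖e1‖ ^ 2 := by positivity
  linarith

/-- the linearised charge: `Σ_ij c_ij D_i |D|^{-1} (A e)_j = Σ_ij c_ij D_i e_j - κ Σ_i D_i e_i` for
coefficients with `c_ij + c_ji = 2 κ δ_ij` -/
theorem Fam.charge (h : Fam K s D) (hs : 0 < s) {κ : ℝ} {c : ι → ι → ℝ}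
    (hc : ∀ i j, i ≠ j → c i j + c j i = 0) (hd : ∀ i, c i i = κ) (e : E) :
    ∑ i, ∑ j, c i j • D i (li K D (τ.pr j (τ.AX K D e)))
      = ∑ i, ∑ j, c i j • D i (τ.pr j e) - κ • τ.dv D e := by
  have h1 : ∀ i j, D i (li K D (τ.pr j (τ.AX K D e)))
      = D i (τ.pr j e) + D i (D j (li K D (li K D (τ.dv D e)))) := by
    intro i j
    rw [τ.pr_AX, map_add, map_sub, h.li_lr hs, ← h.proj_li hs, map_add, map_sub, h.D_proj,
      sub_zero, ← h.D_li hs]
  simp only [h1, smul_add, Finset.sum_add_distrib]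
  rw [sub_eq_add_neg]
  congr 1
  set u := li K D (li K D (τ.dv D e)) with hu
  have huK : u ∈ Kᗮ := h.li_mem hs (h.li_mem hs (h.dv_mem τ e))
  have h2 : ∑ j, D j (D j u) = - τ.dv D e := by
    have : ∑ j, D j (D j u) = K.starProjection u - lr K D (lr K D u) := by
      rw [h.lr_lr hs]; abel
    rw [this, proj_zero huK, hu, h.lr_li hs, h.lr_li hs]
    abel
  have h3 : ∑ i, ∑ j, c i j • D i (D j u) = κ • ∑ j, D j (D j u) := by
    have h4 : (2 : ℝ) • ∑ i, ∑ j, c i j • D i (D j u) = (2 : ℝ) • κ • ∑ j, D j (D j u) := by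
      calc (2 : ℝ) • ∑ i, ∑ j, c i j • D i (D j u)
          = ∑ i, ∑ j, c i j • D i (D j u) + ∑ i, ∑ j, c j i • D j (D i u) := by
            rw [two_smul]
            congr 1
            exact Finset.sum_comm
        _ = ∑ i, ∑ j, (c i j + c j i) • D i (D j u) := by
            rw [← Finset.sum_add_distrib]
            refine Finset.sum_congr rfl fun i _ => ?_
            rw [← Finset.sum_add_distrib]
            refine Finset.sum_congr rfl fun j _ => ?_
            rw [h.comm j i, add_smul]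
        _ = ∑ i, (2 * κ) • D i (D i u) := by
            refine Finset.sum_congr rfl fun i _ => ?_
            rw [Finset.sum_eq_single i]
            · rw [hd, two_mul]
            · intro j _ hj
              rw [hc i j (Ne.symm hj), zero_smul]
            · intro hn; exact absurd (Finset.mem_univ i) hn
        _ = _ := by rw [← Finset.smul_sum, smul_smul]
    have := smul_right_injective V (two_ne_zero (α := ℝ)) h4
    exact this
  rw [h3, h2, smul_neg]

end ops

section cov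

variable {K K' : Submodule ℝ V} {s s' : ℝ} {D D' : ι → V →L[ℝ] V} (τ : Ten ι V E)

/-- covariance of `lr` -/
theorem Fam.lr_cov (h : Fam K s D) (h' : Fam K' s' D') (hs : 0 < s) (hs' : 0 < s')
    (U : V ≃ₗᵢ[ℝ] V) (hU : ∀ i v, U (D i v) = D' i (U v))
    (hK : ∀ v, U (K.starProjection v) = K'.starProjection (U v)) (v : V) :
    U (lr K D v) = lr K' D' (U v) := by
  have hUs : ∀ v w, ⟪U v, w⟫_ℝ = ⟪v, U.symm w⟫_ℝ := fun v w => by
    conv_lhs => rw [← U.apply_symm_apply w]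
    exact U.inner_map_map _ _
  set S : V →L[ℝ] V :=
    (U.toContinuousLinearEquiv : V →L[ℝ] V).comp
      ((lr K D).comp (U.symm.toContinuousLinearEquiv : V →L[ℝ] V)) with hS
  have hSa : ∀ w, S w = U (lr K D (U.symm w)) := fun w => rfl
  have hSp : PD S := by
    refine ⟨fun a b => ?_, fun a ha => ?_⟩
    · rw [hSa, hSa, hUs, (h.lr_pd hs).1, real_inner_comm, ← hUs, real_inner_comm]
    · rw [hSa, hUs]
      exact (h.lr_pd hs).2 _ (by simpa using ha)
  have hSS : S * S = ll K' D' := by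
    ext w
    have : (S * S) w = S (S w) := rfl
    rw [this, hSa, hSa, U.symm_apply_apply, h.lr_lr hs, map_sub, map_sum, hK,
      U.apply_symm_apply, ll_apply]
    congr 1
    refine Finset.sum_congr rfl fun i _ => ?_
    rw [hU, hU, U.apply_symm_apply]
  have h1 : lr K' D' = S := psq_eq hSp hSS (h'.ll_pd hs').ps
  rw [h1, hSa, U.symm_apply_apply]

end cov

section near

variable {K : Submodule ℝ V} {s : ℝ} {D D' : ι → V →L[ℝ] V}

/-- stability of the gap -/
theorem Fam.near (h : Fam K s D) (hs : 0 ≤ s)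
    (hsk : ∀ i u v, ⟪D' i u, v⟫_ℝ = -⟪u, D' i v⟫_ℝ)
    (hc : ∀ i j v, D' i (D' j v) = D' j (D' i v)) (hk : ∀ i, ∀ w ∈ K, D' i w = 0)
    (hn : ∑ i, ‖D' i - D i‖ ^ 2 ≤ s ^ 2 / 4) : Fam K (s / 2) D' := by
  refine ⟨hsk, hc, hk, fun w hw => ?_⟩
  have h1 := h.gap w hw
  have h2 : ∀ i, ‖D i w‖ ^ 2 ≤ 2 * ‖D' i w‖ ^ 2 + 2 * (‖D' i - D i‖ ^ 2 * ‖w‖ ^ 2) := by
    intro i
    have h3 : ‖D i w‖ ≤ ‖D' i w‖ + ‖(D' i - D i) w‖ := by
      have : D i w = D' i w - (D' i - D i) w := by simp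
      rw [this]
      exact norm_sub_le _ _
    have h4 : ‖(D' i - D i) w‖ ≤ ‖D' i - D i‖ * ‖w‖ := (D' i - D i).le_opNorm w
    have h5 : ‖D i w‖ ≤ ‖D' i w‖ + ‖D' i - D i‖ * ‖w‖ := by linarith
    have h6 : ‖D i w‖ ^ 2 ≤ (‖D' i w‖ + ‖D' i - D i‖ * ‖w‖) ^ 2 :=
      pow_le_pow_left₀ (norm_nonneg _) h5 2
    nlinarith [sq_nonneg (‖D' i w‖ - ‖D' i - D i‖ * ‖w‖)]
  have h7 : ∑ i, ‖D i w‖ ^ 2 ≤ 2 * ∑ i, ‖D' i w‖ ^ 2 + 2 * ((∑ i, ‖D' i - D i‖ ^ 2) * ‖w‖ ^ 2) := by
    refine (Finset.sum_le_sum fun i _ => h2 i).trans (le_of_eq ?_)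
    rw [Finset.sum_add_distrib, ← Finset.mul_sum, ← Finset.mul_sum, Finset.sum_mul]
  have h8 : (∑ i, ‖D' i - D i‖ ^ 2) * ‖w‖ ^ 2 ≤ s ^ 2 / 4 * ‖w‖ ^ 2 := by gcongr
  nlinarith

end near

section smooth

variable {P : Type*} [NormedAddCommGroup P] [NormedSpace ℝ P] {m : WithTop ℕ∞}
  {K : Submodule ℝ V} {s : ℝ} {D : P → ι → V →L[ℝ] V} {b : P} (τ : Ten ι V E)

theorem contDiffAt_ll (hD : ∀ i, ContDiffAt ℝ m (fun x => D x i) b) :
    ContDiffAt ℝ m (fun x => ll K (D x)) b := by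
  unfold ll
  exact contDiffAt_const.sub (ContDiffAt.sum fun i _ => (hD i).mul (hD i))

theorem sy_ll {D : ι → V →L[ℝ] V} (hsk : ∀ i u v, ⟪D i u, v⟫_ℝ = -⟪u, D i v⟫_ℝ) :
    Sy (ll K D) := by
  intro v w
  rw [ll_apply, ll_apply, inner_sub_left, inner_sub_right, proj_inner, real_inner_comm _ v,
    proj_inner K w v, real_inner_comm (K.starProjection v), sum_inner, inner_sum]
  congr 1
  refine Finset.sum_congr rfl fun i _ => ?_
  rw [hsk, hsk, neg_neg]

theorem contDiffAt_lr (hm : m ≠ 0) (hb : PD (ll K (D b)))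
    (hsk : ∀ᶠ x in 𝓝 b, ∀ i u v, ⟪D x i u, v⟫_ℝ = -⟪u, D x i v⟫_ℝ)
    (hD : ∀ i, ContDiffAt ℝ m (fun x => D x i) b) :
    ContDiffAt ℝ m (fun x => lr K (D x)) b :=
  contDiffAt_psq hm (contDiffAt_ll hD) (hsk.mono fun x hx => sy_ll hx) hb

theorem contDiffAt_li (hm : m ≠ 0) (hb : PD (ll K (D b)))
    (hsk : ∀ᶠ x in 𝓝 b, ∀ i u v, ⟪D x i u, v⟫_ℝ = -⟪u, D x i v⟫_ℝ)
    (hD : ∀ i, ContDiffAt ℝ m (fun x => D x i) b) :
    ContDiffAt ℝ m (fun x => li K (D x)) b :=
  contDiffAt_inverse (contDiffAt_lr hm hb hsk hD) (psq_pd hb)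

theorem contDiffAt_AX (hm : m ≠ 0) (hb : PD (ll K (D b)))
    (hsk : ∀ᶠ x in 𝓝 b, ∀ i u v, ⟪D x i u, v⟫_ℝ = -⟪u, D x i v⟫_ℝ)
    (hD : ∀ i, ContDiffAt ℝ m (fun x => D x i) b) :
    ContDiffAt ℝ m (fun x => τ.AX K (D x)) b := by
  have h1 := contDiffAt_lr hm hb hsk hD
  have h2 := contDiffAt_li hm hb hsk hD
  unfold Ten.AX Ten.ten Ten.gd Ten.dv
  refine ContDiffAt.add (ContDiffAt.sum fun i _ => ?_) ?_
  · exact contDiffAt_const.clm_comp ((h1.sub contDiffAt_const).clm_comp contDiffAt_const)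
  · refine ContDiffAt.clm_comp (ContDiffAt.sum fun i _ => ?_)
      (h2.clm_comp (ContDiffAt.sum fun i _ => ?_))
    · exact contDiffAt_const.clm_comp (hD i)
    · exact (hD i).clm_comp contDiffAt_const

end smooth

section compress

variable {K : Submodule ℝ V} {s : ℝ} {D : ι → V →L[ℝ] V} (τ : Ten ι V E)

/-- the transverse heavy space -/
def Ten.ZZ (K : Submodule ℝ V) (D : ι → V →L[ℝ] V) : Submodule ℝ E where
  carrier := {e | (∀ i, τ.pr i e ∈ Kᗮ) ∧ τ.dv D e = 0}
  add_mem' := fun h1 h2 => ⟨fun i => by rw [map_add]; exact Submodule.add_mem _ (h1.1 i) (h2.1 i),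
    by rw [map_add, h1.2, h2.2, add_zero]⟩
  zero_mem' := ⟨fun i => by rw [map_zero]; exact Submodule.zero_mem _, map_zero _⟩
  smul_mem' := fun c e h => ⟨fun i => by rw [map_smul]; exact Submodule.smul_mem _ c (h.1 i),
    by rw [map_smul, h.2, smul_zero]⟩

theorem Ten.mem_ZZ {e : E} : e ∈ τ.ZZ K D ↔ (∀ i, τ.pr i e ∈ Kᗮ) ∧ τ.dv D e = 0 := Iff.rfl

/-- compression of an operator to a submodule -/
noncomputable def cmp (Z : Submodule ℝ E) (T : E →L[ℝ] E) : Z →L[ℝ] Z :=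
  Z.orthogonalProjectionOnto.comp (T.comp Z.subtypeL)

theorem inner_cmp (Z : Submodule ℝ E) (T : E →L[ℝ] E) (z w : Z) :
    ⟪cmp Z T z, w⟫_ℝ = ⟪T z, (w : E)⟫_ℝ := by
  have h1 : cmp Z T z = Z.orthogonalProjectionOnto (T z) := rfl
  rw [h1, Submodule.inner_orthogonalProjectionOnto_eq_of_mem_right]

theorem cmp_sy {Z : Submodule ℝ E} {T : E →L[ℝ] E} (h : Sy T) : Sy (cmp Z T) := by
  intro z w
  rw [inner_cmp, real_inner_comm (cmp Z T w) z, inner_cmp, h]
  exact real_inner_comm _ _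

theorem contDiffAt_cmp {P : Type*} [NormedAddCommGroup P] [NormedSpace ℝ P] {m : WithTop ℕ∞}
    (Z : Submodule ℝ E) {T : P → E →L[ℝ] E} {b : P} (h : ContDiffAt ℝ m T b) :
    ContDiffAt ℝ m (fun x => cmp Z (T x)) b := by
  unfold cmp
  exact contDiffAt_const.clm_comp (h.clm_comp contDiffAt_const)

theorem Fam.cmp_pd (h : Fam K s D) (hs : 0 < s) : PD (cmp (τ.ZZ K D) (τ.AX K D)) := by
  refine ⟨cmp_sy (h.AX_sy τ hs), fun z hz => ?_⟩
  rw [inner_cmp]
  have h1 := h.AX_low τ hs z.2.1 z.2.2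
  have h2 : 0 < ‖(z : E)‖ := by
    rw [norm_pos_iff]
    exact fun h0 => hz (Subtype.ext h0)
  have h3 : 0 < s * ‖(z : E)‖ ^ 2 := by positivity
  linarith

theorem Fam.cmp_low (h : Fam K s D) (hs : 0 < s) (z : τ.ZZ K D) :
    s * ‖z‖ ^ 2 ≤ ⟪cmp (τ.ZZ K D) (τ.AX K D) z, z⟫_ℝ := by
  rw [inner_cmp]
  exact h.AX_low τ hs z.2.1 z.2.2

end compress

end Crest.Agent.R330.AX984
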