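/-
helper811, row 330 (S0512), sections 9/10/11: the ABSTRACT limit argument g → ∞.

Everything that the analysis of sections 6-9 has to deliver is collected in the structure
`Lim` (asymptotic isometry of the trial operators, symmetry, CAPTURE, DUALITY) and, for the
lower bound on the number of zero modes, `LimLow` (algebra, graph core, weak = strong for the
limit system).  Conclusions:

* `Lim.dUp`   : k almost orthonormal vectors of vanishing energy along g_n → ∞ give k orthonormal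
                weak solutions of the limit system (hence z_N(g) ≤ dim ker^∞ for large g);
* `Lim.lsc`   : lower semicontinuity of the energy (weak limits of `Q α φ_n` exist, and their
                total norm is ≤ liminf of the energies);
* `LimLow.recovery`, `LimLow.dLow` : k orthonormal weak solutions of the limit system give, for all
                large g, k almost orthonormal core vectors of small energy.  No corrected trial
                functions (Born-Oppenheimer corrections) are needed: the recovery sequence is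
                the resolvent of the trial function.

No frozen definition is used.
-/
import Mathlib

set_option autoImplicit false

open Filter Topology
open scoped InnerProductSpace ComplexConjugate

namespace Crest.Agent.R330.AbsLow811

noncomputable section

/-! ### Data -/

section defs

variable {D E K : Type*} [AddCommGroup D] [Module ℂ D]
  [NormedAddCommGroup E] [InnerProductSpace ℂ E]
  [NormedAddCommGroup K] [InnerProductSpace ℂ K]
  {ι I : Type*} [Fintype ι]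

/-- the energy `∑_α ‖Q_α φ‖²` (16 times the form `q`), norms taken in `E` through `J` -/
def en (J : D →ₗ[ℂ] E) (Q : ι → D →ₗ[ℂ] D) (φ : D) : ℝ := ∑ α, ‖J (Q α φ)‖ ^ 2

theorem en_nonneg (J : D →ₗ[ℂ] E) (Q : ι → D →ₗ[ℂ] D) (φ : D) : 0 ≤ en J Q φ :=
  Finset.sum_nonneg fun _ _ => by positivity

theorem norm_sq_le_en (J : D →ₗ[ℂ] E) (Q : ι → D →ₗ[ℂ] D) (φ : D) (α : ι) :
    ‖J (Q α φ)‖ ^ 2 ≤ en J Q φ :=
  Finset.single_le_sum (f := fun α => ‖J (Q α φ)‖ ^ 2) (fun _ _ => by positivity)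
    (Finset.mem_univ α)

/-- strong capture: the sequence `φ_k ∈ D` (the `k`-th member living at the parameter `u k`)
converges to `f ∈ K` through the trial operators `T` -/
def Capt (J : D →ₗ[ℂ] E) {C : Submodule ℂ K} (T : I → C →ₗ[ℂ] D) (u : ℕ → I) (φ : ℕ → D)
    (f : K) : Prop :=
  ∀ ε : ℝ, 0 < ε → ∃ χ : C, ‖f - (χ : K)‖ < ε ∧ ∀ᶠ k in atTop, ‖J (φ k) - J (T (u k) χ)‖ < ε

end defs

/-- The data of the limit `g → ∞`.
`D` = core vectors, `J : D → L²` the inclusion, `Q g α` the sixteen charges at coupling `g`,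
`K` = the limit Hilbert space (sum over the channels), `C` = its core, `T g : C → D` the
(uncorrected) trial operators, `Qi α` the charges of the limit system,
`S` = the admissible vectors (everything, or the vectors supported in an annulus). -/
structure Lim (D E K ι I : Type*) [AddCommGroup D] [Module ℂ D]
    [NormedAddCommGroup E] [InnerProductSpace ℂ E]
    [NormedAddCommGroup K] [InnerProductSpace ℂ K] [Fintype ι] (l : Filter I) where
  /-- inclusion of the core in `L²` -/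
  J : D →ₗ[ℂ] E
  /-- the charges -/
  Q : I → ι → D →ₗ[ℂ] D
  /-- core of the limit space -/
  C : Submodule ℂ K
  /-- trial operators -/
  T : I → C →ₗ[ℂ] D
  /-- limit charges -/
  Qi : ι → C →ₗ[ℂ] C
  /-- admissible vectors -/
  S : Set D
  /-- the charges are symmetric on the core -/
  symm : ∀ g α φ ψ, ⟪J (Q g α φ), J ψ⟫_ℂ = ⟪J φ, J (Q g α ψ)⟫_ℂ
  /-- the trial operators are asymptotically isometric -/
  isom : ∀ χ χ' : C, Tendsto (fun g => ⟪J (T g χ), J (T g χ')⟫_ℂ) l (𝓝 ⟪(χ : K), (χ' : K)⟫_ℂ)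
  /-- CAPTURE -/
  cap : ∀ (u : ℕ → I), Tendsto u atTop l → ∀ (φ : ℕ → D) (B : ℝ), (∀ k, φ k ∈ S) →
    (∀ k, ‖J (φ k)‖ ≤ B) → (∀ k, en J (Q (u k)) (φ k) ≤ B) →
    ∃ js : ℕ → ℕ, StrictMono js ∧ ∃ f : K, Capt J T (u ∘ js) (φ ∘ js) f
  /-- DUALITY: `Q_α T χ = T Q^∞_α χ + (something invisible for vectors of bounded energy)` -/
  dual : ∀ (u : ℕ → I), Tendsto u atTop l → ∀ (φ : ℕ → D) (B : ℝ), (∀ k, φ k ∈ S) →
    (∀ k, ‖J (φ k)‖ ≤ B) → (∀ k, en J (Q (u k)) (φ k) ≤ B) → ∀ (χ : C) (α : ι),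
    Tendsto (fun k => ⟪J (φ k), J (Q (u k) α (T (u k) χ)) - J (T (u k) (Qi α χ))⟫_ℂ) atTop (𝓝 0)

namespace Lim

variable {D E K ι I : Type*} [AddCommGroup D] [Module ℂ D]
  [NormedAddCommGroup E] [InnerProductSpace ℂ E]
  [NormedAddCommGroup K] [InnerProductSpace ℂ K] [Fintype ι] {l : Filter I}
  (L : Lim D E K ι I l)

/-! ### Calculus of captured sequences -/

theorem norm_T (χ : L.C) : Tendsto (fun g => ‖L.J (L.T g χ)‖) l (𝓝 ‖(χ : K)‖) := by
  have h := L.isom χ χ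
  have h1 : Tendsto (fun g => Real.sqrt (‖⟪L.J (L.T g χ), L.J (L.T g χ)⟫_ℂ‖)) l
      (𝓝 (Real.sqrt ‖⟪(χ : K), (χ : K)⟫_ℂ‖)) :=
    (Real.continuous_sqrt.tendsto _).comp h.norm
  have e1 : ∀ g, Real.sqrt (‖⟪L.J (L.T g χ), L.J (L.T g χ)⟫_ℂ‖) = ‖L.J (L.T g χ)‖ := by
    intro g
    rw [inner_self_eq_norm_sq_to_K]
    simp
  have e2 : Real.sqrt ‖⟪(χ : K), (χ : K)⟫_ℂ‖ = ‖(χ : K)‖ := by
    rw [inner_self_eq_norm_sq_to_K]
    simp
  simpa [e1, e2] using h1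

variable {L}

theorem Capt.comp {u : ℕ → I} {φ : ℕ → D} {f : K} (h : Capt L.J L.T u φ f) {js : ℕ → ℕ}
    (hj : StrictMono js) : Capt L.J L.T (u ∘ js) (φ ∘ js) f := by
  intro ε hε
  obtain ⟨χ, h1, h2⟩ := h ε hε
  exact ⟨χ, h1, hj.tendsto_atTop.eventually h2⟩

theorem Capt.congr {u : ℕ → I} {φ ψ : ℕ → D} {f : K} (h : Capt L.J L.T u φ f)
    (hd : Tendsto (fun k => ‖L.J (φ k) - L.J (ψ k)‖) atTop (𝓝 0)) :
    Capt L.J L.T u ψ f := by
  intro ε hε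
  obtain ⟨χ, h1, h2⟩ := h (ε / 2) (by positivity)
  refine ⟨χ, h1.trans (by linarith), ?_⟩
  filter_upwards [h2, hd.eventually (gt_mem_nhds (show (0 : ℝ) < ε / 2 by positivity))]
    with k hk1 hk2
  calc ‖L.J (ψ k) - L.J (L.T (u k) χ)‖
      = ‖(L.J (φ k) - L.J (L.T (u k) χ)) - (L.J (φ k) - L.J (ψ k))‖ := by congr 1; abel
    _ ≤ ‖L.J (φ k) - L.J (L.T (u k) χ)‖ + ‖L.J (φ k) - L.J (ψ k)‖ := norm_sub_le _ _
    _ < ε := by linarith

theorem capt_T {u : ℕ → I} (χ : L.C) : Capt L.J L.T u (fun k => L.T (u k) χ) (χ : K) := by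
  intro ε hε
  exact ⟨χ, by simpa using hε, Eventually.of_forall fun k => by simpa using hε⟩

theorem Capt.sub {u : ℕ → I} {φ ψ : ℕ → D} {f g : K} (h : Capt L.J L.T u φ f)
    (h' : Capt L.J L.T u ψ g) : Capt L.J L.T u (fun k => φ k - ψ k) (f - g) := by
  intro ε hε
  obtain ⟨χ, h1, h2⟩ := h (ε / 2) (by positivity)
  obtain ⟨χ', h1', h2'⟩ := h' (ε / 2) (by positivity)
  refine ⟨χ - χ', ?_, ?_⟩
  · calc ‖f - g - ((χ - χ' : L.C) : K)‖ = ‖(f - χ) - (g - χ')‖ := by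
          congr 1; push_cast; abel
      _ ≤ ‖f - χ‖ + ‖g - χ'‖ := norm_sub_le _ _
      _ < ε := by linarith
  · filter_upwards [h2, h2'] with k hk hk'
    calc ‖L.J (φ k - ψ k) - L.J (L.T (u k) (χ - χ'))‖
        = ‖(L.J (φ k) - L.J (L.T (u k) χ)) - (L.J (ψ k) - L.J (L.T (u k) χ'))‖ := by
          congr 1; simp only [map_sub]; abel
      _ ≤ _ := norm_sub_le _ _
      _ < ε := by linarith

theorem Capt.norm {u : ℕ → I} (hu : Tendsto u atTop l) {φ : ℕ → D} {f : K}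
    (h : Capt L.J L.T u φ f) : Tendsto (fun k => ‖L.J (φ k)‖) atTop (𝓝 ‖f‖) := by
  rw [Metric.tendsto_atTop]
  intro ε hε
  obtain ⟨χ, h1, h2⟩ := h (ε / 3) (by positivity)
  have h3 := ((L.norm_T χ).comp hu)
  rw [Metric.tendsto_atTop] at h3
  obtain ⟨n3, h3⟩ := h3 (ε / 3) (by positivity)
  obtain ⟨n2, h2⟩ := eventually_atTop.1 h2
  refine ⟨max n2 n3, fun n hn => ?_⟩
  have a1 := h2 n (le_trans (le_max_left _ _) hn)
  have a2 := h3 n (le_trans (le_max_right _ _) hn)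
  rw [Real.dist_eq] at a2 ⊢
  have b1 : |‖L.J (φ n)‖ - ‖L.J (L.T (u n) χ)‖| ≤ ‖L.J (φ n) - L.J (L.T (u n) χ)‖ :=
    abs_norm_sub_norm_le _ _
  have b2 : |‖f‖ - ‖(χ : K)‖| ≤ ‖f - (χ : K)‖ := abs_norm_sub_norm_le _ _
  simp only [Function.comp_apply] at a2
  rw [abs_lt] at a2 ⊢
  rw [abs_le] at b1 b2
  constructor <;> linarith [b1.1, b1.2, b2.1, b2.2, a2.1, a2.2]

theorem Capt.inner {u : ℕ → I} (hu : Tendsto u atTop l) {φ ψ : ℕ → D} {f g : K}
    (h : Capt L.J L.T u φ f) (h' : Capt L.J L.T u ψ g) :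
    Tendsto (fun k => ⟪L.J (φ k), L.J (ψ k)⟫_ℂ) atTop (𝓝 ⟪f, g⟫_ℂ) := by
  rw [Metric.tendsto_atTop]
  intro ε hε
  -- bounds
  have hφ := Capt.norm hu h
  have hψ := Capt.norm hu h'
  set M : ℝ := ‖f‖ + ‖g‖ + 1 with hM
  have hM0 : 0 < M := by positivity
  set δ : ℝ := min (ε / (4 * M + 1)) 1 with hδ
  have hδ0 : 0 < δ := by positivity
  have hδ1 : δ ≤ 1 := min_le_right _ _
  have hδε : δ * (4 * M + 1) ≤ ε := by
    have : δ ≤ ε / (4 * M + 1) := min_le_left _ _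
    rwa [le_div_iff₀ (by positivity)] at this
  obtain ⟨χ, h1, h2⟩ := h δ hδ0
  obtain ⟨χ', h1', h2'⟩ := h' δ hδ0
  have h3 := ((L.isom χ χ').comp hu)
  have e3 : ∀ᶠ k in atTop, ‖⟪L.J (L.T (u k) χ), L.J (L.T (u k) χ')⟫_ℂ - ⟪(χ : K), (χ' : K)⟫_ℂ‖ < δ := by
    have := h3.eventually (Metric.ball_mem_nhds _ hδ0)
    filter_upwards [this] with k hk
    simpa [dist_eq_norm] using hk
  have e4 : ∀ᶠ k in atTop, ‖L.J (ψ k)‖ < M := hψ.eventually (gt_mem_nhds (by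
    rw [hM]; linarith [norm_nonneg f, norm_nonneg g]))
  have e5 : ∀ᶠ k in atTop, ‖L.J (L.T (u k) χ)‖ < M + δ := by
    refine ((L.norm_T χ).comp hu).eventually (gt_mem_nhds ?_)
    have : ‖(χ : K)‖ ≤ ‖f‖ + ‖f - (χ : K)‖ := by
      calc ‖(χ : K)‖ = ‖f - (f - (χ : K))‖ := by congr 1; abel
        _ ≤ _ := norm_sub_le _ _
    rw [hM]; linarith [norm_nonneg g]
  obtain ⟨n, hn⟩ := eventually_atTop.1 (h2.and (h2'.and (e3.and (e4.and e5))))
  refine ⟨n, fun k hk => ?_⟩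
  obtain ⟨a1, a2, a3, a4, a5⟩ := hn k hk
  rw [dist_eq_norm]
  have i1 : ⟪L.J (φ k), L.J (ψ k)⟫_ℂ - ⟪f, g⟫_ℂ
      = ⟪L.J (φ k) - L.J (L.T (u k) χ), L.J (ψ k)⟫_ℂ
        + ⟪L.J (L.T (u k) χ), L.J (ψ k) - L.J (L.T (u k) χ')⟫_ℂ
        + (⟪L.J (L.T (u k) χ), L.J (L.T (u k) χ')⟫_ℂ - ⟪(χ : K), (χ' : K)⟫_ℂ)
        - (⟪f - (χ : K), g⟫_ℂ + ⟪(χ : K), g - (χ' : K)⟫_ℂ) := by
    simp only [inner_sub_left, inner_sub_right]; ring
  have c1 : ‖⟪L.J (φ k) - L.J (L.T (u k) χ), L.J (ψ k)⟫_ℂ‖ ≤ δ * M :=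
    (norm_inner_le_norm _ _).trans (mul_le_mul a1.le a4.le (norm_nonneg _) hδ0.le)
  have c2 : ‖⟪L.J (L.T (u k) χ), L.J (ψ k) - L.J (L.T (u k) χ')⟫_ℂ‖ ≤ (M + δ) * δ :=
    (norm_inner_le_norm _ _).trans (mul_le_mul a5.le a2.le (norm_nonneg _) (by positivity))
  have c3 : ‖⟪f - (χ : K), g⟫_ℂ‖ ≤ δ * (M - 1) := by
    refine (norm_inner_le_norm _ _).trans (mul_le_mul h1.le ?_ (norm_nonneg _) hδ0.le)
    rw [hM]; linarith [norm_nonneg f]
  have c4 : ‖⟪(χ : K), g - (χ' : K)⟫_ℂ‖ ≤ (M - 1 + δ) * δ := by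
    refine (norm_inner_le_norm _ _).trans (mul_le_mul ?_ h1'.le (norm_nonneg _) ?_)
    · have : ‖(χ : K)‖ ≤ ‖f‖ + ‖f - (χ : K)‖ := by
        calc ‖(χ : K)‖ = ‖f - (f - (χ : K))‖ := by congr 1; abel
          _ ≤ _ := norm_sub_le _ _
      rw [hM]; linarith [norm_nonneg g]
    · rw [hM]; linarith [norm_nonneg f, norm_nonneg g, hδ0.le]
  rw [i1]
  calc ‖⟪L.J (φ k) - L.J (L.T (u k) χ), L.J (ψ k)⟫_ℂ
        + ⟪L.J (L.T (u k) χ), L.J (ψ k) - L.J (L.T (u k) χ')⟫_ℂ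
        + (⟪L.J (L.T (u k) χ), L.J (L.T (u k) χ')⟫_ℂ - ⟪(χ : K), (χ' : K)⟫_ℂ)
        - (⟪f - (χ : K), g⟫_ℂ + ⟪(χ : K), g - (χ' : K)⟫_ℂ)‖
      ≤ ((‖⟪L.J (φ k) - L.J (L.T (u k) χ), L.J (ψ k)⟫_ℂ‖
        + ‖⟪L.J (L.T (u k) χ), L.J (ψ k) - L.J (L.T (u k) χ')⟫_ℂ‖)
        + ‖⟪L.J (L.T (u k) χ), L.J (L.T (u k) χ')⟫_ℂ - ⟪(χ : K), (χ' : K)⟫_ℂ‖)
        + (‖⟪f - (χ : K), g⟫_ℂ‖ + ‖⟪(χ : K), g - (χ' : K)⟫_ℂ‖) := by
          refine (norm_sub_le _ _).trans (add_le_add ?_ (norm_add_le _ _))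
          refine (norm_add_le _ _).trans (add_le_add (norm_add_le _ _) le_rfl)
    _ < ((δ * M + (M + δ) * δ) + δ) + (δ * (M - 1) + (M - 1 + δ) * δ) := by linarith
    _ ≤ δ * (4 * M + 1) := by nlinarith [mul_le_mul_of_nonneg_left hδ1 hδ0.le]
    _ ≤ ε := hδε


/-! ### First consequences of duality -/

/-- `⟪Q_α φ_k, T χ⟫ → ⟪f, Q^∞_α χ⟫` for a captured sequence of bounded energy. -/
theorem dual_lim {u : ℕ → I} (hu : Tendsto u atTop l) {φ : ℕ → D} {f : K} {B : ℝ}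
    (hS : ∀ k, φ k ∈ L.S) (hB : ∀ k, ‖L.J (φ k)‖ ≤ B) (hE : ∀ k, en L.J (L.Q (u k)) (φ k) ≤ B)
    (h : Capt L.J L.T u φ f) (χ : L.C) (α : ι) :
    Tendsto (fun k => ⟪L.J (L.Q (u k) α (φ k)), L.J (L.T (u k) χ)⟫_ℂ) atTop
      (𝓝 ⟪f, (L.Qi α χ : K)⟫_ℂ) := by
  have h1 := L.dual u hu φ B hS hB hE χ α
  have h2 := Capt.inner hu h (capt_T (L := L) (u := u) (L.Qi α χ))
  have h3 := h1.add h2
  rw [zero_add] at h3
  refine h3.congr fun k => ?_
  rw [L.symm, inner_sub_right]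
  ring

/-- common subsequence for finitely many sequences -/
theorem cap_fin {κ : Type*} [Finite κ] {u : ℕ → I} (hu : Tendsto u atTop l)
    (φ : κ → ℕ → D) (B : ℝ) (hS : ∀ a k, φ a k ∈ L.S) (hB : ∀ a k, ‖L.J (φ a k)‖ ≤ B)
    (hE : ∀ a k, en L.J (L.Q (u k)) (φ a k) ≤ B) :
    ∃ js : ℕ → ℕ, StrictMono js ∧ ∃ f : κ → K, ∀ a, Capt L.J L.T (u ∘ js) (φ a ∘ js) (f a) := by
  classical
  cases nonempty_fintype κ
  have main : ∀ s : Finset κ, ∃ js : ℕ → ℕ, StrictMono js ∧ ∃ f : κ → K,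
      ∀ a ∈ s, Capt L.J L.T (u ∘ js) (φ a ∘ js) (f a) := by
    intro s
    induction s using Finset.induction_on with
    | empty => exact ⟨id, strictMono_id, fun _ => 0, fun a ha => by simp at ha⟩
    | insert a s ha ih =>
      obtain ⟨js, hjs, f, hf⟩ := ih
      obtain ⟨js', hjs', g, hg⟩ := L.cap (u ∘ js) (hu.comp hjs.tendsto_atTop) (φ a ∘ js) B
        (fun k => hS a _) (fun k => hB a _) (fun k => hE a _)
      refine ⟨js ∘ js', hjs.comp hjs', Function.update f a g, fun b hb => ?_⟩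
      by_cases hba : b = a
      · subst hba
        simpa [Function.comp_assoc] using hg
      · rw [Function.update_of_ne hba]
        have hb' : b ∈ s := by
          rcases Finset.mem_insert.1 hb with h | h
          · exact absurd h hba
          · exact h
        have := Capt.comp (hf b hb') hjs'
        simpa [Function.comp_assoc] using this
  obtain ⟨js, hjs, f, hf⟩ := main Finset.univ
  exact ⟨js, hjs, f, fun a => hf a (Finset.mem_univ a)⟩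

/-- **D-up (abstract)**: `k` almost orthonormal admissible vectors whose energies go to zero
along a sequence `u → l` give `k` orthonormal weak solutions of the limit system. -/
theorem dUp {κ : Type*} [Finite κ] [DecidableEq κ] {u : ℕ → I} (hu : Tendsto u atTop l)
    (φ : κ → ℕ → D) (hS : ∀ a k, φ a k ∈ L.S)
    (hG : ∀ a b, Tendsto (fun k => ⟪L.J (φ a k), L.J (φ b k)⟫_ℂ) atTop
      (𝓝 (if a = b then 1 else 0)))
    (hE : ∀ a, Tendsto (fun k => en L.J (L.Q (u k)) (φ a k)) atTop (𝓝 0)) :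
    ∃ f : κ → K, Orthonormal ℂ f ∧ ∀ a α (χ : L.C), ⟪f a, (L.Qi α χ : K)⟫_ℂ = 0 := by
  classical
  cases nonempty_fintype κ
  -- eventually bounded, hence bounded after a shift
  have hN : ∀ᶠ k in atTop, ∀ a, ‖L.J (φ a k)‖ ≤ 2 ∧ en L.J (L.Q (u k)) (φ a k) ≤ 2 := by
    rw [eventually_all]
    intro a
    have h1 : Tendsto (fun k => ‖⟪L.J (φ a k), L.J (φ a k)⟫_ℂ‖) atTop (𝓝 1) := by
      simpa using (hG a a).norm
    filter_upwards [h1.eventually (gt_mem_nhds (show (1 : ℝ) < 4 by norm_num)),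
      (hE a).eventually (gt_mem_nhds (show (0 : ℝ) < 2 by norm_num))] with k hk hk'
    refine ⟨?_, hk'.le⟩
    have e : ‖⟪L.J (φ a k), L.J (φ a k)⟫_ℂ‖ = ‖L.J (φ a k)‖ ^ 2 := by
      rw [inner_self_eq_norm_sq_to_K]; simp
    rw [e] at hk
    nlinarith [norm_nonneg (L.J (φ a k))]
  obtain ⟨n, hn⟩ := eventually_atTop.1 hN
  have hsh : StrictMono (fun k : ℕ => k + n) := fun a b h => by simpa using h
  have hu' : Tendsto (u ∘ fun k => k + n) atTop l := hu.comp hsh.tendsto_atTop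
  obtain ⟨js, hjs, f, hf⟩ := cap_fin (L := L) hu' (fun a => φ a ∘ fun k => k + n) 2
    (fun a k => hS a _) (fun a k => (hn _ (Nat.le_add_left _ _) a).1) (fun a k => (hn _ (Nat.le_add_left _ _) a).2)
  have hu'' : Tendsto ((u ∘ fun k => k + n) ∘ js) atTop l := hu'.comp hjs.tendsto_atTop
  refine ⟨f, ?_, ?_⟩
  · rw [orthonormal_iff_ite]
    intro a b
    have h1 := Capt.inner hu'' (hf a) (hf b)
    have h2 := ((hG a b).comp hsh.tendsto_atTop).comp hjs.tendsto_atTop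
    exact tendsto_nhds_unique h1 h2
  · intro a α χ
    have h1 := dual_lim (L := L) hu'' (φ := (φ a ∘ fun k => k + n) ∘ js) (B := 2)
      (fun k => hS a _) (fun k => (hn _ (Nat.le_add_left _ _) a).1) (fun k => (hn _ (Nat.le_add_left _ _) a).2)
      (hf a) χ α
    refine tendsto_nhds_unique h1 ?_
    have h2 : Tendsto (fun k => en L.J (L.Q (((u ∘ fun k => k + n) ∘ js) k))
        (((φ a ∘ fun k => k + n) ∘ js) k)) atTop (𝓝 0) :=
      ((hE a).comp hsh.tendsto_atTop).comp hjs.tendsto_atTop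
    have h3 := (L.norm_T χ).comp hu''
    have h4 : Tendsto (fun k => Real.sqrt (en L.J (L.Q (((u ∘ fun k => k + n) ∘ js) k))
        (((φ a ∘ fun k => k + n) ∘ js) k)) * ‖L.J (L.T (((u ∘ fun k => k + n) ∘ js) k) χ)‖)
        atTop (𝓝 0) := by
      have := (Real.continuous_sqrt.tendsto 0).comp h2
      simpa using this.mul h3
    rw [tendsto_zero_iff_norm_tendsto_zero]
    refine squeeze_zero (fun _ => norm_nonneg _) (fun k => ?_) h4
    refine (norm_inner_le_norm _ _).trans (mul_le_mul_of_nonneg_right ?_ (norm_nonneg _))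
    exact Real.le_sqrt_of_sq_le (norm_sq_le_en _ _ _ _)

/-- **LSC (abstract)**, finite form: for a captured sequence of admissible vectors of bounded
energy and finitely many test vectors `χ_α`:
`‖∑_α ⟪f, Q^∞_α χ_α⟫‖² ≤ (∑_α ‖χ_α‖²) · e` for every asymptotic upper bound `e` of the energies
(taken along any subsequence). -/
theorem lsc {u : ℕ → I} (hu : Tendsto u atTop l) {φ : ℕ → D} {f : K} {B : ℝ}
    (hS : ∀ k, φ k ∈ L.S) (hB : ∀ k, ‖L.J (φ k)‖ ≤ B) (hE : ∀ k, en L.J (L.Q (u k)) (φ k) ≤ B)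
    (h : Capt L.J L.T u φ f) {e : ℝ} (he : ∃ᶠ k in atTop, en L.J (L.Q (u k)) (φ k) ≤ e)
    (χ : ι → L.C) :
    ‖∑ α, ⟪f, (L.Qi α (χ α) : K)⟫_ℂ‖ ^ 2 ≤ e * ∑ α, ‖(χ α : K)‖ ^ 2 := by
  have h1 : Tendsto (fun k => ‖∑ α, ⟪L.J (L.Q (u k) α (φ k)), L.J (L.T (u k) (χ α))⟫_ℂ‖ ^ 2)
      atTop (𝓝 (‖∑ α, ⟪f, (L.Qi α (χ α) : K)⟫_ℂ‖ ^ 2)) :=
    ((tendsto_finsetSum _ fun α _ => dual_lim hu hS hB hE h (χ α) α).norm).pow 2
  have h2 : Tendsto (fun k => e * ∑ α, ‖L.J (L.T (u k) (χ α))‖ ^ 2) atTop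
      (𝓝 (e * ∑ α, ‖(χ α : K)‖ ^ 2)) :=
    tendsto_const_nhds.mul (tendsto_finsetSum _ fun α _ => ((L.norm_T (χ α)).comp hu).pow 2)
  have h3 : ∃ᶠ k in atTop, ‖∑ α, ⟪L.J (L.Q (u k) α (φ k)), L.J (L.T (u k) (χ α))⟫_ℂ‖ ^ 2
      ≤ e * ∑ α, ‖L.J (L.T (u k) (χ α))‖ ^ 2 := by
    refine he.mono fun k hk => ?_
    have a1 : ‖∑ α, ⟪L.J (L.Q (u k) α (φ k)), L.J (L.T (u k) (χ α))⟫_ℂ‖
        ≤ ∑ α, ‖L.J (L.Q (u k) α (φ k))‖ * ‖L.J (L.T (u k) (χ α))‖ :=
      (norm_sum_le _ _).trans (Finset.sum_le_sum fun α _ => norm_inner_le_norm _ _)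
    have a2 : (∑ α, ‖L.J (L.Q (u k) α (φ k))‖ * ‖L.J (L.T (u k) (χ α))‖) ^ 2
        ≤ (∑ α, ‖L.J (L.Q (u k) α (φ k))‖ ^ 2) * ∑ α, ‖L.J (L.T (u k) (χ α))‖ ^ 2 :=
      Finset.sum_mul_sq_le_sq_mul_sq _ _ _
    calc _ ≤ (∑ α, ‖L.J (L.Q (u k) α (φ k))‖ * ‖L.J (L.T (u k) (χ α))‖) ^ 2 :=
          pow_le_pow_left₀ (norm_nonneg _) a1 2
      _ ≤ _ := a2
      _ ≤ _ := mul_le_mul_of_nonneg_right hk (Finset.sum_nonneg fun _ _ => by positivity)
  by_contra hcon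
  rw [not_le] at hcon
  exact h3 ((h2.eventually_lt h1 hcon).mono fun k hk => not_le.2 hk)

end Lim

/-! ### The lower bound on the number of zero modes -/

/-- Additional data for D-low. `H` = the Hamiltonian on the core, `c` = the number of charges
(sixteen). -/
structure LimLow (D E K ι I : Type*) [AddCommGroup D] [Module ℂ D]
    [NormedAddCommGroup E] [InnerProductSpace ℂ E]
    [NormedAddCommGroup K] [InnerProductSpace ℂ K] [Fintype ι] (l : Filter I) extends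
    Lim D E K ι I l where
  /-- every core vector is admissible -/
  S_univ : S = Set.univ
  /-- the Hamiltonian on the core -/
  H : I → D →ₗ[ℂ] D
  /-- `∑ Q_α² = c H` -/
  c : ℝ
  c_pos : 0 < c
  algebra : ∀ g φ, ∑ α, Q g α (Q g α φ) = (c : ℂ) • H g φ
  /-- a constant -/
  κ : ℝ
  κ_nonneg : 0 ≤ κ
  /-- the commutator bound `∑_α q(Q_α φ) ≤ κ (‖H φ‖² + q(φ))` -/
  comm : ∀ g φ α, en J (Q g) (Q g α φ) ≤ κ * (‖J (H g φ)‖ ^ 2 + en J (Q g) φ)
  /-- graph core / essential self-adjointness: `1 + H` has dense range on the core -/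
  graph : ∀ g (f : D) (η : ℝ), 0 < η → ∃ w : D, ‖J w + J (H g w) - J f‖ < η
  /-- weak = strong for the limit system -/
  weakStrong : ∀ (w : K) (p : ι → K), (∀ α (χ : C), ⟪p α, (χ : K)⟫_ℂ = ⟪w, (Qi α χ : K)⟫_ℂ) →
    ∀ ε : ℝ, 0 < ε → ∃ χ : C, ‖(χ : K) - w‖ < ε ∧ ∀ α, ‖(Qi α χ : K) - p α‖ < ε

namespace LimLow

variable {D E K ι I : Type*} [AddCommGroup D] [Module ℂ D]
  [NormedAddCommGroup E] [InnerProductSpace ℂ E]
  [NormedAddCommGroup K] [InnerProductSpace ℂ K] [Fintype ι] {l : Filter I}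
  (L : LimLow D E K ι I l)

/-- `en φ = c ⟪φ, H φ⟫` -/
theorem en_eq (g : I) (φ : D) : (en L.J (L.Q g) φ : ℂ) = L.c * ⟪L.J φ, L.J (L.H g φ)⟫_ℂ := by
  have h1 : ⟪L.J φ, L.J (∑ α, L.Q g α (L.Q g α φ))⟫_ℂ = L.c * ⟪L.J φ, L.J (L.H g φ)⟫_ℂ := by
    rw [L.algebra, map_smul, inner_smul_right]
  rw [← h1, map_sum, inner_sum, en]
  push_cast
  refine Finset.sum_congr rfl fun α _ => ?_
  rw [← L.symm, inner_self_eq_norm_sq_to_K]
  rfl

/-- `⟪H φ, ψ⟫ = c⁻¹ ∑ ⟪Q_α φ, Q_α ψ⟫` -/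
theorem inner_H (g : I) (φ ψ : D) :
    (L.c : ℂ) * ⟪L.J (L.H g φ), L.J ψ⟫_ℂ = ∑ α, ⟪L.J (L.Q g α φ), L.J (L.Q g α ψ)⟫_ℂ := by
  have h1 : ⟪L.J (∑ α, L.Q g α (L.Q g α φ)), L.J ψ⟫_ℂ = L.c * ⟪L.J (L.H g φ), L.J ψ⟫_ℂ := by
    rw [L.algebra, map_smul, inner_smul_left]
    simp
  rw [← h1, map_sum, sum_inner]
  exact Finset.sum_congr rfl fun α _ => L.symm g α _ _

/-- **Recovery (abstract)**, sequence form. For `χ` in the limit core and `u → l` there is, after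
passing to a subsequence, a sequence of core vectors `w_k` which is captured by some `w ∈ K` with
`‖χ - w‖² ≤ c⁻¹ ∑ ‖Q^∞_α χ‖²` and whose energies converge to a number `≤ ∑ ‖Q^∞_α χ‖²`. -/
theorem recovery_seq (χ : L.C) {u : ℕ → I} (hu : Tendsto u atTop l) :
    ∃ js : ℕ → ℕ, StrictMono js ∧ ∃ (w : ℕ → D) (f : K) (e : ℝ),
      Capt L.J L.T (u ∘ js) w f ∧
      ‖(χ : K) - f‖ ^ 2 ≤ L.c⁻¹ * ∑ α, ‖(L.Qi α χ : K)‖ ^ 2 ∧
      Tendsto (fun k => en L.J (L.Q ((u ∘ js) k)) (w k)) atTop (𝓝 e) ∧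
      e ≤ ∑ α, ‖(L.Qi α χ : K)‖ ^ 2 := by
  classical
  have hc := L.c_pos
  -- approximate resolvent vectors
  choose w hw using fun k : ℕ => L.graph (u k) (L.T (u k) χ) (1 / (k + 1)) (by positivity)
  -- a bound for the trial vectors
  have hTn : Tendsto (fun k => ‖L.J (L.T (u k) χ)‖) atTop (𝓝 ‖(χ : K)‖) :=
    (L.toLim.norm_T χ).comp hu
  obtain ⟨A, hA⟩ : ∃ A : ℝ, ∀ k, ‖L.J (L.T (u k) χ)‖ ≤ A := by
    obtain ⟨A, hA⟩ := hTn.bddAbove_range
    exact ⟨A, fun k => hA ⟨k, rfl⟩⟩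
  have hA0 : 0 ≤ A := (norm_nonneg _).trans (hA 0)
  have hr : ∀ k, ‖L.J (w k) + L.J (L.H (u k) (w k)) - L.J (L.T (u k) χ)‖ ≤ 1 := fun k =>
    (hw k).le.trans (by
      rw [div_le_one (by positivity)]; linarith [show (0 : ℝ) ≤ k from by positivity])
  -- ⟪w, H w⟫ = en / c ≥ 0
  have hpos : ∀ k, ⟪L.J (w k), L.J (L.H (u k) (w k))⟫_ℂ
      = ((en L.J (L.Q (u k)) (w k) / L.c : ℝ) : ℂ) := by
    intro k
    have := L.en_eq (u k) (w k)
    have hc' : (L.c : ℂ) ≠ 0 := by exact_mod_cast hc.ne'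
    push_cast
    rw [this, mul_div_cancel_left₀ _ hc']
  -- bound for w
  have hwn : ∀ k, ‖L.J (w k)‖ ≤ A + 1 := by
    intro k
    have h1 : ‖L.J (w k)‖ ^ 2 + en L.J (L.Q (u k)) (w k) / L.c
        = (⟪L.J (w k), L.J (w k) + L.J (L.H (u k) (w k))⟫_ℂ).re := by
      rw [inner_add_right, hpos, inner_self_eq_norm_sq_to_K, Complex.add_re, Complex.ofReal_re]
      congr 1
      norm_cast
    have h2 : ‖L.J (w k) + L.J (L.H (u k) (w k))‖ ≤ A + 1 := by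
      calc _ = ‖(L.J (w k) + L.J (L.H (u k) (w k)) - L.J (L.T (u k) χ)) + L.J (L.T (u k) χ)‖ := by
            congr 1; abel
        _ ≤ _ := norm_add_le _ _
        _ ≤ A + 1 := by linarith [hr k, hA k]
    have h3 : (⟪L.J (w k), L.J (w k) + L.J (L.H (u k) (w k))⟫_ℂ).re
        ≤ ‖L.J (w k)‖ * (A + 1) :=
      (Complex.re_le_norm _).trans ((norm_inner_le_norm _ _).trans
        (mul_le_mul_of_nonneg_left h2 (norm_nonneg _)))
    have h4 : 0 ≤ en L.J (L.Q (u k)) (w k) / L.c := div_nonneg (en_nonneg _ _ _) hc.le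
    have h5 : ‖L.J (w k)‖ ^ 2 ≤ ‖L.J (w k)‖ * (A + 1) := by linarith
    rcases (norm_nonneg (L.J (w k))).eq_or_lt with h0 | h0
    · rw [← h0]; linarith
    · have : ‖L.J (w k)‖ * ‖L.J (w k)‖ ≤ ‖L.J (w k)‖ * (A + 1) := by rwa [← sq]
      exact le_of_mul_le_mul_left this h0
  have hHn : ∀ k, ‖L.J (L.H (u k) (w k))‖ ≤ 2 * (A + 1) := by
    intro k
    calc ‖L.J (L.H (u k) (w k))‖
        = ‖(L.J (w k) + L.J (L.H (u k) (w k)) - L.J (L.T (u k) χ)) + L.J (L.T (u k) χ)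
            - L.J (w k)‖ := by congr 1; abel
      _ ≤ ‖(L.J (w k) + L.J (L.H (u k) (w k)) - L.J (L.T (u k) χ)) + L.J (L.T (u k) χ)‖
            + ‖L.J (w k)‖ := norm_sub_le _ _
      _ ≤ (‖L.J (w k) + L.J (L.H (u k) (w k)) - L.J (L.T (u k) χ)‖ + ‖L.J (L.T (u k) χ)‖)
            + ‖L.J (w k)‖ := by gcongr; exact norm_add_le _ _
      _ ≤ 2 * (A + 1) := by linarith [hr k, hA k, hwn k]
  have hen : ∀ k, en L.J (L.Q (u k)) (w k) ≤ L.c * ((A + 1) * (2 * (A + 1))) := by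
    intro k
    have h1 : en L.J (L.Q (u k)) (w k) / L.c ≤ (A + 1) * (2 * (A + 1)) := by
      have h2 : ‖((en L.J (L.Q (u k)) (w k) / L.c : ℝ) : ℂ)‖ ≤ (A + 1) * (2 * (A + 1)) := by
        rw [← hpos]
        exact (norm_inner_le_norm _ _).trans
          (mul_le_mul (hwn k) (hHn k) (norm_nonneg _) (by linarith))
      rw [Complex.norm_real, Real.norm_eq_abs] at h2
      exact (le_abs_self _).trans h2
    rw [div_le_iff₀ hc] at h1
    linarith
  set E1 : ℝ := L.c * ((A + 1) * (2 * (A + 1))) with hE1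
  have hE10 : 0 ≤ E1 := by positivity
  have hpe : ∀ k α, en L.J (L.Q (u k)) (L.Q (u k) α (w k))
      ≤ L.κ * ((2 * (A + 1)) ^ 2 + E1) := by
    intro k α
    refine (L.comm (u k) (w k) α).trans (mul_le_mul_of_nonneg_left ?_ L.κ_nonneg)
    exact add_le_add (pow_le_pow_left₀ (norm_nonneg _) (hHn k) 2) (hen k)
  have hpn : ∀ k α, ‖L.J (L.Q (u k) α (w k))‖ ≤ 1 + E1 := by
    intro k α
    have h1 := (norm_sq_le_en L.J (L.Q (u k)) (w k) α).trans (hen k)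
    nlinarith [norm_nonneg (L.J (L.Q (u k) α (w k))), sq_nonneg (‖L.J (L.Q (u k) α (w k))‖ - 1)]
  -- capture `w` and all the `Q_α w`
  set B : ℝ := (A + 1) + E1 + L.κ * ((2 * (A + 1)) ^ 2 + E1) + 1 with hBdef
  have hκ0 : 0 ≤ L.κ * ((2 * (A + 1)) ^ 2 + E1) := mul_nonneg L.κ_nonneg (by positivity)
  have hSu : ∀ x : D, x ∈ L.S := fun x => by rw [L.S_univ]; trivial
  obtain ⟨js, hjs, F, hF⟩ := Lim.cap_fin (L := L.toLim) hu
    (fun (a : Option ι) k => a.elim (w k) (fun α => L.Q (u k) α (w k))) B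
    (fun a k => hSu _)
    (fun a k => by
      cases a with
      | none => simpa using (hwn k).trans (by linarith)
      | some α => simpa using (hpn k α).trans (by linarith))
    (fun a k => by
      cases a with
      | none => simpa using (hen k).trans (by linarith)
      | some α => simpa using (hpe k α).trans (by linarith))
  have hu' : Tendsto (u ∘ js) atTop l := hu.comp hjs.tendsto_atTop
  have hFw : Capt L.J L.T (u ∘ js) (w ∘ js) (F none) := hF none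
  have hFp : ∀ α, Capt L.J L.T (u ∘ js) (fun k => L.Q (u (js k)) α (w (js k))) (F (some α)) :=
    fun α => hF (some α)
  -- the weak equation for w
  have weq : ∀ α (χ' : L.C), ⟪F (some α), (χ' : K)⟫_ℂ = ⟪F none, (L.Qi α χ' : K)⟫_ℂ := by
    intro α χ'
    have h1 := Lim.Capt.inner hu' (hFp α) (Lim.capt_T (L := L.toLim) (u := u ∘ js) χ')
    have h2 := Lim.dual_lim (L := L.toLim) hu' (φ := w ∘ js) (B := B) (fun k => hSu _)
      (fun k => (hwn _).trans (by linarith)) (fun k => (hen _).trans (by linarith)) hFw χ' α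
    exact tendsto_nhds_unique h1 h2
  -- the resolvent residual tends to zero
  have hres : Tendsto (fun k => ‖(L.J (w (js k)) + L.J (L.H (u (js k)) (w (js k)))
      - L.J (L.T (u (js k)) χ))‖) atTop (𝓝 0) := by
    have h0 : Tendsto (fun k : ℕ => 1 / ((k : ℝ) + 1)) atTop (𝓝 0) :=
      tendsto_one_div_add_atTop_nhds_zero_nat
    exact squeeze_zero (fun _ => norm_nonneg _) (fun k => (hw (js k)).le)
      (h0.comp hjs.tendsto_atTop)
  -- H w is captured by χ - w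
  have hFH : Capt L.J L.T (u ∘ js) (fun k => L.H (u (js k)) (w (js k))) ((χ : K) - F none) := by
    have h1 := Lim.Capt.sub (Lim.capt_T (L := L.toLim) (u := u ∘ js) χ) hFw
    refine Lim.Capt.congr h1 ?_
    refine hres.congr fun k => ?_
    rw [← norm_neg]
    congr 1
    simp only [map_sub, Function.comp_apply]
    abel
  -- weak form of the limit resolvent equation
  have req : ∀ χ' : L.C, (L.c : ℂ) * ⟪(χ : K) - F none, (χ' : K)⟫_ℂ
      = ∑ α, ⟪F (some α), (L.Qi α χ' : K)⟫_ℂ := by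
    intro χ'
    have h1 : Tendsto (fun k => (L.c : ℂ) * ⟪L.J (L.H (u (js k)) (w (js k))),
        L.J (L.T (u (js k)) χ')⟫_ℂ) atTop (𝓝 ((L.c : ℂ) * ⟪(χ : K) - F none, (χ' : K)⟫_ℂ)) :=
      (Lim.Capt.inner hu' hFH (Lim.capt_T (L := L.toLim) (u := u ∘ js) χ')).const_mul _
    have h2 : Tendsto (fun k => ∑ α, ⟪L.J (L.Q (u (js k)) α (L.Q (u (js k)) α (w (js k)))),
        L.J (L.T (u (js k)) χ')⟫_ℂ) atTop (𝓝 (∑ α, ⟪F (some α), (L.Qi α χ' : K)⟫_ℂ)) :=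
      tendsto_finsetSum _ fun α _ =>
        Lim.dual_lim (L := L.toLim) hu' (φ := fun k => L.Q (u (js k)) α (w (js k))) (B := B)
          (fun k => hSu _) (fun k => (hpn _ α).trans (by linarith))
          (fun k => (hpe _ α).trans (by linarith)) (hFp α) χ' α
    refine tendsto_nhds_unique h1 (h2.congr fun k => ?_)
    rw [L.inner_H]
    exact Finset.sum_congr rfl fun α _ => L.symm _ _ _ _
  -- weak = strong
  obtain ⟨ζ, hζ⟩ : ∃ ζ : ℕ → L.C, ∀ k, ‖(ζ k : K) - F none‖ < 1 / (k + 1) ∧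
      ∀ α, ‖(L.Qi α (ζ k) : K) - F (some α)‖ < 1 / (k + 1) := by
    choose ζ h1 h2 using fun k : ℕ => L.weakStrong (F none) (fun α => F (some α)) weq
      (1 / (k + 1)) (by positivity)
    exact ⟨ζ, fun k => ⟨h1 k, h2 k⟩⟩
  have h0 : Tendsto (fun k : ℕ => 1 / ((k : ℝ) + 1)) atTop (𝓝 0) :=
    tendsto_one_div_add_atTop_nhds_zero_nat
  have hζ1 : Tendsto (fun k => (ζ k : K)) atTop (𝓝 (F none)) := by
    rw [tendsto_iff_norm_sub_tendsto_zero]
    exact squeeze_zero (fun _ => norm_nonneg _) (fun k => (hζ k).1.le) h0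
  have hζ2 : ∀ α, Tendsto (fun k => (L.Qi α (ζ k) : K)) atTop (𝓝 (F (some α))) := by
    intro α
    rw [tendsto_iff_norm_sub_tendsto_zero]
    exact squeeze_zero (fun _ => norm_nonneg _) (fun k => ((hζ k).2 α).le) h0
  -- energy identity of the limit
  have eid : (L.c : ℂ) * ⟪(χ : K) - F none, F none⟫_ℂ = ((∑ α, ‖F (some α)‖ ^ 2 : ℝ) : ℂ) := by
    have h1 : Tendsto (fun k => (L.c : ℂ) * ⟪(χ : K) - F none, (ζ k : K)⟫_ℂ) atTop
        (𝓝 ((L.c : ℂ) * ⟪(χ : K) - F none, F none⟫_ℂ)) :=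
      (tendsto_const_nhds.inner hζ1).const_mul _
    have h2 : Tendsto (fun k => ∑ α, ⟪F (some α), (L.Qi α (ζ k) : K)⟫_ℂ) atTop
        (𝓝 (∑ α, ⟪F (some α), F (some α)⟫_ℂ)) :=
      tendsto_finsetSum _ fun α _ => tendsto_const_nhds.inner (hζ2 α)
    have h3 := tendsto_nhds_unique (h1.congr fun k => req (ζ k)) h2
    rw [h3]
    push_cast
    exact Finset.sum_congr rfl fun α _ => inner_self_eq_norm_sq_to_K (𝕜 := ℂ) _
  refine ⟨js, hjs, w ∘ js, F none, ∑ α, ‖F (some α)‖ ^ 2, hFw, ?_, ?_, ?_⟩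
  · -- ‖χ - f‖² ≤ c⁻¹ ∑ ‖Qi χ‖²
    have h1 : L.c * ‖(χ : K) - F none‖ ^ 2
        = (∑ α, ⟪F (some α), (L.Qi α χ : K)⟫_ℂ).re - ∑ α, ‖F (some α)‖ ^ 2 := by
      have : ((L.c * ‖(χ : K) - F none‖ ^ 2 : ℝ) : ℂ)
          = (∑ α, ⟪F (some α), (L.Qi α χ : K)⟫_ℂ) - ((∑ α, ‖F (some α)‖ ^ 2 : ℝ) : ℂ) := by
        rw [← req χ, ← eid, ← mul_sub, ← inner_sub_right, inner_self_eq_norm_sq_to_K]
        push_cast
        rfl
      have h2 := congrArg Complex.re this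
      rwa [Complex.sub_re, Complex.ofReal_re, Complex.ofReal_re] at h2
    have h2 : (∑ α, ⟪F (some α), (L.Qi α χ : K)⟫_ℂ).re
        ≤ ∑ α, ‖F (some α)‖ * ‖(L.Qi α χ : K)‖ :=
      (Complex.re_le_norm _).trans ((norm_sum_le _ _).trans
        (Finset.sum_le_sum fun α _ => norm_inner_le_norm _ _))
    have h3 : ∑ α, ‖F (some α)‖ * ‖(L.Qi α χ : K)‖
        ≤ ∑ α, ‖F (some α)‖ ^ 2 + ∑ α, ‖(L.Qi α χ : K)‖ ^ 2 := by
      rw [← Finset.sum_add_distrib]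
      exact Finset.sum_le_sum fun α _ => by
        nlinarith [sq_nonneg (‖F (some α)‖ - ‖(L.Qi α χ : K)‖), sq_nonneg (‖F (some α)‖),
          sq_nonneg (‖(L.Qi α χ : K)‖)]
    rw [← div_eq_inv_mul, le_div_iff₀ hc]
    linarith
  · -- energies converge
    have h1 : Tendsto (fun k => (L.c : ℂ) * ⟪L.J (L.H (u (js k)) (w (js k))),
        L.J (w (js k))⟫_ℂ) atTop (𝓝 ((L.c : ℂ) * ⟪(χ : K) - F none, F none⟫_ℂ)) :=
      (Lim.Capt.inner hu' hFH hFw).const_mul _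
    rw [eid] at h1
    have h2 := (Complex.continuous_re.tendsto _).comp h1
    rw [Complex.ofReal_re] at h2
    refine h2.congr fun k => ?_
    have h3 : (L.c : ℂ) * ⟪L.J (L.H (u (js k)) (w (js k))), L.J (w (js k))⟫_ℂ
        = ((en L.J (L.Q (u (js k))) (w (js k)) : ℝ) : ℂ) := by
      rw [L.inner_H, en]
      push_cast
      exact Finset.sum_congr rfl fun α _ => inner_self_eq_norm_sq_to_K (𝕜 := ℂ) _
    simp only [Function.comp_apply]
    rw [h3, Complex.ofReal_re]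
  · -- e ≤ ∑ ‖Qi χ‖²
    have h1 : 0 ≤ (∑ α, ⟪F (some α), (L.Qi α χ : K)⟫_ℂ).re - ∑ α, ‖F (some α)‖ ^ 2 := by
      have : ((L.c * ‖(χ : K) - F none‖ ^ 2 : ℝ) : ℂ)
          = (∑ α, ⟪F (some α), (L.Qi α χ : K)⟫_ℂ) - ((∑ α, ‖F (some α)‖ ^ 2 : ℝ) : ℂ) := by
        rw [← req χ, ← eid, ← mul_sub, ← inner_sub_right, inner_self_eq_norm_sq_to_K]
        push_cast
        rfl
      have h2 := congrArg Complex.re this
      have h3 : L.c * ‖(χ : K) - F none‖ ^ 2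
        = (∑ α, ⟪F (some α), (L.Qi α χ : K)⟫_ℂ).re - ∑ α, ‖F (some α)‖ ^ 2 := by
        rwa [Complex.sub_re, Complex.ofReal_re, Complex.ofReal_re] at h2
      rw [← h3]; positivity
    have h2 : (∑ α, ⟪F (some α), (L.Qi α χ : K)⟫_ℂ).re
        ≤ ∑ α, ‖F (some α)‖ * ‖(L.Qi α χ : K)‖ :=
      (Complex.re_le_norm _).trans ((norm_sum_le _ _).trans
        (Finset.sum_le_sum fun α _ => norm_inner_le_norm _ _))
    have h3 : ∑ α, ‖F (some α)‖ * ‖(L.Qi α χ : K)‖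
        ≤ (1 / 2) * ∑ α, ‖F (some α)‖ ^ 2 + (1 / 2) * ∑ α, ‖(L.Qi α χ : K)‖ ^ 2 := by
      rw [Finset.mul_sum, Finset.mul_sum, ← Finset.sum_add_distrib]
      exact Finset.sum_le_sum fun α _ => by
        nlinarith [sq_nonneg (‖F (some α)‖ - ‖(L.Qi α χ : K)‖)]
    linarith

end LimLow

end

end Crest.Agent.R330.AbsLow811
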