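/-
helper811, row 330 (S0512), section 9: "weakly null ⇒ strongly null" implies STRONG CAPTURE.

The uncorrected trial vectors `T g χ` have unbounded energy (`‖Q T χ‖ ~ g^{1/6}`), so they can not be
subtracted from a sequence of bounded energy.  They are replaced by the resolvent vectors
`(t + H_g) w = t T g χ`.

* `Lim0` : data (symmetric charges, algebra, commutator bound, graph core, asymptotic isometry,
  duality, weak = strong for the limit system), everything on the whole core.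
* `Lim0.exists_weak` : weak limits along an ultrafilter.
* `Lim0.resolvent` : the resolvent vectors.
* `Lim0.cap_of_cap0` : CAP0 (bounded energy + weakly null ⇒ strongly null, on a subspace `S`)
  implies strong capture for the vectors fixed by a cut-off `X` with values in `S`.
* `Lim0.toLim` : the structure `Lim` of `AbsLow_811` (hence `Lim.dUp`, `Lim.lsc`).
-/
import Crest.Agent.R330.AbsLow_811

set_option autoImplicit false

open Filter Topology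
open scoped InnerProductSpace ComplexConjugate

namespace Crest.Agent.R330.AbsCap811

open Crest.Agent.R330.AbsLow811

noncomputable section

/-- The data. `Q g α` : the charges at coupling `g`; `H g` the Hamiltonian; `T g` the trial
operators; `Qi α` the charges of the limit system on its core `C ⊆ K`. -/
structure Lim0 (D E K ι I : Type*) [AddCommGroup D] [Module ℂ D]
    [NormedAddCommGroup E] [InnerProductSpace ℂ E]
    [NormedAddCommGroup K] [InnerProductSpace ℂ K] [Fintype ι] (l : Filter I) where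
  /-- inclusion of the core in `L²` -/
  J : D →ₗ[ℂ] E
  /-- the charges -/
  Q : I → ι → D →ₗ[ℂ] D
  /-- the Hamiltonian -/
  H : I → D →ₗ[ℂ] D
  /-- core of the limit space -/
  C : Submodule ℂ K
  /-- trial operators -/
  T : I → C →ₗ[ℂ] D
  /-- limit charges -/
  Qi : ι → C →ₗ[ℂ] C
  /-- number of charges -/
  c : ℝ
  c_pos : 0 < c
  /-- a constant, possibly depending on the coupling only through a uniform bound -/
  κ : ℝ
  κ_nonneg : 0 ≤ κ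
  /-- symmetry of the charges -/
  symm : ∀ g α φ ψ, ⟪J (Q g α φ), J ψ⟫_ℂ = ⟪J φ, J (Q g α ψ)⟫_ℂ
  /-- `∑ Q_α² = c H` -/
  algebra : ∀ g φ, ∑ α, Q g α (Q g α φ) = (c : ℂ) • H g φ
  /-- commutator bound -/
  comm : ∀ g φ α, en J (Q g) (Q g α φ) ≤ κ * (‖J (H g φ)‖ ^ 2 + en J (Q g) φ)
  /-- graph core: `t + H` has dense range on the core, `t ≥ 1` -/
  graph : ∀ g (t : ℝ), 1 ≤ t → ∀ (f : D) (η : ℝ), 0 < η →
    ∃ w : D, ‖(t : ℂ) • J w + J (H g w) - (t : ℂ) • J f‖ < η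
  /-- the trial operators are asymptotically isometric -/
  isom : ∀ χ χ' : C, Tendsto (fun g => ⟪J (T g χ), J (T g χ')⟫_ℂ) l (𝓝 ⟪(χ : K), (χ' : K)⟫_ℂ)
  /-- duality for sequences of bounded energy -/
  dual : ∀ (u : ℕ → I), Tendsto u atTop l → ∀ (φ : ℕ → D) (B : ℝ),
    (∀ k, ‖J (φ k)‖ ≤ B) → (∀ k, en J (Q (u k)) (φ k) ≤ B) → ∀ (χ : C) (α : ι),
    Tendsto (fun k => ⟪J (φ k), J (Q (u k) α (T (u k) χ)) - J (T (u k) (Qi α χ))⟫_ℂ) atTop (𝓝 0)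
  /-- weak = strong for the limit system -/
  weakStrong : ∀ (w : K) (p : ι → K), (∀ α (χ : C), ⟪p α, (χ : K)⟫_ℂ = ⟪w, (Qi α χ : K)⟫_ℂ) →
    ∀ ε : ℝ, 0 < ε → ∃ χ : C, ‖(χ : K) - w‖ < ε ∧ ∀ α, ‖(Qi α χ : K) - p α‖ < ε

theorem inner_self_c {E : Type*} [NormedAddCommGroup E] [InnerProductSpace ℂ E] (x : E) :
    ⟪x, x⟫_ℂ = ((‖x‖ ^ 2 : ℝ) : ℂ) := by
  rw [inner_self_eq_norm_sq_to_K]
  push_cast
  rfl

/-! ### Bounded sequences and ultrafilters -/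

theorem exists_ulim (U : Ultrafilter ℕ) {a : ℕ → ℂ} {B : ℝ} (h : ∀ᶠ k in (U : Filter ℕ), ‖a k‖ ≤ B) :
    ∃ z : ℂ, ‖z‖ ≤ B ∧ Tendsto a U (𝓝 z) := by
  have hc := isCompact_closedBall (0 : ℂ) B
  obtain ⟨z, hz, hle⟩ := hc.ultrafilter_le_nhds (U.map a) (by
    rw [le_principal_iff]
    show a ⁻¹' (Metric.closedBall 0 B) ∈ (U : Filter ℕ)
    filter_upwards [h] with k hk
    simpa using hk)
  exact ⟨z, by simpa using hz, hle⟩

theorem exists_ulim_real (U : Ultrafilter ℕ) {a : ℕ → ℝ} {B : ℝ} (h0 : ∀ k, 0 ≤ a k)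
    (h : ∀ᶠ k in (U : Filter ℕ), a k ≤ B) :
    ∃ z : ℝ, 0 ≤ z ∧ z ≤ B ∧ Tendsto a U (𝓝 z) := by
  have hc := isCompact_Icc (a := (0 : ℝ)) (b := B)
  obtain ⟨z, hz, hle⟩ := hc.ultrafilter_le_nhds (U.map a) (by
    rw [le_principal_iff]
    show a ⁻¹' (Set.Icc 0 B) ∈ (U : Filter ℕ)
    filter_upwards [h] with k hk
    exact ⟨h0 k, hk⟩)
  exact ⟨z, hz.1, hz.2, hle⟩

namespace Lim0

variable {D E K ι I : Type*} [AddCommGroup D] [Module ℂ D]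
  [NormedAddCommGroup E] [InnerProductSpace ℂ E]
  [NormedAddCommGroup K] [InnerProductSpace ℂ K] [Fintype ι] {l : Filter I}
  (L : Lim0 D E K ι I l)

theorem norm_T_sq (χ : L.C) : Tendsto (fun g => ‖L.J (L.T g χ)‖ ^ 2) l (𝓝 (‖(χ : K)‖ ^ 2)) := by
  have h := (Complex.continuous_re.tendsto _).comp (L.isom χ χ)
  have e1 : ∀ g, (⟪L.J (L.T g χ), L.J (L.T g χ)⟫_ℂ).re = ‖L.J (L.T g χ)‖ ^ 2 := fun g => by
    rw [inner_self_eq_norm_sq_to_K]; norm_cast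
  have e2 : (⟪(χ : K), (χ : K)⟫_ℂ).re = ‖(χ : K)‖ ^ 2 := by
    rw [inner_self_eq_norm_sq_to_K]; norm_cast
  rw [e2] at h
  exact h.congr fun g => e1 g

theorem norm_T (χ : L.C) : Tendsto (fun g => ‖L.J (L.T g χ)‖) l (𝓝 ‖(χ : K)‖) := by
  have h := (Real.continuous_sqrt.tendsto _).comp (L.norm_T_sq χ)
  rw [Real.sqrt_sq (norm_nonneg _)] at h
  exact h.congr fun g => Real.sqrt_sq (norm_nonneg _)

/-- **Weak limits.** -/
theorem exists_weak [CompleteSpace K] (U : Ultrafilter ℕ) {u : ℕ → I} (hu : Tendsto u U l)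
    (y : ℕ → E) {B : ℝ} (hB : ∀ k, ‖y k‖ ≤ B) :
    ∃ f : K, ‖f‖ ≤ B ∧ ∀ χ : L.C, Tendsto (fun k => ⟪y k, L.J (L.T (u k) χ)⟫_ℂ) U
      (𝓝 ⟪f, (χ : K)⟫_ℂ) := by
  have hB0 : 0 ≤ B := (norm_nonneg _).trans (hB 0)
  -- pointwise limits
  have h1 : ∀ χ : L.C, ∃ z : ℂ, Tendsto (fun k => ⟪y k, L.J (L.T (u k) χ)⟫_ℂ) U (𝓝 z) := by
    intro χ
    have h2 : ∀ᶠ k in (U : Filter ℕ), ‖⟪y k, L.J (L.T (u k) χ)⟫_ℂ‖ ≤ B * (‖(χ : K)‖ + 1) := by
      filter_upwards [((L.norm_T χ).comp hu).eventually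
        (gt_mem_nhds (show ‖(χ : K)‖ < ‖(χ : K)‖ + 1 by linarith))] with k hk
      exact (norm_inner_le_norm _ _).trans
        (mul_le_mul (hB k) (le_of_lt hk) (norm_nonneg _) hB0)
    obtain ⟨z, -, hz⟩ := exists_ulim U h2
    exact ⟨z, hz⟩
  choose z hz using h1
  have hadd : ∀ χ χ' : L.C, z (χ + χ') = z χ + z χ' := by
    intro χ χ'
    refine tendsto_nhds_unique (hz (χ + χ')) (((hz χ).add (hz χ')).congr fun k => ?_)
    rw [map_add, map_add, inner_add_right]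
  have hsmul : ∀ (a : ℂ) (χ : L.C), z (a • χ) = a • z χ := by
    intro a χ
    refine tendsto_nhds_unique (hz (a • χ)) (((hz χ).const_mul a).congr fun k => ?_)
    rw [map_smul, map_smul, inner_smul_right]
  have hbd : ∀ χ : L.C, ‖z χ‖ ≤ B * ‖χ‖ := by
    intro χ
    refine le_of_tendsto_of_tendsto (hz χ).norm
      ((((L.norm_T χ).comp hu).const_mul B)) (Eventually.of_forall fun k => ?_)
    exact (norm_inner_le_norm _ _).trans (mul_le_mul_of_nonneg_right (hB k) (norm_nonneg _))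
  let Z : L.C →ₗ[ℂ] ℂ :=
    { toFun := z
      map_add' := hadd
      map_smul' := hsmul }
  let Zc : L.C →L[ℂ] ℂ := Z.mkContinuous B hbd
  obtain ⟨G, hG, hGn⟩ := exists_extension_norm_eq L.C Zc
  refine ⟨(InnerProductSpace.toDual ℂ K).symm G, ?_, fun χ => ?_⟩
  · rw [LinearIsometryEquiv.norm_map, hGn]
    exact Z.mkContinuous_norm_le hB0 hbd
  · rw [InnerProductSpace.toDual_symm_apply, hG χ]
    exact hz χ

/-- approximants given by weak = strong, as a sequence -/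
theorem exists_ws (w : K) (p : ι → K)
    (h : ∀ α (χ : L.C), ⟪p α, (χ : K)⟫_ℂ = ⟪w, (L.Qi α χ : K)⟫_ℂ) :
    ∃ ζ : ℕ → L.C, Tendsto (fun k => (ζ k : K)) atTop (𝓝 w) ∧
      ∀ α, Tendsto (fun k => (L.Qi α (ζ k) : K)) atTop (𝓝 (p α)) := by
  choose ζ h1 h2 using fun k : ℕ => L.weakStrong w p h (1 / ((k : ℝ) + 1)) (by positivity)
  have h0 : Tendsto (fun k : ℕ => 1 / ((k : ℝ) + 1)) atTop (𝓝 0) :=
    tendsto_one_div_add_atTop_nhds_zero_nat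
  refine ⟨ζ, ?_, fun α => ?_⟩
  · rw [tendsto_iff_norm_sub_tendsto_zero]
    exact squeeze_zero (fun _ => norm_nonneg _) (fun k => (h1 k).le) h0
  · rw [tendsto_iff_norm_sub_tendsto_zero]
    exact squeeze_zero (fun _ => norm_nonneg _) (fun k => (h2 k α).le) h0

/-- `en φ = c ⟪φ, H φ⟫` -/
theorem en_eq (g : I) (φ : D) : ((en L.J (L.Q g) φ : ℝ) : ℂ) = L.c * ⟪L.J φ, L.J (L.H g φ)⟫_ℂ := by
  have h1 : ⟪L.J φ, L.J (∑ α, L.Q g α (L.Q g α φ))⟫_ℂ = L.c * ⟪L.J φ, L.J (L.H g φ)⟫_ℂ := by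
    rw [L.algebra, map_smul, inner_smul_right]
  rw [← h1, map_sum, inner_sum, en]
  push_cast
  refine Finset.sum_congr rfl fun α _ => ?_
  rw [← L.symm, inner_self_eq_norm_sq_to_K]
  rfl

/-- `c ⟪H φ, ψ⟫ = ∑ ⟪Q_α φ, Q_α ψ⟫` -/
theorem inner_H (g : I) (φ ψ : D) :
    (L.c : ℂ) * ⟪L.J (L.H g φ), L.J ψ⟫_ℂ = ∑ α, ⟪L.J (L.Q g α φ), L.J (L.Q g α ψ)⟫_ℂ := by
  have h1 : ⟪L.J (∑ α, L.Q g α (L.Q g α φ)), L.J ψ⟫_ℂ = L.c * ⟪L.J (L.H g φ), L.J ψ⟫_ℂ := by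
    rw [L.algebra, map_smul, inner_smul_left]
    simp
  rw [← h1, map_sum, sum_inner]
  exact Finset.sum_congr rfl fun α _ => L.symm g α _ _

/-- duality, limit form, along an ultrafilter -/
theorem dual_ulim (U : Ultrafilter ℕ) (hU : (U : Filter ℕ) ≤ atTop) {u : ℕ → I}
    (hu : Tendsto u atTop l) {φ : ℕ → D} {B : ℝ}
    (hB : ∀ k, ‖L.J (φ k)‖ ≤ B) (hE : ∀ k, en L.J (L.Q (u k)) (φ k) ≤ B) {f : K}
    (hf : ∀ χ : L.C, Tendsto (fun k => ⟪L.J (φ k), L.J (L.T (u k) χ)⟫_ℂ) U (𝓝 ⟪f, (χ : K)⟫_ℂ))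
    (χ : L.C) (α : ι) :
    Tendsto (fun k => ⟪L.J (L.Q (u k) α (φ k)), L.J (L.T (u k) χ)⟫_ℂ) U
      (𝓝 ⟪f, (L.Qi α χ : K)⟫_ℂ) := by
  have h1 := (L.dual u hu φ B hB hE χ α).mono_left hU
  have h3 := h1.add (hf (L.Qi α χ))
  rw [zero_add] at h3
  refine h3.congr fun k => ?_
  rw [L.symm, inner_sub_right]
  ring

/-- lower semicontinuity of the norm for weak limits which can be approximated from `C` -/
theorem norm_le_ulim (U : Ultrafilter ℕ) {u : ℕ → I} (hu : Tendsto u U l) {y : ℕ → E} {f : K}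
    (hf : ∀ χ : L.C, Tendsto (fun k => ⟪y k, L.J (L.T (u k) χ)⟫_ℂ) U (𝓝 ⟪f, (χ : K)⟫_ℂ))
    {ζ : ℕ → L.C} (hζ : Tendsto (fun k => (ζ k : K)) atTop (𝓝 f)) {m : ℝ}
    (hm : Tendsto (fun k => ‖y k‖ ^ 2) U (𝓝 m)) : ‖f‖ ^ 2 ≤ m := by
  have h1 : ∀ χ : L.C, 2 * (⟪f, (χ : K)⟫_ℂ).re - ‖(χ : K)‖ ^ 2 ≤ m := by
    intro χ
    have h2 : Tendsto (fun k => 2 * (⟪y k, L.J (L.T (u k) χ)⟫_ℂ).re - ‖L.J (L.T (u k) χ)‖ ^ 2) U
        (𝓝 (2 * (⟪f, (χ : K)⟫_ℂ).re - ‖(χ : K)‖ ^ 2)) :=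
      (((Complex.continuous_re.tendsto _).comp (hf χ)).const_mul 2).sub ((L.norm_T_sq χ).comp hu)
    refine le_of_tendsto_of_tendsto h2 hm (Eventually.of_forall fun k => ?_)
    have h3 := norm_sub_sq (𝕜 := ℂ) (y k) (L.J (L.T (u k) χ))
    have h4 : RCLike.re ⟪y k, L.J (L.T (u k) χ)⟫_ℂ = (⟪y k, L.J (L.T (u k) χ)⟫_ℂ).re := rfl
    rw [h4] at h3
    nlinarith [sq_nonneg ‖y k - L.J (L.T (u k) χ)‖]
  have h5 : Tendsto (fun k => 2 * (⟪f, (ζ k : K)⟫_ℂ).re - ‖(ζ k : K)‖ ^ 2) atTop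
      (𝓝 (2 * (⟪f, f⟫_ℂ).re - ‖f‖ ^ 2)) :=
    (((Complex.continuous_re.tendsto _).comp (tendsto_const_nhds.inner hζ)).const_mul 2).sub
      (hζ.norm.pow 2)
  have h6 : (⟪f, f⟫_ℂ).re = ‖f‖ ^ 2 := by
    rw [inner_self_eq_norm_sq_to_K]; norm_cast
  rw [h6] at h5
  have h7 := le_of_tendsto h5 (Eventually.of_forall fun k => h1 (ζ k))
  linarith

/-- **Resolvent vectors.** Along an ultrafilter `U ≤ atTop`: if
`t w + H w - t T χ → 0` then the weak limit `f` of `w` satisfies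
`t ‖χ - f‖² ≤ c⁻¹ ∑ ‖Q^∞_α χ‖²`, the energies of `w` are asymptotically `≤ ∑ ‖Q^∞_α χ‖²` and the
norms asymptotically `≤ ‖χ‖`. -/
theorem resolvent [CompleteSpace K] (U : Ultrafilter ℕ) (hU : (U : Filter ℕ) ≤ atTop) {u : ℕ → I}
    (hu : Tendsto u atTop l) (χ : L.C) {t : ℝ} (ht : 1 ≤ t) {w : ℕ → D}
    (hw : ∀ k, ‖(t : ℂ) • L.J (w k) + L.J (L.H (u k) (w k)) - (t : ℂ) • L.J (L.T (u k) χ)‖
      < 1 / ((k : ℝ) + 1)) :
    ∃ f : K, (∀ χ' : L.C, Tendsto (fun k => ⟪L.J (w k), L.J (L.T (u k) χ')⟫_ℂ) U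
        (𝓝 ⟪f, (χ' : K)⟫_ℂ)) ∧
      t * ‖(χ : K) - f‖ ^ 2 ≤ L.c⁻¹ * ∑ α, ‖(L.Qi α χ : K)‖ ^ 2 ∧
      (∀ ε : ℝ, 0 < ε → ∀ᶠ k in (U : Filter ℕ),
        en L.J (L.Q (u k)) (w k) ≤ ∑ α, ‖(L.Qi α χ : K)‖ ^ 2 + ε) ∧
      (∀ ε : ℝ, 0 < ε → ∀ᶠ k in (U : Filter ℕ), ‖L.J (w k)‖ ≤ ‖(χ : K)‖ + ε) := by
  have hc := L.c_pos
  have ht0 : 0 < t := lt_of_lt_of_le one_pos ht
  have huU : Tendsto u U l := hu.mono_left hU
  have hc' : (L.c : ℂ) ≠ 0 := by exact_mod_cast hc.ne'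
  have ht' : (t : ℂ) ≠ 0 := by exact_mod_cast ht0.ne'
  -- bound for the trial vectors
  have hTn : Tendsto (fun k => ‖L.J (L.T (u k) χ)‖) atTop (𝓝 ‖(χ : K)‖) := (L.norm_T χ).comp hu
  obtain ⟨A, hA⟩ : ∃ A : ℝ, ∀ k, ‖L.J (L.T (u k) χ)‖ ≤ A := by
    obtain ⟨A, hA⟩ := hTn.bddAbove_range
    exact ⟨A, fun k => hA ⟨k, rfl⟩⟩
  have hA0 : 0 ≤ A := (norm_nonneg _).trans (hA 0)
  have hk1 : ∀ k : ℕ, 1 / ((k : ℝ) + 1) ≤ 1 := fun k => by
    rw [div_le_one (by positivity)]; linarith [show (0 : ℝ) ≤ k from by positivity]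
  have h0 : Tendsto (fun k : ℕ => 1 / ((k : ℝ) + 1)) atTop (𝓝 0) :=
    tendsto_one_div_add_atTop_nhds_zero_nat
  -- ⟪w, H w⟫ = en / c ≥ 0
  have hpos : ∀ k, ⟪L.J (w k), L.J (L.H (u k) (w k))⟫_ℂ
      = ((en L.J (L.Q (u k)) (w k) / L.c : ℝ) : ℂ) := by
    intro k
    push_cast
    rw [L.en_eq, mul_div_cancel_left₀ _ hc']
  -- bound for w
  have hwn' : ∀ k, ‖L.J (w k)‖ ≤ ‖L.J (L.T (u k) χ)‖ + 1 / ((k : ℝ) + 1) := by
    intro k
    set s := 1 / ((k : ℝ) + 1) with hs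
    have hs0 : 0 ≤ s := by positivity
    have h1 : t * ‖L.J (w k)‖ ^ 2 + en L.J (L.Q (u k)) (w k) / L.c
        = (⟪L.J (w k), (t : ℂ) • L.J (w k) + L.J (L.H (u k) (w k))⟫_ℂ).re := by
      rw [inner_add_right, hpos, inner_smul_right, inner_self_c, Complex.add_re,
        Complex.ofReal_re, ← Complex.ofReal_mul, Complex.ofReal_re]
    have h2 : ‖(t : ℂ) • L.J (w k) + L.J (L.H (u k) (w k))‖ ≤ t * ‖L.J (L.T (u k) χ)‖ + s := by
      calc _ = ‖((t : ℂ) • L.J (w k) + L.J (L.H (u k) (w k)) - (t : ℂ) • L.J (L.T (u k) χ))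
            + (t : ℂ) • L.J (L.T (u k) χ)‖ := by congr 1; abel
        _ ≤ _ := norm_add_le _ _
        _ ≤ s + t * ‖L.J (L.T (u k) χ)‖ := by
            refine add_le_add (hw k).le ?_
            rw [norm_smul, Complex.norm_real, Real.norm_of_nonneg ht0.le]
        _ = _ := by ring
    have h3 : (⟪L.J (w k), (t : ℂ) • L.J (w k) + L.J (L.H (u k) (w k))⟫_ℂ).re
        ≤ ‖L.J (w k)‖ * (t * ‖L.J (L.T (u k) χ)‖ + s) :=
      (Complex.re_le_norm _).trans ((norm_inner_le_norm _ _).trans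
        (mul_le_mul_of_nonneg_left h2 (norm_nonneg _)))
    have h4 : 0 ≤ en L.J (L.Q (u k)) (w k) / L.c := div_nonneg (en_nonneg _ _ _) hc.le
    have h5 : t * ‖L.J (w k)‖ ^ 2 ≤ ‖L.J (w k)‖ * (t * ‖L.J (L.T (u k) χ)‖ + s) := by linarith
    rcases (norm_nonneg (L.J (w k))).eq_or_lt with h6 | h6
    · rw [← h6]; positivity
    · have h7 : t * ‖L.J (w k)‖ ≤ t * ‖L.J (L.T (u k) χ)‖ + s := by
        have : ‖L.J (w k)‖ * (t * ‖L.J (w k)‖) ≤ ‖L.J (w k)‖ * (t * ‖L.J (L.T (u k) χ)‖ + s) := by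
          calc _ = t * ‖L.J (w k)‖ ^ 2 := by ring
            _ ≤ _ := h5
        exact le_of_mul_le_mul_left this h6
      have h8 : t * ‖L.J (w k)‖ ≤ t * (‖L.J (L.T (u k) χ)‖ + s) := by
        nlinarith
      exact le_of_mul_le_mul_left h8 ht0
  have hwn : ∀ k, ‖L.J (w k)‖ ≤ A + 1 := fun k => (hwn' k).trans (add_le_add (hA k) (hk1 k))
  have hHn : ∀ k, ‖L.J (L.H (u k) (w k))‖ ≤ t * (2 * A + 2) + 1 := by
    intro k
    have e1 : ‖(t : ℂ) • L.J (L.T (u k) χ)‖ ≤ t * A := by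
      rw [norm_smul, Complex.norm_real, Real.norm_of_nonneg ht0.le]
      exact mul_le_mul_of_nonneg_left (hA k) ht0.le
    have e2 : ‖(t : ℂ) • L.J (w k)‖ ≤ t * (A + 1) := by
      rw [norm_smul, Complex.norm_real, Real.norm_of_nonneg ht0.le]
      exact mul_le_mul_of_nonneg_left (hwn k) ht0.le
    calc ‖L.J (L.H (u k) (w k))‖
        = ‖((t : ℂ) • L.J (w k) + L.J (L.H (u k) (w k)) - (t : ℂ) • L.J (L.T (u k) χ))
            + (t : ℂ) • L.J (L.T (u k) χ) - (t : ℂ) • L.J (w k)‖ := by congr 1; abel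
      _ ≤ ‖((t : ℂ) • L.J (w k) + L.J (L.H (u k) (w k)) - (t : ℂ) • L.J (L.T (u k) χ))
            + (t : ℂ) • L.J (L.T (u k) χ)‖ + ‖(t : ℂ) • L.J (w k)‖ := norm_sub_le _ _
      _ ≤ (‖(t : ℂ) • L.J (w k) + L.J (L.H (u k) (w k)) - (t : ℂ) • L.J (L.T (u k) χ)‖
            + ‖(t : ℂ) • L.J (L.T (u k) χ)‖) + ‖(t : ℂ) • L.J (w k)‖ := by
          gcongr; exact norm_add_le _ _
      _ ≤ t * (2 * A + 2) + 1 := by
          have := (hw k).le.trans (hk1 k)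
          nlinarith
  set M1 : ℝ := t * (2 * A + 2) + 1 with hM1
  have hM10 : 0 ≤ M1 := by positivity
  have hen : ∀ k, en L.J (L.Q (u k)) (w k) ≤ L.c * ((A + 1) * M1) := by
    intro k
    have h1 : en L.J (L.Q (u k)) (w k) / L.c ≤ (A + 1) * M1 := by
      have h2 : ‖((en L.J (L.Q (u k)) (w k) / L.c : ℝ) : ℂ)‖ ≤ (A + 1) * M1 := by
        rw [← hpos]
        exact (norm_inner_le_norm _ _).trans
          (mul_le_mul (hwn k) (hHn k) (norm_nonneg _) (by linarith))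
      rw [Complex.norm_real, Real.norm_eq_abs] at h2
      exact (le_abs_self _).trans h2
    rw [div_le_iff₀ hc] at h1
    linarith
  set E1 : ℝ := L.c * ((A + 1) * M1) with hE1
  have hE10 : 0 ≤ E1 := by positivity
  have hpe : ∀ k α, en L.J (L.Q (u k)) (L.Q (u k) α (w k)) ≤ L.κ * (M1 ^ 2 + E1) := by
    intro k α
    refine (L.comm (u k) (w k) α).trans (mul_le_mul_of_nonneg_left ?_ L.κ_nonneg)
    exact add_le_add (pow_le_pow_left₀ (norm_nonneg _) (hHn k) 2) (hen k)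
  have hpn : ∀ k α, ‖L.J (L.Q (u k) α (w k))‖ ≤ 1 + E1 := by
    intro k α
    have h1 := (norm_sq_le_en L.J (L.Q (u k)) (w k) α).trans (hen k)
    nlinarith [norm_nonneg (L.J (L.Q (u k) α (w k))), sq_nonneg (‖L.J (L.Q (u k) α (w k))‖ - 1)]
  have hκ0 : 0 ≤ L.κ * (M1 ^ 2 + E1) := mul_nonneg L.κ_nonneg (by positivity)
  set B : ℝ := (A + 1) + E1 + L.κ * (M1 ^ 2 + E1) + 1 with hBdef
  -- weak limits
  obtain ⟨f, -, hf⟩ := L.exists_weak U huU (fun k => L.J (w k)) hwn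
  choose p hp1 hp using fun α => L.exists_weak U huU (fun k => L.J (L.Q (u k) α (w k)))
    (fun k => hpn k α)
  -- weak equation
  have weq : ∀ α (χ' : L.C), ⟪p α, (χ' : K)⟫_ℂ = ⟪f, (L.Qi α χ' : K)⟫_ℂ := fun α χ' =>
    tendsto_nhds_unique (hp α χ') (L.dual_ulim U hU hu (φ := w) (B := B)
      (fun k => (hwn _).trans (by linarith)) (fun k => (hen _).trans (by linarith)) hf χ' α)
  -- residual
  have hres : ∀ v : ℕ → E, (∃ b : ℝ, ∀ᶠ k in (U : Filter ℕ), ‖v k‖ ≤ b) →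
      Tendsto (fun k => ⟪(t : ℂ) • L.J (w k) + L.J (L.H (u k) (w k))
        - (t : ℂ) • L.J (L.T (u k) χ), v k⟫_ℂ) U (𝓝 0) := by
    rintro v ⟨b, hb⟩
    rw [tendsto_zero_iff_norm_tendsto_zero]
    have h1 : Tendsto (fun k : ℕ => 1 / ((k : ℝ) + 1) * b) U (𝓝 0) := by
      simpa using (h0.mono_left hU).mul_const b
    refine squeeze_zero' (Eventually.of_forall fun _ => norm_nonneg _) ?_ h1
    filter_upwards [hb] with k hk
    exact (norm_inner_le_norm _ _).trans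
      (mul_le_mul (hw k).le hk (norm_nonneg _) (by positivity))
  -- the limit resolvent equation
  have req : ∀ χ' : L.C, ∑ α, ⟪p α, (L.Qi α χ' : K)⟫_ℂ
      = (L.c : ℂ) * ((t : ℂ) * ⟪(χ : K) - f, (χ' : K)⟫_ℂ) := by
    intro χ'
    have h1 : Tendsto (fun k => ∑ α, ⟪L.J (L.Q (u k) α (L.Q (u k) α (w k))),
        L.J (L.T (u k) χ')⟫_ℂ) U (𝓝 (∑ α, ⟪p α, (L.Qi α χ' : K)⟫_ℂ)) :=
      tendsto_finsetSum _ fun α _ =>
        L.dual_ulim U hU hu (φ := fun k => L.Q (u k) α (w k)) (B := B)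
          (fun k => (hpn _ α).trans (by linarith))
          (fun k => (hpe _ α).trans (by linarith)) (hp α) χ' α
    have hb : ∃ b : ℝ, ∀ᶠ k in (U : Filter ℕ), ‖L.J (L.T (u k) χ')‖ ≤ b :=
      ⟨‖(χ' : K)‖ + 1, (((L.norm_T χ').comp huU).eventually
        (gt_mem_nhds (show ‖(χ' : K)‖ < ‖(χ' : K)‖ + 1 by linarith))).mono fun k hk => le_of_lt hk⟩
    have h2 := hres (fun k => L.J (L.T (u k) χ')) hb
    have h3 : Tendsto (fun k => (L.c : ℂ) * (⟪(t : ℂ) • L.J (w k) + L.J (L.H (u k) (w k))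
        - (t : ℂ) • L.J (L.T (u k) χ), L.J (L.T (u k) χ')⟫_ℂ
        + (t : ℂ) * ⟪L.J (L.T (u k) χ), L.J (L.T (u k) χ')⟫_ℂ
        - (t : ℂ) * ⟪L.J (w k), L.J (L.T (u k) χ')⟫_ℂ)) U
        (𝓝 ((L.c : ℂ) * (0 + (t : ℂ) * ⟪(χ : K), (χ' : K)⟫_ℂ - (t : ℂ) * ⟪f, (χ' : K)⟫_ℂ))) :=
      ((h2.add (((L.isom χ χ').comp huU).const_mul _)).sub ((hf χ').const_mul _)).const_mul _
    have h4 := tendsto_nhds_unique h1 (h3.congr fun k => ?_)
    · rw [h4, inner_sub_left]; ring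
    · have e1 : ∑ α, ⟪L.J (L.Q (u k) α (L.Q (u k) α (w k))), L.J (L.T (u k) χ')⟫_ℂ
          = (L.c : ℂ) * ⟪L.J (L.H (u k) (w k)), L.J (L.T (u k) χ')⟫_ℂ := by
        rw [L.inner_H]
        exact Finset.sum_congr rfl fun α _ => L.symm _ _ _ _
      rw [e1]
      congr 1
      rw [inner_sub_left, inner_add_left, inner_smul_left, inner_smul_left, Complex.conj_ofReal]
      ring
  -- approximation of f
  obtain ⟨ζ, hζ1, hζ2⟩ := L.exists_ws f p weq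
  have eid : ((∑ α, ‖p α‖ ^ 2 : ℝ) : ℂ) = (L.c : ℂ) * ((t : ℂ) * ⟪(χ : K) - f, f⟫_ℂ) := by
    have h1 : Tendsto (fun k => (L.c : ℂ) * ((t : ℂ) * ⟪(χ : K) - f, (ζ k : K)⟫_ℂ)) atTop
        (𝓝 ((L.c : ℂ) * ((t : ℂ) * ⟪(χ : K) - f, f⟫_ℂ))) :=
      ((tendsto_const_nhds.inner hζ1).const_mul _).const_mul _
    have h2 : Tendsto (fun k => ∑ α, ⟪p α, (L.Qi α (ζ k) : K)⟫_ℂ) atTop
        (𝓝 (∑ α, ⟪p α, p α⟫_ℂ)) :=
      tendsto_finsetSum _ fun α _ => tendsto_const_nhds.inner (hζ2 α)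
    have h3 := tendsto_nhds_unique (h1.congr fun k => (req (ζ k)).symm) h2
    rw [h3]
    push_cast
    refine Finset.sum_congr rfl fun α _ => ?_
    rw [inner_self_eq_norm_sq_to_K]
    rfl
  -- c t ‖χ - f‖² = Re ∑ ⟪p, Qi χ⟫ - ∑ ‖p‖²
  have key : L.c * (t * ‖(χ : K) - f‖ ^ 2)
      = (∑ α, ⟪p α, (L.Qi α χ : K)⟫_ℂ).re - ∑ α, ‖p α‖ ^ 2 := by
    have h1 : ((L.c * (t * ‖(χ : K) - f‖ ^ 2) : ℝ) : ℂ)
        = (∑ α, ⟪p α, (L.Qi α χ : K)⟫_ℂ) - ((∑ α, ‖p α‖ ^ 2 : ℝ) : ℂ) := by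
      rw [req χ, eid, ← mul_sub, ← mul_sub, ← inner_sub_right, inner_self_eq_norm_sq_to_K]
      push_cast
      rfl
    have h2 := congrArg Complex.re h1
    rwa [Complex.sub_re, Complex.ofReal_re, Complex.ofReal_re] at h2
  have kle : (∑ α, ⟪p α, (L.Qi α χ : K)⟫_ℂ).re ≤ ∑ α, ‖p α‖ * ‖(L.Qi α χ : K)‖ :=
    (Complex.re_le_norm _).trans ((norm_sum_le _ _).trans
      (Finset.sum_le_sum fun α _ => norm_inner_le_norm _ _))
  have hple : ∑ α, ‖p α‖ ^ 2 ≤ ∑ α, ‖(L.Qi α χ : K)‖ ^ 2 := by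
    have h1 : 0 ≤ L.c * (t * ‖(χ : K) - f‖ ^ 2) := by positivity
    have h3 : ∑ α, ‖p α‖ * ‖(L.Qi α χ : K)‖
        ≤ (1 / 2) * ∑ α, ‖p α‖ ^ 2 + (1 / 2) * ∑ α, ‖(L.Qi α χ : K)‖ ^ 2 := by
      rw [Finset.mul_sum, Finset.mul_sum, ← Finset.sum_add_distrib]
      exact Finset.sum_le_sum fun α _ => by
        nlinarith [sq_nonneg (‖p α‖ - ‖(L.Qi α χ : K)‖)]
    linarith
  refine ⟨f, hf, ?_, ?_, ?_⟩
  · have h3 : ∑ α, ‖p α‖ * ‖(L.Qi α χ : K)‖ ≤ ∑ α, ‖p α‖ ^ 2 + ∑ α, ‖(L.Qi α χ : K)‖ ^ 2 := by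
      rw [← Finset.sum_add_distrib]
      exact Finset.sum_le_sum fun α _ => by
        nlinarith [sq_nonneg (‖p α‖ - ‖(L.Qi α χ : K)‖), sq_nonneg (‖p α‖),
          sq_nonneg (‖(L.Qi α χ : K)‖)]
    rw [← div_eq_inv_mul, le_div_iff₀ hc]
    linarith
  · -- the energies
    intro ε hε
    obtain ⟨m, -, -, hm⟩ := exists_ulim_real U (a := fun k => ‖L.J (w k)‖ ^ 2)
      (B := (A + 1) ^ 2) (fun k => by positivity)
      (Eventually.of_forall fun k => pow_le_pow_left₀ (norm_nonneg _) (hwn k) 2)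
    have hfm : ‖f‖ ^ 2 ≤ m := L.norm_le_ulim U huU hf hζ1 hm
    have h2 := hres (fun k => L.J (w k)) ⟨A + 1, Eventually.of_forall hwn⟩
    have h3 : Tendsto (fun k => L.c * ((⟪(t : ℂ) • L.J (w k) + L.J (L.H (u k) (w k))
        - (t : ℂ) • L.J (L.T (u k) χ), L.J (w k)⟫_ℂ).re
        + t * (⟪L.J (w k), L.J (L.T (u k) χ)⟫_ℂ).re - t * ‖L.J (w k)‖ ^ 2)) U
        (𝓝 (L.c * (0 + t * (⟪f, (χ : K)⟫_ℂ).re - t * m))) := by
      have h4 := (Complex.continuous_re.tendsto _).comp h2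
      have h5 := (Complex.continuous_re.tendsto _).comp (hf χ)
      rw [Complex.zero_re] at h4
      exact (((h4.add (h5.const_mul t)).sub (hm.const_mul t))).const_mul L.c
    have h4 : ∀ k, L.c * ((⟪(t : ℂ) • L.J (w k) + L.J (L.H (u k) (w k))
        - (t : ℂ) • L.J (L.T (u k) χ), L.J (w k)⟫_ℂ).re
        + t * (⟪L.J (w k), L.J (L.T (u k) χ)⟫_ℂ).re - t * ‖L.J (w k)‖ ^ 2)
        = en L.J (L.Q (u k)) (w k) := by
      intro k
      have e1 : (⟪L.J (L.H (u k) (w k)), L.J (w k)⟫_ℂ).re = en L.J (L.Q (u k)) (w k) / L.c := by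
        rw [← inner_conj_symm, hpos, Complex.conj_ofReal, Complex.ofReal_re]
      have e2 : (⟪L.J (L.T (u k) χ), L.J (w k)⟫_ℂ).re = (⟪L.J (w k), L.J (L.T (u k) χ)⟫_ℂ).re := by
        rw [← inner_conj_symm, Complex.conj_re]
      have e3 : (⟪L.J (w k), L.J (w k)⟫_ℂ).re = ‖L.J (w k)‖ ^ 2 := by
        rw [inner_self_eq_norm_sq_to_K]; norm_cast
      rw [inner_sub_left, inner_add_left, inner_smul_left, inner_smul_left, Complex.conj_ofReal,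
        Complex.sub_re, Complex.add_re, Complex.re_ofReal_mul, Complex.re_ofReal_mul, e1, e2, e3]
      field_simp
      ring
    have h5 : L.c * (0 + t * (⟪f, (χ : K)⟫_ℂ).re - t * m) ≤ ∑ α, ‖(L.Qi α χ : K)‖ ^ 2 := by
      refine le_trans ?_ hple
      have e1 : ∑ α, ‖p α‖ ^ 2 = L.c * (t * (⟪f, (χ : K)⟫_ℂ).re - t * ‖f‖ ^ 2) := by
        have h6 := congrArg Complex.re eid
        rw [Complex.ofReal_re, inner_sub_left, inner_self_eq_norm_sq_to_K, Complex.re_ofReal_mul,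
          Complex.re_ofReal_mul, Complex.sub_re] at h6
        have e4 : (⟪(χ : K), f⟫_ℂ).re = (⟪f, (χ : K)⟫_ℂ).re := by
          rw [← inner_conj_symm, Complex.conj_re]
        have e5 : (((‖f‖ : ℂ)) ^ 2).re = ‖f‖ ^ 2 := by norm_cast
        rw [e4] at h6
        rw [h6]
        have e6 : (RCLike.ofReal ‖f‖ ^ 2 : ℂ).re = ‖f‖ ^ 2 := by norm_cast
        rw [e6]
        ring
      rw [e1]
      have : t * ‖f‖ ^ 2 ≤ t * m := mul_le_mul_of_nonneg_left hfm ht0.le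
      nlinarith
    have h6 := h3.eventually (gt_mem_nhds (show _ < ∑ α, ‖(L.Qi α χ : K)‖ ^ 2 + ε by linarith))
    filter_upwards [h6] with k hk
    rw [h4] at hk
    exact hk.le
  · intro ε hε
    have h1 : Tendsto (fun k => ‖L.J (L.T (u k) χ)‖ + 1 / ((k : ℝ) + 1)) U (𝓝 (‖(χ : K)‖ + 0)) :=
      (hTn.add h0).mono_left hU
    filter_upwards [h1.eventually (gt_mem_nhds (show ‖(χ : K)‖ + 0 < ‖(χ : K)‖ + ε by linarith))]
      with k hk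
    exact (hwn' k).trans hk.le


/-- Bounded energies along an ultrafilter: weak limits satisfy the weak equation. -/
theorem weak_eq [CompleteSpace K] (U : Ultrafilter ℕ) (hU : (U : Filter ℕ) ≤ atTop) {u : ℕ → I}
    (hu : Tendsto u atTop l) {φ : ℕ → D} {B : ℝ}
    (hB : ∀ k, ‖L.J (φ k)‖ ≤ B) (hE : ∀ k, en L.J (L.Q (u k)) (φ k) ≤ B) {f : K}
    (hf : ∀ χ : L.C, Tendsto (fun k => ⟪L.J (φ k), L.J (L.T (u k) χ)⟫_ℂ) U (𝓝 ⟪f, (χ : K)⟫_ℂ)) :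
    ∃ p : ι → K, ∀ α (χ : L.C), ⟪p α, (χ : K)⟫_ℂ = ⟪f, (L.Qi α χ : K)⟫_ℂ := by
  have huU : Tendsto u U l := hu.mono_left hU
  have hB0 : 0 ≤ B := (norm_nonneg _).trans (hB 0)
  have hpn : ∀ α k, ‖L.J (L.Q (u k) α (φ k))‖ ≤ 1 + B := by
    intro α k
    have h1 := (norm_sq_le_en L.J (L.Q (u k)) (φ k) α).trans (hE k)
    nlinarith [norm_nonneg (L.J (L.Q (u k) α (φ k))), sq_nonneg (‖L.J (L.Q (u k) α (φ k))‖ - 1)]
  choose p hp1 hp using fun α => L.exists_weak U huU (fun k => L.J (L.Q (u k) α (φ k))) (hpn α)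
  exact ⟨p, fun α χ => tendsto_nhds_unique (hp α χ) (L.dual_ulim U hU hu hB hE hf χ α)⟩

/-- **CAP0 implies strong capture.**  `S` : the subspace on which CAP0 is known (for instance the
core vectors supported in an annulus), `X` : a cut-off with values in `S` (`X = 1`, `S = ⊤` when
there is a trap). -/
theorem cap_of_cap0 [CompleteSpace K] [TopologicalSpace.SeparableSpace K] (S : Submodule ℂ D)
    (X : D →ₗ[ℂ] D) (Xi : L.C →ₗ[ℂ] L.C) (hXS : ∀ φ, X φ ∈ S)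
    (hXn : ∀ φ, ‖L.J (X φ)‖ ≤ ‖L.J φ‖)
    (hXsymm : ∀ φ ψ, ⟪L.J (X φ), L.J ψ⟫_ℂ = ⟪L.J φ, L.J (X ψ)⟫_ℂ)
    (b : ℝ) (hb : 0 ≤ b) (hXE : ∀ g φ, en L.J (L.Q g) (X φ) ≤ b * (‖L.J φ‖ ^ 2 + en L.J (L.Q g) φ))
    (hXT : ∀ χ : L.C, Tendsto (fun g => ‖L.J (X (L.T g χ)) - L.J (L.T g (Xi χ))‖) l (𝓝 0))
    (cap0 : ∀ (u : ℕ → I), Tendsto u atTop l → ∀ (φ : ℕ → D) (B : ℝ), (∀ k, φ k ∈ S) →
      (∀ k, ‖L.J (φ k)‖ ≤ B) → (∀ k, en L.J (L.Q (u k)) (φ k) ≤ B) →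
      (∀ χ : L.C, Tendsto (fun k => ⟪L.J (φ k), L.J (L.T (u k) χ)⟫_ℂ) atTop (𝓝 0)) →
      Tendsto (fun k => ‖L.J (φ k)‖) atTop (𝓝 0))
    {u : ℕ → I} (hu : Tendsto u atTop l) (φ : ℕ → D) (B : ℝ) (hS : ∀ k, φ k ∈ S)
    (hX : ∀ k, X (φ k) = φ k)
    (hB : ∀ k, ‖L.J (φ k)‖ ≤ B) (hE : ∀ k, en L.J (L.Q (u k)) (φ k) ≤ B) :
    ∃ js : ℕ → ℕ, StrictMono js ∧ ∃ f : K, Capt L.J L.T (u ∘ js) (φ ∘ js) f := by
  classical
  have hB0 : 0 ≤ B := (norm_nonneg _).trans (hB 0)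
  set U : Ultrafilter ℕ := hyperfilter ℕ with hUdef
  have hU : (U : Filter ℕ) ≤ atTop := by
    rw [← Nat.cofinite_eq_atTop]; exact hyperfilter_le_cofinite
  have huU : Tendsto u U l := hu.mono_left hU
  -- weak limit of φ
  obtain ⟨f, hfB, hf⟩ := L.exists_weak U huU (fun k => L.J (φ k)) hB
  obtain ⟨p, hp⟩ := L.weak_eq U hU hu hB hE hf
  obtain ⟨χ, hχ1, hχ2⟩ := L.exists_ws f p hp
  -- uniform bound for the limit energies
  obtain ⟨P, hP⟩ : ∃ P : ℝ, ∀ n, ∑ α, ‖(L.Qi α (χ n) : K)‖ ^ 2 ≤ P := by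
    have h1 : Tendsto (fun n => ∑ α, ‖(L.Qi α (χ n) : K)‖ ^ 2) atTop (𝓝 (∑ α, ‖p α‖ ^ 2)) :=
      tendsto_finsetSum _ fun α _ => (hχ2 α).norm.pow 2
    obtain ⟨P, hP⟩ := h1.bddAbove_range
    exact ⟨P, fun n => hP ⟨n, rfl⟩⟩
  have hP0 : 0 ≤ P := (Finset.sum_nonneg fun _ _ => by positivity).trans (hP 0)
  obtain ⟨N1, hN1⟩ : ∃ N1 : ℝ, ∀ n, ‖(χ n : K)‖ ≤ N1 := by
    obtain ⟨P, hP⟩ := hχ1.norm.bddAbove_range
    exact ⟨P, fun n => hP ⟨n, rfl⟩⟩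
  have hN10 : 0 ≤ N1 := (norm_nonneg _).trans (hN1 0)
  -- resolvent vectors
  have hex : ∀ n k : ℕ, ∃ w : D, ‖(((n : ℝ) + 1 : ℝ) : ℂ) • L.J w + L.J (L.H (u k) w)
      - (((n : ℝ) + 1 : ℝ) : ℂ) • L.J (L.T (u k) (χ n))‖ < 1 / ((k : ℝ) + 1) := fun n k =>
    L.graph (u k) ((n : ℝ) + 1) (by linarith [show (0 : ℝ) ≤ n from by positivity])
      (L.T (u k) (χ n)) (1 / ((k : ℝ) + 1)) (by positivity)
  choose w hw using hex
  choose r hr1 hr2 hr3 hr4 using fun n : ℕ => L.resolvent U hU hu (χ n) (t := (n : ℝ) + 1)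
    (by linarith [show (0 : ℝ) ≤ n from by positivity]) (w := w n) (hw n)
  have hc := L.c_pos
  have h0 : Tendsto (fun k : ℕ => 1 / ((k : ℝ) + 1)) atTop (𝓝 0) :=
    tendsto_one_div_add_atTop_nhds_zero_nat
  -- r n → f
  have hr : Tendsto r atTop (𝓝 f) := by
    have h1 : Tendsto (fun n => ‖(χ n : K) - r n‖ ^ 2) atTop (𝓝 0) := by
      have h5 : Tendsto (fun n : ℕ => L.c⁻¹ * P * (1 / ((n : ℝ) + 1))) atTop (𝓝 0) := by
        have := h0.const_mul (L.c⁻¹ * P)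
        rwa [mul_zero] at this
      refine squeeze_zero (fun _ => by positivity) (fun n => ?_) h5
      have h2 := hr2 n
      have h3 : L.c⁻¹ * ∑ α, ‖(L.Qi α (χ n) : K)‖ ^ 2 ≤ L.c⁻¹ * P :=
        mul_le_mul_of_nonneg_left (hP n) (by positivity)
      have h4 : (0 : ℝ) < (n : ℝ) + 1 := by positivity
      rw [mul_one_div, le_div_iff₀ h4]
      linarith
    have h2 : Tendsto (fun n => ‖(χ n : K) - r n‖) atTop (𝓝 0) := by
      have := (Real.continuous_sqrt.tendsto _).comp h1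
      rw [Real.sqrt_zero] at this
      exact this.congr fun n => Real.sqrt_sq (norm_nonneg _)
    have h3 : Tendsto (fun n => (χ n : K) - ((χ n : K) - r n)) atTop (𝓝 (f - 0)) :=
      hχ1.sub (tendsto_zero_iff_norm_tendsto_zero.2 h2)
    simpa using h3
  -- a dense sequence in C
  obtain ⟨ζ, hζ⟩ : ∃ ζ : ℕ → L.C, DenseRange ζ := TopologicalSpace.exists_dense_seq L.C
  -- weak limits of `X w`
  have hXlim : ∀ (y : ℕ → D) (z : K) (b' : ℝ), (∀ᶠ k in (U : Filter ℕ), ‖L.J (y k)‖ ≤ b') →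
      (∀ χ' : L.C, Tendsto (fun k => ⟪L.J (y k), L.J (L.T (u k) χ')⟫_ℂ) U (𝓝 ⟪z, (χ' : K)⟫_ℂ)) →
      ∀ χ' : L.C, Tendsto (fun k => ⟪L.J (X (y k)), L.J (L.T (u k) χ')⟫_ℂ) U
      (𝓝 ⟪z, (Xi χ' : K)⟫_ℂ) := by
    intro y z b' hy hz χ'
    have h1 : Tendsto (fun k => ⟪L.J (y k), L.J (X (L.T (u k) χ')) - L.J (L.T (u k) (Xi χ'))⟫_ℂ) U
        (𝓝 0) := by
      rw [tendsto_zero_iff_norm_tendsto_zero]
      have h2 : Tendsto (fun k => b' * ‖L.J (X (L.T (u k) χ')) - L.J (L.T (u k) (Xi χ'))‖) U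
          (𝓝 0) := by
        simpa using ((hXT χ').comp huU).const_mul b'
      refine squeeze_zero' (Eventually.of_forall fun _ => norm_nonneg _) ?_ h2
      filter_upwards [hy] with k hk
      exact (norm_inner_le_norm _ _).trans (mul_le_mul_of_nonneg_right hk (norm_nonneg _))
    have h2 := h1.add (hz (Xi χ'))
    rw [zero_add] at h2
    refine h2.congr fun k => ?_
    rw [hXsymm, inner_sub_right]
    ring
  have hXf : ∀ χ' : L.C, ⟪f, (χ' : K)⟫_ℂ = ⟪f, (Xi χ' : K)⟫_ℂ := fun χ' => by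
    refine tendsto_nhds_unique (hf χ') ((hXlim φ f B (Eventually.of_forall hB) hf χ').congr
      fun k => ?_)
    rw [hX]
  have hwU : ∀ n, ∀ᶠ k in (U : Filter ℕ), ‖L.J (w n k)‖ ≤ ‖(χ n : K)‖ + 1 :=
    fun n => hr4 n 1 one_pos
  have hXw : ∀ (n : ℕ) (χ' : L.C), Tendsto (fun k => ⟪L.J (X (w n k)), L.J (L.T (u k) χ')⟫_ℂ) U
      (𝓝 ⟪r n, (Xi χ' : K)⟫_ℂ) := fun n => hXlim (w n) (r n) _ (hwU n) (hr1 n)
  -- the conditions
  have hev : ∀ n : ℕ, ∀ᶠ k in (U : Filter ℕ),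
      ‖L.J (w n k)‖ ≤ ‖(χ n : K)‖ + 1 / ((n : ℝ) + 1) ∧
      en L.J (L.Q (u k)) (w n k) ≤ P + 1 ∧
      (∀ i ≤ n, ‖⟪L.J (φ k - X (w n k)), L.J (L.T (u k) (ζ i))⟫_ℂ‖
        ≤ ‖⟪f - r n, (Xi (ζ i) : K)⟫_ℂ‖ + 1 / ((n : ℝ) + 1)) ∧
      (∀ i ≤ n, ‖⟪L.J (φ k), L.J (L.T (u k) (χ i))⟫_ℂ - ⟪f, (χ i : K)⟫_ℂ‖
        ≤ 1 / ((n : ℝ) + 1)) := by
    intro n
    have hs : (0 : ℝ) < 1 / ((n : ℝ) + 1) := by positivity
    refine (hr4 n _ hs).and (((hr3 n 1 one_pos).mono fun k hk => hk.trans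
      (by linarith [hP n])).and (Eventually.and ?_ ?_))
    · have : ∀ i ∈ Finset.range (n + 1), ∀ᶠ k in (U : Filter ℕ),
          ‖⟪L.J (φ k - X (w n k)), L.J (L.T (u k) (ζ i))⟫_ℂ‖
            ≤ ‖⟪f - r n, (Xi (ζ i) : K)⟫_ℂ‖ + 1 / ((n : ℝ) + 1) := by
        intro i _
        have h1 : Tendsto (fun k => ‖⟪L.J (φ k - X (w n k)), L.J (L.T (u k) (ζ i))⟫_ℂ‖) U
            (𝓝 ‖⟪f - r n, (Xi (ζ i) : K)⟫_ℂ‖) := by
          have h2 := ((hf (ζ i)).sub (hXw n (ζ i))).norm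
          rw [hXf, ← inner_sub_left] at h2
          refine h2.congr fun k => ?_
          rw [map_sub, inner_sub_left]
        exact (h1.eventually (gt_mem_nhds (show _ < ‖⟪f - r n, (Xi (ζ i) : K)⟫_ℂ‖
          + 1 / ((n : ℝ) + 1) by linarith))).mono fun k hk => le_of_lt hk
      have h2 := (Filter.eventually_all_finset (Finset.range (n + 1))).2 this
      filter_upwards [h2] with k hk i hi
      exact hk i (Finset.mem_range.2 (Nat.lt_succ_of_le hi))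
    · have : ∀ i ∈ Finset.range (n + 1), ∀ᶠ k in (U : Filter ℕ),
          ‖⟪L.J (φ k), L.J (L.T (u k) (χ i))⟫_ℂ - ⟪f, (χ i : K)⟫_ℂ‖ ≤ 1 / ((n : ℝ) + 1) := by
        intro i _
        have h1 := tendsto_iff_norm_sub_tendsto_zero.1 (hf (χ i))
        exact (h1.eventually (gt_mem_nhds hs)).mono fun k hk => le_of_lt hk
      have h2 := (Filter.eventually_all_finset (Finset.range (n + 1))).2 this
      filter_upwards [h2] with k hk i hi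
      exact hk i (Finset.mem_range.2 (Nat.lt_succ_of_le hi))
  obtain ⟨js, hjs, hP'⟩ := Filter.extraction_forall_of_frequently
    (fun n => ((hev n).frequently).filter_mono hU)
  have hu' : Tendsto (u ∘ js) atTop l := hu.comp hjs.tendsto_atTop
  -- the difference
  set ψ : ℕ → D := fun n => φ (js n) - X (w n (js n)) with hψ
  have hs1 : ∀ n : ℕ, 1 / ((n : ℝ) + 1) ≤ 1 := fun k => by
    rw [div_le_one (by positivity)]; linarith [show (0 : ℝ) ≤ k from by positivity]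
  have hwn : ∀ n, ‖L.J (w n (js n))‖ ≤ N1 + 1 := fun n =>
    (hP' n).1.trans (add_le_add (hN1 n) (hs1 n))
  have hψn : ∀ n, ‖L.J (ψ n)‖ ≤ B + (N1 + 1) := fun n => by
    rw [hψ]
    simp only [map_sub]
    exact (norm_sub_le _ _).trans (add_le_add (hB _) ((hXn _).trans (hwn n)))
  have hψe : ∀ n, en L.J (L.Q ((u ∘ js) n)) (ψ n)
      ≤ 2 * B + 2 * (b * ((N1 + 1) ^ 2 + (P + 1))) := by
    intro n
    have h1 : en L.J (L.Q (u (js n))) (ψ n) ≤ 2 * en L.J (L.Q (u (js n))) (φ (js n))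
        + 2 * en L.J (L.Q (u (js n))) (X (w n (js n))) := by
      unfold en
      rw [Finset.mul_sum, Finset.mul_sum, ← Finset.sum_add_distrib]
      refine Finset.sum_le_sum fun α _ => ?_
      rw [hψ]
      simp only [map_sub]
      have h2 := norm_sub_le (L.J (L.Q (u (js n)) α (φ (js n))))
        (L.J (L.Q (u (js n)) α (X (w n (js n)))))
      have h3 := norm_nonneg (L.J (L.Q (u (js n)) α (φ (js n)))
        - L.J (L.Q (u (js n)) α (X (w n (js n)))))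
      nlinarith [sq_nonneg (‖L.J (L.Q (u (js n)) α (φ (js n)))‖
        - ‖L.J (L.Q (u (js n)) α (X (w n (js n))))‖)]
    have h2 : en L.J (L.Q (u (js n))) (X (w n (js n))) ≤ b * ((N1 + 1) ^ 2 + (P + 1)) := by
      refine (hXE _ _).trans (mul_le_mul_of_nonneg_left ?_ hb)
      exact add_le_add (pow_le_pow_left₀ (norm_nonneg _) (hwn n) 2) (hP' n).2.1
    have h3 := hE (js n)
    simp only [Function.comp_apply]
    linarith
  have hψ0 : ∀ χ' : L.C, Tendsto (fun n => ⟪L.J (ψ n), L.J (L.T ((u ∘ js) n) χ')⟫_ℂ) atTop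
      (𝓝 0) := by
    -- dense sequence first
    have h1 : ∀ i, Tendsto (fun n => ⟪L.J (ψ n), L.J (L.T ((u ∘ js) n) (ζ i))⟫_ℂ) atTop
        (𝓝 0) := by
      intro i
      rw [tendsto_zero_iff_norm_tendsto_zero]
      have h2 : Tendsto (fun n : ℕ => ‖⟪f - r n, (Xi (ζ i) : K)⟫_ℂ‖ + 1 / ((n : ℝ) + 1)) atTop
          (𝓝 0) := by
        have h3 : Tendsto (fun n => ⟪f - r n, (Xi (ζ i) : K)⟫_ℂ) atTop
            (𝓝 ⟪f - f, (Xi (ζ i) : K)⟫_ℂ) :=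
          (tendsto_const_nhds.sub hr).inner tendsto_const_nhds
        rw [sub_self, inner_zero_left] at h3
        simpa using h3.norm.add h0
      refine squeeze_zero' (Eventually.of_forall fun _ => norm_nonneg _) ?_ h2
      filter_upwards [eventually_ge_atTop i] with n hn
      exact (hP' n).2.2.1 i hn
    intro χ'
    rw [Metric.tendsto_atTop]
    intro ε hε
    set M : ℝ := B + (N1 + 1) + 1 with hM
    have hM0 : 0 < M := by positivity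
    obtain ⟨i, hi⟩ := hζ.exists_dist_lt χ' (show (0 : ℝ) < ε / (2 * M) by positivity)
    have h2 : Tendsto (fun n => ‖L.J (L.T ((u ∘ js) n) (χ' - ζ i))‖) atTop
        (𝓝 ‖((χ' - ζ i : L.C) : K)‖) := (L.norm_T (χ' - ζ i)).comp hu'
    have h3 : ‖((χ' - ζ i : L.C) : K)‖ < ε / (2 * M) := by
      rw [dist_eq_norm] at hi
      exact hi
    have h4 := h2.eventually (gt_mem_nhds h3)
    have h5 := (tendsto_zero_iff_norm_tendsto_zero.1 (h1 i)).eventually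
      (gt_mem_nhds (show (0 : ℝ) < ε / 2 by positivity))
    obtain ⟨n0, hn0⟩ := eventually_atTop.1 (h4.and h5)
    refine ⟨n0, fun n hn => ?_⟩
    obtain ⟨h6, h7⟩ := hn0 n hn
    rw [dist_zero_right]
    have e1 : ⟪L.J (ψ n), L.J (L.T ((u ∘ js) n) χ')⟫_ℂ
        = ⟪L.J (ψ n), L.J (L.T ((u ∘ js) n) (χ' - ζ i))⟫_ℂ
          + ⟪L.J (ψ n), L.J (L.T ((u ∘ js) n) (ζ i))⟫_ℂ := by
      rw [← inner_add_right, ← map_add, ← map_add, sub_add_cancel]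
    rw [e1]
    calc _ ≤ ‖⟪L.J (ψ n), L.J (L.T ((u ∘ js) n) (χ' - ζ i))⟫_ℂ‖
          + ‖⟪L.J (ψ n), L.J (L.T ((u ∘ js) n) (ζ i))⟫_ℂ‖ := norm_add_le _ _
      _ ≤ M * (ε / (2 * M)) + ‖⟪L.J (ψ n), L.J (L.T ((u ∘ js) n) (ζ i))⟫_ℂ‖ := by
          gcongr
          exact (norm_inner_le_norm _ _).trans
            (mul_le_mul ((hψn n).trans (by linarith)) h6.le (norm_nonneg _) hM0.le)
      _ < M * (ε / (2 * M)) + ε / 2 := by linarith
      _ = ε := by field_simp; ring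
  -- CAP0
  set B' : ℝ := (B + (N1 + 1)) + (2 * B + 2 * (b * ((N1 + 1) ^ 2 + (P + 1)))) with hB'
  have hB2 : 0 ≤ 2 * B + 2 * (b * ((N1 + 1) ^ 2 + (P + 1))) := by positivity
  have hψz : Tendsto (fun n => ‖L.J (ψ n)‖) atTop (𝓝 0) :=
    cap0 (u ∘ js) hu' ψ B' (fun n => S.sub_mem (hS _) (hXS _))
      (fun n => (hψn n).trans (by linarith)) (fun n => (hψe n).trans (by linarith)) hψ0
  -- conclusion
  refine ⟨js, hjs, f, fun ε hε => ?_⟩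
  obtain ⟨m, hm⟩ : ∃ m, ‖f - (χ m : K)‖ < ε := by
    have h1 := (tendsto_iff_norm_sub_tendsto_zero.1 hχ1).eventually (gt_mem_nhds hε)
    obtain ⟨m, hm⟩ := h1.exists
    exact ⟨m, by rw [norm_sub_rev]; exact hm⟩
  refine ⟨χ m, hm, ?_⟩
  have h1 : Tendsto (fun n => (‖L.J (ψ n)‖ + (‖(χ n : K)‖ + 1 / ((n : ℝ) + 1))) ^ 2
      - 2 * (⟪L.J (φ (js n)), L.J (L.T (u (js n)) (χ m))⟫_ℂ).re
      + ‖L.J (L.T (u (js n)) (χ m))‖ ^ 2) atTop
      (𝓝 ((0 + (‖f‖ + 0)) ^ 2 - 2 * (⟪f, (χ m : K)⟫_ℂ).re + ‖(χ m : K)‖ ^ 2)) := by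
    have h2 : Tendsto (fun n => ⟪L.J (φ (js n)), L.J (L.T (u (js n)) (χ m))⟫_ℂ) atTop
        (𝓝 ⟪f, (χ m : K)⟫_ℂ) := by
      rw [tendsto_iff_norm_sub_tendsto_zero]
      refine squeeze_zero' (Eventually.of_forall fun _ => norm_nonneg _) ?_ h0
      filter_upwards [eventually_ge_atTop m] with n hn
      exact (hP' n).2.2.2 m hn
    exact (((hψz.add (hχ1.norm.add h0)).pow 2).sub
      (((Complex.continuous_re.tendsto _).comp h2).const_mul 2)).add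
      ((L.norm_T_sq (χ m)).comp hu')
  have h3 : (0 + (‖f‖ + 0)) ^ 2 - 2 * (⟪f, (χ m : K)⟫_ℂ).re + ‖(χ m : K)‖ ^ 2
      = ‖f - (χ m : K)‖ ^ 2 := by
    rw [norm_sub_sq (𝕜 := ℂ) f (χ m : K)]
    simp only [zero_add, add_zero]
    rfl
  rw [h3] at h1
  have h4 := h1.eventually (gt_mem_nhds (show ‖f - (χ m : K)‖ ^ 2 < ε ^ 2 from
    pow_lt_pow_left₀ hm (norm_nonneg _) two_ne_zero))
  filter_upwards [h4] with n hn
  simp only [Function.comp_apply]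
  have h5 : ‖L.J (φ (js n))‖ ≤ ‖L.J (ψ n)‖ + (‖(χ n : K)‖ + 1 / ((n : ℝ) + 1)) := by
    have e1 : L.J (φ (js n)) = L.J (ψ n) + L.J (X (w n (js n))) := by
      rw [hψ, ← map_add, sub_add_cancel]
    rw [e1]
    exact (norm_add_le _ _).trans (add_le_add le_rfl ((hXn _).trans (hP' n).1))
  have h6 : ‖L.J (φ (js n)) - L.J (L.T (u (js n)) (χ m))‖ ^ 2 < ε ^ 2 := by
    refine lt_of_le_of_lt ?_ hn
    rw [norm_sub_sq (𝕜 := ℂ)]
    have h7 := pow_le_pow_left₀ (norm_nonneg _) h5 2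
    have h8 : RCLike.re ⟪L.J (φ (js n)), L.J (L.T (u (js n)) (χ m))⟫_ℂ
        = (⟪L.J (φ (js n)), L.J (L.T (u (js n)) (χ m))⟫_ℂ).re := rfl
    rw [h8]
    linarith
  exact lt_of_pow_lt_pow_left₀ 2 hε.le h6

/-- The structure `Lim` of `AbsLow_811` (hence `Lim.dUp`, `Lim.lsc`, the calculus of `Capt`), for
the vectors fixed by the cut-off `X`. -/
def toLim [CompleteSpace K] [TopologicalSpace.SeparableSpace K] (S : Submodule ℂ D)
    (X : D →ₗ[ℂ] D) (Xi : L.C →ₗ[ℂ] L.C) (hXS : ∀ φ, X φ ∈ S)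
    (hXn : ∀ φ, ‖L.J (X φ)‖ ≤ ‖L.J φ‖)
    (hXsymm : ∀ φ ψ, ⟪L.J (X φ), L.J ψ⟫_ℂ = ⟪L.J φ, L.J (X ψ)⟫_ℂ)
    (b : ℝ) (hb : 0 ≤ b) (hXE : ∀ g φ, en L.J (L.Q g) (X φ) ≤ b * (‖L.J φ‖ ^ 2 + en L.J (L.Q g) φ))
    (hXT : ∀ χ : L.C, Tendsto (fun g => ‖L.J (X (L.T g χ)) - L.J (L.T g (Xi χ))‖) l (𝓝 0))
    (cap0 : ∀ (u : ℕ → I), Tendsto u atTop l → ∀ (φ : ℕ → D) (B : ℝ), (∀ k, φ k ∈ S) →
      (∀ k, ‖L.J (φ k)‖ ≤ B) → (∀ k, en L.J (L.Q (u k)) (φ k) ≤ B) →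
      (∀ χ : L.C, Tendsto (fun k => ⟪L.J (φ k), L.J (L.T (u k) χ)⟫_ℂ) atTop (𝓝 0)) →
      Tendsto (fun k => ‖L.J (φ k)‖) atTop (𝓝 0)) : Lim D E K ι I l where
  J := L.J
  Q := L.Q
  C := L.C
  T := L.T
  Qi := L.Qi
  S := {φ | φ ∈ S ∧ X φ = φ}
  symm := L.symm
  isom := L.isom
  cap u hu φ B hS hB hE := L.cap_of_cap0 S X Xi hXS hXn hXsymm b hb hXE hXT cap0 hu φ B
    (fun k => (hS k).1) (fun k => (hS k).2) hB hE
  dual u hu φ B _ hB hE χ α := L.dual u hu φ B hB hE χ α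

end Lim0

end

end Crest.Agent.R330.AbsCap811
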