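import Crest.Agent.R330.AbsGap_998

/-!
# Row 330 (helper998): sectors, counting of zero modes, constancy of their number

* `gap_of_esa'` : `gap_of_esa` without density of the core.
* `gap_of_sectors` : the gap from one sector with gap and a complement without zero modes.
* `AtLeast Q k` : there are `k` linearly independent zero modes.
* `atLeast_of_small`, `atLeast_of_almost` : counting from trial spaces; `exists_approx` : converse.
* `Family` : a family of operators on the same core with gap and relative continuity;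
  `Family.iff` : the number of zero modes is constant.
-/

set_option autoImplicit false

open Filter Topology
open scoped InnerProductSpace

noncomputable section

namespace Crest.Agent.R330.AbsGap998

variable {H H' : Type*} [NormedAddCommGroup H] [InnerProductSpace ℂ H] [NormedAddCommGroup H']
  [InnerProductSpace ℂ H'] {D : Submodule ℂ H} [CompleteSpace H]

/-! ### Sectors -/

/-- **The gap from the operator inequality**, the core not necessarily dense: `(1 + T) D` is dense in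
the closure of `D`. -/
theorem gap_of_esa' {Q : D →ₗ[ℂ] H'} {T : D →ₗ[ℂ] H}
    (hT : ∀ φ ψ : D, ⟪Q φ, Q ψ⟫_ℂ = ⟪T φ, (ψ : H)⟫_ℂ)
    (hTD : ∀ φ : D, T φ ∈ D.topologicalClosure)
    (hden : ∀ φ : D, (φ : H) ∈ closure (Set.range (oneAdd T)))
    {δ : ℝ} (hδ0 : 0 ≤ δ) (hδ : ∀ φ : D, δ * ‖Q φ‖ ^ 2 ≤ ‖T φ‖ ^ 2) : Gap Q δ := by
  set K : Submodule ℂ H := D.topologicalClosure with hK
  have : CompleteSpace K := D.isClosed_topologicalClosure.completeSpace_coe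
  let D' : Submodule ℂ K := D.comap K.subtype
  let e : D' →ₗ[ℂ] D := (K.subtype ∘ₗ D'.subtype).codRestrict D fun x => x.2
  have he : ∀ x : D', ((e x : D) : H) = ((x : K) : H) := fun _ => rfl
  let T' : D' →ₗ[ℂ] K := (T ∘ₗ e).codRestrict K fun x => hTD (e x)
  have hT'' : ∀ x : D', ((T' x : K) : H) = T (e x) := fun _ => rfl
  have h1 : ∀ φ ψ : D', ⟪(Q ∘ₗ e) φ, (Q ∘ₗ e) ψ⟫_ℂ = ⟪T' φ, (ψ : K)⟫_ℂ := fun φ ψ => hT (e φ) (e ψ)
  have hran : (fun x : K => (x : H)) '' Set.range (oneAdd T') = Set.range (oneAdd T) := by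
    ext y
    constructor
    · rintro ⟨_, ⟨x, rfl⟩, rfl⟩
      exact ⟨e x, rfl⟩
    · rintro ⟨x, rfl⟩
      exact ⟨_, ⟨⟨⟨(x : H), D.le_topologicalClosure x.2⟩, x.2⟩, rfl⟩, rfl⟩
  have hd : DenseRange (oneAdd T') := by
    intro y
    rw [Topology.IsInducing.subtypeVal.closure_eq_preimage_closure_image]
    change (y : H) ∈ closure ((fun x : K => (x : H)) '' Set.range (oneAdd T'))
    rw [hran]
    have h2 : closure (D : Set H) ⊆ closure (Set.range (oneAdd T)) :=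
      closure_minimal (fun φ hφ => hden ⟨φ, hφ⟩) isClosed_closure
    exact h2 y.2
  have hg : Gap (Q ∘ₗ e) δ := gap_of_esa h1 hd hδ0 fun φ => hδ (e φ)
  refine gap_of_exists hδ0 fun φ => ?_
  let φ' : D' := ⟨⟨(φ : H), D.le_topologicalClosure φ.2⟩, φ.2⟩
  have hm : (zker (Q ∘ₗ e)).starProjection (φ' : K) ∈ zker (Q ∘ₗ e) :=
    (zker (Q ∘ₗ e)).starProjection_apply_mem (φ' : K)
  refine ⟨(((zker (Q ∘ₗ e)).starProjection (φ' : K) : K) : H), ?_, hg φ'⟩
  obtain ⟨χ, h3, h4⟩ := hm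
  exact ⟨fun k => e (χ k), (continuous_subtype_val.tendsto _).comp h3, h4⟩

omit [CompleteSpace H] in
theorem closure_orthogonal {D₀ : Submodule ℂ H} {x y : H} (hx : ∀ φ ∈ D₀, ⟪φ, x⟫_ℂ = 0)
    (hy : y ∈ D₀.topologicalClosure) : ⟪y, x⟫_ℂ = 0 := by
  have h1 : IsClosed {y : H | ⟪y, x⟫_ℂ = 0} := isClosed_eq (by fun_prop) continuous_const
  exact h1.closure_subset_iff.2 (fun φ hφ => hx φ hφ) hy

/-- **Sectors**: a sector `D₀` with gap, and `‖Q φ‖² ≥ ‖Q φ₀‖² + δ ‖φ - φ₀‖²` with `φ - φ₀`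
orthogonal to the sector. -/
theorem gap_of_sectors {Q : D →ₗ[ℂ] H'} {D₀ : Submodule ℂ H} (h₀ : D₀ ≤ D) {δ : ℝ} (hδ : 0 ≤ δ)
    (hg : Gap (Q ∘ₗ Submodule.inclusion h₀) δ)
    (h : ∀ φ : D, ∃ φ₀ : D₀, (∀ η ∈ D₀, ⟪η, (φ : H) - φ₀⟫_ℂ = 0) ∧
      ‖Q (Submodule.inclusion h₀ φ₀)‖ ^ 2 + δ * ‖(φ : H) - φ₀‖ ^ 2 ≤ ‖Q φ‖ ^ 2) : Gap Q δ := by
  refine gap_of_exists hδ fun φ => ?_
  obtain ⟨φ₀, h1, h2⟩ := h φ
  set P₀ := (zker (Q ∘ₗ Submodule.inclusion h₀)).starProjection with hP₀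
  have hm : P₀ (φ₀ : H) ∈ zker (Q ∘ₗ Submodule.inclusion h₀) :=
    (zker (Q ∘ₗ Submodule.inclusion h₀)).starProjection_apply_mem _
  refine ⟨P₀ (φ₀ : H), zker_restrict_le h₀ Q hm, ?_⟩
  have h3 := hg φ₀
  rw [← hP₀] at h3
  have h4 : (φ₀ : H) - P₀ (φ₀ : H) ∈ D₀.topologicalClosure :=
    sub_mem (D₀.le_topologicalClosure φ₀.2) (zker_le_closure _ hm)
  have h5 : ⟪(φ₀ : H) - P₀ (φ₀ : H), (φ : H) - φ₀⟫_ℂ = 0 := closure_orthogonal h1 h4
  have h6 : ‖(φ : H) - P₀ (φ₀ : H)‖ ^ 2 = ‖(φ₀ : H) - P₀ (φ₀ : H)‖ ^ 2 + ‖(φ : H) - φ₀‖ ^ 2 := by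
    have h7 := norm_add_sq_eq_norm_sq_add_norm_sq_of_inner_eq_zero
      ((φ₀ : H) - P₀ (φ₀ : H)) ((φ : H) - φ₀) h5
    have e1 : (φ₀ : H) - P₀ (φ₀ : H) + ((φ : H) - φ₀) = (φ : H) - P₀ (φ₀ : H) := by abel
    rw [e1] at h7
    rw [sq, sq, sq]
    exact h7
  rw [h6]
  have h8 : ‖(Q ∘ₗ Submodule.inclusion h₀) φ₀‖ ^ 2 = ‖Q (Submodule.inclusion h₀ φ₀)‖ ^ 2 := rfl
  rw [h8] at h3
  linarith

/-! ### Counting -/

/-- There are `k` linearly independent zero modes. -/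
def AtLeast (Q : D →ₗ[ℂ] H') (k : ℕ) : Prop :=
  ∃ v : Fin k → H, (∀ i, v i ∈ zker Q) ∧ LinearIndependent ℂ v

/-- **Counting**: a trial space of dimension `k` on which `‖Q w‖² < δ ‖w‖²`. -/
theorem atLeast_of_small {Q : D →ₗ[ℂ] H'} {δ : ℝ} (hg : Gap Q δ) {k : ℕ} (w : Fin k → D)
    (h : ∀ c : Fin k → ℂ, c ≠ 0 →
      ‖Q (∑ i, c i • w i)‖ ^ 2 < δ * ‖((∑ i, c i • w i : D) : H)‖ ^ 2) : AtLeast Q k := by
  refine ⟨fun i => (zker Q).starProjection (w i : H),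
    fun i => (zker Q).starProjection_apply_mem _, ?_⟩
  rw [Fintype.linearIndependent_iff]
  intro c hc
  by_contra hne
  have hc0 : c ≠ 0 := fun h' => hne fun i => by rw [h']; rfl
  have h1 := hg (∑ i, c i • w i)
  have h2 : (zker Q).starProjection ((∑ i, c i • w i : D) : H) = 0 := by
    rw [← hc, Submodule.coe_sum, map_sum]
    refine Finset.sum_congr rfl fun i _ => ?_
    rw [Submodule.coe_smul, map_smul]
  rw [h2, sub_zero] at h1
  exact absurd (h c hc0) (not_lt.2 h1)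

/-- The same for almost orthonormal trial vectors. -/
theorem atLeast_of_almost {Q : D →ₗ[ℂ] H'} {δ : ℝ} (hδ : 0 < δ) (hg : Gap Q δ) {k : ℕ}
    (w : Fin k → D)
    (hw : ∀ i j, ‖⟪(w i : H), (w j : H)⟫_ℂ - (if i = j then 1 else 0)‖ ≤ 1 / (2 * (k + 1)))
    (hQ : ∑ i, ‖Q (w i)‖ ^ 2 < δ / 2) : AtLeast Q k := by
  refine atLeast_of_small hg w fun c hc => ?_
  set S : ℝ := ∑ i, ‖c i‖ ^ 2 with hS
  have hS0 : 0 < S := by
    obtain ⟨i, hi⟩ : ∃ i, c i ≠ 0 := by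
      by_contra hcon
      push Not at hcon
      exact hc (funext hcon)
    exact Finset.sum_pos' (fun i _ => sq_nonneg _) ⟨i, Finset.mem_univ i, by positivity⟩
  have h1 : ‖Q (∑ i, c i • w i)‖ ^ 2 ≤ S * ∑ i, ‖Q (w i)‖ ^ 2 := by
    have h2 : ‖Q (∑ i, c i • w i)‖ ≤ ∑ i, ‖c i‖ * ‖Q (w i)‖ := by
      rw [map_sum]
      refine (norm_sum_le _ _).trans (Finset.sum_le_sum fun i _ => ?_)
      rw [map_smul, norm_smul]
    calc ‖Q (∑ i, c i • w i)‖ ^ 2 ≤ (∑ i, ‖c i‖ * ‖Q (w i)‖) ^ 2 := by gcongr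
      _ ≤ S * ∑ i, ‖Q (w i)‖ ^ 2 := Finset.sum_mul_sq_le_sq_mul_sq _ _ _
  have h2 : S / 2 ≤ ‖((∑ i, c i • w i : D) : H)‖ ^ 2 := by
    have e1 : ((∑ i, c i • w i : D) : H) = ∑ i, c i • (w i : H) := by
      rw [Submodule.coe_sum]
      rfl
    have e2 : (⟪∑ i, c i • (w i : H), ∑ j, c j • (w j : H)⟫_ℂ) =
        ∑ i, ∑ j, (starRingEnd ℂ) (c i) * (c j * ⟪(w i : H), (w j : H)⟫_ℂ) := by
      rw [sum_inner]
      refine Finset.sum_congr rfl fun i _ => ?_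
      rw [inner_sum]
      refine Finset.sum_congr rfl fun j _ => ?_
      rw [inner_smul_left, inner_smul_right]
    have e3 : (⟪∑ i, c i • (w i : H), ∑ j, c j • (w j : H)⟫_ℂ) - (S : ℂ) =
        ∑ i, ∑ j, (starRingEnd ℂ) (c i) * (c j * (⟪(w i : H), (w j : H)⟫_ℂ -
          (if i = j then 1 else 0))) := by
      rw [e2, eq_comm]
      have e4 : ∀ i, ∑ j, (starRingEnd ℂ) (c i) * (c j * (⟪(w i : H), (w j : H)⟫_ℂ -
          (if i = j then 1 else 0))) = ∑ j, (starRingEnd ℂ) (c i) *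
            (c j * ⟪(w i : H), (w j : H)⟫_ℂ) - ((‖c i‖ ^ 2 : ℝ) : ℂ) := fun i => by
        have e5 : ((‖c i‖ ^ 2 : ℝ) : ℂ) = ∑ j, (starRingEnd ℂ) (c i) * (c j *
            (if i = j then 1 else 0)) := by
          rw [Finset.sum_eq_single i]
          · rw [if_pos rfl, mul_one, ← Complex.normSq_eq_conj_mul_self, Complex.normSq_eq_norm_sq]
          · intro j _ hj
            rw [if_neg (Ne.symm hj), mul_zero, mul_zero]
          · intro h
            exact absurd (Finset.mem_univ i) h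
        rw [e5, ← Finset.sum_sub_distrib]
        refine Finset.sum_congr rfl fun j _ => ?_
        ring
      simp only [e4]
      rw [Finset.sum_sub_distrib, hS]
      push_cast
      ring
    have h3 : ‖(⟪∑ i, c i • (w i : H), ∑ j, c j • (w j : H)⟫_ℂ) - (S : ℂ)‖ ≤ S / 2 := by
      rw [e3]
      have h4 : ‖∑ i, ∑ j, (starRingEnd ℂ) (c i) * (c j * (⟪(w i : H), (w j : H)⟫_ℂ -
          (if i = j then 1 else 0)))‖ ≤ ∑ i, ∑ j, ‖c i‖ * (‖c j‖ * (1 / (2 * (k + 1)))) := by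
        refine (norm_sum_le _ _).trans (Finset.sum_le_sum fun i _ => ?_)
        refine (norm_sum_le _ _).trans (Finset.sum_le_sum fun j _ => ?_)
        rw [norm_mul, norm_mul, RCLike.norm_conj]
        gcongr
        exact hw i j
      refine h4.trans ?_
      have h5 : ∑ i, ∑ j, ‖c i‖ * (‖c j‖ * (1 / (2 * ((k : ℝ) + 1)))) =
          (∑ i, ‖c i‖) ^ 2 * (1 / (2 * (k + 1))) := by
        rw [sq, Finset.sum_mul_sum, Finset.sum_mul]
        refine Finset.sum_congr rfl fun i _ => ?_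
        rw [Finset.sum_mul]
        refine Finset.sum_congr rfl fun j _ => ?_
        ring
      have h6 : (∑ i, ‖c i‖) ^ 2 ≤ k * S := by
        have h7 := Finset.sum_mul_sq_le_sq_mul_sq (Finset.univ : Finset (Fin k)) (fun _ => (1 : ℝ))
          fun i => ‖c i‖
        simpa using h7
      rw [h5]
      have h8 : (∑ i, ‖c i‖) ^ 2 * (1 / (2 * ((k : ℝ) + 1))) ≤ k * S * (1 / (2 * (k + 1))) :=
        mul_le_mul_of_nonneg_right h6 (by positivity)
      refine h8.trans ?_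
      rw [mul_one_div, div_le_iff₀ (by positivity)]
      nlinarith [hS0]
    have h9 : RCLike.re (⟪∑ i, c i • (w i : H), ∑ j, c j • (w j : H)⟫_ℂ) ≥ S - S / 2 := by
      have h10 := Complex.abs_re_le_norm ((⟪∑ i, c i • (w i : H), ∑ j, c j • (w j : H)⟫_ℂ) - (S : ℂ))
      have h11 := (abs_le.1 (h10.trans h3)).1
      rw [Complex.sub_re, Complex.ofReal_re] at h11
      have h12 : RCLike.re (⟪∑ i, c i • (w i : H), ∑ j, c j • (w j : H)⟫_ℂ) =
          (⟪∑ i, c i • (w i : H), ∑ j, c j • (w j : H)⟫_ℂ).re := rfl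
      rw [h12]
      linarith
    rw [e1, ← inner_self_eq_norm_sq (𝕜 := ℂ)]
    linarith
  have h3 : S * ∑ i, ‖Q (w i)‖ ^ 2 < S * (δ / 2) := mul_lt_mul_of_pos_left hQ hS0
  have h4 : S * (δ / 2) ≤ δ * ‖((∑ i, c i • w i : D) : H)‖ ^ 2 := by
    nlinarith [mul_le_mul_of_nonneg_left h2 hδ.le]
  linarith

omit [CompleteSpace H] in
/-- **Approximation of zero modes** by core vectors, uniformly on a finite-dimensional space. -/
theorem exists_approx {Q : D →ₗ[ℂ] H'} {k : ℕ} {v : Fin k → H} (hv : ∀ i, v i ∈ zker Q)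
    (hli : LinearIndependent ℂ v) {η : ℝ} (hη : 0 < η) :
    ∃ w : Fin k → D, ∀ c : Fin k → ℂ,
      ‖((∑ i, c i • w i : D) : H) - ∑ i, c i • v i‖ ≤ η * ‖∑ i, c i • v i‖ ∧
      ‖Q (∑ i, c i • w i)‖ ≤ η * ‖∑ i, c i • v i‖ := by
  -- equivalence of norms
  obtain ⟨m, hm, hm'⟩ : ∃ m : ℝ, 0 < m ∧ ∀ c : Fin k → ℂ, m * ∑ i, ‖c i‖ ≤ ‖∑ i, c i • v i‖ := by
    have hinj : LinearMap.ker (Fintype.linearCombination ℂ v) = ⊥ := by
      rw [LinearMap.ker_eq_bot']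
      intro c hc
      rw [Fintype.linearCombination_apply] at hc
      exact funext ((Fintype.linearIndependent_iff.1 hli) c hc)
    obtain ⟨C, hC, hA⟩ := LinearMap.exists_antilipschitzWith (Fintype.linearCombination ℂ v) hinj
    refine ⟨1 / ((k + 1) * C), by positivity, fun c => ?_⟩
    have h1 : ‖c‖ ≤ C * ‖∑ i, c i • v i‖ := by
      have h2 := hA.le_mul_dist c 0
      rwa [dist_zero_right, map_zero, dist_zero_right, Fintype.linearCombination_apply] at h2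
    have h2 : ∑ i, ‖c i‖ ≤ k * ‖c‖ := by
      have h3 : ∑ i, ‖c i‖ ≤ ∑ _i : Fin k, ‖c‖ := Finset.sum_le_sum fun i _ => norm_le_pi_norm c i
      simpa using h3
    rw [one_div, inv_mul_le_iff₀ (by positivity)]
    have h4 : (0 : ℝ) ≤ ‖∑ i, c i • v i‖ := norm_nonneg _
    have h5 : (0 : ℝ) < C := by exact_mod_cast hC
    calc ∑ i, ‖c i‖ ≤ k * ‖c‖ := h2
      _ ≤ k * (C * ‖∑ i, c i • v i‖) := by gcongr
      _ ≤ (k + 1) * C * ‖∑ i, c i • v i‖ := by nlinarith [mul_nonneg h5.le h4]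
  choose w h1 h2 using fun i => (mem_zker_iff (Q := Q)).1 (hv i) (η * m) (by positivity)
  refine ⟨w, fun c => ⟨?_, ?_⟩⟩
  · have e1 : ((∑ i, c i • w i : D) : H) - ∑ i, c i • v i = ∑ i, c i • ((w i : H) - v i) := by
      rw [Submodule.coe_sum, ← Finset.sum_sub_distrib]
      refine Finset.sum_congr rfl fun i _ => ?_
      rw [Submodule.coe_smul, smul_sub]
    rw [e1]
    calc ‖∑ i, c i • ((w i : H) - v i)‖ ≤ ∑ i, ‖c i‖ * (η * m) := by
          refine (norm_sum_le _ _).trans (Finset.sum_le_sum fun i _ => ?_)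
          rw [norm_smul]
          exact mul_le_mul_of_nonneg_left (h1 i).le (norm_nonneg _)
      _ = η * (m * ∑ i, ‖c i‖) := by rw [← Finset.sum_mul]; ring
      _ ≤ η * ‖∑ i, c i • v i‖ := mul_le_mul_of_nonneg_left (hm' c) hη.le
  · rw [map_sum]
    calc ‖∑ i, Q (c i • w i)‖ ≤ ∑ i, ‖c i‖ * (η * m) := by
          refine (norm_sum_le _ _).trans (Finset.sum_le_sum fun i _ => ?_)
          rw [map_smul, norm_smul]
          exact mul_le_mul_of_nonneg_left (h2 i).le (norm_nonneg _)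
      _ = η * (m * ∑ i, ‖c i‖) := by rw [← Finset.sum_mul]; ring
      _ ≤ η * ‖∑ i, c i • v i‖ := mul_le_mul_of_nonneg_left (hm' c) hη.le

end Crest.Agent.R330.AbsGap998

end
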