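import Mathlib

/-!
# Row 330 (helper998): the abstract Hilbert space layer (gap, counting of zero modes, constancy)

`D` a subspace (the core) of a complex Hilbert space `H`, `Q : D → H'` linear (all supercharges at
once), no closability needed.

* `zker Q` : limits of core vectors `φ_k` with `Q φ_k → 0` (closed subspace).
* `Gap Q δ` : `δ ‖φ - P φ‖² ≤ ‖Q φ‖²` on the core, `P` the orthogonal projection on `zker Q`.
* `gap_of_esa` : the gap from `δ ⟨T φ, φ⟩ ≤ ‖T φ‖²`, `⟨Q φ, Q ψ⟩ = ⟨T φ, ψ⟩`, and density of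
  `(1 + T) D`.
-/

set_option autoImplicit false

open Filter Topology
open scoped InnerProductSpace

noncomputable section

namespace Crest.Agent.R330.AbsGap998

variable {H H' : Type*} [NormedAddCommGroup H] [InnerProductSpace ℂ H] [NormedAddCommGroup H']
  [InnerProductSpace ℂ H'] {D : Submodule ℂ H}

/-! ### Zero modes -/

/-- **The zero modes**: limits of core vectors `φ_k` with `Q φ_k → 0`. -/
def zker (Q : D →ₗ[ℂ] H') : Submodule ℂ H where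
  carrier := {ψ | ∃ φ : ℕ → D, Tendsto (fun k => (φ k : H)) atTop (𝓝 ψ) ∧
    Tendsto (fun k => Q (φ k)) atTop (𝓝 0)}
  add_mem' := by
    rintro a b ⟨φ, h1, h2⟩ ⟨φ', h1', h2'⟩
    refine ⟨fun k => φ k + φ' k, ?_, ?_⟩
    · simpa using h1.add h1'
    · simpa using h2.add h2'
  zero_mem' := ⟨fun _ => 0, by simp, by simp⟩
  smul_mem' := by
    rintro c a ⟨φ, h1, h2⟩
    refine ⟨fun k => c • φ k, ?_, ?_⟩
    · simpa using h1.const_smul c
    · simpa using h2.const_smul c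

theorem mem_zker {Q : D →ₗ[ℂ] H'} {ψ : H} : ψ ∈ zker Q ↔ ∃ φ : ℕ → D,
    Tendsto (fun k => (φ k : H)) atTop (𝓝 ψ) ∧ Tendsto (fun k => Q (φ k)) atTop (𝓝 0) := Iff.rfl

theorem mem_zker_iff {Q : D →ₗ[ℂ] H'} {ψ : H} :
    ψ ∈ zker Q ↔ ∀ ε : ℝ, 0 < ε → ∃ φ : D, ‖(φ : H) - ψ‖ < ε ∧ ‖Q φ‖ < ε := by
  constructor
  · rintro ⟨φ, h1, h2⟩ ε hε
    have h1' : ∀ᶠ k in atTop, ‖(φ k : H) - ψ‖ < ε := by
      have := (tendsto_iff_norm_sub_tendsto_zero.1 h1).eventually (gt_mem_nhds hε)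
      exact this
    have h2' : ∀ᶠ k in atTop, ‖Q (φ k)‖ < ε := by
      have := (tendsto_zero_iff_norm_tendsto_zero.1 h2).eventually (gt_mem_nhds hε)
      exact this
    obtain ⟨k, hk, hk'⟩ := (h1'.and h2').exists
    exact ⟨φ k, hk, hk'⟩
  · intro h
    have hpos : ∀ k : ℕ, (0 : ℝ) < 1 / ((k : ℝ) + 1) := fun k => by positivity
    choose φ h1 h2 using fun k : ℕ => h (1 / ((k : ℝ) + 1)) (hpos k)
    refine ⟨φ, ?_, ?_⟩
    · rw [tendsto_iff_norm_sub_tendsto_zero]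
      exact squeeze_zero (fun _ => norm_nonneg _) (fun k => (h1 k).le)
        tendsto_one_div_add_atTop_nhds_zero_nat
    · rw [tendsto_zero_iff_norm_tendsto_zero]
      exact squeeze_zero (fun _ => norm_nonneg _) (fun k => (h2 k).le)
        tendsto_one_div_add_atTop_nhds_zero_nat

theorem isClosed_zker (Q : D →ₗ[ℂ] H') : IsClosed (zker Q : Set H) := by
  rw [← closure_subset_iff_isClosed]
  intro ψ hψ
  refine (mem_zker_iff (Q := Q)).2 fun ε hε => ?_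
  obtain ⟨ψ', hψ', hd⟩ := Metric.mem_closure_iff.1 hψ (ε / 2) (half_pos hε)
  obtain ⟨φ, h1, h2⟩ := (mem_zker_iff (Q := Q)).1 hψ' (ε / 2) (half_pos hε)
  refine ⟨φ, ?_, h2.trans (half_lt_self hε)⟩
  have : ‖(φ : H) - ψ‖ ≤ ‖(φ : H) - ψ'‖ + ‖ψ' - ψ‖ := norm_sub_le_norm_sub_add_norm_sub _ _ _
  rw [dist_comm, dist_eq_norm] at hd
  linarith

/-- A core vector with `Q φ = 0` is a zero mode. -/
theorem mem_zker_of_eq_zero {Q : D →ₗ[ℂ] H'} {φ : D} (h : Q φ = 0) : (φ : H) ∈ zker Q :=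
  ⟨fun _ => φ, tendsto_const_nhds, by simp [h]⟩

theorem zker_le_closure (Q : D →ₗ[ℂ] H') : zker Q ≤ D.topologicalClosure := by
  rintro ψ ⟨φ, h1, -⟩
  exact mem_closure_of_tendsto h1 (Eventually.of_forall fun k => (φ k).2)

/-- Fewer core vectors, fewer zero modes. -/
theorem zker_restrict_le {D₀ : Submodule ℂ H} (h : D₀ ≤ D) (Q : D →ₗ[ℂ] H') :
    zker (Q ∘ₗ Submodule.inclusion h) ≤ zker Q := by
  rintro ψ ⟨φ, h1, h2⟩
  exact ⟨fun k => Submodule.inclusion h (φ k), h1, h2⟩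

section complete

variable [CompleteSpace H]

instance instHasProj (Q : D →ₗ[ℂ] H') : (zker Q).HasOrthogonalProjection := by
  have : CompleteSpace (zker Q) := (isClosed_zker Q).completeSpace_coe
  infer_instance

/-- **The gap inequality** on the core. -/
def Gap (Q : D →ₗ[ℂ] H') (δ : ℝ) : Prop :=
  ∀ φ : D, δ * ‖(φ : H) - (zker Q).starProjection (φ : H)‖ ^ 2 ≤ ‖Q φ‖ ^ 2

theorem norm_sub_proj_le (Q : D →ₗ[ℂ] H') (φ : H) {ψ : H} (hψ : ψ ∈ zker Q) :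
    ‖φ - (zker Q).starProjection φ‖ ≤ ‖φ - ψ‖ := by
  have h1 := (zker Q).starProjection_minimal φ
  rw [h1]
  exact ciInf_le ⟨0, by rintro _ ⟨x, rfl⟩; exact norm_nonneg _⟩ (⟨ψ, hψ⟩ : zker Q)

/-- The gap from any approximation by zero modes. -/
theorem gap_of_exists {Q : D →ₗ[ℂ] H'} {δ : ℝ} (hδ : 0 ≤ δ)
    (h : ∀ φ : D, ∃ ψ ∈ zker Q, δ * ‖(φ : H) - ψ‖ ^ 2 ≤ ‖Q φ‖ ^ 2) : Gap Q δ := by
  intro φ
  obtain ⟨ψ, hψ, h1⟩ := h φ
  refine le_trans ?_ h1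
  have := norm_sub_proj_le Q (φ : H) hψ
  gcongr

theorem Gap.mono {Q : D →ₗ[ℂ] H'} {δ δ' : ℝ} (h : Gap Q δ) (hδ : δ' ≤ δ) : Gap Q δ' := fun φ =>
  (mul_le_mul_of_nonneg_right hδ (sq_nonneg _)).trans (h φ)

/-! ### The resolvent -/

section esa

variable {Q : D →ₗ[ℂ] H'} {T : D →ₗ[ℂ] H}

/-- `1 + T`. -/
def oneAdd (T : D →ₗ[ℂ] H) : D →ₗ[ℂ] H := D.subtype + T

@[simp] theorem oneAdd_apply (T : D →ₗ[ℂ] H) (φ : D) : oneAdd T φ = (φ : H) + T φ := rfl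

theorem re_inner_T (hT : ∀ φ ψ : D, ⟪Q φ, Q ψ⟫_ℂ = ⟪T φ, (ψ : H)⟫_ℂ) (φ : D) :
    RCLike.re ⟪T φ, (φ : H)⟫_ℂ = ‖Q φ‖ ^ 2 := by
  rw [← hT φ φ, inner_self_eq_norm_sq]

theorem norm_le_oneAdd (hT : ∀ φ ψ : D, ⟪Q φ, Q ψ⟫_ℂ = ⟪T φ, (ψ : H)⟫_ℂ) (φ : D) :
    ‖(φ : H)‖ ≤ ‖oneAdd T φ‖ := by
  have h1 : ‖(φ : H)‖ ^ 2 ≤ ‖oneAdd T φ‖ * ‖(φ : H)‖ := by
    have h2 : RCLike.re ⟪oneAdd T φ, (φ : H)⟫_ℂ = ‖(φ : H)‖ ^ 2 + ‖Q φ‖ ^ 2 := by
      rw [oneAdd_apply, inner_add_left, map_add, re_inner_T hT, inner_self_eq_norm_sq]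
    have h3 : RCLike.re ⟪oneAdd T φ, (φ : H)⟫_ℂ ≤ ‖oneAdd T φ‖ * ‖(φ : H)‖ :=
      re_inner_le_norm _ _
    nlinarith [sq_nonneg ‖Q φ‖]
  rcases (norm_nonneg (φ : H)).eq_or_lt with h | h
  · rw [← h]
    exact norm_nonneg _
  · nlinarith

/-- The resolvent `(1 + T)⁻¹`. -/
def res (T : D →ₗ[ℂ] H) : H →L[ℂ] H := (D.subtype).extendOfNorm (oneAdd T)

variable (hT : ∀ φ ψ : D, ⟪Q φ, Q ψ⟫_ℂ = ⟪T φ, (ψ : H)⟫_ℂ)
  (hden : DenseRange (oneAdd T))
include hT hden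

theorem res_oneAdd (φ : D) : res T (oneAdd T φ) = (φ : H) := by
  have h := LinearMap.extendOfNorm_eq (f := D.subtype) (e := oneAdd T) hden
    ⟨1, fun x => by rw [one_mul]; exact norm_le_oneAdd hT x⟩ φ
  exact h

/-- A closed property of `f`, `res f` holds if it holds on the core. -/
theorem res_induction {p : H → Prop} (hp : IsClosed {f | p f}) (h : ∀ φ : D, p (oneAdd T φ))
    (f : H) : p f := by
  have h1 : closure (Set.range (oneAdd T)) ⊆ {f | p f} :=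
    hp.closure_subset_iff.2 (by rintro _ ⟨φ, rfl⟩; exact h φ)
  exact h1 (hden f)

theorem res_symm (f g : H) : ⟪res T f, g⟫_ℂ = ⟪f, res T g⟫_ℂ := by
  refine res_induction hT hden (p := fun f => ⟪res T f, g⟫_ℂ = ⟪f, res T g⟫_ℂ)
    (isClosed_eq (by fun_prop) (by fun_prop)) (fun φ => ?_) f
  refine res_induction hT hden (p := fun g => ⟪res T (oneAdd T φ), g⟫_ℂ =
    ⟪oneAdd T φ, res T g⟫_ℂ) (isClosed_eq (by fun_prop) (by fun_prop)) (fun ψ => ?_) g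
  rw [res_oneAdd hT hden, res_oneAdd hT hden, oneAdd_apply, oneAdd_apply, inner_add_left,
    inner_add_right, ← hT φ ψ]
  congr 1
  rw [← inner_conj_symm, ← hT ψ φ, inner_conj_symm]

theorem res_sq_le (f : H) : ‖res T f‖ ^ 2 ≤ RCLike.re ⟪res T f, f⟫_ℂ := by
  refine res_induction hT hden (p := fun f => ‖res T f‖ ^ 2 ≤ RCLike.re ⟪res T f, f⟫_ℂ)
    (isClosed_le (by fun_prop) (by fun_prop)) (fun φ => ?_) f
  rw [res_oneAdd hT hden, oneAdd_apply, inner_add_right, map_add, inner_self_eq_norm_sq]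
  have h1 : RCLike.re ⟪(φ : H), T φ⟫_ℂ = ‖Q φ‖ ^ 2 := by
    rw [← re_inner_T hT φ]
    exact inner_re_symm _ _
  rw [h1]
  nlinarith [sq_nonneg ‖Q φ‖]

theorem res_gap {δ : ℝ} (hδ : ∀ φ : D, δ * ‖Q φ‖ ^ 2 ≤ ‖T φ‖ ^ 2) (f : H) :
    δ * RCLike.re ⟪f - res T f, res T f⟫_ℂ ≤ ‖f - res T f‖ ^ 2 := by
  refine res_induction hT hden (p := fun f => δ * RCLike.re ⟪f - res T f, res T f⟫_ℂ ≤
    ‖f - res T f‖ ^ 2) (isClosed_le (by fun_prop) (by fun_prop)) (fun φ => ?_) f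
  rw [res_oneAdd hT hden, oneAdd_apply, add_sub_cancel_left, re_inner_T hT]
  exact hδ φ

/-- Zero modes are the fixed vectors of the resolvent. -/
theorem mem_zker_iff_res {ψ : H} : ψ ∈ zker Q ↔ res T ψ = ψ := by
  constructor
  · rintro ⟨φ, h1, h2⟩
    have key : ∀ f : H, ⟪ψ, f⟫_ℂ = ⟪ψ, res T f⟫_ℂ := by
      refine res_induction hT hden (isClosed_eq (by fun_prop) (by fun_prop)) fun η => ?_
      rw [res_oneAdd hT hden, oneAdd_apply, inner_add_right]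
      have h3 : Tendsto (fun k => ⟪(φ k : H), T η⟫_ℂ) atTop (𝓝 ⟪ψ, T η⟫_ℂ) :=
        h1.inner tendsto_const_nhds
      have h4 : Tendsto (fun k => ⟪(φ k : H), T η⟫_ℂ) atTop (𝓝 0) := by
        have h5 : ∀ k, ⟪(φ k : H), T η⟫_ℂ = ⟪Q (φ k), Q η⟫_ℂ := fun k => by
          rw [← inner_conj_symm, ← hT η (φ k), inner_conj_symm]
        simp only [h5]
        have h6 : Tendsto (fun k => ⟪Q (φ k), Q η⟫_ℂ) atTop (𝓝 ⟪(0 : H'), Q η⟫_ℂ) :=
          h2.inner tendsto_const_nhds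
        rwa [inner_zero_left] at h6
      rw [tendsto_nhds_unique h3 h4, add_zero]
    have h3 : ∀ f : H, ⟪res T ψ - ψ, f⟫_ℂ = 0 := fun f => by
      rw [inner_sub_left, res_symm hT hden, ← key f, sub_self]
    exact sub_eq_zero.1 (inner_self_eq_zero.1 (h3 _))
  · intro h
    refine (mem_zker_iff (Q := Q)).2 fun ε hε => ?_
    obtain ⟨η, hη⟩ : ∃ η : ℝ, 0 < η ∧ ∀ x y : ℝ, |x| < η → |y| < η → True := ⟨1, one_pos, by simp⟩
    -- approximate `ψ` by `(1 + T) φ`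
    set M : ℝ := ‖ψ‖ + 1 with hM
    have hMpos : 0 < M := by positivity
    set r : ℝ := min (min ε 1) (ε ^ 2 / (4 * (M + 1))) with hr
    have hrpos : 0 < r := by positivity
    obtain ⟨_, ⟨φ, rfl⟩, hφ⟩ := Metric.mem_closure_iff.1 (hden ψ) (r / 2) (half_pos hrpos)
    rw [dist_comm, dist_eq_norm] at hφ
    have e1 : (φ : H) - ψ = res T (oneAdd T φ - ψ) := by
      rw [map_sub, res_oneAdd hT hden, h]
    have hB : ∀ f : H, ‖res T f‖ ≤ ‖f‖ := fun f => by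
      have h1 := res_sq_le hT hden f
      have h2 : RCLike.re ⟪res T f, f⟫_ℂ ≤ ‖res T f‖ * ‖f‖ := re_inner_le_norm _ _
      rcases (norm_nonneg (res T f)).eq_or_lt with h3 | h3
      · rw [← h3]
        exact norm_nonneg _
      · nlinarith
    have h1 : ‖(φ : H) - ψ‖ < r / 2 := by
      rw [e1]
      exact (hB _).trans_lt hφ
    have h2 : ‖T φ‖ < r := by
      have e2 : T φ = (oneAdd T φ - ψ) - ((φ : H) - ψ) := by
        rw [oneAdd_apply]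
        abel
      rw [e2]
      refine (norm_sub_le _ _).trans_lt ?_
      linarith
    have h3 : ‖(φ : H)‖ ≤ M := by
      have : ‖(φ : H)‖ ≤ ‖(φ : H) - ψ‖ + ‖ψ‖ := by
        simpa using norm_add_le ((φ : H) - ψ) ψ
      have h4 : r ≤ 1 := (min_le_left _ _).trans (min_le_right _ _)
      linarith
    refine ⟨φ, ?_, ?_⟩
    · have h4 : r ≤ ε := (min_le_left _ _).trans (min_le_left _ _)
      linarith
    · have h4 : ‖Q φ‖ ^ 2 ≤ ‖T φ‖ * ‖(φ : H)‖ := by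
        rw [← re_inner_T hT φ]
        exact re_inner_le_norm _ _
      have h5 : ‖T φ‖ * ‖(φ : H)‖ ≤ r * M :=
        mul_le_mul h2.le h3 (norm_nonneg _) hrpos.le
      have h6 : r * M < ε ^ 2 := by
        have h7 : r ≤ ε ^ 2 / (4 * (M + 1)) := min_le_right _ _
        have h8 : ε ^ 2 / (4 * (M + 1)) * M < ε ^ 2 := by
          rw [div_mul_eq_mul_div, div_lt_iff₀ (by positivity)]
          nlinarith [sq_pos_of_pos hε]
        exact (mul_le_mul_of_nonneg_right h7 hMpos.le).trans_lt h8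
      nlinarith [norm_nonneg (Q φ)]

theorem norm_res_le (f : H) : ‖res T f‖ ≤ ‖f‖ := by
  have h1 := res_sq_le hT hden f
  have h2 : RCLike.re ⟪res T f, f⟫_ℂ ≤ ‖res T f‖ * ‖f‖ := re_inner_le_norm _ _
  rcases (norm_nonneg (res T f)).eq_or_lt with h3 | h3
  · rw [← h3]
    exact norm_nonneg _
  · nlinarith

theorem one_sub_nonneg : 0 ≤ (1 : H →L[ℂ] H) - res T := by
  rw [ContinuousLinearMap.nonneg_iff_isPositive]
  refine ⟨fun f g => ?_, fun f => ?_⟩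
  · have := res_symm hT hden f g
    simp only [ContinuousLinearMap.coe_coe, sub_apply,
      one_apply_eq_self, inner_sub_left, inner_sub_right, this]
  · have h1 : RCLike.re ⟪res T f, f⟫_ℂ ≤ ‖res T f‖ * ‖f‖ := re_inner_le_norm _ _
    have h2 := norm_res_le hT hden f
    simp only [ContinuousLinearMap.reApplyInnerSelf_apply, sub_apply,
      one_apply_eq_self, inner_sub_left, map_sub]
    rw [inner_self_eq_norm_sq]
    nlinarith [norm_nonneg f, norm_nonneg (res T f)]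

theorem prod_nonneg {δ : ℝ} (hδ : ∀ φ : D, δ * ‖Q φ‖ ^ 2 ≤ ‖T φ‖ ^ 2) :
    0 ≤ ((1 : H →L[ℂ] H) - res T) * (1 - ((1 + δ : ℝ) : ℂ) • res T) := by
  rw [ContinuousLinearMap.nonneg_iff_isPositive]
  have hs := fun f g => res_symm hT hden f g
  have happ : ∀ f : H, (((1 : H →L[ℂ] H) - res T) * (1 - ((1 + δ : ℝ) : ℂ) • res T)) f =
      (f - ((1 + δ : ℝ) : ℂ) • res T f) - res T (f - ((1 + δ : ℝ) : ℂ) • res T f) := fun _ => rfl
  refine ⟨fun f g => ?_, fun f => ?_⟩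
  · change ⟪(((1 : H →L[ℂ] H) - res T) * (1 - ((1 + δ : ℝ) : ℂ) • res T)) f, g⟫_ℂ =
      ⟪f, (((1 : H →L[ℂ] H) - res T) * (1 - ((1 + δ : ℝ) : ℂ) • res T)) g⟫_ℂ
    rw [happ, happ]
    simp only [map_sub, map_smul, inner_sub_left, inner_sub_right,
      inner_smul_left, inner_smul_right, hs, Complex.conj_ofReal]
  · have h1 := res_gap hT hden hδ f
    have e1 : ⟪(((1 : H →L[ℂ] H) - res T) * (1 - ((1 + δ : ℝ) : ℂ) • res T)) f, f⟫_ℂ =
        ⟪f - res T f, f - res T f⟫_ℂ - (δ : ℂ) * ⟪res T f, f - res T f⟫_ℂ := by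
      rw [happ]
      simp only [map_sub, map_smul,
        inner_sub_left, inner_sub_right, inner_smul_left, hs,
        Complex.conj_ofReal]
      simp only [Complex.ofReal_add, Complex.ofReal_one]
      ring
    rw [ContinuousLinearMap.reApplyInnerSelf_apply, e1, map_sub, inner_self_eq_norm_sq]
    have e2 : RCLike.re ((δ : ℂ) * ⟪res T f, f - res T f⟫_ℂ) =
        δ * RCLike.re ⟪f - res T f, res T f⟫_ℂ := by
      have e3 : RCLike.re ((δ : ℂ) * ⟪res T f, f - res T f⟫_ℂ) =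
          δ * RCLike.re ⟪res T f, f - res T f⟫_ℂ := by
        simp
      rw [e3, inner_re_symm]
    rw [e2]
    linarith

/-- **The resolvent on the orthogonal complement of the zero modes.** -/
theorem res_le_of_mem_orthogonal {δ : ℝ}
    (hδ : ∀ φ : D, δ * ‖Q φ‖ ^ 2 ≤ ‖T φ‖ ^ 2) {f : H} (hf : f ∈ (zker Q)ᗮ) :
    (1 + δ) * RCLike.re ⟪res T f, f⟫_ℂ ≤ ‖f‖ ^ 2 := by
  set A : H →L[ℂ] H := 1 - res T with hA
  set C : H →L[ℂ] H := 1 - ((1 + δ : ℝ) : ℂ) • res T with hC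
  have h1 : 0 ≤ A := one_sub_nonneg hT hden
  have h2 : 0 ≤ A * C := prod_nonneg hT hden hδ
  have hAC : Commute A C := by
    rw [hA, hC]
    refine (Commute.one_left _).sub_left ?_
    refine (Commute.one_right _).sub_right ?_
    exact (Commute.refl _).smul_right _
  have h3 : 0 ≤ A * (A * C) :=
    Commute.mul_nonneg h1 h2 ((Commute.refl A).mul_right hAC)
  have hs := fun f g => res_symm hT hden f g
  have hAs : ∀ f g : H, ⟪A f, g⟫_ℂ = ⟪f, A g⟫_ℂ := fun f g => by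
    simp only [hA, sub_apply, one_apply_eq_self, inner_sub_left,
      inner_sub_right, hs]
  -- the closed set
  have hcl : IsClosed {f : H | (1 + δ) * RCLike.re ⟪res T f, f⟫_ℂ ≤ ‖f‖ ^ 2} :=
    isClosed_le (by fun_prop) (by fun_prop)
  have hrange : ∀ g : H, (1 + δ) * RCLike.re ⟪res T (A g), A g⟫_ℂ ≤ ‖A g‖ ^ 2 := fun g => by
    have h4 := ((ContinuousLinearMap.nonneg_iff_isPositive _).1 h3).2 g
    rw [ContinuousLinearMap.reApplyInnerSelf_apply] at h4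
    have e1 : ⟪(A * (A * C)) g, g⟫_ℂ = ⟪C (A g), A g⟫_ℂ := by
      have e2 : A * (A * C) = A * (C * A) := by rw [hAC.eq]
      rw [e2]
      change ⟪A (C (A g)), g⟫_ℂ = _
      rw [hAs]
    rw [e1, hC, sub_apply, one_apply_eq_self, inner_sub_left,
      map_sub, inner_self_eq_norm_sq, smul_apply, inner_smul_left,
      Complex.conj_ofReal] at h4
    have e3 : RCLike.re (((1 + δ : ℝ) : ℂ) * ⟪res T (A g), A g⟫_ℂ) =
        (1 + δ) * RCLike.re ⟪res T (A g), A g⟫_ℂ := by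
      simp
    rw [e3] at h4
    linarith
  have hK : (LinearMap.range (A : H →ₗ[ℂ] H))ᗮ = zker Q := by
    ext ψ
    rw [Submodule.mem_orthogonal, mem_zker_iff_res hT hden]
    constructor
    · intro h
      have h4 : ∀ g : H, ⟪g, A ψ⟫_ℂ = 0 := fun g => by
        rw [← hAs]
        exact h _ ⟨g, rfl⟩
      have h5 : A ψ = 0 := inner_self_eq_zero.1 (h4 _)
      rw [hA, sub_apply, one_apply_eq_self, sub_eq_zero] at h5
      exact h5.symm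
    · rintro h _ ⟨g, rfl⟩
      have h5 : A ψ = 0 := by
        rw [hA, sub_apply, one_apply_eq_self, h, sub_self]
      change ⟪A g, ψ⟫_ℂ = 0
      rw [hAs, h5, inner_zero_right]
  rw [← hK, Submodule.orthogonal_orthogonal_eq_closure] at hf
  have h6 : closure ((LinearMap.range (A : H →ₗ[ℂ] H) : Submodule ℂ H) : Set H) ⊆
      {f : H | (1 + δ) * RCLike.re ⟪res T f, f⟫_ℂ ≤ ‖f‖ ^ 2} :=
    hcl.closure_subset_iff.2 (by rintro _ ⟨g, rfl⟩; exact hrange g)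
  exact h6 hf

theorem res_proj (f : H) : res T ((zker Q).starProjection f) = (zker Q).starProjection f :=
  (mem_zker_iff_res hT hden).1 ((zker Q).starProjection_apply_mem f)

/-- `⟨φ, f⟩ = ⟨φ, B f⟩ + ⟨Q φ, Q B f⟩` for `f = (1 + T) η`. -/
theorem inner_form (φ η : D) : ⟪(φ : H), oneAdd T η⟫_ℂ = ⟪(φ : H), (η : H)⟫_ℂ + ⟪Q φ, Q η⟫_ℂ := by
  rw [oneAdd_apply, inner_add_right]
  congr 1
  rw [← inner_conj_symm, ← hT η φ, inner_conj_symm]

/-- **The gap**: if `δ ⟨T φ, φ⟩ ≤ ‖T φ‖²` on the core and `(1 + T) D` is dense, then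
`δ ‖φ - P φ‖² ≤ ‖Q φ‖²` on the core. -/
theorem gap_of_esa {δ : ℝ} (hδ0 : 0 ≤ δ) (hδ : ∀ φ : D, δ * ‖Q φ‖ ^ 2 ≤ ‖T φ‖ ^ 2) :
    Gap Q δ := by
  intro φ
  set P := (zker Q).starProjection with hP
  set u : H := (φ : H) - P (φ : H) with hu
  have hu0 : u ∈ (zker Q)ᗮ := (zker Q).sub_starProjection_mem_orthogonal (φ : H)
  -- `‖u‖² ≤ ‖u‖₁ ‖B u‖₁`, by approximation of `u` by `(1 + T) η`
  have hpos : ∀ f : H, 0 ≤ RCLike.re ⟪res T f, f⟫_ℂ := fun f =>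
    (sq_nonneg _).trans (res_sq_le hT hden f)
  -- for `f = (1 + T) η`: `|⟨φ - P φ, f - P f⟩|² ≤ (‖u‖² + ‖Q φ‖²) re ⟨B f', f'⟩`, `f' = f - P f`
  have key : ∀ f : H, ‖⟪u, f⟫_ℂ‖ ^ 2 ≤ (‖u‖ ^ 2 + ‖Q φ‖ ^ 2) * RCLike.re ⟪res T f, f⟫_ℂ := by
    refine res_induction hT hden (isClosed_le (by fun_prop) (by fun_prop)) fun η => ?_
    have e1 : ⟪u, oneAdd T η⟫_ℂ = ⟪u, (η : H)⟫_ℂ + ⟪Q φ, Q η⟫_ℂ := by
      have e2 : ⟪P (φ : H), oneAdd T η⟫_ℂ = ⟪P (φ : H), (η : H)⟫_ℂ := by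
        have e3 : res T (P (φ : H)) = P (φ : H) := res_proj hT hden (φ : H)
        rw [← res_oneAdd hT hden η, ← res_symm hT hden, e3]
      rw [hu, inner_sub_left, inner_sub_left, e2, inner_form hT hden φ η]
      ring
    have e4 : RCLike.re ⟪res T (oneAdd T η), oneAdd T η⟫_ℂ = ‖(η : H)‖ ^ 2 + ‖Q η‖ ^ 2 := by
      rw [res_oneAdd hT hden, oneAdd_apply, inner_add_right, map_add, inner_self_eq_norm_sq,
        ← re_inner_T hT η, inner_re_symm (T η)]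
    rw [e1, e4]
    have e5 : ‖⟪u, (η : H)⟫_ℂ + ⟪Q φ, Q η⟫_ℂ‖ ≤ ‖u‖ * ‖(η : H)‖ + ‖Q φ‖ * ‖Q η‖ :=
      (norm_add_le _ _).trans (add_le_add (norm_inner_le_norm _ _) (norm_inner_le_norm _ _))
    have e6 : 0 ≤ ‖⟪u, (η : H)⟫_ℂ + ⟪Q φ, Q η⟫_ℂ‖ := norm_nonneg _
    nlinarith [sq_nonneg (‖u‖ * ‖Q η‖ - ‖Q φ‖ * ‖(η : H)‖), mul_self_le_mul_self e6 e5]
  have h1 := key u
  have h2 := res_le_of_mem_orthogonal hT hden hδ hu0
  have h3 : ‖⟪u, u⟫_ℂ‖ = ‖u‖ ^ 2 := by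
    rw [inner_self_eq_norm_sq_to_K]
    simp
  rw [h3] at h1
  rcases (norm_nonneg u).eq_or_lt with h4 | h4
  · rw [← h4]
    nlinarith [sq_nonneg ‖Q φ‖]
  · have h5 : (1 + δ) * (‖u‖ ^ 2) ^ 2 ≤ (‖u‖ ^ 2 + ‖Q φ‖ ^ 2) * ‖u‖ ^ 2 := by
      have h6 : 0 ≤ ‖u‖ ^ 2 + ‖Q φ‖ ^ 2 := by positivity
      nlinarith [mul_le_mul_of_nonneg_left h2 h6, hpos u]
    have h7 : 0 < ‖u‖ ^ 2 := by positivity
    nlinarith

end esa

end complete

end Crest.Agent.R330.AbsGap998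

end
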