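import Crest.Agent.R330.FA2_416

/-!
# Row 330, sections 10/11 (helper291): lower bound for the kernel by duality

No corrected trial states. `V` core, `ι : V → H`, `Q : V → H'` (form `‖Q φ‖²`), `A` Hamiltonian on the
core, `q a : V → V` single charges.

* `range_dense` : the closure of the range of `A` contains the orthogonal complement of the kernel.
* `norm_Q_le` : `‖Q u‖ ≤ ‖A u‖ / √δ`.
* `low_of_pairing` : if `|⟪q_a w, v⟫| ≤ η (s ‖v‖ + ‖Q v‖)` for all core `v`, then `w` is `C η`-close to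
  the kernel.
* `dimGe_of_almost` : almost orthonormal vectors close to the kernel give its dimension.
* `dimGe_of_pairing` : both together, along a filter.
-/

set_option autoImplicit false
set_option linter.unusedSectionVars false

open Filter Topology Set
open scoped InnerProductSpace

noncomputable section

namespace Crest.Agent.R330.AbsLow291

open Crest.Agent.R330.FA416

variable {V H H' : Type*} [AddCommGroup V] [Module ℂ V]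
  [NormedAddCommGroup H] [InnerProductSpace ℂ H]
  [NormedAddCommGroup H'] [InnerProductSpace ℂ H']
  {ι : V →ₗ[ℂ] H} {Q : V →ₗ[ℂ] H'} {A : V →ₗ[ℂ] H}

/-- The image of the Hamiltonian is orthogonal to the kernel. -/
theorem inner_A_kerF (hA : ∀ φ ψ, ⟪Q φ, Q ψ⟫_ℂ = ⟪A φ, ι ψ⟫_ℂ) (φ : V) {Ψ : H}
    (hΨ : Ψ ∈ kerF ι Q) : ⟪A φ, Ψ⟫_ℂ = 0 := by
  obtain ⟨u, h1, h2⟩ := mem_kerF.1 hΨ
  have h3 : Tendsto (fun n => ⟪A φ, ι (u n)⟫_ℂ) atTop (𝓝 ⟪A φ, Ψ⟫_ℂ) :=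
    tendsto_const_nhds.inner h1
  have h4 : Tendsto (fun n => ⟪A φ, ι (u n)⟫_ℂ) atTop (𝓝 ⟪Q φ, (0 : H')⟫_ℂ) := by
    have h5 : Tendsto (fun n => ⟪Q φ, Q (u n)⟫_ℂ) atTop (𝓝 ⟪Q φ, (0 : H')⟫_ℂ) :=
      tendsto_const_nhds.inner h2
    refine h5.congr fun n => ?_
    rw [hA]
  rw [tendsto_nhds_unique h3 h4, inner_zero_right]

/-- `‖Q φ‖² = Re ⟪A φ, φ⟫`. -/
theorem re_inner_A (hA : ∀ φ ψ, ⟪Q φ, Q ψ⟫_ℂ = ⟪A φ, ι ψ⟫_ℂ) (φ : V) :
    (⟪A φ, ι φ⟫_ℂ).re = ‖Q φ‖ ^ 2 := by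
  rw [← hA, inner_self_eq_norm_sq_to_K]
  norm_cast

section complete

variable [CompleteSpace H]

/-- **The form is bounded by the Hamiltonian.** -/
theorem norm_Q_le (hA : ∀ φ ψ, ⟪Q φ, Q ψ⟫_ℂ = ⟪A φ, ι ψ⟫_ℂ) {δ : ℝ} (hG : Gap ι Q δ)
    (hδ : 0 < δ) (φ : V) : Real.sqrt δ * ‖Q φ‖ ≤ ‖A φ‖ := by
  set p : H := (kerF ι Q).starProjection (ι φ) with hp
  have hpK : p ∈ kerF ι Q := Submodule.starProjection_apply_mem _ _
  have h1 : Real.sqrt δ * ‖ι φ - p‖ ≤ ‖Q φ‖ := by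
    have h2 := hG.proj hδ.le φ
    refine le_of_sq_le_sq ?_ (norm_nonneg _)
    rw [mul_pow, Real.sq_sqrt hδ.le]
    exact h2
  have h2 : ‖Q φ‖ ^ 2 ≤ ‖A φ‖ * ‖ι φ - p‖ := by
    rw [← re_inner_A hA]
    have h3 : ⟪A φ, ι φ⟫_ℂ = ⟪A φ, ι φ - p⟫_ℂ := by
      rw [inner_sub_right, inner_A_kerF hA φ hpK, sub_zero]
    rw [h3]
    exact (Complex.re_le_norm _).trans (norm_inner_le_norm _ _)
  by_cases h0 : ‖Q φ‖ = 0
  · rw [h0, mul_zero]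
    exact norm_nonneg _
  have h0' : 0 < ‖Q φ‖ := lt_of_le_of_ne (norm_nonneg _) (Ne.symm h0)
  have hs : 0 ≤ Real.sqrt δ := Real.sqrt_nonneg _
  have h4 : Real.sqrt δ * ‖Q φ‖ ^ 2 ≤ ‖A φ‖ * ‖Q φ‖ := by
    calc Real.sqrt δ * ‖Q φ‖ ^ 2 ≤ Real.sqrt δ * (‖A φ‖ * ‖ι φ - p‖) :=
          mul_le_mul_of_nonneg_left h2 hs
      _ = ‖A φ‖ * (Real.sqrt δ * ‖ι φ - p‖) := by ring
      _ ≤ ‖A φ‖ * ‖Q φ‖ := mul_le_mul_of_nonneg_left h1 (norm_nonneg _)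
  have h5 : (Real.sqrt δ * ‖Q φ‖) * ‖Q φ‖ ≤ ‖A φ‖ * ‖Q φ‖ := by
    rw [mul_assoc, ← sq]
    exact h4
  exact le_of_mul_le_mul_right h5 h0'

/-- **A vector orthogonal to the range of the Hamiltonian is in the kernel.** -/
theorem mem_kerF_of_orth (hA : ∀ φ ψ, ⟪Q φ, Q ψ⟫_ℂ = ⟪A φ, ι ψ⟫_ℂ) (hd : DenseRange (ι + A))
    {y : H} (hy : ∀ φ, ⟪A φ, y⟫_ℂ = 0) : y ∈ kerF ι Q := by
  -- approximate `y` by `(ι + A) u`
  obtain ⟨z, hz, hlim⟩ := mem_closure_iff_seq_limit.1 (hd.closure_eq ▸ mem_univ y :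
    y ∈ closure (Set.range (ι + A)))
  choose u hu using hz
  have hA' : ∀ φ ψ, ⟪ι φ, A ψ⟫_ℂ = ⟪A φ, ι ψ⟫_ℂ := fun φ ψ => by
    rw [← hA, ← inner_conj_symm, ← hA, inner_conj_symm]
  have hyι : ∀ φ, ⟪(ι + A) φ, y⟫_ℂ = ⟪ι φ, y⟫_ℂ := fun φ => by
    rw [LinearMap.add_apply, inner_add_left, hy, add_zero]
  -- the key quantity
  have key : ∀ n, ‖ι (u n)‖ ^ 2 + 2 * ‖Q (u n)‖ ^ 2 + ‖A (u n)‖ ^ 2 = ‖z n‖ ^ 2 := fun n => by
    rw [← hu n, LinearMap.add_apply, norm_add_sq (𝕜 := ℂ), hA']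
    have := re_inner_A hA (u n)
    simp only [RCLike.re_to_complex]
    rw [this]
  have h1 : ∀ n, (⟪z n, y⟫_ℂ).re = (⟪ι (u n), y⟫_ℂ).re := fun n => by
    rw [← hu n, hyι]
  -- `‖ι (u n) - y‖² + 2 ‖Q‖² + ‖A‖² → 0`
  have h2 : ∀ n, ‖ι (u n) - y‖ ^ 2 + 2 * ‖Q (u n)‖ ^ 2 + ‖A (u n)‖ ^ 2 = ‖z n - y‖ ^ 2 := by
    intro n
    rw [norm_sub_sq (𝕜 := ℂ) (ι (u n)) y, norm_sub_sq (𝕜 := ℂ) (z n) y, ← key n]
    simp only [RCLike.re_to_complex]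
    rw [h1 n]
    ring
  have h3 : Tendsto (fun n => ‖z n - y‖ ^ 2) atTop (𝓝 0) := by
    have h4 : Tendsto (fun n => ‖z n - y‖) atTop (𝓝 0) := tendsto_iff_norm_sub_tendsto_zero.1 hlim
    have h5 := h4.pow 2
    simpa using h5
  refine mem_kerF.2 ⟨u, ?_, ?_⟩
  · rw [tendsto_iff_norm_sub_tendsto_zero]
    have h4 : Tendsto (fun n => ‖ι (u n) - y‖ ^ 2) atTop (𝓝 0) := by
      refine squeeze_zero (fun n => sq_nonneg _) (fun n => ?_) h3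
      rw [← h2 n]
      nlinarith [sq_nonneg ‖Q (u n)‖, sq_nonneg ‖A (u n)‖]
    have h5 := h4.sqrt
    rw [Real.sqrt_zero] at h5
    exact h5.congr fun n => by rw [Real.sqrt_sq (norm_nonneg _)]
  · rw [tendsto_zero_iff_norm_tendsto_zero]
    have h4 : Tendsto (fun n => ‖Q (u n)‖ ^ 2) atTop (𝓝 0) := by
      refine squeeze_zero (fun n => sq_nonneg _) (fun n => ?_) h3
      rw [← h2 n]
      nlinarith [sq_nonneg ‖ι (u n) - y‖, sq_nonneg ‖A (u n)‖, sq_nonneg ‖Q (u n)‖]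
    have h5 := h4.sqrt
    rw [Real.sqrt_zero] at h5
    exact h5.congr fun n => by rw [Real.sqrt_sq (norm_nonneg _)]

/-- **The range of the Hamiltonian is dense in the orthogonal complement of the kernel.** -/
theorem range_dense (hA : ∀ φ ψ, ⟪Q φ, Q ψ⟫_ℂ = ⟪A φ, ι ψ⟫_ℂ) (hd : DenseRange (ι + A)) {f : H}
    (hf : f ∈ (kerF ι Q)ᗮ) : ∃ u : ℕ → V, Tendsto (fun n => A (u n)) atTop (𝓝 f) := by
  have h1 : (LinearMap.range A)ᗮ ≤ kerF ι Q := by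
    intro y hy
    refine mem_kerF_of_orth hA hd fun φ => ?_
    exact (Submodule.mem_orthogonal _ _).1 hy _ ⟨φ, rfl⟩
  have h2 : (kerF ι Q)ᗮ ≤ (LinearMap.range A)ᗮᗮ := Submodule.orthogonal_le h1
  have h3 : f ∈ (LinearMap.range A).topologicalClosure := by
    rw [← Submodule.orthogonal_orthogonal_eq_closure]
    exact h2 hf
  rw [← SetLike.mem_coe, Submodule.topologicalClosure_coe, mem_closure_iff_seq_limit] at h3
  obtain ⟨x, hx, hlim⟩ := h3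
  choose u hu using hx
  exact ⟨u, hlim.congr fun n => (hu n).symm⟩

variable {α : Type*} [Fintype α] {q : α → V →ₗ[ℂ] V}

/-- **Duality.** `w` is close to the kernel if its charges pair small with all core vectors. -/
theorem low_of_pairing (hA : ∀ φ ψ, ⟪Q φ, Q ψ⟫_ℂ = ⟪A φ, ι ψ⟫_ℂ) (hd : DenseRange (ι + A))
    {δ κ s C₁ η : ℝ} (hδ : 0 < δ) (hκ : 0 < κ) (hs : 0 ≤ s) (hC₁ : 0 ≤ C₁) (hη : 0 ≤ η)
    (hG : Gap ι Q δ)
    (hq : ∀ φ ψ, ⟪Q φ, Q ψ⟫_ℂ = (κ : ℂ) * ∑ a, ⟪ι (q a φ), ι (q a ψ)⟫_ℂ)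
    (hQQ : ∀ a φ, ‖Q (q a φ)‖ ≤ C₁ * (‖A φ‖ + s * ‖Q φ‖)) {w : V}
    (hw : ∀ a v, ‖⟪ι (q a w), ι v⟫_ℂ‖ ≤ η * (s * ‖ι v‖ + ‖Q v‖)) :
    ‖ι w - (kerF ι Q).starProjection (ι w)‖ ≤
      η * (κ * Fintype.card α * (s * (Real.sqrt κ)⁻¹ * (Real.sqrt δ)⁻¹ +
        C₁ * (1 + s * (Real.sqrt δ)⁻¹))) := by
  set f : H := ι w - (kerF ι Q).starProjection (ι w) with hf
  have hfK : f ∈ (kerF ι Q)ᗮ := Submodule.sub_starProjection_mem_orthogonal _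
  obtain ⟨u, hu⟩ := range_dense hA hd hfK
  have hsδ : 0 < Real.sqrt δ := Real.sqrt_pos.2 hδ
  have hsκ : 0 < Real.sqrt κ := Real.sqrt_pos.2 hκ
  set M : ℝ := κ * Fintype.card α * (s * (Real.sqrt κ)⁻¹ * (Real.sqrt δ)⁻¹ +
    C₁ * (1 + s * (Real.sqrt δ)⁻¹)) with hM
  have hM0 : 0 ≤ M := by positivity
  have hQu : ∀ φ, ‖Q φ‖ ≤ (Real.sqrt δ)⁻¹ * ‖A φ‖ := fun φ => by
    have h1 := norm_Q_le hA hG hδ φ
    rw [inv_mul_eq_div, le_div_iff₀ hsδ]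
    linarith
  have hqn : ∀ a φ, ‖ι (q a φ)‖ ≤ (Real.sqrt κ)⁻¹ * ‖Q φ‖ := by
    intro a φ
    have h1 : κ * ∑ b, ‖ι (q b φ)‖ ^ 2 = ‖Q φ‖ ^ 2 := by
      have h2 := hq φ φ
      have h3 : ∀ b, ⟪ι (q b φ), ι (q b φ)⟫_ℂ = ((‖ι (q b φ)‖ ^ 2 : ℝ) : ℂ) := fun b => by
        rw [inner_self_eq_norm_sq_to_K]
        push_cast
        rfl
      have h4 : ⟪Q φ, Q φ⟫_ℂ = ((‖Q φ‖ ^ 2 : ℝ) : ℂ) := by
        rw [inner_self_eq_norm_sq_to_K]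
        push_cast
        rfl
      rw [h4] at h2
      simp only [h3] at h2
      rw [← Complex.ofReal_sum, ← Complex.ofReal_mul] at h2
      exact (Complex.ofReal_injective h2).symm
    have h2 : ‖ι (q a φ)‖ ^ 2 ≤ ∑ b, ‖ι (q b φ)‖ ^ 2 :=
      Finset.single_le_sum (f := fun b => ‖ι (q b φ)‖ ^ 2) (fun b _ => sq_nonneg _)
        (Finset.mem_univ a)
    have h3 : Real.sqrt κ * ‖ι (q a φ)‖ ≤ ‖Q φ‖ := by
      refine le_of_sq_le_sq ?_ (norm_nonneg _)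
      rw [mul_pow, Real.sq_sqrt hκ.le, ← h1]
      exact mul_le_mul_of_nonneg_left h2 hκ.le
    rw [inv_mul_eq_div, le_div_iff₀ hsκ]
    linarith
  have key : ∀ n, ‖⟪A (u n), ι w⟫_ℂ‖ ≤ η * M * ‖A (u n)‖ := by
    intro n
    rw [← hA, hq, norm_mul, Complex.norm_real, Real.norm_of_nonneg hκ.le]
    have h1 : ∀ a, ‖⟪ι (q a (u n)), ι (q a w)⟫_ℂ‖ ≤
        η * ((s * (Real.sqrt κ)⁻¹ * (Real.sqrt δ)⁻¹ + C₁ * (1 + s * (Real.sqrt δ)⁻¹)) *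
          ‖A (u n)‖) := by
      intro a
      rw [norm_inner_symm]
      refine (hw a (q a (u n))).trans (mul_le_mul_of_nonneg_left ?_ hη)
      have h2 : ‖ι (q a (u n))‖ ≤ (Real.sqrt κ)⁻¹ * ((Real.sqrt δ)⁻¹ * ‖A (u n)‖) :=
        (hqn a (u n)).trans (mul_le_mul_of_nonneg_left (hQu _) (inv_nonneg.2 hsκ.le))
      have h3 : ‖Q (q a (u n))‖ ≤ C₁ * (‖A (u n)‖ + s * ((Real.sqrt δ)⁻¹ * ‖A (u n)‖)) := by
        refine (hQQ a (u n)).trans (mul_le_mul_of_nonneg_left ?_ hC₁)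
        have := mul_le_mul_of_nonneg_left (hQu (u n)) hs
        linarith
      have h4 := mul_le_mul_of_nonneg_left h2 hs
      nlinarith [h3, h4]
    have h2 : ‖∑ a, ⟪ι (q a (u n)), ι (q a w)⟫_ℂ‖ ≤ Fintype.card α *
        (η * ((s * (Real.sqrt κ)⁻¹ * (Real.sqrt δ)⁻¹ + C₁ * (1 + s * (Real.sqrt δ)⁻¹)) *
          ‖A (u n)‖)) := by
      refine (norm_sum_le _ _).trans ?_
      refine (Finset.sum_le_card_nsmul _ _ _ fun a _ => h1 a).trans ?_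
      rw [nsmul_eq_mul, Finset.card_univ]
    refine (mul_le_mul_of_nonneg_left h2 hκ.le).trans (le_of_eq ?_)
    rw [hM]
    ring
  have h5 : ‖⟪f, ι w⟫_ℂ‖ ≤ η * M * ‖f‖ :=
    le_of_tendsto_of_tendsto (hu.inner tendsto_const_nhds).norm (hu.norm.const_mul (η * M))
      (Eventually.of_forall key)
  have h6 : ⟪f, ι w⟫_ℂ = ((‖f‖ ^ 2 : ℝ) : ℂ) := by
    have h7 : ι w = f + (kerF ι Q).starProjection (ι w) := by rw [hf]; abel
    have h8 : ⟪f, (kerF ι Q).starProjection (ι w)⟫_ℂ = 0 :=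
      (Submodule.mem_orthogonal' _ _).1 hfK _ (Submodule.starProjection_apply_mem _ _)
    rw [h7, inner_add_right, h8, add_zero, inner_self_eq_norm_sq_to_K]
    push_cast
    rfl
  rw [h6, Complex.norm_real, Real.norm_of_nonneg (sq_nonneg _), sq] at h5
  by_cases h0 : ‖f‖ = 0
  · rw [h0]
    positivity
  exact le_of_mul_le_mul_right h5 (lt_of_le_of_ne (norm_nonneg _) (Ne.symm h0))

/-! ### Counting -/

/-- **Almost orthonormal vectors close to the kernel.** -/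
theorem dimGe_of_almost {k : ℕ} (w : Fin k → H) {τ : ℝ} (hk : k * τ < 1)
    (hw : ∀ i j, ‖⟪(kerF ι Q).starProjection (w i), (kerF ι Q).starProjection (w j)⟫_ℂ -
      (if i = j then 1 else 0)‖ ≤ τ) : DimGe ι Q k := by
  refine dimGe_of_li (e := fun i => (kerF ι Q).starProjection (w i)) ?_
    fun i => Submodule.starProjection_apply_mem _ _
  rw [Fintype.linearIndependent_iff]
  intro c hc i
  by_contra hne
  -- the index of the largest coefficient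
  obtain ⟨i₀, -, hmax⟩ := Finset.exists_max_image Finset.univ (fun j => ‖c j‖) ⟨i, Finset.mem_univ i⟩
  have hpos : 0 < ‖c i₀‖ := (norm_pos_iff.2 hne).trans_le (hmax i (Finset.mem_univ i))
  set p : Fin k → H := fun j => (kerF ι Q).starProjection (w j) with hp
  have h1 : ⟪p i₀, ∑ j, c j • p j⟫_ℂ = 0 := by
    have : ∑ j, c j • p j = 0 := hc
    rw [this, inner_zero_right]
  rw [inner_sum] at h1
  simp only [inner_smul_right] at h1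
  have h2 : c i₀ = -∑ j, c j * (⟪p i₀, p j⟫_ℂ - if i₀ = j then 1 else 0) := by
    have h3 : ∑ j, c j * (⟪p i₀, p j⟫_ℂ - if i₀ = j then 1 else 0) =
        ∑ j, c j * ⟪p i₀, p j⟫_ℂ - ∑ j, c j * (if i₀ = j then 1 else 0) := by
      rw [← Finset.sum_sub_distrib]
      exact Finset.sum_congr rfl fun j _ => by ring
    rw [h3, h1]
    simp
  have h4 : ‖c i₀‖ ≤ k * τ * ‖c i₀‖ := by
    calc ‖c i₀‖ = ‖∑ j, c j * (⟪p i₀, p j⟫_ℂ - if i₀ = j then 1 else 0)‖ := by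
          conv_lhs => rw [h2]
          rw [norm_neg]
      _ ≤ ∑ j, ‖c j * (⟪p i₀, p j⟫_ℂ - if i₀ = j then 1 else 0)‖ := norm_sum_le _ _
      _ ≤ ∑ _j : Fin k, ‖c i₀‖ * τ := by
          refine Finset.sum_le_sum fun j _ => ?_
          rw [norm_mul]
          exact mul_le_mul (hmax j (Finset.mem_univ j)) (hw i₀ j) (norm_nonneg _) (norm_nonneg _)
      _ = k * τ * ‖c i₀‖ := by
          rw [Finset.sum_const, Finset.card_univ, Fintype.card_fin, nsmul_eq_mul]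
          ring
  nlinarith

/-- The projections of almost orthonormal vectors close to the kernel are almost orthonormal. -/
theorem proj_inner_close {K : Submodule ℂ H} [K.HasOrthogonalProjection] {x y : H} {τ : ℝ}
    (hx : ‖x - K.starProjection x‖ ≤ τ) (hy : ‖y - K.starProjection y‖ ≤ τ) :
    ‖⟪K.starProjection x, K.starProjection y⟫_ℂ - ⟪x, y⟫_ℂ‖ ≤ τ * τ := by
  have h1 : ⟪x, y⟫_ℂ = ⟪K.starProjection x, K.starProjection y⟫_ℂ +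
      ⟪x - K.starProjection x, y - K.starProjection y⟫_ℂ := by
    have e1 : ⟪K.starProjection x, y - K.starProjection y⟫_ℂ = 0 :=
      (Submodule.mem_orthogonal _ _).1 (Submodule.sub_starProjection_mem_orthogonal y) _
        (Submodule.starProjection_apply_mem _ _)
    have e2 : ⟪x - K.starProjection x, K.starProjection y⟫_ℂ = 0 :=
      (Submodule.mem_orthogonal' _ _).1 (Submodule.sub_starProjection_mem_orthogonal x) _
        (Submodule.starProjection_apply_mem _ _)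
    have e3 : x = K.starProjection x + (x - K.starProjection x) := by abel
    have e4 : y = K.starProjection y + (y - K.starProjection y) := by abel
    conv_lhs => rw [e3, e4]
    rw [inner_add_left, inner_add_right, inner_add_right, e1, e2]
    ring
  rw [h1, sub_add_cancel_left, norm_neg]
  exact (norm_inner_le_norm _ _).trans
    (mul_le_mul hx hy (norm_nonneg _) ((norm_nonneg _).trans hx))

/-- **Static form.** Core vectors with almost orthonormal classes and small charge pairings. -/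
theorem dimGe_of_pairing (hA : ∀ φ ψ, ⟪Q φ, Q ψ⟫_ℂ = ⟪A φ, ι ψ⟫_ℂ) (hd : DenseRange (ι + A))
    {δ κ s C₁ η τ : ℝ} (hδ : 0 < δ) (hκ : 0 < κ) (hs : 0 ≤ s) (hC₁ : 0 ≤ C₁) (hη : 0 ≤ η)
    (hG : Gap ι Q δ)
    (hq : ∀ φ ψ, ⟪Q φ, Q ψ⟫_ℂ = (κ : ℂ) * ∑ a, ⟪ι (q a φ), ι (q a ψ)⟫_ℂ)
    (hQQ : ∀ a φ, ‖Q (q a φ)‖ ≤ C₁ * (‖A φ‖ + s * ‖Q φ‖)) {k : ℕ} (w : Fin k → V)
    (hw : ∀ i a v, ‖⟪ι (q a (w i)), ι v⟫_ℂ‖ ≤ η * (s * ‖ι v‖ + ‖Q v‖))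
    (hg : ∀ i j, ‖⟪ι (w i), ι (w j)⟫_ℂ - (if i = j then 1 else 0)‖ ≤ τ)
    (hk : k * ((η * (κ * Fintype.card α * (s * (Real.sqrt κ)⁻¹ * (Real.sqrt δ)⁻¹ +
        C₁ * (1 + s * (Real.sqrt δ)⁻¹)))) ^ 2 + τ) < 1) : DimGe ι Q k := by
  refine dimGe_of_almost (fun i => ι (w i)) hk fun i j => ?_
  have h1 := proj_inner_close (low_of_pairing hA hd hδ hκ hs hC₁ hη hG hq hQQ (hw i))
    (low_of_pairing hA hd hδ hκ hs hC₁ hη hG hq hQQ (hw j))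
  have h2 := norm_add_le (⟪(kerF ι Q).starProjection (ι (w i)),
    (kerF ι Q).starProjection (ι (w j))⟫_ℂ - ⟪ι (w i), ι (w j)⟫_ℂ)
    (⟪ι (w i), ι (w j)⟫_ℂ - (if i = j then 1 else 0))
  rw [sub_add_sub_cancel] at h2
  rw [← sq] at h1
  linarith [hg i j]

end complete

/-! ### Along a filter

`s g` is the natural energy scale: at mass `m` and separation one, `s = √m`, the gap is `d₀ s²`. -/

/-- **D-low, filter form.** Data depending on a parameter `g`; gap `d₀ s²`, pairings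
`η_g (s ‖v‖ + ‖Q v‖)`, `η_g → 0`, Gram matrices converging to the identity. -/
theorem eventually_dimGe {γ : Type*} {l : Filter γ} [CompleteSpace H] {α : Type*} [Fintype α]
    (ι : γ → V →ₗ[ℂ] H) (Q : γ → V →ₗ[ℂ] H') (A : γ → V →ₗ[ℂ] H) (q : γ → α → V →ₗ[ℂ] V)
    (s η : γ → ℝ) {d₀ κ C₁ : ℝ} (hd₀ : 0 < d₀) (hκ : 0 < κ) (hC₁ : 0 ≤ C₁)
    (hs : ∀ᶠ g in l, 0 < s g)
    (hA : ∀ᶠ g in l, ∀ φ ψ, ⟪Q g φ, Q g ψ⟫_ℂ = ⟪A g φ, ι g ψ⟫_ℂ)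
    (hd : ∀ᶠ g in l, DenseRange (ι g + A g))
    (hG : ∀ᶠ g in l, Gap (ι g) (Q g) (d₀ * s g ^ 2))
    (hq : ∀ᶠ g in l, ∀ φ ψ, ⟪Q g φ, Q g ψ⟫_ℂ =
      (κ : ℂ) * ∑ a, ⟪ι g (q g a φ), ι g (q g a ψ)⟫_ℂ)
    (hQQ : ∀ᶠ g in l, ∀ a φ, ‖Q g (q g a φ)‖ ≤ C₁ * (‖A g φ‖ + s g * ‖Q g φ‖))
    {k : ℕ} (w : γ → Fin k → V)
    (hη0 : ∀ᶠ g in l, 0 ≤ η g) (hη : Tendsto η l (𝓝 0))
    (hw : ∀ᶠ g in l, ∀ i a v, ‖⟪ι g (q g a (w g i)), ι g v⟫_ℂ‖ ≤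
      η g * (s g * ‖ι g v‖ + ‖Q g v‖))
    (hg : ∀ i j, Tendsto (fun g => ⟪ι g (w g i), ι g (w g j)⟫_ℂ) l
      (𝓝 (if i = j then 1 else 0))) : ∀ᶠ g in l, DimGe (ι g) (Q g) k := by
  -- constants
  set M : ℝ := κ * Fintype.card α * ((Real.sqrt κ)⁻¹ * (Real.sqrt d₀)⁻¹ +
    C₁ * (1 + (Real.sqrt d₀)⁻¹)) with hM
  have hM0 : 0 ≤ M := by positivity
  have hτ : ∀ᶠ g in l, ∀ i j, ‖⟪ι g (w g i), ι g (w g j)⟫_ℂ - (if i = j then 1 else 0)‖ ≤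
      (4 * (k + 1 : ℝ))⁻¹ := by
    rw [eventually_all]
    intro i
    rw [eventually_all]
    intro j
    have h1 : Tendsto (fun g => ‖⟪ι g (w g i), ι g (w g j)⟫_ℂ - (if i = j then 1 else 0)‖) l
        (𝓝 0) := tendsto_iff_norm_sub_tendsto_zero.1 (hg i j)
    exact (h1.eventually_lt_const (by positivity : (0 : ℝ) < (4 * (k + 1 : ℝ))⁻¹)).mono
      fun g h => h.le
  have hη' : ∀ᶠ g in l, (η g * M) ^ 2 ≤ (4 * (k + 1 : ℝ))⁻¹ := by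
    have h1 : Tendsto (fun g => (η g * M) ^ 2) l (𝓝 0) := by
      have := (hη.mul_const M).pow 2
      simpa using this
    exact (h1.eventually_lt_const (by positivity : (0 : ℝ) < (4 * (k + 1 : ℝ))⁻¹)).mono
      fun g h => h.le
  filter_upwards [hs, hA, hd, hG, hq, hQQ, hη0, hw, hτ, hη'] with g hs hA hd hG hq hQQ hη0 hw hτ
    hη'
  refine dimGe_of_pairing hA hd (mul_pos hd₀ (pow_pos hs 2)) hκ hs.le hC₁ hη0 hG hq hQQ (w g)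
    hw hτ ?_
  -- the constant does not depend on `g`
  have hsq : Real.sqrt (d₀ * s g ^ 2) = Real.sqrt d₀ * s g := by
    rw [Real.sqrt_mul hd₀.le, Real.sqrt_sq hs.le]
  have hsd : 0 < Real.sqrt d₀ := Real.sqrt_pos.2 hd₀
  have h1 : s g * (Real.sqrt (d₀ * s g ^ 2))⁻¹ = (Real.sqrt d₀)⁻¹ := by
    rw [hsq, mul_inv]
    field_simp
  have h2 : η g * (κ * Fintype.card α * (s g * (Real.sqrt κ)⁻¹ * (Real.sqrt (d₀ * s g ^ 2))⁻¹ +
      C₁ * (1 + s g * (Real.sqrt (d₀ * s g ^ 2))⁻¹))) = η g * M := by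
    rw [h1, mul_right_comm (s g), h1, hM]
    ring
  rw [h2]
  have h3 : (k : ℝ) * ((η g * M) ^ 2 + (4 * (k + 1 : ℝ))⁻¹) ≤
      (k : ℝ) * ((4 * (k + 1 : ℝ))⁻¹ + (4 * (k + 1 : ℝ))⁻¹) := by
    gcongr
  have h4 : (k : ℝ) * ((4 * (k + 1 : ℝ))⁻¹ + (4 * (k + 1 : ℝ))⁻¹) < 1 := by
    rw [← two_mul, mul_inv]
    have hk1 : (0 : ℝ) < k + 1 := by positivity
    have h5 : (k : ℝ) * (k + 1 : ℝ)⁻¹ ≤ 1 := by
      rw [← div_eq_mul_inv, div_le_one hk1]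
      linarith
    nlinarith
  exact h3.trans_lt h4

end Crest.Agent.R330.AbsLow291

end
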