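import Mathlib

/-!
R330, S7-ACOM (helper302): almost commuting families of symmetric operators on a finite
dimensional complex inner product space are simultaneously almost diagonalisable, with the sharp
exponent: commutators `≤ δ²` give joint eigen-errors `≤ C δ`, `C` depending only on the dimension.
-/

set_option autoImplicit false
set_option linter.unusedSectionVars false
open scoped InnerProductSpace
noncomputable section

namespace Crest.Agent.R330.Acom302

variable {H : Type} [NormedAddCommGroup H] [InnerProductSpace ℂ H] [FiniteDimensional ℂ H]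
variable {ι : Type} [Fintype ι]

/-- Parseval for an orthonormal basis. -/
theorem parseval (e : OrthonormalBasis ι ℂ H) (u : H) :
    ‖u‖ ^ 2 = ∑ i, ‖⟪e i, u⟫_ℂ‖ ^ 2 :=
  (OrthonormalBasis.sum_sq_norm_inner_right e u).symm

/-- norm bound from diagonal form in an orthonormal basis -/
theorem norm_le_of_coeff (e : OrthonormalBasis ι ℂ H) (u w : H) (K : ℝ)
    (hK : 0 ≤ K) (h : ∀ i, ‖⟪e i, w⟫_ℂ‖ ≤ K * ‖⟪e i, u⟫_ℂ‖) : ‖w‖ ≤ K * ‖u‖ := by
  have h1 : ‖w‖ ^ 2 ≤ (K * ‖u‖) ^ 2 := by
    rw [parseval e w, mul_pow, parseval e u, Finset.mul_sum]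
    refine Finset.sum_le_sum fun i _ => ?_
    have := pow_le_pow_left₀ (norm_nonneg _) (h i) 2
    rwa [mul_pow] at this
  exact le_of_sq_le_sq h1 (by positivity)

/-- norm bound from a uniform bound on the coefficients -/
theorem norm_le_card (e : OrthonormalBasis ι ℂ H) (w : H) (B : ℝ)
    (_hB : 0 ≤ B) (h : ∀ i, ‖⟪e i, w⟫_ℂ‖ ≤ B) : ‖w‖ ≤ Fintype.card ι * B := by
  have h1 : w = ∑ i, ⟪e i, w⟫_ℂ • e i := (OrthonormalBasis.sum_repr' e w).symm
  rw [h1]
  refine (norm_sum_le _ _).trans ?_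
  have : ∀ i ∈ Finset.univ, ‖⟪e i, w⟫_ℂ • e i‖ ≤ B := by
    intro i _
    rw [norm_smul, e.norm_eq_one, mul_one]
    exact h i
  refine (Finset.sum_le_sum this).trans ?_
  simp

/-- the coordinate block of an orthonormal basis -/
def bl (e : OrthonormalBasis ι ℂ H) (S : Set ι) : Submodule ℂ H :=
  Submodule.span ℂ (e '' S)

theorem mem_bl_iff (e : OrthonormalBasis ι ℂ H) (S : Set ι) (u : H) :
    u ∈ bl e S ↔ ∀ i, i ∉ S → ⟪e i, u⟫_ℂ = 0 := by
  constructor
  · intro hu i hi
    refine Submodule.span_induction (p := fun u _ => ⟪e i, u⟫_ℂ = 0) ?_ ?_ ?_ ?_ hu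
    · rintro _ ⟨j, hj, rfl⟩
      have hij : i ≠ j := fun h => hi (h ▸ hj)
      exact e.inner_eq_zero hij
    · simp
    · intro x y _ _ hx hy
      rw [inner_add_right, hx, hy, add_zero]
    · intro a x _ hx
      rw [inner_smul_right, hx, mul_zero]
  · intro h
    classical
    rw [← OrthonormalBasis.sum_repr' e u]
    refine Submodule.sum_mem _ fun i _ => ?_
    by_cases hi : i ∈ S
    · exact Submodule.smul_mem _ _ (Submodule.subset_span ⟨i, hi, rfl⟩)
    · rw [h i hi, zero_smul]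
      exact Submodule.zero_mem _

theorem mem_bl_of_mem (e : OrthonormalBasis ι ℂ H) (S : Set ι) {i : ι} (hi : i ∈ S) :
    e i ∈ bl e S := Submodule.subset_span ⟨i, hi, rfl⟩

theorem bl_orth (e : OrthonormalBasis ι ℂ H) (S : Set ι) : (bl e S)ᗮ = bl e Sᶜ := by
  ext u
  rw [Submodule.mem_orthogonal, mem_bl_iff]
  constructor
  · intro h i hi
    exact h _ (mem_bl_of_mem e S (by simpa using hi))
  · intro h v hv
    rw [mem_bl_iff] at hv
    rw [← OrthonormalBasis.sum_inner_mul_inner e v u]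
    refine Finset.sum_eq_zero fun i _ => ?_
    by_cases hi : i ∈ S
    · rw [h i (by simpa using hi), mul_zero]
    · rw [← inner_conj_symm, hv i hi]
      simp

/-- spectral separation of an index set for an eigenbasis forces small off-block matrix
elements of everything which almost commutes -/
theorem offblock_entry (e : OrthonormalBasis ι ℂ H) (lam : ι → ℝ) (T A : H →ₗ[ℂ] H)
    (hT : T.IsSymmetric) (he : ∀ i, T (e i) = (lam i : ℂ) • e i)
    (ε : ℝ) (hc : ∀ v, ‖T (A v) - A (T v)‖ ≤ ε * ‖v‖) (γ : ℝ) (hγ : 0 < γ) (i j : ι)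
    (hij : γ ≤ |lam i - lam j|) : ‖⟪e i, A (e j)⟫_ℂ‖ ≤ ε / γ := by
  have h1 : ⟪e i, T (A (e j)) - A (T (e j))⟫_ℂ = ((lam i - lam j : ℝ) : ℂ) * ⟪e i, A (e j)⟫_ℂ := by
    rw [inner_sub_right, ← hT (e i) (A (e j)), he i, he j, map_smul, inner_smul_left,
      inner_smul_right]
    simp only [Complex.conj_ofReal]
    push_cast
    ring
  have h2 : ‖⟪e i, T (A (e j)) - A (T (e j))⟫_ℂ‖ ≤ ε := by
    refine (norm_inner_le_norm _ _).trans ?_
    rw [e.norm_eq_one, one_mul]
    refine (hc (e j)).trans ?_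
    rw [e.norm_eq_one, mul_one]
  rw [h1, norm_mul, Complex.norm_real, Real.norm_eq_abs] at h2
  rw [le_div_iff₀ hγ]
  calc ‖⟪e i, A (e j)⟫_ℂ‖ * γ ≤ ‖⟪e i, A (e j)⟫_ℂ‖ * |lam i - lam j| :=
        mul_le_mul_of_nonneg_left hij (norm_nonneg _)
    _ = |lam i - lam j| * ‖⟪e i, A (e j)⟫_ℂ‖ := mul_comm _ _
    _ ≤ ε := h2

/-- the projection to a block has the block coefficients -/
theorem inner_proj (e : OrthonormalBasis ι ℂ H) (S : Set ι) [DecidablePred (· ∈ S)] (w : H)
    (i : ι) : ⟪e i, (bl e S).starProjection w⟫_ℂ = if i ∈ S then ⟪e i, w⟫_ℂ else 0 := by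
  split_ifs with hi
  · rw [← Submodule.inner_starProjection_left_eq_right,
      Submodule.starProjection_eq_self_iff.2 (mem_bl_of_mem e S hi)]
  · exact (mem_bl_iff e S _).1 (Submodule.starProjection_apply_mem _ _) i hi

theorem inner_proj_orth (e : OrthonormalBasis ι ℂ H) (S : Set ι) [DecidablePred (· ∈ S)] (w : H)
    (i : ι) : ⟪e i, (bl e S)ᗮ.starProjection w⟫_ℂ = if i ∈ S then 0 else ⟪e i, w⟫_ℂ := by
  split_ifs with hi
  · exact (Submodule.mem_orthogonal _ _).1 (Submodule.starProjection_apply_mem _ _) _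
      (mem_bl_of_mem e S hi)
  · have h1 : e i ∈ (bl e S)ᗮ := by
      rw [bl_orth]
      exact mem_bl_of_mem e _ hi
    rw [← Submodule.inner_starProjection_left_eq_right, Submodule.starProjection_eq_self_iff.2 h1]

/-- OFF-BLOCK BOUND: if `S` is spectrally separated (gap `γ`) for `T`, then the off-block part of
an operator `A` with `‖[T,A]‖ ≤ ε` has norm at most `n² ε/γ`. -/
theorem offblock_bound (e : OrthonormalBasis ι ℂ H) (lam : ι → ℝ) (T A : H →ₗ[ℂ] H)
    (hT : T.IsSymmetric) (he : ∀ i, T (e i) = (lam i : ℂ) • e i)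
    (ε : ℝ) (hε : 0 ≤ ε) (hc : ∀ v, ‖T (A v) - A (T v)‖ ≤ ε * ‖v‖) (γ : ℝ) (hγ : 0 < γ)
    (S : Set ι) (hS : ∀ i ∈ S, ∀ j ∉ S, γ ≤ |lam i - lam j|) (u : H) (hu : u ∈ bl e S) :
    ‖(bl e S)ᗮ.starProjection (A u)‖ ≤ (Fintype.card ι : ℝ) ^ 2 * (ε / γ) * ‖u‖ := by
  classical
  have hεγ : 0 ≤ ε / γ := by positivity
  have key : ∀ i, ‖⟪e i, (bl e S)ᗮ.starProjection (A u)⟫_ℂ‖ ≤
      Fintype.card ι * (ε / γ) * ‖u‖ := by
    intro i
    rw [inner_proj_orth]
    split_ifs with hi'
    · simp only [norm_zero]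
      positivity
    · have h1 : A u = ∑ j, ⟪e j, u⟫_ℂ • A (e j) := by
        conv_lhs => rw [← OrthonormalBasis.sum_repr' e u]
        simp [map_sum]
      rw [h1, inner_sum]
      refine (norm_sum_le _ _).trans ?_
      have : ∀ j ∈ Finset.univ, ‖⟪e i, ⟪e j, u⟫_ℂ • A (e j)⟫_ℂ‖ ≤ (ε / γ) * ‖u‖ := by
        intro j _
        rw [inner_smul_right, norm_mul]
        by_cases hj : j ∈ S
        · have h2 := offblock_entry e lam T A hT he ε hc γ hγ i j
            (by rw [abs_sub_comm]; exact hS j hj i hi')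
          have h3 : ‖⟪e j, u⟫_ℂ‖ ≤ ‖u‖ := by
            refine (norm_inner_le_norm _ _).trans ?_
            rw [e.norm_eq_one, one_mul]
          calc ‖⟪e j, u⟫_ℂ‖ * ‖⟪e i, A (e j)⟫_ℂ‖ ≤ ‖u‖ * (ε / γ) :=
                mul_le_mul h3 h2 (norm_nonneg _) (norm_nonneg _)
            _ = _ := mul_comm _ _
        · rw [(mem_bl_iff e S u).1 hu j hj]
          simp only [norm_zero, zero_mul]
          positivity
      refine (Finset.sum_le_sum this).trans ?_
      simp [mul_assoc]
  refine (norm_le_card e _ _ (by positivity) key).trans (le_of_eq ?_)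
  ring

/-- pigeonhole: a finite family of reals with spread `> n γ` has a gap `≥ γ` -/
theorem exists_gap (lam : ι → ℝ) (γ : ℝ) (hγ : 0 < γ) (a b : ι)
    (h : Fintype.card ι * γ < lam a - lam b) :
    ∃ S : Set ι, b ∈ S ∧ a ∉ S ∧ ∀ i ∈ S, ∀ j ∉ S, γ ≤ |lam i - lam j| := by
  classical
  by_contra hcon
  push Not at hcon
  -- every window contains an index
  have hw : ∀ t : Fin (Fintype.card ι), ∃ i, lam b + t * γ < lam i ∧
      lam i ≤ lam b + (t + 1) * γ := by
    intro t
    by_contra hno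
    push Not at hno
    have ht : ((t : ℕ) : ℝ) + 1 ≤ Fintype.card ι := by exact_mod_cast t.2
    have h0 : (0 : ℝ) ≤ (t : ℕ) := Nat.cast_nonneg _
    obtain ⟨i, hi, j, hj, hlt⟩ := hcon {i | lam i ≤ lam b + t * γ}
      (by simp only [Set.mem_ofPred_eq]; nlinarith)
      (by
        simp only [Set.mem_ofPred_eq, not_le]
        nlinarith)
    simp only [Set.mem_ofPred_eq] at hi
    simp only [Set.mem_ofPred_eq, not_le] at hj
    have h2 := hno j hj
    have h3 : γ ≤ |lam i - lam j| := by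
      rw [abs_sub_comm]
      refine le_trans ?_ (le_abs_self _)
      nlinarith
    linarith
  choose f hf1 hf2 using hw
  have hinj : Function.Injective f := by
    intro s t hst
    by_contra hne
    rcases lt_or_gt_of_ne hne with hlt | hlt
    · have h1 : ((s : ℕ) : ℝ) + 1 ≤ (t : ℕ) := by exact_mod_cast hlt
      have h2 := hf2 s
      have h3 := hf1 t
      rw [hst] at h2
      nlinarith
    · have h1 : ((t : ℕ) : ℝ) + 1 ≤ (s : ℕ) := by exact_mod_cast hlt
      have h2 := hf2 t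
      have h3 := hf1 s
      rw [hst] at h3
      nlinarith
  have hbij : Function.Bijective f :=
    (Fintype.bijective_iff_injective_and_card f).2 ⟨hinj, by simp⟩
  obtain ⟨t, ht⟩ := hbij.2 b
  have h1 := hf1 t
  rw [ht] at h1
  have h0 : (0 : ℝ) ≤ (t : ℕ) := Nat.cast_nonneg _
  nlinarith

/-- compression of an operator to a subspace -/
def comp (K : Submodule ℂ H) (T : H →ₗ[ℂ] H) : K →ₗ[ℂ] K :=
  (K.orthogonalProjectionOnto : H →L[ℂ] K).toLinearMap ∘ₗ T ∘ₗ K.subtype

theorem comp_apply (K : Submodule ℂ H) (T : H →ₗ[ℂ] H) (u : K) :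
    ((comp K T u : K) : H) = K.starProjection (T u) := rfl

theorem comp_symm (K : Submodule ℂ H) (T : H →ₗ[ℂ] H) (hT : T.IsSymmetric) :
    (comp K T).IsSymmetric := by
  intro u v
  rw [Submodule.coe_inner, Submodule.coe_inner, comp_apply, comp_apply,
    Submodule.inner_starProjection_left_eq_right,
    Submodule.starProjection_eq_self_iff.2 v.2, hT,
    ← Submodule.inner_starProjection_left_eq_right,
    Submodule.starProjection_eq_self_iff.2 u.2]

/-- commutator of compressions -/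
theorem comp_comm (K : Submodule ℂ H) (A B : H →ₗ[ℂ] H) (ε η : ℝ) (hη : 0 ≤ η)
    (hc : ∀ v, ‖A (B v) - B (A v)‖ ≤ ε * ‖v‖)
    (hA : ∀ v ∈ K, ‖Kᗮ.starProjection (A v)‖ ≤ η * ‖v‖)
    (hB : ∀ v ∈ K, ‖Kᗮ.starProjection (B v)‖ ≤ η * ‖v‖)
    (hA' : ∀ v ∈ Kᗮ, ‖K.starProjection (A v)‖ ≤ η * ‖v‖)
    (hB' : ∀ v ∈ Kᗮ, ‖K.starProjection (B v)‖ ≤ η * ‖v‖) (u : K) :
    ‖comp K A (comp K B u) - comp K B (comp K A u)‖ ≤ (ε + 2 * η ^ 2) * ‖u‖ := by
  have hdec : ∀ w : H, K.starProjection w = w - Kᗮ.starProjection w := by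
    intro w
    have := Submodule.starProjection_add_starProjection_orthogonal (K := K) w
    rw [← this]
    simp
  have h1 : ((comp K A (comp K B u) - comp K B (comp K A u) : K) : H) =
      K.starProjection (A (B u) - B (A u)) - K.starProjection (A (Kᗮ.starProjection (B u)))
        + K.starProjection (B (Kᗮ.starProjection (A u))) := by
    rw [Submodule.coe_sub, comp_apply, comp_apply, comp_apply, comp_apply, hdec (B u), hdec (A u)]
    simp only [map_sub]
    abel
  have h2 : ‖comp K A (comp K B u) - comp K B (comp K A u)‖ =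
      ‖((comp K A (comp K B u) - comp K B (comp K A u) : K) : H)‖ := rfl
  rw [h2, h1]
  have a1 : ‖K.starProjection (A (B u) - B (A u))‖ ≤ ε * ‖u‖ :=
    (K.norm_starProjection_apply_le _).trans (hc u)
  have a2 : ‖K.starProjection (A (Kᗮ.starProjection (B u)))‖ ≤ η * (η * ‖u‖) :=
    (hA' _ (Submodule.starProjection_apply_mem _ _)).trans
      (mul_le_mul_of_nonneg_left (hB _ u.2) hη)
  have a3 : ‖K.starProjection (B (Kᗮ.starProjection (A u)))‖ ≤ η * (η * ‖u‖) :=
    (hB' _ (Submodule.starProjection_apply_mem _ _)).trans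
      (mul_le_mul_of_nonneg_left (hA _ u.2) hη)
  calc _ ≤ ‖K.starProjection (A (B u) - B (A u)) - K.starProjection (A (Kᗮ.starProjection (B u)))‖
        + ‖K.starProjection (B (Kᗮ.starProjection (A u)))‖ := norm_add_le _ _
    _ ≤ ‖K.starProjection (A (B u) - B (A u))‖ + ‖K.starProjection (A (Kᗮ.starProjection (B u)))‖
        + ‖K.starProjection (B (Kᗮ.starProjection (A u)))‖ := by
          gcongr
          exact norm_sub_le _ _
    _ ≤ (ε + 2 * η ^ 2) * ‖u‖ := by nlinarith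

/-- the property "commutators `≤ δ²` give joint eigen-errors `≤ C δ`" in dimension `n` -/
def AC (n : ℕ) (C : ℝ) : Prop :=
  ∀ (H : Type) [NormedAddCommGroup H] [InnerProductSpace ℂ H] [FiniteDimensional ℂ H],
    Module.finrank ℂ H = n → ∀ (κ : Type) (T : κ → H →ₗ[ℂ] H), (∀ j, (T j).IsSymmetric) →
    ∀ δ : ℝ, 0 ≤ δ → (∀ j k v, ‖T j (T k v) - T k (T j v)‖ ≤ δ ^ 2 * ‖v‖) →
    ∃ v : Fin n → H, Orthonormal ℂ v ∧ ∃ D : κ → Fin n → ℝ,
      ∀ j i, ‖T j (v i) - (D j i : ℂ) • v i‖ ≤ C * δ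

theorem AC.mono {n : ℕ} {C C' : ℝ} (h : AC n C) (hC : C ≤ C') : AC n C' := by
  intro H _ _ _ hn κ T hT δ hδ hc
  obtain ⟨v, hv, D, hD⟩ := h H hn κ T hT δ hδ hc
  exact ⟨v, hv, D, fun j i => (hD j i).trans (mul_le_mul_of_nonneg_right hC hδ)⟩

/-- gluing orthonormal families of a subspace and of its orthogonal complement -/
theorem glue (K : Submodule ℂ H) {m₁ m₂ n : ℕ} (hmn : m₁ + m₂ = n) (v₁ : Fin m₁ → K)
    (v₂ : Fin m₂ → (Kᗮ : Submodule ℂ H)) (h₁ : Orthonormal ℂ v₁) (h₂ : Orthonormal ℂ v₂) :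
    ∃ v : Fin n → H, Orthonormal ℂ v ∧ ∃ s : Fin n ≃ Fin m₁ ⊕ Fin m₂,
      ∀ i, v i = Sum.elim (fun j => (v₁ j : H)) (fun j => (v₂ j : H)) (s i) := by
  let s : Fin n ≃ Fin m₁ ⊕ Fin m₂ := (finSumFinEquiv.trans (finCongr hmn)).symm
  refine ⟨fun i => Sum.elim (fun j => (v₁ j : H)) (fun j => (v₂ j : H)) (s i), ?_, s,
    fun i => rfl⟩
  have horth : Orthonormal ℂ (Sum.elim (fun j => (v₁ j : H)) (fun j => (v₂ j : H))) := by
    constructor
    · rintro (j | j)
      · exact h₁.1 j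
      · exact h₂.1 j
    · rintro (i | i) (j | j) hij
      · have := h₁.2 (show i ≠ j from fun h => hij (by rw [h]))
        simpa using this
      · exact (Submodule.mem_orthogonal _ _).1 (v₂ j).2 _ (v₁ i).2
      · exact (Submodule.mem_orthogonal' _ _).1 (v₂ i).2 _ (v₁ j).2
      · have := h₂.2 (show i ≠ j from fun h => hij (by rw [h]))
        simpa using this
  exact horth.comp _ s.injective

theorem scalar_case (e : OrthonormalBasis ι ℂ H) (lam : ι → ℝ) (T : H →ₗ[ℂ] H)
    (he : ∀ i, T (e i) = (lam i : ℂ) • e i) (hT : T.IsSymmetric) (c K : ℝ) (hK : 0 ≤ K)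
    (h : ∀ i, |lam i - c| ≤ K) (u : H) : ‖T u - (c : ℂ) • u‖ ≤ K * ‖u‖ := by
  refine norm_le_of_coeff e u _ K hK fun i => ?_
  have h1 : ⟪e i, T u - (c : ℂ) • u⟫_ℂ = ((lam i - c : ℝ) : ℂ) * ⟪e i, u⟫_ℂ := by
    rw [inner_sub_right, ← hT (e i) u, he i, inner_smul_left, inner_smul_right]
    simp only [Complex.conj_ofReal]
    push_cast
    ring
  rw [h1, norm_mul, Complex.norm_real, Real.norm_eq_abs]
  exact mul_le_mul_of_nonneg_right (h i) (norm_nonneg _)

theorem AC_step (n : ℕ) (C : ℝ) (hC : 0 ≤ C) (ih : ∀ m < n, AC m C) :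
    AC n (2 * n + (C * (1 + 2 * n ^ 2) + n ^ 2)) := by
  intro H _ _ _ hn κ T hT δ hδ hc
  have hn0 : (0 : ℝ) ≤ n := Nat.cast_nonneg _
  by_cases hspread : ∀ (j : κ) (a b : Fin n),
      (hT j).eigenvalues hn a - (hT j).eigenvalues hn b ≤ 2 * n * δ
  · -- everything is close to scalars
    let e := stdOrthonormalBasis ℂ H
    let s : Fin n ≃ Fin (Module.finrank ℂ H) := finCongr hn.symm
    refine ⟨fun i => e (s i), e.orthonormal.comp _ s.injective,
      fun j i => (hT j).eigenvalues hn i, fun j i => ?_⟩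
    have h1 := scalar_case ((hT j).eigenvectorBasis hn) ((hT j).eigenvalues hn) (T j)
      (fun i => (hT j).apply_eigenvectorBasis hn i) (hT j) ((hT j).eigenvalues hn i) (2 * n * δ)
      (by positivity) (fun k => by
        rw [abs_le]
        constructor
        · have := hspread j i k
          linarith
        · exact hspread j k i) (e (s i))
    rw [e.norm_eq_one, mul_one] at h1
    refine h1.trans ?_
    have : 0 ≤ C * (1 + 2 * (n : ℝ) ^ 2) + n ^ 2 := by positivity
    nlinarith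
  · push Not at hspread
    obtain ⟨j₀, a, b, hab⟩ := hspread
    set lam := (hT j₀).eigenvalues hn with hlam
    set e := (hT j₀).eigenvectorBasis hn with he
    have hnpos : (0 : ℝ) < n := by
      have : 0 < n := a.pos
      exact_mod_cast this
    set γ : ℝ := (lam a - lam b) / (2 * n) with hγdef
    have hγδ : δ < γ := by
      rw [hγdef, lt_div_iff₀ (by positivity)]
      linarith
    have hγ : 0 < γ := lt_of_le_of_lt hδ hγδ
    obtain ⟨S, hbS, haS, hS⟩ := exists_gap lam γ hγ a b (by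
      have h1 : (n : ℝ) * γ = (lam a - lam b) / 2 := by
        rw [hγdef]
        field_simp
      have h2 : 0 < lam a - lam b := by
        have : 0 ≤ 2 * (n : ℝ) * δ := by positivity
        linarith
      simp only [Fintype.card_fin]
      linarith)
    have heig : ∀ i, T j₀ (e i) = (lam i : ℂ) • e i := fun i =>
      (hT j₀).apply_eigenvectorBasis hn i
    set K := bl e S with hK
    have hδγ : δ ^ 2 / γ ≤ δ := by
      rw [div_le_iff₀ hγ]
      nlinarith
    have off1 : ∀ k, ∀ u ∈ K, ‖Kᗮ.starProjection (T k u)‖ ≤ (n : ℝ) ^ 2 * δ * ‖u‖ := by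
      intro k u hu
      refine (offblock_bound e lam (T j₀) (T k) (hT j₀) heig (δ ^ 2) (by positivity) (hc j₀ k) γ
        hγ S hS u hu).trans ?_
      simp only [Fintype.card_fin]
      gcongr
    have off2 : ∀ k, ∀ u ∈ Kᗮ, ‖K.starProjection (T k u)‖ ≤ (n : ℝ) ^ 2 * δ * ‖u‖ := by
      intro k u hu
      have hu' : u ∈ bl e Sᶜ := by rwa [hK, bl_orth] at hu
      have h1 := offblock_bound e lam (T j₀) (T k) (hT j₀) heig (δ ^ 2) (by positivity)
        (hc j₀ k) γ hγ Sᶜ (fun i hi j hj => by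
          rw [abs_sub_comm]
          exact hS j (by simpa using hj) i hi) u hu'
      have h2 : (bl e Sᶜ)ᗮ = K := by rw [bl_orth, compl_compl]
      have h3 : ‖K.starProjection (T k u)‖ = ‖((bl e Sᶜ)ᗮ).starProjection (T k u)‖ := by
        simp only [h2]
      rw [h3]
      refine h1.trans ?_
      simp only [Fintype.card_fin]
      gcongr
    -- dimensions
    have hdim := Submodule.finrank_add_finrank_orthogonal K
    rw [hn] at hdim
    have hKne : 0 < Module.finrank ℂ K := by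
      rw [Module.finrank_pos_iff]
      refine ⟨⟨⟨e b, mem_bl_of_mem e S hbS⟩, 0, fun h => ?_⟩⟩
      have : e b = 0 := congrArg Subtype.val h
      exact e.toBasis.ne_zero b (by simpa using this)
    have hKne' : 0 < Module.finrank ℂ (Kᗮ : Submodule ℂ H) := by
      rw [Module.finrank_pos_iff]
      have hmem : e a ∈ Kᗮ := by
        rw [hK, bl_orth]
        exact mem_bl_of_mem e _ haS
      refine ⟨⟨⟨e a, hmem⟩, 0, fun h => ?_⟩⟩
      have : e a = 0 := congrArg Subtype.val h
      exact e.toBasis.ne_zero a (by simpa using this)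
    -- induction on both blocks
    set δ' : ℝ := (1 + 2 * n ^ 2) * δ with hδ'
    have hδ'0 : 0 ≤ δ' := by positivity
    have hsq : δ ^ 2 + 2 * ((n : ℝ) ^ 2 * δ) ^ 2 ≤ δ' ^ 2 := by
      rw [hδ']
      have h1 : 0 ≤ (n : ℝ) ^ 2 * δ ^ 2 := by positivity
      have h2 : 0 ≤ (n : ℝ) ^ 4 * δ ^ 2 := by positivity
      nlinarith
    obtain ⟨v₁, hv₁, D₁, hD₁⟩ := ih (Module.finrank ℂ K) (by omega) K rfl κ
      (fun k => comp K (T k)) (fun k => comp_symm K (T k) (hT k)) δ' hδ'0 (fun j k u =>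
        (comp_comm K (T j) (T k) (δ ^ 2) ((n : ℝ) ^ 2 * δ) (by positivity) (hc j k) (off1 j)
          (off1 k) (off2 j) (off2 k) u).trans
          (mul_le_mul_of_nonneg_right hsq (norm_nonneg _)))
    have hKK : (Kᗮ)ᗮ = K := Submodule.orthogonal_orthogonal K
    have off2' : ∀ k, ∀ u ∈ (Kᗮ)ᗮ, ‖Kᗮ.starProjection (T k u)‖ ≤ (n : ℝ) ^ 2 * δ * ‖u‖ := by
      intro k u hu
      rw [hKK] at hu
      exact off1 k u hu
    have off1' : ∀ k, ∀ u ∈ Kᗮ, ‖(Kᗮ)ᗮ.starProjection (T k u)‖ ≤ (n : ℝ) ^ 2 * δ * ‖u‖ := by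
      intro k u hu
      have h3 : ‖((Kᗮ)ᗮ).starProjection (T k u)‖ = ‖K.starProjection (T k u)‖ := by
        simp only [hKK]
      rw [h3]
      exact off2 k u hu
    obtain ⟨v₂, hv₂, D₂, hD₂⟩ := ih (Module.finrank ℂ (Kᗮ : Submodule ℂ H)) (by omega)
      (Kᗮ : Submodule ℂ H) rfl κ
      (fun k => comp Kᗮ (T k)) (fun k => comp_symm Kᗮ (T k) (hT k)) δ' hδ'0 (fun j k u =>
        (comp_comm Kᗮ (T j) (T k) (δ ^ 2) ((n : ℝ) ^ 2 * δ) (by positivity) (hc j k) (off1' j)
          (off1' k) (off2' j) (off2' k) u).trans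
          (mul_le_mul_of_nonneg_right hsq (norm_nonneg _)))
    obtain ⟨v, hv, s, hs⟩ := glue K hdim v₁ v₂ hv₁ hv₂
    refine ⟨v, hv, fun j i => Sum.elim (D₁ j) (D₂ j) (s i), fun j i => ?_⟩
    have fin1 : C * δ' + (n : ℝ) ^ 2 * δ ≤
        (2 * n + (C * (1 + 2 * n ^ 2) + n ^ 2)) * δ := by
      rw [hδ']
      have : 0 ≤ 2 * (n : ℝ) * δ := by positivity
      nlinarith
    refine le_trans ?_ fin1
    show ‖T j (v i) - ((Sum.elim (D₁ j) (D₂ j) (s i) : ℝ) : ℂ) • v i‖ ≤ _
    rw [hs i]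
    generalize s i = q
    rcases q with k | k
    · simp only [Sum.elim_inl]
      have h1 : T j (v₁ k : H) - (D₁ j k : ℂ) • (v₁ k : H) =
          ((comp K (T j) (v₁ k) - (D₁ j k : ℂ) • v₁ k : K) : H) +
            Kᗮ.starProjection (T j (v₁ k : H)) := by
        rw [Submodule.coe_sub, comp_apply, Submodule.coe_smul]
        have := Submodule.starProjection_add_starProjection_orthogonal (K := K) (T j (v₁ k : H))
        conv_lhs => rw [← this]
        abel
      rw [h1]
      refine (norm_add_le _ _).trans (add_le_add (hD₁ j k) ?_)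
      refine (off1 j _ (v₁ k).2).trans (le_of_eq ?_)
      have h2 : ‖(v₁ k : H)‖ = 1 := hv₁.1 k
      rw [h2, mul_one]
    · simp only [Sum.elim_inr]
      have h1 : T j (v₂ k : H) - (D₂ j k : ℂ) • (v₂ k : H) =
          ((comp Kᗮ (T j) (v₂ k) - (D₂ j k : ℂ) • v₂ k : (Kᗮ : Submodule ℂ H)) : H) +
            K.starProjection (T j (v₂ k : H)) := by
        rw [Submodule.coe_sub, comp_apply, Submodule.coe_smul]
        have := Submodule.starProjection_add_starProjection_orthogonal (K := K) (T j (v₂ k : H))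
        conv_lhs => rw [← this]
        abel
      rw [h1]
      refine (norm_add_le _ _).trans (add_le_add (hD₂ j k) ?_)
      refine (off2 j _ (v₂ k).2).trans (le_of_eq ?_)
      have h2 : ‖(v₂ k : H)‖ = 1 := hv₂.1 k
      rw [h2, mul_one]

/-- **Almost commuting symmetric operators are almost simultaneously diagonalisable**, with the
sharp exponent; the constant depends only on the dimension. -/
theorem acom (n : ℕ) : ∃ C : ℝ, 0 ≤ C ∧ AC n C := by
  induction n using Nat.strong_induction_on with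
  | _ n ih =>
    choose! f hf0 hf using ih
    set C := ∑ m ∈ Finset.range n, f m with hCdef
    have hC : 0 ≤ C := Finset.sum_nonneg fun m hm => hf0 m (Finset.mem_range.1 hm)
    refine ⟨_, ?_, AC_step n C hC fun m hm => (hf m hm).mono ?_⟩
    · positivity
    · exact Finset.single_le_sum (f := f) (fun k hk => hf0 k (Finset.mem_range.1 hk))
        (Finset.mem_range.2 hm)

end Crest.Agent.R330.Acom302
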