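import Mathlib

/-!
# Row 330, coercivity of the mass deformed potential (helper383), matrix form

* `hs A` : Hilbert-Schmidt norm squared.
* `gap` : a gap in the upper half of a finite spectrum of zero mean.
* `diag_ineq` : the inequality for a diagonal third matrix.
* `coerc_one`, `coerc_mat` : `Σ_cyc |X_i / 3 + i [X_j, X_k]|² ≥ c |X|² - C` for Hermitian traceless
  matrices.
-/

set_option autoImplicit false
set_option linter.unusedSectionVars false

open Matrix Unitary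
open scoped ComplexOrder

namespace Crest.Agent.R330.Coerc383

noncomputable section

variable {n : Type*} [Fintype n] [DecidableEq n]

/-- Hilbert-Schmidt norm squared. -/
def hs (A : Matrix n n ℂ) : ℝ := ∑ i, ∑ j, ‖A i j‖ ^ 2

theorem hs_nonneg (A : Matrix n n ℂ) : 0 ≤ hs A := by unfold hs; positivity

theorem hs_eq_trace (A : Matrix n n ℂ) : ((hs A : ℝ) : ℂ) = (A * Aᴴ).trace := by
  unfold hs
  rw [Matrix.trace]
  push_cast
  refine Finset.sum_congr rfl fun i _ => ?_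
  rw [Matrix.diag_apply, Matrix.mul_apply]
  refine Finset.sum_congr rfl fun j _ => ?_
  rw [Matrix.conjTranspose_apply, ← Complex.mul_conj', starRingEnd_apply]

/-- Conjugation by a unitary. -/
abbrev cj (U : unitary (Matrix n n ℂ)) : Matrix n n ℂ ≃⋆ₐ[ℂ] Matrix n n ℂ :=
  conjStarAlgAut ℂ (Matrix n n ℂ) U

theorem trace_cj (U : unitary (Matrix n n ℂ)) (A : Matrix n n ℂ) :
    (cj U A).trace = A.trace := by
  unfold cj
  rw [conjStarAlgAut_apply, Matrix.trace_mul_comm, ← mul_assoc, Unitary.coe_star_mul_self, one_mul]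

theorem hs_cj (U : unitary (Matrix n n ℂ)) (A : Matrix n n ℂ) : hs (cj U A) = hs A := by
  have h : ((hs (cj U A) : ℝ) : ℂ) = ((hs A : ℝ) : ℂ) := by
    rw [hs_eq_trace, hs_eq_trace]
    have h1 : cj U A * (cj U A)ᴴ = cj U (A * Aᴴ) := by
      rw [map_mul, ← Matrix.star_eq_conjTranspose, ← Matrix.star_eq_conjTranspose, map_star]
    rw [h1, trace_cj]
  exact_mod_cast h

theorem sq_le_hs (A : Matrix n n ℂ) (i j : n) : ‖A i j‖ ^ 2 ≤ hs A := by
  unfold hs
  calc ‖A i j‖ ^ 2 ≤ ∑ j, ‖A i j‖ ^ 2 :=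
        Finset.single_le_sum (f := fun j => ‖A i j‖ ^ 2) (fun _ _ => by positivity)
          (Finset.mem_univ j)
    _ ≤ _ := Finset.single_le_sum (f := fun i => ∑ j, ‖A i j‖ ^ 2) (fun _ _ => by positivity)
          (Finset.mem_univ i)

/-- Off-block part of the norm. -/
theorem offblock_le_hs (A : Matrix n n ℂ) (S T : Finset n) :
    ∑ a ∈ S, ∑ b ∈ T, ‖A a b‖ ^ 2 ≤ hs A := by
  unfold hs
  calc ∑ a ∈ S, ∑ b ∈ T, ‖A a b‖ ^ 2 ≤ ∑ a ∈ S, ∑ b, ‖A a b‖ ^ 2 :=
        Finset.sum_le_sum fun a _ => Finset.sum_le_sum_of_subset_of_nonneg (Finset.subset_univ _)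
          fun _ _ _ => by positivity
    _ ≤ _ := Finset.sum_le_sum_of_subset_of_nonneg (Finset.subset_univ _) fun _ _ _ => by positivity

theorem hs_sub_le (A B : Matrix n n ℂ) : hs (A - B) ≤ 2 * hs A + 2 * hs B := by
  unfold hs
  rw [Finset.mul_sum, Finset.mul_sum, ← Finset.sum_add_distrib]
  refine Finset.sum_le_sum fun i _ => ?_
  rw [Finset.mul_sum, Finset.mul_sum, ← Finset.sum_add_distrib]
  refine Finset.sum_le_sum fun j _ => ?_
  have h1 : ‖(A - B) i j‖ ≤ ‖A i j‖ + ‖B i j‖ := norm_sub_le _ _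
  have h2 : ‖(A - B) i j‖ ^ 2 ≤ (‖A i j‖ + ‖B i j‖) ^ 2 :=
    pow_le_pow_left₀ (norm_nonneg _) h1 2
  nlinarith [sq_nonneg (‖A i j‖ - ‖B i j‖)]

/-! ### A gap in the spectrum -/

/-- **A gap in the upper half of the spectrum.** -/
theorem gap (d : n → ℝ) (a₀ : n) (h0 : 0 < d a₀) :
    ∃ S : Finset n, a₀ ∈ S ∧ (∀ a ∈ S, d a₀ / 2 ≤ d a) ∧
      ∀ a ∈ S, ∀ b ∉ S, d a₀ / (2 * Fintype.card n) ≤ d a - d b := by
  classical
  set N := Fintype.card n with hN
  have hNpos : 0 < N := Fintype.card_pos_iff.2 ⟨a₀⟩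
  have hNr : (0 : ℝ) < N := by exact_mod_cast hNpos
  set γ : ℝ := d a₀ / (2 * N) with hγ
  have hγ0 : 0 < γ := by positivity
  have hex : ∃ k : Fin N, ∀ a, d a ≤ d a₀ - (k + 1) * γ ∨ d a₀ - k * γ ≤ d a := by
    by_contra hcon
    push Not at hcon
    choose f hf using hcon
    have hinj : Function.Injective f := by
      intro k l hkl
      by_contra hne
      rcases lt_or_gt_of_ne (fun h => hne (Fin.ext h) : (k : ℕ) ≠ l) with h | h
      · have h1 := (hf k).1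
        have h2 := (hf l).2
        rw [hkl] at h1
        have h3 : ((k : ℕ) : ℝ) + 1 ≤ ((l : ℕ) : ℝ) := by exact_mod_cast h
        nlinarith
      · have h1 := (hf l).1
        have h2 := (hf k).2
        rw [hkl] at h2
        have h3 : ((l : ℕ) : ℝ) + 1 ≤ ((k : ℕ) : ℝ) := by exact_mod_cast h
        nlinarith
    have hsurj : Function.Surjective f :=
      ((Fintype.bijective_iff_injective_and_card f).2 ⟨hinj, by simp [hN]⟩).2
    obtain ⟨k, hk⟩ := hsurj a₀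
    have h1 := (hf k).2
    rw [hk] at h1
    have h2 : (0 : ℝ) ≤ ((k : ℕ) : ℝ) := Nat.cast_nonneg _
    nlinarith
  obtain ⟨k, hk⟩ := hex
  have hk0 : (0 : ℝ) ≤ ((k : ℕ) : ℝ) := Nat.cast_nonneg _
  have hk1 : ((k : ℕ) : ℝ) + 1 ≤ N := by exact_mod_cast k.2
  have hNγ : N * γ = d a₀ / 2 := by
    rw [hγ]
    field_simp
  refine ⟨Finset.univ.filter fun a => d a₀ - k * γ ≤ d a, ?_, ?_, ?_⟩
  · rw [Finset.mem_filter]
    exact ⟨Finset.mem_univ _, by nlinarith⟩
  · intro a ha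
    have h1 := (Finset.mem_filter.1 ha).2
    nlinarith
  · intro a ha b hb
    have h1 := (Finset.mem_filter.1 ha).2
    have h2 : ¬ d a₀ - k * γ ≤ d b := fun h => hb (Finset.mem_filter.2 ⟨Finset.mem_univ _, h⟩)
    have h3 := (hk b).resolve_right h2
    nlinarith

/-- The maximum of a vector of zero sum. -/
theorem max_ge (d : n → ℝ) (hd : ∑ a, d a = 0) (a₀ : n) (hmax : ∀ a, d a ≤ d a₀) :
    ∑ a, d a ^ 2 ≤ (Fintype.card n : ℝ) ^ 3 * d a₀ ^ 2 := by
  classical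
  set N := Fintype.card n with hN
  have hNpos : 0 < N := Fintype.card_pos_iff.2 ⟨a₀⟩
  have hNr : (1 : ℝ) ≤ N := by exact_mod_cast hNpos
  have h0 : 0 ≤ d a₀ := by
    by_contra hcon
    push Not at hcon
    have h1 : ∑ a, d a < ∑ _a : n, (0 : ℝ) :=
      Finset.sum_lt_sum_of_nonempty ⟨a₀, Finset.mem_univ _⟩ fun a _ => (hmax a).trans_lt hcon
    simp [hd] at h1
  have h1 : ∀ a, d a ^ 2 ≤ (N * d a₀) ^ 2 := by
    intro a
    refine sq_le_sq' ?_ ((hmax a).trans (le_mul_of_one_le_left h0 hNr))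
    have h2 : d a = -∑ b ∈ Finset.univ.erase a, d b := by
      rw [← Finset.add_sum_erase _ _ (Finset.mem_univ a)] at hd
      linarith
    have h3 : ∑ b ∈ Finset.univ.erase a, d b ≤ ∑ _b ∈ Finset.univ.erase a, d a₀ :=
      Finset.sum_le_sum fun b _ => hmax b
    have h4 : ∑ _b ∈ Finset.univ.erase a, d a₀ ≤ N * d a₀ := by
      rw [Finset.sum_const, nsmul_eq_mul]
      refine mul_le_mul_of_nonneg_right ?_ h0
      exact_mod_cast (Finset.card_le_card (Finset.subset_univ _)).trans Finset.card_univ.le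
    linarith
  calc ∑ a, d a ^ 2 ≤ ∑ _a : n, (N * d a₀) ^ 2 := Finset.sum_le_sum fun a _ => h1 a
    _ = (N : ℝ) ^ 3 * d a₀ ^ 2 := by
      rw [Finset.sum_const, Finset.card_univ, nsmul_eq_mul]
      ring

/-! ### The diagonal case -/

/-- The third matrix is diagonal. -/
theorem diag_ineq (d : n → ℝ) (A B : Matrix n n ℂ) (hA : A.IsHermitian) (hB : B.IsHermitian)
    (S : Finset n) {γ δ R lam : ℝ} (hγ : 0 < γ)
    (hgap : ∀ a ∈ S, ∀ b ∉ S, γ ≤ d a - d b) (hS : S.Nonempty) (hlam : ∀ a ∈ S, lam ≤ d a)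
    (hδ : 0 ≤ δ) (hRA : hs A ≤ R ^ 2) (hRB : hs B ≤ R ^ 2)
    (hM : hs ((1 / 3 : ℂ) • A + Complex.I • (B * diagonal (fun a => (d a : ℂ)) -
        diagonal (fun a => (d a : ℂ)) * B)) +
      hs ((1 / 3 : ℂ) • B + Complex.I • (diagonal (fun a => (d a : ℂ)) * A -
        A * diagonal (fun a => (d a : ℂ)))) +
      hs ((1 / 3 : ℂ) • diagonal (fun a => (d a : ℂ)) + Complex.I • (A * B - B * A)) ≤ δ ^ 2) :
    lam / 3 ≤ δ + 2 / γ ^ 2 * (δ ^ 2 + R ^ 2) := by
  classical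
  set D : Matrix n n ℂ := diagonal (fun a => (d a : ℂ)) with hD
  set M₁ := (1 / 3 : ℂ) • A + Complex.I • (B * D - D * B) with hM₁
  set M₂ := (1 / 3 : ℂ) • B + Complex.I • (D * A - A * D) with hM₂
  set M₃ := (1 / 3 : ℂ) • D + Complex.I • (A * B - B * A) with hM₃
  have hAh : ∀ a b, A b a = star (A a b) := fun a b => (hA.apply b a).symm
  have hBh : ∀ a b, B b a = star (B a b) := fun a b => (hB.apply b a).symm
  -- entries off the block
  have hBe : ∀ a ∈ S, ∀ b ∉ S, γ * ‖B a b‖ ≤ ‖(M₁ - (1 / 3 : ℂ) • A) a b‖ := by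
    intro a ha b hb
    have h1 : (M₁ - (1 / 3 : ℂ) • A) a b = Complex.I * (B a b * (d b - d a)) := by
      have h0 : M₁ - (1 / 3 : ℂ) • A = Complex.I • (B * D - D * B) := by
        rw [hM₁, add_sub_cancel_left]
      rw [h0]
      simp only [hD, Matrix.smul_apply, Matrix.sub_apply, Matrix.mul_diagonal,
        Matrix.diagonal_mul, smul_eq_mul]
      ring
    rw [h1, norm_mul, Complex.norm_I, one_mul, norm_mul, mul_comm]
    refine mul_le_mul_of_nonneg_left ?_ (norm_nonneg _)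
    have h2 : ((d b : ℂ) - d a) = ((d b - d a : ℝ) : ℂ) := by push_cast; ring
    rw [h2, Complex.norm_real, Real.norm_eq_abs, abs_sub_comm]
    exact (hgap a ha b hb).trans (le_abs_self _)
  have hAe : ∀ a ∈ S, ∀ b ∉ S, γ * ‖A a b‖ ≤ ‖(M₂ - (1 / 3 : ℂ) • B) a b‖ := by
    intro a ha b hb
    have h1 : (M₂ - (1 / 3 : ℂ) • B) a b = Complex.I * (A a b * (d a - d b)) := by
      have h0 : M₂ - (1 / 3 : ℂ) • B = Complex.I • (D * A - A * D) := by
        rw [hM₂, add_sub_cancel_left]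
      rw [h0]
      simp only [hD, Matrix.smul_apply, Matrix.sub_apply, Matrix.mul_diagonal,
        Matrix.diagonal_mul, smul_eq_mul]
      ring
    rw [h1, norm_mul, Complex.norm_I, one_mul, norm_mul, mul_comm]
    refine mul_le_mul_of_nonneg_left ?_ (norm_nonneg _)
    have h2 : ((d a : ℂ) - d b) = ((d a - d b : ℝ) : ℂ) := by push_cast; ring
    rw [h2, Complex.norm_real, Real.norm_eq_abs]
    exact (hgap a ha b hb).trans (le_abs_self _)
  -- the off-block sum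
  have hoff : ∑ a ∈ S, ∑ b ∈ Sᶜ, 2 * (‖A a b‖ * ‖B a b‖) ≤ 2 / γ ^ 2 * (δ ^ 2 + R ^ 2) := by
    have h1 : ∀ a ∈ S, ∀ b ∈ Sᶜ, 2 * (‖A a b‖ * ‖B a b‖) ≤
        1 / γ ^ 2 * (‖(M₁ - (1 / 3 : ℂ) • A) a b‖ ^ 2 + ‖(M₂ - (1 / 3 : ℂ) • B) a b‖ ^ 2) := by
      intro a ha b hb
      have hb' : b ∉ S := by simpa using hb
      have h2 := hBe a ha b hb'
      have h3 := hAe a ha b hb'
      have h4 : (γ * ‖B a b‖) ^ 2 ≤ ‖(M₁ - (1 / 3 : ℂ) • A) a b‖ ^ 2 :=
        pow_le_pow_left₀ (by positivity) h2 2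
      have h5 : (γ * ‖A a b‖) ^ 2 ≤ ‖(M₂ - (1 / 3 : ℂ) • B) a b‖ ^ 2 :=
        pow_le_pow_left₀ (by positivity) h3 2
      rw [one_div, inv_mul_eq_div, le_div_iff₀ (by positivity)]
      nlinarith [sq_nonneg (γ * ‖B a b‖ - γ * ‖A a b‖)]
    calc ∑ a ∈ S, ∑ b ∈ Sᶜ, 2 * (‖A a b‖ * ‖B a b‖)
        ≤ ∑ a ∈ S, ∑ b ∈ Sᶜ, 1 / γ ^ 2 * (‖(M₁ - (1 / 3 : ℂ) • A) a b‖ ^ 2 +
            ‖(M₂ - (1 / 3 : ℂ) • B) a b‖ ^ 2) :=
          Finset.sum_le_sum fun a ha => Finset.sum_le_sum fun b hb => h1 a ha b hb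
      _ = 1 / γ ^ 2 * (∑ a ∈ S, ∑ b ∈ Sᶜ, ‖(M₁ - (1 / 3 : ℂ) • A) a b‖ ^ 2 +
            ∑ a ∈ S, ∑ b ∈ Sᶜ, ‖(M₂ - (1 / 3 : ℂ) • B) a b‖ ^ 2) := by
          simp only [← Finset.mul_sum, Finset.sum_add_distrib]
      _ ≤ 1 / γ ^ 2 * (hs (M₁ - (1 / 3 : ℂ) • A) + hs (M₂ - (1 / 3 : ℂ) • B)) := by
          refine mul_le_mul_of_nonneg_left (add_le_add (offblock_le_hs _ _ _)
            (offblock_le_hs _ _ _)) (by positivity)
      _ ≤ 1 / γ ^ 2 * (2 * (δ ^ 2 + R ^ 2)) := by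
          refine mul_le_mul_of_nonneg_left ?_ (by positivity)
          have h2 := hs_sub_le M₁ ((1 / 3 : ℂ) • A)
          have h3 := hs_sub_le M₂ ((1 / 3 : ℂ) • B)
          have h4 : ∀ X : Matrix n n ℂ, hs ((1 / 3 : ℂ) • X) = 1 / 9 * hs X := by
            intro X
            unfold hs
            rw [Finset.mul_sum]
            refine Finset.sum_congr rfl fun i _ => ?_
            rw [Finset.mul_sum]
            refine Finset.sum_congr rfl fun j _ => ?_
            rw [Matrix.smul_apply, smul_eq_mul, norm_mul, mul_pow]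
            norm_num
          rw [h4] at h2 h3
          have h5 := hs_nonneg M₃
          nlinarith
      _ = _ := by ring
  -- the trace over the block
  have htr : ∑ a ∈ S, M₃ a a = (1 / 3 : ℂ) * ∑ a ∈ S, (d a : ℂ) +
      Complex.I * ∑ a ∈ S, ∑ b ∈ Sᶜ, (A a b * B b a - B a b * A b a) := by
    have h1 : ∀ a, M₃ a a = (1 / 3 : ℂ) * d a + Complex.I * ∑ b, (A a b * B b a - B a b * A b a) := by
      intro a
      simp only [hM₃, hD, Matrix.add_apply, Matrix.smul_apply, Matrix.sub_apply,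
        Matrix.diagonal_apply_eq, Matrix.mul_apply, smul_eq_mul, Finset.sum_sub_distrib]
    have h2 : ∑ a ∈ S, ∑ b ∈ S, (A a b * B b a - B a b * A b a) = 0 := by
      have h3 : ∑ a ∈ S, ∑ b ∈ S, A a b * B b a = ∑ a ∈ S, ∑ b ∈ S, B a b * A b a := by
        rw [Finset.sum_comm]
        exact Finset.sum_congr rfl fun a _ => Finset.sum_congr rfl fun b _ => mul_comm _ _
      simp only [Finset.sum_sub_distrib]
      rw [h3, sub_self]
    simp only [h1, Finset.sum_add_distrib, ← Finset.mul_sum]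
    congr 2
    have h4 : ∀ a, ∑ b, (A a b * B b a - B a b * A b a) =
        ∑ b ∈ S, (A a b * B b a - B a b * A b a) + ∑ b ∈ Sᶜ, (A a b * B b a - B a b * A b a) :=
      fun a => (Finset.sum_add_sum_compl S _).symm
    simp only [h4, Finset.sum_add_distrib]
    rw [h2, zero_add]
  have hn1 : ‖Complex.I * ∑ a ∈ S, ∑ b ∈ Sᶜ, (A a b * B b a - B a b * A b a)‖ ≤
      2 / γ ^ 2 * (δ ^ 2 + R ^ 2) := by
    rw [norm_mul, Complex.norm_I, one_mul]
    refine (norm_sum_le _ _).trans ((Finset.sum_le_sum fun a _ => norm_sum_le _ _).trans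
      (le_trans (Finset.sum_le_sum fun a _ => Finset.sum_le_sum fun b _ => ?_) hoff))
    refine (norm_sub_le _ _).trans ?_
    rw [norm_mul, norm_mul, hAh a b, hBh a b, norm_star, norm_star]
    linarith [mul_comm ‖B a b‖ ‖A a b‖]
  have hn2 : ‖∑ a ∈ S, M₃ a a‖ ≤ S.card * δ := by
    refine (norm_sum_le _ _).trans ?_
    rw [← nsmul_eq_mul]
    refine Finset.sum_le_card_nsmul _ _ _ fun a _ => ?_
    refine abs_le_of_sq_le_sq' ?_ hδ |>.2
    have h1 := sq_le_hs M₃ a a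
    have h2 := hs_nonneg M₁
    have h3 := hs_nonneg M₂
    linarith
  have hn3 : (1 / 3 : ℝ) * (S.card * lam) ≤ ‖(1 / 3 : ℂ) * ∑ a ∈ S, (d a : ℂ)‖ := by
    have h1 : (1 / 3 : ℂ) * ∑ a ∈ S, (d a : ℂ) = ((1 / 3 * ∑ a ∈ S, d a : ℝ) : ℂ) := by
      push_cast; ring
    rw [h1, Complex.norm_real, Real.norm_eq_abs]
    refine le_trans ?_ (le_abs_self _)
    refine mul_le_mul_of_nonneg_left ?_ (by norm_num)
    rw [← nsmul_eq_mul]
    exact Finset.card_nsmul_le_sum _ _ _ hlam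
  have hcard : (1 : ℝ) ≤ S.card := by exact_mod_cast hS.card_pos
  have hfin : (1 / 3 : ℝ) * (S.card * lam) ≤ S.card * δ + 2 / γ ^ 2 * (δ ^ 2 + R ^ 2) := by
    have h1 : (1 / 3 : ℂ) * ∑ a ∈ S, (d a : ℂ) = ∑ a ∈ S, M₃ a a -
        Complex.I * ∑ a ∈ S, ∑ b ∈ Sᶜ, (A a b * B b a - B a b * A b a) := by rw [htr]; ring
    rw [h1] at hn3
    exact hn3.trans ((norm_sub_le _ _).trans (add_le_add hn2 hn1))
  have hE : 0 ≤ 2 / γ ^ 2 * (δ ^ 2 + R ^ 2) := by positivity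
  have h2 : (S.card : ℝ) * (lam / 3) ≤ S.card * (δ + 2 / γ ^ 2 * (δ ^ 2 + R ^ 2)) := by
    nlinarith
  exact le_of_mul_le_mul_left h2 (by linarith)

/-! ### The inequality -/

/-- **One distinguished matrix.** -/
theorem coerc_one (A B X : Matrix n n ℂ) (hA : A.IsHermitian) (hB : B.IsHermitian)
    (hX : X.IsHermitian) (htr : X.trace = 0) (h3 : hs A + hs B + hs X ≤ 3 * hs X) :
    (hs A + hs B + hs X) / (216 * (Fintype.card n : ℝ) ^ 3) - 2304 * (Fintype.card n : ℝ) ^ 10 ≤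
      hs ((1 / 3 : ℂ) • A + Complex.I • (B * X - X * B)) +
      hs ((1 / 3 : ℂ) • B + Complex.I • (X * A - A * X)) +
      hs ((1 / 3 : ℂ) • X + Complex.I • (A * B - B * A)) := by
  classical
  set N : ℝ := (Fintype.card n : ℝ) with hN
  set Δ := hs ((1 / 3 : ℂ) • A + Complex.I • (B * X - X * B)) +
      hs ((1 / 3 : ℂ) • B + Complex.I • (X * A - A * X)) +
      hs ((1 / 3 : ℂ) • X + Complex.I • (A * B - B * A)) with hΔ
  have hΔ0 : 0 ≤ Δ := add_nonneg (add_nonneg (hs_nonneg _) (hs_nonneg _)) (hs_nonneg _)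
  set Q := hs A + hs B + hs X with hQ
  have hQ0 : 0 ≤ Q := add_nonneg (add_nonneg (hs_nonneg _) (hs_nonneg _)) (hs_nonneg _)
  have hN0 : 0 ≤ N := Nat.cast_nonneg _
  -- trivial case
  rcases hQ0.eq_or_lt with hQz | hQp
  · rw [← hQz, zero_div]
    nlinarith [pow_nonneg hN0 10]
  -- diagonalise
  set U := star hX.eigenvectorUnitary with hU
  set d := hX.eigenvalues with hd
  have hXd : cj U X = diagonal (fun a => (d a : ℂ)) := by
    have h1 := hX.conjStarAlgAut_star_eigenvectorUnitary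
    exact h1
  have hΔd : Δ = hs ((1 / 3 : ℂ) • cj U A + Complex.I • (cj U B * diagonal (fun a => (d a : ℂ)) -
        diagonal (fun a => (d a : ℂ)) * cj U B)) +
      hs ((1 / 3 : ℂ) • cj U B + Complex.I • (diagonal (fun a => (d a : ℂ)) * cj U A -
        cj U A * diagonal (fun a => (d a : ℂ)))) +
      hs ((1 / 3 : ℂ) • diagonal (fun a => (d a : ℂ)) +
        Complex.I • (cj U A * cj U B - cj U B * cj U A)) := by
    rw [← hXd, hΔ, ← hs_cj U ((1 / 3 : ℂ) • A + Complex.I • (B * X - X * B)),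
      ← hs_cj U ((1 / 3 : ℂ) • B + Complex.I • (X * A - A * X)),
      ← hs_cj U ((1 / 3 : ℂ) • X + Complex.I • (A * B - B * A))]
    simp only [map_add, map_sub, map_mul, map_smul]
  have hherm : ∀ Y : Matrix n n ℂ, Y.IsHermitian → (cj U Y).IsHermitian := by
    intro Y hY
    have h1 : star (cj U Y) = cj U Y := by rw [← map_star, Matrix.star_eq_conjTranspose, hY.eq]
    exact h1
  have hsd : hs X = ∑ a, d a ^ 2 := by
    rw [← hs_cj U X, hXd]
    unfold hs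
    refine Finset.sum_congr rfl fun i _ => ?_
    rw [Finset.sum_eq_single i]
    · rw [Matrix.diagonal_apply_eq, Complex.norm_real, Real.norm_eq_abs, sq_abs]
    · intro j _ hj
      rw [Matrix.diagonal_apply_ne _ (Ne.symm hj)]
      simp
    · intro h
      exact absurd (Finset.mem_univ i) h
  have hd0 : ∑ a, d a = 0 := by
    have h1 : (diagonal (fun a => (d a : ℂ))).trace = 0 := by rw [← hXd, trace_cj, htr]
    rw [Matrix.trace_diagonal] at h1
    exact_mod_cast h1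
  have hXp : 0 < hs X := by linarith
  have : Nonempty n := by
    by_contra hne
    rw [not_nonempty_iff] at hne
    rw [hsd, Finset.univ_eq_empty, Finset.sum_empty] at hXp
    exact lt_irrefl _ hXp
  obtain ⟨a₀, -, hmax⟩ := Finset.exists_max_image Finset.univ d Finset.univ_nonempty
  have hmax' : ∀ a, d a ≤ d a₀ := fun a => hmax a (Finset.mem_univ a)
  have hN1 : 1 ≤ N := by
    rw [hN]
    exact_mod_cast Fintype.card_pos
  have hge := max_ge d hd0 a₀ hmax'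
  rw [← hsd, ← hN] at hge
  have hlam0 : 0 < d a₀ := by
    by_contra hcon
    push Not at hcon
    have h1 : d a₀ = 0 := by
      refine le_antisymm hcon ?_
      by_contra hcon'
      push Not at hcon'
      have h2 : ∑ a, d a < ∑ _a : n, (0 : ℝ) :=
        Finset.sum_lt_sum_of_nonempty ⟨a₀, Finset.mem_univ _⟩ fun a _ => (hmax' a).trans_lt hcon'
      simp [hd0] at h2
    rw [h1] at hge
    nlinarith
  obtain ⟨S, haS, hS1, hS2⟩ := gap d a₀ hlam0
  have hγ : 0 < d a₀ / (2 * (Fintype.card n : ℝ)) := by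
    rw [← hN]
    positivity
  have hmain := diag_ineq d (cj U A) (cj U B) (hherm A hA) (hherm B hB) S hγ hS2 ⟨a₀, haS⟩ hS1
    (Real.sqrt_nonneg Δ) (R := Real.sqrt Q)
    (by rw [hs_cj, Real.sq_sqrt hQ0]; linarith [hs_nonneg B, hs_nonneg X])
    (by rw [hs_cj, Real.sq_sqrt hQ0]; linarith [hs_nonneg A, hs_nonneg X])
    (by rw [Real.sq_sqrt hΔ0, ← hΔd])
  rw [Real.sq_sqrt hΔ0, Real.sq_sqrt hQ0, ← hN] at hmain
  set lam := d a₀ with hlam
  have hQl : Q ≤ 3 * N ^ 3 * lam ^ 2 := by nlinarith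
  have hN3 : 0 < 216 * N ^ 3 := by positivity
  rw [sub_le_iff_le_add, div_le_iff₀ hN3]
  rcases le_total Q Δ with hQΔ | hQΔ
  · have h1 : 1 ≤ 216 * N ^ 3 := by
      have := one_le_pow₀ hN1 (n := 3)
      linarith
    have h2 : 0 ≤ 2304 * N ^ 10 * (216 * N ^ 3) := by positivity
    nlinarith
  · -- `Δ ≤ Q`
    have h1 : 2 / (lam / (2 * N)) ^ 2 * (Δ + Q) ≤ 48 * N ^ 5 := by
      have h2 : 2 / (lam / (2 * N)) ^ 2 = 8 * N ^ 2 / lam ^ 2 := by
        field_simp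
        ring
      rw [h2, div_mul_eq_mul_div, div_le_iff₀ (by positivity)]
      calc 8 * N ^ 2 * (Δ + Q) ≤ 8 * N ^ 2 * (2 * (3 * N ^ 3 * lam ^ 2)) := by
            refine mul_le_mul_of_nonneg_left ?_ (by positivity)
            linarith
        _ = 48 * N ^ 5 * lam ^ 2 := by ring
    have h2 : lam ≤ 6 * Real.sqrt Δ + 288 * N ^ 5 := by linarith
    have h3 : lam ^ 2 ≤ 72 * Δ + 2 * (288 * N ^ 5) ^ 2 := by
      have h4 : lam ^ 2 ≤ (6 * Real.sqrt Δ + 288 * N ^ 5) ^ 2 :=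
        pow_le_pow_left₀ hlam0.le h2 2
      have h5 := Real.sq_sqrt hΔ0
      nlinarith [sq_nonneg (6 * Real.sqrt Δ - 288 * N ^ 5)]
    calc Q ≤ 3 * N ^ 3 * lam ^ 2 := hQl
      _ ≤ 3 * N ^ 3 * (72 * Δ + 2 * (288 * N ^ 5) ^ 2) :=
          mul_le_mul_of_nonneg_left h3 (by positivity)
      _ = (Δ + 2304 * N ^ 10) * (216 * N ^ 3) := by ring

/-- The misfit of a triple of matrices: `X_i / 3 + i [X_{i+1}, X_{i+2}]`. -/
def mis (X : Fin 3 → Matrix n n ℂ) (i : Fin 3) : Matrix n n ℂ :=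
  (1 / 3 : ℂ) • X i + Complex.I • (X (i + 1) * X (i + 2) - X (i + 2) * X (i + 1))

/-- **Coercivity**, matrix form. -/
theorem coerc_mat (X : Fin 3 → Matrix n n ℂ) (hX : ∀ i, (X i).IsHermitian)
    (htr : ∀ i, (X i).trace = 0) :
    (∑ i, hs (X i)) / (216 * (Fintype.card n : ℝ) ^ 3) - 2304 * (Fintype.card n : ℝ) ^ 10 ≤
      ∑ i, hs (mis X i) := by
  obtain ⟨i, -, hi⟩ := Finset.exists_max_image Finset.univ (fun i => hs (X i))
    (Finset.univ_nonempty (α := Fin 3))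
  have h0 := hi 0 (Finset.mem_univ _)
  have h1 := hi 1 (Finset.mem_univ _)
  have h2 := hi 2 (Finset.mem_univ _)
  have e1 : (1 : Fin 3) + 1 = 2 := rfl
  have e2 : (1 : Fin 3) + 2 = 0 := rfl
  have e3 : (2 : Fin 3) + 1 = 0 := rfl
  have e4 : (2 : Fin 3) + 2 = 1 := rfl
  have e5 : (0 : Fin 3) + 1 = 1 := rfl
  have e6 : (0 : Fin 3) + 2 = 2 := rfl
  simp only [Fin.sum_univ_three, mis, e1, e2, e3, e4, e5, e6]
  fin_cases i
  · have h := coerc_one (X 1) (X 2) (X 0) (hX 1) (hX 2) (hX 0) (htr 0) (by simp at h0 h1 h2; linarith)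
    convert h using 1 <;> ring_nf
  · have h := coerc_one (X 2) (X 0) (X 1) (hX 2) (hX 0) (hX 1) (htr 1) (by simp at h0 h1 h2; linarith)
    convert h using 1 <;> ring_nf
  · have h := coerc_one (X 0) (X 1) (X 2) (hX 0) (hX 1) (hX 2) (htr 2) (by simp at h0 h1 h2; linarith)
    convert h using 1

end

end Crest.Agent.R330.Coerc383
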