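import Crest.Prelude.Def_MatrixModel
import Crest.Agent.R330.Coerc_383

/-!
# Row 330, section 4.1: coercivity of the mass deformed potential in colour coordinates (helper87)

* `cmat b u = Σ_A u_A T_A`, `br b u v A = Σ_{B C} f_ABC u_B v_C`.
* `completeness` : a traceless matrix is `Σ_A Tr(M T_A) T_A`.
* `comm_cmat` : `[cmat u, cmat v] = i cmat (br u v)`.
* `coercivity` : `½ Σ_cyc |x_i/3 - g [x_j, x_k]|² + ½ Σ_{j ≥ 3} |x_j|²/36 ≥ |x|²/(432 N³) - 1152 N¹⁰/g²`.
-/

set_option autoImplicit false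

open Matrix Crest.MathPhysics.MatrixQM

namespace Crest.Agent.R330.CoerCfg87

open Crest.Agent.R330.Coerc383

noncomputable section

variable {N : ℕ} (b : ColorBasis N)

/-- The matrix with colour coordinates `u`. -/
def cmat (u : Fin (N ^ 2 - 1) → ℝ) : Matrix (Fin N) (Fin N) ℂ := ∑ A, (u A : ℂ) • b.T A

/-- The bracket in colour coordinates: `[u,v]^A = f_ABC u^B v^C`. -/
def br (u v : Fin (N ^ 2 - 1) → ℝ) (A : Fin (N ^ 2 - 1)) : ℝ :=
  ∑ B, ∑ C, b.structConst A B C * u B * v C

theorem cmat_herm (u : Fin (N ^ 2 - 1) → ℝ) : (cmat b u).IsHermitian := by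
  unfold cmat Matrix.IsHermitian
  rw [Matrix.conjTranspose_sum]
  refine Finset.sum_congr rfl fun A _ => ?_
  rw [Matrix.conjTranspose_smul, (b.herm A).eq, Complex.star_def, Complex.conj_ofReal]

theorem cmat_trace (u : Fin (N ^ 2 - 1) → ℝ) : (cmat b u).trace = 0 := by
  unfold cmat
  rw [Matrix.trace_sum]
  refine Finset.sum_eq_zero fun A _ => ?_
  rw [Matrix.trace_smul, b.traceless, smul_zero]

theorem trace_cmat_mul (u : Fin (N ^ 2 - 1) → ℝ) (B : Fin (N ^ 2 - 1)) :
    (cmat b u * b.T B).trace = (u B : ℂ) := by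
  unfold cmat
  rw [Finset.sum_mul, Matrix.trace_sum]
  simp only [Matrix.smul_mul, Matrix.trace_smul, b.orthonormal, smul_eq_mul]
  simp

theorem trace_cmat_cmat (u v : Fin (N ^ 2 - 1) → ℝ) :
    (cmat b u * cmat b v).trace = ((∑ A, u A * v A : ℝ) : ℂ) := by
  have h : cmat b v = ∑ A, (v A : ℂ) • b.T A := rfl
  rw [h, Finset.mul_sum, Matrix.trace_sum]
  push_cast
  refine Finset.sum_congr rfl fun A _ => ?_
  rw [Matrix.mul_smul, Matrix.trace_smul, trace_cmat_mul, smul_eq_mul, mul_comm]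

theorem hs_cmat (u : Fin (N ^ 2 - 1) → ℝ) : hs (cmat b u) = ∑ A, u A ^ 2 := by
  have h := hs_eq_trace (cmat b u)
  rw [(cmat_herm b u).eq, trace_cmat_cmat] at h
  have h' : hs (cmat b u) = ∑ A, u A * u A := by exact_mod_cast h
  rw [h']
  exact Finset.sum_congr rfl fun A _ => (sq _).symm

theorem cmat_smul (c : ℝ) (u : Fin (N ^ 2 - 1) → ℝ) :
    cmat b (fun A => c * u A) = (c : ℂ) • cmat b u := by
  unfold cmat
  rw [Finset.smul_sum]
  refine Finset.sum_congr rfl fun A _ => ?_
  rw [smul_smul]; push_cast; rfl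

theorem cmat_add (u v : Fin (N ^ 2 - 1) → ℝ) :
    cmat b (fun A => u A + v A) = cmat b u + cmat b v := by
  unfold cmat
  rw [← Finset.sum_add_distrib]
  refine Finset.sum_congr rfl fun A _ => ?_
  rw [← add_smul]; push_cast; rfl

theorem cmat_sub (u v : Fin (N ^ 2 - 1) → ℝ) :
    cmat b (fun A => u A - v A) = cmat b u - cmat b v := by
  unfold cmat
  rw [← Finset.sum_sub_distrib]
  refine Finset.sum_congr rfl fun A _ => ?_
  rw [← sub_smul]; push_cast; rfl

/-! ### Completeness -/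

/-- `1` together with the `T_A`. -/
def fam : Option (Fin (N ^ 2 - 1)) → Matrix (Fin N) (Fin N) ℂ
  | none => 1
  | some A => b.T A

theorem fam_indep (hN : 0 < N) : LinearIndependent ℂ (fam b) := by
  rw [Fintype.linearIndependent_iff]
  intro g hg
  rw [Fintype.sum_option] at hg
  simp only [fam] at hg
  have h0 : g none = 0 := by
    have := congrArg Matrix.trace hg
    rw [Matrix.trace_add, Matrix.trace_smul, Matrix.trace_sum, Matrix.trace_one] at this
    simp only [Matrix.trace_smul, b.traceless, Matrix.trace_zero, Fintype.card_fin, smul_eq_mul,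
      mul_zero, Finset.sum_const_zero, add_zero, mul_eq_zero, Nat.cast_eq_zero] at this
    rcases this with h | h
    · exact h
    · omega
  rw [h0, zero_smul, zero_add] at hg
  intro o
  cases o with
  | none => exact h0
  | some B =>
    have := congrArg (fun M => (M * b.T B).trace) hg
    simp only [Finset.sum_mul, Matrix.trace_sum, Matrix.smul_mul, Matrix.trace_smul,
      b.orthonormal, smul_eq_mul, Matrix.zero_mul, Matrix.trace_zero] at this
    simpa using this

/-- **Completeness.** -/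
theorem completeness (hN : 0 < N) (M : Matrix (Fin N) (Fin N) ℂ) (hM : M.trace = 0) :
    M = ∑ A, (M * b.T A).trace • b.T A := by
  have hcard : Fintype.card (Option (Fin (N ^ 2 - 1))) = Module.finrank ℂ (Matrix (Fin N) (Fin N) ℂ) := by
    rw [Fintype.card_option, Fintype.card_fin, Module.finrank_matrix]
    simp only [Fintype.card_fin, Module.finrank_self, mul_one]
    have : 1 ≤ N ^ 2 := Nat.one_le_pow _ _ hN
    rw [← sq]; omega
  have : Nonempty (Option (Fin (N ^ 2 - 1))) := ⟨none⟩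
  let B := basisOfLinearIndependentOfCardEqFinrank (fam_indep b hN) hcard
  have hB : ∀ o, B o = fam b o := fun o => by
    simp [B]
  have hM' := B.sum_repr M
  rw [Fintype.sum_option] at hM'
  simp only [hB, fam] at hM'
  have h0 : B.repr M none = 0 := by
    have := congrArg Matrix.trace hM'
    rw [Matrix.trace_add, Matrix.trace_smul, Matrix.trace_sum, Matrix.trace_one, hM] at this
    simp only [Matrix.trace_smul, b.traceless, Fintype.card_fin, smul_eq_mul,
      mul_zero, Finset.sum_const_zero, add_zero, mul_eq_zero, Nat.cast_eq_zero] at this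
    rcases this with h | h
    · exact h
    · omega
  rw [h0, zero_smul, zero_add] at hM'
  have hc : ∀ A, B.repr M (some A) = (M * b.T A).trace := by
    intro A
    conv_rhs => rw [← hM']
    simp only [Finset.sum_mul, Matrix.trace_sum, Matrix.smul_mul, Matrix.trace_smul,
      b.orthonormal, smul_eq_mul]
    simp
  conv_lhs => rw [← hM']
  exact Finset.sum_congr rfl fun A _ => by rw [hc]

theorem trace_herm_real (P Q : Matrix (Fin N) (Fin N) ℂ) (hP : P.IsHermitian) (hQ : Q.IsHermitian) :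
    (((P * Q).trace.re : ℝ) : ℂ) = (P * Q).trace := by
  have h : star (P * Q).trace = (P * Q).trace := by
    rw [← Matrix.trace_conjTranspose, Matrix.conjTranspose_mul, hP.eq, hQ.eq, Matrix.trace_mul_comm]
  rw [Complex.star_def] at h
  exact (Complex.conj_eq_iff_re.mp h)

theorem structConst_cyc (A B C : Fin (N ^ 2 - 1)) : b.structConst A B C = b.structConst B C A := by
  unfold ColorBasis.structConst
  congr 2
  rw [Matrix.sub_mul, Matrix.sub_mul, Matrix.trace_sub, Matrix.trace_sub]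
  rw [Matrix.mul_assoc, Matrix.trace_mul_comm (b.T A), Matrix.mul_assoc (b.T B) (b.T A) (b.T C),
    Matrix.trace_mul_comm (b.T B), Matrix.mul_assoc (b.T A) (b.T C) (b.T B),
    Matrix.trace_mul_comm (b.T A)]

theorem structConst_swap (A B C : Fin (N ^ 2 - 1)) : b.structConst B A C = - b.structConst A B C := by
  unfold ColorBasis.structConst
  rw [← Complex.neg_re]
  congr 1
  rw [← neg_sub (b.T A * b.T B) (b.T B * b.T A), Matrix.neg_mul, Matrix.trace_neg]
  ring

/-- `[T_A, T_B] = i Σ_C f_ABC T_C`. -/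
theorem comm_T (hN : 0 < N) (A B : Fin (N ^ 2 - 1)) :
    b.T A * b.T B - b.T B * b.T A = Complex.I • ∑ C, (b.structConst A B C : ℂ) • b.T C := by
  set P : Matrix (Fin N) (Fin N) ℂ := (-Complex.I) • (b.T A * b.T B - b.T B * b.T A) with hP
  have hPh : P.IsHermitian := by
    rw [hP]
    unfold Matrix.IsHermitian
    rw [Matrix.conjTranspose_smul, Matrix.conjTranspose_sub, Matrix.conjTranspose_mul,
      Matrix.conjTranspose_mul, (b.herm A).eq, (b.herm B).eq, Complex.star_def, map_neg,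
      Complex.conj_I, neg_neg, neg_smul, ← smul_neg, neg_sub]
  have hPt : P.trace = 0 := by
    rw [hP, Matrix.trace_smul, Matrix.trace_sub, Matrix.trace_mul_comm, sub_self, smul_zero]
  have hc := completeness b hN P hPt
  have hcoef : ∀ C, (P * b.T C).trace = (b.structConst A B C : ℂ) := by
    intro C
    rw [← trace_herm_real P (b.T C) hPh (b.herm C)]
    congr 1
    unfold ColorBasis.structConst
    rw [hP, Matrix.smul_mul, Matrix.trace_smul, smul_eq_mul]
  simp only [hcoef] at hc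
  rw [← hc, hP, smul_smul]
  simp

theorem comm_cmat (hN : 0 < N) (u v : Fin (N ^ 2 - 1) → ℝ) :
    cmat b u * cmat b v - cmat b v * cmat b u = Complex.I • cmat b (br b u v) := by
  have h1 : cmat b u * cmat b v - cmat b v * cmat b u
      = ∑ A, ∑ B, ((u A * v B : ℝ) : ℂ) • (b.T A * b.T B - b.T B * b.T A) := by
    unfold cmat
    rw [Finset.sum_mul_sum, Finset.sum_mul_sum]
    rw [Finset.sum_comm (f := fun i j => (v i : ℂ) • b.T i * (u j : ℂ) • b.T j)]
    rw [← Finset.sum_sub_distrib]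
    refine Finset.sum_congr rfl fun A _ => ?_
    rw [← Finset.sum_sub_distrib]
    refine Finset.sum_congr rfl fun B _ => ?_
    rw [Matrix.smul_mul, Matrix.smul_mul, Matrix.mul_smul, Matrix.mul_smul, smul_smul, smul_smul,
      smul_sub]
    push_cast
    rw [mul_comm (v B : ℂ)]
  rw [h1]
  simp only [comm_T b hN]
  unfold cmat br
  simp only [smul_comm _ Complex.I]
  simp only [← Finset.smul_sum]
  congr 1
  simp only [Finset.smul_sum, smul_smul]
  rw [Finset.sum_congr rfl fun A _ => Finset.sum_comm]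
  rw [Finset.sum_comm]
  refine Finset.sum_congr rfl fun C _ => ?_
  push_cast
  simp only [← Finset.sum_smul]
  congr 1
  refine Finset.sum_congr rfl fun A _ => Finset.sum_congr rfl fun B _ => ?_
  rw [structConst_cyc b A B C, structConst_cyc b B C A]
  ring

/-! ### Coercivity -/

/-- The `i`-th vector of a configuration. -/
def comp (x : Cfg N) (i : Fin 9) (A : Fin (N ^ 2 - 1)) : ℝ := x (i, A)

/-- `Fin 3` as the first three directions. -/
def lo (i : Fin 3) : Fin 9 := ⟨i, by omega⟩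

/-- `Σ_{i mod 3} |m x_i / 3 - g [x_{i+1}, x_{i+2}]|²`. -/
def Vcyc (g m : ℝ) (x : Cfg N) : ℝ :=
  ∑ i : Fin 3, ∑ A, (m * comp x (lo i) A / 3
    - g * br b (comp x (lo (i + 1))) (comp x (lo (i + 2))) A) ^ 2

/-- `Σ_{j ≥ 3} |x_j|²`. -/
def Vhi (x : Cfg N) : ℝ := ∑ i : Fin 6, ∑ A, (comp x ⟨i + 3, by omega⟩ A) ^ 2

theorem br_smul_smul (c d : ℝ) (u v : Fin (N ^ 2 - 1) → ℝ) (A : Fin (N ^ 2 - 1)) :
    br b (fun B => c * u B) (fun B => d * v B) A = c * d * br b u v A := by
  unfold br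
  rw [Finset.mul_sum]
  refine Finset.sum_congr rfl fun B _ => ?_
  rw [Finset.mul_sum]
  refine Finset.sum_congr rfl fun C _ => ?_
  ring

theorem Vcyc_eq (hN : 0 < N) {g : ℝ} (x : Cfg N) :
    g ^ 2 * Vcyc b g 1 x = ∑ i : Fin 3, hs (mis (fun i => cmat b (fun A => g * comp x (lo i) A)) i) := by
  unfold Vcyc
  rw [Finset.mul_sum]
  refine Finset.sum_congr rfl fun i _ => ?_
  unfold mis
  rw [comm_cmat b hN]
  have h1 : (1 / 3 : ℂ) • cmat b (fun A => g * comp x (lo i) A)
      + Complex.I • (Complex.I • cmat b (br b (fun A => g * comp x (lo (i + 1)) A)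
        (fun A => g * comp x (lo (i + 2)) A)))
      = cmat b (fun A => g * (1 * comp x (lo i) A / 3
          - g * br b (comp x (lo (i + 1))) (comp x (lo (i + 2))) A)) := by
    rw [smul_smul, Complex.I_mul_I, neg_one_smul, ← sub_eq_add_neg]
    have e1 : ((1 / 3 : ℂ)) = (((1 / 3 : ℝ)) : ℂ) := by push_cast; rfl
    rw [e1, ← cmat_smul, ← cmat_sub]
    congr 1
    funext A
    rw [br_smul_smul]
    ring
  rw [h1, hs_cmat, Finset.mul_sum]
  refine Finset.sum_congr rfl fun A _ => ?_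
  ring

theorem norm_sq_eq (x : Cfg N) :
    ‖x‖ ^ 2 = ∑ i : Fin 3, ∑ A, (comp x (lo i) A) ^ 2 + Vhi x := by
  rw [EuclideanSpace.norm_sq_eq, Fintype.sum_prod_type]
  unfold Vhi comp lo
  simp only [Real.norm_eq_abs, sq_abs]
  rw [Fin.sum_univ_succ, Fin.sum_univ_succ, Fin.sum_univ_succ, Fin.sum_univ_three]
  simp only [add_assoc]
  rfl

/-- **Coercivity of the mass deformed potential** (constants depend on `N` only). -/
theorem coercivity (hN : 0 < N) {g : ℝ} (hg : 0 < g) (x : Cfg N) :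
    ‖x‖ ^ 2 / (432 * (N : ℝ) ^ 3) - 1152 * (N : ℝ) ^ 10 / g ^ 2
      ≤ 1 / 2 * Vcyc b g 1 x + 1 / 72 * Vhi x := by
  have hN1 : (1 : ℝ) ≤ N := by exact_mod_cast hN
  have hNe : Nonempty (Fin N) := ⟨⟨0, hN⟩⟩
  have h := coerc_mat (fun i : Fin 3 => cmat b (fun A => g * comp x (lo i) A))
    (fun i => cmat_herm b _) (fun i => cmat_trace b _)
  rw [← Vcyc_eq b hN x, Fintype.card_fin] at h
  simp only [hs_cmat] at h
  have h1 : ∑ i : Fin 3, ∑ A, (g * comp x (lo i) A) ^ 2
      = g ^ 2 * ∑ i : Fin 3, ∑ A, (comp x (lo i) A) ^ 2 := by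
    simp only [mul_pow, Finset.mul_sum]
  rw [h1] at h
  set S := ∑ i : Fin 3, ∑ A, (comp x (lo i) A) ^ 2 with hS
  have hVhi : 0 ≤ Vhi x := Finset.sum_nonneg fun _ _ => Finset.sum_nonneg fun _ _ => sq_nonneg _
  rw [norm_sq_eq x]
  have hg2 : 0 < g ^ 2 := by positivity
  have hN3 : (1 : ℝ) ≤ (N : ℝ) ^ 3 := one_le_pow₀ hN1
  have h2 : S / (216 * (N : ℝ) ^ 3) - 2304 * (N : ℝ) ^ 10 / g ^ 2 ≤ Vcyc b g 1 x := by
    have h3 : g ^ 2 * (S / (216 * (N : ℝ) ^ 3) - 2304 * (N : ℝ) ^ 10 / g ^ 2)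
        ≤ g ^ 2 * Vcyc b g 1 x := by
      refine le_trans (le_of_eq ?_) h
      field_simp
    exact le_of_mul_le_mul_left h3 hg2
  have h4 : Vhi x / (432 * (N : ℝ) ^ 3) ≤ 1 / 72 * Vhi x := by
    rw [div_le_iff₀ (by positivity)]
    nlinarith
  have h5 : (S + Vhi x) / (432 * (N : ℝ) ^ 3) - 1152 * (N : ℝ) ^ 10 / g ^ 2
      = 1 / 2 * (S / (216 * (N : ℝ) ^ 3) - 2304 * (N : ℝ) ^ 10 / g ^ 2)
        + Vhi x / (432 * (N : ℝ) ^ 3) := by
    field_simp; ring
  rw [h5]
  linarith

end

end Crest.Agent.R330.CoerCfg87
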