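import Crest.Prelude.Def_MatrixModel

/-! Row 330, colour algebra: completeness of a `ColorBasis`, total antisymmetry and the Jacobi
identity of the structure constants, the adjoint matrices. -/

set_option autoImplicit false

open Matrix Finset
open Crest.MathPhysics.MatrixQM

namespace Crest.Agent.R330.Col962

variable {N : ℕ} (b : ColorBasis N)

/-- Trace orthonormality in sums. -/
theorem trace_sum (c : Fin (N ^ 2 - 1) → ℂ) (B : Fin (N ^ 2 - 1)) :
    (b.T B * ∑ A, c A • b.T A).trace = c B := by
  rw [Finset.mul_sum, Matrix.trace_sum]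
  simp only [mul_smul_comm, Matrix.trace_smul, b.orthonormal, smul_eq_mul, mul_ite, mul_one,
    mul_zero]
  rw [Finset.sum_ite_eq Finset.univ B]
  simp

theorem T_ext {c c' : Fin (N ^ 2 - 1) → ℂ} (h : ∑ A, c A • b.T A = ∑ A, c' A • b.T A) :
    c = c' := by
  funext B
  rw [← trace_sum b c B, h, trace_sum]

/-- Every complex matrix is a combination of the `T_A` and the identity. -/
theorem exists_expand (hN : 0 < N) (M : Matrix (Fin N) (Fin N) ℂ) :
    ∃ (c : Fin (N ^ 2 - 1) → ℂ) (z : ℂ), M = ∑ A, c A • b.T A + z • 1 := by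
  let Φ : ((Fin (N ^ 2 - 1) → ℂ) × ℂ) →ₗ[ℂ] Matrix (Fin N) (Fin N) ℂ :=
    { toFun := fun p => ∑ A, p.1 A • b.T A + p.2 • 1
      map_add' := by
        intro p q
        simp only [Prod.fst_add, Prod.snd_add, Pi.add_apply, add_smul, Finset.sum_add_distrib]
        abel
      map_smul' := by
        intro r p
        simp only [Prod.smul_fst, Prod.smul_snd, Pi.smul_apply, smul_eq_mul, mul_smul,
          RingHom.id_apply, smul_add, Finset.smul_sum] }
  have hΦ : ∀ p, Φ p = ∑ A, p.1 A • b.T A + p.2 • 1 := fun _ => rfl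
  have hinj : Function.Injective Φ := by
    rw [← LinearMap.ker_eq_bot, LinearMap.ker_eq_bot']
    intro p hp
    rw [hΦ] at hp
    have h1 : ∀ B, p.1 B = 0 := by
      intro B
      have h := congrArg (fun X => (b.T B * X).trace) hp
      simp only [mul_add, Matrix.trace_add, trace_sum, mul_smul_comm, mul_one,
        Matrix.trace_smul, b.traceless, smul_zero, add_zero, mul_zero, Matrix.trace_zero] at h
      exact h
    have h2 : p.2 = 0 := by
      have h := congrArg (fun X => X.trace) hp
      simp only [h1, zero_smul, Finset.sum_const_zero, zero_add, Matrix.trace_smul,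
        Matrix.trace_one, Fintype.card_fin, Matrix.trace_zero, smul_eq_mul, mul_eq_zero,
        Nat.cast_eq_zero] at h
      rcases h with h | h
      · exact h
      · omega
    ext1
    · funext B; exact h1 B
    · exact h2
  have hfr : Module.finrank ℂ ((Fin (N ^ 2 - 1) → ℂ) × ℂ)
      = Module.finrank ℂ (Matrix (Fin N) (Fin N) ℂ) := by
    rw [Module.finrank_prod, Module.finrank_fin_fun, Module.finrank_matrix,
      Module.finrank_self]
    have : 1 ≤ N ^ 2 := Nat.one_le_pow _ _ hN
    simp only [Fintype.card_fin, mul_one]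
    rw [← pow_two]
    omega
  have hsurj := (LinearMap.injective_iff_surjective_of_finrank_eq_finrank hfr).1 hinj
  obtain ⟨p, hp⟩ := hsurj M
  exact ⟨p.1, p.2, by rw [← hp, hΦ]⟩

/-- Completeness for traceless matrices. -/
theorem expand {M : Matrix (Fin N) (Fin N) ℂ} (hM : M.trace = 0) :
    M = ∑ A, (b.T A * M).trace • b.T A := by
  rcases Nat.eq_zero_or_pos N with h0 | hN
  · subst h0
    ext i
    exact i.elim0
  · obtain ⟨c, z, h⟩ := exists_expand b hN M
    have hz : z = 0 := by
      have h' := congrArg (fun X => X.trace) h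
      simp only [hM, Matrix.trace_add, Matrix.trace_sum, Matrix.trace_smul, b.traceless,
        Matrix.trace_one, Fintype.card_fin, smul_eq_mul, mul_zero, Finset.sum_const_zero,
        zero_add] at h'
      rcases mul_eq_zero.1 h'.symm with h'' | h''
      · exact h''
      · rw [Nat.cast_eq_zero] at h''
        omega
    rw [hz, zero_smul, add_zero] at h
    have hc : ∀ A, (b.T A * M).trace = c A := by
      intro A
      rw [h, trace_sum]
    simp only [hc]
    exact h

/-- The trace of a product of two Hermitian matrices is real. -/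
theorem trace_mul_real {X Y : Matrix (Fin N) (Fin N) ℂ} (hX : X.IsHermitian)
    (hY : Y.IsHermitian) : (((X * Y).trace.re : ℝ) : ℂ) = (X * Y).trace := by
  have h : star (X * Y).trace = (X * Y).trace := by
    rw [← Matrix.trace_conjTranspose, Matrix.conjTranspose_mul, hX.eq, hY.eq,
      Matrix.trace_mul_comm]
  exact Complex.conj_eq_iff_re.1 h

/-- Completeness for traceless Hermitian matrices, real coefficients. -/
theorem expand_herm {M : Matrix (Fin N) (Fin N) ℂ} (hM : M.trace = 0) (hH : M.IsHermitian) :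
    M = ∑ A, ((b.T A * M).trace.re : ℂ) • b.T A := by
  conv_lhs => rw [expand b hM]
  refine Finset.sum_congr rfl fun A _ => ?_
  rw [trace_mul_real (b.herm A) hH]

/-- `-i[X,Y]` is Hermitian for Hermitian `X, Y`. -/
theorem comm_herm {X Y : Matrix (Fin N) (Fin N) ℂ} (hX : X.IsHermitian) (hY : Y.IsHermitian) :
    ((-Complex.I) • (X * Y - Y * X)).IsHermitian := by
  unfold Matrix.IsHermitian
  rw [Matrix.conjTranspose_smul, Matrix.conjTranspose_sub, Matrix.conjTranspose_mul,
    Matrix.conjTranspose_mul, hX.eq, hY.eq]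
  simp only [star_neg, RCLike.star_def, Complex.conj_I, neg_neg]
  rw [neg_smul, ← smul_neg, neg_sub]

theorem structConst_eq (A B C : Fin (N ^ 2 - 1)) :
    (b.structConst A B C : ℂ)
      = (-Complex.I) * ((b.T A * b.T B - b.T B * b.T A) * b.T C).trace := by
  have h := trace_mul_real (comm_herm (b.herm A) (b.herm B)) (b.herm C)
  rw [smul_mul_assoc, Matrix.trace_smul, smul_eq_mul] at h
  rw [← h]
  rfl

/-- `[T_A, T_B] = i Σ_C f_ABC T_C`. -/
theorem commutator (A B : Fin (N ^ 2 - 1)) :
    b.T A * b.T B - b.T B * b.T A = ∑ C, (Complex.I * b.structConst A B C) • b.T C := by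
  have ht : (b.T A * b.T B - b.T B * b.T A).trace = 0 := by
    rw [Matrix.trace_sub, Matrix.trace_mul_comm, sub_self]
  conv_lhs => rw [expand b ht]
  refine Finset.sum_congr rfl fun C _ => ?_
  rw [structConst_eq, ← mul_assoc, mul_neg, Complex.I_mul_I, neg_neg, one_mul,
    Matrix.trace_mul_comm]

theorem f_swap12 (A B C : Fin (N ^ 2 - 1)) : b.structConst B A C = - b.structConst A B C := by
  unfold ColorBasis.structConst
  rw [← neg_sub (b.T A * b.T B), Matrix.neg_mul, Matrix.trace_neg, mul_neg, Complex.neg_re]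

theorem f_cyc (A B C : Fin (N ^ 2 - 1)) : b.structConst B C A = b.structConst A B C := by
  unfold ColorBasis.structConst
  congr 2
  rw [sub_mul, sub_mul, Matrix.trace_sub, Matrix.trace_sub]
  congr 1
  · rw [Matrix.trace_mul_comm, mul_assoc]
  · rw [mul_assoc, Matrix.trace_mul_comm, mul_assoc]

theorem f_swap23 (A B C : Fin (N ^ 2 - 1)) : b.structConst A C B = - b.structConst A B C := by
  rw [← f_cyc b A C B, f_swap12, f_cyc]

theorem f_swap13 (A B C : Fin (N ^ 2 - 1)) : b.structConst C B A = - b.structConst A B C := by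
  rw [← f_cyc b C B A, f_swap23, f_cyc]

theorem f_self12 (A C : Fin (N ^ 2 - 1)) : b.structConst A A C = 0 := by
  have h := f_swap12 b A A C
  linarith

theorem f_self23 (A B : Fin (N ^ 2 - 1)) : b.structConst A B B = 0 := by
  have h := f_swap23 b A B B
  linarith

theorem f_self13 (A B : Fin (N ^ 2 - 1)) : b.structConst A B A = 0 := by
  have h := f_swap13 b A B A
  linarith

/-- Jacobi identity. -/
theorem jacobi (A B C D : Fin (N ^ 2 - 1)) :
    ∑ E, (b.structConst A B E * b.structConst E C D + b.structConst B C E * b.structConst E A D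
      + b.structConst C A E * b.structConst E B D) = 0 := by
  have key : ∀ A B C : Fin (N ^ 2 - 1),
      (b.T A * b.T B - b.T B * b.T A) * b.T C - b.T C * (b.T A * b.T B - b.T B * b.T A)
        = ∑ D, (-(∑ E, (b.structConst A B E * b.structConst E C D : ℝ) : ℝ) : ℂ) • b.T D := by
    intro A B C
    rw [commutator, Finset.sum_mul, Finset.mul_sum, ← Finset.sum_sub_distrib]
    have : ∀ E, (Complex.I * (b.structConst A B E : ℂ)) • b.T E * b.T C
        - b.T C * (Complex.I * (b.structConst A B E : ℂ)) • b.T E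
        = ∑ D, (-(b.structConst A B E * b.structConst E C D : ℝ) : ℂ) • b.T D := by
      intro E
      rw [smul_mul_assoc, mul_smul_comm, ← smul_sub, commutator, Finset.smul_sum]
      refine Finset.sum_congr rfl fun D _ => ?_
      rw [smul_smul]
      congr 1
      push_cast
      ring_nf
      rw [Complex.I_sq]
      ring
    rw [Finset.sum_congr rfl fun E _ => this E, Finset.sum_comm]
    refine Finset.sum_congr rfl fun D _ => ?_
    rw [← Finset.sum_smul]
    congr 1
    push_cast
    rw [Finset.sum_neg_distrib]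
  have h0 : ((b.T A * b.T B - b.T B * b.T A) * b.T C - b.T C * (b.T A * b.T B - b.T B * b.T A))
      + ((b.T B * b.T C - b.T C * b.T B) * b.T A - b.T A * (b.T B * b.T C - b.T C * b.T B))
      + ((b.T C * b.T A - b.T A * b.T C) * b.T B - b.T B * (b.T C * b.T A - b.T A * b.T C))
      = 0 := by noncomm_ring
  rw [key, key, key, ← Finset.sum_add_distrib, ← Finset.sum_add_distrib] at h0
  have h1 : ∑ D', (-((∑ E, (b.structConst A B E * b.structConst E C D'
      + b.structConst B C E * b.structConst E A D'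
      + b.structConst C A E * b.structConst E B D') : ℝ) : ℂ)) • b.T D'
      = ∑ D' : Fin (N ^ 2 - 1), (0 : ℂ) • b.T D' := by
    simp only [zero_smul, Finset.sum_const_zero]
    rw [← h0]
    refine Finset.sum_congr rfl fun D' _ => ?_
    rw [← add_smul, ← add_smul]
    congr 1
    rw [Finset.sum_add_distrib, Finset.sum_add_distrib]
    push_cast
    ring
  have h2 := congrFun (T_ext b h1) D
  have h3 := neg_eq_zero.1 h2
  exact_mod_cast h3

/-! ### The adjoint action -/

local notation "SU" => Matrix.specialUnitaryGroup (Fin N) ℂ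

theorem star_mul_self' (g : SU) :
    star (g : Matrix (Fin N) (Fin N) ℂ) * (g : Matrix (Fin N) (Fin N) ℂ) = 1 :=
  (Matrix.mem_unitaryGroup_iff').1 (Matrix.mem_specialUnitaryGroup_iff.1 g.2).1

theorem mul_star_self' (g : SU) :
    (g : Matrix (Fin N) (Fin N) ℂ) * star (g : Matrix (Fin N) (Fin N) ℂ) = 1 :=
  (Matrix.mem_unitaryGroup_iff).1 (Matrix.mem_specialUnitaryGroup_iff.1 g.2).1

theorem conj_trace (g : SU) (M : Matrix (Fin N) (Fin N) ℂ) :
    ((g : Matrix (Fin N) (Fin N) ℂ) * M * star (g : Matrix (Fin N) (Fin N) ℂ)).trace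
      = M.trace := by
  rw [Matrix.trace_mul_comm, ← mul_assoc, star_mul_self', one_mul]

theorem conj_herm (g : SU) {M : Matrix (Fin N) (Fin N) ℂ} (hM : M.IsHermitian) :
    ((g : Matrix (Fin N) (Fin N) ℂ) * M * star (g : Matrix (Fin N) (Fin N) ℂ)).IsHermitian := by
  unfold Matrix.IsHermitian
  rw [Matrix.conjTranspose_mul, Matrix.conjTranspose_mul, ← Matrix.star_eq_conjTranspose (star _),
    star_star, hM.eq, ← Matrix.star_eq_conjTranspose, mul_assoc]

/-- `g T_B g* = Σ_A R(g)_AB T_A`. -/
theorem conj_T (g : SU) (B : Fin (N ^ 2 - 1)) :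
    (g : Matrix (Fin N) (Fin N) ℂ) * b.T B * star (g : Matrix (Fin N) (Fin N) ℂ)
      = ∑ A, (b.adjMat g A B : ℂ) • b.T A := by
  have h1 := conj_trace g (b.T B)
  rw [b.traceless] at h1
  conv_lhs => rw [expand_herm b h1 (conj_herm g (b.herm B))]
  refine Finset.sum_congr rfl fun A _ => ?_
  unfold ColorBasis.adjMat
  rw [mul_assoc, mul_assoc, mul_assoc]

/-- conjugation of a combination -/
theorem conj_sum (g : SU) (c : Fin (N ^ 2 - 1) → ℂ) :
    (g : Matrix (Fin N) (Fin N) ℂ) * (∑ B, c B • b.T B) * star (g : Matrix (Fin N) (Fin N) ℂ)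
      = ∑ A, (∑ B, (b.adjMat g A B : ℂ) * c B) • b.T A := by
  rw [Finset.mul_sum, Finset.sum_mul]
  have : ∀ B, (g : Matrix (Fin N) (Fin N) ℂ) * c B • b.T B * star (g : Matrix (Fin N) (Fin N) ℂ)
      = ∑ A, ((b.adjMat g A B : ℂ) * c B) • b.T A := by
    intro B
    rw [mul_smul_comm, smul_mul_assoc, conj_T, Finset.smul_sum]
    refine Finset.sum_congr rfl fun A _ => ?_
    rw [smul_smul, mul_comm]
  rw [Finset.sum_congr rfl fun B _ => this B, Finset.sum_comm]
  refine Finset.sum_congr rfl fun A _ => ?_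
  rw [Finset.sum_smul]

theorem adjMat_one (A B : Fin (N ^ 2 - 1)) : b.adjMat 1 A B = if A = B then 1 else 0 := by
  unfold ColorBasis.adjMat
  simp only [OneMemClass.coe_one, mul_one, star_one, b.orthonormal]
  split_ifs <;> simp

theorem adjMat_mul (g h : SU) (A B : Fin (N ^ 2 - 1)) :
    b.adjMat (g * h) A B = ∑ C, b.adjMat g A C * b.adjMat h C B := by
  have h1 : ∑ A, (b.adjMat (g * h) A B : ℂ) • b.T A
      = ∑ A, (∑ C, (b.adjMat g A C : ℂ) * (b.adjMat h C B : ℂ)) • b.T A := by
    rw [← conj_sum b g (fun C => (b.adjMat h C B : ℂ)), ← conj_T, ← conj_T]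
    simp only [Submonoid.coe_mul, star_mul, mul_assoc]
  have h2 := congrFun (T_ext b h1) A
  exact_mod_cast h2

theorem adjMat_inv (g : SU) (A B : Fin (N ^ 2 - 1)) : b.adjMat g⁻¹ A B = b.adjMat g B A := by
  have hinv : ((g⁻¹ : SU) : Matrix (Fin N) (Fin N) ℂ) = star (g : Matrix (Fin N) (Fin N) ℂ) := rfl
  unfold ColorBasis.adjMat
  rw [hinv, star_star]
  congr 1
  rw [mul_assoc, mul_assoc, Matrix.trace_mul_comm, mul_assoc, mul_assoc]
  rw [Matrix.trace_mul_comm, mul_assoc, mul_assoc]

theorem adjMat_orth (g : SU) (B C : Fin (N ^ 2 - 1)) :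
    ∑ A, b.adjMat g A B * b.adjMat g A C = if B = C then 1 else 0 := by
  have h := adjMat_mul b g⁻¹ g B C
  rw [inv_mul_cancel, adjMat_one] at h
  rw [h]
  refine Finset.sum_congr rfl fun A _ => ?_
  rw [adjMat_inv]

theorem adjMat_orth' (g : SU) (B C : Fin (N ^ 2 - 1)) :
    ∑ A, b.adjMat g B A * b.adjMat g C A = if B = C then 1 else 0 := by
  have h := adjMat_mul b g g⁻¹ B C
  rw [mul_inv_cancel, adjMat_one] at h
  rw [h]
  refine Finset.sum_congr rfl fun A _ => ?_
  rw [adjMat_inv]

/-- The adjoint matrices are automorphisms of the bracket. -/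
theorem adjMat_struct (g : SU) (A B D : Fin (N ^ 2 - 1)) :
    ∑ A', ∑ B', b.adjMat g A' A * b.adjMat g B' B * b.structConst A' B' D
      = ∑ C, b.structConst A B C * b.adjMat g D C := by
  have h1 : (∑ A', (b.adjMat g A' A : ℂ) • b.T A') * (∑ B', (b.adjMat g B' B : ℂ) • b.T B')
      - (∑ B', (b.adjMat g B' B : ℂ) • b.T B') * (∑ A', (b.adjMat g A' A : ℂ) • b.T A')
      = ∑ D, (∑ C, (b.adjMat g D C : ℂ) * (Complex.I * b.structConst A B C)) • b.T D := by
    rw [← conj_T, ← conj_T, ← conj_sum, ← commutator]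
    have e : ∀ X Y : Matrix (Fin N) (Fin N) ℂ,
        (g : Matrix (Fin N) (Fin N) ℂ) * X * star (g : Matrix (Fin N) (Fin N) ℂ)
          * ((g : Matrix (Fin N) (Fin N) ℂ) * Y * star (g : Matrix (Fin N) (Fin N) ℂ))
        = (g : Matrix (Fin N) (Fin N) ℂ) * (X * Y) * star (g : Matrix (Fin N) (Fin N) ℂ) := by
      intro X Y
      calc (g : Matrix (Fin N) (Fin N) ℂ) * X * star (g : Matrix (Fin N) (Fin N) ℂ)
          * ((g : Matrix (Fin N) (Fin N) ℂ) * Y * star (g : Matrix (Fin N) (Fin N) ℂ))
          = (g : Matrix (Fin N) (Fin N) ℂ) * X * (star (g : Matrix (Fin N) (Fin N) ℂ)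
          * (g : Matrix (Fin N) (Fin N) ℂ)) * Y * star (g : Matrix (Fin N) (Fin N) ℂ) := by
            simp only [mul_assoc]
        _ = _ := by rw [star_mul_self', mul_one]; simp only [mul_assoc]
    rw [e, e, ← sub_mul, ← mul_sub]
  have h2 : (∑ A', (b.adjMat g A' A : ℂ) • b.T A') * (∑ B', (b.adjMat g B' B : ℂ) • b.T B')
      - (∑ B', (b.adjMat g B' B : ℂ) • b.T B') * (∑ A', (b.adjMat g A' A : ℂ) • b.T A')
      = ∑ D, (Complex.I * (∑ A', ∑ B', b.adjMat g A' A * b.adjMat g B' B
          * b.structConst A' B' D : ℝ)) • b.T D := by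
    rw [Finset.sum_mul_sum, Finset.sum_mul_sum,
      Finset.sum_comm (f := fun B' A' => (b.adjMat g B' B : ℂ) • b.T B'
        * (b.adjMat g A' A : ℂ) • b.T A'), ← Finset.sum_sub_distrib]
    have : ∀ A', (∑ B', (b.adjMat g A' A : ℂ) • b.T A' * (b.adjMat g B' B : ℂ) • b.T B')
        - (∑ B', (b.adjMat g B' B : ℂ) • b.T B' * (b.adjMat g A' A : ℂ) • b.T A')
        = ∑ B', ∑ D, (Complex.I * (b.adjMat g A' A * b.adjMat g B' B
          * b.structConst A' B' D : ℝ)) • b.T D := by
      intro A'
      rw [← Finset.sum_sub_distrib]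
      refine Finset.sum_congr rfl fun B' _ => ?_
      rw [smul_mul_smul_comm, smul_mul_smul_comm, mul_comm (b.adjMat g B' B : ℂ), ← smul_sub,
        commutator, Finset.smul_sum]
      refine Finset.sum_congr rfl fun D _ => ?_
      rw [smul_smul]
      congr 1
      push_cast
      ring
    rw [Finset.sum_congr rfl fun A' _ => this A']
    rw [Finset.sum_congr rfl fun A' _ => Finset.sum_comm, Finset.sum_comm]
    refine Finset.sum_congr rfl fun D _ => ?_
    rw [← Finset.sum_congr rfl fun A' _ => Finset.sum_smul, ← Finset.sum_smul]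
    congr 1
    push_cast
    simp only [Finset.mul_sum]
  rw [h2] at h1
  have h3 := congrFun (T_ext b h1) D
  have h4 : Complex.I * ((∑ A', ∑ B', b.adjMat g A' A * b.adjMat g B' B
          * b.structConst A' B' D : ℝ) : ℂ)
      = Complex.I * ((∑ C, b.structConst A B C * b.adjMat g D C : ℝ) : ℂ) := by
    rw [h3]
    push_cast
    rw [Finset.mul_sum]
    refine Finset.sum_congr rfl fun C _ => ?_
    ring
  have h5 := mul_left_cancel₀ Complex.I_ne_zero h4
  exact_mod_cast h5

/-! ### The action on configurations -/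

theorem act_apply (g : SU) (x : Cfg N) (i : Fin 9) (A : Fin (N ^ 2 - 1)) :
    b.act g x (i, A) = ∑ B, b.adjMat g A B * x (i, B) := rfl

theorem act_one (x : Cfg N) : b.act 1 x = x := by
  ext ⟨i, A⟩
  rw [act_apply]
  simp only [adjMat_one, ite_mul, one_mul, zero_mul]
  rw [Finset.sum_ite_eq Finset.univ A]
  simp

theorem act_mul (g h : SU) (x : Cfg N) : b.act (g * h) x = b.act g (b.act h x) := by
  ext ⟨i, A⟩
  simp only [act_apply, adjMat_mul, Finset.sum_mul, Finset.mul_sum]
  rw [Finset.sum_comm]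
  refine Finset.sum_congr rfl fun B _ => Finset.sum_congr rfl fun C _ => ?_
  ring

theorem act_add (g : SU) (x y : Cfg N) : b.act g (x + y) = b.act g x + b.act g y := by
  ext ⟨i, A⟩
  simp only [act_apply, PiLp.add_apply, mul_add, Finset.sum_add_distrib]

theorem act_smul (g : SU) (r : ℝ) (x : Cfg N) : b.act g (r • x) = r • b.act g x := by
  ext ⟨i, A⟩
  simp only [act_apply, PiLp.smul_apply, smul_eq_mul, Finset.mul_sum]
  refine Finset.sum_congr rfl fun B _ => ?_
  ring

/-- The colour inner product is invariant. -/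
theorem sum_act_mul (g : SU) (x y : Cfg N) (i j : Fin 9) :
    ∑ A, b.act g x (i, A) * b.act g y (j, A) = ∑ A, x (i, A) * y (j, A) := by
  simp only [act_apply, Finset.sum_mul_sum]
  rw [Finset.sum_comm]
  have : ∀ B, ∑ A, ∑ C, b.adjMat g A B * x (i, B) * (b.adjMat g A C * y (j, C))
      = x (i, B) * y (j, B) := by
    intro B
    rw [Finset.sum_comm]
    have h : ∀ C, ∑ A, b.adjMat g A B * x (i, B) * (b.adjMat g A C * y (j, C))
        = (if B = C then x (i, B) * y (j, C) else 0) := by
      intro C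
      have e := adjMat_orth b g B C
      have : ∀ A, b.adjMat g A B * x (i, B) * (b.adjMat g A C * y (j, C))
          = (b.adjMat g A B * b.adjMat g A C) * (x (i, B) * y (j, C)) := by
        intro A; ring
      rw [Finset.sum_congr rfl fun A _ => this A, ← Finset.sum_mul, e]
      split_ifs <;> simp
    rw [Finset.sum_congr rfl fun C _ => h C, Finset.sum_ite_eq Finset.univ B]
    simp
  exact Finset.sum_congr rfl fun B _ => this B

theorem norm_act (g : SU) (x : Cfg N) : ‖b.act g x‖ = ‖x‖ := by
  have h : ∀ z : Cfg N, ‖z‖ ^ 2 = ∑ i, ∑ A, z (i, A) * z (i, A) := by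
    intro z
    rw [EuclideanSpace.norm_sq_eq, Fintype.sum_prod_type]
    refine Finset.sum_congr rfl fun i _ => Finset.sum_congr rfl fun A _ => ?_
    rw [Real.norm_eq_abs, sq_abs, sq]
  have h2 : ‖b.act g x‖ ^ 2 = ‖x‖ ^ 2 := by
    rw [h, h]
    exact Finset.sum_congr rfl fun i _ => sum_act_mul b g x x i i
  exact (sq_eq_sq₀ (norm_nonneg _) (norm_nonneg _)).1 h2

/-- The action as a linear isometry equivalence. -/
noncomputable def actLI (g : SU) : Cfg N ≃ₗᵢ[ℝ] Cfg N where
  toFun := b.act g
  invFun := b.act g⁻¹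
  map_add' := act_add b g
  map_smul' := act_smul b g
  left_inv := fun x => by rw [← act_mul, inv_mul_cancel, act_one]
  right_inv := fun x => by rw [← act_mul, mul_inv_cancel, act_one]
  norm_map' := norm_act b g

@[simp] theorem actLI_apply (g : SU) (x : Cfg N) : actLI b g x = b.act g x := rfl

end Crest.Agent.R330.Col962
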