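import Crest.Prelude.Def_MatrixModel
import Crest.Agent.R330.Acom_302
import Crest.Agent.R330.Coerc_383
import Crest.Agent.R330.CoerCfg_87
import Crest.Agent.R330.Col_962

/-!
R330, S7-ACOM (helper302): matrix and `Cfg N` form of "almost commuting tuples are near commuting
tuples": `dist(x, commuting)^4 ≤ C_N V(x)`.
-/

set_option autoImplicit false
set_option linter.unusedSectionVars false
open scoped InnerProductSpace
open Matrix Crest.MathPhysics.MatrixQM

namespace Crest.Agent.R330.AcomV302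

open Crest.Agent.R330.Coerc383 Crest.Agent.R330.CoerCfg87
open Crest.Agent.R330.Acom302 (acom)

noncomputable section

variable {N : ℕ}

/-- the operator of a matrix on `ℂ^N` -/
def op (M : Matrix (Fin N) (Fin N) ℂ) :
    EuclideanSpace ℂ (Fin N) →ₗ[ℂ] EuclideanSpace ℂ (Fin N) := Matrix.toEuclideanLin M

theorem op_apply (M : Matrix (Fin N) (Fin N) ℂ) (v : EuclideanSpace ℂ (Fin N)) (a : Fin N) :
    op M v a = ∑ c, M a c * v c := rfl

theorem op_comm (A B : Matrix (Fin N) (Fin N) ℂ) (v : EuclideanSpace ℂ (Fin N)) :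
    op A (op B v) - op B (op A v) = op (A * B - B * A) v := by
  ext a
  have h1 : ∀ P Q : Matrix (Fin N) (Fin N) ℂ, op P (op Q v) a = ∑ c, (P * Q) a c * v c := by
    intro P Q
    rw [op_apply]
    simp only [op_apply, Matrix.mul_apply, Finset.mul_sum, Finset.sum_mul]
    rw [Finset.sum_comm]
    refine Finset.sum_congr rfl fun c _ => Finset.sum_congr rfl fun d _ => ?_
    ring
  rw [PiLp.sub_apply, h1, h1, op_apply, ← Finset.sum_sub_distrib]
  refine Finset.sum_congr rfl fun c _ => ?_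
  rw [Matrix.sub_apply]
  ring

/-- operator norm bounded by the Hilbert-Schmidt norm -/
theorem op_norm (M : Matrix (Fin N) (Fin N) ℂ) (v : EuclideanSpace ℂ (Fin N)) :
    ‖op M v‖ ^ 2 ≤ hs M * ‖v‖ ^ 2 := by
  rw [EuclideanSpace.norm_sq_eq, EuclideanSpace.norm_sq_eq]
  unfold hs
  rw [Finset.sum_mul]
  refine Finset.sum_le_sum fun a _ => ?_
  rw [op_apply]
  calc ‖∑ c, M a c * v c‖ ^ 2 ≤ (∑ c, ‖M a c‖ * ‖v c‖) ^ 2 := by
        refine pow_le_pow_left₀ (norm_nonneg _) ?_ 2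
        refine (norm_sum_le _ _).trans (le_of_eq ?_)
        exact Finset.sum_congr rfl fun c _ => norm_mul _ _
    _ ≤ (∑ c, ‖M a c‖ ^ 2) * ∑ c, ‖v c‖ ^ 2 := Finset.sum_mul_sq_le_sq_mul_sq _ _ _

theorem op_symm {M : Matrix (Fin N) (Fin N) ℂ} (hM : M.IsHermitian) : (op M).IsSymmetric :=
  (Matrix.isSymmetric_toEuclideanLin_iff).2 hM

theorem op_norm_le (M : Matrix (Fin N) (Fin N) ℂ) (K : ℝ) (hK : 0 ≤ K) (hM : hs M ≤ K ^ 2)
    (v : EuclideanSpace ℂ (Fin N)) : ‖op M v‖ ≤ K * ‖v‖ := by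
  have h1 : ‖op M v‖ ^ 2 ≤ (K * ‖v‖) ^ 2 := by
    rw [mul_pow]
    exact (op_norm M v).trans (mul_le_mul_of_nonneg_right hM (by positivity))
  exact le_of_sq_le_sq h1 (by positivity)

/-- normalising the determinant of a unitary matrix by a phase -/
theorem exists_su (hN : 0 < N) (U : Matrix (Fin N) (Fin N) ℂ) (hU : U ∈ Matrix.unitaryGroup (Fin N) ℂ) :
    ∃ g : Matrix.specialUnitaryGroup (Fin N) ℂ, ∃ ζ : ℂ, ‖ζ‖ = 1 ∧
      (g : Matrix (Fin N) (Fin N) ℂ) = ζ • U := by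
  have hdet : ‖U.det‖ = 1 := by
    have h1 := (Matrix.mem_unitaryGroup_iff).1 hU
    have h2 := congrArg Matrix.det h1
    rw [Matrix.det_mul, Matrix.det_one, Matrix.star_eq_conjTranspose, Matrix.det_conjTranspose,
      Complex.star_def, Complex.mul_conj] at h2
    have h3 : Complex.normSq U.det = 1 := by exact_mod_cast h2
    rw [Complex.normSq_eq_norm_sq] at h3
    nlinarith [norm_nonneg U.det]
  have hne : U.det ≠ 0 := by
    intro h
    rw [h, norm_zero] at hdet
    exact zero_ne_one hdet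
  obtain ⟨ζ, hζ⟩ := IsAlgClosed.exists_pow_nat_eq (U.det)⁻¹ hN
  have hζ1 : ‖ζ‖ = 1 := by
    have h1 : ‖ζ‖ ^ N = 1 := by rw [← norm_pow, hζ, norm_inv, hdet, inv_one]
    exact (pow_eq_one_iff_of_nonneg (norm_nonneg _) hN.ne').1 h1
  have hζζ : ζ * star ζ = 1 := by
    rw [Complex.star_def, Complex.mul_conj, Complex.normSq_eq_norm_sq, hζ1]
    norm_num
  refine ⟨⟨ζ • U, Matrix.mem_specialUnitaryGroup_iff.2 ⟨?_, ?_⟩⟩, ζ, hζ1, rfl⟩
  · rw [Matrix.mem_unitaryGroup_iff, star_smul, smul_mul_smul_comm, hζζ, one_smul]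
    exact (Matrix.mem_unitaryGroup_iff).1 hU
  · rw [Matrix.det_smul, Fintype.card_fin, hζ, inv_mul_cancel₀ hne]

/-- the unitary matrix whose rows are the conjugated vectors of an orthonormal family -/
def rowMat (v : Fin N → EuclideanSpace ℂ (Fin N)) : Matrix (Fin N) (Fin N) ℂ :=
  Matrix.of fun i a => star (v i a)

theorem inner_eq (u w : EuclideanSpace ℂ (Fin N)) : ⟪u, w⟫_ℂ = ∑ a, star (u a) * w a := by
  rw [PiLp.inner_apply]
  refine Finset.sum_congr rfl fun a _ => ?_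
  rw [RCLike.inner_apply, mul_comm]
  rfl

theorem rowMat_unitary (v : Fin N → EuclideanSpace ℂ (Fin N)) (hv : Orthonormal ℂ v) :
    rowMat v ∈ Matrix.unitaryGroup (Fin N) ℂ := by
  rw [Matrix.mem_unitaryGroup_iff]
  ext i k
  rw [Matrix.mul_apply, Matrix.one_apply]
  have h1 := (orthonormal_iff_ite.1 hv) i k
  rw [inner_eq] at h1
  rw [← h1]
  refine Finset.sum_congr rfl fun a _ => ?_
  rw [Matrix.star_apply]
  simp [rowMat]

theorem rowMat_conj (v : Fin N → EuclideanSpace ℂ (Fin N)) (M : Matrix (Fin N) (Fin N) ℂ)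
    (i k : Fin N) : (rowMat v * M * star (rowMat v)) i k = ⟪v i, op M (v k)⟫_ℂ := by
  rw [inner_eq, mul_assoc, Matrix.mul_apply]
  refine Finset.sum_congr rfl fun a _ => ?_
  rw [op_apply, Matrix.mul_apply]
  congr 1
  refine Finset.sum_congr rfl fun c _ => ?_
  rw [Matrix.star_apply]
  simp [rowMat]

/-- **Matrix form.** Hermitian matrices with commutators of Hilbert-Schmidt norm `≤ δ²` are
simultaneously diagonalised by one `g ∈ SU(N)` up to an error `≤ C δ`. -/
theorem acom_matrix (N : ℕ) (hN : 0 < N) : ∃ C : ℝ, 0 ≤ C ∧ ∀ (κ : Type)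
    (X : κ → Matrix (Fin N) (Fin N) ℂ), (∀ j, (X j).IsHermitian) → ∀ δ : ℝ, 0 ≤ δ →
    (∀ j k, hs (X j * X k - X k * X j) ≤ δ ^ 4) →
    ∃ g : Matrix.specialUnitaryGroup (Fin N) ℂ, ∃ p : κ → Fin N → ℝ, ∀ j,
      hs ((g : Matrix (Fin N) (Fin N) ℂ) * X j * star (g : Matrix (Fin N) (Fin N) ℂ)
        - Matrix.diagonal (fun a => (p j a : ℂ))) ≤ C * δ ^ 2 := by
  obtain ⟨C, hC, hAC⟩ := acom N
  refine ⟨N * C ^ 2, by positivity, fun κ X hX δ hδ hcomm => ?_⟩
  obtain ⟨v, hv, D, hD⟩ := hAC (EuclideanSpace ℂ (Fin N)) (by simp) κ (fun j => op (X j))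
    (fun j => op_symm (hX j)) δ hδ (fun j k u => by
      rw [op_comm]
      exact op_norm_le _ _ (by positivity) ((hcomm j k).trans (le_of_eq (by ring))) u)
  obtain ⟨g, ζ, hζ, hg⟩ := exists_su hN _ (rowMat_unitary v hv)
  have hζζ : ζ * star ζ = 1 := by
    rw [Complex.star_def, Complex.mul_conj, Complex.normSq_eq_norm_sq, hζ]
    norm_num
  refine ⟨g, D, fun j => ?_⟩
  have hconj : (g : Matrix (Fin N) (Fin N) ℂ) * X j * star (g : Matrix (Fin N) (Fin N) ℂ)
      = rowMat v * X j * star (rowMat v) := by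
    rw [hg, star_smul, smul_mul_assoc, smul_mul_smul_comm, hζζ, one_smul]
  rw [hconj]
  have hent : ∀ i k, (rowMat v * X j * star (rowMat v)
      - Matrix.diagonal (fun a => (D j a : ℂ))) i k
      = ⟪v i, op (X j) (v k) - (D j k : ℂ) • v k⟫_ℂ := by
    intro i k
    rw [Matrix.sub_apply, rowMat_conj, inner_sub_right, inner_smul_right,
      (orthonormal_iff_ite.1 hv) i k, Matrix.diagonal_apply]
    split_ifs with h
    · rw [h]; simp
    · simp
  unfold hs
  simp only [hent]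
  rw [Finset.sum_comm]
  have hb : ∀ k, ∑ i, ‖⟪v i, op (X j) (v k) - (D j k : ℂ) • v k⟫_ℂ‖ ^ 2 ≤ C ^ 2 * δ ^ 2 := by
    intro k
    refine (hv.sum_inner_products_le (op (X j) (v k) - (D j k : ℂ) • v k)).trans ?_
    have := pow_le_pow_left₀ (norm_nonneg _) (hD j k) 2
    rwa [mul_pow] at this
  refine (Finset.sum_le_sum fun k _ => hb k).trans (le_of_eq ?_)
  simp
  ring

/-! ### Colour coordinates -/

/-- conjugation by `SU(N)` preserves the Hilbert-Schmidt norm -/
theorem hs_conj (g : Matrix.specialUnitaryGroup (Fin N) ℂ) (M : Matrix (Fin N) (Fin N) ℂ) :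
    hs ((g : Matrix (Fin N) (Fin N) ℂ) * M * star (g : Matrix (Fin N) (Fin N) ℂ)) = hs M := by
  have h1 := hs_eq_trace ((g : Matrix (Fin N) (Fin N) ℂ) * M * star (g : Matrix (Fin N) (Fin N) ℂ))
  have h2 := hs_eq_trace M
  have h3 : ((g : Matrix (Fin N) (Fin N) ℂ) * M * star (g : Matrix (Fin N) (Fin N) ℂ)) *
      ((g : Matrix (Fin N) (Fin N) ℂ) * M * star (g : Matrix (Fin N) (Fin N) ℂ))ᴴ =
      (g : Matrix (Fin N) (Fin N) ℂ) * (M * Mᴴ) * star (g : Matrix (Fin N) (Fin N) ℂ) := by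
    rw [Matrix.conjTranspose_mul, Matrix.conjTranspose_mul, ← Matrix.star_eq_conjTranspose (star _),
      star_star]
    have := Col962.star_mul_self' g
    calc _ = (g : Matrix (Fin N) (Fin N) ℂ) * M * (star (g : Matrix (Fin N) (Fin N) ℂ) *
          (g : Matrix (Fin N) (Fin N) ℂ)) * (Mᴴ * (g : Matrix (Fin N) (Fin N) ℂ)ᴴ) := by
          simp only [mul_assoc]
      _ = _ := by
          rw [this, mul_one, ← Matrix.star_eq_conjTranspose (g : Matrix (Fin N) (Fin N) ℂ)]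
          simp only [mul_assoc]
  rw [h3, Col962.conj_trace, ← h2] at h1
  exact_mod_cast h1

/-- removing the trace of the diagonal part does not increase the error -/
theorem hs_trace_fix (hN : 0 < N) (M : Matrix (Fin N) (Fin N) ℂ) (p : Fin N → ℝ)
    (hM : M.trace = 0) :
    hs (M - Matrix.diagonal (fun a => ((p a - (∑ c, p c) / N : ℝ) : ℂ))) ≤
      hs (M - Matrix.diagonal (fun a => (p a : ℂ))) := by
  set s : ℝ := (∑ c, p c) / N with hs'
  have hNr : (N : ℝ) ≠ 0 := by exact_mod_cast hN.ne'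
  have hsN : ∑ c, p c = N * s := by
    rw [hs']
    field_simp
  have hent : ∀ a c, ‖(M - Matrix.diagonal (fun a => ((p a - s : ℝ) : ℂ))) a c‖ ^ 2 =
      ‖(M - Matrix.diagonal (fun a => (p a : ℂ))) a c‖ ^ 2 +
        (if a = c then 2 * s * ((M a a).re - p a) + s ^ 2 else 0) := by
    intro a c
    rw [Matrix.sub_apply, Matrix.sub_apply, Matrix.diagonal_apply, Matrix.diagonal_apply]
    split_ifs with h
    · subst h
      rw [← Complex.normSq_eq_norm_sq, ← Complex.normSq_eq_norm_sq, Complex.normSq_apply,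
        Complex.normSq_apply]
      simp only [Complex.sub_re, Complex.ofReal_re, Complex.sub_im, Complex.ofReal_im]
      ring
    · simp
  unfold hs
  simp only [hent, Finset.sum_add_distrib, Finset.sum_ite_eq, Finset.mem_univ, if_true]
  have htr : ∑ a, (M a a).re = 0 := by
    have := congrArg Complex.re hM
    rw [Matrix.trace] at this
    simpa using this
  have h5 : ∑ a : Fin N, 2 * s * ((M a a).re - p a) + ∑ _a : Fin N, s ^ 2 = - (N * s ^ 2) := by
    rw [← Finset.mul_sum, Finset.sum_sub_distrib, htr, hsN]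
    simp
    ring
  have h6 : 0 ≤ (N : ℝ) * s ^ 2 := by positivity
  linarith

/-- the quartic potential without prefactor: `Σ_{j,k} |[x_j,x_k]|²` -/
def Vq (b : ColorBasis N) (x : Cfg N) : ℝ :=
  ∑ j : Fin 9, ∑ k : Fin 9, ∑ A, (br b (comp x j) (comp x k) A) ^ 2

theorem Vq_nonneg (b : ColorBasis N) (x : Cfg N) : 0 ≤ Vq b x :=
  Finset.sum_nonneg fun _ _ => Finset.sum_nonneg fun _ _ => Finset.sum_nonneg fun _ _ =>
    sq_nonneg _

theorem hs_I_smul (M : Matrix (Fin N) (Fin N) ℂ) : hs (Complex.I • M) = hs M := by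
  unfold hs
  simp

theorem hs_comm_cmat (hN : 0 < N) (b : ColorBasis N) (u v : Fin (N ^ 2 - 1) → ℝ) :
    hs (cmat b u * cmat b v - cmat b v * cmat b u) = ∑ A, (br b u v A) ^ 2 := by
  rw [comm_cmat b hN, hs_I_smul, hs_cmat]

/-- the configuration of a tuple of matrices -/
def ofMat (b : ColorBasis N) (M : Fin 9 → Matrix (Fin N) (Fin N) ℂ) : Cfg N :=
  WithLp.toLp 2 fun iA => (b.T iA.2 * M iA.1).trace.re

theorem comp_ofMat (b : ColorBasis N) (M : Fin 9 → Matrix (Fin N) (Fin N) ℂ) (i : Fin 9)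
    (A : Fin (N ^ 2 - 1)) : comp (ofMat b M) i A = (b.T A * M i).trace.re := rfl

theorem cmat_ofMat (b : ColorBasis N) (M : Fin 9 → Matrix (Fin N) (Fin N) ℂ) (i : Fin 9)
    (h0 : (M i).trace = 0) (hH : (M i).IsHermitian) : cmat b (comp (ofMat b M) i) = M i := by
  conv_rhs => rw [Col962.expand_herm b h0 hH]
  rfl

theorem cmat_act (b : ColorBasis N) (g : Matrix.specialUnitaryGroup (Fin N) ℂ) (x : Cfg N)
    (i : Fin 9) : cmat b (comp (b.act g x) i) =
      (g : Matrix (Fin N) (Fin N) ℂ) * cmat b (comp x i) * star (g : Matrix (Fin N) (Fin N) ℂ) := by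
  unfold cmat
  rw [Col962.conj_sum]
  refine Finset.sum_congr rfl fun A _ => ?_
  congr 1
  unfold CoerCfg87.comp
  rw [Col962.act_apply]
  push_cast
  rfl

theorem norm_sq_hs (b : ColorBasis N) (x y : Cfg N) :
    ‖x - y‖ ^ 2 = ∑ i : Fin 9, hs (cmat b (comp x i) - cmat b (comp y i)) := by
  rw [EuclideanSpace.norm_sq_eq, Fintype.sum_prod_type]
  refine Finset.sum_congr rfl fun i _ => ?_
  rw [← cmat_sub, hs_cmat]
  refine Finset.sum_congr rfl fun A _ => ?_
  rw [Real.norm_eq_abs, sq_abs]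
  rfl

theorem norm_sq_hs' (b : ColorBasis N) (x : Cfg N) :
    ‖x‖ ^ 2 = ∑ i : Fin 9, hs (cmat b (comp x i)) := by
  rw [EuclideanSpace.norm_sq_eq, Fintype.sum_prod_type]
  refine Finset.sum_congr rfl fun i _ => ?_
  rw [hs_cmat]
  refine Finset.sum_congr rfl fun A _ => ?_
  rw [Real.norm_eq_abs, sq_abs]
  rfl

/-- the commuting configuration with joint eigenvalues `p` (`Σ_a p_a = 0`), diagonal -/
def diagCfg (b : ColorBasis N) (p : Fin 9 → Fin N → ℝ) : Cfg N :=
  ofMat b fun i => Matrix.diagonal fun a => (p i a : ℂ)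

theorem cmat_diagCfg (b : ColorBasis N) (p : Fin 9 → Fin N → ℝ) (hp : ∀ i, ∑ a, p i a = 0)
    (i : Fin 9) : cmat b (comp (diagCfg b p) i) = Matrix.diagonal fun a => (p i a : ℂ) := by
  refine cmat_ofMat b _ i ?_ ?_
  · rw [Matrix.trace_diagonal]
    exact_mod_cast hp i
  · rw [Matrix.IsHermitian, Matrix.diagonal_conjTranspose]
    congr 1
    ext a
    simp

theorem Vq_diagCfg (hN : 0 < N) (b : ColorBasis N) (p : Fin 9 → Fin N → ℝ)
    (hp : ∀ i, ∑ a, p i a = 0) : Vq b (diagCfg b p) = 0 := by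
  unfold Vq
  refine Finset.sum_eq_zero fun i _ => Finset.sum_eq_zero fun j _ => ?_
  rw [← hs_comm_cmat hN, cmat_diagCfg b p hp, cmat_diagCfg b p hp, Matrix.diagonal_mul_diagonal,
    Matrix.diagonal_mul_diagonal]
  have : (fun a => (p i a : ℂ) * (p j a : ℂ)) = fun a => (p j a : ℂ) * (p i a : ℂ) := by
    ext a; ring
  rw [this, sub_self]
  unfold hs
  simp

/-- **Almost commuting configurations are close to commuting ones**: there is a constant `C`
(depending only on `N`) such that every configuration `x` can be rotated by some `g ∈ SU(N)` to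
within `(C V(x))^{1/4}` of a diagonal configuration `diag(p)`, `Σ_a p_a = 0`. -/
theorem near_commuting (N : ℕ) (hN : 0 < N) : ∃ C : ℝ, 0 ≤ C ∧ ∀ (b : ColorBasis N) (x : Cfg N),
    ∃ g : Matrix.specialUnitaryGroup (Fin N) ℂ, ∃ p : Fin 9 → Fin N → ℝ,
      (∀ i, ∑ a, p i a = 0) ∧ ‖b.act g x - diagCfg b p‖ ^ 4 ≤ C * Vq b x := by
  obtain ⟨C, hC, hm⟩ := acom_matrix N hN
  refine ⟨(9 * C) ^ 2, by positivity, fun b x => ?_⟩
  set δ : ℝ := Real.sqrt (Real.sqrt (Vq b x)) with hδ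
  have hδ2 : δ ^ 2 = Real.sqrt (Vq b x) := Real.sq_sqrt (Real.sqrt_nonneg _)
  have hδ4 : δ ^ 4 = Vq b x := by
    have : δ ^ 4 = (δ ^ 2) ^ 2 := by ring
    rw [this, hδ2, Real.sq_sqrt (Vq_nonneg b x)]
  obtain ⟨g, p, hgp⟩ := hm (Fin 9) (fun i => cmat b (comp x i)) (fun i => cmat_herm b _) δ
    (Real.sqrt_nonneg _) (fun j k => by
      rw [hs_comm_cmat hN, hδ4]
      have h1 : ∑ A, (br b (comp x j) (comp x k) A) ^ 2 ≤
          ∑ k, ∑ A, (br b (comp x j) (comp x k) A) ^ 2 :=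
        Finset.single_le_sum (f := fun k => ∑ A, (br b (comp x j) (comp x k) A) ^ 2)
          (fun _ _ => Finset.sum_nonneg fun _ _ => sq_nonneg _) (Finset.mem_univ k)
      exact h1.trans (Finset.single_le_sum
        (f := fun j => ∑ k, ∑ A, (br b (comp x j) (comp x k) A) ^ 2)
        (fun _ _ => Finset.sum_nonneg fun _ _ => Finset.sum_nonneg fun _ _ => sq_nonneg _)
        (Finset.mem_univ j)))
  set p' : Fin 9 → Fin N → ℝ := fun i a => p i a - (∑ c, p i c) / N with hp'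
  have hp0 : ∀ i, ∑ a, p' i a = 0 := by
    intro i
    rw [hp', Finset.sum_sub_distrib]
    have hNr : (N : ℝ) ≠ 0 := by exact_mod_cast hN.ne'
    simp
    field_simp
    ring
  refine ⟨g, p', hp0, ?_⟩
  have hsq : ‖b.act g x - diagCfg b p'‖ ^ 2 ≤ 9 * C * δ ^ 2 := by
    rw [norm_sq_hs b]
    have : ∀ i ∈ (Finset.univ : Finset (Fin 9)),
        hs (cmat b (comp (b.act g x) i) - cmat b (comp (diagCfg b p') i)) ≤ C * δ ^ 2 := by
      intro i _
      rw [cmat_act, cmat_diagCfg b p' hp0]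
      exact (hs_trace_fix hN _ (p i) (by
        rw [Col962.conj_trace]
        exact cmat_trace b _)).trans (hgp i)
    refine (Finset.sum_le_sum this).trans (le_of_eq ?_)
    simp
    ring
  calc ‖b.act g x - diagCfg b p'‖ ^ 4 = (‖b.act g x - diagCfg b p'‖ ^ 2) ^ 2 := by ring
    _ ≤ (9 * C * δ ^ 2) ^ 2 := pow_le_pow_left₀ (by positivity) hsq 2
    _ = (9 * C) ^ 2 * Vq b x := by rw [← hδ4]; ring

end

end Crest.Agent.R330.AcomV302
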