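import Crest.Agent.R330.Moll_350

/-!
Row 330 (helper350), leaf S5.U4-AGMON: Liouville theorem for zero modes of a family of first order
operators `D_α φ = Σ_k a_αk (-i ∂_k φ) + V_α φ` (Lipschitz potentials).  If on test functions
`Σ_α ‖D_α φ‖² ≥ ∫ (c |x|² - C) |φ|²` (confinement) and
`Σ_α ‖D_α φ‖² ≥ w₀ (‖φ‖² - |⟨Φ, φ⟩|²)`, then every locally square integrable weak solution `f` of
`D_α f = 0` (all `α`) with `∫ e^{-K|x|} |f|² < ∞` is a multiple of `Φ`.  No elliptic regularity.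
-/

set_option autoImplicit false
set_option linter.unusedSectionVars false
set_option linter.deprecated false

noncomputable section

namespace Crest.Agent.R330.Agmon350

open MeasureTheory Filter Topology Crest.Agent.R330.IBP837 Crest.Agent.R330.Moll350
open scoped ContDiff InnerProductSpace ENNReal

/-! ### 1. Unit step cut-offs -/

section Cut

theorem exists_deriv_bound : ∃ K : ℝ, 0 < K ∧ ∀ t : ℝ, |deriv Real.smoothTransition t| ≤ K := by
  have hc : Continuous (deriv Real.smoothTransition) :=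
    (Real.smoothTransition.contDiff (n := 1)).continuous_deriv (by norm_num)
  obtain ⟨K, hK⟩ := (isCompact_Icc (a := (0 : ℝ)) (b := 1)).exists_bound_of_continuousOn
    hc.continuousOn
  refine ⟨max K 1, by positivity, fun t => ?_⟩
  by_cases h0 : t < 0
  · have : deriv Real.smoothTransition t = 0 := by
      have h : Real.smoothTransition =ᶠ[𝓝 t] fun _ => (0 : ℝ) := by
        filter_upwards [gt_mem_nhds h0] with s hs
        exact Real.smoothTransition.zero_of_nonpos hs.le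
      rw [h.deriv_eq, deriv_const]
    rw [this]; simp
  · by_cases h1 : 1 < t
    · have : deriv Real.smoothTransition t = 0 := by
        have h : Real.smoothTransition =ᶠ[𝓝 t] fun _ => (1 : ℝ) := by
          filter_upwards [lt_mem_nhds h1] with s hs
          exact Real.smoothTransition.one_of_one_le hs.le
        rw [h.deriv_eq, deriv_const]
      rw [this]; simp
    · push Not at h0 h1
      have := hK t ⟨h0, h1⟩
      rw [Real.norm_eq_abs] at this
      exact this.trans (le_max_left _ _)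

variable {E : Type*} [NormedAddCommGroup E] [InnerProductSpace ℝ E]

/-- `1` on `|x| ≤ R`, `0` for `|x| ≥ R + 1`. -/
def cut (R : ℝ) (x : E) : ℝ := Real.smoothTransition (((R + 1) ^ 2 - ‖x‖ ^ 2) / (2 * R + 1))

theorem cut_contDiff (R : ℝ) {n : ℕ∞} : ContDiff ℝ n (cut (E := E) R) := by
  unfold cut
  exact Real.smoothTransition.contDiff.comp
    ((contDiff_const.sub (contDiff_norm_sq ℝ)).div_const _)

theorem cut_one {R : ℝ} (hR : 0 ≤ R) {x : E} (hx : ‖x‖ ≤ R) : cut R x = 1 := by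
  refine Real.smoothTransition.one_of_one_le ?_
  rw [le_div_iff₀ (by positivity)]
  nlinarith [norm_nonneg x]

theorem cut_zero {R : ℝ} (hR : 0 ≤ R) {x : E} (hx : R + 1 ≤ ‖x‖) : cut R x = 0 := by
  refine Real.smoothTransition.zero_of_nonpos ?_
  refine div_nonpos_of_nonpos_of_nonneg ?_ (by positivity)
  nlinarith [norm_nonneg x]

theorem cut_nonneg (R : ℝ) (x : E) : 0 ≤ cut R x := Real.smoothTransition.nonneg _

theorem cut_le_one (R : ℝ) (x : E) : cut R x ≤ 1 := Real.smoothTransition.le_one _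

theorem cut_hasCompactSupport [FiniteDimensional ℝ E] {R : ℝ} (hR : 0 ≤ R) :
    HasCompactSupport (cut (E := E) R) := by
  refine HasCompactSupport.intro (isCompact_closedBall (0 : E) (R + 1)) fun x hx => ?_
  refine cut_zero hR ?_
  have : R + 1 < ‖x‖ := by simpa using hx
  exact this.le

theorem cut_fderiv_inner {R : ℝ} (hR : 0 ≤ R) {x : E} (hx : ‖x‖ < R) :
    fderiv ℝ (cut R) x = 0 := by
  have h : cut (E := E) R =ᶠ[𝓝 x] fun _ => (1 : ℝ) := by
    have : ∀ᶠ y in 𝓝 x, ‖y‖ < R := continuous_norm.continuousAt.eventually (gt_mem_nhds hx)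
    filter_upwards [this] with y hy
    exact cut_one hR hy.le
  rw [h.fderiv_eq]
  simp

theorem cut_fderiv_outer {R : ℝ} (hR : 0 ≤ R) {x : E} (hx : R + 1 < ‖x‖) :
    fderiv ℝ (cut R) x = 0 := by
  have h : cut (E := E) R =ᶠ[𝓝 x] fun _ => (0 : ℝ) := by
    have : ∀ᶠ y in 𝓝 x, R + 1 < ‖y‖ := continuous_norm.continuousAt.eventually (lt_mem_nhds hx)
    filter_upwards [this] with y hy
    exact cut_zero hR hy.le
  rw [h.fderiv_eq]
  simp

theorem cut_fderiv_bound : ∃ K : ℝ, 0 < K ∧ ∀ R : ℝ, 0 ≤ R → ∀ x : E,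
    ‖fderiv ℝ (cut R) x‖ ≤ K := by
  obtain ⟨K, hK, hKb⟩ := exists_deriv_bound
  refine ⟨2 * K, by positivity, fun R hR x => ?_⟩
  by_cases hx : R + 1 < ‖x‖
  · rw [cut_fderiv_outer hR hx]; simp; positivity
  push Not at hx
  have hu : HasFDerivAt (fun y : E => ((R + 1) ^ 2 - ‖y‖ ^ 2) / (2 * R + 1))
      ((2 * R + 1)⁻¹ • (-(2 • (innerSL ℝ x) : E →L[ℝ] ℝ))) x := by
    have h1 : HasFDerivAt (fun y : E => ‖y‖ ^ 2) (2 • (innerSL ℝ x)) x :=
      (hasStrictFDerivAt_norm_sq x).hasFDerivAt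
    have h2 := (h1.const_sub ((R + 1) ^ 2)).const_mul ((2 * R + 1)⁻¹)
    refine h2.congr_of_eventuallyEq (Eventually.of_forall fun y => ?_)
    simp only
    rw [div_eq_inv_mul]
  have hs : HasDerivAt Real.smoothTransition (deriv Real.smoothTransition
      (((R + 1) ^ 2 - ‖x‖ ^ 2) / (2 * R + 1))) (((R + 1) ^ 2 - ‖x‖ ^ 2) / (2 * R + 1)) :=
    ((Real.smoothTransition.contDiff (n := 1)).differentiable (by norm_num) _).hasDerivAt
  have hcomp := hs.comp_hasFDerivAt x hu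
  have he : fderiv ℝ (cut R) x = deriv Real.smoothTransition
      (((R + 1) ^ 2 - ‖x‖ ^ 2) / (2 * R + 1)) • ((2 * R + 1)⁻¹ • (-(2 • (innerSL ℝ x) : E →L[ℝ] ℝ))) :=
    hcomp.fderiv
  rw [he, norm_smul, norm_smul, norm_neg, Real.norm_eq_abs, Real.norm_eq_abs,
    abs_of_pos (by positivity : (0 : ℝ) < (2 * R + 1)⁻¹)]
  have h3 : ‖(2 • (innerSL ℝ x) : E →L[ℝ] ℝ)‖ ≤ 2 * ‖x‖ := by
    refine (norm_nsmul_le).trans ?_
    rw [innerSL_apply_norm]
    norm_num
  have h4 : (2 * R + 1)⁻¹ * ‖(2 • (innerSL ℝ x) : E →L[ℝ] ℝ)‖ ≤ 2 := by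
    rw [inv_mul_le_iff₀ (by positivity)]
    refine h3.trans ?_
    nlinarith
  calc _ ≤ K * 2 := by
        gcongr
        · exact hKb _
    _ = 2 * K := by ring

end Cut

/-! ### 2. Transfer of form inequalities from test functions to `χ f` -/

section Transfer

variable {κ : Type*} [Fintype κ] [DecidableEq κ]
  {F : Type*} [NormedAddCommGroup F] [InnerProductSpace ℂ F] [FiniteDimensional ℂ F]

/-- Commutator with a cut-off. -/
def cmt (a : κ → F →ₗ[ℂ] F) (χ : EuclideanSpace ℝ κ → ℝ) (f : EuclideanSpace ℝ κ → F)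
    (x : EuclideanSpace ℝ κ) : F :=
  ∑ k, (-Complex.I) • (fderiv ℝ χ x (EuclideanSpace.single k 1)) • a k (f x)

/-- `f` is square integrable on every ball. -/
def L2loc (f : EuclideanSpace ℝ κ → F) : Prop :=
  ∀ R : ℝ, MemLp f 2 (volume.restrict (Metric.closedBall 0 R))

theorem L2loc.locallyIntegrable {f : EuclideanSpace ℝ κ → F} (hf : L2loc f) :
    LocallyIntegrable f volume := by
  intro x
  refine ⟨Metric.closedBall 0 (‖x‖ + 1), ?_, ?_⟩
  · have h : Metric.ball (0 : EuclideanSpace ℝ κ) (‖x‖ + 1) ∈ 𝓝 x :=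
      Metric.isOpen_ball.mem_nhds (by simp)
    exact Filter.mem_of_superset h Metric.ball_subset_closedBall
  · have : IsFiniteMeasure ((volume : Measure (EuclideanSpace ℝ κ)).restrict
        (Metric.closedBall 0 (‖x‖ + 1))) :=
      ⟨by rw [Measure.restrict_apply_univ]; exact measure_closedBall_lt_top⟩
    exact (hf (‖x‖ + 1)).integrable (by norm_num)

theorem L2loc.aesm {f : EuclideanSpace ℝ κ → F} (hf : L2loc f) :
    AEStronglyMeasurable f volume := hf.locallyIntegrable.aestronglyMeasurable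

theorem L2loc.memLp_of_bound {f u : EuclideanSpace ℝ κ → F} (hf : L2loc f) {M R : ℝ}
    (hu : AEStronglyMeasurable u volume) (hb : ∀ x, ‖u x‖ ≤ M * ‖f x‖)
    (h0 : ∀ x, R < ‖x‖ → u x = 0) : MemLp u 2 volume := by
  have h1 : MemLp ((Metric.closedBall (0 : EuclideanSpace ℝ κ) R).indicator f) 2 volume :=
    (memLp_indicator_iff_restrict Metric.isClosed_closedBall.measurableSet).mpr (hf R)
  refine h1.of_le_mul (c := M) hu (Eventually.of_forall fun x => ?_)
  by_cases hx : R < ‖x‖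
  · rw [h0 x hx]
    simp only [norm_zero]
    by_cases hM : 0 ≤ M
    · positivity
    · have : x ∉ Metric.closedBall (0 : EuclideanSpace ℝ κ) R := by simpa using hx
      rw [Set.indicator_of_notMem this]
      simp
  · have : x ∈ Metric.closedBall (0 : EuclideanSpace ℝ κ) R := by simpa using hx
    rw [Set.indicator_of_mem this]
    exact hb x

theorem integrable_inner_loc {f ψ : EuclideanSpace ℝ κ → F} (hf : LocallyIntegrable f volume)
    (hψ : Continuous ψ) (hc : HasCompactSupport ψ) : Integrable (fun x => ⟪f x, ψ x⟫_ℂ) := by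
  have h : Integrable (fun x => ‖ψ x‖ • f x) :=
    hf.integrable_smul_left_of_hasCompactSupport hψ.norm hc.norm
  refine h.norm.mono' (hf.aestronglyMeasurable.inner hψ.aestronglyMeasurable)
    (Eventually.of_forall fun x => ?_)
  refine (norm_inner_le_norm _ _).trans (le_of_eq ?_)
  rw [norm_smul, norm_norm, mul_comm]

variable {a : κ → F →ₗ[ℂ] F} {V : EuclideanSpace ℝ κ → F →ₗ[ℂ] F}

theorem continuous_cmt {χ : EuclideanSpace ℝ κ → ℝ} (hχ : ContDiff ℝ 1 χ)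
    {ψ : EuclideanSpace ℝ κ → F} (hψ : Continuous ψ) : Continuous (cmt a χ ψ) := by
  unfold cmt
  refine continuous_finset_sum _ fun k _ => ?_
  refine Continuous.const_smul ?_ _
  exact ((hχ.continuous_fderiv (by norm_num)).clm_apply continuous_const).smul
    ((LinearMap.continuous_of_finiteDimensional (a k)).comp hψ)

theorem aesm_cmt {χ : EuclideanSpace ℝ κ → ℝ} (hχ : ContDiff ℝ 1 χ)
    {f : EuclideanSpace ℝ κ → F} (hf : AEStronglyMeasurable f volume) :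
    AEStronglyMeasurable (cmt a χ f) volume := by
  unfold cmt
  refine Finset.aestronglyMeasurable_fun_sum _ fun k _ => ?_
  refine AEStronglyMeasurable.const_smul ?_ _
  exact ((hχ.continuous_fderiv (by norm_num)).clm_apply
    continuous_const).aestronglyMeasurable.smul
    ((LinearMap.continuous_of_finiteDimensional (a k)).comp_aestronglyMeasurable hf)

theorem weak_cut (ha : ∀ k, (a k).IsSymmetric) (hV : ∀ v, Continuous fun x => V x v)
    {f : EuclideanSpace ℝ κ → F} (hf : LocallyIntegrable f volume)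
    {χ : EuclideanSpace ℝ κ → ℝ} (hχ : ContDiff ℝ ∞ χ)
    (hw : ∀ ψ : EuclideanSpace ℝ κ → F, ContDiff ℝ ∞ ψ → HasCompactSupport ψ →
      ∫ x, ⟪f x, dirac a V ψ x⟫_ℂ = 0)
    {ψ : EuclideanSpace ℝ κ → F} (hψ : ContDiff ℝ ∞ ψ) (hψc : HasCompactSupport ψ) :
    ∫ x, ⟪χ x • f x, dirac a V ψ x⟫_ℂ = ∫ x, ⟪cmt a χ f x, ψ x⟫_ℂ := by
  have h0 := hw (fun y => χ y • ψ y) (hχ.smul hψ) hψc.smul_left
  have hpt : ∀ x, ⟪f x, dirac a V (fun y => χ y • ψ y) x⟫_ℂ =
      ⟪f x, χ x • dirac a V ψ x⟫_ℂ + ⟪f x, cmt a χ ψ x⟫_ℂ := by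
    intro x
    rw [dirac_leibniz (hχ.differentiable (by simp) x) (hψ.differentiable (by simp) x),
      inner_add_right]
    rfl
  have hI1 : Integrable (fun x => ⟪f x, χ x • dirac a V ψ x⟫_ℂ) :=
    integrable_inner_loc hf (hχ.continuous.smul (continuous_dirac hV (hψ.of_le (by simp))))
      (hasCompactSupport_dirac hψc).smul_left
  have hcc : HasCompactSupport (cmt a χ ψ) := by
    refine hψc.mono' fun x hx => subset_tsupport _ ?_
    intro h0; apply hx; simp [cmt, h0]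
  have hI2 : Integrable (fun x => ⟪f x, cmt a χ ψ x⟫_ℂ) :=
    integrable_inner_loc hf (continuous_cmt (hχ.of_le (by simp)) hψ.continuous) hcc
  rw [integral_congr_ae (Eventually.of_forall hpt), integral_add hI1 hI2] at h0
  have e1 : ∫ x, ⟪χ x • f x, dirac a V ψ x⟫_ℂ = ∫ x, ⟪f x, χ x • dirac a V ψ x⟫_ℂ := by
    refine integral_congr_ae (Eventually.of_forall fun x => ?_)
    simp only
    rw [inner_rs_left, inner_rs_right]
  have e2 : ∫ x, ⟪cmt a χ f x, ψ x⟫_ℂ = - ∫ x, ⟪f x, cmt a χ ψ x⟫_ℂ := by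
    rw [← integral_neg]
    refine integral_congr_ae (Eventually.of_forall fun x => ?_)
    simp only [cmt]
    rw [sum_inner, inner_sum, ← Finset.sum_neg_distrib]
    refine Finset.sum_congr rfl fun k _ => ?_
    rw [inner_smul_left, inner_smul_right, inner_rs_left, inner_rs_right, ha k]
    simp
  rw [e1, e2]
  linear_combination h0

theorem sum_sq_fderiv_le (L : EuclideanSpace ℝ κ →L[ℝ] ℝ) :
    ∑ k, (L (EuclideanSpace.single k 1)) ^ 2 ≤ ‖L‖ ^ 2 := by
  set s := ∑ k, (L (EuclideanSpace.single k 1)) ^ 2 with hs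
  set v : EuclideanSpace ℝ κ := ∑ k, L (EuclideanSpace.single k 1) • EuclideanSpace.single k 1
    with hv
  have hs0 : 0 ≤ s := Finset.sum_nonneg fun _ _ => sq_nonneg _
  have h1 : L v = s := by
    rw [hv, map_sum, hs]
    refine Finset.sum_congr rfl fun k _ => ?_
    rw [map_smul, smul_eq_mul, sq]
  have h2 : ‖v‖ ^ 2 = s := by
    rw [EuclideanSpace.norm_sq_eq, hs]
    refine Finset.sum_congr rfl fun k _ => ?_
    rw [hv]
    simp [Finset.sum_apply, Pi.single_apply]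
  have h3 : s ≤ ‖L‖ * ‖v‖ := by
    rw [← h1]
    exact (le_abs_self _).trans (L.le_opNorm v)
  have h4 : s ^ 2 ≤ ‖L‖ ^ 2 * s := by
    calc s ^ 2 ≤ (‖L‖ * ‖v‖) ^ 2 := by gcongr
      _ = ‖L‖ ^ 2 * s := by rw [mul_pow, h2]
  by_contra hne
  push Not at hne
  have : 0 < s := lt_of_le_of_lt (sq_nonneg _) hne
  nlinarith

/-- Clifford type bound. -/
def CliffBd {ι : Type*} [Fintype ι] (a : ι → κ → F →ₗ[ℂ] F) (C₀ : ℝ) : Prop :=
  ∀ (η : κ → ℝ) (v : F), ∑ α, ‖∑ k, η k • a α k v‖ ^ 2 ≤ C₀ * (∑ k, η k ^ 2) * ‖v‖ ^ 2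

theorem norm_cmt (χ : EuclideanSpace ℝ κ → ℝ) (f : EuclideanSpace ℝ κ → F)
    (x : EuclideanSpace ℝ κ) :
    ‖cmt a χ f x‖ = ‖∑ k, (fderiv ℝ χ x (EuclideanSpace.single k 1)) • a k (f x)‖ := by
  unfold cmt
  rw [← Finset.smul_sum, norm_smul]
  simp

variable {ι : Type*} [Fintype ι] {A : ι → κ → F →ₗ[ℂ] F}
  {W : ι → EuclideanSpace ℝ κ → F →ₗ[ℂ] F}

theorem sum_norm_cmt_le {C₀ : ℝ} (hC : 0 ≤ C₀) (hcl : CliffBd A C₀)
    (χ : EuclideanSpace ℝ κ → ℝ) (f : EuclideanSpace ℝ κ → F) (x : EuclideanSpace ℝ κ) :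
    ∑ α, ‖cmt (A α) χ f x‖ ^ 2 ≤ C₀ * ‖fderiv ℝ χ x‖ ^ 2 * ‖f x‖ ^ 2 := by
  simp only [norm_cmt]
  refine (hcl _ _).trans ?_
  gcongr
  exact sum_sq_fderiv_le _

theorem norm_cmt_le {C₀ : ℝ} (hC : 0 ≤ C₀) (hcl : CliffBd A C₀)
    {χ : EuclideanSpace ℝ κ → ℝ} {K : ℝ} (f : EuclideanSpace ℝ κ → F) (x : EuclideanSpace ℝ κ)
    (hK : ‖fderiv ℝ χ x‖ ≤ K) (α : ι) :
    ‖cmt (A α) χ f x‖ ≤ (Real.sqrt C₀ * K) * ‖f x‖ := by
  have h1 : ‖cmt (A α) χ f x‖ ^ 2 ≤ C₀ * ‖fderiv ℝ χ x‖ ^ 2 * ‖f x‖ ^ 2 :=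
    (Finset.single_le_sum (f := fun α => ‖cmt (A α) χ f x‖ ^ 2)
      (fun _ _ => sq_nonneg _) (Finset.mem_univ α)).trans (sum_norm_cmt_le hC hcl χ f x)
  have hK0 : 0 ≤ K := (norm_nonneg _).trans hK
  refine le_of_sq_le_sq ?_ (by positivity)
  refine h1.trans ?_
  rw [mul_pow, mul_pow, Real.sq_sqrt hC]
  gcongr

/-- Smooth approximations of `χ f` in the graph norm of all charges. -/
theorem exists_seq {C₀ L : ℝ} (hC : 0 ≤ C₀) (hcl : CliffBd A C₀)
    (hA : ∀ α k, (A α k).IsSymmetric) (hWs : ∀ α x, (W α x).IsSymmetric)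
    (hL : ∀ α, LipPot (W α) L) {f : EuclideanSpace ℝ κ → F} (hf : L2loc f)
    (hw : ∀ α, ∀ ψ : EuclideanSpace ℝ κ → F, ContDiff ℝ ∞ ψ → HasCompactSupport ψ →
      ∫ x, ⟪f x, dirac (A α) (W α) ψ x⟫_ℂ = 0)
    {χ : EuclideanSpace ℝ κ → ℝ} (hχ : ContDiff ℝ ∞ χ) {R : ℝ}
    (hχR : ∀ x, R < ‖x‖ → χ x = 0) (hχ1 : ∀ x, |χ x| ≤ 1) :
    MemLp (fun x => χ x • f x) 2 volume ∧ (∀ α, MemLp (cmt (A α) χ f) 2 volume) ∧
    ∃ φ : ℕ → EuclideanSpace ℝ κ → F, (∀ n, ContDiff ℝ ∞ (φ n)) ∧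
      (∀ n y, R + 1 < ‖y‖ → φ n y = 0) ∧ (∀ n, HasCompactSupport (φ n)) ∧
      Tendsto (fun n => eLpNorm (φ n - fun x => χ x • f x) 2 volume) atTop (𝓝 0) ∧
      ∀ α, Tendsto (fun n => eLpNorm (dirac (A α) (W α) (φ n) - cmt (A α) χ f) 2 volume)
        atTop (𝓝 0) := by
  have hχc : HasCompactSupport χ := by
    refine HasCompactSupport.intro (isCompact_closedBall (0 : EuclideanSpace ℝ κ) R)
      fun x hx => hχR x (by simpa using hx)
  have hdc : Continuous fun x => fderiv ℝ χ x := hχ.continuous_fderiv (by simp)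
  obtain ⟨K, hK⟩ := (hχc.fderiv (𝕜 := ℝ)).exists_bound_of_continuous hdc
  have hd0 : ∀ x, R < ‖x‖ → fderiv ℝ χ x = 0 := by
    intro x hx
    have h : χ =ᶠ[𝓝 x] fun _ => (0 : ℝ) := by
      have : ∀ᶠ y in 𝓝 x, R < ‖y‖ := continuous_norm.continuousAt.eventually (lt_mem_nhds hx)
      filter_upwards [this] with y hy
      exact hχR y hy
    rw [h.fderiv_eq]
    simp
  have hg : MemLp (fun x => χ x • f x) 2 volume := by
    refine hf.memLp_of_bound (M := 1) (R := R)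
      (hχ.continuous.aestronglyMeasurable.smul hf.aesm) (fun x => ?_) fun x hx => ?_
    · rw [norm_smul, Real.norm_eq_abs]
      gcongr
      exact hχ1 x
    · rw [hχR x hx, zero_smul]
  have hY : ∀ α, MemLp (cmt (A α) χ f) 2 volume := by
    intro α
    refine hf.memLp_of_bound (M := Real.sqrt C₀ * K) (R := R)
      (aesm_cmt (hχ.of_le (by simp)) hf.aesm) (fun x => norm_cmt_le hC hcl f x (hK x) α)
      fun x hx => ?_
    simp [cmt, hd0 x hx]
  refine ⟨hg, hY, weak_strong hA hWs hL hg hY (R := R) (fun y hy => by rw [hχR y hy, zero_smul])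
    fun α ψ hψ hψc => ?_⟩
  exact weak_cut (hA α) (hL α).continuous hf.locallyIntegrable hχ (hw α) hψ hψc

theorem int_inner_self {X : Type*} [MeasurableSpace X] {μ : Measure X} (f : X → F) :
    ∫ x, ⟪f x, f x⟫_ℂ ∂μ = ((∫ x, ‖f x‖ ^ 2 ∂μ : ℝ) : ℂ) := by
  rw [← integral_complex_ofReal]
  refine integral_congr_ae (Eventually.of_forall fun x => ?_)
  simp only
  rw [inner_self_eq_norm_sq_to_K]
  push_cast
  rfl

theorem tendsto_int_sq {X : Type*} [MeasurableSpace X] {μ : Measure X} {f : ℕ → X → F}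
    {f₀ : X → F} (hf : ∀ n, MemLp (f n) 2 μ) (hf₀ : MemLp f₀ 2 μ)
    (h : Tendsto (fun n => eLpNorm (f n - f₀) 2 μ) atTop (𝓝 0)) :
    Tendsto (fun n => ∫ x, ‖f n x‖ ^ 2 ∂μ) atTop (𝓝 (∫ x, ‖f₀ x‖ ^ 2 ∂μ)) := by
  have h1 := tendsto_integral_inner hf hf₀ hf hf₀ h h
  simp only [int_inner_self] at h1
  have h2 := (Complex.continuous_re.tendsto _).comp h1
  simpa [Function.comp_def] using h2

theorem tendsto_int_weight {w : EuclideanSpace ℝ κ → ℝ} (hw : Continuous w) {R : ℝ}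
    {f : ℕ → EuclideanSpace ℝ κ → F} {f₀ : EuclideanSpace ℝ κ → F}
    (hf : ∀ n, MemLp (f n) 2 volume) (hf₀ : MemLp f₀ 2 volume)
    (h0 : ∀ n y, R < ‖y‖ → f n y = 0) (h00 : ∀ y, R < ‖y‖ → f₀ y = 0)
    (h : Tendsto (fun n => eLpNorm (f n - f₀) 2 volume) atTop (𝓝 0)) :
    Tendsto (fun n => ∫ x, w x * ‖f n x‖ ^ 2) atTop (𝓝 (∫ x, w x * ‖f₀ x‖ ^ 2)) := by
  obtain ⟨M, hM⟩ := (isCompact_closedBall (0 : EuclideanSpace ℝ κ) R).exists_bound_of_continuousOn
    hw.continuousOn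
  have hb : ∀ (u : EuclideanSpace ℝ κ → F), (∀ y, R < ‖y‖ → u y = 0) →
      ∀ x, ‖w x • u x‖ ≤ max M 0 * ‖u x‖ := by
    intro u hu x
    by_cases hx : R < ‖x‖
    · rw [hu x hx]; simp
    · rw [norm_smul]
      gcongr
      exact (hM x (by simpa using hx)).trans (le_max_left _ _)
  have hm : ∀ (u : EuclideanSpace ℝ κ → F), MemLp u 2 volume → (∀ y, R < ‖y‖ → u y = 0) →
      MemLp (fun x => w x • u x) 2 volume := fun u hu h0 =>
    hu.of_le_mul (c := max M 0) (hw.aestronglyMeasurable.smul hu.1)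
      (Eventually.of_forall (hb u h0))
  have hconv : Tendsto (fun n => eLpNorm ((fun x => w x • f n x) - fun x => w x • f₀ x) 2 volume)
      atTop (𝓝 0) := by
    have h1 : Tendsto (fun n => ENNReal.ofReal (max M 0) * eLpNorm (f n - f₀) 2 volume) atTop
        (𝓝 0) := by
      have := ENNReal.Tendsto.const_mul (a := ENNReal.ofReal (max M 0)) h
        (Or.inr ENNReal.ofReal_ne_top)
      simpa using this
    refine tendsto_of_tendsto_of_tendsto_of_le_of_le tendsto_const_nhds h1 (fun _ => zero_le)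
      fun n => ?_
    refine eLpNorm_le_mul_eLpNorm_of_ae_le_mul (Eventually.of_forall fun x => ?_) 2
    have := hb (f n - f₀) (fun y hy => by simp [h0 n y hy, h00 y hy]) x
    simpa [smul_sub] using this
  have h2 := tendsto_integral_inner (fun n => hm _ (hf n) (h0 n)) (hm _ hf₀ h00) hf hf₀ hconv h
  have e : ∀ u : EuclideanSpace ℝ κ → F, ∫ x, ⟪w x • u x, u x⟫_ℂ =
      ((∫ x, w x * ‖u x‖ ^ 2 : ℝ) : ℂ) := by
    intro u
    rw [← integral_complex_ofReal]
    refine integral_congr_ae (Eventually.of_forall fun x => ?_)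
    simp only
    rw [inner_rs_left, inner_self_eq_norm_sq_to_K]
    push_cast
    rfl
  simp only [e] at h2
  have h3 := (Complex.continuous_re.tendsto _).comp h2
  simpa [Function.comp_def] using h3

/-- Weighted inequality for `χ f`. -/
theorem energy_cut {C₀ L : ℝ} (hC : 0 ≤ C₀) (hcl : CliffBd A C₀)
    (hA : ∀ α k, (A α k).IsSymmetric) (hWs : ∀ α x, (W α x).IsSymmetric)
    (hL : ∀ α, LipPot (W α) L) {f : EuclideanSpace ℝ κ → F} (hf : L2loc f)
    (hw : ∀ α, ∀ ψ : EuclideanSpace ℝ κ → F, ContDiff ℝ ∞ ψ → HasCompactSupport ψ →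
      ∫ x, ⟪f x, dirac (A α) (W α) ψ x⟫_ℂ = 0)
    {w : EuclideanSpace ℝ κ → ℝ} (hwc : Continuous w)
    (H : ∀ φ : EuclideanSpace ℝ κ → F, ContDiff ℝ ∞ φ → HasCompactSupport φ →
      ∫ x, w x * ‖φ x‖ ^ 2 ≤ ∑ α, ∫ x, ‖dirac (A α) (W α) φ x‖ ^ 2)
    {χ : EuclideanSpace ℝ κ → ℝ} (hχ : ContDiff ℝ ∞ χ) {R : ℝ}
    (hχR : ∀ x, R < ‖x‖ → χ x = 0) (hχ1 : ∀ x, |χ x| ≤ 1) :
    ∫ x, w x * ‖χ x • f x‖ ^ 2 ≤ ∑ α, ∫ x, ‖cmt (A α) χ f x‖ ^ 2 := by
  obtain ⟨hg, hY, φ, h1, h2, h3, h4, h5⟩ := exists_seq hC hcl hA hWs hL hf hw hχ hχR hχ1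
  have hφ : ∀ n, MemLp (φ n) 2 volume := fun n =>
    (h1 n).continuous.memLp_of_hasCompactSupport (h3 n)
  have hD : ∀ α n, MemLp (dirac (A α) (W α) (φ n)) 2 volume := fun α n =>
    memLp_dirac (hL α).continuous ((h1 n).of_le (by simp)) (h3 n)
  have t1 := tendsto_int_weight hwc (R := R + 1) hφ hg h2
    (fun y hy => by rw [hχR y (by linarith), zero_smul]) h4
  have t2 : Tendsto (fun n => ∑ α, ∫ x, ‖dirac (A α) (W α) (φ n) x‖ ^ 2) atTop
      (𝓝 (∑ α, ∫ x, ‖cmt (A α) χ f x‖ ^ 2)) :=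
    tendsto_finset_sum _ fun α _ => tendsto_int_sq (hD α) (hY α) (h5 α)
  exact le_of_tendsto_of_tendsto' t1 t2 fun n => H _ (h1 n) (h3 n)

/-- Gap inequality for `χ f`. -/
theorem gap_cut {C₀ L w₀ : ℝ} (hC : 0 ≤ C₀) (hcl : CliffBd A C₀)
    (hA : ∀ α k, (A α k).IsSymmetric) (hWs : ∀ α x, (W α x).IsSymmetric)
    (hL : ∀ α, LipPot (W α) L) {f Φ : EuclideanSpace ℝ κ → F} (hf : L2loc f)
    (hw : ∀ α, ∀ ψ : EuclideanSpace ℝ κ → F, ContDiff ℝ ∞ ψ → HasCompactSupport ψ →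
      ∫ x, ⟪f x, dirac (A α) (W α) ψ x⟫_ℂ = 0)
    (hΦ : MemLp Φ 2 volume)
    (H : ∀ φ : EuclideanSpace ℝ κ → F, ContDiff ℝ ∞ φ → HasCompactSupport φ →
      w₀ * ((∫ x, ‖φ x‖ ^ 2) - ‖∫ x, ⟪Φ x, φ x⟫_ℂ‖ ^ 2) ≤
        ∑ α, ∫ x, ‖dirac (A α) (W α) φ x‖ ^ 2)
    {χ : EuclideanSpace ℝ κ → ℝ} (hχ : ContDiff ℝ ∞ χ) {R : ℝ}
    (hχR : ∀ x, R < ‖x‖ → χ x = 0) (hχ1 : ∀ x, |χ x| ≤ 1) :
    w₀ * ((∫ x, ‖χ x • f x‖ ^ 2) - ‖∫ x, ⟪Φ x, χ x • f x⟫_ℂ‖ ^ 2) ≤
      ∑ α, ∫ x, ‖cmt (A α) χ f x‖ ^ 2 := by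
  obtain ⟨hg, hY, φ, h1, h2, h3, h4, h5⟩ := exists_seq hC hcl hA hWs hL hf hw hχ hχR hχ1
  have hφ : ∀ n, MemLp (φ n) 2 volume := fun n =>
    (h1 n).continuous.memLp_of_hasCompactSupport (h3 n)
  have hD : ∀ α n, MemLp (dirac (A α) (W α) (φ n)) 2 volume := fun α n =>
    memLp_dirac (hL α).continuous ((h1 n).of_le (by simp)) (h3 n)
  have t1 := tendsto_int_sq hφ hg h4
  have t3 := tendsto_integral_inner (fun _ : ℕ => hΦ) hΦ hφ hg (by simp) h4
  have t4 := ((t1.sub ((t3.norm).pow 2)).const_mul w₀)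
  have t2 : Tendsto (fun n => ∑ α, ∫ x, ‖dirac (A α) (W α) (φ n) x‖ ^ 2) atTop
      (𝓝 (∑ α, ∫ x, ‖cmt (A α) χ f x‖ ^ 2)) :=
    tendsto_finset_sum _ fun α _ => tendsto_int_sq (hD α) (hY α) (h5 α)
  exact le_of_tendsto_of_tendsto' t4 t2 fun n => H _ (h1 n) (h3 n)

end Transfer

/-! ### 3. The growth argument -/

theorem discrete {J a : ℕ → ℝ} {B D G K : ℝ} {n₀ : ℕ} (hB : 0 < B) (hD : 0 ≤ D) (hK : 0 ≤ K)
    (hrec : ∀ m ≥ n₀, a m * J m ≤ B * J (m + 1) + D) (ha : Tendsto a atTop atTop)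
    (hg : ∀ m : ℕ, J m ≤ G * Real.exp (K * (m + 1))) : ∀ᶠ n in atTop, J n ≤ D := by
  have h1 : ∀ᶠ m in atTop, B * Real.exp (K + 1) + 1 ≤ a m := ha.eventually_ge_atTop _
  rw [eventually_atTop] at h1
  obtain ⟨n₁, hn₁⟩ := h1
  rw [eventually_atTop]
  refine ⟨max n₀ n₁, fun n hn => ?_⟩
  by_contra hne
  push Not at hne
  have hexp : 1 ≤ Real.exp (K + 1) := Real.one_le_exp (by linarith)
  have hstep : ∀ m ≥ max n₀ n₁, D < J m → Real.exp (K + 1) * J m ≤ J (m + 1) := by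
    intro m hm hJ
    have h2 := hrec m ((le_max_left _ _).trans hm)
    have h3 := hn₁ m ((le_max_right _ _).trans hm)
    have hJ0 : 0 < J m := lt_of_le_of_lt hD hJ
    have h4 : (B * Real.exp (K + 1) + 1) * J m ≤ a m * J m := by gcongr
    have h5 : B * (Real.exp (K + 1) * J m) ≤ B * J (m + 1) := by nlinarith
    exact le_of_mul_le_mul_left h5 hB
  have hall : ∀ k : ℕ, D < J (n + k) ∧ Real.exp (K + 1) ^ k * J n ≤ J (n + k) := by
    intro k
    induction k with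
    | zero => simpa using hne
    | succ k ih =>
      obtain ⟨ih1, ih2⟩ := ih
      have h2 := hstep (n + k) (hn.trans (Nat.le_add_right _ _)) ih1
      refine ⟨?_, ?_⟩
      · have h4 : 0 < J (n + k) := lt_of_le_of_lt hD ih1
        have : J (n + k) ≤ J (n + k + 1) := by nlinarith
        exact lt_of_lt_of_le ih1 this
      · calc Real.exp (K + 1) ^ (k + 1) * J n = Real.exp (K + 1) * (Real.exp (K + 1) ^ k * J n) := by
              ring
          _ ≤ Real.exp (K + 1) * J (n + k) := by gcongr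
          _ ≤ _ := h2
  have hJn : 0 < J n := lt_of_le_of_lt hD hne
  have hfin : ∀ k : ℕ, (k : ℝ) * J n ≤ G * Real.exp (K * (n + 1)) := by
    intro k
    have h2 := (hall k).2
    have h3 := hg (n + k)
    have h4 : Real.exp (K + 1) ^ k = Real.exp (K * k) * Real.exp k := by
      rw [← Real.exp_nat_mul, ← Real.exp_add]
      ring_nf
    have h5 : Real.exp (K * (((n + k : ℕ) : ℝ) + 1)) =
        Real.exp (K * k) * Real.exp (K * (n + 1)) := by
      rw [← Real.exp_add]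
      push_cast
      ring_nf
    have h6 : Real.exp (K * k) * (Real.exp k * J n) ≤
        Real.exp (K * k) * (G * Real.exp (K * (n + 1))) := by
      calc _ = Real.exp (K + 1) ^ k * J n := by rw [h4]; ring
        _ ≤ _ := h2.trans h3
        _ = _ := by rw [h5]; ring
    have h7 := le_of_mul_le_mul_left h6 (Real.exp_pos _)
    have h8 : (k : ℝ) ≤ Real.exp k := by linarith [Real.add_one_le_exp (k : ℝ)]
    calc (k : ℝ) * J n ≤ Real.exp k * J n := by gcongr
      _ ≤ _ := h7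
  obtain ⟨k, hk⟩ := exists_nat_gt (G * Real.exp (K * (n + 1)) / J n)
  have := hfin k
  rw [div_lt_iff₀ hJn] at hk
  linarith

section Main

variable {κ : Type*} [Fintype κ] [DecidableEq κ]
  {F : Type*} [NormedAddCommGroup F] [InnerProductSpace ℂ F] [FiniteDimensional ℂ F]

/-- Closed shells. -/
def shell (m : ℕ) : Set (EuclideanSpace ℝ κ) := {x | (m : ℝ) ≤ ‖x‖ ∧ ‖x‖ ≤ m + 1}

theorem measurableSet_shell (m : ℕ) : MeasurableSet (shell (κ := κ) m) :=
  (isClosed_le continuous_const continuous_norm).measurableSet.inter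
    (isClosed_le continuous_norm continuous_const).measurableSet

theorem L2loc_of_growth {f : EuclideanSpace ℝ κ → F} (hfm : AEStronglyMeasurable f volume)
    {K : ℝ} (hg : Integrable fun x => Real.exp (-(K * ‖x‖)) * ‖f x‖ ^ 2) (hK : 0 ≤ K) :
    L2loc f := by
  intro R
  rw [memLp_two_iff_integrable_sq_norm hfm.restrict]
  have h1 : IntegrableOn (fun x => Real.exp (K * R) * (Real.exp (-(K * ‖x‖)) * ‖f x‖ ^ 2))
      (Metric.closedBall 0 R) := (hg.const_mul _).integrableOn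
  refine h1.mono' (hfm.restrict.norm.pow 2) ?_
  refine (ae_restrict_iff' Metric.isClosed_closedBall.measurableSet).mpr
    (Eventually.of_forall fun x hx => ?_)
  have hx' : ‖x‖ ≤ R := by simpa using hx
  rw [Real.norm_of_nonneg (by positivity), ← mul_assoc, ← Real.exp_add]
  have : (1 : ℝ) ≤ Real.exp (K * R + -(K * ‖x‖)) := Real.one_le_exp (by nlinarith)
  nlinarith [sq_nonneg ‖f x‖]

theorem L2loc.integrableOn {f : EuclideanSpace ℝ κ → F} (hf : L2loc f) (R : ℝ) :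
    IntegrableOn (fun x => ‖f x‖ ^ 2) (Metric.closedBall 0 R) volume :=
  (memLp_two_iff_integrable_sq_norm hf.aesm.restrict).mp (hf R)

theorem shell_subset (m : ℕ) : shell (κ := κ) m ⊆ Metric.closedBall 0 (m + 1) := by
  intro x hx
  simpa using hx.2

theorem shell_growth {f : EuclideanSpace ℝ κ → F} (hf : L2loc f)
    {K : ℝ} (hg : Integrable fun x => Real.exp (-(K * ‖x‖)) * ‖f x‖ ^ 2) (hK : 0 ≤ K) (m : ℕ) :
    ∫ x in shell m, ‖f x‖ ^ 2 ≤
      (∫ x, Real.exp (-(K * ‖x‖)) * ‖f x‖ ^ 2) * Real.exp (K * (m + 1)) := by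
  have h1 : ∫ x in shell m, ‖f x‖ ^ 2 ≤
      ∫ x in shell m, Real.exp (K * (m + 1)) * (Real.exp (-(K * ‖x‖)) * ‖f x‖ ^ 2) := by
    refine setIntegral_mono_on ((hf.integrableOn _).mono_set (shell_subset m))
      (hg.const_mul _).integrableOn (measurableSet_shell m) fun x hx => ?_
    rw [← mul_assoc, ← Real.exp_add]
    have : (1 : ℝ) ≤ Real.exp (K * (m + 1) + -(K * ‖x‖)) :=
      Real.one_le_exp (by nlinarith [hx.2])
    nlinarith [sq_nonneg ‖f x‖]
  refine h1.trans ?_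
  rw [integral_const_mul, mul_comm]
  refine mul_le_mul_of_nonneg_right ?_ (Real.exp_pos _).le
  exact setIntegral_le_integral hg (Eventually.of_forall fun x => by positivity)

variable {ι : Type*} [Fintype ι] {A : ι → κ → F →ₗ[ℂ] F}
  {W : ι → EuclideanSpace ℝ κ → F →ₗ[ℂ] F}

/-- the commutator energy of the unit step cut-off is controlled by the shell mass -/
theorem cmt_cut_le {C₀ : ℝ} (hC : 0 ≤ C₀) (hcl : CliffBd A C₀) {f : EuclideanSpace ℝ κ → F}
    (hf : L2loc f) {Kc : ℝ} (hKc : ∀ R : ℝ, 0 ≤ R → ∀ x : EuclideanSpace ℝ κ,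
      ‖fderiv ℝ (cut R) x‖ ≤ Kc) (n : ℕ) :
    ∑ α, ∫ x, ‖cmt (A α) (cut (n : ℝ)) f x‖ ^ 2 ≤ C₀ * Kc ^ 2 * ∫ x in shell n, ‖f x‖ ^ 2 := by
  have hKc0 : 0 ≤ Kc := (norm_nonneg _).trans (hKc 0 le_rfl 0)
  have hmem : ∀ α, MemLp (cmt (A α) (cut (n : ℝ)) f) 2 volume := by
    intro α
    refine hf.memLp_of_bound (M := Real.sqrt C₀ * Kc) (R := n + 1)
      (aesm_cmt (cut_contDiff _) hf.aesm)
      (fun x => norm_cmt_le hC hcl f x (hKc n (Nat.cast_nonneg n) x) α) fun x hx => ?_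
    simp [cmt, cut_fderiv_outer (Nat.cast_nonneg n) hx]
  have hint : ∀ α, Integrable (fun x => ‖cmt (A α) (cut (n : ℝ)) f x‖ ^ 2) volume := fun α =>
    (memLp_two_iff_integrable_sq_norm (hmem α).1).mp (hmem α)
  rw [← integral_finset_sum _ fun α _ => hint α, ← integral_const_mul,
    ← integral_indicator (measurableSet_shell n)]
  refine integral_mono (integrable_finset_sum _ fun α _ => hint α) ?_ fun x => ?_
  · rw [integrable_indicator_iff (measurableSet_shell n)]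
    exact (((hf.integrableOn _).mono_set (shell_subset n))).const_mul _
  · simp only
    by_cases hx : x ∈ shell n
    · rw [Set.indicator_of_mem hx]
      refine (sum_norm_cmt_le hC hcl _ f x).trans ?_
      gcongr
      exact hKc n (Nat.cast_nonneg n) x
    · rw [Set.indicator_of_notMem hx]
      refine (sum_norm_cmt_le hC hcl _ f x).trans ?_
      have : fderiv ℝ (cut (n : ℝ)) x = 0 := by
        by_cases h1 : ‖x‖ < n
        · exact cut_fderiv_inner (Nat.cast_nonneg n) h1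
        · refine cut_fderiv_outer (Nat.cast_nonneg n) ?_
          by_contra h2
          exact hx ⟨not_lt.mp h1, not_lt.mp h2⟩
      rw [this]; simp

/-- LIOUVILLE THEOREM (leaf S5.U4-AGMON). -/
theorem liouville {C₀ L c C w₀ K : ℝ} (hC : 0 ≤ C₀) (hcl : CliffBd A C₀)
    (hA : ∀ α k, (A α k).IsSymmetric) (hWs : ∀ α x, (W α x).IsSymmetric)
    (hL : ∀ α, LipPot (W α) L) (hc : 0 < c) (hw₀ : 0 < w₀) (hK : 0 ≤ K)
    (H1 : ∀ φ : EuclideanSpace ℝ κ → F, ContDiff ℝ ∞ φ → HasCompactSupport φ →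
      ∫ x, (c * ‖x‖ ^ 2 - C) * ‖φ x‖ ^ 2 ≤ ∑ α, ∫ x, ‖dirac (A α) (W α) φ x‖ ^ 2)
    {Φ : EuclideanSpace ℝ κ → F} (hΦ : MemLp Φ 2 volume) (hΦ1 : ∫ x, ‖Φ x‖ ^ 2 = 1)
    (H2 : ∀ φ : EuclideanSpace ℝ κ → F, ContDiff ℝ ∞ φ → HasCompactSupport φ →
      w₀ * ((∫ x, ‖φ x‖ ^ 2) - ‖∫ x, ⟪Φ x, φ x⟫_ℂ‖ ^ 2) ≤
        ∑ α, ∫ x, ‖dirac (A α) (W α) φ x‖ ^ 2)
    {f : EuclideanSpace ℝ κ → F} (hfm : AEStronglyMeasurable f volume)
    (hg : Integrable fun x => Real.exp (-(K * ‖x‖)) * ‖f x‖ ^ 2)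
    (hw : ∀ α, ∀ ψ : EuclideanSpace ℝ κ → F, ContDiff ℝ ∞ ψ → HasCompactSupport ψ →
      ∫ x, ⟪f x, dirac (A α) (W α) ψ x⟫_ℂ = 0) :
    ∃ z : ℂ, f =ᵐ[volume] fun x => z • Φ x := by
  have hf : L2loc f := L2loc_of_growth hfm hg hK
  obtain ⟨Kc, hKc, hKb⟩ := cut_fderiv_bound (E := EuclideanSpace ℝ κ)
  set J : ℕ → ℝ := fun m => ∫ x in shell m, ‖f x‖ ^ 2 with hJ
  have hJ0 : ∀ m, 0 ≤ J m := fun m => integral_nonneg fun x => sq_nonneg _
  have hcutm : ∀ n : ℕ, MemLp (fun x => cut (n : ℝ) x • f x) 2 volume := by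
    intro n
    refine hf.memLp_of_bound (M := 1) (R := n + 1)
      ((cut_contDiff (E := EuclideanSpace ℝ κ) (n := 0) _).continuous.aestronglyMeasurable.smul
        hf.aesm) (fun x => ?_) fun x hx => ?_
    · rw [norm_smul, Real.norm_of_nonneg (cut_nonneg _ _)]
      gcongr
      exact cut_le_one _ _
    · rw [cut_zero (Nat.cast_nonneg n) hx.le, zero_smul]
  -- a threshold radius
  obtain ⟨n₀, hn₀⟩ : ∃ n₀ : ℕ, ∀ r : ℝ, (n₀ : ℝ) ≤ r → 1 ≤ c * r ^ 2 - C := by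
    obtain ⟨n₀, hn₀⟩ := exists_nat_gt (max 1 ((|C| + 1) / c))
    refine ⟨n₀, fun r hr => ?_⟩
    have h1 : 1 ≤ r := ((le_max_left _ _).trans hn₀.le).trans hr
    have h2 : (|C| + 1) / c ≤ r := ((le_max_right _ _).trans hn₀.le).trans hr
    rw [div_le_iff₀ hc] at h2
    have h3 : r * c ≤ c * r ^ 2 := by
      nlinarith [mul_nonneg hc.le (mul_nonneg (by linarith : (0:ℝ) ≤ r)
        (by linarith : (0:ℝ) ≤ r - 1))]
    have h4 := le_abs_self C
    linarith
  set S₀ : ℝ := ∫ x in Metric.closedBall 0 (n₀ : ℝ), ‖f x‖ ^ 2 with hS₀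
  have hS₀0 : 0 ≤ S₀ := integral_nonneg fun x => sq_nonneg _
  -- inequality (I1) for unit step cut-offs
  have hI1 : ∀ n : ℕ, ∫ x, (c * ‖x‖ ^ 2 - C) * ‖cut (n : ℝ) x • f x‖ ^ 2 ≤
      C₀ * Kc ^ 2 * J n := by
    intro n
    refine (energy_cut hC hcl hA hWs hL hf hw (w := fun x => c * ‖x‖ ^ 2 - C) (by fun_prop) H1
      (χ := cut (n : ℝ)) (cut_contDiff _) (R := n + 1)
      (fun x hx => cut_zero (Nat.cast_nonneg n) hx.le) (fun x => ?_)).trans
      (cmt_cut_le hC hcl hf hKb n)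
    rw [abs_of_nonneg (cut_nonneg _ _)]
    exact cut_le_one _ _
  have hsq : ∀ n : ℕ, Integrable (fun x => ‖cut (n : ℝ) x • f x‖ ^ 2) volume := fun n =>
    (memLp_two_iff_integrable_sq_norm (hcutm n).1).mp (hcutm n)
  have hsqle : ∀ (n : ℕ) (x : EuclideanSpace ℝ κ), ‖cut (n : ℝ) x • f x‖ ^ 2 ≤ ‖f x‖ ^ 2 := by
    intro n x
    rw [norm_smul, Real.norm_of_nonneg (cut_nonneg _ _), mul_pow]
    have h1 := cut_nonneg (n : ℝ) x
    have h2 := cut_le_one (n : ℝ) x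
    have h3 : cut (n : ℝ) x ^ 2 ≤ 1 := by nlinarith
    nlinarith [sq_nonneg ‖f x‖]
  have hLHS : ∀ n : ℕ, Integrable (fun x => (c * ‖x‖ ^ 2 - C) * ‖cut (n : ℝ) x • f x‖ ^ 2)
      volume := by
    intro n
    refine ((hsq n).const_mul (c * ((n : ℝ) + 1) ^ 2 + |C|)).mono'
      (((by fun_prop : Continuous fun x : EuclideanSpace ℝ κ =>
        c * ‖x‖ ^ 2 - C).aestronglyMeasurable).mul (hsq n).1) (Eventually.of_forall fun x => ?_)
    rw [norm_mul, Real.norm_of_nonneg (sq_nonneg _)]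
    by_cases hx : (n : ℝ) + 1 ≤ ‖x‖
    · rw [cut_zero (Nat.cast_nonneg n) hx]; simp
    · push Not at hx
      refine mul_le_mul_of_nonneg_right ?_ (sq_nonneg _)
      rw [Real.norm_eq_abs]
      refine (abs_sub _ _).trans ?_
      rw [abs_of_nonneg (by positivity)]
      have : ‖x‖ ^ 2 ≤ ((n : ℝ) + 1) ^ 2 := by
        have := norm_nonneg x
        gcongr
      nlinarith
  have hlow : ∀ (n : ℕ) (x : EuclideanSpace ℝ κ),
      -(|C| * ‖f x‖ ^ 2) ≤ (c * ‖x‖ ^ 2 - C) * ‖cut (n : ℝ) x • f x‖ ^ 2 := by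
    intro n x
    have h1 : -|C| ≤ c * ‖x‖ ^ 2 - C := by
      have := le_abs_self C
      have h2 : 0 ≤ c * ‖x‖ ^ 2 := by positivity
      linarith
    have h3 := hsqle n x
    have h4 : (0 : ℝ) ≤ ‖cut (n : ℝ) x • f x‖ ^ 2 := sq_nonneg _
    calc -(|C| * ‖f x‖ ^ 2) ≤ -(|C| * ‖cut (n : ℝ) x • f x‖ ^ 2) := by
          have := mul_le_mul_of_nonneg_left h3 (abs_nonneg C)
          linarith
      _ = -|C| * ‖cut (n : ℝ) x • f x‖ ^ 2 := by ring
      _ ≤ _ := mul_le_mul_of_nonneg_right h1 h4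
  have hindB : ∀ r : ℝ, Integrable ((Metric.closedBall (0 : EuclideanSpace ℝ κ) r).indicator
      fun x => ‖f x‖ ^ 2) volume := fun r => by
    rw [integrable_indicator_iff Metric.isClosed_closedBall.measurableSet]
    exact hf.integrableOn r
  have hindS : ∀ m : ℕ, Integrable ((shell (κ := κ) m).indicator
      fun x => ‖f x‖ ^ 2) volume := fun m => by
    rw [integrable_indicator_iff (measurableSet_shell m)]
    exact (hf.integrableOn _).mono_set (shell_subset m)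
  -- recursion
  have hrec : ∀ m ≥ n₀, (c * (m : ℝ) ^ 2 - C) * J m ≤
      (C₀ * Kc ^ 2 + 1) * J (m + 1) + (|C| + 1) * S₀ := by
    intro m hm
    have h1 : ∫ x, ((c * (m : ℝ) ^ 2 - C) * (shell (κ := κ) m).indicator (fun x => ‖f x‖ ^ 2) x -
        |C| * (Metric.closedBall (0 : EuclideanSpace ℝ κ) n₀).indicator
          (fun x => ‖f x‖ ^ 2) x) ≤
        ∫ x, (c * ‖x‖ ^ 2 - C) * ‖cut ((m + 1 : ℕ) : ℝ) x • f x‖ ^ 2 := by
      refine integral_mono (((hindS m).const_mul _).sub ((hindB _).const_mul _)) (hLHS (m + 1))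
        fun x => ?_
      simp only
      by_cases hx : x ∈ shell m
      · rw [Set.indicator_of_mem hx]
        have e1 : cut ((m + 1 : ℕ) : ℝ) x = 1 :=
          cut_one (Nat.cast_nonneg _) (by push_cast; exact hx.2)
        rw [e1, one_smul]
        have h2 : 0 ≤ |C| * (Metric.closedBall (0 : EuclideanSpace ℝ κ) n₀).indicator
          (fun x => ‖f x‖ ^ 2) x :=
          mul_nonneg (abs_nonneg _) (Set.indicator_nonneg (fun _ _ => sq_nonneg _) _)
        have h3 : (c * (m : ℝ) ^ 2 - C) * ‖f x‖ ^ 2 ≤ (c * ‖x‖ ^ 2 - C) * ‖f x‖ ^ 2 := by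
          refine mul_le_mul_of_nonneg_right ?_ (sq_nonneg _)
          have := hx.1
          have : (m : ℝ) ^ 2 ≤ ‖x‖ ^ 2 := by gcongr
          nlinarith
        linarith
      · rw [Set.indicator_of_notMem hx, mul_zero, zero_sub]
        by_cases hx2 : ‖x‖ ≤ n₀
        · rw [Set.indicator_of_mem (by simpa using hx2)]
          exact hlow (m + 1) x
        · rw [Set.indicator_of_notMem (by simpa using hx2), mul_zero, neg_zero]
          have := hn₀ ‖x‖ (not_le.mp hx2).le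
          exact mul_nonneg (by linarith) (sq_nonneg _)
    rw [integral_sub ((hindS m).const_mul _) ((hindB _).const_mul _), integral_const_mul,
      integral_const_mul, integral_indicator (measurableSet_shell m),
      integral_indicator Metric.isClosed_closedBall.measurableSet] at h1
    have h2 := h1.trans (hI1 (m + 1))
    have h3 := hJ0 (m + 1)
    have h4 : (c * (m : ℝ) ^ 2 - C) * J m - |C| * S₀ ≤ C₀ * Kc ^ 2 * J (m + 1) := h2
    nlinarith
  have ha : Tendsto (fun m : ℕ => c * (m : ℝ) ^ 2 - C) atTop atTop := by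
    refine tendsto_atTop_add_const_right _ _ ?_
    exact (Tendsto.const_mul_atTop hc
      ((tendsto_pow_atTop (by norm_num)).comp tendsto_natCast_atTop_atTop))
  have hJev := discrete (J := J) (B := C₀ * Kc ^ 2 + 1) (D := (|C| + 1) * S₀)
    (G := ∫ x, Real.exp (-(K * ‖x‖)) * ‖f x‖ ^ 2) (K := K) (n₀ := n₀) (by positivity)
    (by positivity) hK hrec ha (fun m => shell_growth hf hg hK m)
  -- boundedness of the mass
  have hmass : ∀ n : ℕ, n₀ ≤ n → ∫ x in Metric.closedBall 0 (n : ℝ), ‖f x‖ ^ 2 ≤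
      C₀ * Kc ^ 2 * J n + (|C| + 1) * S₀ := by
    intro n hn
    have hn' : (n₀ : ℝ) ≤ n := by exact_mod_cast hn
    have h1 : ∫ x, ((Metric.closedBall (0 : EuclideanSpace ℝ κ) n).indicator
          (fun x => ‖f x‖ ^ 2) x -
        (|C| + 1) * (Metric.closedBall (0 : EuclideanSpace ℝ κ) n₀).indicator
          (fun x => ‖f x‖ ^ 2) x) ≤
        ∫ x, (c * ‖x‖ ^ 2 - C) * ‖cut (n : ℝ) x • f x‖ ^ 2 := by
      refine integral_mono ((hindB _).sub ((hindB _).const_mul _)) (hLHS n) fun x => ?_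
      simp only
      by_cases hx : ‖x‖ ≤ n₀
      · rw [Set.indicator_of_mem (by simpa using hx.trans hn'),
          Set.indicator_of_mem (by simpa using hx)]
        have := hlow n x
        linarith
      · rw [Set.indicator_of_notMem (s := Metric.closedBall (0 : EuclideanSpace ℝ κ) n₀)
          (by simpa using hx), mul_zero, sub_zero]
        have h2 := hn₀ ‖x‖ (not_le.mp hx).le
        by_cases hx2 : ‖x‖ ≤ n
        · rw [Set.indicator_of_mem (by simpa using hx2), cut_one (Nat.cast_nonneg _) hx2, one_smul]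
          nlinarith [sq_nonneg ‖f x‖]
        · rw [Set.indicator_of_notMem (by simpa using hx2)]
          exact mul_nonneg (by linarith) (sq_nonneg _)
    rw [integral_sub (hindB _) ((hindB _).const_mul _), integral_const_mul,
      integral_indicator Metric.isClosed_closedBall.measurableSet,
      integral_indicator Metric.isClosed_closedBall.measurableSet] at h1
    have h2 := h1.trans (hI1 n)
    linarith
  have hfint : Integrable (fun x => ‖f x‖ ^ 2) volume := by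
    refine (aecover_closedBall (μ := (volume : Measure (EuclideanSpace ℝ κ)))
      (x := (0 : EuclideanSpace ℝ κ))
      tendsto_natCast_atTop_atTop).integrable_of_integral_bounded_of_nonneg_ae
      (C₀ * Kc ^ 2 * ((|C| + 1) * S₀) + (|C| + 1) * S₀) (fun n => hf.integrableOn _)
      (Eventually.of_forall fun x => sq_nonneg _) ?_
    filter_upwards [hJev, eventually_ge_atTop n₀] with n h1 h2
    refine (hmass n h2).trans ?_
    have : 0 ≤ C₀ * Kc ^ 2 := by positivity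
    nlinarith
  have hfL2 : MemLp f 2 volume := (memLp_two_iff_integrable_sq_norm hfm).mpr hfint
  -- shell masses tend to zero
  have hJt : Tendsto J atTop (𝓝 0) := by
    have h1 : Tendsto (fun m : ℕ => ∫ x, (shell (κ := κ) m).indicator (fun x => ‖f x‖ ^ 2) x)
        atTop (𝓝 (∫ _ : EuclideanSpace ℝ κ, (0 : ℝ))) := by
      refine tendsto_integral_of_dominated_convergence (fun x => ‖f x‖ ^ 2)
        (fun m => (hindS m).1) hfint (fun m => Eventually.of_forall fun x => ?_)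
        (Eventually.of_forall fun x => ?_)
      · rw [Real.norm_of_nonneg (Set.indicator_nonneg (fun _ _ => sq_nonneg _) _)]
        exact Set.indicator_le_self' (fun _ _ => sq_nonneg _) x
      · refine tendsto_const_nhds.congr' ?_
        obtain ⟨m₀, hm₀⟩ := exists_nat_gt ‖x‖
        filter_upwards [eventually_ge_atTop m₀] with m hm
        rw [Set.indicator_of_notMem]
        intro hx
        have h2 : (m₀ : ℝ) ≤ m := by exact_mod_cast hm
        have h3 : (m : ℝ) ≤ ‖x‖ := hx.1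
        linarith
    rw [integral_zero] at h1
    refine h1.congr fun m => ?_
    rw [integral_indicator (measurableSet_shell m)]
  -- limits of the cut-off quantities
  have hcut1 : ∀ x : EuclideanSpace ℝ κ, ∀ᶠ n : ℕ in atTop, cut (n : ℝ) x = 1 := by
    intro x
    obtain ⟨m₀, hm₀⟩ := exists_nat_gt ‖x‖
    filter_upwards [eventually_ge_atTop m₀] with m hm
    have h2 : (m₀ : ℝ) ≤ m := by exact_mod_cast hm
    exact cut_one (Nat.cast_nonneg m) (by linarith)
  have l1 : Tendsto (fun n : ℕ => ∫ x, ‖cut (n : ℝ) x • f x‖ ^ 2) atTop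
      (𝓝 (∫ x, ‖f x‖ ^ 2)) := by
    refine tendsto_integral_of_dominated_convergence (fun x => ‖f x‖ ^ 2)
      (fun n => (hsq n).1) hfint (fun n => Eventually.of_forall fun x => ?_)
      (Eventually.of_forall fun x => ?_)
    · rw [Real.norm_of_nonneg (sq_nonneg _)]
      exact hsqle n x
    · refine tendsto_const_nhds.congr' ?_
      filter_upwards [hcut1 x] with n hn
      rw [hn, one_smul]
  have l2 : Tendsto (fun n : ℕ => ∫ x, ⟪Φ x, cut (n : ℝ) x • f x⟫_ℂ) atTop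
      (𝓝 (∫ x, ⟪Φ x, f x⟫_ℂ)) := by
    refine tendsto_integral_of_dominated_convergence (fun x => ‖Φ x‖ * ‖f x‖)
      (fun n => hΦ.1.inner (hcutm n).1) (hΦ.norm.integrable_mul hfL2.norm)
      (fun n => Eventually.of_forall fun x => ?_) (Eventually.of_forall fun x => ?_)
    · refine (norm_inner_le_norm _ _).trans ?_
      gcongr
      rw [norm_smul, Real.norm_of_nonneg (cut_nonneg _ _)]
      exact mul_le_of_le_one_left (norm_nonneg _) (cut_le_one _ _)
    · refine tendsto_const_nhds.congr' ?_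
      filter_upwards [hcut1 x] with n hn
      rw [hn, one_smul]
  have hgap : ∀ n : ℕ, w₀ * ((∫ x, ‖cut (n : ℝ) x • f x‖ ^ 2) -
      ‖∫ x, ⟪Φ x, cut (n : ℝ) x • f x⟫_ℂ‖ ^ 2) ≤ C₀ * Kc ^ 2 * J n := by
    intro n
    refine (gap_cut hC hcl hA hWs hL hf hw hΦ H2
      (χ := cut (n : ℝ)) (cut_contDiff _) (R := n + 1)
      (fun x hx => cut_zero (Nat.cast_nonneg n) hx.le) (fun x => ?_)).trans
      (cmt_cut_le hC hcl hf hKb n)
    rw [abs_of_nonneg (cut_nonneg _ _)]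
    exact cut_le_one _ _
  have hfin : w₀ * ((∫ x, ‖f x‖ ^ 2) - ‖∫ x, ⟪Φ x, f x⟫_ℂ‖ ^ 2) ≤ 0 := by
    have t1 := ((l1.sub (l2.norm.pow 2)).const_mul w₀)
    have t2 := hJt.const_mul (C₀ * Kc ^ 2)
    rw [mul_zero] at t2
    exact le_of_tendsto_of_tendsto' t1 t2 hgap
  have hfin2 : (∫ x, ‖f x‖ ^ 2) ≤ ‖∫ x, ⟪Φ x, f x⟫_ℂ‖ ^ 2 := by
    by_contra hne
    push Not at hne
    have : 0 < w₀ * ((∫ x, ‖f x‖ ^ 2) - ‖∫ x, ⟪Φ x, f x⟫_ℂ‖ ^ 2) :=
      mul_pos hw₀ (by linarith)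
    linarith
  set z : ℂ := ∫ x, ⟪Φ x, f x⟫_ℂ with hz
  refine ⟨z, ?_⟩
  have hdiff : MemLp (fun x => f x - z • Φ x) 2 volume := hfL2.sub (hΦ.const_smul z)
  have i1 := integrable_inner_of_memLp hfL2 hfL2
  have i2 := integrable_inner_of_memLp hfL2 hΦ
  have i3 := integrable_inner_of_memLp hΦ hfL2
  have i4 := integrable_inner_of_memLp hΦ hΦ
  have e1 : ∫ x, ⟪f x - z • Φ x, f x - z • Φ x⟫_ℂ =
      ∫ x, (⟪f x, f x⟫_ℂ - z * ⟪f x, Φ x⟫_ℂ - starRingEnd ℂ z * ⟪Φ x, f x⟫_ℂ +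
        (starRingEnd ℂ z * z) * ⟪Φ x, Φ x⟫_ℂ) := by
    refine integral_congr_ae (Eventually.of_forall fun x => ?_)
    simp only [inner_sub_left, inner_sub_right, inner_smul_left, inner_smul_right]
    ring
  have e2 : ∫ x, ⟪f x, Φ x⟫_ℂ = starRingEnd ℂ z := by
    rw [hz, ← integral_conj]
    refine integral_congr_ae (Eventually.of_forall fun x => ?_)
    exact (inner_conj_symm _ _).symm
  have j1 : Integrable (fun x => ⟪f x, f x⟫_ℂ - z * ⟪f x, Φ x⟫_ℂ) volume :=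
    i1.sub (i2.const_mul z)
  have j2 : Integrable (fun x => ⟪f x, f x⟫_ℂ - z * ⟪f x, Φ x⟫_ℂ -
      starRingEnd ℂ z * ⟪Φ x, f x⟫_ℂ) volume := j1.sub (i3.const_mul _)
  rw [integral_add j2 (i4.const_mul _),
    integral_sub j1 (i3.const_mul _), integral_sub i1 (i2.const_mul z),
    integral_const_mul, integral_const_mul, integral_const_mul, e2, ← hz,
    int_inner_self (fun x => f x - z • Φ x), int_inner_self f, int_inner_self Φ, hΦ1] at e1
  have e3 : ((∫ x, ‖f x - z • Φ x‖ ^ 2 : ℝ) : ℂ) = (((∫ x, ‖f x‖ ^ 2) - ‖z‖ ^ 2 : ℝ) : ℂ) := by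
    rw [e1]
    have : starRingEnd ℂ z * z = ((‖z‖ ^ 2 : ℝ) : ℂ) := by
      rw [mul_comm, Complex.mul_conj, Complex.normSq_eq_norm_sq]
    push_cast at this ⊢
    linear_combination (-1 : ℂ) * this
  have e4 : ∫ x, ‖f x - z • Φ x‖ ^ 2 = (∫ x, ‖f x‖ ^ 2) - ‖z‖ ^ 2 := by exact_mod_cast e3
  have e5 : ∫ x, ‖f x - z • Φ x‖ ^ 2 = 0 :=
    le_antisymm (by rw [e4]; linarith) (integral_nonneg fun x => sq_nonneg _)
  rw [integral_eq_zero_iff_of_nonneg (fun x => sq_nonneg _)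
    ((memLp_two_iff_integrable_sq_norm hdiff.1).mp hdiff)] at e5
  filter_upwards [e5] with x hx
  have : ‖f x - z • Φ x‖ = 0 := by simpa using hx
  rw [norm_eq_zero, sub_eq_zero] at this
  exact this

end Main

end Crest.Agent.R330.Agmon350
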