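import Crest.Agent.R330.Alg_962

/-! Row 330, supersymmetry algebra, `m = 0`: the three coefficient identities and
`{Q_α, Q_β}` for the charges `dcharge b M G g 0`. -/

set_option autoImplicit false
set_option linter.unusedSectionVars false

open Matrix Finset
open Crest.MathPhysics.MatrixQM
open Crest.Agent.R330.IBP837 Crest.Agent.R330.Gam962 Crest.Agent.R330.Col962
open Crest.Agent.R330.Defs478 Crest.Agent.R330.Alg962
open scoped ContDiff InnerProductSpace

noncomputable section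

namespace Crest.Agent.R330.Alg2962

variable {N : ℕ} {F : Type*} [NormedAddCommGroup F] [InnerProductSpace ℂ F]
  [FiniteDimensional ℂ F]

/-! ### The bracket `[x_i, x_j]` -/

/-- `[x_i, x_j]^A = Σ f_ABC x_i^B x_j^C`. -/
def ybr (b : ColorBasis N) (i j : Fin 9) (A : Fin (N ^ 2 - 1)) (x : Cfg N) : ℝ :=
  ∑ B, ∑ C, b.structConst A B C * x (i, B) * x (j, C)

theorem ybr_swap (b : ColorBasis N) (i j : Fin 9) (A : Fin (N ^ 2 - 1)) (x : Cfg N) :
    ybr b j i A x = - ybr b i j A x := by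
  unfold ybr
  rw [Finset.sum_comm, ← Finset.sum_neg_distrib]
  refine Finset.sum_congr rfl fun B _ => ?_
  rw [← Finset.sum_neg_distrib]
  refine Finset.sum_congr rfl fun C _ => ?_
  rw [f_swap23 b A B C]
  ring

theorem ybr_self (b : ColorBasis N) (i : Fin 9) (A : Fin (N ^ 2 - 1)) (x : Cfg N) :
    ybr b i i A x = 0 := by
  have := ybr_swap b i i A x
  linarith

theorem wco_eq_ybr (b : ColorBasis N) (G : GammaNine) (α β : Fin 16) (A : Fin (N ^ 2 - 1))
    (x : Cfg N) : wco b G α β A x = (1 / 2) * ∑ i, ∑ j, ybr b i j A x * G.γ2 i j α β := by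
  unfold wco ybr
  simp only [Finset.sum_mul, Finset.mul_sum]
  have e : ∀ f : Fin (N ^ 2 - 1) → Fin (N ^ 2 - 1) → Fin 9 → Fin 9 → ℝ,
      ∑ B, ∑ C, ∑ i, ∑ j, f B C i j = ∑ i, ∑ j, ∑ B, ∑ C, f B C i j := by
    intro f
    rw [Finset.sum_congr rfl fun B _ => Finset.sum_comm, Finset.sum_comm]
    refine Finset.sum_congr rfl fun i _ => ?_
    rw [Finset.sum_congr rfl fun B _ => Finset.sum_comm, Finset.sum_comm]
  rw [e]
  refine Finset.sum_congr rfl fun i _ => Finset.sum_congr rfl fun j _ =>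
    Finset.sum_congr rfl fun B _ => Finset.sum_congr rfl fun C _ => ?_
  ring

/-- First-order coefficient. -/
theorem first_wco (b : ColorBasis N) (G : GammaNine) (α β : Fin 16) (i : Fin 9)
    (A : Fin (N ^ 2 - 1)) (x : Cfg N) :
    ∑ γ, (G.γ i α γ * wco b G β γ A x + G.γ i β γ * wco b G α γ A x)
      = -2 * ∑ k, G.γ k α β * ybr b i k A x := by
  have h1 : ∀ j k : Fin 9, ∑ γ, (G.γ i α γ * G.γ2 j k β γ + G.γ i β γ * G.γ2 j k α γ)
      = (if i = k then 2 * G.γ j α β else 0) - (if i = j then 2 * G.γ k α β else 0) := by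
    intro j k
    have h := congrFun (congrFun (g_g2_comm G i j k) α) β
    rw [Matrix.sub_apply, Matrix.mul_apply, Matrix.mul_apply, ← Finset.sum_sub_distrib] at h
    have e : ∑ γ, (G.γ i α γ * G.γ2 j k β γ + G.γ i β γ * G.γ2 j k α γ)
        = - ∑ γ, (G.γ i α γ * G.γ2 j k γ β - G.γ2 j k α γ * G.γ i γ β) := by
      rw [← Finset.sum_neg_distrib]
      refine Finset.sum_congr rfl fun γ _ => ?_
      rw [g2_asymm G j k γ β, g_symm G i γ β]
      ring
    rw [e, h, Matrix.sub_apply]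
    split_ifs <;> simp [Matrix.smul_apply]
  have h2 : ∑ γ, (G.γ i α γ * wco b G β γ A x + G.γ i β γ * wco b G α γ A x)
      = (1 / 2) * ∑ j, ∑ k, ybr b j k A x *
        ∑ γ, (G.γ i α γ * G.γ2 j k β γ + G.γ i β γ * G.γ2 j k α γ) := by
    simp only [wco_eq_ybr, Finset.mul_sum, ← Finset.sum_add_distrib]
    rw [Finset.sum_comm]
    refine Finset.sum_congr rfl fun j _ => ?_
    rw [Finset.sum_comm]
    refine Finset.sum_congr rfl fun k _ => Finset.sum_congr rfl fun γ _ => ?_
    ring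
  rw [h2]
  simp only [h1, mul_sub, mul_ite, mul_zero, Finset.sum_sub_distrib, Finset.sum_ite_eq,
    Finset.mem_univ, if_true]
  have h3 : ∑ j : Fin 9, ∑ k : Fin 9, (if i = j then ybr b j k A x * (2 * G.γ k α β) else 0)
      = ∑ k, ybr b i k A x * (2 * G.γ k α β) := by
    rw [Finset.sum_comm]
    simp only [Finset.sum_ite_eq, Finset.mem_univ, if_true]
  rw [h3, ← mul_sub, ← Finset.sum_sub_distrib, Finset.mul_sum, Finset.mul_sum]
  refine Finset.sum_congr rfl fun k _ => ?_
  rw [ybr_swap b i k]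
  ring

/-! ### The potential -/

/-- Kronecker delta -/
def dl (i j : Fin 9) : ℝ := if i = j then 1 else 0

theorem dl_symm (i j : Fin 9) : dl i j = dl j i := by
  unfold dl
  simp only [eq_comm]

theorem dl_sum {V : Type*} [AddCommGroup V] [Module ℝ V] (i : Fin 9) (f : Fin 9 → V) :
    ∑ j, dl i j • f j = f i := by
  unfold dl
  simp only [ite_smul, one_smul, zero_smul, Finset.sum_ite_eq, Finset.mem_univ, if_true]

theorem dl_sum' {V : Type*} [AddCommGroup V] [Module ℝ V] (i : Fin 9) (f : Fin 9 → V) :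
    ∑ j, dl j i • f j = f i := by
  simp only [dl_symm _ i]
  exact dl_sum i f

theorem clifford' (G : GammaNine) (i j : Fin 9) : G.γ i * G.γ j = (2 * dl i j) •
    (1 : Matrix (Fin 16) (Fin 16) ℝ) - G.γ j * G.γ i := by
  have := G.clifford i j
  rw [eq_sub_iff_add_eq, this]
  unfold dl
  split_ifs
  · ext a b
    simp [Matrix.ofNat_apply, Matrix.one_apply]
  · simp

/-- Symmetric coefficients: `Σ r_il γ^iγ^l = Σ r_ii`. -/
theorem symm_sum (G : GammaNine) (r : Fin 9 → Fin 9 → ℝ) (hr : ∀ i l, r l i = r i l) :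
    ∑ i, ∑ l, r i l • (G.γ i * G.γ l) = (∑ i, r i i) • (1 : Matrix (Fin 16) (Fin 16) ℝ) := by
  have h1 : ∑ i, ∑ l, r i l • (G.γ i * G.γ l) = ∑ i, ∑ l, r i l • (G.γ l * G.γ i) := by
    rw [Finset.sum_comm]
    refine Finset.sum_congr rfl fun i _ => Finset.sum_congr rfl fun l _ => ?_
    rw [hr]
  have h2 : ∑ i, ∑ l, r i l • (G.γ i * G.γ l)
      = (2 * ∑ i, r i i) • (1 : Matrix (Fin 16) (Fin 16) ℝ)
        - ∑ i, ∑ l, r i l • (G.γ l * G.γ i) := by
    have : ∀ i l, r i l • (G.γ i * G.γ l)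
        = dl i l • ((2 * r i l) • (1 : Matrix (Fin 16) (Fin 16) ℝ)) - r i l • (G.γ l * G.γ i) := by
      intro i l
      rw [clifford' G i l, smul_sub, smul_smul, smul_smul]
      congr 2
      ring
    simp only [this, Finset.sum_sub_distrib, dl_sum]
    rw [← Finset.sum_smul, Finset.mul_sum]
  rw [← h1] at h2
  have h3 : (2 : ℝ) • ∑ i, ∑ l, r i l • (G.γ i * G.γ l)
      = (2 * ∑ i, r i i) • (1 : Matrix (Fin 16) (Fin 16) ℝ) := by
    rw [two_smul]
    nth_rewrite 1 [h2]
    abel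
  have h4 := congrArg (fun X => (1 / 2 : ℝ) • X) h3
  simp only [smul_smul] at h4
  norm_num at h4
  rw [h4]
  congr 1
  ring

theorem cyc3 {ι : Type*} [Fintype ι] {V : Type*} [AddCommMonoid V] (f : ι → ι → ι → V) :
    ∑ j, ∑ k, ∑ l, f k l j = ∑ j, ∑ k, ∑ l, f j k l := by
  rw [Finset.sum_comm]
  exact Finset.sum_congr rfl fun k _ => Finset.sum_comm

/-- the cyclic tensor -/
def Sc (G : GammaNine) (j k l : Fin 9) : Matrix (Fin 16) (Fin 16) ℝ :=
  G.γ j * G.γ k * G.γ l - dl j k • G.γ l + dl j l • G.γ k - dl k l • G.γ j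

theorem Sc_cyc (G : GammaNine) (j k l : Fin 9) : Sc G j k l = Sc G k l j := by
  have e : G.γ j * G.γ k * G.γ l = (2 * dl j k) • G.γ l
      - (2 * dl j l) • G.γ k + G.γ k * G.γ l * G.γ j := by
    rw [clifford' G j k, sub_mul, smul_mul_assoc, one_mul, mul_assoc (G.γ k), clifford' G j l,
      mul_sub, mul_smul_comm, mul_one, ← mul_assoc]
    abel
  unfold Sc
  rw [e, dl_symm k j, dl_symm l j]
  module

/-- `Σ c_ijkl γ^iγ^jγ^kγ^l = −2 Σ c_ijij` for curvature-type coefficients. -/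
theorem curvature (G : GammaNine) (c : Fin 9 → Fin 9 → Fin 9 → Fin 9 → ℝ)
    (h1 : ∀ i j k l, c j i k l = - c i j k l) (h2 : ∀ i j k l, c i j l k = - c i j k l)
    (h3 : ∀ i j k l, c k l i j = c i j k l)
    (h4 : ∀ i j k l, c i j k l + c i k l j + c i l j k = 0) :
    ∑ i, ∑ j, ∑ k, ∑ l, c i j k l • (G.γ i * G.γ j * G.γ k * G.γ l)
      = (-2 * ∑ i, ∑ j, c i j i j) • (1 : Matrix (Fin 16) (Fin 16) ℝ) := by
  have hB : ∀ i, ∑ j, ∑ k, ∑ l, c i j k l • Sc G j k l = 0 := by
    intro i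
    have e1 : ∑ j, ∑ k, ∑ l, c i k l j • Sc G j k l = ∑ j, ∑ k, ∑ l, c i j k l • Sc G j k l := by
      rw [← cyc3 (fun j k l => c i j k l • Sc G j k l)]
      exact Finset.sum_congr rfl fun j _ => Finset.sum_congr rfl fun k _ =>
        Finset.sum_congr rfl fun l _ => by rw [Sc_cyc G j k l]
    have e2 : ∑ j, ∑ k, ∑ l, c i l j k • Sc G j k l = ∑ j, ∑ k, ∑ l, c i j k l • Sc G j k l := by
      rw [← cyc3 (fun j k l => c i l j k • Sc G j k l)]
      exact Finset.sum_congr rfl fun j _ => Finset.sum_congr rfl fun k _ =>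
        Finset.sum_congr rfl fun l _ => by rw [Sc_cyc G j k l]
    have e3 : (3 : ℝ) • ∑ j, ∑ k, ∑ l, c i j k l • Sc G j k l = 0 := by
      have : (3 : ℝ) • ∑ j, ∑ k, ∑ l, c i j k l • Sc G j k l
          = ∑ j, ∑ k, ∑ l, c i j k l • Sc G j k l + ∑ j, ∑ k, ∑ l, c i k l j • Sc G j k l
            + ∑ j, ∑ k, ∑ l, c i l j k • Sc G j k l := by
        rw [e1, e2, show (3 : ℝ) = 1 + 1 + 1 by norm_num, add_smul, add_smul, one_smul]
      rw [this]
      simp only [← Finset.sum_add_distrib, ← add_smul, h4, zero_smul, Finset.sum_const_zero]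
    exact (smul_eq_zero.1 e3).resolve_left (by norm_num)
  have hdiag : ∀ i j k, c i j k k = 0 := by
    intro i j k
    have := h2 i j k k
    linarith
  have hC : ∀ i, ∑ j, ∑ k, ∑ l, c i j k l • (G.γ j * G.γ k * G.γ l)
      = ∑ j, ∑ l, (2 * c i j j l) • G.γ l := by
    intro i
    have e : ∀ j k l, c i j k l • (G.γ j * G.γ k * G.γ l) = c i j k l • Sc G j k l
        + (dl j k • (c i j k l • G.γ l) - dl j l • (c i j k l • G.γ k)
          + dl k l • (c i j k l • G.γ j)) := by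
      intro j k l
      unfold Sc
      module
    simp only [e, Finset.sum_add_distrib, hB, zero_add, Finset.sum_sub_distrib]
    have a1 : ∑ j : Fin 9, ∑ k : Fin 9, ∑ l : Fin 9, dl j k • (c i j k l • G.γ l)
        = ∑ j, ∑ l, c i j j l • G.γ l := by
      refine Finset.sum_congr rfl fun j _ => ?_
      rw [Finset.sum_comm]
      simp only [dl_sum]
    have a2 : ∑ j : Fin 9, ∑ k : Fin 9, ∑ l : Fin 9, dl j l • (c i j k l • G.γ k)
        = ∑ j, ∑ k, c i j k j • G.γ k := by
      simp only [dl_sum]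
    have a3 : ∑ j : Fin 9, ∑ k : Fin 9, ∑ l : Fin 9, dl k l • (c i j k l • G.γ j)
        = 0 := by
      simp only [dl_sum, hdiag, zero_smul, Finset.sum_const_zero]
    rw [a1, a2, a3, add_zero, ← Finset.sum_sub_distrib]
    refine Finset.sum_congr rfl fun j _ => ?_
    rw [← Finset.sum_sub_distrib]
    refine Finset.sum_congr rfl fun l _ => ?_
    rw [h2 i j j l, ← sub_smul]
    congr 1
    ring
  have hD : ∑ i, ∑ j, ∑ k, ∑ l, c i j k l • (G.γ i * G.γ j * G.γ k * G.γ l)
      = ∑ i, ∑ l, (2 * ∑ j, c i j j l) • (G.γ i * G.γ l) := by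
    refine Finset.sum_congr rfl fun i _ => ?_
    have e : ∑ j, ∑ k, ∑ l, c i j k l • (G.γ i * G.γ j * G.γ k * G.γ l)
        = G.γ i * ∑ j, ∑ k, ∑ l, c i j k l • (G.γ j * G.γ k * G.γ l) := by
      simp only [Finset.mul_sum, mul_smul_comm, mul_assoc]
    rw [e, hC]
    simp only [Finset.mul_sum, mul_smul_comm, Finset.sum_smul]
    rw [Finset.sum_comm]
  rw [hD, symm_sum]
  · congr 1
    rw [Finset.mul_sum]
    refine Finset.sum_congr rfl fun i _ => ?_
    rw [Finset.mul_sum, Finset.mul_sum]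
    refine Finset.sum_congr rfl fun j _ => ?_
    rw [h2 i j i j]
    ring
  · intro i l
    congr 1
    refine Finset.sum_congr rfl fun j _ => ?_
    rw [← h3 i j j l, h1 l j i j, h2 l j j i]
    ring

theorem expand4 {ι : Type*} [Fintype ι] (a c : ι → ι → ℝ) :
    (∑ B, ∑ C, a B C) * (∑ D, ∑ E, c D E) = ∑ B, ∑ C, ∑ D, ∑ E, a B C * c D E := by
  simp only [Finset.sum_mul]
  simp only [Finset.mul_sum]

theorem sum5 {ι κ : Type*} [Fintype ι] [Fintype κ] {V : Type*} [AddCommMonoid V]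
    (f : κ → ι → ι → ι → ι → V) :
    ∑ A, ∑ B, ∑ C, ∑ D, ∑ E, f A B C D E = ∑ B, ∑ C, ∑ D, ∑ E, ∑ A, f A B C D E := by
  rw [Finset.sum_comm]
  refine Finset.sum_congr rfl fun B _ => ?_
  rw [Finset.sum_comm]
  refine Finset.sum_congr rfl fun C _ => ?_
  rw [Finset.sum_comm]
  refine Finset.sum_congr rfl fun D _ => ?_
  rw [Finset.sum_comm]

theorem struct_bianchi (b : ColorBasis N) (B C D E : Fin (N ^ 2 - 1)) :
    ∑ A, (b.structConst A B C * b.structConst A D E + b.structConst A B D * b.structConst A E C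
      + b.structConst A B E * b.structConst A C D) = 0 := by
  have h := jacobi b C D E B
  rw [← neg_eq_zero, ← h, ← Finset.sum_neg_distrib]
  refine Finset.sum_congr rfl fun A _ => ?_
  rw [← f_cyc b A C D, ← f_cyc b A D E, ← f_cyc b A E C, f_swap23 b A B E, f_swap23 b A B C,
    f_swap23 b A B D]
  ring

/-- `Σ_A [x_i,x_j]^A [x_k,x_l]^A` is of curvature type (Jacobi). -/
theorem ybr_bianchi (b : ColorBasis N) (x : Cfg N) (i j k l : Fin 9) :
    ∑ A, ybr b i j A x * ybr b k l A x + ∑ A, ybr b i k A x * ybr b l j A x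
      + ∑ A, ybr b i l A x * ybr b j k A x = 0 := by
  have key : ∀ i j k l : Fin 9, ∑ A, ybr b i j A x * ybr b k l A x
      = ∑ B, ∑ C, ∑ D, ∑ E, x (i, B) * x (j, C) * x (k, D) * x (l, E) *
        ∑ A, b.structConst A B C * b.structConst A D E := by
    intro i j k l
    unfold ybr
    simp only [expand4]
    rw [sum5]
    refine Finset.sum_congr rfl fun B _ => Finset.sum_congr rfl fun C _ =>
      Finset.sum_congr rfl fun D _ => Finset.sum_congr rfl fun E _ => ?_
    rw [Finset.mul_sum]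
    refine Finset.sum_congr rfl fun A _ => ?_
    ring
  rw [key, key, key]
  have e2 : ∑ B, ∑ C, ∑ D, ∑ E, x (i, B) * x (k, C) * x (l, D) * x (j, E) *
        ∑ A, b.structConst A B C * b.structConst A D E
      = ∑ B, ∑ C, ∑ D, ∑ E, x (i, B) * x (j, C) * x (k, D) * x (l, E) *
        ∑ A, b.structConst A B D * b.structConst A E C := by
    refine Finset.sum_congr rfl fun B _ => ?_
    rw [← cyc3]
    refine Finset.sum_congr rfl fun C _ => Finset.sum_congr rfl fun D _ =>
      Finset.sum_congr rfl fun E _ => ?_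
    ring
  have e3 : ∑ B, ∑ C, ∑ D, ∑ E, x (i, B) * x (l, C) * x (j, D) * x (k, E) *
        ∑ A, b.structConst A B C * b.structConst A D E
      = ∑ B, ∑ C, ∑ D, ∑ E, x (i, B) * x (j, C) * x (k, D) * x (l, E) *
        ∑ A, b.structConst A B E * b.structConst A C D := by
    refine Finset.sum_congr rfl fun B _ => ?_
    rw [← cyc3 (fun C D E => x (i, B) * x (j, C) * x (k, D) * x (l, E) *
        ∑ A, b.structConst A B E * b.structConst A C D)]
    refine Finset.sum_congr rfl fun C _ => Finset.sum_congr rfl fun D _ =>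
      Finset.sum_congr rfl fun E _ => ?_
    ring
  rw [e2, e3]
  simp only [← Finset.sum_add_distrib, ← mul_add, struct_bianchi, mul_zero,
    Finset.sum_const_zero]

/-- `Σ_ij [x_i,x_j]^A γ^iγ^j`. -/
def Ym (b : ColorBasis N) (G : GammaNine) (x : Cfg N) (A : Fin (N ^ 2 - 1)) :
    Matrix (Fin 16) (Fin 16) ℝ :=
  ∑ i, ∑ j, ybr b i j A x • (G.γ i * G.γ j)

theorem Ym_eq (b : ColorBasis N) (G : GammaNine) (x : Cfg N) (A : Fin (N ^ 2 - 1)) :
    Ym b G x A = ∑ i, ∑ j, ybr b i j A x • G.γ2 i j := by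
  have h : ∑ i, ∑ j, ybr b i j A x • (G.γ j * G.γ i) = - Ym b G x A := by
    unfold Ym
    rw [Finset.sum_comm, ← Finset.sum_neg_distrib]
    refine Finset.sum_congr rfl fun i _ => ?_
    rw [← Finset.sum_neg_distrib]
    refine Finset.sum_congr rfl fun j _ => ?_
    rw [ybr_swap b i j, neg_smul]
  have h2 : ∑ i, ∑ j, ybr b i j A x • G.γ2 i j = (1 / 2 : ℝ) • (Ym b G x A
      - ∑ i, ∑ j, ybr b i j A x • (G.γ j * G.γ i)) := by
    unfold Ym GammaNine.γ2
    rw [← Finset.sum_sub_distrib, Finset.smul_sum]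
    refine Finset.sum_congr rfl fun i _ => ?_
    rw [← Finset.sum_sub_distrib, Finset.smul_sum]
    refine Finset.sum_congr rfl fun j _ => ?_
    rw [← smul_sub, smul_comm]
  rw [h2, h, sub_neg_eq_add, ← two_smul ℝ (Ym b G x A), smul_smul]
  norm_num

theorem wco_eq_Ym (b : ColorBasis N) (G : GammaNine) (α β : Fin 16) (A : Fin (N ^ 2 - 1))
    (x : Cfg N) : wco b G α β A x = (1 / 2) * Ym b G x A α β := by
  rw [wco_eq_ybr, Ym_eq]
  simp only [Matrix.sum_apply, Matrix.smul_apply, smul_eq_mul]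

theorem Ym_transpose (b : ColorBasis N) (G : GammaNine) (x : Cfg N) (A : Fin (N ^ 2 - 1)) :
    (Ym b G x A)ᵀ = - Ym b G x A := by
  rw [Ym_eq]
  simp only [Matrix.transpose_sum, Matrix.transpose_smul, g2_transpose, smul_neg,
    Finset.sum_neg_distrib]

theorem Ym_sq (b : ColorBasis N) (G : GammaNine) (x : Cfg N) :
    ∑ A, Ym b G x A * Ym b G x A
      = (-2 * ∑ A, ∑ i, ∑ j, (ybr b i j A x) ^ 2) • (1 : Matrix (Fin 16) (Fin 16) ℝ) := by
  have h := curvature G (fun i j k l => ∑ A, ybr b i j A x * ybr b k l A x)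
    (fun i j k l => by
      rw [← Finset.sum_neg_distrib]
      exact Finset.sum_congr rfl fun A _ => by rw [ybr_swap b i j]; ring)
    (fun i j k l => by
      rw [← Finset.sum_neg_distrib]
      exact Finset.sum_congr rfl fun A _ => by rw [ybr_swap b k l]; ring)
    (fun i j k l => Finset.sum_congr rfl fun A _ => by ring)
    (fun i j k l => ybr_bianchi b x i j k l)
  have e1 : ∑ A, Ym b G x A * Ym b G x A = ∑ i, ∑ j, ∑ k, ∑ l,
      (∑ A, ybr b i j A x * ybr b k l A x) • (G.γ i * G.γ j * G.γ k * G.γ l) := by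
    simp only [Finset.sum_smul]
    rw [← sum5]
    refine Finset.sum_congr rfl fun A _ => ?_
    unfold Ym
    simp only [Finset.sum_mul]
    simp only [Finset.mul_sum]
    refine Finset.sum_congr rfl fun i _ => Finset.sum_congr rfl fun j _ =>
      Finset.sum_congr rfl fun k _ => Finset.sum_congr rfl fun l _ => ?_
    rw [smul_mul_smul_comm]
    simp only [mul_assoc]
  rw [e1, h]
  congr 2
  rw [Finset.sum_congr rfl fun i _ => Finset.sum_comm, Finset.sum_comm]
  refine Finset.sum_congr rfl fun A _ => Finset.sum_congr rfl fun i _ =>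
    Finset.sum_congr rfl fun j _ => ?_
  ring

/-- Potential of the `m = 0` charges (coefficient of `g²`): `(1/4) Σ ([x_i,x_j]^A)²`. -/
def V0 (b : ColorBasis N) (x : Cfg N) : ℝ := (1 / 4) * ∑ A, ∑ i, ∑ j, (ybr b i j A x) ^ 2

theorem zero_wco (b : ColorBasis N) (G : GammaNine) (α β : Fin 16) (x : Cfg N) :
    ∑ A, ∑ γ, wco b G α γ A x * wco b G β γ A x = if α = β then 2 * V0 b x else 0 := by
  have h1 : ∀ A, ∑ γ, wco b G α γ A x * wco b G β γ A x
      = - (1 / 4) * (Ym b G x A * Ym b G x A) α β := by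
    intro A
    rw [Matrix.mul_apply, Finset.mul_sum]
    refine Finset.sum_congr rfl fun γ _ => ?_
    have h := congrFun (congrFun (Ym_transpose b G x A) γ) β
    rw [Matrix.transpose_apply, Matrix.neg_apply] at h
    rw [wco_eq_Ym, wco_eq_Ym, h]
    ring
  rw [Finset.sum_congr rfl fun A _ => h1 A, ← Finset.mul_sum]
  have h2 := congrFun (congrFun (Ym_sq b G x) α) β
  rw [Matrix.sum_apply, Matrix.smul_apply, Matrix.one_apply] at h2
  rw [h2]
  unfold V0
  split_ifs
  · rw [smul_eq_mul]; ring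
  · simp

/-! ### The fermionic term -/

/-- `Θ^E_cd v = Σ f_BAE θ_c^A θ_d^B v`. -/
def ThE (b : ColorBasis N) (M : FermionRep N F) (E : Fin (N ^ 2 - 1)) (c d : Fin 16) (v : F) :
    F := ∑ A, ∑ B, (b.structConst B A E : ℂ) • M.θ c A (M.θ d B v)

theorem ThE_symm (b : ColorBasis N) (M : FermionRep N F) (E : Fin (N ^ 2 - 1)) (c d : Fin 16)
    (v : F) : ThE b M E c d v = ThE b M E d c v := by
  unfold ThE
  have h : ∀ A B, (b.structConst B A E : ℂ) • M.θ c A (M.θ d B v)
      = (b.structConst A B E : ℂ) • M.θ d B (M.θ c A v) := by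
    intro A B
    have h1 := anticomm_apply M c d A B v
    rw [f_swap12 b A B E]
    by_cases hAB : A = B
    · subst hAB
      rw [f_self12]
      simp
    · have h2 : ¬ (c = d ∧ A = B) := fun h => hAB h.2
      rw [if_neg h2] at h1
      rw [eq_neg_of_add_eq_zero_left h1, Complex.ofReal_neg, neg_smul, smul_neg, neg_neg]
  simp only [h]
  exact Finset.sum_comm

theorem hasFDerivAt_coord (k : Fin 9 × Fin (N ^ 2 - 1)) (x : Cfg N) :
    HasFDerivAt (fun y : Cfg N => y k) (EuclideanSpace.proj k : Cfg N →L[ℝ] ℝ) x :=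
  (EuclideanSpace.proj k : Cfg N →L[ℝ] ℝ).hasFDerivAt

/-- derivative of the potential coefficients -/
theorem pd_wco (b : ColorBasis N) (G : GammaNine) (β d : Fin 16) (B : Fin (N ^ 2 - 1))
    (i : Fin 9) (A : Fin (N ^ 2 - 1)) (x : Cfg N) :
    pd (wco b G β d B) (i, A) x
      = ∑ l, ∑ E, b.structConst B A E * x (l, E) * G.γ2 i l β d := by
  have h : HasFDerivAt (wco b G β d B) (∑ D, ∑ E, ∑ j, ∑ l,
      ((1 / 2 * b.structConst B D E * G.γ2 j l β d) • (x (j, D) •
        (EuclideanSpace.proj (l, E) : Cfg N →L[ℝ] ℝ)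
        + x (l, E) • (EuclideanSpace.proj (j, D) : Cfg N →L[ℝ] ℝ)))) x := by
    have hw : wco b G β d B = fun y => ∑ D, ∑ E, ∑ j, ∑ l,
        (1 / 2 * b.structConst B D E * G.γ2 j l β d) * (y (j, D) * y (l, E)) := by
      funext y
      unfold wco
      refine Finset.sum_congr rfl fun D _ => Finset.sum_congr rfl fun E _ =>
        Finset.sum_congr rfl fun j _ => Finset.sum_congr rfl fun l _ => ?_
      ring
    rw [hw]
    refine HasFDerivAt.fun_sum fun D _ => HasFDerivAt.fun_sum fun E _ =>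
      HasFDerivAt.fun_sum fun j _ => HasFDerivAt.fun_sum fun l _ => ?_
    exact ((hasFDerivAt_coord (j, D) x).mul (hasFDerivAt_coord (l, E) x)).const_mul _
  unfold pd
  rw [h.fderiv]
  have hp : ∀ (k : Fin 9 × Fin (N ^ 2 - 1)), (EuclideanSpace.proj k : Cfg N →L[ℝ] ℝ)
      (EuclideanSpace.single (i, A) 1) = if k = (i, A) then 1 else 0 := fun k =>
    PiLp.single_apply 2 ℝ (i, A) 1 k
  simp only [_root_.sum_apply, _root_.smul_apply, _root_.add_apply, hp,
    smul_eq_mul, Prod.mk.injEq]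
  have e : ∀ (D E : Fin (N ^ 2 - 1)) (j l : Fin 9),
      1 / 2 * b.structConst B D E * G.γ2 j l β d *
        (x (j, D) * (if l = i ∧ E = A then 1 else 0) + x (l, E) * (if j = i ∧ D = A then 1 else 0))
      = (if l = i then (if E = A then 1 / 2 * b.structConst B D E * G.γ2 j l β d * x (j, D)
          else 0) else 0)
        + (if j = i then (if D = A then 1 / 2 * b.structConst B D E * G.γ2 j l β d * x (l, E)
          else 0) else 0) := by
    intro D E j l
    by_cases h1 : l = i <;> by_cases h2 : E = A <;> by_cases h3 : j = i <;>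
      by_cases h4 : D = A <;> simp [h1, h2, h3, h4] <;> ring_nf
  simp only [e, Finset.sum_add_distrib, Finset.sum_ite_eq', Finset.mem_univ, if_true]
  have e1 : ∑ D : Fin (N ^ 2 - 1), ∑ E : Fin (N ^ 2 - 1), ∑ j : Fin 9,
      (if E = A then 1 / 2 * b.structConst B D E * G.γ2 j i β d * x (j, D) else 0)
      = ∑ l : Fin 9, ∑ E, 1 / 2 * (b.structConst B A E * x (l, E) * G.γ2 i l β d) := by
    rw [Finset.sum_comm]
    rw [Finset.sum_congr rfl fun E _ => Finset.sum_comm]
    rw [Finset.sum_comm]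
    refine Finset.sum_congr rfl fun j _ => ?_
    rw [Finset.sum_comm]
    simp only [Finset.sum_ite_eq', Finset.mem_univ, if_true]
    refine Finset.sum_congr rfl fun E _ => ?_
    rw [g2_swap G i j, Matrix.neg_apply, f_swap23 b B A E]
    ring
  have e2 : ∑ D : Fin (N ^ 2 - 1), ∑ E : Fin (N ^ 2 - 1), ∑ j : Fin 9, ∑ l : Fin 9,
      (if j = i then (if D = A then 1 / 2 * b.structConst B D E * G.γ2 j l β d * x (l, E)
          else 0) else 0)
      = ∑ l : Fin 9, ∑ E, 1 / 2 * (b.structConst B A E * x (l, E) * G.γ2 i l β d) := by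
    have : ∀ D E : Fin (N ^ 2 - 1), ∑ j : Fin 9, ∑ l : Fin 9,
      (if j = i then (if D = A then 1 / 2 * b.structConst B D E * G.γ2 j l β d * x (l, E)
          else 0) else 0)
        = if D = A then ∑ l : Fin 9, 1 / 2 * b.structConst B D E * G.γ2 i l β d * x (l, E)
          else 0 := by
      intro D E
      rw [Finset.sum_comm]
      simp only [Finset.sum_ite_eq', Finset.mem_univ, if_true]
      split_ifs
      · rfl
      · simp
    simp only [this]
    rw [Finset.sum_comm]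
    simp only [Finset.sum_ite_eq', Finset.mem_univ, if_true]
    rw [Finset.sum_comm]
    refine Finset.sum_congr rfl fun l _ => Finset.sum_congr rfl fun E _ => ?_
    ring
  rw [e1, e2, ← Finset.sum_add_distrib]
  refine Finset.sum_congr rfl fun l _ => ?_
  rw [← Finset.sum_add_distrib]
  refine Finset.sum_congr rfl fun E _ => ?_
  ring

theorem vco_dco_expand (M : FermionRep N F) (G : GammaNine) (α : Fin 16)
    (k : Fin 9 × Fin (N ^ 2 - 1)) (w : Fin 16 → Fin (N ^ 2 - 1) → ℝ) (v : F) :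
    dco M G α k (vco M w v)
      = ∑ c, ∑ B, ∑ d, ((G.γ k.1 α c * w d B : ℝ) : ℂ) • M.θ c k.2 (M.θ d B v) := by
  rw [dco_apply]
  refine Finset.sum_congr rfl fun c _ => ?_
  rw [vco_apply, map_sum, Finset.smul_sum]
  refine Finset.sum_congr rfl fun B _ => ?_
  rw [map_sum, Finset.smul_sum]
  refine Finset.sum_congr rfl fun d _ => ?_
  rw [map_smul, smul_smul, Complex.ofReal_mul]

/-- Fermionic term of the anticommutator, before Fierz. -/
theorem ferm_expand (b : ColorBasis N) (M : FermionRep N F) (G : GammaNine) (α β : Fin 16)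
    (x : Cfg N) (v : F) :
    ∑ k, dco M G α k (vco M (fun γ A => pd (wco b G β γ A) k x) v)
      = ∑ l, ∑ E, ∑ c, ∑ d, ((x (l, E) * ∑ i, G.γ i α c * G.γ2 i l β d : ℝ) : ℂ) •
        ThE b M E c d v := by
  have h1 : ∀ i : Fin 9, ∀ A : Fin (N ^ 2 - 1),
      dco M G α (i, A) (vco M (fun γ A' => pd (wco b G β γ A') (i, A) x) v)
      = ∑ l, ∑ E, ∑ c, ∑ d, ((x (l, E) * (G.γ i α c * G.γ2 i l β d) : ℝ) : ℂ) •
        ∑ B, (b.structConst B A E : ℂ) • M.θ c A (M.θ d B v) := by
    intro i A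
    rw [vco_dco_expand]
    simp only [pd_wco, Finset.mul_sum, Finset.smul_sum, Complex.ofReal_sum, Finset.sum_smul]
    -- c, B, d, l, E  ->  l, E, c, d, B
    have e : ∀ f : Fin 16 → Fin (N ^ 2 - 1) → Fin 16 → Fin 9 → Fin (N ^ 2 - 1) → F,
        ∑ c, ∑ B, ∑ d, ∑ l, ∑ E, f c B d l E = ∑ l, ∑ E, ∑ c, ∑ d, ∑ B, f c B d l E := by
      intro f
      have a1 : ∀ c, ∑ B, ∑ d, ∑ l, ∑ E, f c B d l E = ∑ l, ∑ E, ∑ d, ∑ B, f c B d l E := by
        intro c
        rw [Finset.sum_congr rfl fun B _ => Finset.sum_comm, Finset.sum_comm]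
        refine Finset.sum_congr rfl fun l _ => ?_
        rw [Finset.sum_congr rfl fun B _ => Finset.sum_comm, Finset.sum_comm]
        refine Finset.sum_congr rfl fun E _ => ?_
        rw [Finset.sum_comm]
      rw [Finset.sum_congr rfl fun c _ => a1 c, Finset.sum_comm]
      refine Finset.sum_congr rfl fun l _ => ?_
      rw [Finset.sum_comm]
    rw [e]
    refine Finset.sum_congr rfl fun l _ => Finset.sum_congr rfl fun E _ =>
      Finset.sum_congr rfl fun c _ => Finset.sum_congr rfl fun d _ =>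
      Finset.sum_congr rfl fun B _ => ?_
    rw [smul_smul]
    congr 1
    push_cast
    ring
  rw [Fintype.sum_prod_type]
  simp only [h1]
  -- i, A, l, E, c, d, B -> l, E, c, d, (i), A, B
  have e : ∀ f : Fin 9 → Fin (N ^ 2 - 1) → Fin 9 → Fin (N ^ 2 - 1) → Fin 16 → Fin 16 → F,
      ∑ i, ∑ A, ∑ l, ∑ E, ∑ c, ∑ d, f i A l E c d
      = ∑ l, ∑ E, ∑ c, ∑ d, ∑ i, ∑ A, f i A l E c d := by
    intro f
    have a1 : ∀ i, ∑ A, ∑ l, ∑ E, ∑ c, ∑ d, f i A l E c d
        = ∑ l, ∑ E, ∑ c, ∑ d, ∑ A, f i A l E c d := by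
      intro i
      rw [Finset.sum_comm]
      refine Finset.sum_congr rfl fun l _ => ?_
      rw [Finset.sum_comm]
      refine Finset.sum_congr rfl fun E _ => ?_
      rw [Finset.sum_comm]
      refine Finset.sum_congr rfl fun c _ => ?_
      rw [Finset.sum_comm]
    rw [Finset.sum_congr rfl fun i _ => a1 i, Finset.sum_comm]
    refine Finset.sum_congr rfl fun l _ => ?_
    rw [Finset.sum_comm]
    refine Finset.sum_congr rfl fun E _ => ?_
    rw [Finset.sum_comm]
    refine Finset.sum_congr rfl fun c _ => ?_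
    rw [Finset.sum_comm]
  rw [e]
  refine Finset.sum_congr rfl fun l _ => Finset.sum_congr rfl fun E _ =>
    Finset.sum_congr rfl fun c _ => Finset.sum_congr rfl fun d _ => ?_
  unfold ThE
  rw [Finset.mul_sum, Complex.ofReal_sum, Finset.sum_smul]
  refine Finset.sum_congr rfl fun i _ => ?_
  rw [Finset.smul_sum]

/-- Fermionic term of the anticommutator, after Fierz. -/
theorem ferm_wco (b : ColorBasis N) (M : FermionRep N F) (G : GammaNine) (α β : Fin 16)
    (x : Cfg N) (v : F) :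
    ∑ k, (dco M G α k (vco M (fun γ A => pd (wco b G β γ A) k x) v)
        + dco M G β k (vco M (fun γ A => pd (wco b G α γ A) k x) v))
      = (if α = β then ∑ l, ∑ E, ∑ c, ∑ d, ((x (l, E) * G.γ l c d : ℝ) : ℂ) • ThE b M E c d v
          else 0)
        - ∑ l, ∑ E, ∑ c, ((x (l, E) * G.γ l α β : ℝ) : ℂ) • ThE b M E c c v := by
  rw [Finset.sum_add_distrib, ferm_expand, ferm_expand]
  simp only [← Finset.sum_add_distrib]
  have hE : ∀ (l : Fin 9) (E : Fin (N ^ 2 - 1)),
      ∑ c, ∑ d, (((x (l, E) * ∑ i, G.γ i α c * G.γ2 i l β d : ℝ) : ℂ) • ThE b M E c d v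
        + ((x (l, E) * ∑ i, G.γ i β c * G.γ2 i l α d : ℝ) : ℂ) • ThE b M E c d v)
      = (if α = β then ∑ c, ∑ d, ((x (l, E) * G.γ l c d : ℝ) : ℂ) • ThE b M E c d v else 0)
        - ∑ c, ((x (l, E) * G.γ l α β : ℝ) : ℂ) • ThE b M E c c v := by
    intro l E
    let m : Fin 16 → Fin 16 → ℝ := fun c d =>
      ∑ i, (G.γ i α c * G.γ2 i l β d + G.γ i β c * G.γ2 i l α d)
    have hm : ∀ c d, m c d + m d c
        = 2 * ((if α = β then 1 else 0) * G.γ l c d - (if c = d then 1 else 0) * G.γ l α β) := by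
      intro c d
      rw [← fierz_index G l α β c d]
      show ∑ i, (G.γ i α c * G.γ2 i l β d + G.γ i β c * G.γ2 i l α d)
        + ∑ i, (G.γ i α d * G.γ2 i l β c + G.γ i β d * G.γ2 i l α c) = _
      rw [← Finset.sum_add_distrib]
      refine Finset.sum_congr rfl fun i _ => ?_
      ring
    have s1 : ∑ c, ∑ d, (((x (l, E) * ∑ i, G.γ i α c * G.γ2 i l β d : ℝ) : ℂ) • ThE b M E c d v
        + ((x (l, E) * ∑ i, G.γ i β c * G.γ2 i l α d : ℝ) : ℂ) • ThE b M E c d v)
        = ∑ c, ∑ d, ((x (l, E) * m c d : ℝ) : ℂ) • ThE b M E c d v := by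
      refine Finset.sum_congr rfl fun c _ => Finset.sum_congr rfl fun d _ => ?_
      rw [← add_smul, ← Complex.ofReal_add, ← mul_add, ← Finset.sum_add_distrib]
    have s2 : ∑ c, ∑ d, ((x (l, E) * m c d : ℝ) : ℂ) • ThE b M E c d v
        = ∑ c, ∑ d, ((x (l, E) * m d c : ℝ) : ℂ) • ThE b M E c d v := by
      rw [Finset.sum_comm]
      refine Finset.sum_congr rfl fun c _ => Finset.sum_congr rfl fun d _ => ?_
      rw [ThE_symm]
    have s3 : (2 : ℂ) • ∑ c, ∑ d, ((x (l, E) * m c d : ℝ) : ℂ) • ThE b M E c d v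
        = (2 : ℂ) • ((if α = β then ∑ c, ∑ d, ((x (l, E) * G.γ l c d : ℝ) : ℂ) •
          ThE b M E c d v else 0)
        - ∑ c, ((x (l, E) * G.γ l α β : ℝ) : ℂ) • ThE b M E c c v) := by
      rw [two_smul ℂ (∑ c, ∑ d, ((x (l, E) * m c d : ℝ) : ℂ) • ThE b M E c d v)]
      nth_rewrite 2 [s2]
      simp only [← Finset.sum_add_distrib, ← add_smul, ← Complex.ofReal_add, ← mul_add, hm]
      have s4 : ∀ c d : Fin 16, ((x (l, E) * (2 * ((if α = β then 1 else 0) * G.γ l c d
          - (if c = d then 1 else 0) * G.γ l α β)) : ℝ) : ℂ) • ThE b M E c d v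
          = (if α = β then (2 : ℂ) • ((x (l, E) * G.γ l c d : ℝ) : ℂ) • ThE b M E c d v else 0)
          - (if c = d then (2 : ℂ) • ((x (l, E) * G.γ l α β : ℝ) : ℂ) • ThE b M E c d v
              else 0) := by
        intro c d
        by_cases h1 : α = β <;> by_cases h2 : c = d <;> simp only [h1, h2, if_true, if_false,
          smul_smul, ← sub_smul, sub_zero, zero_sub, one_mul, zero_mul, mul_zero,
          ← neg_smul] <;> (try congr 1) <;> push_cast <;> (try ring)
        simp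
      simp only [s4, Finset.sum_sub_distrib, Finset.sum_ite_eq, Finset.mem_univ, if_true,
        smul_sub, Finset.smul_sum]
      congr 1
      split_ifs
      · simp only [Finset.smul_sum]
      · simp
    have s5 := congrArg (fun u : F => (2 : ℂ)⁻¹ • u) s3
    simp only [smul_smul, inv_mul_cancel₀ (two_ne_zero : (2 : ℂ) ≠ 0), one_smul] at s5
    rw [s1, s5]
  simp only [hE, Finset.sum_sub_distrib]
  congr 1
  split_ifs
  · rfl
  · simp

/-! ### The literal algebra of the `m = 0` charges -/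

/-- The gauge vector field `(v_E)_i^A = Σ_B f_ABE x_i^B` (`= -[T_E, x]`). -/
def gvec (b : ColorBasis N) (E : Fin (N ^ 2 - 1)) (x : Cfg N) : Cfg N :=
  WithLp.toLp 2 (fun k => ∑ B, b.structConst k.2 B E * x (k.1, B))

theorem fderiv_gvec (b : ColorBasis N) (φ : Cfg N → F) (E : Fin (N ^ 2 - 1)) (x : Cfg N) :
    fderiv ℝ φ x (gvec b E x)
      = ∑ k : Fin 9 × Fin (N ^ 2 - 1), (∑ B, b.structConst k.2 B E * x (k.1, B)) • pd φ k x := by
  have h : gvec b E x = ∑ k : Fin 9 × Fin (N ^ 2 - 1),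
      (∑ B, b.structConst k.2 B E * x (k.1, B)) • (EuclideanSpace.single k (1 : ℝ)) := by
    ext j
    simp only [WithLp.ofLp_sum, Finset.sum_apply, WithLp.ofLp_smul,
      Pi.smul_apply, smul_eq_mul]
    have hp : ∀ k : Fin 9 × Fin (N ^ 2 - 1), (EuclideanSpace.single k (1 : ℝ) : Cfg N) j
        = if j = k then 1 else 0 := fun k => PiLp.single_apply 2 ℝ k 1 j
    simp only [hp, mul_ite, mul_one, mul_zero, Finset.sum_ite_eq, Finset.mem_univ, if_true]
    rfl
  rw [h, map_sum]
  refine Finset.sum_congr rfl fun k _ => ?_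
  rw [map_smul]
  rfl

/-- The fermionic part of the potential, coefficient of `g`. -/
def Yop (b : ColorBasis N) (M : FermionRep N F) (G : GammaNine) (x : Cfg N) (v : F) : F :=
  (-Complex.I / 2) • ∑ l, ∑ E, ∑ c, ∑ d, ((x (l, E) * G.γ l c d : ℝ) : ℂ) • ThE b M E c d v

/-- The `m = 0` Hamiltonian on smooth functions. -/
def Ham0 (b : ColorBasis N) (M : FermionRep N F) (G : GammaNine) (g : ℝ) (φ : Cfg N → F)
    (x : Cfg N) : F :=
  -((1 / 2 : ℂ) • lap φ x) + ((g ^ 2 * V0 b x : ℝ) : ℂ) • φ x + (g : ℂ) • Yop b M G x (φ x)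

/-- The gauge generator: `J_E φ = i (Dφ(x)[v_E(x)] + (1/2) Σ_c Θ^E_cc φ)`. -/
def Jg (b : ColorBasis N) (M : FermionRep N F) (E : Fin (N ^ 2 - 1)) (φ : Cfg N → F)
    (x : Cfg N) : F :=
  Complex.I • (fderiv ℝ φ x (gvec b E x) + (1 / 2 : ℂ) • ∑ c, ThE b M E c c (φ x))

theorem wpot_zero (b : ColorBasis N) (G : GammaNine) (g : ℝ) :
    wpot b G g 0 = fun α β A x => g * wco b G α β A x := by
  funext α β A x
  unfold wpot wco
  rw [zero_mul, sub_zero]

theorem dcharge_eq_W (b : ColorBasis N) (M : FermionRep N F) (G : GammaNine) (g m : ℝ)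
    (α : Fin 16) (φ : Cfg N → F) :
    dcharge b M G g m α φ = chargeW M G (wpot b G g m) α φ := by
  funext x
  rw [chargeW_apply]
  unfold dcharge kin
  congr 1
  · rw [Fintype.sum_prod_type]
    refine Finset.sum_congr rfl fun i _ => Finset.sum_congr rfl fun A _ => ?_
    rw [dco_apply, Finset.smul_sum]
    refine Finset.sum_congr rfl fun β _ => ?_
    rw [smul_smul]
  · rw [vco_apply]

theorem pd_gwco (b : ColorBasis N) (G : GammaNine) (g : ℝ) (β d : Fin 16) (B : Fin (N ^ 2 - 1))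
    (k : Fin 9 × Fin (N ^ 2 - 1)) (x : Cfg N) :
    pd (fun y => g * wco b G β d B y) k x = g * pd (wco b G β d B) k x := by
  unfold pd
  have h : DifferentiableAt ℝ (wco b G β d B) x :=
    (wco_contDiff b G β d B (n := 1)).differentiable (by norm_num) x
  rw [fderiv_const_mul h]
  rfl

theorem vco_smul (M : FermionRep N F) (g : ℝ) (c : Fin 16 → Fin (N ^ 2 - 1) → ℝ) (v : F) :
    vco M (fun β A => g * c β A) v = (g : ℂ) • vco M c v := by
  simp only [vco_apply, Finset.smul_sum, smul_smul, Complex.ofReal_mul]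

/-- **The supersymmetry algebra at `m = 0`.** -/
theorem dcharge_anti_zero (b : ColorBasis N) (M : FermionRep N F) (G : GammaNine) (g : ℝ)
    (α β : Fin 16) {φ : Cfg N → F} (hφ : ContDiff ℝ 2 φ) (x : Cfg N) :
    dcharge b M G g 0 α (dcharge b M G g 0 β φ) x
        + dcharge b M G g 0 β (dcharge b M G g 0 α φ) x
      = (if α = β then (2 : ℂ) • Ham0 b M G g φ x else 0)
        + ∑ l, ∑ E, ((2 * g * (x (l, E) * G.γ l α β) : ℝ) : ℂ) • Jg b M E φ x := by
  simp only [dcharge_eq_W, wpot_zero]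
  have hW : ∀ δ γ A, DifferentiableAt ℝ (fun y => g * wco b G δ γ A y) x := fun δ γ A =>
    ((wco_contDiff b G δ γ A (n := 1)).differentiable (by norm_num) x).const_mul g
  rw [chargeW_anti hφ α β hW]
  -- potential
  have h0 : ∑ A, ∑ γ, (g * wco b G α γ A x) * (g * wco b G β γ A x)
      = if α = β then 2 * (g ^ 2 * V0 b x) else 0 := by
    have e : ∀ A γ, (g * wco b G α γ A x) * (g * wco b G β γ A x)
        = g ^ 2 * (wco b G α γ A x * wco b G β γ A x) := fun A γ => by ring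
    simp only [e, ← Finset.mul_sum, zero_wco]
    split_ifs <;> ring
  -- first order
  have h1 : ∀ k : Fin 9 × Fin (N ^ 2 - 1), ∑ γ, (G.γ k.1 α γ * (g * wco b G β γ k.2 x)
      + G.γ k.1 β γ * (g * wco b G α γ k.2 x))
      = -2 * g * ∑ l, G.γ l α β * ybr b k.1 l k.2 x := by
    intro k
    have e : ∀ γ, G.γ k.1 α γ * (g * wco b G β γ k.2 x)
      + G.γ k.1 β γ * (g * wco b G α γ k.2 x)
      = g * (G.γ k.1 α γ * wco b G β γ k.2 x + G.γ k.1 β γ * wco b G α γ k.2 x) := fun γ => by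
        ring
    simp only [e, ← Finset.mul_sum, first_wco]
    ring
  have h1' : ∑ k : Fin 9 × Fin (N ^ 2 - 1), (-Complex.I *
      ((∑ γ, (G.γ k.1 α γ * (g * wco b G β γ k.2 x)
        + G.γ k.1 β γ * (g * wco b G α γ k.2 x)) : ℝ) : ℂ)) • pd φ k x
      = ∑ l, ∑ E, ((2 * g * (x (l, E) * G.γ l α β) : ℝ) : ℂ) •
          (Complex.I • fderiv ℝ φ x (gvec b E x)) := by
    simp only [h1, fderiv_gvec]
    have e1 : ∀ k : Fin 9 × Fin (N ^ 2 - 1), (-Complex.I *
        ((-2 * g * ∑ l, G.γ l α β * ybr b k.1 l k.2 x : ℝ) : ℂ)) • pd φ k x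
        = ∑ l, ∑ E, ((2 * g * (x (l, E) * G.γ l α β) : ℝ) : ℂ) • (Complex.I •
          ((∑ B, b.structConst k.2 B E * x (k.1, B)) • pd φ k x)) := by
      intro k
      have e2 : ∀ l, ybr b k.1 l k.2 x
          = ∑ E, x (l, E) * ∑ B, b.structConst k.2 B E * x (k.1, B) := by
        intro l
        unfold ybr
        rw [Finset.sum_comm]
        refine Finset.sum_congr rfl fun E _ => ?_
        rw [Finset.mul_sum]
        refine Finset.sum_congr rfl fun B _ => ?_
        ring
      rw [Finset.mul_sum, Complex.ofReal_sum, Finset.mul_sum, Finset.sum_smul]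
      refine Finset.sum_congr rfl fun l _ => ?_
      rw [e2, Finset.mul_sum, Finset.mul_sum, Complex.ofReal_sum, Finset.mul_sum,
        Finset.sum_smul]
      refine Finset.sum_congr rfl fun E _ => ?_
      rw [← Complex.coe_smul (∑ B, b.structConst k.2 B E * x (k.1, B)), smul_smul, smul_smul]
      congr 1
      push_cast
      ring
    simp only [e1]
    rw [Finset.sum_comm]
    refine Finset.sum_congr rfl fun l _ => ?_
    rw [Finset.sum_comm]
    refine Finset.sum_congr rfl fun E _ => ?_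
    rw [Finset.smul_sum, Finset.smul_sum]
  -- fermionic
  have h2 : ∑ k, (-Complex.I) • (dco M G α k (vco M (fun γ A => pd (fun y =>
        g * wco b G β γ A y) k x) (φ x))
      + dco M G β k (vco M (fun γ A => pd (fun y => g * wco b G α γ A y) k x) (φ x)))
      = (if α = β then (2 : ℂ) • ((g : ℂ) • Yop b M G x (φ x)) else 0)
        + ∑ l, ∑ E, ((2 * g * (x (l, E) * G.γ l α β) : ℝ) : ℂ) •
          (Complex.I • ((1 / 2 : ℂ) • ∑ c, ThE b M E c c (φ x))) := by
    have e1 : ∀ k : Fin 9 × Fin (N ^ 2 - 1), (-Complex.I) • (dco M G α k (vco M (fun γ A =>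
        pd (fun y => g * wco b G β γ A y) k x) (φ x))
      + dco M G β k (vco M (fun γ A => pd (fun y => g * wco b G α γ A y) k x) (φ x)))
      = ((-Complex.I) * (g : ℂ)) • (dco M G α k (vco M (fun γ A => pd (wco b G β γ A) k x) (φ x))
        + dco M G β k (vco M (fun γ A => pd (wco b G α γ A) k x) (φ x))) := by
      intro k
      simp only [pd_gwco, vco_smul, map_smul]
      rw [← smul_add, smul_smul]
    rw [Finset.sum_congr rfl fun k _ => e1 k, ← Finset.smul_sum, ferm_wco, smul_sub]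
    rw [sub_eq_add_neg]
    congr 1
    · split_ifs
      · unfold Yop
        rw [smul_smul, smul_smul]
        congr 1
        ring
      · simp
    · rw [← neg_smul, Finset.smul_sum]
      refine Finset.sum_congr rfl fun l _ => ?_
      rw [Finset.smul_sum]
      refine Finset.sum_congr rfl fun E _ => ?_
      rw [← Finset.smul_sum, smul_smul, smul_smul, smul_smul]
      congr 1
      push_cast
      ring
  rw [h1', h2, h0]
  unfold Ham0 Jg
  simp only [smul_add, Finset.sum_add_distrib]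
  split_ifs with hab
  · have e1 : ((2 * (g ^ 2 * V0 b x) : ℝ) : ℂ) = 2 * ((g ^ 2 * V0 b x : ℝ) : ℂ) := by
      push_cast; ring
    rw [e1]
    module
  · simp only [neg_zero, zero_add, Complex.ofReal_zero, zero_smul, add_zero]
    abel

/-- The square of one charge at `m = 0`. -/
theorem dcharge_sq_zero (b : ColorBasis N) (M : FermionRep N F) (G : GammaNine) (g : ℝ)
    (α : Fin 16) {φ : Cfg N → F} (hφ : ContDiff ℝ 2 φ) (x : Cfg N) :
    dcharge b M G g 0 α (dcharge b M G g 0 α φ) x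
      = Ham0 b M G g φ x + ∑ l, ∑ E, ((g * (x (l, E) * G.γ l α α) : ℝ) : ℂ) • Jg b M E φ x := by
  have h := dcharge_anti_zero b M G g α α hφ x
  rw [if_pos rfl, ← two_smul ℂ] at h
  have h2 : ∑ l, ∑ E, ((2 * g * (x (l, E) * G.γ l α α) : ℝ) : ℂ) • Jg b M E φ x
      = (2 : ℂ) • ∑ l, ∑ E, ((g * (x (l, E) * G.γ l α α) : ℝ) : ℂ) • Jg b M E φ x := by
    rw [Finset.smul_sum]
    refine Finset.sum_congr rfl fun l _ => ?_
    rw [Finset.smul_sum]
    refine Finset.sum_congr rfl fun E _ => ?_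
    rw [smul_smul]
    congr 1
    push_cast
    ring
  rw [h2, ← smul_add] at h
  have h3 := congrArg (fun u : F => (2 : ℂ)⁻¹ • u) h
  simpa only [smul_smul, inv_mul_cancel₀ (two_ne_zero : (2 : ℂ) ≠ 0), one_smul] using h3

/-- The algebra at a point where all gauge generators vanish (core vectors). -/
theorem dcharge_anti_zero_of_gauge (b : ColorBasis N) (M : FermionRep N F) (G : GammaNine)
    (g : ℝ) (α β : Fin 16) {φ : Cfg N → F} (hφ : ContDiff ℝ 2 φ) (x : Cfg N)
    (hJ : ∀ E, Jg b M E φ x = 0) :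
    dcharge b M G g 0 α (dcharge b M G g 0 β φ) x
        + dcharge b M G g 0 β (dcharge b M G g 0 α φ) x
      = if α = β then (2 : ℂ) • Ham0 b M G g φ x else 0 := by
  rw [dcharge_anti_zero b M G g α β hφ x]
  simp only [hJ, smul_zero, Finset.sum_const_zero, add_zero]

end Crest.Agent.R330.Alg2962
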