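import Crest.Agent.R330.Gam_962
import Crest.Agent.R330.Col_962
import Crest.Agent.R330.IBP_837
import Crest.Agent.R330.Defs_478

/-! Row 330, supersymmetry algebra: the anticommutator of two Dirac-type charges. -/

set_option autoImplicit false
set_option linter.unusedSectionVars false

open Matrix Finset
open Crest.MathPhysics.MatrixQM
open Crest.Agent.R330.IBP837 Crest.Agent.R330.Gam962 Crest.Agent.R330.Col962
open Crest.Agent.R330.Defs478
open scoped ContDiff InnerProductSpace

noncomputable section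

namespace Crest.Agent.R330.Alg962

variable {N : ℕ} {F : Type*} [NormedAddCommGroup F] [InnerProductSpace ℂ F]
  [FiniteDimensional ℂ F]

/-! ### Clifford algebra of the fermions -/

theorem anticomm_apply (M : FermionRep N F) (α β : Fin 16) (A B : Fin (N ^ 2 - 1)) (v : F) :
    M.θ α A (M.θ β B v) + M.θ β B (M.θ α A v) = if α = β ∧ A = B then v else 0 := by
  have h := congrArg (fun L : F →ₗ[ℂ] F => L v) (M.anticomm α A β B)
  simp only [LinearMap.add_apply, LinearMap.comp_apply] at h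
  rw [h]
  split_ifs <;> simp

/-- Anticommutator of two real combinations of the generators. -/
theorem vco_anticomm (M : FermionRep N F) (c c' : Fin 16 → Fin (N ^ 2 - 1) → ℝ) (v : F) :
    vco M c (vco M c' v) + vco M c' (vco M c v) =
      ((∑ A, ∑ β, c β A * c' β A : ℝ) : ℂ) • v := by
  have h1 : vco M c (vco M c' v) = ∑ A, ∑ β, ∑ B, ∑ γ, ((c β A * c' γ B : ℝ) : ℂ) •
      M.θ β A (M.θ γ B v) := by
    rw [vco_apply]
    refine Finset.sum_congr rfl fun A _ => Finset.sum_congr rfl fun β _ => ?_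
    rw [vco_apply, map_sum, Finset.smul_sum]
    refine Finset.sum_congr rfl fun B _ => ?_
    rw [map_sum, Finset.smul_sum]
    refine Finset.sum_congr rfl fun γ _ => ?_
    rw [map_smul, smul_smul]
    push_cast
    rfl
  have h2 : vco M c' (vco M c v) = ∑ A, ∑ β, ∑ B, ∑ γ, ((c β A * c' γ B : ℝ) : ℂ) •
      M.θ γ B (M.θ β A v) := by
    have : vco M c' (vco M c v) = ∑ A, ∑ β, ((c β A : ℝ) : ℂ) • vco M c' (M.θ β A v) := by
      conv_lhs => rw [vco_apply M c v, map_sum]
      refine Finset.sum_congr rfl fun A _ => ?_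
      rw [map_sum]
      refine Finset.sum_congr rfl fun β _ => ?_
      rw [map_smul]
    rw [this]
    refine Finset.sum_congr rfl fun A _ => Finset.sum_congr rfl fun β _ => ?_
    rw [vco_apply, Finset.smul_sum]
    refine Finset.sum_congr rfl fun B _ => ?_
    rw [Finset.smul_sum]
    refine Finset.sum_congr rfl fun γ _ => ?_
    rw [smul_smul]
    push_cast
    rfl
  rw [h1, h2]
  simp only [← Finset.sum_add_distrib, ← smul_add, anticomm_apply]
  push_cast
  rw [Finset.sum_smul]
  refine Finset.sum_congr rfl fun A _ => ?_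
  rw [Finset.sum_smul]
  refine Finset.sum_congr rfl fun β _ => ?_
  have h3 : ∀ B : Fin (N ^ 2 - 1), ∀ γ : Fin 16,
      ((c β A : ℂ) * (c' γ B : ℂ)) • (if β = γ ∧ A = B then v else 0)
      = if β = γ then (if A = B then ((c β A : ℂ) * (c' γ B : ℂ)) • v else 0) else 0 := by
    intro B γ
    by_cases h1 : β = γ <;> by_cases h2 : A = B <;> simp [h1, h2]
  simp only [h3, Finset.sum_ite_eq, Finset.mem_univ, if_true]

theorem dco_eq_vco (M : FermionRep N F) (G : GammaNine) (α : Fin 16)
    (k : Fin 9 × Fin (N ^ 2 - 1)) :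
    dco M G α k = vco M (fun β A => if k.2 = A then G.γ k.1 α β else 0) := by
  ext v
  rw [dco_apply, vco_apply]
  have h : ∀ A : Fin (N ^ 2 - 1), ∑ β, (((if k.2 = A then G.γ k.1 α β else 0 : ℝ)) : ℂ) •
      M.θ β A v = if k.2 = A then ∑ β, (G.γ k.1 α β : ℂ) • M.θ β A v else 0 := by
    intro A
    split_ifs <;> simp
  simp only [h, Finset.sum_ite_eq, Finset.mem_univ, if_true]

theorem dco_vco_anticomm (M : FermionRep N F) (G : GammaNine) (α : Fin 16)
    (k : Fin 9 × Fin (N ^ 2 - 1)) (c : Fin 16 → Fin (N ^ 2 - 1) → ℝ) (v : F) :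
    dco M G α k (vco M c v) + vco M c (dco M G α k v) =
      ((∑ β, G.γ k.1 α β * c β k.2 : ℝ) : ℂ) • v := by
  rw [dco_eq_vco, vco_anticomm]
  congr 2
  have h : ∀ A : Fin (N ^ 2 - 1), ∑ β, (if k.2 = A then G.γ k.1 α β else 0) * c β A
      = if k.2 = A then ∑ β, G.γ k.1 α β * c β A else 0 := by
    intro A
    split_ifs <;> simp
  simp only [h, Finset.sum_ite_eq, Finset.mem_univ, if_true]

theorem dco_dco_anticomm (M : FermionRep N F) (G : GammaNine) (α β : Fin 16)
    (k l : Fin 9 × Fin (N ^ 2 - 1)) (v : F) :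
    dco M G α k (dco M G β l v) + dco M G β l (dco M G α k v) =
      ((if l.2 = k.2 then (G.γ k.1 * G.γ l.1) α β else 0 : ℝ) : ℂ) • v := by
  rw [dco_eq_vco M G β l, dco_vco_anticomm]
  congr 2
  split_ifs with h
  · rw [Matrix.mul_apply]
    refine Finset.sum_congr rfl fun γ _ => ?_
    rw [g_symm G l.1 β γ]
  · simp

/-! ### Derivatives of a charge -/

/-- partial derivative -/
def pd {E' : Type*} [NormedAddCommGroup E'] [NormedSpace ℝ E'] (f : Cfg N → E')
    (k : Fin 9 × Fin (N ^ 2 - 1)) (x : Cfg N) : E' :=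
  fderiv ℝ f x (EuclideanSpace.single k 1)

theorem pd_lin (L : F →ₗ[ℂ] F) {f : Cfg N → F} {x : Cfg N} (hf : DifferentiableAt ℝ f x)
    (k : Fin 9 × Fin (N ^ 2 - 1)) : pd (fun y => L (f y)) k x = L (pd f k x) := by
  have h := (((LinearMap.toContinuousLinearMap L).restrictScalars ℝ).hasFDerivAt (x := f x)).comp
    x hf.hasFDerivAt
  have h2 : fderiv ℝ (fun y => L (f y)) x =
      ((LinearMap.toContinuousLinearMap L).restrictScalars ℝ).comp (fderiv ℝ f x) := h.fderiv
  unfold pd
  rw [h2]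
  rfl

theorem diff_lin (L : F →ₗ[ℂ] F) {f : Cfg N → F} {x : Cfg N} (hf : DifferentiableAt ℝ f x) :
    DifferentiableAt ℝ (fun y => L (f y)) x :=
  ((((LinearMap.toContinuousLinearMap L).restrictScalars ℝ).hasFDerivAt (x := f x)).comp
    x hf.hasFDerivAt).differentiableAt

theorem pd_real_smul {r : Cfg N → ℝ} {f : Cfg N → F} {x : Cfg N} (hr : DifferentiableAt ℝ r x)
    (hf : DifferentiableAt ℝ f x) (k : Fin 9 × Fin (N ^ 2 - 1)) :
    pd (fun y => (r y : ℂ) • f y) k x = ((pd r k x : ℝ) : ℂ) • f x + (r x : ℂ) • pd f k x := by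
  have e : (fun y => (r y : ℂ) • f y) = fun y => r y • f y := by
    funext y; exact Complex.coe_smul _ _
  unfold pd
  rw [e]
  have h : fderiv ℝ (fun y => r y • f y) x =
      r x • fderiv ℝ f x + (fderiv ℝ r x).smulRight (f x) := fderiv_fun_smul hr hf
  rw [h, Complex.coe_smul, Complex.coe_smul]
  simp only [ContinuousLinearMap.add_apply, ContinuousLinearMap.smul_apply,
    ContinuousLinearMap.smulRight_apply]
  rw [add_comm]

theorem diff_real_smul {r : Cfg N → ℝ} {f : Cfg N → F} {x : Cfg N}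
    (hr : DifferentiableAt ℝ r x) (hf : DifferentiableAt ℝ f x) :
    DifferentiableAt ℝ (fun y => (r y : ℂ) • f y) x := by
  have e : (fun y => (r y : ℂ) • f y) = fun y => r y • f y := by
    funext y; exact Complex.coe_smul _ _
  rw [e]
  exact hr.smul hf

theorem pd_add {f h : Cfg N → F} {x : Cfg N} (hf : DifferentiableAt ℝ f x)
    (hh : DifferentiableAt ℝ h x) (k : Fin 9 × Fin (N ^ 2 - 1)) :
    pd (fun y => f y + h y) k x = pd f k x + pd h k x := by
  unfold pd
  rw [fderiv_fun_add hf hh]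
  rfl

theorem pd_sum {ι : Type*} (s : Finset ι) {f : ι → Cfg N → F} {x : Cfg N}
    (hf : ∀ i ∈ s, DifferentiableAt ℝ (f i) x) (k : Fin 9 × Fin (N ^ 2 - 1)) :
    pd (fun y => ∑ i ∈ s, f i y) k x = ∑ i ∈ s, pd (f i) k x := by
  unfold pd
  rw [fderiv_fun_sum hf]
  simp

theorem pd_const_smul (c : ℂ) {f : Cfg N → F} {x : Cfg N} (hf : DifferentiableAt ℝ f x)
    (k : Fin 9 × Fin (N ^ 2 - 1)) : pd (fun y => c • f y) k x = c • pd f k x := by
  unfold pd
  rw [fderiv_fun_const_smul hf c]
  rfl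

/-- derivative of a potential term -/
theorem pd_vco (M : FermionRep N F) {W : Fin 16 → Fin (N ^ 2 - 1) → Cfg N → ℝ} {f : Cfg N → F}
    {x : Cfg N} (hW : ∀ β A, DifferentiableAt ℝ (W β A) x) (hf : DifferentiableAt ℝ f x)
    (k : Fin 9 × Fin (N ^ 2 - 1)) :
    pd (fun y => vco M (fun β A => W β A y) (f y)) k x =
      vco M (fun β A => pd (W β A) k x) (f x) + vco M (fun β A => W β A x) (pd f k x) := by
  have h0 : (fun y => vco M (fun β A => W β A y) (f y)) =
      fun y => ∑ A, ∑ β, (W β A y : ℂ) • M.θ β A (f y) := by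
    funext y; rw [vco_apply]
  rw [h0, pd_sum]
  · rw [vco_apply, vco_apply, ← Finset.sum_add_distrib]
    refine Finset.sum_congr rfl fun A _ => ?_
    rw [pd_sum, ← Finset.sum_add_distrib]
    · refine Finset.sum_congr rfl fun β _ => ?_
      rw [pd_real_smul (hW β A) (diff_lin _ hf), pd_lin _ hf]
    · exact fun β _ => diff_real_smul (hW β A) (diff_lin _ hf)
  · intro A _
    exact DifferentiableAt.fun_sum fun β _ => diff_real_smul (hW β A) (diff_lin _ hf)

theorem diff_vco (M : FermionRep N F) {W : Fin 16 → Fin (N ^ 2 - 1) → Cfg N → ℝ} {f : Cfg N → F}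
    {x : Cfg N} (hW : ∀ β A, DifferentiableAt ℝ (W β A) x) (hf : DifferentiableAt ℝ f x) :
    DifferentiableAt ℝ (fun y => vco M (fun β A => W β A y) (f y)) x := by
  have h0 : (fun y => vco M (fun β A => W β A y) (f y)) =
      fun y => ∑ A, ∑ β, (W β A y : ℂ) • M.θ β A (f y) := by
    funext y; rw [vco_apply]
  rw [h0]
  exact DifferentiableAt.fun_sum fun A _ =>
    DifferentiableAt.fun_sum fun β _ => diff_real_smul (hW β A) (diff_lin _ hf)

variable {M : FermionRep N F} {G : GammaNine}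
  {W : Fin 16 → Fin 16 → Fin (N ^ 2 - 1) → Cfg N → ℝ} {φ : Cfg N → F} {x : Cfg N}

theorem chargeW_pd (α : Fin 16) (φ : Cfg N → F) (x : Cfg N) : chargeW M G W α φ x =
    (∑ k, (-Complex.I) • dco M G α k (pd φ k x)) + vco M (fun β A => W α β A x) (φ x) := rfl

theorem diff_pd (hφ : ContDiff ℝ 2 φ) (k : Fin 9 × Fin (N ^ 2 - 1)) :
    Differentiable ℝ (pd φ k) := by
  have h : ContDiff ℝ 1 (fun y => fderiv ℝ φ y (EuclideanSpace.single k 1)) :=
    (hφ.fderiv_right (m := 1) (by norm_num)).clm_apply contDiff_const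
  exact h.differentiable (by norm_num)

theorem pd_comm (hφ : ContDiff ℝ 2 φ) (k l : Fin 9 × Fin (N ^ 2 - 1)) (x : Cfg N) :
    pd (pd φ k) l x = pd (pd φ l) k x := by
  have hs : IsSymmSndFDerivAt ℝ φ x := by
    apply ContDiffAt.isSymmSndFDerivAt (n := 2) hφ.contDiffAt
    simp
  have hd : DifferentiableAt ℝ (fderiv ℝ φ) x :=
    ((hφ.fderiv_right (m := 1) (by norm_num)).differentiable (by norm_num)) x
  have h : ∀ k l, pd (pd φ k) l x = fderiv ℝ (fderiv ℝ φ) x (EuclideanSpace.single l 1)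
      (EuclideanSpace.single k 1) := by
    intro k l
    have e : fderiv ℝ (fun y => fderiv ℝ φ y (EuclideanSpace.single k 1)) x =
        (fderiv ℝ (fderiv ℝ φ) x).flip (EuclideanSpace.single k 1) := by
      have := hd.hasFDerivAt.clm_apply
        (hasFDerivAt_const (EuclideanSpace.single k (1 : ℝ) : Cfg N) x)
      rw [this.fderiv]
      simp
    show fderiv ℝ (fun y => fderiv ℝ φ y (EuclideanSpace.single k 1)) x _ = _
    rw [e]
    rfl
  rw [h, h]
  exact hs.eq _ _

theorem pd_chargeW (hφ : ContDiff ℝ 2 φ) (β : Fin 16)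
    (hW : ∀ γ A, DifferentiableAt ℝ (W β γ A) x) (k : Fin 9 × Fin (N ^ 2 - 1)) :
    pd (chargeW M G W β φ) k x = (∑ l, (-Complex.I) • dco M G β l (pd (pd φ l) k x))
      + (vco M (fun γ A => pd (W β γ A) k x) (φ x) + vco M (fun γ A => W β γ A x) (pd φ k x)) := by
  have hd : Differentiable ℝ φ := hφ.differentiable (by norm_num)
  have h0 : chargeW M G W β φ = fun y => (∑ l, (-Complex.I) • dco M G β l (pd φ l y)) +
      vco M (fun γ A => W β γ A y) (φ y) := rfl
  have h1 : ∀ l, DifferentiableAt ℝ (fun y => dco M G β l (pd φ l y)) x := fun l =>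
    diff_lin _ (diff_pd hφ l x)
  rw [h0, pd_add, pd_vco M hW (hd x), pd_sum]
  · congr 1
    refine Finset.sum_congr rfl fun l _ => ?_
    rw [pd_const_smul _ (h1 l), pd_lin _ (diff_pd hφ l x)]
  · exact fun l _ => (h1 l).const_smul _
  · exact DifferentiableAt.fun_sum fun l _ => (h1 l).const_smul _
  · exact diff_vco M hW (hd x)

/-- Laplacian -/
def lap (φ : Cfg N → F) (x : Cfg N) : F := ∑ k, pd (pd φ k) k x

/-- The product of two Dirac-type charges. -/
theorem chargeW_comp (hφ : ContDiff ℝ 2 φ) (α β : Fin 16)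
    (hW : ∀ γ A, DifferentiableAt ℝ (W β γ A) x) :
    chargeW M G W α (chargeW M G W β φ) x =
      - (∑ k, ∑ l, dco M G α k (dco M G β l (pd (pd φ l) k x)))
      + (∑ k, (-Complex.I) • dco M G α k (vco M (fun γ A => pd (W β γ A) k x) (φ x)))
      + (∑ k, (-Complex.I) • (dco M G α k (vco M (fun γ A => W β γ A x) (pd φ k x))
          + vco M (fun γ A => W α γ A x) (dco M G β k (pd φ k x))))
      + vco M (fun γ A => W α γ A x) (vco M (fun γ A => W β γ A x) (φ x)) := by
  rw [chargeW_pd α (chargeW M G W β φ)]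
  have h1 : ∀ k, (-Complex.I) • dco M G α k (pd (chargeW M G W β φ) k x) =
      - (∑ l, dco M G α k (dco M G β l (pd (pd φ l) k x)))
      + (-Complex.I) • dco M G α k (vco M (fun γ A => pd (W β γ A) k x) (φ x))
      + (-Complex.I) • dco M G α k (vco M (fun γ A => W β γ A x) (pd φ k x)) := by
    intro k
    rw [pd_chargeW hφ β hW, map_add, map_add, smul_add, smul_add, map_sum, Finset.smul_sum,
      ← add_assoc]
    congr 2
    rw [← Finset.sum_neg_distrib]
    refine Finset.sum_congr rfl fun l _ => ?_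
    rw [map_smul, smul_smul, neg_mul_neg, Complex.I_mul_I, neg_one_smul]
  rw [Finset.sum_congr rfl fun k _ => h1 k, Finset.sum_add_distrib, Finset.sum_add_distrib,
    Finset.sum_neg_distrib, chargeW_pd β φ x, map_add, map_sum]
  simp only [smul_add, Finset.sum_add_distrib, map_smul]
  abel

/-- Anticommutator of two Dirac-type charges. -/
theorem chargeW_anti (hφ : ContDiff ℝ 2 φ) (α β : Fin 16)
    (hW : ∀ δ γ A, DifferentiableAt ℝ (W δ γ A) x) :
    chargeW M G W α (chargeW M G W β φ) x + chargeW M G W β (chargeW M G W α φ) x =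
      - (if α = β then lap φ x else 0)
      + (∑ k, (-Complex.I) • (dco M G α k (vco M (fun γ A => pd (W β γ A) k x) (φ x))
          + dco M G β k (vco M (fun γ A => pd (W α γ A) k x) (φ x))))
      + (∑ k, (-Complex.I * ((∑ γ, (G.γ k.1 α γ * W β γ k.2 x + G.γ k.1 β γ * W α γ k.2 x) : ℝ)
          : ℂ)) • pd φ k x)
      + ((∑ A, ∑ γ, W α γ A x * W β γ A x : ℝ) : ℂ) • φ x := by
  rw [chargeW_comp hφ α β (hW β), chargeW_comp hφ β α (hW α)]
  have hkin : (∑ k, ∑ l, dco M G α k (dco M G β l (pd (pd φ l) k x)))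
      + (∑ k, ∑ l, dco M G β k (dco M G α l (pd (pd φ l) k x)))
      = if α = β then lap φ x else 0 := by
    have e1 : (∑ k, ∑ l, dco M G β k (dco M G α l (pd (pd φ l) k x)))
        = ∑ k, ∑ l, dco M G β l (dco M G α k (pd (pd φ l) k x)) := by
      rw [Finset.sum_comm]
      refine Finset.sum_congr rfl fun k _ => Finset.sum_congr rfl fun l _ => ?_
      rw [pd_comm hφ]
    rw [e1, ← Finset.sum_add_distrib]
    simp only [← Finset.sum_add_distrib, dco_dco_anticomm]
    simp only [Fintype.sum_prod_type]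
    -- sum over (i, A), (j, B)
    have e2 : ∀ i : Fin 9, ∀ A : Fin (N ^ 2 - 1), ∀ j : Fin 9,
        ∑ B : Fin (N ^ 2 - 1), ((if B = A then (G.γ i * G.γ j) α β else 0 : ℝ) : ℂ) •
          pd (pd φ (j, B)) (i, A) x = (((G.γ i * G.γ j) α β : ℝ) : ℂ) •
          pd (pd φ (j, A)) (i, A) x := by
      intro i A j
      have : ∀ B : Fin (N ^ 2 - 1), ((if B = A then (G.γ i * G.γ j) α β else 0 : ℝ) : ℂ) •
          pd (pd φ (j, B)) (i, A) x = if B = A then (((G.γ i * G.γ j) α β : ℝ) : ℂ) •
          pd (pd φ (j, B)) (i, A) x else 0 := by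
        intro B
        split_ifs <;> simp
      simp only [this, Finset.sum_ite_eq', Finset.mem_univ, if_true]
    simp only [e2]
    -- symmetrise in i, j
    have e3 : ∀ A : Fin (N ^ 2 - 1), ∑ i : Fin 9, ∑ j : Fin 9,
        (((G.γ i * G.γ j) α β : ℝ) : ℂ) • pd (pd φ (j, A)) (i, A) x
        = if α = β then ∑ i : Fin 9, pd (pd φ (i, A)) (i, A) x else 0 := by
      intro A
      have s1 : ∑ i : Fin 9, ∑ j : Fin 9,
        (((G.γ i * G.γ j) α β : ℝ) : ℂ) • pd (pd φ (j, A)) (i, A) x
        = ∑ i : Fin 9, ∑ j : Fin 9,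
        (((G.γ j * G.γ i) α β : ℝ) : ℂ) • pd (pd φ (j, A)) (i, A) x := by
        rw [Finset.sum_comm]
        refine Finset.sum_congr rfl fun i _ => Finset.sum_congr rfl fun j _ => ?_
        rw [pd_comm hφ]
      have s2 : (2 : ℂ) • ∑ i : Fin 9, ∑ j : Fin 9,
        (((G.γ i * G.γ j) α β : ℝ) : ℂ) • pd (pd φ (j, A)) (i, A) x
        = (2 : ℂ) • (if α = β then ∑ i : Fin 9, pd (pd φ (i, A)) (i, A) x else 0) := by
        rw [two_smul ℂ (∑ i : Fin 9, ∑ j : Fin 9, _)]
        nth_rewrite 2 [s1]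
        simp only [← Finset.sum_add_distrib, ← add_smul]
        have s3 : ∀ i j : Fin 9, (((G.γ i * G.γ j) α β : ℝ) : ℂ) + (((G.γ j * G.γ i) α β : ℝ) : ℂ)
            = if i = j then (if α = β then 2 else 0) else 0 := by
          intro i j
          have := congrFun (congrFun (G.clifford i j) α) β
          rw [Matrix.add_apply] at this
          rw [← Complex.ofReal_add, this]
          by_cases hij : i = j
          · by_cases hab : α = β
            · simp [hij, hab, Matrix.ofNat_apply]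
            · simp [hij, hab, Matrix.ofNat_apply]
          · simp [hij]
        simp only [s3]
        by_cases hab : α = β
        · simp only [hab, if_true, ite_smul, zero_smul, Finset.sum_ite_eq, Finset.mem_univ,
            Finset.smul_sum]
        · simp [hab]
      have s4 := congrArg (fun v : F => (2 : ℂ)⁻¹ • v) s2
      simpa only [smul_smul, inv_mul_cancel₀ (two_ne_zero : (2 : ℂ) ≠ 0), one_smul] using s4
    rw [Finset.sum_congr rfl fun i _ => rfl]
    have e4 : ∑ i : Fin 9, ∑ A : Fin (N ^ 2 - 1), ∑ j : Fin 9,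
        (((G.γ i * G.γ j) α β : ℝ) : ℂ) • pd (pd φ (j, A)) (i, A) x
        = ∑ A : Fin (N ^ 2 - 1), ∑ i : Fin 9, ∑ j : Fin 9,
        (((G.γ i * G.γ j) α β : ℝ) : ℂ) • pd (pd φ (j, A)) (i, A) x := Finset.sum_comm
    rw [e4]
    simp only [e3]
    unfold lap
    rw [Fintype.sum_prod_type]
    by_cases hab : α = β
    · simp only [hab, if_true]
      exact Finset.sum_comm
    · simp [hab]
  have hfo : ∀ k, (dco M G α k (vco M (fun γ A => W β γ A x) (pd φ k x))
          + vco M (fun γ A => W α γ A x) (dco M G β k (pd φ k x)))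
        + (dco M G β k (vco M (fun γ A => W α γ A x) (pd φ k x))
          + vco M (fun γ A => W β γ A x) (dco M G α k (pd φ k x)))
        = ((∑ γ, (G.γ k.1 α γ * W β γ k.2 x + G.γ k.1 β γ * W α γ k.2 x) : ℝ) : ℂ) • pd φ k x := by
    intro k
    have a1 := dco_vco_anticomm M G α k (fun γ A => W β γ A x) (pd φ k x)
    have a2 := dco_vco_anticomm M G β k (fun γ A => W α γ A x) (pd φ k x)
    rw [Finset.sum_add_distrib, Complex.ofReal_add, add_smul, ← a1, ← a2]
    abel
  have hz := vco_anticomm M (fun γ A => W α γ A x) (fun γ A => W β γ A x) (φ x)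
  rw [← hz, ← hkin]
  have hfo2 : (∑ k, (-Complex.I * ((∑ γ, (G.γ k.1 α γ * W β γ k.2 x
        + G.γ k.1 β γ * W α γ k.2 x) : ℝ) : ℂ)) • pd φ k x)
      = (∑ k, (-Complex.I) • (dco M G α k (vco M (fun γ A => W β γ A x) (pd φ k x))
          + vco M (fun γ A => W α γ A x) (dco M G β k (pd φ k x))))
      + (∑ k, (-Complex.I) • (dco M G β k (vco M (fun γ A => W α γ A x) (pd φ k x))
          + vco M (fun γ A => W β γ A x) (dco M G α k (pd φ k x)))) := by
    rw [← Finset.sum_add_distrib]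
    refine Finset.sum_congr rfl fun k _ => ?_
    rw [mul_smul, ← hfo k, smul_add]
  rw [hfo2]
  simp only [smul_add, Finset.sum_add_distrib]
  abel

end Crest.Agent.R330.Alg962
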