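import Mathlib
import Crest.Agent.R335.KRellich

/-!
# Row 330: Rellich compactness for vector-valued smooth compactly supported functions (helper893)

`rellich_local` : a sequence of smooth compactly supported `F`-valued functions on a Euclidean space,
bounded in `H¹`, has a subsequence converging in `L²` of every ball to an `L²` function.

`rellich_conf` : if moreover `∫ W ‖φ n‖²` is bounded with `W → ∞` at infinity, the subsequence converges
in `L²`.
-/

set_option autoImplicit false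
set_option linter.unusedSectionVars false

open MeasureTheory Filter Set
open scoped ENNReal Topology ContDiff InnerProductSpace

noncomputable section
namespace Crest.Agent.R330.Rel893

open Crest.Agent.R335

/-- `eLpNorm` of exponent two as an integral -/
theorem eLpNorm_two_sq {α G : Type*} [MeasurableSpace α] {μ : Measure α} [NormedAddCommGroup G]
    {f : α → G} (hf : MemLp f 2 μ) : eLpNorm f 2 μ = ENNReal.ofReal (Real.sqrt (∫ x, ‖f x‖ ^ 2 ∂μ)) := by
  rw [hf.eLpNorm_eq_integral_rpow_norm (by norm_num) (by norm_num)]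
  congr 1
  simp only [ENNReal.toReal_ofNat, Real.rpow_ofNat]
  rw [Real.sqrt_eq_rpow]
  norm_num

theorem tendsto_eLpNorm_iff {α G : Type*} [MeasurableSpace α] {μ : Measure α} [NormedAddCommGroup G]
    {β : Type*} {l : Filter β} {f : β → α → G} (hf : ∀ n, MemLp (f n) 2 μ) :
    Tendsto (fun n => eLpNorm (f n) 2 μ) l (𝓝 0) ↔ Tendsto (fun n => ∫ x, ‖f n x‖ ^ 2 ∂μ) l (𝓝 0) := by
  have e : (fun n => eLpNorm (f n) 2 μ) = fun n => ENNReal.ofReal (Real.sqrt (∫ x, ‖f n x‖ ^ 2 ∂μ)) :=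
    funext fun n => eLpNorm_two_sq (hf n)
  rw [e]
  have h0 : ∀ n, 0 ≤ ∫ x, ‖f n x‖ ^ 2 ∂μ := fun n => integral_nonneg fun x => by positivity
  constructor
  · intro h
    have h1 := (ENNReal.tendsto_toReal ENNReal.zero_ne_top).comp h
    have h2 : Tendsto (fun n => Real.sqrt (∫ x, ‖f n x‖ ^ 2 ∂μ)) l (𝓝 0) := by
      refine h1.congr fun n => ?_
      exact ENNReal.toReal_ofReal (Real.sqrt_nonneg _)
    have h3 := h2.pow 2
    rw [zero_pow two_ne_zero] at h3
    refine h3.congr fun n => ?_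
    exact Real.sq_sqrt (h0 n)
  · intro h
    have h1 : Tendsto (fun n => Real.sqrt (∫ x, ‖f n x‖ ^ 2 ∂μ)) l (𝓝 0) := by
      have := (Real.continuous_sqrt.tendsto 0).comp h
      rwa [Real.sqrt_zero] at this
    have h2 := ENNReal.tendsto_ofReal h1
    rwa [ENNReal.ofReal_zero] at h2

theorem integrable_norm_sq_of_memLp {α G : Type*} [MeasurableSpace α] {μ : Measure α}
    [NormedAddCommGroup G] {f : α → G} (hf : MemLp f 2 μ) : Integrable (fun x => ‖f x‖ ^ 2) μ :=
  (memLp_two_iff_integrable_sq_norm hf.1).1 hf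

variable {ι : Type*} [Fintype ι]
  {F : Type*} [NormedAddCommGroup F] [InnerProductSpace ℂ F] [FiniteDimensional ℂ F]

local notation "E" => EuclideanSpace ℝ ι

/-- real components of an `F`-valued function: index `(j, b)`, `b = false` real part, `b = true`
imaginary part of the `j`-th coordinate -/
def cmp (F : Type*) [NormedAddCommGroup F] [InnerProductSpace ℂ F] [FiniteDimensional ℂ F]
    (j : Fin (Module.finrank ℂ F)) (b : Bool) : F →L[ℝ] ℝ :=
  (if b then Complex.imCLM else Complex.reCLM).comp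
    ((innerSL ℂ (stdOrthonormalBasis ℂ F j)).restrictScalars ℝ)

theorem cmp_false (j : Fin (Module.finrank ℂ F)) (v : F) :
    cmp F j false v = (⟪stdOrthonormalBasis ℂ F j, v⟫_ℂ).re := by simp [cmp]

theorem cmp_true (j : Fin (Module.finrank ℂ F)) (v : F) :
    cmp F j true v = (⟪stdOrthonormalBasis ℂ F j, v⟫_ℂ).im := by simp [cmp]

theorem sum_cmp_sq (v : F) : ∑ j, ∑ b, (cmp F j b v) ^ 2 = ‖v‖ ^ 2 := by
  have h := (stdOrthonormalBasis ℂ F).sum_sq_norm_inner_right v
  rw [← h]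
  refine Finset.sum_congr rfl fun j _ => ?_
  rw [Fintype.sum_bool, cmp_true, cmp_false, ← Complex.normSq_eq_norm_sq, Complex.normSq_apply]
  ring

theorem cmp_sq_le (j : Fin (Module.finrank ℂ F)) (b : Bool) (v : F) : (cmp F j b v) ^ 2 ≤ ‖v‖ ^ 2 := by
  rw [← sum_cmp_sq v]
  refine (Finset.single_le_sum (f := fun b => (cmp F j b v) ^ 2) (fun _ _ => sq_nonneg _)
    (Finset.mem_univ b)).trans ?_
  exact Finset.single_le_sum (f := fun j => ∑ b, (cmp F j b v) ^ 2)
    (fun _ _ => Finset.sum_nonneg fun _ _ => sq_nonneg _) (Finset.mem_univ j)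

/-- reconstruction from the components -/
def rec' (c : Fin (Module.finrank ℂ F) → Bool → ℝ) : F :=
  ∑ j, ((c j false : ℂ) + (c j true : ℂ) * Complex.I) • stdOrthonormalBasis ℂ F j

theorem cmp_rec (c : Fin (Module.finrank ℂ F) → Bool → ℝ) (j : Fin (Module.finrank ℂ F)) (b : Bool) :
    cmp F j b (rec' c) = c j b := by
  have h : ⟪stdOrthonormalBasis ℂ F j, rec' c⟫_ℂ = (c j false : ℂ) + (c j true : ℂ) * Complex.I := by
    rw [rec', inner_sum, Finset.sum_eq_single j]
    · rw [inner_smul_right, orthonormal_iff_ite.1 (stdOrthonormalBasis ℂ F).orthonormal, if_pos rfl,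
        mul_one]
    · intro i _ hi
      rw [inner_smul_right, orthonormal_iff_ite.1 (stdOrthonormalBasis ℂ F).orthonormal,
        if_neg hi.symm, mul_zero]
    · intro h; exact absurd (Finset.mem_univ _) h
  cases b
  · rw [cmp_false, h]; simp
  · rw [cmp_true, h]; simp

theorem test_cmp {φ : E → F} (hs : ContDiff ℝ ∞ φ) (hc : HasCompactSupport φ)
    (j : Fin (Module.finrank ℂ F)) (b : Bool) : Test univ (fun x => cmp F j b (φ x)) where
  smooth := (cmp F j b).contDiff.comp hs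
  cpt := hc.comp_left (g := fun v => cmp F j b v) (map_zero _)
  sub := subset_univ _

theorem memLp_core {φ : E → F} (hs : ContDiff ℝ ∞ φ) (hc : HasCompactSupport φ) :
    MemLp φ 2 volume := hs.continuous.memLp_of_hasCompactSupport hc

theorem memLp_aux {f g : E → ℝ} (hf : MemLp f 2 volume) (hg : MemLp g 2 volume) (v : F) :
    MemLp (fun x => ((f x : ℂ) + (g x : ℂ) * Complex.I) • v) 2 volume := by
  have h1 : MemLp (fun x => (f x : ℂ)) 2 volume := hf.ofReal
  have h2 : MemLp (fun x => (g x : ℂ) * Complex.I) 2 volume := (hg.ofReal).mul_const Complex.I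
  have h3 : MemLp (fun x => (f x : ℂ) + (g x : ℂ) * Complex.I) 2 volume := h1.add h2
  refine MemLp.of_le_mul (c := ‖v‖) h3 (h3.1.smul_const v) (Filter.Eventually.of_forall fun x => ?_)
  rw [norm_smul, mul_comm]

set_option maxHeartbeats 1000000 in
/-- local Rellich along the hyperfilter -/
theorem rellich_hyper [DecidableEq ι] {φ : ℕ → E → F} (hs : ∀ n, ContDiff ℝ ∞ (φ n))
    (hc : ∀ n, HasCompactSupport (φ n)) {C : ℝ} (h0 : ∀ n, ∫ x, ‖φ n x‖ ^ 2 ≤ C)
    (h1 : ∀ n, ∫ x, ∑ i, ‖fderiv ℝ (φ n) x (EuclideanSpace.single i 1)‖ ^ 2 ≤ C) :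
    ∃ Ψ : E → F, MemLp Ψ 2 volume ∧
      ∀ R : ℝ, Tendsto (fun n => ∫ x in {x : E | ‖x‖ ≤ R}, ‖φ n x - Ψ x‖ ^ 2)
        (hyperfilter ℕ : Filter ℕ) (𝓝 0) := by
  -- components
  have ht : ∀ n j b, Test univ (fun x => cmp F j b (φ n x)) := fun n j b => test_cmp (hs n) (hc n) j b
  have hH : ∀ n j b, H1 (fun x => cmp F j b (φ n x)) (gr fun x => cmp F j b (φ n x)) := fun n j b =>
    H1.of_test (ht n j b)
  have hm : ∀ n, MemLp (φ n) 2 volume := fun n => memLp_core (hs n) (hc n)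
  have hf0 : ∀ n j b, ∫ x, ‖cmp F j b (φ n x)‖ ^ 2 ≤ C := by
    intro n j b
    refine le_trans (integral_mono (integrable_norm_sq_of_memLp (hH n j b).memf)
      (integrable_norm_sq_of_memLp (hm n)) fun x => ?_) (h0 n)
    show ‖cmp F j b (φ n x)‖ ^ 2 ≤ ‖φ n x‖ ^ 2
    rw [Real.norm_eq_abs, sq_abs]
    exact cmp_sq_le j b _
  have hder : ∀ n i, Continuous fun x => fderiv ℝ (φ n) x (EuclideanSpace.single i 1) := fun n i =>
    ((hs n).continuous_fderiv (by simp)).clm_apply continuous_const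
  have hdsupp : ∀ n i, HasCompactSupport fun x => fderiv ℝ (φ n) x (EuclideanSpace.single i (1 : ℝ)) := by
    intro n i
    have := (hc n).fderiv (𝕜 := ℝ)
    exact this.comp_left (g := fun L : E →L[ℝ] F => L (EuclideanSpace.single i (1 : ℝ))) rfl
  have hdint : ∀ n, Integrable fun x => ∑ i, ‖fderiv ℝ (φ n) x (EuclideanSpace.single i 1)‖ ^ 2 := by
    intro n
    refine integrable_finsetSum _ fun i _ => ?_
    exact integrable_norm_sq_of_memLp ((hder n i).memLp_of_hasCompactSupport (hdsupp n i))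
  have hg : ∀ n j b, ∫ x, ‖gr (fun x => cmp F j b (φ n x)) x‖ ^ 2 ≤ C := by
    intro n j b
    refine le_trans (integral_mono (integrable_norm_sq_of_memLp (hH n j b).memg) (hdint n)
      fun x => ?_) (h1 n)
    show ‖gr (fun x => cmp F j b (φ n x)) x‖ ^ 2 ≤ ∑ i, ‖fderiv ℝ (φ n) x (EuclideanSpace.single i 1)‖ ^ 2
    rw [EuclideanSpace.norm_sq_eq]
    refine Finset.sum_le_sum fun i _ => ?_
    rw [gr_apply, Real.norm_eq_abs, sq_abs]
    have hd : DifferentiableAt ℝ (φ n) x := (hs n).differentiable (by simp) x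
    have e : pd i (fun x => cmp F j b (φ n x)) x = cmp F j b (fderiv ℝ (φ n) x (EuclideanSpace.single i 1)) := by
      unfold pd
      have h2 := ((cmp F j b).hasFDerivAt.comp x hd.hasFDerivAt).fderiv
      have h3 : (fun x => cmp F j b (φ n x)) = (cmp F j b) ∘ (φ n) := rfl
      rw [h3, h2]
      rfl
    rw [e]
    exact cmp_sq_le j b _
  -- weak limits of the components
  have hlim : ∀ j b, ∃ f : E → ℝ, MemLp f 2 volume ∧
      ∀ R : ℝ, Tendsto (fun n => ∫ x in {x : E | ‖x‖ ≤ R}, (cmp F j b (φ n x) - f x) ^ 2)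
        (hyperfilter ℕ : Filter ℕ) (𝓝 0) := by
    intro j b
    let G : ℕ → Lp ℝ 2 (volume : Measure E) := fun n => (hH n j b).memf.toLp _
    have hG : ∀ n, ‖G n‖ ≤ Real.sqrt C := by
      intro n
      refine Real.le_sqrt_of_sq_le ?_
      rw [norm_toLp_sq (hH n j b).memf]
      exact hf0 n j b
    obtain ⟨f0, -, hlimf⟩ := exists_weak_limit G hG
    let G' : ℕ → Lp E 2 (volume : Measure E) := fun n => (hH n j b).memg.toLp _
    have hG' : ∀ n, ‖G' n‖ ≤ Real.sqrt C := by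
      intro n
      refine Real.le_sqrt_of_sq_le ?_
      rw [norm_toLp_sq (hH n j b).memg]
      exact hg n j b
    obtain ⟨g0, -, hlimg⟩ := exists_weak_limit G' hG'
    have hfm : MemLp (f0 : E → ℝ) 2 volume := Lp.memLp f0
    have hfe : hfm.toLp (f0 : E → ℝ) = f0 := Lp.toLp_coeFn f0 hfm
    have hgm : MemLp (g0 : E → E) 2 volume := Lp.memLp g0
    have hge : hgm.toLp (g0 : E → E) = g0 := Lp.toLp_coeFn g0 hgm
    have wf : ∀ Φ : E → ℝ, MemLp Φ 2 volume →
        Tendsto (fun n => ∫ x, cmp F j b (φ n x) * Φ x) (hyperfilter ℕ : Filter ℕ)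
          (𝓝 (∫ x, f0 x * Φ x)) := by
      intro Φ hΦ
      have h1 := hlimf (hΦ.toLp Φ)
      have e1 : inner ℝ f0 (hΦ.toLp Φ) = ∫ x, f0 x * Φ x := by
        conv_lhs => rw [← hfe]
        refine (inner_toLp hfm hΦ).trans ?_
        exact integral_congr_ae (Eventually.of_forall fun x => by simp [mul_comm])
      rw [e1] at h1
      refine h1.congr fun n => ?_
      refine (inner_toLp (hH n j b).memf hΦ).trans ?_
      exact integral_congr_ae (Eventually.of_forall fun x => by simp [mul_comm])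
    have wg : ∀ Φ : E → E, MemLp Φ 2 volume →
        Tendsto (fun n => ∫ x, inner ℝ (gr (fun x => cmp F j b (φ n x)) x) (Φ x))
          (hyperfilter ℕ : Filter ℕ) (𝓝 (∫ x, inner ℝ (g0 x) (Φ x))) := by
      intro Φ hΦ
      have h1 := hlimg (hΦ.toLp Φ)
      have e1 : inner ℝ g0 (hΦ.toLp Φ) = ∫ x, inner ℝ (g0 x) (Φ x) := by
        conv_lhs => rw [← hge]
        exact inner_toLp hgm hΦ
      rw [e1] at h1
      exact h1.congr fun n => inner_toLp (hH n j b).memg hΦ
    have hH0 : H1 (f0 : E → ℝ) (g0 : E → E) := by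
      refine ⟨hfm, hgm, ⟨(hfm.locallyIntegrable (by norm_num)).locallyIntegrableOn _,
        (hgm.locallyIntegrable (by norm_num)).locallyIntegrableOn _, fun χ hχ i => ?_⟩⟩
      have hφc : Continuous χ := hχ.smooth.continuous
      have hΦc : Continuous fun x => χ x • (EuclideanSpace.single i (1 : ℝ) : E) :=
        hφc.smul continuous_const
      have hΦm : MemLp (fun x => χ x • (EuclideanSpace.single i (1 : ℝ) : E)) 2 volume :=
        hΦc.memLp_of_hasCompactSupport hχ.cpt.smul_right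
      have hpm : MemLp (pd i χ) 2 volume :=
        (contDiff_pd hχ.smooth i).continuous.memLp_of_hasCompactSupport (hasCompactSupport_pd hχ.cpt i)
      have hinn : ∀ v : E, ∀ x, inner ℝ v (χ x • (EuclideanSpace.single i (1 : ℝ) : E)) = v i * χ x := by
        intro v x
        rw [real_inner_smul_right, EuclideanSpace.inner_single_right]
        simp [mul_comm]
      have h1 := wf _ hpm
      have h2 := (wg _ hΦm).neg
      simp only [hinn] at h2
      refine tendsto_nhds_unique h1 (h2.congr fun n => ?_)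
      rw [(hH n j b).wg.ibp χ hχ i]
    refine ⟨f0, hfm, fun R => ?_⟩
    refine rellich_ball (fun n => hH n j b) hH0 (hg · j b) (fun A hA hA2 => ?_) R
    have h1 := wf (A.indicator fun _ => (1 : ℝ)) (memLp_indicator_const 2 hA 1 (Or.inr hA2.ne))
    have e : ∀ k : E → ℝ, (∫ x, k x * A.indicator (fun _ => (1 : ℝ)) x) = ∫ x in A, k x := by
      intro k
      rw [← integral_indicator hA]
      refine integral_congr_ae (Eventually.of_forall fun x => ?_)
      by_cases hx : x ∈ A <;> simp [hx]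
    simp only [e] at h1
    exact h1
  choose f hf hfR using hlim
  have hΨm : MemLp (fun x => rec' (F := F) fun j b => f j b x) 2 volume := by
    unfold rec'
    refine memLp_finsetSum _ fun j _ => ?_
    exact memLp_aux (hf j false) (hf j true) _
  refine ⟨fun x => rec' fun j b => f j b x, hΨm, fun R => ?_⟩
  have hsum : ∀ n, ∫ x in {x : E | ‖x‖ ≤ R}, ‖φ n x - rec' (fun j b => f j b x)‖ ^ 2 =
      ∑ j, ∑ b, ∫ x in {x : E | ‖x‖ ≤ R}, (cmp F j b (φ n x) - f j b x) ^ 2 := by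
    intro n
    have e : ∀ x, ‖φ n x - rec' (fun j b => f j b x)‖ ^ 2 =
        ∑ j, ∑ b, (cmp F j b (φ n x) - f j b x) ^ 2 := by
      intro x
      rw [← sum_cmp_sq]
      refine Finset.sum_congr rfl fun j _ => Finset.sum_congr rfl fun b _ => ?_
      rw [map_sub, cmp_rec]
    simp only [e]
    have hi : ∀ j b, Integrable (fun x => (cmp F j b (φ n x) - f j b x) ^ 2)
        (volume.restrict {x : E | ‖x‖ ≤ R}) := by
      intro j b
      have h2 := integrable_norm_sq_of_memLp (((hH n j b).memf.sub (hf j b)).restrict {x : E | ‖x‖ ≤ R})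
      refine h2.congr (Eventually.of_forall fun x => ?_)
      show ‖cmp F j b (φ n x) - f j b x‖ ^ 2 = _
      rw [Real.norm_eq_abs, sq_abs]
    rw [integral_finsetSum _ fun j _ => integrable_finsetSum _ fun b _ => hi j b]
    exact Finset.sum_congr rfl fun j _ => integral_finsetSum _ fun b _ => hi j b
  simp only [hsum]
  have h3 : (0 : ℝ) = ∑ j : Fin (Module.finrank ℂ F), ∑ b : Bool, 0 := by simp
  rw [h3]
  exact tendsto_finsetSum _ fun j _ => tendsto_finsetSum _ fun b _ => hfR j b R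

theorem frequently_of_hyper {P : ℕ → Prop} (h : ∀ᶠ n in (hyperfilter ℕ : Filter ℕ), P n) :
    ∃ᶠ n in (atTop : Filter ℕ), P n := by
  intro h1
  have h2 : (hyperfilter ℕ : Filter ℕ) ≤ atTop := by
    rw [← Nat.cofinite_eq_atTop]; exact hyperfilter_le_cofinite
  have h3 := h2 h1
  obtain ⟨n, hn, hn'⟩ := (h.and h3).exists
  exact hn' hn

theorem measurableSet_ball (R : ℝ) : MeasurableSet {x : E | ‖x‖ ≤ R} :=
  measurableSet_le measurable_norm measurable_const

/-- **local Rellich** : a subsequence converges in `L²` of every ball -/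
theorem rellich_local [DecidableEq ι] {φ : ℕ → E → F} (hs : ∀ n, ContDiff ℝ ∞ (φ n))
    (hc : ∀ n, HasCompactSupport (φ n)) {C : ℝ} (h0 : ∀ n, ∫ x, ‖φ n x‖ ^ 2 ≤ C)
    (h1 : ∀ n, ∫ x, ∑ i, ‖fderiv ℝ (φ n) x (EuclideanSpace.single i 1)‖ ^ 2 ≤ C) :
    ∃ (Ψ : E → F) (k : ℕ → ℕ), MemLp Ψ 2 volume ∧ StrictMono k ∧
      ∀ R : ℝ, Tendsto (fun n => ∫ x in {x : E | ‖x‖ ≤ R}, ‖φ (k n) x - Ψ x‖ ^ 2) atTop (𝓝 0) := by
  obtain ⟨Ψ, hΨ, hR⟩ := rellich_hyper hs hc h0 h1
  have hfr : ∀ n : ℕ, ∃ᶠ p in (atTop : Filter ℕ),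
      ∫ x in {x : E | ‖x‖ ≤ (n : ℝ)}, ‖φ p x - Ψ x‖ ^ 2 < 1 / ((n : ℝ) + 1) := by
    intro n
    refine frequently_of_hyper ?_
    exact (hR n).eventually (gt_mem_nhds (by positivity))
  obtain ⟨k, hk, hk2⟩ := extraction_forall_of_frequently hfr
  refine ⟨Ψ, k, hΨ, hk, fun R => ?_⟩
  have hint : ∀ n, Integrable fun x => ‖φ (k n) x - Ψ x‖ ^ 2 := fun n =>
    integrable_norm_sq_of_memLp ((memLp_core (hs _) (hc _)).sub hΨ)
  refine squeeze_zero' (Eventually.of_forall fun n => integral_nonneg fun x => by positivity)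
    ?_ tendsto_one_div_add_atTop_nhds_zero_nat
  obtain ⟨N, hN⟩ := exists_nat_ge R
  filter_upwards [eventually_ge_atTop N] with n hn
  refine le_trans ?_ (hk2 n).le
  refine setIntegral_mono_set (hint n).integrableOn (Eventually.of_forall fun x => by positivity) ?_
  refine Eventually.of_forall fun x hx => ?_
  have hx' : ‖x‖ ≤ R := hx
  show ‖x‖ ≤ (n : ℝ)
  have : (N : ℝ) ≤ n := by exact_mod_cast hn
  linarith

/-- **confining Rellich** : if `∫ W ‖φ n‖²` is bounded and `W → ∞`, a subsequence converges in `L²` -/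
theorem rellich_conf [DecidableEq ι] {φ : ℕ → E → F} (hs : ∀ n, ContDiff ℝ ∞ (φ n))
    (hc : ∀ n, HasCompactSupport (φ n)) {C : ℝ} (h0 : ∀ n, ∫ x, ‖φ n x‖ ^ 2 ≤ C)
    (h1 : ∀ n, ∫ x, ∑ i, ‖fderiv ℝ (φ n) x (EuclideanSpace.single i 1)‖ ^ 2 ≤ C)
    {W : E → ℝ} (hW0 : ∀ x, 0 ≤ W x) (hWi : ∀ n, Integrable fun x => W x * ‖φ n x‖ ^ 2)
    (hW : ∀ n, ∫ x, W x * ‖φ n x‖ ^ 2 ≤ C) (hWt : ∀ M : ℝ, ∃ R : ℝ, ∀ x : E, R < ‖x‖ → M ≤ W x) :
    ∃ (Ψ : E → F) (k : ℕ → ℕ), MemLp Ψ 2 volume ∧ StrictMono k ∧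
      Tendsto (fun n => eLpNorm (φ (k n) - Ψ) 2 volume) atTop (𝓝 0) := by
  obtain ⟨Ψ, k, hΨ, hk, hloc⟩ := rellich_local hs hc h0 h1
  refine ⟨Ψ, k, hΨ, hk, ?_⟩
  have hm : ∀ n, MemLp (φ n) 2 volume := fun n => memLp_core (hs _) (hc _)
  rw [tendsto_eLpNorm_iff fun n => (hm (k n)).sub hΨ]
  have hint : ∀ n, Integrable fun x => ‖φ (k n) x - Ψ x‖ ^ 2 := fun n =>
    integrable_norm_sq_of_memLp ((hm _).sub hΨ)
  have hC : 0 ≤ C := (integral_nonneg fun x => by positivity).trans (h0 0)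
  rw [Metric.tendsto_atTop]
  intro ε hε
  -- tails
  have htail : ∃ R : ℝ, (∀ n, ∫ x in {x : E | ‖x‖ ≤ R}ᶜ, ‖φ n x‖ ^ 2 ≤ ε / 8) ∧
      ∫ x in {x : E | ‖x‖ ≤ R}ᶜ, ‖Ψ x‖ ^ 2 ≤ ε / 8 := by
    obtain ⟨R1, hR1⟩ := hWt (8 * (C + 1) / ε)
    have hΨi := integrable_norm_sq_of_memLp hΨ
    have h2 := tendsto_setIntegral_of_antitone (μ := (volume : Measure E)) (f := fun x => ‖Ψ x‖ ^ 2)
      (s := fun R : ℕ => {x : E | ‖x‖ ≤ (R : ℝ)}ᶜ) (fun R => (measurableSet_ball _).compl)
      (fun R R' hRR x hx => by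
        simp only [mem_compl_iff, mem_ofPred_eq, not_le] at hx ⊢
        have : (R : ℝ) ≤ R' := by exact_mod_cast hRR
        linarith)
      ⟨0, hΨi.integrableOn⟩
    have h3 : (⋂ R : ℕ, {x : E | ‖x‖ ≤ (R : ℝ)}ᶜ) = ∅ := by
      ext x
      simp only [mem_iInter, mem_compl_iff, mem_ofPred_eq, not_le, mem_empty_iff_false, iff_false,
        not_forall, not_lt]
      exact exists_nat_ge ‖x‖
    rw [h3] at h2
    simp only [Measure.restrict_empty, integral_zero_measure] at h2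
    obtain ⟨N, hN⟩ := ((h2.eventually (gt_mem_nhds (show (0 : ℝ) < ε / 8 by positivity))).and
      (eventually_ge_atTop ⌈R1⌉₊)).exists
    refine ⟨N, fun n => ?_, hN.1.le⟩
    have hNR : R1 ≤ (N : ℝ) := (Nat.le_ceil R1).trans (by exact_mod_cast hN.2)
    have h4 : (8 * (C + 1) / ε) * ∫ x in {x : E | ‖x‖ ≤ (N : ℝ)}ᶜ, ‖φ n x‖ ^ 2 ≤ C := by
      rw [← integral_const_mul]
      refine le_trans (setIntegral_mono_on ((integrable_norm_sq_of_memLp (hm n)).integrableOn.const_mul _)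
        (hWi n).integrableOn (measurableSet_ball _).compl fun x hx => ?_) ?_
      · have hx' : (N : ℝ) < ‖x‖ := by simpa using hx
        exact mul_le_mul_of_nonneg_right (hR1 x (hNR.trans_lt hx')) (by positivity)
      · refine le_trans ?_ (hW n)
        exact setIntegral_le_integral (hWi n) (Eventually.of_forall fun x => mul_nonneg (hW0 x) (by positivity))
    have h5 : 0 ≤ ∫ x in {x : E | ‖x‖ ≤ (N : ℝ)}ᶜ, ‖φ n x‖ ^ 2 := integral_nonneg fun x => by positivity
    by_contra hcon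
    push Not at hcon
    have h6 : C + 1 ≤ (8 * (C + 1) / ε) * ∫ x in {x : E | ‖x‖ ≤ (N : ℝ)}ᶜ, ‖φ n x‖ ^ 2 := by
      calc C + 1 = (8 * (C + 1) / ε) * (ε / 8) := by field_simp
        _ ≤ _ := by gcongr
    linarith
  obtain ⟨R, hR1, hR2⟩ := htail
  obtain ⟨N, hN⟩ := Metric.tendsto_atTop.1 (hloc R) (ε / 2) (by positivity)
  refine ⟨N, fun n hn => ?_⟩
  have hN' := hN n hn
  have h0' : 0 ≤ ∫ x in {x : E | ‖x‖ ≤ R}, ‖φ (k n) x - Ψ x‖ ^ 2 := integral_nonneg fun x => by positivity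
  have h0'' : 0 ≤ ∫ x, ‖φ (k n) x - Ψ x‖ ^ 2 := integral_nonneg fun x => by positivity
  have hpe : (∫ x, ‖(φ (k n) - Ψ) x‖ ^ 2) = ∫ x, ‖φ (k n) x - Ψ x‖ ^ 2 := rfl
  rw [Real.dist_eq, sub_zero, abs_of_nonneg h0'] at hN'
  rw [hpe, Real.dist_eq, sub_zero, abs_of_nonneg h0'', ← integral_add_compl (measurableSet_ball R) (hint n)]
  have h7 : ∫ x in {x : E | ‖x‖ ≤ R}ᶜ, ‖φ (k n) x - Ψ x‖ ^ 2 ≤
      2 * (∫ x in {x : E | ‖x‖ ≤ R}ᶜ, ‖φ (k n) x‖ ^ 2) + 2 * ∫ x in {x : E | ‖x‖ ≤ R}ᶜ, ‖Ψ x‖ ^ 2 := by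
    rw [← integral_const_mul, ← integral_const_mul,
      ← integral_add ((integrable_norm_sq_of_memLp (hm _)).integrableOn.const_mul _)
        ((integrable_norm_sq_of_memLp hΨ).integrableOn.const_mul _)]
    exact integral_mono (hint n).integrableOn
      (((integrable_norm_sq_of_memLp (hm _)).integrableOn.const_mul _).add
        ((integrable_norm_sq_of_memLp hΨ).integrableOn.const_mul _))
      fun x => sq_norm_sub_le _ _
  have h8 := hR1 (k n)
  linarith

end Crest.Agent.R330.Rel893
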