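import Crest.Agent.R330.Fib_837
import Crest.Agent.R330.Rellich_893

/-!
Row 330 (helper837): weakly null + bounded in `H¹` + uniformly compact support implies strongly
null; the same for fibre amplitudes; Pythagoras for finite rank fibre projections.
-/

set_option autoImplicit false
set_option linter.unusedSectionVars false
set_option linter.deprecated false
set_option linter.unusedVariables false

noncomputable section

namespace Crest.Agent.R330.Amp837

open MeasureTheory Filter Topology Set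
open scoped ContDiff InnerProductSpace ENNReal
open Crest.Agent.R330.IBP837 Crest.Agent.R330.Fib837 Crest.Agent.R330.Rel893

section Null

variable {κ : Type*} [Fintype κ] [DecidableEq κ]
  {G : Type*} [NormedAddCommGroup G] [InnerProductSpace ℂ G] [FiniteDimensional ℂ G]

local notation "E" => EuclideanSpace ℝ κ

theorem tendsto_inner_of_local {φ : ℕ → E → G} {A χ : E → G} (hφ : ∀ n, MemLp (φ n) 2 volume)
    (hA : MemLp A 2 volume)
    (hloc : ∀ R : ℝ, Tendsto (fun n => ∫ x in {x : E | ‖x‖ ≤ R}, ‖φ n x - A x‖ ^ 2) atTop (𝓝 0))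
    (hχ : Continuous χ) (hc : HasCompactSupport χ) :
    Tendsto (fun n => ∫ x, ⟪φ n x, χ x⟫_ℂ) atTop (𝓝 (∫ x, ⟪A x, χ x⟫_ℂ)) := by
  obtain ⟨R, hR⟩ : ∃ R : ℝ, ∀ x, R < ‖x‖ → χ x = 0 := by
    obtain ⟨R, hR⟩ := hc.isCompact.isBounded.exists_norm_le
    exact ⟨R, fun x hx => by
      by_contra h
      exact absurd (hR x (subset_tsupport _ h)) (not_le.mpr hx)⟩
  have hB : MeasurableSet {x : E | ‖x‖ ≤ R} := measurableSet_ball R
  set B : Set E := {x : E | ‖x‖ ≤ R} with hBdef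
  have hχm : MemLp χ 2 volume := hχ.memLp_of_hasCompactSupport hc
  have e1 : ∀ f : E → G, ∫ x, ⟪f x, χ x⟫_ℂ = ∫ x, ⟪B.indicator f x, χ x⟫_ℂ := by
    intro f
    refine integral_congr_ae (Eventually.of_forall fun x => ?_)
    by_cases hx : x ∈ B
    · simp [Set.indicator_of_mem hx]
    · have : χ x = 0 := hR x (not_le.mp hx)
      simp [this]
  have e2 : (fun n => ∫ x, ⟪φ n x, χ x⟫_ℂ) = fun n => ∫ x, ⟪B.indicator (φ n) x, χ x⟫_ℂ :=
    funext fun n => e1 (φ n)
  rw [e2, e1 A]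
  have hφB : ∀ n, MemLp (B.indicator (φ n)) 2 volume := fun n => (hφ n).indicator hB
  have hAB : MemLp (B.indicator A) 2 volume := hA.indicator hB
  have z : Tendsto (fun _ : ℕ => eLpNorm (χ - χ) 2 (volume : Measure E)) atTop (𝓝 0) := by simp
  refine tendsto_integral_inner hφB hAB (fun _ : ℕ => hχm) hχm ?_ z
  rw [tendsto_eLpNorm_iff fun n => (hφB n).sub hAB]
  refine (hloc R).congr fun n => ?_
  rw [← integral_indicator hB]
  refine integral_congr_ae (Eventually.of_forall fun x => ?_)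
  by_cases hx : x ∈ B
  · have hx' : x ∈ {x : E | ‖x‖ ≤ R} := hx
    simp [Set.indicator_of_mem hx, Set.indicator_of_mem hx']
  · have hx' : x ∉ {x : E | ‖x‖ ≤ R} := hx
    simp [Set.indicator_of_notMem hx, Set.indicator_of_notMem hx']

/-- **weakly null, bounded in `H¹`, uniformly compactly supported ⇒ strongly null** -/
theorem strong_null_of_weak {φ : ℕ → E → G} (hs : ∀ n, ContDiff ℝ ∞ (φ n))
    (hc : ∀ n, HasCompactSupport (φ n)) {C ρ : ℝ} (h0 : ∀ n, ∫ x, ‖φ n x‖ ^ 2 ≤ C)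
    (h1 : ∀ n, ∫ x, ∑ i, ‖fderiv ℝ (φ n) x (EuclideanSpace.single i 1)‖ ^ 2 ≤ C)
    (hρ : ∀ n x, ρ < ‖x‖ → φ n x = 0)
    (hw : ∀ χ : E → G, ContDiff ℝ ∞ χ → HasCompactSupport χ →
      Tendsto (fun n => ∫ x, ⟪φ n x, χ x⟫_ℂ) atTop (𝓝 0)) :
    Tendsto (fun n => ∫ x, ‖φ n x‖ ^ 2) atTop (𝓝 0) := by
  refine tendsto_of_subseq_tendsto fun ns hns => ?_
  obtain ⟨A, k, hA, hk, hloc⟩ := rellich_local (φ := fun n => φ (ns n)) (fun n => hs _)
    (fun n => hc _) (C := C) (fun n => h0 _) (fun n => h1 _)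
  refine ⟨k, ?_⟩
  have hm : ∀ n, MemLp (φ n) 2 volume := fun n =>
    (hs n).continuous.memLp_of_hasCompactSupport (hc n)
  have hA0 : A =ᵐ[volume] 0 := by
    apply ae_zero_of_orth hA
    intro χ hχ hχc
    have t1 := tendsto_inner_of_local (φ := fun n => φ (ns (k n))) (fun n => hm _) hA hloc
      hχ.continuous hχc
    have t2 : Tendsto (fun n => ∫ x, ⟪φ (ns (k n)) x, χ x⟫_ℂ) atTop (𝓝 0) :=
      (hw χ hχ hχc).comp (hns.comp hk.tendsto_atTop)
    exact tendsto_nhds_unique t1 t2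
  refine (hloc ρ).congr fun n => ?_
  have hB : MeasurableSet {x : E | ‖x‖ ≤ ρ} := measurableSet_ball ρ
  rw [← integral_indicator hB]
  refine integral_congr_ae ?_
  filter_upwards [hA0] with x hx
  by_cases hxB : x ∈ {x : E | ‖x‖ ≤ ρ}
  · rw [Set.indicator_of_mem hxB, hx]
    simp
  · rw [Set.indicator_of_notMem hxB, hρ _ _ (not_le.mp hxB)]
    simp

end Null

/-! ### `L²` bounds for amplitudes -/

section AmpL2

variable {X Ω : Type*} [NormedAddCommGroup X] [NormedSpace ℝ X] [FiniteDimensional ℝ X]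
  [MeasurableSpace X] [BorelSpace X]
  [NormedAddCommGroup Ω] [NormedSpace ℝ Ω] [FiniteDimensional ℝ Ω] [MeasurableSpace Ω]
  [BorelSpace Ω] {ν : Measure X} [ν.IsAddHaarMeasure] {μ : Measure Ω} [μ.IsAddHaarMeasure]
  {F : Type*} [NormedAddCommGroup F] [InnerProductSpace ℂ F]

theorem fibre_memLp {Φ : X × Ω → F} (hΦ : Continuous Φ) (hc : HasCompactSupport Φ) (r : X) :
    MemLp (fun w => Φ (r, w)) 2 μ := by
  obtain ⟨K, k, hK, hk, h1, h2⟩ := exists_fibre_supports hc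
  exact (hΦ.comp (by fun_prop : Continuous fun w : Ω => (r, w))).memLp_of_hasCompactSupport
    (HasCompactSupport.intro hk fun w hw => h2 r w hw)

theorem integrable_normSq {Φ : X × Ω → F} (hΦ : Continuous Φ) (hc : HasCompactSupport Φ) :
    Integrable (fun q => ‖Φ q‖ ^ 2) (ν.prod μ) := by
  apply ((continuous_norm.comp hΦ).pow 2).integrable_of_hasCompactSupport
  exact hc.mono' fun x hx => subset_tsupport _ (by intro h0; apply hx; simp [h0])

theorem integral_fibre {Φ : X × Ω → F} (hΦ : Continuous Φ) (hc : HasCompactSupport Φ) :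
    ∫ r, ∫ w, ‖Φ (r, w)‖ ^ 2 ∂μ ∂ν = ∫ q, ‖Φ q‖ ^ 2 ∂(ν.prod μ) :=
  (integral_prod _ (integrable_normSq hΦ hc)).symm

/-- `∫ |a|² ≤ C ∫ ‖Φ‖²` if the fibre norms of `Ψ` are bounded by `C` where `Φ` lives -/
theorem integral_amp_sq_le {Ψ Φ : X × Ω → F} (hΨ : Continuous Ψ) (hΦ : Continuous Φ)
    (hc : HasCompactSupport Φ) {C : ℝ} (hC : 0 ≤ C)
    (hΨ2 : ∀ r, (∃ w, Φ (r, w) ≠ 0) → MemLp (fun w => Ψ (r, w)) 2 μ ∧
      ∫ w, ‖Ψ (r, w)‖ ^ 2 ∂μ ≤ C) :
    ∫ r, ‖amp μ Ψ Φ r‖ ^ 2 ∂ν ≤ C * ∫ q, ‖Φ q‖ ^ 2 ∂(ν.prod μ) := by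
  rw [← integral_fibre hΦ hc, ← integral_const_mul]
  have hpt : ∀ r, ‖amp μ Ψ Φ r‖ ^ 2 ≤ C * ∫ w, ‖Φ (r, w)‖ ^ 2 ∂μ := by
    intro r
    by_cases h : ∃ w, Φ (r, w) ≠ 0
    · obtain ⟨h1, h2⟩ := hΨ2 r h
      refine (norm_amp_sq_le r h1 (fibre_memLp hΦ hc r)).trans ?_
      exact mul_le_mul_of_nonneg_right h2 (integral_nonneg fun _ => by positivity)
    · push Not at h
      rw [amp_eq_zero h]
      simp [h]
  have hint : Integrable (fun r => C * ∫ w, ‖Φ (r, w)‖ ^ 2 ∂μ) ν :=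
    (integrable_normSq (ν := ν) (μ := μ) hΦ hc).integral_prod_left.const_mul C
  refine integral_mono_of_nonneg (Eventually.of_forall fun _ => by positivity) hint
    (Eventually.of_forall hpt)

end AmpL2

/-! ### the amplitude theorem -/

section AmpNull

variable {κ : Type*} [Fintype κ] [DecidableEq κ]
  {Ω : Type*} [NormedAddCommGroup Ω] [NormedSpace ℝ Ω] [FiniteDimensional ℝ Ω] [MeasurableSpace Ω]
  [BorelSpace Ω] {μ : Measure Ω} [μ.IsAddHaarMeasure]
  {F : Type*} [NormedAddCommGroup F] [InnerProductSpace ℂ F] [FiniteDimensional ℂ F]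

local notation "E" => EuclideanSpace ℝ κ

/-- fibre amplitudes of an energy bounded sequence: weakly null ⇒ strongly null -/
theorem amp_strong_null {Ψ Φ : ℕ → E × Ω → F} (hΨ : ∀ n, ContDiff ℝ ∞ (Ψ n))
    (hΦ : ∀ n, ContDiff ℝ ∞ (Φ n)) (hc : ∀ n, HasCompactSupport (Φ n)) {C ρ : ℝ}
    (hρ : ∀ n r w, ρ < ‖r‖ → Φ n (r, w) = 0)
    (hΨ2 : ∀ n r, ‖r‖ ≤ ρ → MemLp (fun w => Ψ n (r, w)) 2 μ ∧ ∫ w, ‖Ψ n (r, w)‖ ^ 2 ∂μ ≤ C)
    (hdΨ2 : ∀ n r, ‖r‖ ≤ ρ → ∀ i, MemLp (fun w => fderiv ℝ (Ψ n) (r, w)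
      (EuclideanSpace.single i 1, 0)) 2 μ ∧
      ∫ w, ‖fderiv ℝ (Ψ n) (r, w) (EuclideanSpace.single i 1, 0)‖ ^ 2 ∂μ ≤ C)
    (hΦ2 : ∀ n, ∫ q, ‖Φ n q‖ ^ 2 ∂((volume : Measure E).prod μ) ≤ C)
    (hdΦ2 : ∀ n, ∀ i, ∫ q, ‖fderiv ℝ (Φ n) q (EuclideanSpace.single i 1, 0)‖ ^ 2
      ∂((volume : Measure E).prod μ) ≤ C)
    (hw : ∀ χ : E → ℂ, ContDiff ℝ ∞ χ → HasCompactSupport χ →
      Tendsto (fun n => ∫ x, ⟪amp μ (Ψ n) (Φ n) x, χ x⟫_ℂ) atTop (𝓝 0)) :
    Tendsto (fun n => ∫ x, ‖amp μ (Ψ n) (Φ n) x‖ ^ 2) atTop (𝓝 0) := by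
  have hC : 0 ≤ C := (integral_nonneg fun _ => by positivity).trans (hΦ2 0)
  have hb : ∀ n, ContDiff ℝ 1 (Ψ n) := fun n => (hΨ n).of_le (by norm_num)
  have hb' : ∀ n, ContDiff ℝ 1 (Φ n) := fun n => (hΦ n).of_le (by norm_num)
  have hin : ∀ n r, (∃ w, Φ n (r, w) ≠ 0) → ‖r‖ ≤ ρ := by
    intro n r ⟨w, hw'⟩
    by_contra h
    exact hw' (hρ n r w (not_le.mp h))
  have hdz : ∀ n i r w, ρ < ‖r‖ → fderiv ℝ (Φ n) (r, w) (EuclideanSpace.single i 1, 0) = 0 := by
    intro n i r w hr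
    have hev : Φ n =ᶠ[𝓝 (r, w)] 0 := by
      have ho : IsOpen {q : E × Ω | ρ < ‖q.1‖} :=
        isOpen_lt continuous_const (continuous_norm.comp continuous_fst)
      filter_upwards [ho.mem_nhds hr] with q hq
      exact hρ n q.1 q.2 hq
    rw [hev.fderiv_eq]
    simp
  have hb0 : ∀ n, ∫ x, ‖amp μ (Ψ n) (Φ n) x‖ ^ 2 ≤ C * C := by
    intro n
    refine (integral_amp_sq_le (hΨ n).continuous (hΦ n).continuous (hc n) hC
      (fun r hr => hΨ2 n r (hin n r hr))).trans ?_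
    exact mul_le_mul_of_nonneg_left (hΦ2 n) hC
  have hb1 : ∀ n i, ∫ x, ‖fderiv ℝ (amp μ (Ψ n) (Φ n)) x (EuclideanSpace.single i 1)‖ ^ 2 ≤
      2 * (C * C) + 2 * (C * C) := by
    intro n i
    have hcd : Continuous fun q => fderiv ℝ (Φ n) q (EuclideanSpace.single i (1 : ℝ), (0 : Ω)) :=
      fderiv_apply_continuous (hb' n) _
    have hcs : HasCompactSupport fun q =>
        fderiv ℝ (Φ n) q (EuclideanSpace.single i (1 : ℝ), (0 : Ω)) :=
      hasCompactSupport_fderiv_apply (hc n) _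
    have hcdΨ : Continuous fun q => fderiv ℝ (Ψ n) q (EuclideanSpace.single i (1 : ℝ), (0 : Ω)) :=
      fderiv_apply_continuous (hb n) _
    have e1 : ∫ x, ‖amp μ (Ψ n) (fun q => fderiv ℝ (Φ n) q (EuclideanSpace.single i 1, 0)) x‖ ^ 2
        ≤ C * C := by
      refine (integral_amp_sq_le (hΨ n).continuous hcd hcs hC (fun r hr => ?_)).trans
        (mul_le_mul_of_nonneg_left (hdΦ2 n i) hC)
      refine hΨ2 n r ?_
      obtain ⟨w, hw'⟩ := hr
      by_contra h
      exact hw' (hdz n i r w (not_le.mp h))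
    have e2 : ∫ x, ‖amp μ (fun q => fderiv ℝ (Ψ n) q (EuclideanSpace.single i 1, 0)) (Φ n) x‖ ^ 2
        ≤ C * C :=
      (integral_amp_sq_le hcdΨ (hΦ n).continuous (hc n) hC
        (fun r hr => hdΨ2 n r (hin n r hr) i)).trans (mul_le_mul_of_nonneg_left (hΦ2 n) hC)
    have hI1 : Integrable fun x =>
        ‖amp μ (Ψ n) (fun q => fderiv ℝ (Φ n) q (EuclideanSpace.single i 1, 0)) x‖ ^ 2 := by
      have hcont : Continuous (amp μ (Ψ n)
          (fun q => fderiv ℝ (Φ n) q (EuclideanSpace.single i 1, 0))) := by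
        have := contDiff_amp (μ := μ) (n := 0) (Ψ := Ψ n)
          (Φ := fun q => fderiv ℝ (Φ n) q (EuclideanSpace.single i 1, 0))
          ((hΨ n).of_le (by norm_num)) (contDiff_zero.mpr hcd) hcs
        exact this.continuous
      apply ((continuous_norm.comp hcont).pow 2).integrable_of_hasCompactSupport
      exact (hasCompactSupport_amp (μ := μ) (Ψ := Ψ n) hcs).mono'
        fun x hx => subset_tsupport _ (by intro h0; apply hx; simp [h0])
    have hI2 : Integrable fun x =>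
        ‖amp μ (fun q => fderiv ℝ (Ψ n) q (EuclideanSpace.single i 1, 0)) (Φ n) x‖ ^ 2 := by
      have hcont : Continuous (amp μ
          (fun q => fderiv ℝ (Ψ n) q (EuclideanSpace.single i 1, 0)) (Φ n)) := by
        have := contDiff_amp (μ := μ) (n := 0)
          (Ψ := fun q => fderiv ℝ (Ψ n) q (EuclideanSpace.single i 1, 0)) (Φ := Φ n)
          (contDiff_zero.mpr hcdΨ) ((hΦ n).of_le (by norm_num)) (hc n)
        exact this.continuous
      apply ((continuous_norm.comp hcont).pow 2).integrable_of_hasCompactSupport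
      exact (hasCompactSupport_amp (μ := μ)
        (Ψ := fun q => fderiv ℝ (Ψ n) q (EuclideanSpace.single i 1, 0)) (hc n)).mono'
        fun x hx => subset_tsupport _ (by intro h0; apply hx; simp [h0])
    calc ∫ x, ‖fderiv ℝ (amp μ (Ψ n) (Φ n)) x (EuclideanSpace.single i 1)‖ ^ 2
        ≤ ∫ x, (2 * ‖amp μ (Ψ n)
            (fun q => fderiv ℝ (Φ n) q (EuclideanSpace.single i 1, 0)) x‖ ^ 2 +
            2 * ‖amp μ (fun q => fderiv ℝ (Ψ n) q (EuclideanSpace.single i 1, 0)) (Φ n) x‖ ^ 2) := by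
          refine integral_mono_of_nonneg (Eventually.of_forall fun _ => by positivity)
            ((hI1.const_mul 2).add (hI2.const_mul 2)) (Eventually.of_forall fun x => ?_)
          simp only
          rw [fderiv_amp (hb n) (hb' n) (hc n)]
          have h5 := norm_add_le
            (amp μ (Ψ n) (fun q => fderiv ℝ (Φ n) q (EuclideanSpace.single i 1, 0)) x)
            (amp μ (fun q => fderiv ℝ (Ψ n) q (EuclideanSpace.single i 1, 0)) (Φ n) x)
          have h6 := norm_nonneg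
            (amp μ (Ψ n) (fun q => fderiv ℝ (Φ n) q (EuclideanSpace.single i 1, 0)) x +
            amp μ (fun q => fderiv ℝ (Ψ n) q (EuclideanSpace.single i 1, 0)) (Φ n) x)
          nlinarith [sq_nonneg (‖amp μ (Ψ n)
            (fun q => fderiv ℝ (Φ n) q (EuclideanSpace.single i 1, 0)) x‖ -
            ‖amp μ (fun q => fderiv ℝ (Ψ n) q (EuclideanSpace.single i 1, 0)) (Φ n) x‖)]
      _ = 2 * (∫ x, ‖amp μ (Ψ n)
            (fun q => fderiv ℝ (Φ n) q (EuclideanSpace.single i 1, 0)) x‖ ^ 2) +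
          2 * (∫ x, ‖amp μ (fun q => fderiv ℝ (Ψ n) q (EuclideanSpace.single i 1, 0))
            (Φ n) x‖ ^ 2) := by
          rw [integral_add (hI1.const_mul 2) (hI2.const_mul 2), integral_const_mul,
            integral_const_mul]
      _ ≤ 2 * (C * C) + 2 * (C * C) := by gcongr
  have hsm : ∀ n, ContDiff ℝ ∞ (amp μ (Ψ n) (Φ n)) := fun n =>
    contDiff_amp (n := ⊤) (hΨ n) (hΦ n) (hc n)
  have hcs : ∀ n, HasCompactSupport (amp μ (Ψ n) (Φ n)) := fun n =>
    hasCompactSupport_amp (hc n)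
  refine strong_null_of_weak hsm hcs
    (C := max (C * C) (∑ _i : κ, (2 * (C * C) + 2 * (C * C)))) (ρ := ρ)
    (fun n => (hb0 n).trans (le_max_left _ _)) (fun n => ?_) (fun n x hx => ?_) hw
  · refine le_trans ?_ (le_max_right _ _)
    rw [integral_finset_sum]
    · exact Finset.sum_le_sum fun i _ => hb1 n i
    · intro i _
      have hcont : Continuous fun x =>
          fderiv ℝ (amp μ (Ψ n) (Φ n)) x (EuclideanSpace.single i 1) :=
        fderiv_apply_continuous ((hsm n).of_le (by norm_num)) _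
      apply ((continuous_norm.comp hcont).pow 2).integrable_of_hasCompactSupport
      exact (hasCompactSupport_fderiv_apply (hcs n) (EuclideanSpace.single i 1)).mono'
        fun x hx => subset_tsupport _ (by intro h0; apply hx; simp [h0])
  · exact amp_eq_zero fun w => hρ n x w hx

end AmpNull

end Crest.Agent.R330.Amp837
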