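import Crest.Agent.R330.Amp_406
import Crest.Agent.R330.Amp_837

/-!
Row 330 (helper406): amplitudes with values in a finite dimensional space, leaf `S9-AMP` (G2).

`ampx μ Ψ Φ r = ∫ Ψ(r,w)^† Φ(r,w) dw`, `Ψ(r,w) : Fx →L[ℂ] F`: smoothness, product rule, bounds by the
fibre norms `∫ ‖Ψ(r,w) v‖² dw ≤ C ‖v‖²`, Fubini pairing with test functions, weakly null sequences have
strongly null amplitudes, Pythagoras.
-/

set_option autoImplicit false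
set_option linter.unusedSectionVars false

noncomputable section

namespace Crest.Agent.R330.Amp406

open MeasureTheory Filter Topology Set Crest.Agent.R330.Fib837 Crest.Agent.R330.Amp837
open scoped ContDiff InnerProductSpace ENNReal

section G2

variable {X Ω : Type*} [NormedAddCommGroup X] [NormedSpace ℝ X] [FiniteDimensional ℝ X]
  [MeasurableSpace X] [BorelSpace X]
  [NormedAddCommGroup Ω] [NormedSpace ℝ Ω] [FiniteDimensional ℝ Ω] [MeasurableSpace Ω]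
  [BorelSpace Ω] {ν : Measure X} [ν.IsAddHaarMeasure] {μ : Measure Ω} [μ.IsAddHaarMeasure]
  {F : Type*} [NormedAddCommGroup F] [InnerProductSpace ℂ F] [FiniteDimensional ℂ F]
  {Fx : Type*} [NormedAddCommGroup Fx] [InnerProductSpace ℂ Fx] [FiniteDimensional ℂ Fx]

/-- adjoint of a continuous linear map between finite dimensional spaces -/
def adj (T : Fx →L[ℂ] F) : F →L[ℂ] Fx :=
  haveI : CompleteSpace F := FiniteDimensional.complete ℂ F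
  haveI : CompleteSpace Fx := FiniteDimensional.complete ℂ Fx
  ContinuousLinearMap.adjoint T

theorem inner_adj_right (T : Fx →L[ℂ] F) (v : Fx) (u : F) : ⟪v, adj T u⟫_ℂ = ⟪T v, u⟫_ℂ := by
  have : CompleteSpace F := FiniteDimensional.complete ℂ F
  have : CompleteSpace Fx := FiniteDimensional.complete ℂ Fx
  exact ContinuousLinearMap.adjoint_inner_right T v u

theorem inner_adj_left (T : Fx →L[ℂ] F) (v : Fx) (u : F) : ⟪adj T u, v⟫_ℂ = ⟪u, T v⟫_ℂ := by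
  have : CompleteSpace F := FiniteDimensional.complete ℂ F
  have : CompleteSpace Fx := FiniteDimensional.complete ℂ Fx
  exact ContinuousLinearMap.adjoint_inner_left T v u

theorem continuous_adj : Continuous (adj : (Fx →L[ℂ] F) → (F →L[ℂ] Fx)) := by
  have : CompleteSpace F := FiniteDimensional.complete ℂ F
  have : CompleteSpace Fx := FiniteDimensional.complete ℂ Fx
  exact (ContinuousLinearMap.adjoint : (Fx →L[ℂ] F) ≃ₗᵢ⋆[ℂ] (F →L[ℂ] Fx)).continuous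

/-- the `Fx`-valued amplitude -/
def ampx (μ : Measure Ω) (Ψ : X × Ω → Fx →L[ℂ] F) (Φ : X × Ω → F) (r : X) : Fx :=
  ∫ w, adj (Ψ (r, w)) (Φ (r, w)) ∂μ

variable {Ψ : X × Ω → Fx →L[ℂ] F} {Φ : X × Ω → F}

theorem integrable_ampx (hΨ : Continuous Ψ) (hΦ : Continuous Φ) (hc : HasCompactSupport Φ) (r : X) :
    Integrable (fun w => adj (Ψ (r, w)) (Φ (r, w))) μ := by
  obtain ⟨K, k, hK, hk, h1, h2⟩ := exists_fibre_supports hc
  have hpr : Continuous fun w : Ω => (r, w) := by fun_prop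
  have hcont : Continuous fun w => adj (Ψ (r, w)) (Φ (r, w)) :=
    (continuous_adj.comp (hΨ.comp hpr)).clm_apply (hΦ.comp hpr)
  exact hcont.integrable_of_hasCompactSupport
    (HasCompactSupport.intro hk fun w hw => by rw [h2 r w hw, map_zero])

theorem inner_ampx (hΨ : Continuous Ψ) (hΦ : Continuous Φ) (hc : HasCompactSupport Φ) (r : X)
    (v : Fx) : ⟪v, ampx μ Ψ Φ r⟫_ℂ = amp μ (fun q => Ψ q v) Φ r := by
  have : CompleteSpace Fx := FiniteDimensional.complete ℂ Fx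
  have h := (innerSL ℂ v).integral_comp_comm (integrable_ampx (μ := μ) hΨ hΦ hc r)
  simp only [innerSL_apply_apply] at h
  unfold ampx amp
  rw [← h]
  refine integral_congr_ae (Eventually.of_forall fun w => ?_)
  exact inner_adj_right _ _ _

/-- coordinates -/
theorem ampx_eq_sum (hΨ : Continuous Ψ) (hΦ : Continuous Φ) (hc : HasCompactSupport Φ) (r : X) :
    ampx μ Ψ Φ r = ∑ i, amp μ (fun q => Ψ q (stdOrthonormalBasis ℂ Fx i)) Φ r •
      stdOrthonormalBasis ℂ Fx i := by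
  rw [← (stdOrthonormalBasis ℂ Fx).sum_repr' (ampx μ Ψ Φ r)]
  exact Finset.sum_congr rfl fun i _ => by rw [inner_ampx hΨ hΦ hc]

theorem contDiff_apply {n : WithTop ℕ∞} (hΨ : ContDiff ℝ n Ψ) (v : Fx) :
    ContDiff ℝ n fun q => Ψ q v := by
  have h : ContDiff ℝ n (fun T : Fx →L[ℂ] F => T v) := by
    have h1 : IsBoundedLinearMap ℝ (fun T : Fx →L[ℂ] F => T v) :=
      { map_add := fun S T => rfl
        map_smul := fun c T => rfl
        bound := ⟨‖v‖ + 1, by positivity, fun T => by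
          calc ‖T v‖ ≤ ‖T‖ * ‖v‖ := T.le_opNorm v
            _ ≤ (‖v‖ + 1) * ‖T‖ := by nlinarith [norm_nonneg T]⟩ }
    exact h1.contDiff
  exact h.comp hΨ

theorem fderiv_apply_eq (hΨ : ContDiff ℝ 1 Ψ) (v : Fx) (q e : X × Ω) :
    fderiv ℝ (fun q => Ψ q v) q e = fderiv ℝ Ψ q e v := by
  let ev : (Fx →L[ℂ] F) →L[ℝ] F :=
    { toFun := fun T => T v
      map_add' := fun S T => rfl
      map_smul' := fun c T => rfl
      cont := by fun_prop }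
  have h1 : HasFDerivAt (fun q => Ψ q v) (ev.comp (fderiv ℝ Ψ q)) q :=
    ev.hasFDerivAt.comp q ((hΨ.differentiable (by norm_num)) q).hasFDerivAt
  rw [h1.fderiv]
  rfl

theorem contDiff_ampx {n : ℕ∞} (hΨ : ContDiff ℝ n Ψ) (hΦ : ContDiff ℝ n Φ)
    (hc : HasCompactSupport Φ) : ContDiff ℝ n (ampx μ Ψ Φ) := by
  rw [funext fun r => ampx_eq_sum (μ := μ) hΨ.continuous hΦ.continuous hc r]
  exact ContDiff.sum fun i _ => (contDiff_amp (contDiff_apply hΨ _) hΦ hc).smul contDiff_const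

theorem continuous_ampx (hΨ : Continuous Ψ) (hΦ : Continuous Φ) (hc : HasCompactSupport Φ) :
    Continuous (ampx μ Ψ Φ) := by
  have h1 : ContDiff ℝ ((0 : ℕ∞) : WithTop ℕ∞) Ψ := contDiff_zero.2 hΨ
  have h2 : ContDiff ℝ ((0 : ℕ∞) : WithTop ℕ∞) Φ := contDiff_zero.2 hΦ
  exact (contDiff_ampx h1 h2 hc).continuous

theorem ampx_eq_zero {r : X} (h : ∀ w, Φ (r, w) = 0) : ampx μ Ψ Φ r = 0 := by
  unfold ampx
  simp [h]

theorem hasCompactSupport_ampx (hc : HasCompactSupport Φ) : HasCompactSupport (ampx μ Ψ Φ) := by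
  obtain ⟨K, k, hK, hk, h1, h2⟩ := exists_fibre_supports hc
  exact HasCompactSupport.intro hK fun r hr => ampx_eq_zero (h1 r hr)

theorem hasCompactSupport_dir (hc : HasCompactSupport Φ) (e : X × Ω) :
    HasCompactSupport fun q => fderiv ℝ Φ q e :=
  (hc.fderiv (𝕜 := ℝ)).mono' fun x hx => subset_tsupport _ (by
    intro h0; apply hx; simp [h0])

theorem continuous_dir {G : Type*} [NormedAddCommGroup G] [NormedSpace ℝ G] {H : X × Ω → G}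
    (hH : ContDiff ℝ 1 H) (e : X × Ω) : Continuous fun q => fderiv ℝ H q e :=
  (hH.continuous_fderiv (by norm_num)).clm_apply continuous_const

/-- product rule -/
theorem fderiv_ampx (hΨ : ContDiff ℝ 1 Ψ) (hΦ : ContDiff ℝ 1 Φ) (hc : HasCompactSupport Φ)
    (r e : X) :
    fderiv ℝ (ampx μ Ψ Φ) r e = ampx μ Ψ (fun q => fderiv ℝ Φ q (e, 0)) r +
      ampx μ (fun q => fderiv ℝ Ψ q (e, 0)) Φ r := by
  have hd : Differentiable ℝ (ampx μ Ψ Φ) :=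
    (contDiff_ampx (n := 1) hΨ hΦ hc).differentiable (by norm_num)
  refine ext_inner_left ℂ fun v => ?_
  rw [inner_add_right, inner_ampx hΨ.continuous (continuous_dir hΦ _) (hasCompactSupport_dir hc _),
    inner_ampx (continuous_dir hΨ _) hΦ.continuous hc]
  have h1 : ⟪v, fderiv ℝ (ampx μ Ψ Φ) r e⟫_ℂ = fderiv ℝ (fun r => ⟪v, ampx μ Ψ Φ r⟫_ℂ) r e := by
    rw [fderiv_inner_apply ℂ (differentiableAt_const v) (hd r)]
    simp
  rw [h1, funext fun r => inner_ampx (μ := μ) hΨ.continuous hΦ.continuous hc r v]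
  have h2 := fderiv_amp (μ := μ) (contDiff_apply hΨ v) hΦ hc r e
  rw [h2]
  simp only [fderiv_apply_eq hΨ]

/-- pointwise bound -/
theorem norm_ampx_sq_le (hΨ : Continuous Ψ) (hΦ : Continuous Φ) (hc : HasCompactSupport Φ) (r : X)
    {C : ℝ} (hC0 : 0 ≤ C)
    (hC : ∀ v, MemLp (fun w => Ψ (r, w) v) 2 μ ∧ ∫ w, ‖Ψ (r, w) v‖ ^ 2 ∂μ ≤ C * ‖v‖ ^ 2) :
    ‖ampx μ Ψ Φ r‖ ^ 2 ≤ C * ∫ w, ‖Φ (r, w)‖ ^ 2 ∂μ := by
  set v := ampx μ Ψ Φ r with hv
  have h1 : ‖v‖ ^ 2 = ‖amp μ (fun q => Ψ q v) Φ r‖ := by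
    rw [← inner_ampx hΨ hΦ hc, ← hv, inner_self_eq_norm_sq_to_K]
    simp
  have h2 := norm_amp_sq_le (μ := μ) (Ψ := fun q => Ψ q v) (Φ := Φ) r (hC v).1
    (fibre_memLp hΦ hc r)
  rw [← h1] at h2
  have hB : 0 ≤ ∫ w, ‖Φ (r, w)‖ ^ 2 ∂μ := integral_nonneg fun _ => by positivity
  have h3 : (‖v‖ ^ 2) ^ 2 ≤ (C * ‖v‖ ^ 2) * ∫ w, ‖Φ (r, w)‖ ^ 2 ∂μ :=
    h2.trans (mul_le_mul_of_nonneg_right (hC v).2 hB)
  by_cases hv0 : ‖v‖ ^ 2 = 0
  · rw [hv0]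
    positivity
  · have h4 : 0 < ‖v‖ ^ 2 := lt_of_le_of_ne (by positivity) (Ne.symm hv0)
    have h5 : ‖v‖ ^ 2 * ‖v‖ ^ 2 ≤ (C * ∫ w, ‖Φ (r, w)‖ ^ 2 ∂μ) * ‖v‖ ^ 2 := by nlinarith
    exact le_of_mul_le_mul_right h5 h4


/-- `∫ ‖a‖² ≤ C ∫ ‖Φ‖²` if the fibre norms of `Ψ` are bounded by `C` where `Φ` lives -/
theorem integral_ampx_sq_le (hΨ : Continuous Ψ) (hΦ : Continuous Φ) (hc : HasCompactSupport Φ)
    {C : ℝ} (hC0 : 0 ≤ C) (hC : ∀ r, (∃ w, Φ (r, w) ≠ 0) → ∀ v, MemLp (fun w => Ψ (r, w) v) 2 μ ∧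
      ∫ w, ‖Ψ (r, w) v‖ ^ 2 ∂μ ≤ C * ‖v‖ ^ 2) :
    ∫ r, ‖ampx μ Ψ Φ r‖ ^ 2 ∂ν ≤ C * ∫ q, ‖Φ q‖ ^ 2 ∂(ν.prod μ) := by
  rw [← integral_fibre hΦ hc, ← integral_const_mul]
  have hpt : ∀ r, ‖ampx μ Ψ Φ r‖ ^ 2 ≤ C * ∫ w, ‖Φ (r, w)‖ ^ 2 ∂μ := by
    intro r
    by_cases h : ∃ w, Φ (r, w) ≠ 0
    · exact norm_ampx_sq_le hΨ hΦ hc r hC0 (hC r h)
    · push Not at h
      rw [ampx_eq_zero h, norm_zero, zero_pow two_ne_zero]
      have : 0 ≤ ∫ w, ‖Φ (r, w)‖ ^ 2 ∂μ := integral_nonneg fun _ => by positivity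
      positivity
  refine integral_mono_of_nonneg (Eventually.of_forall fun r => by positivity) ?_
    (Eventually.of_forall hpt)
  exact ((integrable_normSq (ν := ν) (μ := μ) hΦ hc).integral_prod_left).const_mul C

/-- `ampx` of a sum of the two terms of the product rule -/
theorem integral_fderiv_ampx_sq_le (hΨ : ContDiff ℝ 1 Ψ) (hΦ : ContDiff ℝ 1 Φ)
    (hc : HasCompactSupport Φ) (e : X) {C D : ℝ} (hC0 : 0 ≤ C) (hD0 : 0 ≤ D)
    (hC : ∀ r, (∃ w, Φ (r, w) ≠ 0 ∨ fderiv ℝ Φ (r, w) (e, 0) ≠ 0) → ∀ v,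
      MemLp (fun w => Ψ (r, w) v) 2 μ ∧ ∫ w, ‖Ψ (r, w) v‖ ^ 2 ∂μ ≤ C * ‖v‖ ^ 2)
    (hD : ∀ r, (∃ w, Φ (r, w) ≠ 0) → ∀ v,
      MemLp (fun w => fderiv ℝ Ψ (r, w) (e, 0) v) 2 μ ∧
        ∫ w, ‖fderiv ℝ Ψ (r, w) (e, 0) v‖ ^ 2 ∂μ ≤ D * ‖v‖ ^ 2) :
    ∫ r, ‖fderiv ℝ (ampx μ Ψ Φ) r e‖ ^ 2 ∂ν ≤
      2 * C * (∫ q, ‖fderiv ℝ Φ q (e, 0)‖ ^ 2 ∂(ν.prod μ)) +
        2 * D * ∫ q, ‖Φ q‖ ^ 2 ∂(ν.prod μ) := by
  have hc' := hasCompactSupport_dir hc (e, (0 : Ω))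
  have hΦ' := continuous_dir hΦ (e, (0 : Ω))
  have hΨ' := continuous_dir hΨ (e, (0 : Ω))
  have h1 := integral_ampx_sq_le (ν := ν) (μ := μ) hΨ.continuous hΦ' hc' hC0
    (fun r hr => hC r (by obtain ⟨w, hw⟩ := hr; exact ⟨w, Or.inr hw⟩))
  have h2 := integral_ampx_sq_le (ν := ν) (μ := μ) hΨ' hΦ.continuous hc hD0 hD
  have ha1 : Continuous (ampx μ Ψ fun q => fderiv ℝ Φ q (e, 0)) :=
    continuous_ampx hΨ.continuous hΦ' hc'
  have ha2 : Continuous (ampx μ (fun q => fderiv ℝ Ψ q (e, 0)) Φ) :=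
    continuous_ampx hΨ' hΦ.continuous hc
  have hI1 : Integrable (fun r => ‖ampx μ Ψ (fun q => fderiv ℝ Φ q (e, 0)) r‖ ^ 2) ν := by
    apply ((continuous_norm.comp ha1).pow 2).integrable_of_hasCompactSupport
    exact (hasCompactSupport_ampx (μ := μ) (Ψ := Ψ) hc').mono' fun x hx => subset_tsupport _ (by
      intro h0; apply hx; simp [h0])
  have hI2 : Integrable (fun r => ‖ampx μ (fun q => fderiv ℝ Ψ q (e, 0)) Φ r‖ ^ 2) ν := by
    apply ((continuous_norm.comp ha2).pow 2).integrable_of_hasCompactSupport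
    exact (hasCompactSupport_ampx (μ := μ) (Ψ := fun q => fderiv ℝ Ψ q (e, 0)) hc).mono' fun x hx => subset_tsupport _ (by
      intro h0; apply hx; simp [h0])
  calc ∫ r, ‖fderiv ℝ (ampx μ Ψ Φ) r e‖ ^ 2 ∂ν
      ≤ ∫ r, (2 * ‖ampx μ Ψ (fun q => fderiv ℝ Φ q (e, 0)) r‖ ^ 2 +
          2 * ‖ampx μ (fun q => fderiv ℝ Ψ q (e, 0)) Φ r‖ ^ 2) ∂ν := by
        refine integral_mono_of_nonneg (Eventually.of_forall fun r => by positivity)
          ((hI1.const_mul 2).add (hI2.const_mul 2)) (Eventually.of_forall fun r => ?_)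
        simp only
        rw [fderiv_ampx hΨ hΦ hc]
        have := norm_add_le (ampx μ Ψ (fun q => fderiv ℝ Φ q (e, 0)) r)
          (ampx μ (fun q => fderiv ℝ Ψ q (e, 0)) Φ r)
        have h0 := norm_nonneg (ampx μ Ψ (fun q => fderiv ℝ Φ q (e, 0)) r +
          ampx μ (fun q => fderiv ℝ Ψ q (e, 0)) Φ r)
        nlinarith [sq_nonneg (‖ampx μ Ψ (fun q => fderiv ℝ Φ q (e, 0)) r‖ -
          ‖ampx μ (fun q => fderiv ℝ Ψ q (e, 0)) Φ r‖)]
    _ = 2 * (∫ r, ‖ampx μ Ψ (fun q => fderiv ℝ Φ q (e, 0)) r‖ ^ 2 ∂ν) +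
          2 * ∫ r, ‖ampx μ (fun q => fderiv ℝ Ψ q (e, 0)) Φ r‖ ^ 2 ∂ν := by
        rw [integral_add (hI1.const_mul 2) (hI2.const_mul 2), integral_const_mul,
          integral_const_mul]
    _ ≤ _ := by nlinarith

/-- **Fubini pairing** of the amplitude with a test function -/
theorem integral_inner_ampx (hΨ : Continuous Ψ) (hΦ : Continuous Φ) (hc : HasCompactSupport Φ)
    {χ : X → Fx} (hχ : Continuous χ) :
    ∫ r, ⟪χ r, ampx μ Ψ Φ r⟫_ℂ ∂ν = ∫ q, ⟪Ψ q (χ q.1), Φ q⟫_ℂ ∂(ν.prod μ) := by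
  have hcont : Continuous fun q : X × Ω => ⟪Ψ q (χ q.1), Φ q⟫_ℂ :=
    (hΨ.clm_apply (hχ.comp continuous_fst)).inner hΦ
  have hI : Integrable (fun q : X × Ω => ⟪Ψ q (χ q.1), Φ q⟫_ℂ) (ν.prod μ) := by
    apply hcont.integrable_of_hasCompactSupport
    exact hc.mono' fun x hx => subset_tsupport _ (by intro h0; apply hx; simp [h0])
  rw [integral_prod _ hI]
  refine integral_congr_ae (Eventually.of_forall fun r => ?_)
  simp only
  rw [inner_ampx hΨ hΦ hc]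
  rfl

/-- `(r, w) ↦ 1_S(r) Ψ(r,w) χ(r)` is square integrable -/
theorem memLp_apply_ind (hΨ : Continuous Ψ) {χ : X → Fx} (hχ : Continuous χ) (hχ2 : MemLp χ 2 ν)
    {S : Set X} (hS : MeasurableSet S)
    {C : ℝ} (hC : ∀ r ∈ S, ∀ v, MemLp (fun w => Ψ (r, w) v) 2 μ ∧
      ∫ w, ‖Ψ (r, w) v‖ ^ 2 ∂μ ≤ C * ‖v‖ ^ 2) :
    MemLp (fun q : X × Ω => Ψ q (S.indicator χ q.1)) 2 (ν.prod μ) := by
  have e1 : (fun q : X × Ω => Ψ q (S.indicator χ q.1)) =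
      (Prod.fst ⁻¹' S).indicator fun q : X × Ω => Ψ q (χ q.1) := by
    funext q
    by_cases h : q.1 ∈ S
    · rw [indicator_of_mem h, indicator_of_mem (by exact h)]
    · rw [indicator_of_notMem h, indicator_of_notMem (by exact h), map_zero]
  have hcont : Continuous fun q : X × Ω => Ψ q (χ q.1) :=
    hΨ.clm_apply (hχ.comp continuous_fst)
  have hsm : StronglyMeasurable (fun q : X × Ω => Ψ q (S.indicator χ q.1)) := by
    rw [e1]
    exact hcont.stronglyMeasurable.indicator (measurable_fst hS)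
  have hsm2 : StronglyMeasurable (fun q : X × Ω => ‖Ψ q (S.indicator χ q.1)‖ ^ 2) :=
    hsm.norm.pow 2
  rw [memLp_two_iff_integrable_sq_norm hsm.aestronglyMeasurable,
    integrable_prod_iff hsm2.aestronglyMeasurable]
  have h2 : ∀ r, MemLp (fun w => Ψ (r, w) (S.indicator χ r)) 2 μ := by
    intro r
    by_cases h : r ∈ S
    · exact (hC r h _).1
    · rw [indicator_of_notMem h]
      simp
  refine ⟨Eventually.of_forall fun r => ?_, ?_⟩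
  · exact (memLp_two_iff_integrable_sq_norm (h2 r).1).1 (h2 r)
  · have h3 : Integrable (fun r => |C| * ‖χ r‖ ^ 2) ν :=
      ((memLp_two_iff_integrable_sq_norm hχ2.1).1 hχ2).const_mul |C|
    refine h3.mono' ?_ (Eventually.of_forall fun r => ?_)
    · exact hsm2.norm.aestronglyMeasurable.integral_prod_right'
    · rw [Real.norm_of_nonneg (integral_nonneg fun _ => norm_nonneg _)]
      have h4 : ∫ w, ‖‖Ψ (r, w) (S.indicator χ r)‖ ^ 2‖ ∂μ =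
          ∫ w, ‖Ψ (r, w) (S.indicator χ r)‖ ^ 2 ∂μ :=
        integral_congr_ae (Eventually.of_forall fun w => by simp)
      simp only
      rw [h4]
      by_cases h : r ∈ S
      · rw [indicator_of_mem h]
        refine (hC r h (χ r)).2.trans ?_
        gcongr
        exact le_abs_self C
      · rw [indicator_of_notMem h]
        simp only [map_zero, norm_zero, ne_eq, OfNat.ofNat_ne_zero, not_false_eq_true, zero_pow,
          integral_zero]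
        positivity

/-- `(r, w) ↦ Ψ(r,w) χ(r)` is square integrable -/
theorem memLp_apply (hΨ : Continuous Ψ) {χ : X → Fx} (hχ : Continuous χ) (hχ2 : MemLp χ 2 ν)
    {C : ℝ} (hC : ∀ r, χ r ≠ 0 → ∀ v, MemLp (fun w => Ψ (r, w) v) 2 μ ∧
      ∫ w, ‖Ψ (r, w) v‖ ^ 2 ∂μ ≤ C * ‖v‖ ^ 2) :
    MemLp (fun q : X × Ω => Ψ q (χ q.1)) 2 (ν.prod μ) := by
  have hS : MeasurableSet {r | χ r ≠ 0} :=
    (isOpen_ne_fun hχ continuous_const).measurableSet
  have h := memLp_apply_ind (μ := μ) hΨ hχ hχ2 hS hC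
  refine (memLp_congr_ae (Eventually.of_forall fun q => ?_)).1 h
  congr 1
  by_cases hq : χ q.1 = 0
  · rw [hq, indicator_of_notMem]
    simpa using hq
  · rw [indicator_of_mem]
    simpa using hq

/-- the norm of `Ψ χ` -/
theorem integral_apply_sq (hΨ : Continuous Ψ) {χ : X → Fx} (hχ : Continuous χ) (hχ2 : MemLp χ 2 ν)
    (hC : ∀ r, χ r ≠ 0 → ∀ v, MemLp (fun w => Ψ (r, w) v) 2 μ ∧
      ∫ w, ‖Ψ (r, w) v‖ ^ 2 ∂μ = ‖v‖ ^ 2) :
    ∫ q, ‖Ψ q (χ q.1)‖ ^ 2 ∂(ν.prod μ) = ∫ r, ‖χ r‖ ^ 2 ∂ν := by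
  have hm := memLp_apply (μ := μ) (C := 1) hΨ hχ hχ2
    (fun r hr v => ⟨(hC r hr v).1, by rw [one_mul]; exact (hC r hr v).2.le⟩)
  rw [integral_prod _ ((memLp_two_iff_integrable_sq_norm hm.1).1 hm)]
  refine integral_congr_ae (Eventually.of_forall fun r => ?_)
  simp only
  by_cases h : χ r = 0
  · simp [h]
  · exact (hC r h (χ r)).2

/-- fibrewise Pythagoras: if `Ψ_r : Fx → L²` is isometric then
`∫ ‖Φ‖² = ∫ ‖Φ - Ψ a‖² + ‖a‖²` -/
theorem fibre_pyth (hΨ : Continuous Ψ) (hΦ : Continuous Φ) (hc : HasCompactSupport Φ) (r : X)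
    (hC : ∀ v, MemLp (fun w => Ψ (r, w) v) 2 μ ∧ ∫ w, ‖Ψ (r, w) v‖ ^ 2 ∂μ = ‖v‖ ^ 2) :
    ∫ w, ‖Φ (r, w)‖ ^ 2 ∂μ =
      ∫ w, ‖Φ (r, w) - Ψ (r, w) (ampx μ Ψ Φ r)‖ ^ 2 ∂μ + ‖ampx μ Ψ Φ r‖ ^ 2 := by
  set v := ampx μ Ψ Φ r with hv
  have h1 : MemLp (fun w => Φ (r, w)) 2 μ := fibre_memLp hΦ hc r
  have h2 := (hC v).1
  have hi1 : Integrable (fun w => ‖Φ (r, w)‖ ^ 2) μ := (memLp_two_iff_integrable_sq_norm h1.1).1 h1
  have hi2 : Integrable (fun w => ‖Ψ (r, w) v‖ ^ 2) μ :=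
    (memLp_two_iff_integrable_sq_norm h2.1).1 h2
  have hi3 : Integrable (fun w => ⟪Ψ (r, w) v, Φ (r, w)⟫_ℂ) μ :=
    Crest.Agent.R330.IBP837.integrable_inner_of_memLp h2 h1
  have h3 : ∫ w, ⟪Ψ (r, w) v, Φ (r, w)⟫_ℂ ∂μ = ((‖v‖ ^ 2 : ℝ) : ℂ) := by
    have := inner_ampx (μ := μ) hΨ hΦ hc r v
    rw [← hv, inner_self_eq_norm_sq_to_K] at this
    rw [show (∫ w, ⟪Ψ (r, w) v, Φ (r, w)⟫_ℂ ∂μ) = amp μ (fun q => Ψ q v) Φ r from rfl, ← this]
    simp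
  have h4 : ∫ w, (⟪Ψ (r, w) v, Φ (r, w)⟫_ℂ).re ∂μ = ‖v‖ ^ 2 := by
    have := integral_re hi3
    simp only [RCLike.re_to_complex] at this
    rw [this, h3, Complex.ofReal_re]
  have h5 : ∀ w, ‖Φ (r, w) - Ψ (r, w) v‖ ^ 2 =
      ‖Φ (r, w)‖ ^ 2 - 2 * (⟪Ψ (r, w) v, Φ (r, w)⟫_ℂ).re + ‖Ψ (r, w) v‖ ^ 2 := by
    intro w
    have := norm_sub_sq (𝕜 := ℂ) (Φ (r, w)) (Ψ (r, w) v)
    rw [this, ← inner_conj_symm (𝕜 := ℂ) (Ψ (r, w) v) (Φ (r, w))]
    simp only [RCLike.re_to_complex, Complex.conj_re]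
  simp only [h5]
  rw [integral_add, integral_sub hi1, integral_const_mul, h4, (hC v).2]
  · ring
  · exact (hi3.re).const_mul 2
  · exact hi1.sub ((hi3.re).const_mul 2)
  · exact hi2


end G2

section Null

variable {R Ω : Type*} [NormedAddCommGroup R] [InnerProductSpace ℝ R] [FiniteDimensional ℝ R]
  [MeasurableSpace R] [BorelSpace R]
  [NormedAddCommGroup Ω] [NormedSpace ℝ Ω] [FiniteDimensional ℝ Ω] [MeasurableSpace Ω]
  [BorelSpace Ω] {μ : Measure Ω} [μ.IsAddHaarMeasure]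
  {F : Type*} [NormedAddCommGroup F] [InnerProductSpace ℂ F] [FiniteDimensional ℂ F]
  {Fx : Type*} [NormedAddCommGroup Fx] [InnerProductSpace ℂ Fx] [FiniteDimensional ℂ Fx]

/-- **Amplitudes of weakly null sequences are strongly null.**  `Ψ` is fixed, its fibre norms and those
of its `R`-derivatives are bounded on the ball `‖r‖ ≤ ρ`; the `Φ n` live over `‖r‖ ≤ ρ`, are bounded in
`L²` together with their `R`-derivatives, and weakly null. -/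
theorem ampx_null {κ : Type*} [Fintype κ] (e : OrthonormalBasis κ ℝ R)
    {ι : Type*} {l : Filter ι} [l.IsCountablyGenerated] {Ψ : R × Ω → Fx →L[ℂ] F}
    {Φ : ι → R × Ω → F} (hΨ : ContDiff ℝ 1 Ψ) (hΦ : ∀ j, ContDiff ℝ 1 (Φ j))
    (hc : ∀ j, HasCompactSupport (Φ j)) {C ρ : ℝ} (hC0 : 0 ≤ C)
    (hρ : ∀ j r w, ρ < ‖r‖ → Φ j (r, w) = 0)
    (hΨ2 : ∀ r, ‖r‖ ≤ ρ → ∀ v, MemLp (fun w => Ψ (r, w) v) 2 μ ∧
      ∫ w, ‖Ψ (r, w) v‖ ^ 2 ∂μ ≤ C * ‖v‖ ^ 2)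
    (hdΨ2 : ∀ r, ‖r‖ ≤ ρ → ∀ i v, MemLp (fun w => fderiv ℝ Ψ (r, w) (e i, 0) v) 2 μ ∧
      ∫ w, ‖fderiv ℝ Ψ (r, w) (e i, 0) v‖ ^ 2 ∂μ ≤ C * ‖v‖ ^ 2)
    (hΦ2 : ∀ j, ∫ q, ‖Φ j q‖ ^ 2 ∂((volume : Measure R).prod μ) ≤ C)
    (hdΦ2 : ∀ j i, ∫ q, ‖fderiv ℝ (Φ j) q (e i, 0)‖ ^ 2 ∂((volume : Measure R).prod μ) ≤ C)
    (hw : ∀ ξ : R × Ω → F, MemLp ξ 2 ((volume : Measure R).prod μ) →
      Tendsto (fun j => ∫ q, ⟪ξ q, Φ j q⟫_ℂ ∂((volume : Measure R).prod μ)) l (𝓝 0)) :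
    Tendsto (fun j => ∫ r, ‖ampx μ Ψ (Φ j) r‖ ^ 2) l (𝓝 0) := by
  have hsub : ∀ j r w, Φ j (r, w) ≠ 0 → ‖r‖ ≤ ρ := by
    intro j r w h
    by_contra h1
    exact h (hρ j r w (not_le.1 h1))
  have hsub' : ∀ j r w (v : R), fderiv ℝ (Φ j) (r, w) (v, 0) ≠ 0 → ‖r‖ ≤ ρ := by
    intro j r w v h
    by_contra h1
    apply h
    have h2 : Φ j =ᶠ[𝓝 (r, w)] fun _ => 0 := by
      have h3 : IsOpen {q : R × Ω | ρ < ‖q.1‖} := isOpen_lt continuous_const (by fun_prop)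
      filter_upwards [h3.mem_nhds (show (r, w) ∈ {q : R × Ω | ρ < ‖q.1‖} from not_le.1 h1)] with q hq
      exact hρ j q.1 q.2 hq
    rw [h2.fderiv_eq]
    simp
  refine amp_null_basis (r := ρ) (C := max (C * C) (2 * C * C + 2 * C * C)) e
    (fun j => contDiff_ampx (n := 1) hΨ (hΦ j) (hc j)) ?_ ?_ ?_ ?_
  · intro j
    refine closure_minimal (fun r hr => ?_) Metric.isClosed_closedBall
    rw [mem_closedBall_zero_iff]
    by_contra h
    exact hr (ampx_eq_zero fun w => hρ j r w (not_le.1 h))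
  · intro j
    refine (integral_ampx_sq_le hΨ.continuous (hΦ j).continuous (hc j) hC0
      (fun r ⟨w, hw⟩ => hΨ2 r (hsub j r w hw))).trans ?_
    exact (mul_le_mul_of_nonneg_left (hΦ2 j) hC0).trans (le_max_left _ _)
  · intro j i
    refine (integral_fderiv_ampx_sq_le hΨ (hΦ j) (hc j) (e i) hC0 hC0
      (fun r ⟨w, hw⟩ => hΨ2 r (hw.elim (hsub j r w) (hsub' j r w (e i))))
      (fun r ⟨w, hw⟩ => hdΨ2 r (hsub j r w hw) i)).trans ?_
    refine le_trans ?_ (le_max_right _ _)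
    have h1 := hΦ2 j
    have h2 := hdΦ2 j i
    nlinarith
  · intro χ hχ hχc
    have hχ2 : MemLp χ 2 volume := hχ.continuous.memLp_of_hasCompactSupport hχc
    have h1 := memLp_apply_ind (μ := μ) hΨ.continuous hχ.continuous hχ2
      (S := Metric.closedBall 0 ρ) measurableSet_closedBall
      (fun r hr => hΨ2 r (mem_closedBall_zero_iff.1 hr))
    refine (hw _ h1).congr fun j => ?_
    rw [integral_inner_ampx hΨ.continuous (hΦ j).continuous (hc j) hχ.continuous]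
    refine integral_congr_ae (Eventually.of_forall fun q => ?_)
    simp only
    by_cases hq : ‖q.1‖ ≤ ρ
    · rw [indicator_of_mem (mem_closedBall_zero_iff.2 hq)]
    · have : Φ j q = 0 := hρ j q.1 q.2 (not_le.1 hq)
      rw [this, inner_zero_right, inner_zero_right]

end Null



end Crest.Agent.R330.Amp406
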