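import Crest.Prelude.Def_MatrixModel

/-!
# R330/Ims_714 : Leibniz rule, (W) identity and IMS localisation for Dirac type operators
(helper714; leaf (1.2) of r330_doc)

`dop G M α W φ x = -i Σ γ^i_αβ θ_β^A ∂_{iA} φ + W x (φ x)` with an ARBITRARY endomorphism field `W`.
All identities are POINTWISE and hold for each single `α`.
-/

set_option autoImplicit false

open MeasureTheory Filter Topology
open scoped ContDiff InnerProductSpace ENNReal
open Crest.MathPhysics.MatrixQM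

namespace Crest.Agent.R330.Ims714

variable {N : ℕ} {F : Type*} [NormedAddCommGroup F] [InnerProductSpace ℂ F]

/-- `(γ^i γ^j)_αα = δ_ij` -/
theorem gamma_diag (G : GammaNine) (i j : Fin 9) (α : Fin 16) :
    (G.γ i * G.γ j) α α = if i = j then 1 else 0 := by
  have h1 : (G.γ j * G.γ i) α α = (G.γ i * G.γ j) α α := by
    have : (G.γ j * G.γ i) = (G.γ i * G.γ j).transpose := by
      rw [Matrix.transpose_mul, G.symm i, G.symm j]
    rw [this, Matrix.transpose_apply]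
  have h2 := congrFun (congrFun (G.clifford i j) α) α
  rw [Matrix.add_apply, h1] at h2
  by_cases hij : i = j
  · subst hij
    simp only [if_true] at h2 ⊢
    have h3 : (2 : Matrix (Fin 16) (Fin 16) ℝ) α α = 2 := by
      have : (2 : Matrix (Fin 16) (Fin 16) ℝ) = Matrix.diagonal (fun _ => (2 : ℝ)) := by
        rw [← Matrix.diagonal_ofNat]
      rw [this, Matrix.diagonal_apply_eq]
    rw [h3] at h2
    linarith
  · simp only [hij, if_false, Matrix.zero_apply] at h2 ⊢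
    linarith

/-- real linear combination of the fermions -/
noncomputable def thc (M : FermionRep N F) (s : Fin 16 × Fin (N ^ 2 - 1) → ℝ) : F →ₗ[ℂ] F :=
  ∑ p : Fin 16 × Fin (N ^ 2 - 1), (s p : ℂ) • M.θ p.1 p.2

theorem thc_apply (M : FermionRep N F) (s : Fin 16 × Fin (N ^ 2 - 1) → ℝ) (f : F) :
    thc M s f = ∑ p : Fin 16 × Fin (N ^ 2 - 1), (s p : ℂ) • M.θ p.1 p.2 f := by
  simp [thc, LinearMap.sum_apply]

theorem thc_add (M : FermionRep N F) (s t : Fin 16 × Fin (N ^ 2 - 1) → ℝ) :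
    thc M (fun p => s p + t p) = thc M s + thc M t := by
  unfold thc
  rw [← Finset.sum_add_distrib]
  refine Finset.sum_congr rfl fun p _ => ?_
  rw [← add_smul]
  push_cast
  rfl

theorem thc_smul (M : FermionRep N F) (c : ℝ) (s : Fin 16 × Fin (N ^ 2 - 1) → ℝ) :
    thc M (fun p => c * s p) = (c : ℂ) • thc M s := by
  unfold thc
  rw [Finset.smul_sum]
  refine Finset.sum_congr rfl fun p _ => ?_
  rw [smul_smul]
  push_cast
  rfl

theorem thc_symm (M : FermionRep N F) (s : Fin 16 × Fin (N ^ 2 - 1) → ℝ) (f g : F) :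
    ⟪thc M s f, g⟫_ℂ = ⟪f, thc M s g⟫_ℂ := by
  rw [thc_apply, thc_apply, sum_inner, inner_sum]
  refine Finset.sum_congr rfl fun p _ => ?_
  rw [inner_smul_left, inner_smul_right, Complex.conj_ofReal, M.selfAdjoint p.1 p.2 f g]

/-- `θ(s) θ(t) + θ(t) θ(s) = ⟨s,t⟩` -/
theorem thc_anti (M : FermionRep N F) (s t : Fin 16 × Fin (N ^ 2 - 1) → ℝ) (f : F) :
    thc M s (thc M t f) + thc M t (thc M s f) = ((∑ p, s p * t p : ℝ) : ℂ) • f := by
  have e1 : thc M s (thc M t f) = ∑ p : Fin 16 × Fin (N ^ 2 - 1), ∑ q : Fin 16 × Fin (N ^ 2 - 1),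
      ((s p : ℂ) * (t q : ℂ)) • M.θ p.1 p.2 (M.θ q.1 q.2 f) := by
    rw [thc_apply]
    refine Finset.sum_congr rfl fun p _ => ?_
    rw [thc_apply, map_sum, Finset.smul_sum]
    refine Finset.sum_congr rfl fun q _ => ?_
    rw [map_smul, smul_smul]
  have e2 : thc M t (thc M s f) = ∑ p : Fin 16 × Fin (N ^ 2 - 1), ∑ q : Fin 16 × Fin (N ^ 2 - 1),
      ((s p : ℂ) * (t q : ℂ)) • M.θ q.1 q.2 (M.θ p.1 p.2 f) := by
    rw [thc_apply, Finset.sum_comm]
    refine Finset.sum_congr rfl fun q _ => ?_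
    rw [thc_apply, map_sum, Finset.smul_sum]
    refine Finset.sum_congr rfl fun p _ => ?_
    rw [map_smul, smul_smul, mul_comm]
  rw [e1, e2, ← Finset.sum_add_distrib]
  have e3 : ∀ p : Fin 16 × Fin (N ^ 2 - 1),
      (∑ q : Fin 16 × Fin (N ^ 2 - 1), ((s p : ℂ) * (t q : ℂ)) • M.θ p.1 p.2 (M.θ q.1 q.2 f)) +
        (∑ q : Fin 16 × Fin (N ^ 2 - 1), ((s p : ℂ) * (t q : ℂ)) • M.θ q.1 q.2 (M.θ p.1 p.2 f)) =
      ((s p : ℂ) * (t p : ℂ)) • f := by
    intro p
    rw [← Finset.sum_add_distrib]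
    have e4 : ∀ q : Fin 16 × Fin (N ^ 2 - 1),
        ((s p : ℂ) * (t q : ℂ)) • M.θ p.1 p.2 (M.θ q.1 q.2 f) +
          ((s p : ℂ) * (t q : ℂ)) • M.θ q.1 q.2 (M.θ p.1 p.2 f) =
        if p = q then ((s p : ℂ) * (t p : ℂ)) • f else 0 := by
      intro q
      have h := congrArg (fun T : F →ₗ[ℂ] F => T f) (M.anticomm p.1 p.2 q.1 q.2)
      simp only [LinearMap.add_apply, LinearMap.comp_apply] at h
      rw [← smul_add, h]
      by_cases hpq : p = q
      · subst hpq
        simp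
      · have : ¬ (p.1 = q.1 ∧ p.2 = q.2) := fun hh => hpq (Prod.ext hh.1 hh.2)
        rw [if_neg this, if_neg hpq]
        simp
    rw [Finset.sum_congr rfl fun q _ => e4 q]
    simp
  rw [Finset.sum_congr rfl fun p _ => e3 p, ← Finset.sum_smul]
  push_cast
  rfl

theorem thc_sq (M : FermionRep N F) (s : Fin 16 × Fin (N ^ 2 - 1) → ℝ) (f : F) :
    thc M s (thc M s f) = ((1 / 2 * ∑ p, s p ^ 2 : ℝ) : ℂ) • f := by
  have h := thc_anti M s s f
  rw [← two_smul ℂ (thc M s (thc M s f))] at h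
  have h2 : thc M s (thc M s f) = (1 / 2 : ℂ) • ((2 : ℂ) • thc M s (thc M s f)) := by
    rw [smul_smul]; norm_num
  rw [h2, h, smul_smul]
  congr 1
  push_cast
  congr 1
  refine Finset.sum_congr rfl fun p _ => by ring

theorem norm_thc_sq (M : FermionRep N F) (s : Fin 16 × Fin (N ^ 2 - 1) → ℝ) (f : F) :
    ‖thc M s f‖ ^ 2 = (1 / 2 * ∑ p, s p ^ 2) * ‖f‖ ^ 2 := by
  have h : (⟪thc M s f, thc M s f⟫_ℂ : ℂ) = (((1 / 2 * ∑ p, s p ^ 2) * ‖f‖ ^ 2 : ℝ) : ℂ) := by
    rw [thc_symm, thc_sq, inner_smul_right, inner_self_eq_norm_sq_to_K]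
    push_cast
    rfl
  have h2 := congrArg Complex.re h
  rw [Complex.ofReal_re] at h2
  rw [← h2, ← @inner_self_eq_norm_sq ℂ F]
  rfl

/-- coefficients of the kinetic symbol -/
noncomputable def kc (G : GammaNine) (α : Fin 16) (v : Cfg N) : Fin 16 × Fin (N ^ 2 - 1) → ℝ :=
  fun p => ∑ i, G.γ i α p.1 * v (i, p.2)

theorem kc_add (G : GammaNine) (α : Fin 16) (v w : Cfg N) (p : Fin 16 × Fin (N ^ 2 - 1)) :
    kc G α (v + w) p = kc G α v p + kc G α w p := by
  unfold kc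
  rw [← Finset.sum_add_distrib]
  refine Finset.sum_congr rfl fun i _ => ?_
  rw [PiLp.add_apply]; ring

theorem kc_smul (G : GammaNine) (α : Fin 16) (c : ℝ) (v : Cfg N)
    (p : Fin 16 × Fin (N ^ 2 - 1)) : kc G α (c • v) p = c * kc G α v p := by
  unfold kc
  rw [Finset.mul_sum]
  refine Finset.sum_congr rfl fun i _ => ?_
  rw [PiLp.smul_apply, smul_eq_mul]; ring

/-- `Σ_p s_{α,v}(p) s_{α,w}(p) = ⟨v, w⟩`, for each single `α` -/
theorem kc_inner (G : GammaNine) (α : Fin 16) (v w : Cfg N) :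
    ∑ p, kc G α v p * kc G α w p = ⟪v, w⟫_ℝ := by
  have h1 : ∀ p : Fin 16 × Fin (N ^ 2 - 1), kc G α v p * kc G α w p =
      ∑ i, ∑ j, (G.γ i α p.1 * G.γ j α p.1) * (v (i, p.2) * w (j, p.2)) := by
    intro p
    unfold kc
    rw [Finset.sum_mul_sum]
    refine Finset.sum_congr rfl fun i _ => Finset.sum_congr rfl fun j _ => by ring
  rw [Finset.sum_congr rfl fun p _ => h1 p, Fintype.sum_prod_type, Finset.sum_comm]
  have h2 : ∀ A : Fin (N ^ 2 - 1), ∑ β : Fin 16, ∑ i, ∑ j,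
      (G.γ i α β * G.γ j α β) * (v (i, A) * w (j, A)) = ∑ i, v (i, A) * w (i, A) := by
    intro A
    rw [Finset.sum_comm]
    refine Finset.sum_congr rfl fun i _ => ?_
    rw [Finset.sum_comm]
    have h3 : ∀ j : Fin 9, ∑ β : Fin 16, (G.γ i α β * G.γ j α β) * (v (i, A) * w (j, A)) =
        if i = j then v (i, A) * w (j, A) else 0 := by
      intro j
      rw [← Finset.sum_mul]
      have h4 : ∑ β : Fin 16, G.γ i α β * G.γ j α β = (G.γ i * G.γ j) α α := by
        rw [Matrix.mul_apply]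
        refine Finset.sum_congr rfl fun β _ => ?_
        have : G.γ j β α = G.γ j α β := by
          have := congrFun (congrFun (G.symm j) α) β
          rwa [Matrix.transpose_apply] at this
        rw [this]
      rw [h4, gamma_diag]
      split_ifs <;> simp
    rw [Finset.sum_congr rfl fun j _ => h3 j]
    simp
  rw [Finset.sum_congr rfl fun A _ => h2 A, PiLp.inner_apply, Fintype.sum_prod_type,
    Finset.sum_comm]
  refine Finset.sum_congr rfl fun i _ => Finset.sum_congr rfl fun A _ => ?_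
  simp [mul_comm]

/-- kinetic symbol `-i Σ γ^i_αβ v_i^A θ_β^A` -/
noncomputable def kin (G : GammaNine) (M : FermionRep N F) (α : Fin 16) (v : Cfg N) :
    F →ₗ[ℂ] F := (-Complex.I) • thc M (kc G α v)

theorem kin_add (G : GammaNine) (M : FermionRep N F) (α : Fin 16) (v w : Cfg N) :
    kin G M α (v + w) = kin G M α v + kin G M α w := by
  unfold kin
  rw [show kc G α (v + w) = fun p => kc G α v p + kc G α w p from funext (kc_add G α v w),
    thc_add, smul_add]

theorem kin_smul (G : GammaNine) (M : FermionRep N F) (α : Fin 16) (c : ℝ) (v : Cfg N) :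
    kin G M α (c • v) = (c : ℂ) • kin G M α v := by
  unfold kin
  rw [show kc G α (c • v) = fun p => c * kc G α v p from funext (kc_smul G α c v),
    thc_smul, smul_comm]

theorem kin_sum {ι : Type*} (s : Finset ι) (G : GammaNine) (M : FermionRep N F) (α : Fin 16)
    (v : ι → Cfg N) : kin G M α (∑ k ∈ s, v k) = ∑ k ∈ s, kin G M α (v k) := by
  classical
  induction s using Finset.induction_on with
  | empty =>
      have := kin_smul G M α 0 (0 : Cfg N)
      simpa using this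
  | insert k s hk ih => rw [Finset.sum_insert hk, Finset.sum_insert hk, kin_add, ih]

/-- the symbol is anti-self-adjoint -/
theorem kin_skew (G : GammaNine) (M : FermionRep N F) (α : Fin 16) (v : Cfg N) (f g : F) :
    ⟪kin G M α v f, g⟫_ℂ = -⟪f, kin G M α v g⟫_ℂ := by
  unfold kin
  rw [LinearMap.smul_apply, LinearMap.smul_apply, inner_smul_left, inner_smul_right, thc_symm]
  simp

/-- `K(v) K(w) + K(w) K(v) = -⟨v,w⟩` for each single `α` -/
theorem kin_anti (G : GammaNine) (M : FermionRep N F) (α : Fin 16) (v w : Cfg N) (f : F) :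
    kin G M α v (kin G M α w f) + kin G M α w (kin G M α v f) =
      -((⟪v, w⟫_ℝ : ℝ) : ℂ) • f := by
  unfold kin
  simp only [LinearMap.smul_apply, map_smul, smul_smul]
  rw [← smul_add, thc_anti, kc_inner, smul_smul]
  congr 1
  have : (-Complex.I) * (-Complex.I) = -1 := by
    rw [neg_mul_neg, Complex.I_mul_I]
  rw [this]
  ring

theorem norm_kin_sq (G : GammaNine) (M : FermionRep N F) (α : Fin 16) (v : Cfg N) (f : F) :
    ‖kin G M α v f‖ ^ 2 = 1 / 2 * ‖v‖ ^ 2 * ‖f‖ ^ 2 := by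
  unfold kin
  rw [LinearMap.smul_apply, norm_smul, mul_pow, norm_thc_sq]
  have h := kc_inner G α v v
  rw [real_inner_self_eq_norm_sq] at h
  have h2 : ∑ p, kc G α v p ^ 2 = ‖v‖ ^ 2 := by
    rw [← h]
    exact Finset.sum_congr rfl fun p _ => by ring
  rw [h2]
  simp

theorem norm_kin_le (G : GammaNine) (M : FermionRep N F) (α : Fin 16) (v : Cfg N) (f : F) :
    ‖kin G M α v f‖ ≤ ‖v‖ * ‖f‖ := by
  have h := norm_kin_sq G M α v f
  have h1 : ‖kin G M α v f‖ ^ 2 ≤ (‖v‖ * ‖f‖) ^ 2 := by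
    rw [h, mul_pow]
    nlinarith [mul_nonneg (sq_nonneg ‖v‖) (sq_nonneg ‖f‖)]
  exact le_of_sq_le_sq h1 (by positivity) |>.trans le_rfl

/-- gradient of a real function, as an element of `Cfg N` -/
noncomputable def grad (χ : Cfg N → ℝ) (x : Cfg N) : Cfg N :=
  WithLp.toLp 2 fun iA => fderiv ℝ χ x (EuclideanSpace.single iA 1)

theorem grad_apply (χ : Cfg N → ℝ) (x : Cfg N) (iA : Fin 9 × Fin (N ^ 2 - 1)) :
    grad χ x iA = fderiv ℝ χ x (EuclideanSpace.single iA 1) := rfl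

/-- Dirac type operator with an arbitrary endomorphism field `W` -/
noncomputable def dop (G : GammaNine) (M : FermionRep N F) (α : Fin 16)
    (W : Cfg N → F →ₗ[ℂ] F) (φ : Cfg N → F) (x : Cfg N) : F :=
  (∑ i : Fin 9, ∑ A : Fin (N ^ 2 - 1), ∑ β : Fin 16,
      (-Complex.I * (G.γ i α β : ℂ)) • M.θ β A (fderiv ℝ φ x (EuclideanSpace.single (i, A) 1))) +
    W x (φ x)

/-- the interaction part of the supercharge -/
noncomputable def wquart (b : ColorBasis N) (M : FermionRep N F) (G : GammaNine) (α : Fin 16)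
    (x : Cfg N) : F →ₗ[ℂ] F :=
  ∑ A : Fin (N ^ 2 - 1), ∑ B : Fin (N ^ 2 - 1), ∑ C : Fin (N ^ 2 - 1), ∑ i : Fin 9, ∑ j : Fin 9,
    ∑ β : Fin 16,
      ((1 / 2 * b.structConst A B C * x (i, B) * x (j, C) * G.γ2 i j α β : ℝ) : ℂ) • M.θ β A

theorem supercharge_eq_dop (b : ColorBasis N) (M : FermionRep N F) (G : GammaNine) (α : Fin 16)
    (φ : Cfg N → F) : supercharge b M G α φ = dop G M α (wquart b M G α) φ := by
  funext x
  simp only [supercharge, dop, wquart, LinearMap.sum_apply, LinearMap.smul_apply]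

theorem kin_apply (G : GammaNine) (M : FermionRep N F) (α : Fin 16) (v : Cfg N) (f : F) :
    kin G M α v f = ∑ i : Fin 9, ∑ A : Fin (N ^ 2 - 1), ∑ β : Fin 16,
      (-Complex.I * (G.γ i α β : ℂ)) • (v (i, A) : ℂ) • M.θ β A f := by
  unfold kin
  rw [LinearMap.smul_apply, thc_apply, Finset.smul_sum, Fintype.sum_prod_type]
  have h1 : ∀ β : Fin 16, ∀ A : Fin (N ^ 2 - 1),
      (-Complex.I) • ((kc G α v (β, A) : ℝ) : ℂ) • M.θ β A f =
        ∑ i : Fin 9, (-Complex.I * (G.γ i α β : ℂ)) • (v (i, A) : ℂ) • M.θ β A f := by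
    intro β A
    unfold kc
    push_cast
    rw [Finset.sum_smul, Finset.smul_sum]
    refine Finset.sum_congr rfl fun i _ => ?_
    rw [smul_smul, smul_smul]
    congr 1
    ring
  rw [Finset.sum_congr rfl fun β _ => Finset.sum_congr rfl fun A _ => h1 β A]
  calc ∑ β : Fin 16, ∑ A : Fin (N ^ 2 - 1), ∑ i : Fin 9,
        (-Complex.I * (G.γ i α β : ℂ)) • (v (i, A) : ℂ) • M.θ β A f
      = ∑ β : Fin 16, ∑ i : Fin 9, ∑ A : Fin (N ^ 2 - 1),
        (-Complex.I * (G.γ i α β : ℂ)) • (v (i, A) : ℂ) • M.θ β A f :=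
        Finset.sum_congr rfl fun β _ => Finset.sum_comm
    _ = ∑ i : Fin 9, ∑ β : Fin 16, ∑ A : Fin (N ^ 2 - 1),
        (-Complex.I * (G.γ i α β : ℂ)) • (v (i, A) : ℂ) • M.θ β A f := Finset.sum_comm
    _ = _ := Finset.sum_congr rfl fun i _ => Finset.sum_comm

/-- **Leibniz rule** -/
theorem dop_mul (G : GammaNine) (M : FermionRep N F) (α : Fin 16) (W : Cfg N → F →ₗ[ℂ] F)
    {χ : Cfg N → ℝ} {φ : Cfg N → F} {x : Cfg N} (hχ : DifferentiableAt ℝ χ x)
    (hφ : DifferentiableAt ℝ φ x) :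
    dop G M α W (fun y => χ y • φ y) x = χ x • dop G M α W φ x + kin G M α (grad χ x) (φ x) := by
  have hd : ∀ v : Cfg N, fderiv ℝ (fun y => χ y • φ y) x v =
      χ x • fderiv ℝ φ x v + (fderiv ℝ χ x v) • φ x := by
    intro v
    rw [fderiv_fun_smul hχ hφ]
    simp [ContinuousLinearMap.smulRight_apply]
  have hr : ∀ (c : ℝ) (f : F), c • f = (c : ℂ) • f := fun c f => (Complex.coe_smul c f).symm
  unfold dop
  rw [kin_apply, smul_add, Finset.smul_sum, add_right_comm, ← Finset.sum_add_distrib]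
  congr 1
  · refine Finset.sum_congr rfl fun i _ => ?_
    rw [Finset.smul_sum, ← Finset.sum_add_distrib]
    refine Finset.sum_congr rfl fun A _ => ?_
    rw [Finset.smul_sum, ← Finset.sum_add_distrib]
    refine Finset.sum_congr rfl fun β _ => ?_
    rw [hd, map_add, hr, hr, map_smul, map_smul, hr, smul_add, grad_apply]
    congr 1
    rw [smul_comm]
  · show W x (χ x • φ x) = χ x • W x (φ x)
    rw [hr, map_smul, hr]

/-- **(W) identity**, pointwise, for each single charge -/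
theorem normSq_dop_mul (G : GammaNine) (M : FermionRep N F) (α : Fin 16)
    (W : Cfg N → F →ₗ[ℂ] F) {χ : Cfg N → ℝ} {φ : Cfg N → F} {x : Cfg N}
    (hχ : DifferentiableAt ℝ χ x) (hφ : DifferentiableAt ℝ φ x) :
    ‖dop G M α W (fun y => χ y • φ y) x‖ ^ 2 =
      (⟪dop G M α W φ x, dop G M α W (fun y => χ y ^ 2 • φ y) x⟫_ℂ).re +
        1 / 2 * ‖grad χ x‖ ^ 2 * ‖φ x‖ ^ 2 := by
  have hg : grad (fun y => χ y ^ 2) x = (2 * χ x) • grad χ x := by
    ext iA
    rw [grad_apply, PiLp.smul_apply, grad_apply, smul_eq_mul]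
    have : HasFDerivAt (fun y => χ y ^ 2) ((2 * χ x) • fderiv ℝ χ x) x := by
      have h := hχ.hasFDerivAt.pow 2
      simpa using h
    rw [this.fderiv]
    rfl
  have hr : ∀ (c : ℝ) (f : F), c • f = (c : ℂ) • f := fun c f => (Complex.coe_smul c f).symm
  have hχ2 : DifferentiableAt ℝ (fun y => χ y ^ 2) x := hχ.pow 2
  rw [dop_mul G M α W hχ hφ, dop_mul G M α W hχ2 hφ, hg, kin_smul,
    ← norm_kin_sq G M α (grad χ x) (φ x)]
  set D := dop G M α W φ x
  set K := kin G M α (grad χ x) (φ x)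
  rw [@norm_add_sq ℂ, LinearMap.smul_apply, inner_add_right, hr (χ x ^ 2) D, inner_smul_right,
    inner_smul_right, hr (χ x) D, inner_smul_left, norm_smul]
  have h1 : (⟪D, D⟫_ℂ : ℂ) = ((‖D‖ ^ 2 : ℝ) : ℂ) := by
    rw [inner_self_eq_norm_sq_to_K]; push_cast; rfl
  have h2 : ‖((χ x : ℝ) : ℂ)‖ ^ 2 = χ x ^ 2 := by
    rw [Complex.norm_real, Real.norm_eq_abs, sq_abs]
  rw [h1, mul_pow, h2]
  simp only [Complex.add_re, Complex.mul_re, Complex.ofReal_re, Complex.ofReal_im, zero_mul,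
    sub_zero, Complex.conj_ofReal, RCLike.re_to_complex, Complex.mul_im, mul_zero, add_zero]
  ring

/-- **IMS**, pointwise, for each single charge -/
theorem ims_pointwise {ι : Type*} (s : Finset ι) (G : GammaNine) (M : FermionRep N F)
    (α : Fin 16) (W : Cfg N → F →ₗ[ℂ] F) {J : ι → Cfg N → ℝ} {φ : Cfg N → F} {x : Cfg N}
    (hJ : ∀ k ∈ s, DifferentiableAt ℝ (J k) x) (hφ : DifferentiableAt ℝ φ x)
    (h1 : ∑ k ∈ s, J k x ^ 2 = 1) (h2 : ∑ k ∈ s, J k x • grad (J k) x = 0) :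
    ∑ k ∈ s, ‖dop G M α W (fun y => J k y • φ y) x‖ ^ 2 =
      ‖dop G M α W φ x‖ ^ 2 + 1 / 2 * (∑ k ∈ s, ‖grad (J k) x‖ ^ 2) * ‖φ x‖ ^ 2 := by
  have hr : ∀ (c : ℝ) (f : F), c • f = (c : ℂ) • f := fun c f => (Complex.coe_smul c f).symm
  have e : ∀ k ∈ s, ‖dop G M α W (fun y => J k y • φ y) x‖ ^ 2 =
      J k x ^ 2 * ‖dop G M α W φ x‖ ^ 2 +
        2 * (⟪dop G M α W φ x, kin G M α (J k x • grad (J k) x) (φ x)⟫_ℂ).re +
        1 / 2 * ‖grad (J k) x‖ ^ 2 * ‖φ x‖ ^ 2 := by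
    intro k hk
    rw [dop_mul G M α W (hJ k hk) hφ, kin_smul, ← norm_kin_sq G M α (grad (J k) x) (φ x),
      @norm_add_sq ℂ, hr, inner_smul_left, norm_smul, LinearMap.smul_apply, inner_smul_right,
      Complex.conj_ofReal, mul_pow, Complex.norm_real, Real.norm_eq_abs, sq_abs]
    rfl
  rw [Finset.sum_congr rfl e, Finset.sum_add_distrib, Finset.sum_add_distrib, ← Finset.sum_mul,
    h1, one_mul, ← Finset.mul_sum, ← Complex.re_sum, ← inner_sum, ← LinearMap.sum_apply,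
    ← kin_sum, h2]
  have h0 : kin G M α (0 : Cfg N) = 0 := by
    have := kin_smul G M α 0 (0 : Cfg N)
    simpa using this
  rw [h0, LinearMap.zero_apply, inner_zero_right, Complex.zero_re, mul_zero, add_zero,
    ← Finset.sum_mul, ← Finset.mul_sum]

/-- if `Σ J_k² = 1` near `x` (differentiable at `x`), then `Σ J_k ∇J_k = 0` at `x` -/
theorem sum_mul_grad_eq_zero {ι : Type*} (s : Finset ι) {J : ι → Cfg N → ℝ} {x : Cfg N}
    (hJ : ∀ k ∈ s, DifferentiableAt ℝ (J k) x) (h1 : ∀ᶠ y in 𝓝 x, ∑ k ∈ s, J k y ^ 2 = 1) :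
    ∑ k ∈ s, J k x • grad (J k) x = 0 := by
  have hd : HasFDerivAt (fun y => ∑ k ∈ s, J k y ^ 2)
      (∑ k ∈ s, (2 * J k x) • fderiv ℝ (J k) x) x := by
    refine HasFDerivAt.fun_sum fun k hk => ?_
    have h := (hJ k hk).hasFDerivAt.pow 2
    simpa using h
  have h0 : HasFDerivAt (fun y => ∑ k ∈ s, J k y ^ 2) (0 : Cfg N →L[ℝ] ℝ) x :=
    (hasFDerivAt_const (1 : ℝ) x).congr_of_eventuallyEq h1
  have h2 := hd.unique h0
  ext iA
  have h3 := congrArg (fun T : Cfg N →L[ℝ] ℝ => T (EuclideanSpace.single iA 1)) h2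
  simp only [_root_.sum_apply, _root_.smul_apply, smul_eq_mul, _root_.zero_apply] at h3
  rw [WithLp.ofLp_sum, Finset.sum_apply]
  simp only [PiLp.smul_apply, grad_apply, smul_eq_mul, PiLp.zero_apply]
  have h4 : ∑ k ∈ s, 2 * J k x * (fderiv ℝ (J k) x) (EuclideanSpace.single iA 1) =
      2 * ∑ k ∈ s, J k x * (fderiv ℝ (J k) x) (EuclideanSpace.single iA 1) := by
    rw [Finset.mul_sum]
    exact Finset.sum_congr rfl fun k _ => by ring
  rw [h4] at h3
  linarith

/-! ### inequalities -/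

theorem normSq_dop_mul_le (G : GammaNine) (M : FermionRep N F) (α : Fin 16)
    (W : Cfg N → F →ₗ[ℂ] F) {χ : Cfg N → ℝ} {φ : Cfg N → F} {x : Cfg N}
    (hχ : DifferentiableAt ℝ χ x) (hφ : DifferentiableAt ℝ φ x) {t : ℝ} (ht : 0 < t) :
    ‖dop G M α W (fun y => χ y • φ y) x‖ ^ 2 ≤
      (1 + t) * (χ x ^ 2 * ‖dop G M α W φ x‖ ^ 2) +
        (1 + 1 / t) * (1 / 2 * ‖grad χ x‖ ^ 2 * ‖φ x‖ ^ 2) := by
  rw [dop_mul G M α W hχ hφ, ← norm_kin_sq G M α (grad χ x) (φ x)]
  have h1 := norm_add_le (χ x • dop G M α W φ x) (kin G M α (grad χ x) (φ x))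
  have h2 : ‖χ x • dop G M α W φ x‖ ^ 2 = χ x ^ 2 * ‖dop G M α W φ x‖ ^ 2 := by
    rw [norm_smul, mul_pow, Real.norm_eq_abs, sq_abs]
  rw [← h2]
  set a := ‖χ x • dop G M α W φ x‖
  set c := ‖kin G M α (grad χ x) (φ x)‖
  have ha : 0 ≤ a := norm_nonneg _
  have hc : 0 ≤ c := norm_nonneg _
  have h3 : 2 * a * c ≤ t * a ^ 2 + 1 / t * c ^ 2 := by
    have h4 : 0 ≤ (t * a - c) ^ 2 / t := by positivity
    have h5 : (t * a - c) ^ 2 / t = t * a ^ 2 - 2 * a * c + 1 / t * c ^ 2 := by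
      field_simp
      ring
    linarith
  calc _ ≤ (a + c) ^ 2 := by gcongr
    _ = a ^ 2 + 2 * a * c + c ^ 2 := by ring
    _ ≤ _ := by linarith

theorem le_normSq_dop_mul (G : GammaNine) (M : FermionRep N F) (α : Fin 16)
    (W : Cfg N → F →ₗ[ℂ] F) {χ : Cfg N → ℝ} {φ : Cfg N → F} {x : Cfg N}
    (hχ : DifferentiableAt ℝ χ x) (hφ : DifferentiableAt ℝ φ x) {t : ℝ} (ht : 0 < t) :
    (1 - t) * (χ x ^ 2 * ‖dop G M α W φ x‖ ^ 2) -
        (1 / t - 1) * (1 / 2 * ‖grad χ x‖ ^ 2 * ‖φ x‖ ^ 2) ≤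
      ‖dop G M α W (fun y => χ y • φ y) x‖ ^ 2 := by
  rw [dop_mul G M α W hχ hφ, ← norm_kin_sq G M α (grad χ x) (φ x)]
  have h2 : ‖χ x • dop G M α W φ x‖ ^ 2 = χ x ^ 2 * ‖dop G M α W φ x‖ ^ 2 := by
    rw [norm_smul, mul_pow, Real.norm_eq_abs, sq_abs]
  rw [← h2]
  have h1 := @norm_add_sq ℂ F _ _ _ (χ x • dop G M α W φ x) (kin G M α (grad χ x) (φ x))
  have h6 := @norm_inner_le_norm ℂ F _ _ _ (χ x • dop G M α W φ x)
    (kin G M α (grad χ x) (φ x))
  have h7 := (abs_le.1 (Complex.abs_re_le_norm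
    (⟪χ x • dop G M α W φ x, kin G M α (grad χ x) (φ x)⟫_ℂ))).1
  rw [RCLike.re_to_complex] at h1
  set a := ‖χ x • dop G M α W φ x‖
  set c := ‖kin G M α (grad χ x) (φ x)‖
  have ha : 0 ≤ a := norm_nonneg _
  have hc : 0 ≤ c := norm_nonneg _
  have h3 : 2 * a * c ≤ t * a ^ 2 + 1 / t * c ^ 2 := by
    have h4 : 0 ≤ (t * a - c) ^ 2 / t := by positivity
    have h5 : (t * a - c) ^ 2 / t = t * a ^ 2 - 2 * a * c + 1 / t * c ^ 2 := by
      field_simp
      ring
    linarith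
  rw [h1]
  nlinarith [h3, h6, h7]

/-! ### core vectors times invariant functions -/

variable [FiniteDimensional ℂ F]

theorem isCoreVec_mul {b : ColorBasis N} {M : FermionRep N F} {R : GaugeAction b M}
    {χ : Cfg N → ℝ} (hχ : ContDiff ℝ ∞ χ) (hinv : ∀ g x, χ (b.act g x) = χ x)
    {φ : Cfg N → F} (hφ : IsCoreVec b R φ) : IsCoreVec b R (fun x => χ x • φ x) := by
  refine ⟨hχ.smul hφ.1, ?_, fun g x => ?_⟩
  · exact hφ.2.1.smul_left (f := χ)
  · show χ (b.act g x) • φ (b.act g x) = R.ρ g (χ x • φ x)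
    rw [hinv, hφ.2.2 g x]
    have hr : ∀ (c : ℝ) (f : F), c • f = (c : ℂ) • f := fun c f => (Complex.coe_smul c f).symm
    rw [hr, hr, map_smul]

/-! ### `L²` limits -/

/-- `D φ_n → Ξ`, `φ_n → Ψ` in `L²` imply `D (χ φ_n) → χ Ξ + K(∇χ) Ψ` -/
theorem tendsto_dop_mul (G : GammaNine) (M : FermionRep N F) (α : Fin 16)
    (W : Cfg N → F →ₗ[ℂ] F) {χ : Cfg N → ℝ} (hχ : Differentiable ℝ χ)
    {C : ℝ} (hC : ∀ x, |χ x| ≤ C) {C' : ℝ} (hC' : ∀ x, ‖grad χ x‖ ≤ C')
    {φ : ℕ → Cfg N → F} (hφ : ∀ n, Differentiable ℝ (φ n)) {Ψ Ξ : Cfg N → F}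
    (hD : ∀ n, AEStronglyMeasurable (dop G M α W (φ n)) volume)
    (hΨ : AEStronglyMeasurable Ψ volume) (hΞ : AEStronglyMeasurable Ξ volume)
    (h1 : Tendsto (fun n => eLpNorm (φ n - Ψ) 2 volume) atTop (𝓝 0))
    (h2 : Tendsto (fun n => eLpNorm (dop G M α W (φ n) - Ξ) 2 volume) atTop (𝓝 0)) :
    Tendsto (fun n => eLpNorm (dop G M α W (fun y => χ y • φ n y) -
      fun x => χ x • Ξ x + kin G M α (grad χ x) (Ψ x)) 2 volume) atTop (𝓝 0) := by
  have hC0 : 0 ≤ C := (abs_nonneg _).trans (hC 0)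
  have hC'0 : 0 ≤ C' := (norm_nonneg _).trans (hC' 0)
  have hb : ∀ n, eLpNorm (dop G M α W (fun y => χ y • φ n y) -
      fun x => χ x • Ξ x + kin G M α (grad χ x) (Ψ x)) 2 volume ≤
      ENNReal.ofReal C * eLpNorm (dop G M α W (φ n) - Ξ) 2 volume +
        ENNReal.ofReal C' * eLpNorm (φ n - Ψ) 2 volume := by
    intro n
    have hm1 : AEStronglyMeasurable (dop G M α W (φ n) - Ξ) volume := (hD n).sub hΞ
    have hm2 : AEStronglyMeasurable (φ n - Ψ) volume :=
      (hφ n).continuous.aestronglyMeasurable.sub hΨ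
    have e : ∀ x, ‖(dop G M α W (fun y => χ y • φ n y) -
        fun x => χ x • Ξ x + kin G M α (grad χ x) (Ψ x)) x‖ ≤
        C * ‖(dop G M α W (φ n) - Ξ) x‖ + C' * ‖(φ n - Ψ) x‖ := by
      intro x
      have e1 : (dop G M α W (fun y => χ y • φ n y) -
          fun x => χ x • Ξ x + kin G M α (grad χ x) (Ψ x)) x =
          χ x • (dop G M α W (φ n) - Ξ) x + kin G M α (grad χ x) ((φ n - Ψ) x) := by
        simp only [Pi.sub_apply, dop_mul G M α W (hχ x) (hφ n x), map_sub, smul_sub]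
        abel
      rw [e1]
      refine (norm_add_le _ _).trans (add_le_add ?_ ?_)
      · rw [norm_smul, Real.norm_eq_abs]
        exact mul_le_mul_of_nonneg_right (hC x) (norm_nonneg _)
      · exact (norm_kin_le G M α _ _).trans
          (mul_le_mul_of_nonneg_right (hC' x) (norm_nonneg _))
    have e2 : eLpNorm (dop G M α W (fun y => χ y • φ n y) -
        fun x => χ x • Ξ x + kin G M α (grad χ x) (Ψ x)) 2 volume ≤
        eLpNorm (fun x => C * ‖(dop G M α W (φ n) - Ξ) x‖ + C' * ‖(φ n - Ψ) x‖) 2 volume :=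
      eLpNorm_mono_real e
    refine e2.trans ?_
    have e3 : (fun x => C * ‖(dop G M α W (φ n) - Ξ) x‖ + C' * ‖(φ n - Ψ) x‖) =
        (C • fun x => ‖(dop G M α W (φ n) - Ξ) x‖) + (C' • fun x => ‖(φ n - Ψ) x‖) := rfl
    rw [e3]
    refine (eLpNorm_add_le (hm1.norm.const_smul C) (hm2.norm.const_smul C') (by norm_num)).trans ?_
    rw [eLpNorm_const_smul, eLpNorm_const_smul, eLpNorm_norm, eLpNorm_norm,
      Real.enorm_eq_ofReal hC0, Real.enorm_eq_ofReal hC'0]
  refine tendsto_of_tendsto_of_tendsto_of_le_of_le tendsto_const_nhds ?_ (fun n => bot_le) hb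
  have t1 := ENNReal.Tendsto.const_mul (a := ENNReal.ofReal C) h2 (Or.inr ENNReal.ofReal_ne_top)
  have t2 := ENNReal.Tendsto.const_mul (a := ENNReal.ofReal C') h1 (Or.inr ENNReal.ofReal_ne_top)
  simpa using t1.add t2

theorem continuous_wquart_apply (b : ColorBasis N) (M : FermionRep N F) (G : GammaNine)
    (α : Fin 16) {φ : Cfg N → F} (hφ : Continuous φ) :
    Continuous fun x => wquart b M G α x (φ x) := by
  simp only [wquart, LinearMap.sum_apply, LinearMap.smul_apply]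
  refine continuous_finsetSum _ fun A _ => continuous_finsetSum _ fun B _ =>
    continuous_finsetSum _ fun C _ => continuous_finsetSum _ fun i _ =>
    continuous_finsetSum _ fun j _ => continuous_finsetSum _ fun β _ => ?_
  have h1 : Continuous fun x : Cfg N =>
      ((1 / 2 * b.structConst A B C * x (i, B) * x (j, C) * G.γ2 i j α β : ℝ) : ℂ) := by
    refine Complex.continuous_ofReal.comp ?_
    have hx : ∀ iA : Fin 9 × Fin (N ^ 2 - 1), Continuous fun x : Cfg N => x iA := fun iA =>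
      (EuclideanSpace.proj iA : Cfg N →L[ℝ] ℝ).continuous
    exact ((continuous_const.mul (hx _)).mul (hx _)).mul continuous_const
  exact h1.smul ((LinearMap.continuous_of_finiteDimensional (M.θ β A)).comp hφ)

theorem continuous_dop (G : GammaNine) (M : FermionRep N F) (α : Fin 16)
    (W : Cfg N → F →ₗ[ℂ] F) {φ : Cfg N → F} (hφ : ContDiff ℝ 1 φ)
    (hW : Continuous fun x => W x (φ x)) : Continuous (dop G M α W φ) := by
  unfold dop
  refine Continuous.add ?_ hW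
  refine continuous_finsetSum _ fun i _ => continuous_finsetSum _ fun A _ =>
    continuous_finsetSum _ fun β _ => ?_
  refine Continuous.const_smul ?_ _
  exact (LinearMap.continuous_of_finiteDimensional (M.θ β A)).comp
    ((hφ.continuous_fderiv one_ne_zero).clm_apply continuous_const)

theorem continuous_supercharge (b : ColorBasis N) (M : FermionRep N F) (G : GammaNine)
    (α : Fin 16) {φ : Cfg N → F} (hφ : ContDiff ℝ 1 φ) : Continuous (supercharge b M G α φ) := by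
  rw [supercharge_eq_dop]
  exact continuous_dop G M α _ hφ (continuous_wquart_apply b M G α hφ.continuous)

/-- **cut-off of a zero energy state**: core vectors `ψ_n → χ Ψ` with `Q_α ψ_n → K_α(∇χ) Ψ`,
and `‖K_α(∇χ) Ψ‖² = ½ |∇χ|² |Ψ|²` pointwise (`norm_kin_sq`). -/
theorem zeroEnergy_cutoff {b : ColorBasis N} {M : FermionRep N F} {R : GaugeAction b M}
    {G : GammaNine} {Ψ : Cfg N → F} (hΨ : Ψ ∈ zeroEnergyStates b M R G)
    {χ : Cfg N → ℝ} (hχ : ContDiff ℝ ∞ χ) (hinv : ∀ g x, χ (b.act g x) = χ x)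
    {C : ℝ} (hC : ∀ x, |χ x| ≤ C) {C' : ℝ} (hC' : ∀ x, ‖grad χ x‖ ≤ C') :
    ∃ ψ : ℕ → Cfg N → F, (∀ n, IsCoreVec b R (ψ n)) ∧
      Tendsto (fun n => eLpNorm (ψ n - fun x => χ x • Ψ x) 2 volume) atTop (𝓝 0) ∧
      ∀ α, Tendsto (fun n => eLpNorm (supercharge b M G α (ψ n) -
        fun x => kin G M α (grad χ x) (Ψ x)) 2 volume) atTop (𝓝 0) := by
  obtain ⟨hm, φ, hφ, h1, h2⟩ := hΨ
  have hd : ∀ n, ContDiff ℝ 1 (φ n) := fun n => (hφ n).1.of_le (by exact_mod_cast le_top)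
  refine ⟨fun n x => χ x • φ n x, fun n => isCoreVec_mul hχ hinv (hφ n), ?_, fun α => ?_⟩
  · have hC0 : 0 ≤ C := (abs_nonneg _).trans (hC 0)
    have hb : ∀ n, eLpNorm ((fun x => χ x • φ n x) - fun x => χ x • Ψ x) 2 volume ≤
        ENNReal.ofReal C * eLpNorm (φ n - Ψ) 2 volume := by
      intro n
      refine eLpNorm_le_mul_eLpNorm_of_ae_le_mul (Eventually.of_forall fun x => ?_) 2
      simp only [Pi.sub_apply, ← smul_sub, norm_smul, Real.norm_eq_abs]
      exact mul_le_mul_of_nonneg_right (hC x) (norm_nonneg _)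
    refine tendsto_of_tendsto_of_tendsto_of_le_of_le tendsto_const_nhds ?_ (fun n => bot_le) hb
    simpa using ENNReal.Tendsto.const_mul (a := ENNReal.ofReal C) h1
      (Or.inr ENNReal.ofReal_ne_top)
  · have h := tendsto_dop_mul G M α (wquart b M G α) (hχ.differentiable (by simp)) hC hC'
      (fun n => (hd n).differentiable one_ne_zero) (Ψ := Ψ) (Ξ := fun _ => 0)
      (fun n => by
        rw [← supercharge_eq_dop]
        exact (continuous_supercharge b M G α (hd n)).aestronglyMeasurable)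
      hm.1 aestronglyMeasurable_const h1 (by
        have e : ∀ n, dop G M α (wquart b M G α) (φ n) - (fun _ => (0 : F)) =
            supercharge b M G α (φ n) := fun n => by
          rw [supercharge_eq_dop]; funext x; simp
        simp only [e]
        exact h2 α)
    simpa only [← supercharge_eq_dop, smul_zero, zero_add] using h

end Crest.Agent.R330.Ims714
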