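import Crest.Agent.R330.IBP_837
import Crest.Agent.R330.Ims_714

/-!
Row 330 (helper837), leaf A0-DIRG: first order operators with variable coefficients along an
arbitrary finite family of directions on any finite dimensional real normed space:
`D φ (x) = Σ_k (-i) a_k(x) (∂_{e_k} φ)(x) + V(x) φ(x)`.
Symmetry up to the divergence of the coefficients, Leibniz, weak limits, closability.
The charges `chargeW` written in an arbitrary orthonormal basis of `Cfg N`.
-/

set_option autoImplicit false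
set_option linter.unusedSectionVars false
set_option linter.deprecated false

noncomputable section

namespace Crest.Agent.R330.DirG837

open MeasureTheory Filter Topology Crest.MathPhysics.MatrixQM
open scoped ContDiff InnerProductSpace ENNReal
open Crest.Agent.R330.IBP837

/-! ### 1. Operators -/

section Op

variable {E : Type*} [NormedAddCommGroup E] [NormedSpace ℝ E] {ι : Type*} [Fintype ι]
  {F : Type*} [NormedAddCommGroup F] [InnerProductSpace ℂ F]

/-- `D φ (x) = Σ_k (-i) a_k(x) (∂_{e_k} φ)(x) + V(x) φ(x)` -/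
def dirG (e : ι → E) (a : ι → E → F →ₗ[ℂ] F) (V : E → F →ₗ[ℂ] F) (φ : E → F) (x : E) : F :=
  (∑ k, (-Complex.I) • a k x (fderiv ℝ φ x (e k))) + V x (φ x)

variable {e : ι → E} {a : ι → E → F →ₗ[ℂ] F} {V : E → F →ₗ[ℂ] F} {φ ψ : E → F}

theorem dirG_add {x : E} (hφ : DifferentiableAt ℝ φ x) (hψ : DifferentiableAt ℝ ψ x) :
    dirG e a V (φ + ψ) x = dirG e a V φ x + dirG e a V ψ x := by
  unfold dirG
  rw [fderiv_add hφ hψ]
  simp only [Pi.add_apply, ContinuousLinearMap.add_apply, map_add, smul_add,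
    Finset.sum_add_distrib]
  abel

theorem dirG_neg {x : E} : dirG e a V (-φ) x = - dirG e a V φ x := by
  unfold dirG
  rw [fderiv_neg]
  simp only [Pi.neg_apply, ContinuousLinearMap.neg_apply, map_neg, smul_neg,
    Finset.sum_neg_distrib]
  abel

theorem dirG_sub {x : E} (hφ : DifferentiableAt ℝ φ x) (hψ : DifferentiableAt ℝ ψ x) :
    dirG e a V (φ - ψ) x = dirG e a V φ x - dirG e a V ψ x := by
  rw [sub_eq_add_neg, dirG_add hφ hψ.neg, dirG_neg, sub_eq_add_neg]

theorem dirG_zero {x : E} : dirG e a V (0 : E → F) x = 0 := by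
  unfold dirG
  simp

theorem dirG_smul (c : ℂ) {x : E} (hφ : DifferentiableAt ℝ φ x) :
    dirG e a V (c • φ) x = c • dirG e a V φ x := by
  unfold dirG
  have h : fderiv ℝ (c • φ) x = c • fderiv ℝ φ x := fderiv_const_smul hφ c
  rw [h]
  simp only [Pi.smul_apply, ContinuousLinearMap.smul_apply, map_smul, smul_add, Finset.smul_sum]
  congr 1
  refine Finset.sum_congr rfl fun k _ => ?_
  rw [smul_comm]

/-- Leibniz rule for real cut-offs -/
theorem dirG_leibniz {χ : E → ℝ} {x : E}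
    (hχ : DifferentiableAt ℝ χ x) (hφ : DifferentiableAt ℝ φ x) :
    dirG e a V (fun y => χ y • φ y) x = χ x • dirG e a V φ x +
      ∑ k, (-Complex.I) • (fderiv ℝ χ x (e k)) • a k x (φ x) := by
  unfold dirG
  have h : fderiv ℝ (fun y => χ y • φ y) x =
      χ x • fderiv ℝ φ x + (fderiv ℝ χ x).smulRight (φ x) := fderiv_fun_smul hχ hφ
  rw [h]
  have hr : ∀ (L : F →ₗ[ℂ] F) (r : ℝ) (v : F), L (r • v) = r • L v := by
    intro L r v
    exact (L.restrictScalars ℝ).map_smul r v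
  simp only [ContinuousLinearMap.add_apply, ContinuousLinearMap.smul_apply,
    ContinuousLinearMap.smulRight_apply, map_add, hr, smul_add, Finset.sum_add_distrib,
    Finset.smul_sum]
  have h2 : ∀ k : ι, (-Complex.I) • χ x • a k x (fderiv ℝ φ x (e k)) =
      χ x • (-Complex.I) • a k x (fderiv ℝ φ x (e k)) := by
    intro k; rw [smul_comm]
  simp only [h2]
  abel

theorem dirG_congr_nhds {x : E} (h : φ =ᶠ[𝓝 x] ψ) : dirG e a V φ x = dirG e a V ψ x := by
  unfold dirG
  rw [h.fderiv_eq, h.eq_of_nhds]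

theorem dirG_eq_zero_of_notMem {x : E} (hx : x ∉ tsupport φ) : dirG e a V φ x = 0 := by
  have h : φ =ᶠ[𝓝 x] (0 : E → F) := notMem_tsupport_iff_eventuallyEq.mp hx
  rw [dirG_congr_nhds h, dirG_zero]

theorem support_dirG_subset : Function.support (dirG e a V φ) ⊆ tsupport φ := by
  intro x hx
  by_contra h
  exact hx (dirG_eq_zero_of_notMem h)

theorem hasCompactSupport_dirG (h : HasCompactSupport φ) :
    HasCompactSupport (dirG e a V φ) := h.mono' support_dirG_subset

/-! coefficients -/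

section Coef

variable [FiniteDimensional ℂ F]

theorem contDiff_lin {n : WithTop ℕ∞} {B : E → F →ₗ[ℂ] F} (hB : ∀ v, ContDiff ℝ n (fun x => B x v))
    (hφ : ContDiff ℝ n φ) : ContDiff ℝ n (fun x => B x (φ x)) := by
  have h1 : ContDiff ℝ n (fun x => ((LinearMap.toContinuousLinearMap (B x)).restrictScalars ℝ :
      F →L[ℝ] F)) := by
    rw [contDiff_clm_apply_iff]
    intro v
    exact hB v
  exact h1.clm_apply hφ

/-- product rule for `x ↦ B(x) ψ(x)` -/
theorem fderiv_lin {B : E → F →ₗ[ℂ] F} (hB : ∀ v, ContDiff ℝ 1 (fun x => B x v))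
    (hψ : ContDiff ℝ 1 ψ) (x v : E) :
    fderiv ℝ (fun y => B y (ψ y)) x v =
      B x (fderiv ℝ ψ x v) + fderiv ℝ (fun y => B y (ψ x)) x v := by
  have h1 : ContDiff ℝ 1 (fun x => ((LinearMap.toContinuousLinearMap (B x)).restrictScalars ℝ :
      F →L[ℝ] F)) := by
    rw [contDiff_clm_apply_iff]
    intro v
    exact hB v
  have hA := (h1.differentiable (by norm_num) x).hasFDerivAt
  have hp := (hψ.differentiable (by norm_num) x).hasFDerivAt
  have h2 := (hA.clm_apply hp).fderiv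
  have h3 := (hA.clm_apply (hasFDerivAt_const (ψ x) x)).fderiv
  have e2 : fderiv ℝ (fun y => B y (ψ y)) x = _ := h2
  have e3 : fderiv ℝ (fun y => B y (ψ x)) x = _ := h3
  rw [e2, e3]
  simp only [ContinuousLinearMap.add_apply, ContinuousLinearMap.comp_apply,
    ContinuousLinearMap.flip_apply, ContinuousLinearMap.zero_apply, map_zero, zero_add]
  rfl

theorem contDiff_dirG {n m : WithTop ℕ∞} (hmn : m + 1 ≤ n)
    (ha : ∀ k v, ContDiff ℝ m (fun x => a k x v)) (hV : ∀ v, ContDiff ℝ m (fun x => V x v))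
    (hφ : ContDiff ℝ n φ) : ContDiff ℝ m (dirG e a V φ) := by
  unfold dirG
  have hm : ContDiff ℝ m φ := hφ.of_le (le_trans (by exact le_self_add) hmn)
  apply ContDiff.add
  · apply ContDiff.sum
    intro k _
    exact (contDiff_lin (ha k) ((hφ.fderiv_right hmn).clm_apply contDiff_const)).const_smul _
  · exact contDiff_lin hV hm

theorem continuous_dirG (ha : ∀ k v, Continuous (fun x => a k x v))
    (hV : ∀ v, Continuous (fun x => V x v)) (hφ : ContDiff ℝ 1 φ) :
    Continuous (dirG e a V φ) :=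
  (contDiff_dirG (e := e) (a := a) (V := V) (n := 1) (m := 0) (by norm_num)
    (fun k v => contDiff_zero.mpr (ha k v)) (fun v => contDiff_zero.mpr (hV v)) hφ).continuous

variable [MeasurableSpace E] [BorelSpace E] {μ : Measure E}

theorem memLp_dirG {p : ℝ≥0∞} [IsFiniteMeasureOnCompacts μ]
    (ha : ∀ k v, Continuous (fun x => a k x v))
    (hV : ∀ v, Continuous (fun x => V x v)) (hφ : ContDiff ℝ 1 φ) (hc : HasCompactSupport φ) :
    MemLp (dirG e a V φ) p μ :=
  (continuous_dirG ha hV hφ).memLp_of_hasCompactSupport (hasCompactSupport_dirG hc)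

theorem hcs_lin {B : E → F →ₗ[ℂ] F} (h : HasCompactSupport φ) :
    HasCompactSupport (fun x => B x (φ x)) :=
  h.mono' (fun x hx => subset_tsupport _ (by intro h0; apply hx; simp [h0]))

/-- symmetry up to the divergence of the coefficients:
`∫⟪Dφ, ψ⟫ = ∫⟪φ, Dψ⟫ + Σ_k ∫⟪φ, -i (∂_{e_k} a_k) ψ⟫` -/
theorem dirG_symm_defect [FiniteDimensional ℝ E] [μ.IsAddHaarMeasure]
    (has : ∀ k x, (a k x).IsSymmetric) (hVs : ∀ x, (V x).IsSymmetric)
    (ha : ∀ k v, ContDiff ℝ 1 (fun x => a k x v)) (hV : ∀ v, Continuous (fun x => V x v))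
    (hφ : ContDiff ℝ 1 φ) (hψ : ContDiff ℝ 1 ψ)
    (hc : HasCompactSupport φ ∨ HasCompactSupport ψ) :
    ∫ x, ⟪dirG e a V φ x, ψ x⟫_ℂ ∂μ = ∫ x, ⟪φ x, dirG e a V ψ x⟫_ℂ ∂μ +
      ∑ k, ∫ x, ⟪φ x, (-Complex.I) • fderiv ℝ (fun y => a k y (ψ x)) x (e k)⟫_ℂ ∂μ := by
  have hVc : ∀ {f : E → F}, ContDiff ℝ 1 f → Continuous fun x => V x (f x) := by
    intro f hf
    exact (contDiff_lin (n := 0) (fun v => contDiff_zero.mpr (hV v))
      (hf.of_le (by norm_num))).continuous
  have hda : ∀ (k : ι) {f : E → F}, ContDiff ℝ 1 f →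
      Continuous fun x => a k x (fderiv ℝ f x (e k)) := by
    intro k f hf
    exact (contDiff_lin (n := 0) (fun v => (ha k v).of_le (by norm_num))
      (contDiff_zero.mpr (fderiv_apply_continuous hf _))).continuous
  have haf : ∀ (k : ι) {f : E → F}, ContDiff ℝ 1 f → ContDiff ℝ 1 fun x => a k x (f x) :=
    fun k f hf => contDiff_lin (ha k) hf
  have hdiv : ∀ k, Continuous fun x => fderiv ℝ (fun y => a k y (ψ x)) x (e k) := by
    intro k
    have h1 : (fun x => fderiv ℝ (fun y => a k y (ψ x)) x (e k)) =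
        fun x => fderiv ℝ (fun y => a k y (ψ y)) x (e k) - a k x (fderiv ℝ ψ x (e k)) := by
      funext x
      rw [fderiv_lin (ha k) hψ x (e k)]
      abel
    rw [h1]
    exact (fderiv_apply_continuous (haf k hψ) _).sub (hda k hψ)
  have hI1 : ∀ k, Integrable (fun x => ⟪(-Complex.I) • a k x (fderiv ℝ φ x (e k)), ψ x⟫_ℂ) μ := by
    intro k
    apply integrable_inner_of_cont ((hda k hφ).const_smul _) hψ.continuous
    refine hc.imp (fun h => ?_) id
    exact (hasCompactSupport_fderiv_apply h (e k)).mono'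
      (fun x hx => subset_tsupport _ (by intro h0; apply hx; simp [h0]))
  have hI2 : ∀ k, Integrable (fun x => ⟪φ x, (-Complex.I) • a k x (fderiv ℝ ψ x (e k))⟫_ℂ) μ := by
    intro k
    apply integrable_inner_of_cont hφ.continuous ((hda k hψ).const_smul _)
    refine hc.imp id (fun h => ?_)
    exact (hasCompactSupport_fderiv_apply h (e k)).mono'
      (fun x hx => subset_tsupport _ (by intro h0; apply hx; simp [h0]))
  have hdivz : HasCompactSupport ψ → ∀ k,
      HasCompactSupport fun x => (-Complex.I) • fderiv ℝ (fun y => a k y (ψ x)) x (e k) := by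
    intro h k
    refine h.mono' (fun x hx => subset_tsupport _ ?_)
    intro h0
    apply hx
    have h00 : ψ x = 0 := h0
    simp [h00]
  have hI3 : ∀ k, Integrable
      (fun x => ⟪φ x, (-Complex.I) • fderiv ℝ (fun y => a k y (ψ x)) x (e k)⟫_ℂ) μ := by
    intro k
    apply integrable_inner_of_cont hφ.continuous ((hdiv k).const_smul _)
    exact hc.imp id (fun h => hdivz h k)
  have hJ1 : Integrable (fun x => ⟪V x (φ x), ψ x⟫_ℂ) μ :=
    integrable_inner_of_cont (hVc hφ) hψ.continuous (hc.imp hcs_lin id)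
  have hJ2 : Integrable (fun x => ⟪φ x, V x (ψ x)⟫_ℂ) μ :=
    integrable_inner_of_cont hφ.continuous (hVc hψ) (hc.imp id hcs_lin)
  have hL : ∫ x, ⟪dirG e a V φ x, ψ x⟫_ℂ ∂μ =
      (∑ k, ∫ x, ⟪(-Complex.I) • a k x (fderiv ℝ φ x (e k)), ψ x⟫_ℂ ∂μ) +
        ∫ x, ⟪V x (φ x), ψ x⟫_ℂ ∂μ := by
    rw [← integral_finset_sum _ (fun k _ => hI1 k),
      ← integral_add (integrable_finset_sum _ (fun k _ => hI1 k)) hJ1]
    refine integral_congr_ae (Eventually.of_forall fun x => ?_)
    simp only [dirG, inner_add_left, sum_inner]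
  have hR : ∫ x, ⟪φ x, dirG e a V ψ x⟫_ℂ ∂μ =
      (∑ k, ∫ x, ⟪φ x, (-Complex.I) • a k x (fderiv ℝ ψ x (e k))⟫_ℂ ∂μ) +
        ∫ x, ⟪φ x, V x (ψ x)⟫_ℂ ∂μ := by
    rw [← integral_finset_sum _ (fun k _ => hI2 k),
      ← integral_add (integrable_finset_sum _ (fun k _ => hI2 k)) hJ2]
    refine integral_congr_ae (Eventually.of_forall fun x => ?_)
    simp only [dirG, inner_add_right, inner_sum]
  rw [hL, hR, add_right_comm, ← Finset.sum_add_distrib]
  congr 1
  · refine Finset.sum_congr rfl fun k _ => ?_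
    have e1 : ∀ x, ⟪(-Complex.I) • a k x (fderiv ℝ φ x (e k)), ψ x⟫_ℂ =
        Complex.I * ⟪fderiv ℝ φ x (e k), a k x (ψ x)⟫_ℂ := by
      intro x
      rw [inner_smul_left, has k x]
      simp
    rw [← integral_add (hI2 k) (hI3 k)]
    have e2 : ∀ x, ⟪φ x, (-Complex.I) • a k x (fderiv ℝ ψ x (e k))⟫_ℂ +
        ⟪φ x, (-Complex.I) • fderiv ℝ (fun y => a k y (ψ x)) x (e k)⟫_ℂ =
        (-Complex.I) * ⟪φ x, fderiv ℝ (fun y => a k y (ψ y)) x (e k)⟫_ℂ := by
      intro x
      rw [← inner_add_right, ← smul_add, ← fderiv_lin (ha k) hψ x (e k), inner_smul_right]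
    simp only [e1, e2]
    rw [integral_const_mul, integral_const_mul, ibp hφ (haf k hψ) ?_]
    · ring
    · exact hc.imp id hcs_lin
  · refine integral_congr_ae (Eventually.of_forall fun x => ?_)
    exact hVs x _ _

/-- symmetry for divergence free coefficients -/
theorem dirG_symm [FiniteDimensional ℝ E] [μ.IsAddHaarMeasure]
    (has : ∀ k x, (a k x).IsSymmetric) (hVs : ∀ x, (V x).IsSymmetric)
    (ha : ∀ k v, ContDiff ℝ 1 (fun x => a k x v)) (hV : ∀ v, Continuous (fun x => V x v))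
    (hdiv : ∀ x v, ∑ k, fderiv ℝ (fun y => a k y v) x (e k) = 0)
    (hφ : ContDiff ℝ 1 φ) (hψ : ContDiff ℝ 1 ψ)
    (hc : HasCompactSupport φ ∨ HasCompactSupport ψ) :
    ∫ x, ⟪dirG e a V φ x, ψ x⟫_ℂ ∂μ = ∫ x, ⟪φ x, dirG e a V ψ x⟫_ℂ ∂μ := by
  rw [dirG_symm_defect has hVs ha hV hφ hψ hc]
  have hI3 : ∀ k, Integrable
      (fun x => ⟪φ x, (-Complex.I) • fderiv ℝ (fun y => a k y (ψ x)) x (e k)⟫_ℂ) μ := by
    intro k
    have h1 : (fun x => fderiv ℝ (fun y => a k y (ψ x)) x (e k)) =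
        fun x => fderiv ℝ (fun y => a k y (ψ y)) x (e k) - a k x (fderiv ℝ ψ x (e k)) := by
      funext x
      rw [fderiv_lin (ha k) hψ x (e k)]
      abel
    have hcont : Continuous fun x => fderiv ℝ (fun y => a k y (ψ x)) x (e k) := by
      rw [h1]
      exact (fderiv_apply_continuous (contDiff_lin (ha k) hψ) _).sub
        (contDiff_lin (n := 0) (fun v => (ha k v).of_le (by norm_num))
          (contDiff_zero.mpr (fderiv_apply_continuous hψ _))).continuous
    apply integrable_inner_of_cont hφ.continuous (hcont.const_smul _)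
    refine hc.imp id (fun h => ?_)
    refine h.mono' (fun x hx => subset_tsupport _ ?_)
    intro h0
    apply hx
    have h00 : ψ x = 0 := h0
    simp [h00]
  rw [← integral_finset_sum _ (fun k _ => hI3 k)]
  have hz : ∀ x, ∑ k, ⟪φ x, (-Complex.I) • fderiv ℝ (fun y => a k y (ψ x)) x (e k)⟫_ℂ = 0 := by
    intro x
    rw [← inner_sum, ← Finset.smul_sum, hdiv x (ψ x), smul_zero, inner_zero_right]
  simp only [hz]
  simp

/-- weak form of limits for divergence free operators -/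
theorem dirG_weak_of_limit [FiniteDimensional ℝ E] [μ.IsAddHaarMeasure]
    (has : ∀ k x, (a k x).IsSymmetric) (hVs : ∀ x, (V x).IsSymmetric)
    (ha : ∀ k v, ContDiff ℝ 1 (fun x => a k x v)) (hV : ∀ v, Continuous (fun x => V x v))
    (hdiv : ∀ x v, ∑ k, fderiv ℝ (fun y => a k y v) x (e k) = 0)
    {f : ℕ → E → F} {Φ Y : E → F}
    (hf : ∀ n, ContDiff ℝ 1 (f n)) (hc : ∀ n, HasCompactSupport (f n))
    (hΦ : MemLp Φ 2 μ) (hY : MemLp Y 2 μ)
    (h1 : Tendsto (fun n => eLpNorm (f n - Φ) 2 μ) atTop (𝓝 0))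
    (h2 : Tendsto (fun n => eLpNorm (dirG e a V (f n) - Y) 2 μ) atTop (𝓝 0))
    (hψ : ContDiff ℝ 1 ψ) (hψc : HasCompactSupport ψ) :
    ∫ x, ⟪Y x, ψ x⟫_ℂ ∂μ = ∫ x, ⟪Φ x, dirG e a V ψ x⟫_ℂ ∂μ := by
  have ha0 : ∀ k v, Continuous (fun x => a k x v) := fun k v => (ha k v).continuous
  have hm : ∀ n, MemLp (f n) 2 μ := fun n =>
    (hf n).continuous.memLp_of_hasCompactSupport (hc n)
  have hψm : MemLp ψ 2 μ := hψ.continuous.memLp_of_hasCompactSupport hψc
  have hDm : MemLp (dirG e a V ψ) 2 μ := memLp_dirG ha0 hV hψ hψc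
  have hDn : ∀ n, MemLp (dirG e a V (f n)) 2 μ := fun n => memLp_dirG ha0 hV (hf n) (hc n)
  have z : Tendsto (fun _ : ℕ => eLpNorm (ψ - ψ) 2 μ) atTop (𝓝 0) := by simp
  have z' : Tendsto (fun _ : ℕ => eLpNorm (dirG e a V ψ - dirG e a V ψ) 2 μ) atTop (𝓝 0) := by
    simp
  have hA := tendsto_integral_inner hDn hY (fun _ : ℕ => hψm) hψm h2 z
  have hB := tendsto_integral_inner hm hΦ (fun _ : ℕ => hDm) hDm h1 z'
  have hAB : (fun n => ∫ x, ⟪dirG e a V (f n) x, ψ x⟫_ℂ ∂μ) =
      fun n => ∫ x, ⟪f n x, dirG e a V ψ x⟫_ℂ ∂μ := by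
    funext n
    exact dirG_symm has hVs ha hV hdiv (hf n) hψ (Or.inl (hc n))
  rw [hAB] at hA
  exact tendsto_nhds_unique hA hB

end Coef

end Op

/-! ### 2. The charges in an arbitrary orthonormal basis -/

section Onb

variable {N : ℕ} {F : Type*} [NormedAddCommGroup F] [InnerProductSpace ℂ F]
  [FiniteDimensional ℂ F]

/-- `(γθ)_v = Σ γ^i_αβ v_i^A θ_β^A` -/
def gth (M : FermionRep N F) (G : GammaNine) (α : Fin 16) (v : Cfg N) : F →ₗ[ℂ] F :=
  ∑ k : Fin 9 × Fin (N ^ 2 - 1), ((v k : ℝ) : ℂ) • dco M G α k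

theorem gth_apply (M : FermionRep N F) (G : GammaNine) (α : Fin 16) (v : Cfg N) (f : F) :
    gth M G α v f = ∑ k : Fin 9 × Fin (N ^ 2 - 1), ((v k : ℝ) : ℂ) • dco M G α k f := by
  simp [gth]

theorem gth_symm (M : FermionRep N F) (G : GammaNine) (α : Fin 16) (v : Cfg N) :
    (gth M G α v).IsSymmetric :=
  isSymmetric_sum _ fun k _ => isSymmetric_real_smul (dco_symm M G α k) _

theorem gth_single (M : FermionRep N F) (G : GammaNine) (α : Fin 16)
    (k : Fin 9 × Fin (N ^ 2 - 1)) :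
    gth M G α (EuclideanSpace.single k 1) = dco M G α k := by
  unfold gth
  rw [Finset.sum_eq_single k]
  · simp
  · intro j _ hj
    simp [hj]
  · simp

theorem gth_add (M : FermionRep N F) (G : GammaNine) (α : Fin 16) (v w : Cfg N) :
    gth M G α (v + w) = gth M G α v + gth M G α w := by
  unfold gth
  rw [← Finset.sum_add_distrib]
  refine Finset.sum_congr rfl fun k _ => ?_
  rw [PiLp.add_apply, Complex.ofReal_add, add_smul]

theorem gth_smul (M : FermionRep N F) (G : GammaNine) (α : Fin 16) (c : ℝ) (v : Cfg N) :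
    gth M G α (c • v) = (c : ℂ) • gth M G α v := by
  unfold gth
  rw [Finset.smul_sum]
  refine Finset.sum_congr rfl fun k _ => ?_
  rw [PiLp.smul_apply, smul_eq_mul, Complex.ofReal_mul, smul_smul]

/-- bundled: `v ↦ (γθ)_v` is real linear -/
def gthL (M : FermionRep N F) (G : GammaNine) (α : Fin 16) : Cfg N →ₗ[ℝ] (F →ₗ[ℂ] F) where
  toFun := gth M G α
  map_add' := gth_add M G α
  map_smul' c v := by
    rw [gth_smul, Complex.coe_smul]; rfl

theorem gth_eq_kin (M : FermionRep N F) (G : GammaNine) (α : Fin 16) (v : Cfg N) :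
    Ims714.kin G M α v = (-Complex.I) • gth M G α v := by
  unfold Ims714.kin gth Ims714.thc Ims714.kc dco
  congr 1
  rw [Fintype.sum_prod_type, Fintype.sum_prod_type]
  simp only [Finset.smul_sum, smul_smul]
  have h1 : ∀ β : Fin 16, ∀ A : Fin (N ^ 2 - 1),
      ((∑ i, G.γ i α β * v (i, A) : ℝ) : ℂ) • M.θ β A =
        ∑ i, (((v (i, A) : ℝ) : ℂ) * (G.γ i α β : ℂ)) • M.θ β A := by
    intro β A
    rw [Complex.ofReal_sum, Finset.sum_smul]
    refine Finset.sum_congr rfl fun i _ => ?_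
    rw [Complex.ofReal_mul, mul_comm]
  simp only [h1]
  have h2 : ∀ β : Fin 16, ∑ A : Fin (N ^ 2 - 1), ∑ i : Fin 9,
      (((v (i, A) : ℝ) : ℂ) * (G.γ i α β : ℂ)) • M.θ β A =
      ∑ i : Fin 9, ∑ A : Fin (N ^ 2 - 1), (((v (i, A) : ℝ) : ℂ) * (G.γ i α β : ℂ)) • M.θ β A :=
    fun β => Finset.sum_comm
  simp only [h2]
  rw [Finset.sum_comm]
  refine Finset.sum_congr rfl fun i _ => ?_
  rw [Finset.sum_comm]

/-- basis independence: `Σ_k dco_k (D e_k) = Σ_a (γθ)_{e_a} (D e_a)` for every ONB -/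
theorem sum_dco_onb {ι : Type*} [Fintype ι] (B : OrthonormalBasis ι ℝ (Cfg N))
    (M : FermionRep N F) (G : GammaNine) (α : Fin 16) (D : Cfg N →L[ℝ] F) :
    ∑ k, dco M G α k (D (EuclideanSpace.single k 1)) = ∑ a, gth M G α (B a) (D (B a)) := by
  have h1 : ∀ k : Fin 9 × Fin (N ^ 2 - 1), D (EuclideanSpace.single k 1) =
      ∑ a, ((B a k : ℝ) : ℂ) • D (B a) := by
    intro k
    conv_lhs => rw [← B.sum_repr' (EuclideanSpace.single k (1 : ℝ))]
    rw [map_sum]
    refine Finset.sum_congr rfl fun a _ => ?_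
    rw [map_smul, Complex.coe_smul]
    congr 1
    rw [EuclideanSpace.inner_single_right]
    simp
  simp only [h1, map_sum, map_smul, gth_apply]
  rw [Finset.sum_comm]

/-- the charge `Q_α^W` in an arbitrary orthonormal basis -/
theorem chargeW_onb {ι : Type*} [Fintype ι] (B : OrthonormalBasis ι ℝ (Cfg N))
    (M : FermionRep N F) (G : GammaNine) (W : Fin 16 → Fin 16 → Fin (N ^ 2 - 1) → Cfg N → ℝ)
    (α : Fin 16) (φ : Cfg N → F) (x : Cfg N) :
    chargeW M G W α φ x =
      dirG (fun a => B a) (fun a _ => gth M G α (B a)) (fun x => vco M (fun β A => W α β A x))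
        φ x := by
  rw [chargeW_apply]
  unfold dirG
  congr 1
  rw [← Finset.smul_sum, ← Finset.smul_sum, sum_dco_onb B]

end Onb

end Crest.Agent.R330.DirG837
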