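import Crest.Agent.R330.Amp2_406
import Crest.Agent.R330.FibProj_837

/-!
Row 330 (helper406): leaf C11 = (I3) of the slice estimate.

* `inner_ampx'`, `norm_ampx_sq_le'`, `bridge` : amplitudes for `Ψ` only square integrable in the fibre.
* `amp_I3` : for `Ψ j`, `Φ j` jointly `C¹`, all fibre norms bounded: the amplitudes `a j` are `C¹`, live in
  one ball and are bounded in `H¹`.
* product form `Ψ(r,(y,z)) = gs(r,z) • Ψ₀(r,y)` : bounds, relation with `fpr`.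
-/

set_option autoImplicit false
set_option linter.unusedSectionVars false

noncomputable section

namespace Crest.Agent.R330.Amp406

open MeasureTheory Filter Topology Set Crest.Agent.R330.Fib837 Crest.Agent.R330.Amp837
open Crest.Agent.R330.FibProj837
open scoped ContDiff InnerProductSpace ENNReal

section L2

variable {X Ω : Type*} [NormedAddCommGroup X] [NormedSpace ℝ X] [FiniteDimensional ℝ X]
  [MeasurableSpace X] [BorelSpace X]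
  [NormedAddCommGroup Ω] [NormedSpace ℝ Ω] [FiniteDimensional ℝ Ω] [MeasurableSpace Ω]
  [BorelSpace Ω] {ν : Measure X} [ν.IsAddHaarMeasure] {μ : Measure Ω} [μ.IsAddHaarMeasure]
  {F : Type*} [NormedAddCommGroup F] [InnerProductSpace ℂ F] [FiniteDimensional ℂ F]
  {Fx : Type*} [NormedAddCommGroup Fx] [InnerProductSpace ℂ Fx] [FiniteDimensional ℂ Fx]
  {Ψ Ψ' : X × Ω → Fx →L[ℂ] F} {Φ : X × Ω → F}

theorem adj_sub (S T : Fx →L[ℂ] F) : adj (S - T) = adj S - adj T := by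
  have : CompleteSpace F := FiniteDimensional.complete ℂ F
  have : CompleteSpace Fx := FiniteDimensional.complete ℂ Fx
  exact map_sub (ContinuousLinearMap.adjoint : (Fx →L[ℂ] F) ≃ₗᵢ⋆[ℂ] (F →L[ℂ] Fx)) S T

theorem integrable_ampx' {r : X} (hΨ : ∀ v, MemLp (fun w => Ψ (r, w) v) 2 μ)
    (hΦ : MemLp (fun w => Φ (r, w)) 2 μ) : Integrable (fun w => adj (Ψ (r, w)) (Φ (r, w))) μ := by
  have h : (fun w => adj (Ψ (r, w)) (Φ (r, w))) = fun w =>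
      ∑ i, ⟪Ψ (r, w) (stdOrthonormalBasis ℂ Fx i), Φ (r, w)⟫_ℂ • stdOrthonormalBasis ℂ Fx i := by
    funext w
    rw [← (stdOrthonormalBasis ℂ Fx).sum_repr' (adj (Ψ (r, w)) (Φ (r, w)))]
    exact Finset.sum_congr rfl fun i _ => by rw [inner_adj_right]
  rw [h]
  exact integrable_finsetSum _ fun i _ =>
    (Crest.Agent.R330.IBP837.integrable_inner_of_memLp (hΨ _) hΦ).smul_const _

theorem inner_ampx' {r : X} (hΨ : ∀ v, MemLp (fun w => Ψ (r, w) v) 2 μ)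
    (hΦ : MemLp (fun w => Φ (r, w)) 2 μ) (v : Fx) :
    ⟪v, ampx μ Ψ Φ r⟫_ℂ = ∫ w, ⟪Ψ (r, w) v, Φ (r, w)⟫_ℂ ∂μ := by
  have : CompleteSpace Fx := FiniteDimensional.complete ℂ Fx
  have h := (innerSL ℂ v).integral_comp_comm (integrable_ampx' hΨ hΦ)
  simp only [innerSL_apply_apply] at h
  unfold ampx
  rw [← h]
  refine integral_congr_ae (Eventually.of_forall fun w => ?_)
  exact inner_adj_right _ _ _

theorem norm_ampx_sq_le' {r : X} {C : ℝ} (hC0 : 0 ≤ C)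
    (hC : ∀ v, MemLp (fun w => Ψ (r, w) v) 2 μ ∧ ∫ w, ‖Ψ (r, w) v‖ ^ 2 ∂μ ≤ C * ‖v‖ ^ 2)
    (hΦ : MemLp (fun w => Φ (r, w)) 2 μ) :
    ‖ampx μ Ψ Φ r‖ ^ 2 ≤ C * ∫ w, ‖Φ (r, w)‖ ^ 2 ∂μ := by
  set v := ampx μ Ψ Φ r with hv
  have h1 : ‖v‖ ^ 2 = ‖amp μ (fun q => Ψ q v) Φ r‖ := by
    unfold amp
    rw [← inner_ampx' (fun v => (hC v).1) hΦ, ← hv, inner_self_eq_norm_sq_to_K]
    simp
  have h2 := norm_amp_sq_le (μ := μ) (Ψ := fun q => Ψ q v) (Φ := Φ) r (hC v).1 hΦ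
  rw [← h1] at h2
  have hB : 0 ≤ ∫ w, ‖Φ (r, w)‖ ^ 2 ∂μ := integral_nonneg fun _ => by positivity
  have h3 : (‖v‖ ^ 2) ^ 2 ≤ (C * ‖v‖ ^ 2) * ∫ w, ‖Φ (r, w)‖ ^ 2 ∂μ :=
    h2.trans (mul_le_mul_of_nonneg_right (hC v).2 hB)
  by_cases hv0 : ‖v‖ ^ 2 = 0
  · rw [hv0]
    positivity
  · have h4 : 0 < ‖v‖ ^ 2 := lt_of_le_of_ne (by positivity) (Ne.symm hv0)
    have h5 : ‖v‖ ^ 2 * ‖v‖ ^ 2 ≤ (C * ∫ w, ‖Φ (r, w)‖ ^ 2 ∂μ) * ‖v‖ ^ 2 := by nlinarith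
    exact le_of_mul_le_mul_right h5 h4

theorem ampx_sub {r : X} (hΨ : ∀ v, MemLp (fun w => Ψ (r, w) v) 2 μ)
    (hΨ' : ∀ v, MemLp (fun w => Ψ' (r, w) v) 2 μ) (hΦ : MemLp (fun w => Φ (r, w)) 2 μ) :
    ampx μ (fun q => Ψ q - Ψ' q) Φ r = ampx μ Ψ Φ r - ampx μ Ψ' Φ r := by
  unfold ampx
  rw [← integral_sub (integrable_ampx' hΨ hΦ) (integrable_ampx' hΨ' hΦ)]
  refine integral_congr_ae (Eventually.of_forall fun w => ?_)
  simp only [adj_sub]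
  rfl

/-- `L²` bound of amplitudes, `Ψ` only square integrable in the fibre -/
theorem integral_ampx_sq_le' (hΦ : Continuous Φ) (hc : HasCompactSupport Φ)
    {C : ℝ} (hC0 : 0 ≤ C) (hC : ∀ r, (∃ w, Φ (r, w) ≠ 0) → ∀ v, MemLp (fun w => Ψ (r, w) v) 2 μ ∧
      ∫ w, ‖Ψ (r, w) v‖ ^ 2 ∂μ ≤ C * ‖v‖ ^ 2) :
    ∫ r, ‖ampx μ Ψ Φ r‖ ^ 2 ∂ν ≤ C * ∫ q, ‖Φ q‖ ^ 2 ∂(ν.prod μ) := by
  rw [← integral_fibre hΦ hc, ← integral_const_mul]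
  have hpt : ∀ r, ‖ampx μ Ψ Φ r‖ ^ 2 ≤ C * ∫ w, ‖Φ (r, w)‖ ^ 2 ∂μ := by
    intro r
    by_cases h : ∃ w, Φ (r, w) ≠ 0
    · exact norm_ampx_sq_le' hC0 (hC r h) (fibre_memLp hΦ hc r)
    · push Not at h
      rw [ampx_eq_zero h, norm_zero, zero_pow two_ne_zero]
      have : 0 ≤ ∫ w, ‖Φ (r, w)‖ ^ 2 ∂μ := integral_nonneg fun _ => by positivity
      positivity
  refine integral_mono_of_nonneg (Eventually.of_forall fun r => by positivity) ?_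
    (Eventually.of_forall hpt)
  exact ((integrable_normSq (ν := ν) (μ := μ) hΦ hc).integral_prod_left).const_mul C

/-- **bridge**: amplitudes of two block states which are close in `L²` are close -/
theorem bridge (hΦ : Continuous Φ) (hc : HasCompactSupport Φ) {ε : ℝ}
    (hΨ : ∀ r, (∃ w, Φ (r, w) ≠ 0) → ∀ v, MemLp (fun w => Ψ (r, w) v) 2 μ)
    (hΨ' : ∀ r, (∃ w, Φ (r, w) ≠ 0) → ∀ v, MemLp (fun w => Ψ' (r, w) v) 2 μ)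
    (hd : ∀ r, (∃ w, Φ (r, w) ≠ 0) → ∀ v,
      ∫ w, ‖Ψ (r, w) v - Ψ' (r, w) v‖ ^ 2 ∂μ ≤ ε ^ 2 * ‖v‖ ^ 2) :
    ∫ r, ‖ampx μ Ψ Φ r - ampx μ Ψ' Φ r‖ ^ 2 ∂ν ≤ ε ^ 2 * ∫ q, ‖Φ q‖ ^ 2 ∂(ν.prod μ) := by
  have h := integral_ampx_sq_le' (ν := ν) (μ := μ) (Ψ := fun q => Ψ q - Ψ' q) hΦ hc
    (sq_nonneg ε) (fun r hr v => ⟨(hΨ r hr v).sub (hΨ' r hr v), hd r hr v⟩)
  refine le_trans (le_of_eq ?_) h
  refine integral_congr_ae (Eventually.of_forall fun r => ?_)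
  simp only
  by_cases hr : ∃ w, Φ (r, w) ≠ 0
  · rw [ampx_sub (hΨ r hr) (hΨ' r hr) (fibre_memLp hΦ hc r)]
  · push Not at hr
    rw [ampx_eq_zero hr, ampx_eq_zero hr, ampx_eq_zero hr, sub_zero]

end L2

section I3

variable {R Ω : Type*} [NormedAddCommGroup R] [InnerProductSpace ℝ R] [FiniteDimensional ℝ R]
  [MeasurableSpace R] [BorelSpace R]
  [NormedAddCommGroup Ω] [NormedSpace ℝ Ω] [FiniteDimensional ℝ Ω] [MeasurableSpace Ω]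
  [BorelSpace Ω] {μ : Measure Ω} [μ.IsAddHaarMeasure]
  {F : Type*} [NormedAddCommGroup F] [InnerProductSpace ℂ F] [FiniteDimensional ℂ F]
  {Fx : Type*} [NormedAddCommGroup Fx] [InnerProductSpace ℂ Fx] [FiniteDimensional ℂ Fx]

theorem opNorm_sq_le_basis {κ : Type*} [Fintype κ] (e : OrthonormalBasis κ ℝ R)
    {G : Type*} [NormedAddCommGroup G] [NormedSpace ℝ G] (T : R →L[ℝ] G) :
    ‖T‖ ^ 2 ≤ ∑ i, ‖T (e i)‖ ^ 2 := by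
  have h2 : ‖T‖ ≤ Real.sqrt (∑ i, ‖T (e i)‖ ^ 2) := by
    refine T.opNorm_le_bound (Real.sqrt_nonneg _) fun v => ?_
    calc ‖T v‖ = ‖T (∑ i, ⟪e i, v⟫_ℝ • e i)‖ := by rw [e.sum_repr' v]
      _ = ‖∑ i, ⟪e i, v⟫_ℝ • T (e i)‖ := by rw [map_sum]; simp only [map_smul]
      _ ≤ ∑ i, ‖T (e i)‖ * |⟪e i, v⟫_ℝ| := by
          refine (norm_sum_le _ _).trans (le_of_eq ?_)
          refine Finset.sum_congr rfl fun i _ => ?_
          rw [norm_smul, Real.norm_eq_abs, mul_comm]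
      _ ≤ Real.sqrt (∑ i, ‖T (e i)‖ ^ 2) * Real.sqrt (∑ i, |⟪e i, v⟫_ℝ| ^ 2) :=
          Real.sum_mul_le_sqrt_mul_sqrt _ _ _
      _ = Real.sqrt (∑ i, ‖T (e i)‖ ^ 2) * ‖v‖ := by
          congr 1
          have : ∑ i, |⟪e i, v⟫_ℝ| ^ 2 = ‖v‖ ^ 2 := by
            have := e.sum_sq_norm_inner_right v
            simpa [Real.norm_eq_abs] using this
          rw [this, Real.sqrt_sq (norm_nonneg _)]
  calc ‖T‖ ^ 2 ≤ Real.sqrt (∑ i, ‖T (e i)‖ ^ 2) ^ 2 := by gcongr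
    _ = _ := Real.sq_sqrt (Finset.sum_nonneg fun i _ => by positivity)

/-- support over the base -/
theorem fderiv_base_supp {Φ : R × Ω → F} {ρ : ℝ} (hρ : ∀ r w, ρ < ‖r‖ → Φ (r, w) = 0)
    {r : R} {w : Ω} (hr : ρ < ‖r‖) : fderiv ℝ Φ (r, w) = 0 := by
  have h2 : Φ =ᶠ[𝓝 (r, w)] fun _ => 0 := by
    have h3 : IsOpen {q : R × Ω | ρ < ‖q.1‖} := isOpen_lt continuous_const (by fun_prop)
    filter_upwards [h3.mem_nhds (show (r, w) ∈ {q : R × Ω | ρ < ‖q.1‖} from hr)] with q hq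
    exact hρ q.1 q.2 hq
  rw [h2.fderiv_eq]
  simp

theorem tsupport_ampx {Ψ : R × Ω → Fx →L[ℂ] F} {Φ : R × Ω → F} {ρ : ℝ}
    (hρ : ∀ r w, ρ < ‖r‖ → Φ (r, w) = 0) :
    tsupport (ampx μ Ψ Φ) ⊆ Metric.closedBall 0 ρ := by
  refine closure_minimal (fun r hr => ?_) Metric.isClosed_closedBall
  rw [mem_closedBall_zero_iff]
  by_contra h
  exact hr (ampx_eq_zero fun w => hρ r w (not_le.1 h))

/-- **(I3)** one amplitude: all bounds in terms of the fibre norms of `Ψ` over the ball `‖r‖ ≤ ρ` -/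
theorem amp_bounds {κ : Type*} [Fintype κ] (e : OrthonormalBasis κ ℝ R)
    {Ψ : R × Ω → Fx →L[ℂ] F} {Φ : R × Ω → F} (hΨ : ContDiff ℝ 1 Ψ) (hΦ : ContDiff ℝ 1 Φ)
    (hc : HasCompactSupport Φ) {C₀ C₁ D₀ D₁ ρ : ℝ} (hC0 : 0 ≤ C₀) (hC1 : 0 ≤ C₁)
    (hρ : ∀ r w, ρ < ‖r‖ → Φ (r, w) = 0)
    (hΨ2 : ∀ r, ‖r‖ ≤ ρ → ∀ v, MemLp (fun w => Ψ (r, w) v) 2 μ ∧
      ∫ w, ‖Ψ (r, w) v‖ ^ 2 ∂μ ≤ C₀ * ‖v‖ ^ 2)
    (hdΨ2 : ∀ r, ‖r‖ ≤ ρ → ∀ i v, MemLp (fun w => fderiv ℝ Ψ (r, w) (e i, 0) v) 2 μ ∧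
      ∫ w, ‖fderiv ℝ Ψ (r, w) (e i, 0) v‖ ^ 2 ∂μ ≤ C₁ * ‖v‖ ^ 2)
    (hΦ2 : ∫ q, ‖Φ q‖ ^ 2 ∂((volume : Measure R).prod μ) ≤ D₀)
    (hdΦ2 : ∀ i, ∫ q, ‖fderiv ℝ Φ q (e i, 0)‖ ^ 2 ∂((volume : Measure R).prod μ) ≤ D₁) :
    ContDiff ℝ 1 (ampx μ Ψ Φ) ∧ HasCompactSupport (ampx μ Ψ Φ) ∧
      tsupport (ampx μ Ψ Φ) ⊆ Metric.closedBall 0 ρ ∧ ∫ r, ‖ampx μ Ψ Φ r‖ ^ 2 ≤ C₀ * D₀ ∧
      ∫ r, ‖fderiv ℝ (ampx μ Ψ Φ) r‖ ^ 2 ≤ Fintype.card κ * (2 * C₀ * D₁ + 2 * C₁ * D₀) := by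
  have hsub : ∀ r w, Φ (r, w) ≠ 0 → ‖r‖ ≤ ρ := by
    intro r w h
    by_contra h1
    exact h (hρ r w (not_le.1 h1))
  have hsub' : ∀ r w (v : R), fderiv ℝ Φ (r, w) (v, 0) ≠ 0 → ‖r‖ ≤ ρ := by
    intro r w v h
    by_contra h1
    apply h
    rw [fderiv_base_supp hρ (not_le.1 h1)]
    rfl
  have hcd : ContDiff ℝ 1 (ampx μ Ψ Φ) := contDiff_ampx (n := 1) hΨ hΦ hc
  have hcs : HasCompactSupport (ampx μ Ψ Φ) := hasCompactSupport_ampx hc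
  refine ⟨hcd, hcs, tsupport_ampx hρ, ?_, ?_⟩
  · refine (integral_ampx_sq_le hΨ.continuous hΦ.continuous hc hC0
      (fun r ⟨w, hw⟩ => hΨ2 r (hsub r w hw))).trans ?_
    exact mul_le_mul_of_nonneg_left hΦ2 hC0
  · have hdc : Continuous (fderiv ℝ (ampx μ Ψ Φ)) := hcd.continuous_fderiv (by norm_num)
    have hdcs : HasCompactSupport (fderiv ℝ (ampx μ Ψ Φ)) := hcs.fderiv (𝕜 := ℝ)
    have hI0 : Integrable (fun r => ‖fderiv ℝ (ampx μ Ψ Φ) r‖ ^ 2) volume :=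
      Rel893.integrable_norm_sq_of_memLp (hdc.memLp_of_hasCompactSupport hdcs)
    have hIi : ∀ i, Integrable (fun r => ‖fderiv ℝ (ampx μ Ψ Φ) r (e i)‖ ^ 2) volume := by
      intro i
      refine Rel893.integrable_norm_sq_of_memLp
        ((hdc.clm_apply continuous_const).memLp_of_hasCompactSupport ?_)
      exact hdcs.mono' fun x hx => subset_tsupport _ (by intro h0; apply hx; simp [h0])
    have h1 : ∀ i, ∫ r, ‖fderiv ℝ (ampx μ Ψ Φ) r (e i)‖ ^ 2 ≤ 2 * C₀ * D₁ + 2 * C₁ * D₀ := by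
      intro i
      refine (integral_fderiv_ampx_sq_le hΨ hΦ hc (e i) hC0 hC1
        (fun r ⟨w, hw⟩ => hΨ2 r (hw.elim (hsub r w) (hsub' r w (e i))))
        (fun r ⟨w, hw⟩ => hdΨ2 r (hsub r w hw) i)).trans ?_
      have h2 := hdΦ2 i
      have h3 := mul_le_mul_of_nonneg_left h2 (by linarith : 0 ≤ 2 * C₀)
      have h4 := mul_le_mul_of_nonneg_left hΦ2 (by linarith : 0 ≤ 2 * C₁)
      linarith
    calc ∫ r, ‖fderiv ℝ (ampx μ Ψ Φ) r‖ ^ 2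
        ≤ ∫ r, ∑ i, ‖fderiv ℝ (ampx μ Ψ Φ) r (e i)‖ ^ 2 :=
          integral_mono hI0 (integrable_finsetSum _ fun i _ => hIi i)
            fun r => opNorm_sq_le_basis e _
      _ = ∑ i, ∫ r, ‖fderiv ℝ (ampx μ Ψ Φ) r (e i)‖ ^ 2 := integral_finsetSum _ fun i _ => hIi i
      _ ≤ ∑ _i : κ, (2 * C₀ * D₁ + 2 * C₁ * D₀) := Finset.sum_le_sum fun i _ => h1 i
      _ = _ := by rw [Finset.sum_const, Finset.card_univ, nsmul_eq_mul]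

end I3

/-! ### product form -/

section Prod

variable {X Y Z : Type*} [NormedAddCommGroup X] [NormedSpace ℝ X] [FiniteDimensional ℝ X]
  [MeasurableSpace X] [BorelSpace X]
  [NormedAddCommGroup Y] [NormedSpace ℝ Y] [FiniteDimensional ℝ Y] [MeasurableSpace Y]
  [BorelSpace Y] [NormedAddCommGroup Z] [NormedSpace ℝ Z] [FiniteDimensional ℝ Z]
  [MeasurableSpace Z] [BorelSpace Z]
  {ν : Measure X} [ν.IsAddHaarMeasure] {μY : Measure Y} [μY.IsAddHaarMeasure]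
  {μZ : Measure Z} [μZ.IsAddHaarMeasure]
  {F : Type*} [NormedAddCommGroup F] [InnerProductSpace ℂ F] [FiniteDimensional ℂ F]
  {Fx : Type*} [NormedAddCommGroup Fx] [InnerProductSpace ℂ Fx] [FiniteDimensional ℂ Fx]

/-- `Ψ(r,(y,z)) = gs(r,z) • Ψ₀(r,y)` -/
def pst (gs : X × Z → ℝ) (Ψ₀ : X × Y → Fx →L[ℂ] F) (q : X × (Y × Z)) : Fx →L[ℂ] F :=
  gs (q.1, q.2.2) • Ψ₀ (q.1, q.2.1)

variable {gs : X × Z → ℝ} {Ψ₀ : X × Y → Fx →L[ℂ] F}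

theorem pst_apply (q : X × (Y × Z)) (v : Fx) :
    pst gs Ψ₀ q v = gs (q.1, q.2.2) • Ψ₀ (q.1, q.2.1) v := rfl

theorem contDiff_pst {n : WithTop ℕ∞} (hg : ContDiff ℝ n gs) (hΨ : ContDiff ℝ n Ψ₀) :
    ContDiff ℝ n (pst gs Ψ₀) := by
  have h1 : ContDiff ℝ n fun q : X × (Y × Z) => gs (q.1, q.2.2) := hg.comp (by fun_prop)
  have h2 : ContDiff ℝ n fun q : X × (Y × Z) => Ψ₀ (q.1, q.2.1) := hΨ.comp (by fun_prop)
  exact h1.smul h2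

theorem fderiv_pst (hg : ContDiff ℝ 1 gs) (hΨ : ContDiff ℝ 1 Ψ₀) (r e : X) (y : Y) (z : Z) :
    fderiv ℝ (pst gs Ψ₀) (r, (y, z)) (e, 0) =
      fderiv ℝ gs (r, z) (e, 0) • Ψ₀ (r, y) + gs (r, z) • fderiv ℝ Ψ₀ (r, y) (e, 0) := by
  let p1 : X × (Y × Z) →L[ℝ] X × Z :=
    (ContinuousLinearMap.fst ℝ X (Y × Z)).prod
      ((ContinuousLinearMap.snd ℝ Y Z).comp (ContinuousLinearMap.snd ℝ X (Y × Z)))
  let p2 : X × (Y × Z) →L[ℝ] X × Y :=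
    (ContinuousLinearMap.fst ℝ X (Y × Z)).prod
      ((ContinuousLinearMap.fst ℝ Y Z).comp (ContinuousLinearMap.snd ℝ X (Y × Z)))
  have h1 : HasFDerivAt (fun q : X × (Y × Z) => gs (q.1, q.2.2)) ((fderiv ℝ gs (r, z)).comp p1)
      (r, (y, z)) := by
    have h : HasFDerivAt gs (fderiv ℝ gs (r, z)) (p1 (r, (y, z))) :=
      ((hg.differentiable (by norm_num)) (r, z)).hasFDerivAt
    exact h.comp _ p1.hasFDerivAt
  have h2 : HasFDerivAt (fun q : X × (Y × Z) => Ψ₀ (q.1, q.2.1))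
      ((fderiv ℝ Ψ₀ (r, y)).comp p2) (r, (y, z)) := by
    have h : HasFDerivAt Ψ₀ (fderiv ℝ Ψ₀ (r, y)) (p2 (r, (y, z))) :=
      ((hΨ.differentiable (by norm_num)) (r, y)).hasFDerivAt
    exact h.comp _ p2.hasFDerivAt
  have h3 : HasFDerivAt (pst gs Ψ₀) _ (r, (y, z)) := h1.smul h2
  rw [h3.fderiv]
  have e2 : p1 (e, 0) = (e, 0) := rfl
  have e3 : p2 (e, 0) = (e, 0) := rfl
  simp only [_root_.add_apply, _root_.smul_apply, ContinuousLinearMap.comp_apply,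
    ContinuousLinearMap.smulRight_apply, e2, e3]
  rw [add_comm]

/-- a product of square integrable functions is square integrable on the product -/
theorem memLp_prod_smul {g : Z → ℝ} {f : Y → F} (hg : MemLp g 2 μZ) (hf : MemLp f 2 μY) :
    MemLp (fun q : Y × Z => g q.2 • f q.1) 2 (μY.prod μZ) := by
  have hm : AEStronglyMeasurable (fun q : Y × Z => g q.2 • f q.1) (μY.prod μZ) :=
    (hg.1.comp_quasiMeasurePreserving Measure.quasiMeasurePreserving_snd).smul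
      (hf.1.comp_quasiMeasurePreserving Measure.quasiMeasurePreserving_fst)
  rw [memLp_two_iff_integrable_sq_norm hm]
  have h1 := (memLp_two_iff_integrable_sq_norm hf.1).1 hf
  have h2 := (memLp_two_iff_integrable_sq_norm hg.1).1 hg
  refine (h1.mul_prod h2).congr (Eventually.of_forall fun q => ?_)
  simp only [norm_smul, mul_pow]
  ring

theorem integral_prod_smul_sq (g : Z → ℝ) (f : Y → F) :
    ∫ q, ‖g q.2 • f q.1‖ ^ 2 ∂(μY.prod μZ) = (∫ z, g z ^ 2 ∂μZ) * ∫ y, ‖f y‖ ^ 2 ∂μY := by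
  have h1 : ∀ q : Y × Z, ‖g q.2 • f q.1‖ ^ 2 = ‖f q.1‖ ^ 2 * g q.2 ^ 2 := by
    intro q
    rw [norm_smul, mul_pow, Real.norm_eq_abs, sq_abs, mul_comm]
  simp only [h1]
  rw [integral_prod_mul (fun y => ‖f y‖ ^ 2) (fun z => g z ^ 2), mul_comm]

/-- fibre norms of the product form -/
theorem pst_norm {r : X} (hg : MemLp (fun z => gs (r, z)) 2 μZ) {G C : ℝ}
    (hG : ∫ z, gs (r, z) ^ 2 ∂μZ ≤ G)
    (hΨ : ∀ v, MemLp (fun y => Ψ₀ (r, y) v) 2 μY ∧ ∫ y, ‖Ψ₀ (r, y) v‖ ^ 2 ∂μY ≤ C * ‖v‖ ^ 2)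
    (v : Fx) : MemLp (fun w : Y × Z => pst gs Ψ₀ (r, w) v) 2 (μY.prod μZ) ∧
      ∫ w, ‖pst gs Ψ₀ (r, w) v‖ ^ 2 ∂(μY.prod μZ) ≤ G * C * ‖v‖ ^ 2 := by
  refine ⟨memLp_prod_smul hg (hΨ v).1, ?_⟩
  have h1 : ∫ w, ‖pst gs Ψ₀ (r, w) v‖ ^ 2 ∂(μY.prod μZ) =
      (∫ z, gs (r, z) ^ 2 ∂μZ) * ∫ y, ‖Ψ₀ (r, y) v‖ ^ 2 ∂μY :=
    integral_prod_smul_sq (fun z => gs (r, z)) (fun y => Ψ₀ (r, y) v)
  have h2 : 0 ≤ ∫ z, gs (r, z) ^ 2 ∂μZ := integral_nonneg fun _ => by positivity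
  have h3 : 0 ≤ ∫ y, ‖Ψ₀ (r, y) v‖ ^ 2 ∂μY := integral_nonneg fun _ => by positivity
  rw [h1, mul_assoc]
  exact mul_le_mul hG (hΨ v).2 h3 (h2.trans hG)

/-- exact norm of the product form -/
theorem pst_norm_eq {r : X} (hG : ∫ z, gs (r, z) ^ 2 ∂μZ = 1)
    (hΨ : ∀ v, ∫ y, ‖Ψ₀ (r, y) v‖ ^ 2 ∂μY = ‖v‖ ^ 2) (v : Fx) :
    ∫ w, ‖pst gs Ψ₀ (r, w) v‖ ^ 2 ∂(μY.prod μZ) = ‖v‖ ^ 2 := by
  have h1 : ∫ w, ‖pst gs Ψ₀ (r, w) v‖ ^ 2 ∂(μY.prod μZ) =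
      (∫ z, gs (r, z) ^ 2 ∂μZ) * ∫ y, ‖Ψ₀ (r, y) v‖ ^ 2 ∂μY :=
    integral_prod_smul_sq (fun z => gs (r, z)) (fun y => Ψ₀ (r, y) v)
  rw [h1, hG, hΨ, one_mul]

/-- fibre norms of the derivative of the product form -/
theorem pst_dnorm (hg1 : ContDiff ℝ 1 gs) (hΨ1 : ContDiff ℝ 1 Ψ₀) {r e : X}
    (hg : MemLp (fun z => gs (r, z)) 2 μZ)
    (hdg : MemLp (fun z => fderiv ℝ gs (r, z) (e, 0)) 2 μZ) {G G' C C' : ℝ}
    (hG : ∫ z, gs (r, z) ^ 2 ∂μZ ≤ G) (hG' : ∫ z, fderiv ℝ gs (r, z) (e, 0) ^ 2 ∂μZ ≤ G')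
    (hΨ : ∀ v, MemLp (fun y => Ψ₀ (r, y) v) 2 μY ∧ ∫ y, ‖Ψ₀ (r, y) v‖ ^ 2 ∂μY ≤ C * ‖v‖ ^ 2)
    (hΨ' : ∀ v, MemLp (fun y => fderiv ℝ Ψ₀ (r, y) (e, 0) v) 2 μY ∧
      ∫ y, ‖fderiv ℝ Ψ₀ (r, y) (e, 0) v‖ ^ 2 ∂μY ≤ C' * ‖v‖ ^ 2)
    (v : Fx) :
    MemLp (fun w : Y × Z => fderiv ℝ (pst gs Ψ₀) (r, w) (e, 0) v) 2 (μY.prod μZ) ∧
      ∫ w, ‖fderiv ℝ (pst gs Ψ₀) (r, w) (e, 0) v‖ ^ 2 ∂(μY.prod μZ) ≤
        2 * (G' * C + G * C') * ‖v‖ ^ 2 := by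
  have hm1 : MemLp (fun w : Y × Z => fderiv ℝ gs (r, w.2) (e, 0) • Ψ₀ (r, w.1) v) 2 (μY.prod μZ) :=
    memLp_prod_smul (g := fun z => fderiv ℝ gs (r, z) (e, 0)) hdg (hΨ v).1
  have hm2 : MemLp (fun w : Y × Z => gs (r, w.2) • fderiv ℝ Ψ₀ (r, w.1) (e, 0) v) 2
      (μY.prod μZ) :=
    memLp_prod_smul (g := fun z => gs (r, z)) hg (hΨ' v).1
  have he : ∀ w : Y × Z, fderiv ℝ (pst gs Ψ₀) (r, w) (e, 0) v =
      fderiv ℝ gs (r, w.2) (e, 0) • Ψ₀ (r, w.1) v +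
        gs (r, w.2) • fderiv ℝ Ψ₀ (r, w.1) (e, 0) v := by
    intro w
    have := fderiv_pst hg1 hΨ1 r e w.1 w.2
    rw [show (r, w) = (r, (w.1, w.2)) from rfl, this]
    rfl
  simp only [he]
  refine ⟨hm1.add hm2, ?_⟩
  have hi1 := (memLp_two_iff_integrable_sq_norm hm1.1).1 hm1
  have hi2 := (memLp_two_iff_integrable_sq_norm hm2.1).1 hm2
  have e1 : ∫ w : Y × Z, ‖fderiv ℝ gs (r, w.2) (e, 0) • Ψ₀ (r, w.1) v‖ ^ 2 ∂(μY.prod μZ) =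
      (∫ z, fderiv ℝ gs (r, z) (e, 0) ^ 2 ∂μZ) * ∫ y, ‖Ψ₀ (r, y) v‖ ^ 2 ∂μY :=
    integral_prod_smul_sq (fun z => fderiv ℝ gs (r, z) (e, 0)) (fun y => Ψ₀ (r, y) v)
  have e2 : ∫ w : Y × Z, ‖gs (r, w.2) • fderiv ℝ Ψ₀ (r, w.1) (e, 0) v‖ ^ 2 ∂(μY.prod μZ) =
      (∫ z, gs (r, z) ^ 2 ∂μZ) * ∫ y, ‖fderiv ℝ Ψ₀ (r, y) (e, 0) v‖ ^ 2 ∂μY :=
    integral_prod_smul_sq (fun z => gs (r, z)) (fun y => fderiv ℝ Ψ₀ (r, y) (e, 0) v)
  have p1 : 0 ≤ ∫ z, fderiv ℝ gs (r, z) (e, 0) ^ 2 ∂μZ := integral_nonneg fun _ => by positivity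
  have p2 : 0 ≤ ∫ y, ‖Ψ₀ (r, y) v‖ ^ 2 ∂μY := integral_nonneg fun _ => by positivity
  have p3 : 0 ≤ ∫ z, gs (r, z) ^ 2 ∂μZ := integral_nonneg fun _ => by positivity
  have p4 : 0 ≤ ∫ y, ‖fderiv ℝ Ψ₀ (r, y) (e, 0) v‖ ^ 2 ∂μY :=
    integral_nonneg fun _ => by positivity
  calc _ ≤ ∫ w : Y × Z, (2 * ‖fderiv ℝ gs (r, w.2) (e, 0) • Ψ₀ (r, w.1) v‖ ^ 2 +
          2 * ‖gs (r, w.2) • fderiv ℝ Ψ₀ (r, w.1) (e, 0) v‖ ^ 2) ∂(μY.prod μZ) := by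
        refine integral_mono_of_nonneg (Eventually.of_forall fun w => by positivity)
          ((hi1.const_mul 2).add (hi2.const_mul 2)) (Eventually.of_forall fun w => ?_)
        simp only
        have := norm_add_le (fderiv ℝ gs (r, w.2) (e, 0) • Ψ₀ (r, w.1) v)
          (gs (r, w.2) • fderiv ℝ Ψ₀ (r, w.1) (e, 0) v)
        have h0 := norm_nonneg (fderiv ℝ gs (r, w.2) (e, 0) • Ψ₀ (r, w.1) v +
          gs (r, w.2) • fderiv ℝ Ψ₀ (r, w.1) (e, 0) v)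
        nlinarith [sq_nonneg (‖fderiv ℝ gs (r, w.2) (e, 0) • Ψ₀ (r, w.1) v‖ -
          ‖gs (r, w.2) • fderiv ℝ Ψ₀ (r, w.1) (e, 0) v‖)]
    _ = 2 * ((∫ z, fderiv ℝ gs (r, z) (e, 0) ^ 2 ∂μZ) * ∫ y, ‖Ψ₀ (r, y) v‖ ^ 2 ∂μY) +
          2 * ((∫ z, gs (r, z) ^ 2 ∂μZ) * ∫ y, ‖fderiv ℝ Ψ₀ (r, y) (e, 0) v‖ ^ 2 ∂μY) := by
        rw [integral_add (hi1.const_mul 2) (hi2.const_mul 2), integral_const_mul,
          integral_const_mul, e1, e2]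
    _ ≤ 2 * (G' * (C * ‖v‖ ^ 2)) + 2 * (G * (C' * ‖v‖ ^ 2)) := by
        have q1 := mul_le_mul hG' (hΨ v).2 p2 (p1.trans hG')
        have q2 := mul_le_mul hG (hΨ' v).2 p4 (p3.trans hG)
        linarith
    _ = _ := by ring


/-- the two forms of the amplitude: over the whole fibre, or through the fibre projection `fpr` -/
theorem ampx_pst_eq {Φ : (X × Y) × Z → F} (hΦ : Continuous Φ) (hc : HasCompactSupport Φ)
    (hgs : Continuous gs) {p : X × Y → F →ₗ[ℂ] F} (hp : ∀ v, Continuous fun u => p u v)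
    (hps : ∀ u, (p u).IsSymmetric) (r : X) (hg : MemLp (fun z => gs (r, z)) 2 μZ)
    (hΨ : ∀ v, MemLp (fun y => Ψ₀ (r, y) v) 2 μY)
    (hpr : ∀ y v, p (r, y) (Ψ₀ (r, y) v) = Ψ₀ (r, y) v) :
    ampx (μY.prod μZ) (pst gs Ψ₀) (fun q => Φ ((q.1, q.2.1), q.2.2)) r =
      ampx μY Ψ₀ (fpr μZ (fun q => gs (q.1.1, q.2)) p Φ) r := by
  have hgs' : Continuous fun q : (X × Y) × Z => gs (q.1.1, q.2) := hgs.comp (by fun_prop)
  have hw1 : Continuous (fpr μZ (fun q => gs (q.1.1, q.2)) p Φ) := by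
    have h0 : ContDiff ℝ ((0 : ℕ∞) : WithTop ℕ∞) (fpr μZ (fun q => gs (q.1.1, q.2)) p Φ) :=
      contDiff_fpr (contDiff_zero.2 hgs') (fun v => contDiff_zero.2 (hp v)) (contDiff_zero.2 hΦ) hc
    exact h0.continuous
  have hw2 : HasCompactSupport (fpr μZ (fun q => gs (q.1.1, q.2)) p Φ) :=
    hasCompactSupport_fpr hc
  have hwm : MemLp (fun y => fpr μZ (fun q => gs (q.1.1, q.2)) p Φ (r, y)) 2 μY :=
    fibre_memLp hw1 hw2 r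
  have hΦc : Continuous fun w : Y × Z => Φ ((r, w.1), w.2) := hΦ.comp (by fun_prop)
  have hΦcs : HasCompactSupport fun w : Y × Z => Φ ((r, w.1), w.2) := by
    obtain ⟨K, k, hK, hk, h1, h2⟩ := exists_fibre_supports hc
    refine HasCompactSupport.intro ((hK.image continuous_snd).prod hk) fun w hw => ?_
    rw [mem_prod, not_and_or] at hw
    rcases hw with hw | hw
    · exact h1 _ (fun hk => hw ⟨_, hk, rfl⟩) _
    · exact h2 _ _ hw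
  have hΦm : MemLp (fun w : Y × Z => Φ ((r, w.1), w.2)) 2 (μY.prod μZ) :=
    hΦc.memLp_of_hasCompactSupport hΦcs
  have hpm : ∀ v, MemLp (fun w : Y × Z => pst gs Ψ₀ (r, w) v) 2 (μY.prod μZ) := fun v =>
    memLp_prod_smul (g := fun z => gs (r, z)) hg (hΨ v)
  refine ext_inner_left ℂ fun v => ?_
  rw [inner_ampx' hΨ hwm v,
    inner_ampx' (Φ := fun q : X × (Y × Z) => Φ ((q.1, q.2.1), q.2.2)) hpm hΦm v]
  have hI : Integrable (fun w : Y × Z => ⟪pst gs Ψ₀ (r, w) v, Φ ((r, w.1), w.2)⟫_ℂ)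
      (μY.prod μZ) := Crest.Agent.R330.IBP837.integrable_inner_of_memLp (hpm v) hΦm
  change ∫ w : Y × Z, ⟪pst gs Ψ₀ (r, w) v, Φ ((r, w.1), w.2)⟫_ℂ ∂(μY.prod μZ) = _
  rw [integral_prod _ hI]
  refine integral_congr_ae (Eventually.of_forall fun y => ?_)
  simp only
  have : CompleteSpace F := FiniteDimensional.complete ℂ F
  have hint : Integrable (fun z => gs (r, z) • Φ ((r, y), z)) μZ := by
    obtain ⟨K, k, hK, hk, h1, h2⟩ := exists_fibre_supports hc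
    have hcont : Continuous fun z => gs (r, z) • Φ ((r, y), z) :=
      (hgs.comp (by fun_prop : Continuous fun z : Z => (r, z))).smul
        (hΦ.comp (by fun_prop : Continuous fun z : Z => ((r, y), z)))
    exact hcont.integrable_of_hasCompactSupport
      (HasCompactSupport.intro hk fun z hz => by rw [h2 _ _ hz, smul_zero])
  have e1 : ∀ z, ⟪pst gs Ψ₀ (r, (y, z)) v, Φ ((r, y), z)⟫_ℂ =
      ⟪Ψ₀ (r, y) v, gs (r, z) • Φ ((r, y), z)⟫_ℂ := by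
    intro z
    rw [pst_apply]
    simp only
    rw [Crest.Agent.R330.Moll350.inner_rs_left, Crest.Agent.R330.Moll350.inner_rs_right]
  simp only [e1]
  have e2 := (innerSL ℂ (Ψ₀ (r, y) v)).integral_comp_comm hint
  simp only [innerSL_apply_apply] at e2
  rw [e2]
  unfold fpr
  rw [← hps, hpr]

end Prod


/-! ### local versions: `Ψ` smooth only over an open set containing the ball -/

section Loc

variable {R Ω : Type*} [NormedAddCommGroup R] [InnerProductSpace ℝ R] [FiniteDimensional ℝ R]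
  [MeasurableSpace R] [BorelSpace R]
  [NormedAddCommGroup Ω] [NormedSpace ℝ Ω] [FiniteDimensional ℝ Ω] [MeasurableSpace Ω]
  [BorelSpace Ω] {μ : Measure Ω} [μ.IsAddHaarMeasure]
  {F : Type*} [NormedAddCommGroup F] [InnerProductSpace ℂ F] [FiniteDimensional ℂ F]
  {Fx : Type*} [NormedAddCommGroup Fx] [InnerProductSpace ℂ Fx] [FiniteDimensional ℂ Fx]

theorem exists_cut {O : Set R} (hO : IsOpen O) {ρ : ℝ} (h : Metric.closedBall (0 : R) ρ ⊆ O) :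
    ∃ ζ : R → ℝ, ContDiff ℝ ∞ ζ ∧ HasCompactSupport ζ ∧ tsupport ζ ⊆ O ∧
      (∃ ρ' > ρ, ∀ r, ‖r‖ ≤ ρ' → ζ r = 1) ∧ ∀ r, 0 ≤ ζ r ∧ ζ r ≤ 1 := by
  rcases lt_or_ge ρ 0 with hρ | hρ
  · refine ⟨fun _ => 0, contDiff_const, HasCompactSupport.zero, ?_, ⟨ρ / 2, by linarith, ?_⟩, ?_⟩
    · simp [tsupport]
    · intro r hr
      have := norm_nonneg r
      linarith
    · intro r
      simp
  · obtain ⟨δ, hδ, hδ2⟩ := (isCompact_closedBall (0 : R) ρ).exists_cthickening_subset_open hO h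
    rw [cthickening_closedBall hδ.le hρ] at hδ2
    let b : ContDiffBump (0 : R) := ⟨ρ + δ / 4, ρ + δ / 2, by positivity, by linarith⟩
    refine ⟨b, b.contDiff, b.hasCompactSupport, ?_, ⟨ρ + δ / 4, by linarith, ?_⟩, ?_⟩
    · rw [b.tsupport_eq]
      refine (Metric.closedBall_subset_closedBall ?_).trans hδ2
      change ρ + δ / 2 ≤ δ + ρ
      linarith
    · intro r hr
      exact b.one_of_mem_closedBall (mem_closedBall_zero_iff.2 hr)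
    · exact fun r => ⟨b.nonneg, b.le_one⟩

theorem contDiff_cut {H : Type*} [NormedAddCommGroup H] [NormedSpace ℝ H] {n : ℕ∞} {O : Set R}
    (hO : IsOpen O) {ζ : R → ℝ}
    (hζ : ContDiff ℝ ∞ ζ) (hs : tsupport ζ ⊆ O) {f : R × Ω → H}
    (hf : ContDiffOn ℝ n f (O ×ˢ univ)) : ContDiff ℝ n fun q : R × Ω => ζ q.1 • f q := by
  rw [contDiff_iff_contDiffAt]
  intro q
  by_cases hq : q.1 ∈ O
  · have h1 : ContDiffAt ℝ n f q := hf.contDiffAt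
      ((hO.prod isOpen_univ).mem_nhds ⟨hq, mem_univ _⟩)
    have h2 : ContDiff ℝ n fun q : R × Ω => ζ q.1 :=
      (hζ.of_le (by exact_mod_cast le_top)).comp contDiff_fst
    exact h2.contDiffAt.smul h1
  · have h0 : (fun q : R × Ω => ζ q.1 • f q) =ᶠ[𝓝 q] fun _ => 0 := by
      have h1 : IsOpen {q : R × Ω | q.1 ∉ tsupport ζ} :=
        (isClosed_tsupport ζ).isOpen_compl.preimage continuous_fst
      filter_upwards [h1.mem_nhds (show q ∈ {q : R × Ω | q.1 ∉ tsupport ζ} from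
        fun h => hq (hs h))] with x hx
      rw [image_eq_zero_of_notMem_tsupport hx, zero_smul]
    exact contDiffAt_const.congr_of_eventuallyEq h0

theorem ampx_cut {Ψ : R × Ω → Fx →L[ℂ] F} {Φ : R × Ω → F} {ρ ρ' : ℝ} (hρ' : ρ < ρ') {ζ : R → ℝ}
    (hζ : ∀ r, ‖r‖ ≤ ρ' → ζ r = 1) (hρ : ∀ r w, ρ < ‖r‖ → Φ (r, w) = 0) :
    ampx μ (fun q => ζ q.1 • Ψ q) Φ = ampx μ Ψ Φ := by
  funext r
  by_cases h : ‖r‖ ≤ ρ
  · unfold ampx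
    simp only [hζ r (h.trans hρ'.le), one_smul]
  · rw [ampx_eq_zero fun w => hρ r w (not_le.1 h), ampx_eq_zero fun w => hρ r w (not_le.1 h)]

theorem fderiv_cut {H : Type*} [NormedAddCommGroup H] [NormedSpace ℝ H] {f : R × Ω → H}
    {ρ ρ' : ℝ} (hρ' : ρ < ρ') {ζ : R → ℝ} (hζ : ∀ r, ‖r‖ ≤ ρ' → ζ r = 1) {q : R × Ω}
    (hq : ‖q.1‖ ≤ ρ) : fderiv ℝ (fun q : R × Ω => ζ q.1 • f q) q = fderiv ℝ f q := by
  have h0 : (fun q : R × Ω => ζ q.1 • f q) =ᶠ[𝓝 q] f := by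
    have h1 : IsOpen {q : R × Ω | ‖q.1‖ < ρ'} := isOpen_lt (by fun_prop) continuous_const
    filter_upwards [h1.mem_nhds (show q ∈ {q : R × Ω | ‖q.1‖ < ρ'} from hq.trans_lt hρ')]
      with x hx
    rw [hζ _ (le_of_lt hx), one_smul]
  exact h0.fderiv_eq

/-- **(I3)**, local version -/
theorem amp_bounds_on {κ : Type*} [Fintype κ] (e : OrthonormalBasis κ ℝ R)
    {Ψ : R × Ω → Fx →L[ℂ] F} {Φ : R × Ω → F} {O : Set R} (hO : IsOpen O) {ρ : ℝ}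
    (hOρ : Metric.closedBall (0 : R) ρ ⊆ O)
    (hΨ : ContDiffOn ℝ 1 Ψ (O ×ˢ univ)) (hΦ : ContDiff ℝ 1 Φ)
    (hc : HasCompactSupport Φ) {C₀ C₁ D₀ D₁ : ℝ} (hC0 : 0 ≤ C₀) (hC1 : 0 ≤ C₁)
    (hρ : ∀ r w, ρ < ‖r‖ → Φ (r, w) = 0)
    (hΨ2 : ∀ r, ‖r‖ ≤ ρ → ∀ v, MemLp (fun w => Ψ (r, w) v) 2 μ ∧
      ∫ w, ‖Ψ (r, w) v‖ ^ 2 ∂μ ≤ C₀ * ‖v‖ ^ 2)
    (hdΨ2 : ∀ r, ‖r‖ ≤ ρ → ∀ i v, MemLp (fun w => fderiv ℝ Ψ (r, w) (e i, 0) v) 2 μ ∧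
      ∫ w, ‖fderiv ℝ Ψ (r, w) (e i, 0) v‖ ^ 2 ∂μ ≤ C₁ * ‖v‖ ^ 2)
    (hΦ2 : ∫ q, ‖Φ q‖ ^ 2 ∂((volume : Measure R).prod μ) ≤ D₀)
    (hdΦ2 : ∀ i, ∫ q, ‖fderiv ℝ Φ q (e i, 0)‖ ^ 2 ∂((volume : Measure R).prod μ) ≤ D₁) :
    ContDiff ℝ 1 (ampx μ Ψ Φ) ∧ HasCompactSupport (ampx μ Ψ Φ) ∧
      tsupport (ampx μ Ψ Φ) ⊆ Metric.closedBall 0 ρ ∧ ∫ r, ‖ampx μ Ψ Φ r‖ ^ 2 ≤ C₀ * D₀ ∧
      ∫ r, ‖fderiv ℝ (ampx μ Ψ Φ) r‖ ^ 2 ≤ Fintype.card κ * (2 * C₀ * D₁ + 2 * C₁ * D₀) := by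
  obtain ⟨ζ, hζ1, hζ2, hζ3, ⟨ρ', hρ', hζ4⟩, hζ5⟩ := exists_cut hO hOρ
  have hΨ' : ContDiff ℝ 1 fun q : R × Ω => ζ q.1 • Ψ q :=
    contDiff_cut (n := 1) hO hζ1 hζ3 hΨ
  have h := amp_bounds (μ := μ) e hΨ' hΦ hc (C₀ := C₀) (C₁ := C₁) (D₀ := D₀) (D₁ := D₁) hC0 hC1 hρ
    (fun r hr v => by
      simp only [hζ4 r (hr.trans hρ'.le), one_smul]
      exact hΨ2 r hr v)
    (fun r hr i v => by
      have : ∀ w, fderiv ℝ (fun q : R × Ω => ζ q.1 • Ψ q) (r, w) = fderiv ℝ Ψ (r, w) :=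
        fun w => fderiv_cut (f := Ψ) (q := (r, w)) hρ' hζ4 hr
      simp only [this]
      exact hdΨ2 r hr i v) hΦ2 hdΦ2
  rw [ampx_cut hρ' hζ4 hρ] at h
  exact h

/-- the pairing, local version -/
theorem integral_inner_ampx_on {Ψ : R × Ω → Fx →L[ℂ] F} {Φ : R × Ω → F} {O : Set R}
    (hO : IsOpen O) {ρ : ℝ} (hOρ : Metric.closedBall (0 : R) ρ ⊆ O)
    (hΨ : ContinuousOn Ψ (O ×ˢ univ)) (hΦ : Continuous Φ) (hc : HasCompactSupport Φ)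
    (hρ : ∀ r w, ρ < ‖r‖ → Φ (r, w) = 0) {χ : R → Fx} (hχ : Continuous χ) :
    ∫ r, ⟪χ r, ampx μ Ψ Φ r⟫_ℂ = ∫ q, ⟪Ψ q (χ q.1), Φ q⟫_ℂ ∂((volume : Measure R).prod μ) := by
  obtain ⟨ζ, hζ1, hζ2, hζ3, ⟨ρ', hρ', hζ4⟩, hζ5⟩ := exists_cut hO hOρ
  have hΨ' : Continuous fun q : R × Ω => ζ q.1 • Ψ q := by
    have h0 : ContDiffOn ℝ ((0 : ℕ∞) : WithTop ℕ∞) Ψ (O ×ˢ univ) := contDiffOn_zero.2 hΨ
    exact (contDiff_cut (n := 0) hO hζ1 hζ3 h0).continuous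
  have h := integral_inner_ampx (ν := (volume : Measure R)) (μ := μ) hΨ' hΦ hc hχ
  rw [ampx_cut hρ' hζ4 hρ] at h
  rw [h]
  refine integral_congr_ae (Eventually.of_forall fun q => ?_)
  simp only
  by_cases hq : ‖q.1‖ ≤ ρ
  · rw [hζ4 _ (hq.trans hρ'.le), one_smul]
  · have : Φ q = 0 := hρ q.1 q.2 (not_le.1 hq)
    rw [this, inner_zero_right, inner_zero_right]

end Loc

/-! ### block states of the form `B(y) h(r)` -/

section HV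

variable {X Y : Type*} [NormedAddCommGroup X] [NormedSpace ℝ X]
  [NormedAddCommGroup Y] [NormedSpace ℝ Y] [MeasurableSpace Y] {μY : Measure Y}
  {F : Type*} [NormedAddCommGroup F] [InnerProductSpace ℂ F]
  {Fx : Type*} [NormedAddCommGroup Fx] [InnerProductSpace ℂ Fx]

/-- `Ψ₀(r,y) v = B(y, h(r)) v`, `B(y, ·)` linear -/
def hvs (B : Y × F → Fx →L[ℂ] F) (h : X → F) (q : X × Y) : Fx →L[ℂ] F := B (q.2, h q.1)

variable {B : Y × F → Fx →L[ℂ] F} {h : X → F}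

/-- derivative along the linear slot -/
theorem fderiv_lin_slot {y : Y} (hl : IsLinearMap ℝ fun u => B (y, u)) {u : F}
    (hB : DifferentiableAt ℝ B (y, u)) (d : F) : fderiv ℝ B (y, u) (0, d) = B (y, d) := by
  have h1 : HasDerivAt (fun t : ℝ => ((y, u + t • d) : Y × F)) (0, d) 0 := by
    have h2 : HasDerivAt (fun t : ℝ => u + t • d) d 0 := by
      have := ((hasDerivAt_id (0 : ℝ)).smul_const d).const_add u
      simpa using this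
    exact (hasDerivAt_const (0 : ℝ) y).prodMk h2
  have h3 : HasFDerivAt B (fderiv ℝ B (y, u)) ((fun t : ℝ => ((y, u + t • d) : Y × F)) 0) := by
    simpa using hB.hasFDerivAt
  have h4 : HasDerivAt (fun t : ℝ => B (y, u + t • d)) (fderiv ℝ B (y, u) (0, d)) 0 :=
    h3.comp_hasDerivAt (0 : ℝ) h1
  have h5 : HasDerivAt (fun t : ℝ => B (y, u + t • d)) (B (y, d)) 0 := by
    have e1 : (fun t : ℝ => B (y, u + t • d)) = fun t : ℝ => B (y, u) + t • B (y, d) := by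
      funext t
      rw [hl.map_add, hl.map_smul]
    rw [e1]
    have := ((hasDerivAt_id (0 : ℝ)).smul_const (B (y, d))).const_add (B (y, u))
    simpa using this
  exact h4.unique h5

theorem fderiv_hvs {r : X} {y : Y} (hl : IsLinearMap ℝ fun u => B (y, u))
    (hB : DifferentiableAt ℝ B (y, h r)) (hh : DifferentiableAt ℝ h r) (e : X) :
    fderiv ℝ (hvs B h) (r, y) (e, 0) = B (y, fderiv ℝ h r e) := by
  have h1 : HasFDerivAt (fun q : X × Y => (q.2, h q.1))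
      ((ContinuousLinearMap.snd ℝ X Y).prod
        ((fderiv ℝ h r).comp (ContinuousLinearMap.fst ℝ X Y))) (r, y) := by
    refine HasFDerivAt.prodMk hasFDerivAt_snd ?_
    have h2 : HasFDerivAt h (fderiv ℝ h r) ((r, y) : X × Y).1 := hh.hasFDerivAt
    exact h2.comp (r, y) hasFDerivAt_fst
  have h2 : HasFDerivAt B (fderiv ℝ B (y, h r)) ((fun q : X × Y => (q.2, h q.1)) (r, y)) :=
    hB.hasFDerivAt
  have h3 := h2.comp (r, y) h1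
  have h4 : HasFDerivAt (hvs B h) _ (r, y) := h3
  rw [h4.fderiv, ← fderiv_lin_slot hl hB]
  simp

theorem contDiffOn_hvs {n : WithTop ℕ∞} {O : Set X} (hB : ContDiff ℝ n B)
    (hh : ContDiffOn ℝ n h O) : ContDiffOn ℝ n (hvs B h) (O ×ˢ univ) := by
  have h2 : ContDiffOn ℝ n (fun q : X × Y => h q.1) (O ×ˢ univ) :=
    hh.comp contDiff_fst.contDiffOn fun q hq => hq.1
  exact hB.comp_contDiffOn (contDiff_snd.contDiffOn.prodMk h2)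

/-- fibre norms -/
theorem hvs_norm {K : ℝ} (hK : ∀ u v, MemLp (fun y => B (y, u) v) 2 μY ∧
      ∫ y, ‖B (y, u) v‖ ^ 2 ∂μY ≤ K * ‖u‖ ^ 2 * ‖v‖ ^ 2) {r : X} {M : ℝ} (hK0 : 0 ≤ K)
    (hM : ‖h r‖ ^ 2 ≤ M) (v : Fx) :
    MemLp (fun y => hvs B h (r, y) v) 2 μY ∧
      ∫ y, ‖hvs B h (r, y) v‖ ^ 2 ∂μY ≤ K * M * ‖v‖ ^ 2 := by
  refine ⟨(hK (h r) v).1, (hK (h r) v).2.trans ?_⟩
  gcongr

theorem hvs_dnorm {K : ℝ} (hK : ∀ u v, MemLp (fun y => B (y, u) v) 2 μY ∧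
      ∫ y, ‖B (y, u) v‖ ^ 2 ∂μY ≤ K * ‖u‖ ^ 2 * ‖v‖ ^ 2) (hB : ContDiff ℝ 1 B)
    (hl : ∀ y, IsLinearMap ℝ fun u => B (y, u)) {r e : X} {M : ℝ}
    (hK0 : 0 ≤ K) (hh : DifferentiableAt ℝ h r) (hM : ‖fderiv ℝ h r e‖ ^ 2 ≤ M) (v : Fx) :
    MemLp (fun y => fderiv ℝ (hvs B h) (r, y) (e, 0) v) 2 μY ∧
      ∫ y, ‖fderiv ℝ (hvs B h) (r, y) (e, 0) v‖ ^ 2 ∂μY ≤ K * M * ‖v‖ ^ 2 := by
  have e1 : ∀ y, fderiv ℝ (hvs B h) (r, y) (e, 0) v = B (y, fderiv ℝ h r e) v := fun y => by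
    rw [fderiv_hvs (hl y) (hB.differentiable (by norm_num) _) hh]
  simp only [e1]
  refine ⟨(hK _ v).1, (hK _ v).2.trans ?_⟩
  gcongr

end HV

/-! ### smoothness of operator valued maps is pointwise -/

section Pt

variable {E F Fx : Type*} [NormedAddCommGroup E] [NormedSpace ℝ E]
  [NormedAddCommGroup F] [InnerProductSpace ℂ F]
  [NormedAddCommGroup Fx] [InnerProductSpace ℂ Fx] [FiniteDimensional ℂ Fx]

theorem isBoundedLinearMap_smulRight (c : Fx →L[ℂ] ℂ) :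
    IsBoundedLinearMap ℝ fun u : F => (c.smulRight u : Fx →L[ℂ] F) where
  map_add u v := by
    ext x
    simp [smul_add]
  map_smul r u := by
    ext x
    simp only [ContinuousLinearMap.smulRight_apply]
    exact smul_comm _ _ _
  bound := ⟨‖c‖ + 1, by positivity, fun u => by
    rw [ContinuousLinearMap.norm_smulRight_apply]
    nlinarith [norm_nonneg u, norm_nonneg c]⟩

theorem eq_sum_smulRight (T : Fx →L[ℂ] F) :
    T = ∑ i, (innerSL ℂ (stdOrthonormalBasis ℂ Fx i)).smulRight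
      (T (stdOrthonormalBasis ℂ Fx i)) := by
  ext v
  conv_lhs => rw [← (stdOrthonormalBasis ℂ Fx).sum_repr' v, map_sum]
  rw [_root_.sum_apply]
  refine Finset.sum_congr rfl fun i _ => ?_
  rw [map_smul]
  rfl

theorem contDiffOn_of_apply {n : WithTop ℕ∞} {T : E → Fx →L[ℂ] F} {S : Set E}
    (h : ∀ v, ContDiffOn ℝ n (fun x => T x v) S) : ContDiffOn ℝ n T S := by
  have e : T = fun x => ∑ i, (innerSL ℂ (stdOrthonormalBasis ℂ Fx i)).smulRight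
      (T x (stdOrthonormalBasis ℂ Fx i)) := funext fun x => eq_sum_smulRight (T x)
  rw [e]
  exact ContDiffOn.sum fun i _ =>
    (isBoundedLinearMap_smulRight (F := F) (innerSL ℂ (stdOrthonormalBasis ℂ Fx i))).contDiff.comp_contDiffOn
      (h _)

theorem contDiff_of_apply {n : WithTop ℕ∞} {T : E → Fx →L[ℂ] F}
    (h : ∀ v, ContDiff ℝ n (fun x => T x v)) : ContDiff ℝ n T := by
  rw [← contDiffOn_univ]
  exact contDiffOn_of_apply fun v => (h v).contDiffOn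

end Pt

end Crest.Agent.R330.Amp406
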