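import Crest.Agent.R330.Amp_406

/-!
# Row 330, S9 capture: cut amplitudes tend to zero (helper924)

* `amp_cut_null` : amplitudes `C¹` on an open set `V`, bounded in `H¹` on the support of a test
  function `θ` of `V`, weakly null on `V`: `∫ ‖θ a_j‖² → 0`.
-/

set_option autoImplicit false
set_option linter.unusedSectionVars false

noncomputable section

namespace Crest.Agent.R330.CapSl924

open MeasureTheory Filter Topology Set
open scoped ContDiff InnerProductSpace ENNReal

section amp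

variable {R : Type*} [NormedAddCommGroup R] [InnerProductSpace ℝ R]
  [FiniteDimensional ℝ R] [MeasurableSpace R] [BorelSpace R] {Fx : Type*}
  [NormedAddCommGroup Fx] [InnerProductSpace ℂ Fx] [FiniteDimensional ℂ Fx]

/-- a function smooth near the support of the cut-off, multiplied by the cut-off -/
theorem contDiff_cut {θ : R → ℝ} (hθ : ContDiff ℝ ∞ θ) {a : R → Fx} {n : ℕ∞}
    (ha : ∀ x ∈ tsupport θ, ContDiffAt ℝ n a x) : ContDiff ℝ n fun x => θ x • a x := by
  rw [contDiff_iff_contDiffAt]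
  intro x
  by_cases hx : x ∈ tsupport θ
  · exact ((hθ.of_le (by exact_mod_cast le_top)).contDiffAt).smul (ha x hx)
  · have h1 : (fun x => θ x • a x) =ᶠ[𝓝 x] fun _ => 0 := by
      have h2 := notMem_tsupport_iff_eventuallyEq.1 hx
      filter_upwards [h2] with y hy
      rw [hy]; simp
    exact (contDiffAt_const (c := (0 : Fx))).congr_of_eventuallyEq h1

/-- **Cut amplitudes tend to zero.** -/
theorem amp_cut_null {θ : R → ℝ} (hθ : ContDiff ℝ ∞ θ) (hcθ : HasCompactSupport θ)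
    {V : Set R} (hθV : tsupport θ ⊆ V) {a : ℕ → R → Fx}
    (ha : ∀ᶠ j in atTop, ∀ x ∈ tsupport θ, ContDiffAt ℝ 1 (a j) x) {C : ℝ}
    (h0 : ∀ᶠ j in atTop, ∫ x in tsupport θ, ‖a j x‖ ^ 2 ≤ C)
    (h1 : ∀ᶠ j in atTop, ∫ x in tsupport θ, ‖fderiv ℝ (a j) x‖ ^ 2 ≤ C)
    (hw : ∀ χ : R → Fx, ContDiff ℝ ∞ χ → HasCompactSupport χ → tsupport χ ⊆ V →
      Tendsto (fun j => ∫ x, ⟪χ x, a j x⟫_ℂ) atTop (𝓝 0)) :
    Tendsto (fun j => ∫ x, ‖θ x • a j x‖ ^ 2) atTop (𝓝 0) := by
  have hK : IsCompact (tsupport θ) := hcθ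
  obtain ⟨B, hB⟩ := hK.exists_bound_of_continuousOn (f := θ) hθ.continuous.continuousOn
  obtain ⟨B', hB'⟩ := hK.exists_bound_of_continuousOn (f := fderiv ℝ θ)
    (hθ.continuous_fderiv (by simp)).continuousOn
  obtain ⟨ρ, hρ⟩ : ∃ ρ, tsupport θ ⊆ Metric.closedBall 0 ρ := hK.isBounded.subset_closedBall 0
  obtain ⟨n0, hn0⟩ := eventually_atTop.1 (ha.and (h0.and h1))
  -- shifted sequence
  rw [← tendsto_add_atTop_iff_nat n0]
  set b : ℕ → R → Fx := fun j x => θ x • a (j + n0) x with hb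
  have hge : ∀ j, n0 ≤ j + n0 := fun j => Nat.le_add_left _ _
  have hbc : ∀ j, ContDiff ℝ 1 (b j) := fun j => by
    have := contDiff_cut (n := 1) hθ (a := a (j + n0)) fun x hx => by
      exact_mod_cast (hn0 _ (hge j)).1 x hx
    exact_mod_cast this
  have hbs : ∀ j, tsupport (b j) ⊆ tsupport θ := fun j =>
    closure_mono fun x hx h => hx (by simp [hb, h])
  have ca : ∀ j, ContinuousOn (a (j + n0)) (tsupport θ) := fun j x hx =>
    ((hn0 _ (hge j)).1 x hx).continuousAt.continuousWithinAt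
  have cda : ∀ j, ContinuousOn (fderiv ℝ (a (j + n0))) (tsupport θ) := fun j x hx =>
    (((hn0 _ (hge j)).1 x hx).continuousAt_fderiv (by simp)).continuousWithinAt
  have ia : ∀ j, IntegrableOn (fun x => ‖a (j + n0) x‖ ^ 2) (tsupport θ) volume := fun j =>
    ((ca j).norm.pow 2).integrableOn_compact hK
  have ida : ∀ j, IntegrableOn (fun x => ‖fderiv ℝ (a (j + n0)) x‖ ^ 2) (tsupport θ) volume :=
    fun j => ((cda j).norm.pow 2).integrableOn_compact hK
  have hset : ∀ {h : R → ℝ}, (∀ x ∉ tsupport θ, h x = 0) →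
      ∫ x, h x = ∫ x in tsupport θ, h x := fun {h} h0 =>
    (setIntegral_eq_integral_of_forall_compl_eq_zero h0).symm
  have hC : 0 ≤ C := (integral_nonneg fun x => by positivity).trans (hn0 _ (hge 0)).2.1
  have hb0 : ∀ j, ∫ x, ‖b j x‖ ^ 2 ≤ B ^ 2 * C := by
    intro j
    rw [hset (h := fun x => ‖b j x‖ ^ 2) fun x hx => by
      simp [hb, image_eq_zero_of_notMem_tsupport hx]]
    calc ∫ x in tsupport θ, ‖b j x‖ ^ 2 ≤ ∫ x in tsupport θ, B ^ 2 * ‖a (j + n0) x‖ ^ 2 := by
          refine setIntegral_mono_on ?_ ((ia j).const_mul _) hK.isClosed.measurableSet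
            fun x hx => ?_
          · exact ((hbc j).continuous.norm.pow 2).continuousOn.integrableOn_compact hK
          · simp only [hb]
            rw [norm_smul, mul_pow]
            exact mul_le_mul_of_nonneg_right (pow_le_pow_left₀ (norm_nonneg _) (hB x hx) 2)
              (by positivity)
      _ = B ^ 2 * ∫ x in tsupport θ, ‖a (j + n0) x‖ ^ 2 := integral_const_mul _ _
      _ ≤ B ^ 2 * C := mul_le_mul_of_nonneg_left (hn0 _ (hge j)).2.1 (by positivity)
  have hb1 : ∀ j, ∫ x, ‖fderiv ℝ (b j) x‖ ^ 2 ≤ 2 * B ^ 2 * C + 2 * B' ^ 2 * C := by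
    intro j
    rw [hset (h := fun x => ‖fderiv ℝ (b j) x‖ ^ 2) fun x hx => by
      have h2 : fderiv ℝ (b j) x = 0 := by
        by_contra h3
        exact hx (hbs j (support_fderiv_subset ℝ h3))
      simp [h2]]
    have hpt : ∀ x ∈ tsupport θ, ‖fderiv ℝ (b j) x‖ ^ 2 ≤
        2 * B ^ 2 * ‖fderiv ℝ (a (j + n0)) x‖ ^ 2 + 2 * B' ^ 2 * ‖a (j + n0) x‖ ^ 2 := by
      intro x hx
      have hd1 : DifferentiableAt ℝ θ x := (hθ.differentiable (by simp)) x
      have hd2 : DifferentiableAt ℝ (a (j + n0)) x :=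
        ((hn0 _ (hge j)).1 x hx).differentiableAt (by simp)
      have h3 : fderiv ℝ (b j) x = θ x • fderiv ℝ (a (j + n0)) x +
          (fderiv ℝ θ x).smulRight (a (j + n0) x) := by
        have h4 : HasFDerivAt (b j) (θ x • fderiv ℝ (a (j + n0)) x +
          (fderiv ℝ θ x).smulRight (a (j + n0) x)) x := hd1.hasFDerivAt.smul hd2.hasFDerivAt
        exact h4.fderiv
      have h5 : ‖fderiv ℝ (b j) x‖ ≤ B * ‖fderiv ℝ (a (j + n0)) x‖ + B' * ‖a (j + n0) x‖ := by
        rw [h3]
        refine (norm_add_le _ _).trans (add_le_add ?_ ?_)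
        · rw [norm_smul]
          exact mul_le_mul_of_nonneg_right (hB x hx) (norm_nonneg _)
        · rw [ContinuousLinearMap.norm_smulRight_apply]
          exact mul_le_mul_of_nonneg_right (hB' x hx) (norm_nonneg _)
      calc ‖fderiv ℝ (b j) x‖ ^ 2
          ≤ (B * ‖fderiv ℝ (a (j + n0)) x‖ + B' * ‖a (j + n0) x‖) ^ 2 :=
            pow_le_pow_left₀ (norm_nonneg _) h5 2
        _ ≤ _ := by nlinarith [sq_nonneg (B * ‖fderiv ℝ (a (j + n0)) x‖ - B' * ‖a (j + n0) x‖)]
    calc ∫ x in tsupport θ, ‖fderiv ℝ (b j) x‖ ^ 2 ≤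
        ∫ x in tsupport θ, (2 * B ^ 2 * ‖fderiv ℝ (a (j + n0)) x‖ ^ 2 +
          2 * B' ^ 2 * ‖a (j + n0) x‖ ^ 2) := by
          refine setIntegral_mono_on ?_ (((ida j).const_mul _).add ((ia j).const_mul _))
            hK.isClosed.measurableSet hpt
          exact (((hbc j).continuous_fderiv one_ne_zero).norm.pow 2).continuousOn.integrableOn_compact
            hK
      _ = 2 * B ^ 2 * (∫ x in tsupport θ, ‖fderiv ℝ (a (j + n0)) x‖ ^ 2) +
          2 * B' ^ 2 * (∫ x in tsupport θ, ‖a (j + n0) x‖ ^ 2) := by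
          rw [integral_add ((ida j).const_mul _) ((ia j).const_mul _), integral_const_mul,
            integral_const_mul]
      _ ≤ _ := add_le_add (mul_le_mul_of_nonneg_left (hn0 _ (hge j)).2.2 (by positivity))
          (mul_le_mul_of_nonneg_left (hn0 _ (hge j)).2.1 (by positivity))
  have hwb : ∀ χ : R → Fx, ContDiff ℝ ∞ χ → HasCompactSupport χ →
      Tendsto (fun j => ∫ x, ⟪χ x, b j x⟫_ℂ) atTop (𝓝 0) := by
    intro χ hχ hcχ
    have h2 : ContDiff ℝ ∞ fun x => θ x • χ x := hθ.smul hχ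
    have h3 : tsupport (fun x => θ x • χ x) ⊆ tsupport θ :=
      closure_mono fun x hx h => hx (by simp [h])
    have h4 : HasCompactSupport fun x => θ x • χ x :=
      HasCompactSupport.of_support_subset_isCompact hK (subset_closure.trans h3)
    have h5 := (hw _ h2 h4 (h3.trans hθV)).comp (tendsto_add_atTop_nat n0)
    refine h5.congr fun j => ?_
    refine integral_congr_ae (Eventually.of_forall fun x => ?_)
    show ⟪θ x • χ x, a (j + n0) x⟫_ℂ = ⟪χ x, θ x • a (j + n0) x⟫_ℂ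
    rw [← Complex.coe_smul, ← Complex.coe_smul, inner_smul_left, inner_smul_right,
      Complex.conj_ofReal]
  have := Amp406.amp_null (l := atTop) (a := b) (r := ρ) (C := max (B ^ 2 * C)
    (2 * B ^ 2 * C + 2 * B' ^ 2 * C)) hbc (fun j => (hbs j).trans hρ)
    (fun j => (hb0 j).trans (le_max_left _ _)) (fun j => (hb1 j).trans (le_max_right _ _)) hwb
  exact this

end amp

end Crest.Agent.R330.CapSl924
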