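import Crest.Agent.R330.Moll_596

/-!
# R330 (helper596): weak = strong for first order systems

`FOp`: first order differential expression with constant coefficient principal part and continuous
zero order part, acting on functions `E → F`. `Wk Qd u χ`: `Q u = χ` in the sense of distributions
(`Qd` is the formal adjoint of `Q`). `weak_strong`: square integrable distributional solutions of a
finite family `Q_a u = χ_a` are approximated in `L²` by ONE sequence of smooth compactly supported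
functions, together with all images. The sequence is equivariant under every linear isometry of `E`
under which `u` is equivariant.
-/

set_option autoImplicit false
set_option linter.unusedSectionVars false
set_option linter.unusedVariables false

open MeasureTheory Set Filter Topology ENNReal
open scoped ContDiff InnerProductSpace

noncomputable section
namespace Crest.Agent.R330.WS596
open Moll596

variable {E : Type*} [NormedAddCommGroup E] [InnerProductSpace ℝ E] [FiniteDimensional ℝ E]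
  [MeasurableSpace E] [BorelSpace E]
variable {F : Type*} [NormedAddCommGroup F] [InnerProductSpace ℂ F]

theorem inner_rsmul_right (c : ℝ) (x y : F) : ⟪x, c • y⟫_ℂ = (c : ℂ) * ⟪x, y⟫_ℂ := by
  rw [← Complex.coe_smul, inner_smul_right]

theorem inner_rsmul_left (c : ℝ) (x y : F) : ⟪c • x, y⟫_ℂ = (c : ℂ) * ⟪x, y⟫_ℂ := by
  rw [← Complex.coe_smul, inner_smul_left, Complex.conj_ofReal]

variable (E F) in
/-- first order differential expression: `φ ↦ A (Dφ) + B φ` -/
structure FOp where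
  A : (E →L[ℝ] F) →L[ℝ] F
  B : E → F →L[ℝ] F
  contB : Continuous B

/-- the differential expression applied to a function -/
def FOp.op (Q : FOp E F) (φ : E → F) (x : E) : F := Q.A (fderiv ℝ φ x) + Q.B x (φ x)

/-- `Qd` is the formal adjoint of `Q` -/
structure Adj (Q Qd : FOp E F) : Prop where
  A : ∀ (ℓ : E →L[ℝ] ℝ) (u v : F), ⟪v, Q.A (ℓ.smulRight u)⟫_ℂ = -⟪Qd.A (ℓ.smulRight v), u⟫_ℂ
  B : ∀ x u v, ⟪v, Q.B x u⟫_ℂ = ⟪Qd.B x v, u⟫_ℂ

/-- `Q u = χ` in the sense of distributions, `Qd` the formal adjoint of `Q` -/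
def Wk (Qd : FOp E F) (u χ : E → F) : Prop :=
  ∀ ψ : E → F, ContDiff ℝ ∞ ψ → HasCompactSupport ψ →
    ∫ x, ⟪Qd.op ψ x, u x⟫_ℂ = ∫ x, ⟪ψ x, χ x⟫_ℂ

theorem FOp.op_continuous (Q : FOp E F) {φ : E → F} (h : ContDiff ℝ ∞ φ) : Continuous (Q.op φ) := by
  have h1 : Continuous (fderiv ℝ φ) := h.continuous_fderiv (by simp)
  exact (Q.A.continuous.comp h1).add (Q.contB.clm_apply h.continuous)

theorem FOp.op_supp (Q : FOp E F) {φ : E → F} (h : HasCompactSupport φ) :
    HasCompactSupport (Q.op φ) := by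
  have h1 : HasCompactSupport fun x => Q.A (fderiv ℝ φ x) :=
    (h.fderiv ℝ).comp_left (g := fun L => Q.A L) (map_zero _)
  have h2 : HasCompactSupport fun x => Q.B x (φ x) := by
    refine h.mono' ?_
    intro x hx
    apply subset_tsupport
    intro h0
    apply hx
    simp only [h0, map_zero]
  exact h1.add h2

theorem integrable_inner_left {g u : E → F} (hg : Continuous g) (hc : HasCompactSupport g)
    (hu : LocallyIntegrable u) : Integrable fun x => ⟪g x, u x⟫_ℂ := by
  have h1 := hu.integrable_smul_left_of_hasCompactSupport (g := fun x => ‖g x‖) hg.norm hc.norm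
  refine h1.norm.mono' (hg.aestronglyMeasurable.inner hu.aestronglyMeasurable)
    (Eventually.of_forall fun x => ?_)
  rw [norm_smul, norm_norm]
  exact norm_inner_le_norm _ _

theorem locInt_clm {B : E → F →L[ℝ] F} (hB : Continuous B) {u : E → F}
    (hu : LocallyIntegrable u) : LocallyIntegrable fun y => B y (u y) := by
  rw [locallyIntegrable_iff]
  intro K hK
  obtain ⟨M, hM⟩ := hK.exists_bound_of_continuousOn hB.continuousOn
  have h1 : IntegrableOn u K := hu.integrableOn_isCompact hK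
  have hm : AEStronglyMeasurable (fun y => B y (u y)) (volume.restrict K) :=
    (isBoundedBilinearMap_apply (𝕜 := ℝ) (E := F) (F := F)).continuous.comp_aestronglyMeasurable
      (hB.aestronglyMeasurable.prodMk h1.aestronglyMeasurable)
  refine (h1.norm.const_mul M).mono' hm ?_
  refine (ae_restrict_iff' hK.measurableSet).2 (Eventually.of_forall fun y hy => ?_)
  exact (ContinuousLinearMap.le_opNorm _ _).trans
    (mul_le_mul_of_nonneg_right (hM y hy) (norm_nonneg _))

theorem FOp.op_smul (Q : FOp E F) {c : E → ℝ} {ψ : E → F} (hc : ContDiff ℝ ∞ c)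
    (hψ : ContDiff ℝ ∞ ψ) (x : E) :
    Q.op (fun y => c y • ψ y) x = c x • Q.op ψ x + Q.A ((fderiv ℝ c x).smulRight (ψ x)) := by
  have h1 : DifferentiableAt ℝ c x := hc.differentiable (by simp) x
  have h2 : DifferentiableAt ℝ ψ x := hψ.differentiable (by simp) x
  rw [FOp.op, fderiv_fun_smul h1 h2, FOp.op, map_add, map_smul, map_smul, smul_add]
  abel

/-- cut-off of a distributional solution -/
theorem Wk.smul {Q Qd : FOp E F} (hadj : Adj Q Qd) {u χ : E → F} (hu : LocallyIntegrable u)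
    (hχ : LocallyIntegrable χ) (h : Wk Qd u χ) {c : E → ℝ} (hc : ContDiff ℝ ∞ c) :
    Wk Qd (fun x => c x • u x)
      (fun x => c x • χ x + Q.A ((fderiv ℝ c x).smulRight (u x))) := by
  intro ψ hψ hψc
  have hcψ : ContDiff ℝ ∞ fun x => c x • ψ x := hc.smul hψ
  have hcψc : HasCompactSupport fun x => c x • ψ x := hψc.smul_left
  have e0 := h _ hcψ hcψc
  have hdc : Continuous (fderiv ℝ c) := hc.continuous_fderiv (by simp)
  have hg : Continuous fun x => Qd.A ((fderiv ℝ c x).smulRight (ψ x)) :=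
    Qd.A.continuous.comp ((ContinuousLinearMap.smulRightL ℝ E F).continuous₂.comp
      (hdc.prodMk hψ.continuous))
  have hgc : HasCompactSupport fun x => Qd.A ((fderiv ℝ c x).smulRight (ψ x)) := by
    refine hψc.mono' ?_
    intro x hx
    apply subset_tsupport
    intro h0
    apply hx
    simp only [h0, ContinuousLinearMap.smulRight_zero, map_zero]
  have i1 : Integrable fun x => ⟪Qd.op (fun y => c y • ψ y) x, u x⟫_ℂ :=
    integrable_inner_left (Qd.op_continuous hcψ) (Qd.op_supp hcψc) hu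
  have i2 : Integrable fun x => ⟪Qd.A ((fderiv ℝ c x).smulRight (ψ x)), u x⟫_ℂ :=
    integrable_inner_left hg hgc hu
  have i3 : Integrable fun x => ⟪c x • ψ x, χ x⟫_ℂ :=
    integrable_inner_left hcψ.continuous hcψc hχ
  calc ∫ x, ⟪Qd.op ψ x, c x • u x⟫_ℂ
      = ∫ x, (⟪Qd.op (fun y => c y • ψ y) x, u x⟫_ℂ
          - ⟪Qd.A ((fderiv ℝ c x).smulRight (ψ x)), u x⟫_ℂ) := by
        refine integral_congr_ae (Eventually.of_forall fun x => ?_)
        simp only
        rw [Qd.op_smul hc hψ x, inner_add_left, inner_rsmul_left, inner_rsmul_right]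
        ring
    _ = (∫ x, ⟪c x • ψ x, χ x⟫_ℂ) - ∫ x, ⟪Qd.A ((fderiv ℝ c x).smulRight (ψ x)), u x⟫_ℂ := by
        rw [integral_sub i1 i2, e0]
    _ = ∫ x, (⟪c x • ψ x, χ x⟫_ℂ - ⟪Qd.A ((fderiv ℝ c x).smulRight (ψ x)), u x⟫_ℂ) := by
        rw [integral_sub i3 i2]
    _ = ∫ x, ⟪ψ x, c x • χ x + Q.A ((fderiv ℝ c x).smulRight (u x))⟫_ℂ := by
        refine integral_congr_ae (Eventually.of_forall fun x => ?_)
        simp only
        rw [inner_add_right, hadj.A, inner_rsmul_left, inner_rsmul_right]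
        ring

variable [CompleteSpace F]

/-- Friedrichs: mollification of a distributional solution -/
theorem mol_eq {Q Qd : FOp E F} (hadj : Adj Q Qd) {u χ : E → F} (hu : LocallyIntegrable u)
    (hχ : LocallyIntegrable χ) (h : Wk Qd u χ) {r : ℝ} {η : E → ℝ} (hη : MolK r η) (x : E) :
    Q.A (fderiv ℝ (mol η u) x) + mol η (fun y => Q.B y (u y)) x = mol η χ x := by
  refine ext_inner_left ℂ fun v => ?_
  have hBu := locInt_clm Q.contB hu
  have e1 : ⟪v, Q.A (fderiv ℝ (mol η u) x)⟫_ℂ =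
      ∫ y, ⟪v, Q.A ((fderiv ℝ η (x - y)).smulRight (u y))⟫_ℂ := by
    rw [fderiv_mol hη hu, ← ContinuousLinearMap.integral_comp_comm _ (fderiv_integrand hη hu x),
      integral_inner (Q.A.integrable_comp (fderiv_integrand hη hu x))]
  have e2 : ⟪v, mol η (fun y => Q.B y (u y)) x⟫_ℂ = ∫ y, ⟪v, η (x - y) • Q.B y (u y)⟫_ℂ := by
    rw [mol, integral_inner (mol_integrand hη hBu x)]
  have e3 : ⟪v, mol η χ x⟫_ℂ = ∫ y, ⟪v, η (x - y) • χ y⟫_ℂ := by
    rw [mol, integral_inner (mol_integrand hη hχ x)]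
  have hψ : ContDiff ℝ ∞ fun y => η (x - y) • v := (hη.comp_smooth x).smul contDiff_const
  have hψc : HasCompactSupport fun y => η (x - y) • v := (hη.comp_supp x).smul_right
  have e0 := h _ hψ hψc
  have i1 : Integrable fun y => ⟪v, Q.A ((fderiv ℝ η (x - y)).smulRight (u y))⟫_ℂ :=
    (Q.A.integrable_comp (fderiv_integrand hη hu x)).const_inner v
  have i2 : Integrable fun y => ⟪v, η (x - y) • Q.B y (u y)⟫_ℂ :=
    (mol_integrand hη hBu x).const_inner v
  rw [inner_add_right, e1, e2, e3, ← integral_add i1 i2]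
  have e4 : ∀ y, ⟪v, η (x - y) • χ y⟫_ℂ = ⟪η (x - y) • v, χ y⟫_ℂ := fun y => by
    rw [inner_rsmul_left, inner_rsmul_right]
  simp only [e4]
  rw [← e0]
  refine integral_congr_ae (Eventually.of_forall fun y => ?_)
  simp only
  have hd : fderiv ℝ (fun y => η (x - y) • v) y = (-fderiv ℝ η (x - y)).smulRight v := by
    rw [fderiv_smul_const ((hη.comp_smooth x).differentiable (by simp) y), hη.fderiv_comp]
  rw [FOp.op, hd, hadj.A, inner_rsmul_right, hadj.B, inner_add_left, map_smul, inner_rsmul_left]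
  have e5 : (-fderiv ℝ η (x - y)).smulRight v = -(fderiv ℝ η (x - y)).smulRight v := by
    ext e; simp
  rw [e5, map_neg, inner_neg_left]

/-! ### `L²` estimates -/

theorem eLpNorm_clm_le {B : E → F →L[ℝ] F} {g : E → F} {M : ℝ}
    (hM : ∀ x, g x ≠ 0 → ‖B x‖ ≤ M) (hM0 : 0 ≤ M) :
    eLpNorm (fun x => B x (g x)) 2 volume ≤ ENNReal.ofReal M * eLpNorm g 2 volume := by
  have := eLpNorm_le_mul_eLpNorm_of_ae_le_mul (f := fun x => B x (g x)) (g := g) (c := M)
    (μ := (volume : Measure E)) (Eventually.of_forall fun x => ?_) 2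
  · exact this
  · by_cases h0 : g x = 0
    · simp only [h0, map_zero, norm_zero, mul_zero, le_refl]
    · exact (ContinuousLinearMap.le_opNorm _ _).trans
        (mul_le_mul_of_nonneg_right (hM x h0) (norm_nonneg _))

theorem tendsto_of_sq {α : Type*} {l : Filter α} {f : α → ℝ≥0∞}
    (h : Tendsto (fun n => f n ^ 2) l (𝓝 0)) : Tendsto f l (𝓝 0) := by
  have h1 := h.ennrpow_const (1 / 2 : ℝ)
  have e : ∀ n, (f n ^ 2) ^ (1 / 2 : ℝ) = f n := fun n => by
    rw [← ENNReal.rpow_natCast, ← ENNReal.rpow_mul]; norm_num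
  simp only [e] at h1
  simpa using h1

/-- cut-offs converge in `L²` -/
theorem tendsto_cut {u : E → F} (hu : MemLp u 2 volume) :
    Tendsto (fun n : ℕ => eLpNorm (fun x => cut ((n : ℝ) + 1) x • u x - u x) 2 volume)
      atTop (𝓝 0) := by
  have hsq : Tendsto (fun n : ℕ => eLpNorm (fun x => cut ((n : ℝ) + 1) x • u x - u x) 2
      (volume : Measure E) ^ 2) atTop (𝓝 0) := by
    simp only [sq_eLpNorm]
    have h0 : ∫⁻ x : E, (0 : ℝ≥0∞) = 0 := by simp
    rw [← h0]
    refine tendsto_lintegral_of_dominated_convergence' (fun x => ‖u x‖ₑ ^ 2) ?_ ?_ ?_ ?_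
    · intro n
      have : AEStronglyMeasurable (fun x => cut ((n : ℝ) + 1) x • u x - u x) volume :=
        ((cut_smooth _).continuous.aestronglyMeasurable.smul hu.1).sub hu.1
      exact this.enorm.pow_const 2
    · intro n
      refine Eventually.of_forall fun x => ?_
      have : cut ((n : ℝ) + 1) x • u x - u x = -((1 - cut ((n : ℝ) + 1) x) • u x) := by
        rw [sub_smul, one_smul]; abel
      simp only
      rw [this, enorm_neg, enorm_smul]
      gcongr
      have h1 : ‖1 - cut ((n : ℝ) + 1) x‖ₑ ≤ 1 := by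
        rw [Real.enorm_of_nonneg (by linarith [cut_le_one ((n : ℝ) + 1) x])]
        exact ENNReal.ofReal_le_one.2 (by linarith [cut_nonneg ((n : ℝ) + 1) x])
      calc ‖1 - cut ((n : ℝ) + 1) x‖ₑ * ‖u x‖ₑ ≤ 1 * ‖u x‖ₑ := by gcongr
        _ = ‖u x‖ₑ := one_mul _
    · rw [← sq_eLpNorm]
      exact (ENNReal.pow_lt_top hu.2).ne
    · refine Eventually.of_forall fun x => ?_
      refine tendsto_const_nhds.congr' ?_
      obtain ⟨n, hn⟩ := exists_nat_ge ‖x‖
      filter_upwards [eventually_ge_atTop n] with m hm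
      have h1 : cut ((m : ℝ) + 1) x = 1 := by
        apply cut_one (by positivity)
        have : (n : ℝ) ≤ m := by exact_mod_cast hm
        linarith
      rw [h1]
      simp
  exact tendsto_of_sq hsq

/-- the gradient term of the cut-off goes to zero -/
theorem tendsto_grad (Q : FOp E F) {u : E → F} (hu : MemLp u 2 volume) :
    Tendsto (fun n : ℕ => eLpNorm (fun x => Q.A ((fderiv ℝ (cut ((n : ℝ) + 1)) x).smulRight (u x))) 2
      volume) atTop (𝓝 0) := by
  obtain ⟨C, hC0, hC⟩ := exists_cut0_bound E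
  have hb : ∀ n : ℕ, eLpNorm (fun x => Q.A ((fderiv ℝ (cut ((n : ℝ) + 1)) x).smulRight (u x))) 2
      volume ≤ ENNReal.ofReal (‖Q.A‖ * C / ((n : ℝ) + 1)) * eLpNorm u 2 volume := by
    intro n
    refine eLpNorm_le_mul_eLpNorm_of_ae_le_mul (Eventually.of_forall fun x => ?_) 2
    have h1 : ‖fderiv ℝ (cut ((n : ℝ) + 1)) x‖ ≤ C / ((n : ℝ) + 1) := by
      have hn : (0 : ℝ) < (n : ℝ) + 1 := by positivity
      rw [fderiv_cut, norm_smul, norm_inv, Real.norm_of_nonneg hn.le, inv_mul_eq_div]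
      gcongr
      exact hC _
    calc ‖Q.A ((fderiv ℝ (cut ((n : ℝ) + 1)) x).smulRight (u x))‖
        ≤ ‖Q.A‖ * ‖(fderiv ℝ (cut ((n : ℝ) + 1)) x).smulRight (u x)‖ :=
          ContinuousLinearMap.le_opNorm _ _
      _ = ‖Q.A‖ * (‖fderiv ℝ (cut ((n : ℝ) + 1)) x‖ * ‖u x‖) := by
          rw [ContinuousLinearMap.norm_smulRight_apply]
      _ ≤ ‖Q.A‖ * (C / ((n : ℝ) + 1) * ‖u x‖) := by gcongr
      _ = ‖Q.A‖ * C / ((n : ℝ) + 1) * ‖u x‖ := by ring
  have ht : Tendsto (fun n : ℕ => ENNReal.ofReal (‖Q.A‖ * C / ((n : ℝ) + 1)) * eLpNorm u 2 volume)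
      atTop (𝓝 0) := by
    have h1 : Tendsto (fun n : ℕ => ‖Q.A‖ * C / ((n : ℝ) + 1)) atTop (𝓝 0) :=
      tendsto_const_nhds.div_atTop
        (tendsto_atTop_add_const_right _ _ tendsto_natCast_atTop_atTop)
    have h2 := (ENNReal.continuous_ofReal.tendsto 0).comp h1
    simp only [ENNReal.ofReal_zero, Function.comp_def] at h2
    have := ENNReal.Tendsto.mul_const h2 (Or.inr hu.2.ne) (b := eLpNorm u 2 volume)
    simpa using this
  exact tendsto_of_tendsto_of_tendsto_of_le_of_le tendsto_const_nhds ht (fun _ => zero_le) hb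

/-- mollification with a small kernel has support close to the support -/
theorem mol_zero {r : ℝ} {η : E → ℝ} (hη : MolK r η) (hr : r ≤ 1) {R : ℝ} {g : E → F}
    (hg : ∀ x, R ≤ ‖x‖ → g x = 0) {x : E} (hx : R + 1 ≤ ‖x‖) : mol η g x = 0 := by
  rw [mol, ← integral_zero E F (μ := volume)]
  refine integral_congr_ae (Eventually.of_forall fun y => ?_)
  dsimp only
  by_cases hxy : r ≤ ‖x - y‖
  · rw [hη.small _ hxy, zero_smul]
  · have : R ≤ ‖y‖ := by
      have h1 : ‖x‖ ≤ ‖x - y‖ + ‖y‖ := by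
        have := norm_add_le (x - y) y
        simpa using this
      linarith [not_le.1 hxy]
    rw [hg y this, smul_zero]

theorem mol_hasCompactSupport {r : ℝ} {η : E → ℝ} (hη : MolK r η) (hr : r ≤ 1) {R : ℝ} {g : E → F}
    (hg : ∀ x, R ≤ ‖x‖ → g x = 0) : HasCompactSupport (mol η g) := by
  refine HasCompactSupport.of_support_subset_isCompact (isCompact_closedBall (0 : E) (R + 1)) ?_
  intro x hx
  by_contra h
  apply hx
  apply mol_zero hη hr hg
  simp only [Metric.mem_closedBall, dist_zero_right, not_le] at h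
  exact h.le

/-- equivariance of mollifications under isometries -/
theorem mol_equivariant {r : ℝ} {η : E → ℝ} (hη : MolK r η) {u : E → F}
    (hu : LocallyIntegrable u) (g : E ≃ₗᵢ[ℝ] E) (T : F →L[ℝ] F)
    (h : ∀ᵐ x, u (g x) = T (u x)) (x : E) : mol η u (g x) = T (mol η u x) := by
  rw [mol, mol, ← T.integral_comp_comm (mol_integrand hη hu x)]
  have e1 : ∫ y, η (g x - y) • u y = ∫ y, η (g x - g y) • u (g y) :=
    (g.measurePreserving.integral_comp g.toHomeomorph.measurableEmbedding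
      (fun y => η (g x - y) • u y)).symm
  rw [e1]
  refine integral_congr_ae ?_
  filter_upwards [h] with y hy
  rw [hy, map_smul]
  congr 1
  apply hη.radial
  rw [← map_sub, g.norm_map]

/-- **one step**: a compactly supported `L²` distributional solution of finitely many equations
can be mollified, with all images close. -/
theorem exists_mol_step {κ : Type*} [Finite κ] {Q Qd : κ → FOp E F} (hadj : ∀ a, Adj (Q a) (Qd a))
    {u : E → F} (hu : MemLp u 2 volume) {χ : κ → E → F} (hχ : ∀ a, MemLp (χ a) 2 volume)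
    (hw : ∀ a, Wk (Qd a) u (χ a)) {R : ℝ} (hR : ∀ x, R ≤ ‖x‖ → u x = 0) {δ : ℝ≥0∞} (hδ : δ ≠ 0) :
    ∃ r : ℝ, 0 < r ∧ r ≤ 1 ∧ eLpNorm (fun x => mol (ker r) u x - u x) 2 volume ≤ δ ∧
      ∀ a, eLpNorm (fun x => (Q a).op (mol (ker r) u) x - χ a x) 2 volume ≤ δ := by
  cases nonempty_fintype κ
  have hul : LocallyIntegrable u := hu.locallyIntegrable (by norm_num)
  have hδ3 : δ / 3 ≠ 0 := by simp [ENNReal.div_eq_zero_iff, hδ]
  -- bound of the zero order parts on the ball of radius `R + 1`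
  have hM : ∀ a, ∃ M : ℝ, 0 < M ∧ ∀ x : E, ‖x‖ ≤ R + 1 → ‖(Q a).B x‖ ≤ M := by
    intro a
    obtain ⟨M, hM⟩ := (isCompact_closedBall (0 : E) (R + 1)).exists_bound_of_continuousOn
      (Q a).contB.continuousOn
    refine ⟨max M 1, lt_max_of_lt_right one_pos, fun x hx => (hM x ?_).trans (le_max_left _ _)⟩
    simpa using hx
  choose M hM0 hM using hM
  have hBu : ∀ a, MemLp (fun y => (Q a).B y (u y)) 2 volume := by
    intro a
    refine ⟨(isBoundedBilinearMap_apply (𝕜 := ℝ) (E := F) (F := F)).continuous.comp_aestronglyMeasurable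
      ((Q a).contB.aestronglyMeasurable.prodMk hu.1), ?_⟩
    refine (eLpNorm_clm_le (M := M a) (fun x hx => hM a x ?_) (hM0 a).le).trans_lt
      (ENNReal.mul_lt_top ENNReal.ofReal_lt_top hu.2)
    by_contra h'
    exact hx (hR x (by linarith [not_le.1 h']))
  -- radii
  have hr1 : ∀ a, ∃ r₀ : ℝ, 0 < r₀ ∧ ∀ r ≤ r₀, ∀ η : E → ℝ, MolK r η →
      eLpNorm (fun x => mol η (χ a) x - χ a x) 2 volume ≤ δ / 3 := fun a =>
    exists_mol_close (hχ a) hδ3
  have hr2 : ∀ a, ∃ r₀ : ℝ, 0 < r₀ ∧ ∀ r ≤ r₀, ∀ η : E → ℝ, MolK r η →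
      eLpNorm (fun x => mol η (fun y => (Q a).B y (u y)) x - (Q a).B x (u x)) 2 volume ≤ δ / 3 :=
    fun a => exists_mol_close (hBu a) hδ3
  have hr3 : ∀ a, ∃ r₀ : ℝ, 0 < r₀ ∧ ∀ r ≤ r₀, ∀ η : E → ℝ, MolK r η →
      eLpNorm (fun x => mol η u x - u x) 2 volume ≤ δ / 3 / ENNReal.ofReal (M a) := fun a =>
    exists_mol_close hu (by
      simp only [ne_eq, ENNReal.div_eq_zero_iff, ENNReal.ofReal_ne_top, or_false]
      simpa [ENNReal.div_eq_zero_iff] using hδ)
  obtain ⟨r0, hr0, h0⟩ := exists_mol_close hu hδ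
  choose r1 hr1 h1 using hr1
  choose r2 hr2 h2 using hr2
  choose r3 hr3 h3 using hr3
  obtain ⟨r, hrpos, hr⟩ : ∃ r : ℝ, 0 < r ∧ r ≤ 1 ∧ r ≤ r0 ∧ ∀ a, r ≤ r1 a ∧ r ≤ r2 a ∧ r ≤ r3 a := by
    have hev : ∀ᶠ r in 𝓝[>] (0 : ℝ), r ≤ 1 ∧ r ≤ r0 ∧ ∀ a, r ≤ r1 a ∧ r ≤ r2 a ∧ r ≤ r3 a := by
      have hle : ∀ s : ℝ, 0 < s → ∀ᶠ r in 𝓝[>] (0 : ℝ), r ≤ s := fun s hs =>
        (eventually_le_nhds hs).filter_mono nhdsWithin_le_nhds
      refine (hle 1 one_pos).and ((hle r0 hr0).and (eventually_all.2 fun a => ?_))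
      exact (hle _ (hr1 a)).and ((hle _ (hr2 a)).and (hle _ (hr3 a)))
    obtain ⟨r, h, h'⟩ := (hev.and self_mem_nhdsWithin).exists
    exact ⟨r, h', h⟩
  have hη := molK_ker (E := E) hrpos
  refine ⟨r, hrpos, hr.1, h0 r hr.2.1 _ hη, fun a => ?_⟩
  have hχl : LocallyIntegrable (χ a) := (hχ a).locallyIntegrable (by norm_num)
  have hBul : LocallyIntegrable fun y => (Q a).B y (u y) := (hBu a).locallyIntegrable (by norm_num)
  have e1 : (fun x => (Q a).op (mol (ker r) u) x - χ a x) = fun x =>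
      ((mol (ker r) (χ a) x - χ a x) - (mol (ker r) (fun y => (Q a).B y (u y)) x - (Q a).B x (u x)))
        + (Q a).B x (mol (ker r) u x - u x) := by
    funext x
    have := mol_eq (hadj a) hul hχl (hw a) hη x
    rw [FOp.op, ← this, map_sub]
    abel
  have hm1 : AEStronglyMeasurable (fun x => mol (ker r) (χ a) x - χ a x) volume :=
    (mol_contDiff hη hχl).continuous.aestronglyMeasurable.sub (hχ a).1
  have hm2 : AEStronglyMeasurable
      (fun x => mol (ker r) (fun y => (Q a).B y (u y)) x - (Q a).B x (u x)) volume :=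
    (mol_contDiff hη hBul).continuous.aestronglyMeasurable.sub (hBu a).1
  have hm3' : AEStronglyMeasurable (fun x => mol (ker r) u x - u x) volume :=
    (mol_contDiff hη hul).continuous.aestronglyMeasurable.sub hu.1
  have hm3 : AEStronglyMeasurable (fun x => (Q a).B x (mol (ker r) u x - u x)) volume :=
    (isBoundedBilinearMap_apply (𝕜 := ℝ) (E := F) (F := F)).continuous.comp_aestronglyMeasurable
      ((Q a).contB.aestronglyMeasurable.prodMk hm3')
  have hb3 : eLpNorm (fun x => (Q a).B x (mol (ker r) u x - u x)) 2 volume ≤ δ / 3 := by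
    refine (eLpNorm_clm_le (M := M a) (fun x hx => hM a x ?_) (hM0 a).le).trans ?_
    · by_contra h'
      apply hx
      have hx' := (not_le.1 h').le
      rw [mol_zero hη hr.1 hR hx', hR x (by linarith), sub_zero]
    · calc ENNReal.ofReal (M a) * eLpNorm (fun x => mol (ker r) u x - u x) 2 volume
          ≤ ENNReal.ofReal (M a) * (δ / 3 / ENNReal.ofReal (M a)) := by
            gcongr
            exact h3 a r (hr.2.2 a).2.2 _ hη
        _ ≤ δ / 3 := ENNReal.mul_div_le
  rw [e1, ← ENNReal.add_thirds δ]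
  refine (eLpNorm_add_le (hm1.sub hm2) hm3 (by norm_num)).trans (add_le_add
    ((eLpNorm_sub_le hm1 hm2 (by norm_num)).trans (add_le_add ?_ ?_)) hb3)
  · exact h1 a r (hr.2.2 a).1 _ hη
  · exact h2 a r (hr.2.2 a).2.1 _ hη

/-- **weak = strong** -/
theorem weak_strong {κ : Type*} [Finite κ] {Q Qd : κ → FOp E F} (hadj : ∀ a, Adj (Q a) (Qd a))
    {u : E → F} (hu : MemLp u 2 volume) {χ : κ → E → F} (hχ : ∀ a, MemLp (χ a) 2 volume)
    (hw : ∀ a, Wk (Qd a) u (χ a)) :
    ∃ φ : ℕ → E → F, (∀ n, ContDiff ℝ ∞ (φ n)) ∧ (∀ n, HasCompactSupport (φ n)) ∧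
      (∀ n (g : E ≃ₗᵢ[ℝ] E) (T : F →L[ℝ] F), (∀ᵐ x, u (g x) = T (u x)) →
        ∀ x, φ n (g x) = T (φ n x)) ∧
      Tendsto (fun n => eLpNorm (fun x => φ n x - u x) 2 volume) atTop (𝓝 0) ∧
      ∀ a, Tendsto (fun n => eLpNorm (fun x => (Q a).op (φ n) x - χ a x) 2 volume) atTop (𝓝 0) := by
  have hul : LocallyIntegrable u := hu.locallyIntegrable (by norm_num)
  have hcu : ∀ n : ℕ, MemLp (fun x => cut ((n : ℝ) + 1) x • u x) 2 volume := by
    intro n
    refine hu.mono ((cut_smooth _).continuous.aestronglyMeasurable.smul hu.1)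
      (Eventually.of_forall fun x => ?_)
    rw [norm_smul, Real.norm_of_nonneg (cut_nonneg _ _)]
    exact mul_le_of_le_one_left (norm_nonneg _) (cut_le_one _ _)
  have hgm : ∀ (a : κ) (n : ℕ), AEStronglyMeasurable
      (fun x => (Q a).A ((fderiv ℝ (cut ((n : ℝ) + 1)) x).smulRight (u x))) volume := by
    intro a n
    refine (Q a).A.continuous.comp_aestronglyMeasurable ?_
    exact (ContinuousLinearMap.smulRightL ℝ E F).aestronglyMeasurable_comp₂
      ((cut_smooth _).continuous_fderiv (by simp)).aestronglyMeasurable hu.1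
  have hcχ : ∀ (a : κ) (n : ℕ), MemLp (fun x => cut ((n : ℝ) + 1) x • χ a x) 2 volume := by
    intro a n
    refine (hχ a).mono ((cut_smooth _).continuous.aestronglyMeasurable.smul (hχ a).1)
      (Eventually.of_forall fun x => ?_)
    rw [norm_smul, Real.norm_of_nonneg (cut_nonneg _ _)]
    exact mul_le_of_le_one_left (norm_nonneg _) (cut_le_one _ _)
  have hgL : ∀ (a : κ) (n : ℕ), MemLp
      (fun x => (Q a).A ((fderiv ℝ (cut ((n : ℝ) + 1)) x).smulRight (u x))) 2 volume := by
    intro a n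
    obtain ⟨C, hC⟩ := ((cut_supp (E := E) (R := (n : ℝ) + 1) (by positivity)).fderiv ℝ
      ).exists_bound_of_continuous ((cut_smooth _).continuous_fderiv (by simp))
    refine hu.of_le_mul (c := ‖(Q a).A‖ * C) (hgm a n) (Eventually.of_forall fun x => ?_)
    calc ‖(Q a).A ((fderiv ℝ (cut ((n : ℝ) + 1)) x).smulRight (u x))‖
        ≤ ‖(Q a).A‖ * ‖(fderiv ℝ (cut ((n : ℝ) + 1)) x).smulRight (u x)‖ :=
          ContinuousLinearMap.le_opNorm _ _
      _ = ‖(Q a).A‖ * (‖fderiv ℝ (cut ((n : ℝ) + 1)) x‖ * ‖u x‖) := by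
          rw [ContinuousLinearMap.norm_smulRight_apply]
      _ ≤ ‖(Q a).A‖ * (C * ‖u x‖) := by gcongr; exact hC x
      _ = ‖(Q a).A‖ * C * ‖u x‖ := by ring
  have step : ∀ n : ℕ, ∃ r : ℝ, 0 < r ∧ r ≤ 1 ∧
      eLpNorm (fun x => mol (ker r) (fun x => cut ((n : ℝ) + 1) x • u x) x -
        cut ((n : ℝ) + 1) x • u x) 2 volume ≤ ENNReal.ofReal (1 / ((n : ℝ) + 1)) ∧
      ∀ a, eLpNorm (fun x => (Q a).op (mol (ker r) (fun x => cut ((n : ℝ) + 1) x • u x)) x -
        (cut ((n : ℝ) + 1) x • χ a x +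
          (Q a).A ((fderiv ℝ (cut ((n : ℝ) + 1)) x).smulRight (u x)))) 2 volume ≤
            ENNReal.ofReal (1 / ((n : ℝ) + 1)) := by
    intro n
    have hn : (0 : ℝ) < (n : ℝ) + 1 := by positivity
    refine exists_mol_step hadj (hcu n) (χ := fun a x => cut ((n : ℝ) + 1) x • χ a x +
          (Q a).A ((fderiv ℝ (cut ((n : ℝ) + 1)) x).smulRight (u x)))
      (fun a => (hcχ a n).add (hgL a n)) (fun a => ?_) (R := 2 * ((n : ℝ) + 1)) (fun x hx => ?_) ?_
    · exact Wk.smul (hadj a) hul ((hχ a).locallyIntegrable (by norm_num)) (hw a) (cut_smooth _)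
    · rw [cut_zero hn hx, zero_smul]
    · simp only [ne_eq, ENNReal.ofReal_eq_zero, not_le]
      positivity
  choose r hr0 hr1 hru hrχ using step
  have hδt : Tendsto (fun n : ℕ => ENNReal.ofReal (1 / ((n : ℝ) + 1))) atTop (𝓝 0) := by
    have h2 := (ENNReal.continuous_ofReal.tendsto 0).comp
      (tendsto_one_div_add_atTop_nhds_zero_nat (𝕜 := ℝ))
    simpa only [ENNReal.ofReal_zero, Function.comp_def] using h2
  refine ⟨fun n => mol (ker (r n)) (fun x => cut ((n : ℝ) + 1) x • u x), fun n => ?_, fun n => ?_,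
    fun n g T hg x => ?_, ?_, fun a => ?_⟩
  · exact mol_contDiff (molK_ker (hr0 n)) ((hcu n).locallyIntegrable (by norm_num))
  · refine mol_hasCompactSupport (molK_ker (hr0 n)) (hr1 n) (R := 2 * ((n : ℝ) + 1)) fun x hx => ?_
    rw [cut_zero (by positivity) hx, zero_smul]
  · refine mol_equivariant (molK_ker (hr0 n)) ((hcu n).locallyIntegrable (by norm_num)) g T ?_ x
    filter_upwards [hg] with y hy
    rw [hy, map_smul, cut_radial _ (g.norm_map y)]
  · have h1 : ∀ n : ℕ, eLpNorm (fun x => mol (ker (r n)) (fun x => cut ((n : ℝ) + 1) x • u x) x -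
        u x) 2 volume ≤ ENNReal.ofReal (1 / ((n : ℝ) + 1)) +
          eLpNorm (fun x => cut ((n : ℝ) + 1) x • u x - u x) 2 volume := by
      intro n
      have e : (fun x => mol (ker (r n)) (fun x => cut ((n : ℝ) + 1) x • u x) x - u x) = fun x =>
          (mol (ker (r n)) (fun x => cut ((n : ℝ) + 1) x • u x) x - cut ((n : ℝ) + 1) x • u x) +
            (cut ((n : ℝ) + 1) x • u x - u x) := by
        funext x; abel
      rw [e]
      refine (eLpNorm_add_le ?_ ((hcu n).1.sub hu.1) (by norm_num)).trans (add_le_add (hru n) le_rfl)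
      exact (mol_contDiff (molK_ker (hr0 n)) ((hcu n).locallyIntegrable
        (by norm_num))).continuous.aestronglyMeasurable.sub (hcu n).1
    have h2 := hδt.add (tendsto_cut hu)
    rw [add_zero] at h2
    exact tendsto_of_tendsto_of_tendsto_of_le_of_le tendsto_const_nhds h2 (fun _ => zero_le) h1
  · have h1 : ∀ n : ℕ, eLpNorm (fun x =>
        (Q a).op (mol (ker (r n)) (fun x => cut ((n : ℝ) + 1) x • u x)) x - χ a x) 2 volume ≤
          ENNReal.ofReal (1 / ((n : ℝ) + 1)) +
          (eLpNorm (fun x => cut ((n : ℝ) + 1) x • χ a x - χ a x) 2 volume +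
            eLpNorm (fun x => (Q a).A ((fderiv ℝ (cut ((n : ℝ) + 1)) x).smulRight (u x))) 2
              volume) := by
      intro n
      have e : (fun x => (Q a).op (mol (ker (r n)) (fun x => cut ((n : ℝ) + 1) x • u x)) x -
          χ a x) = fun x =>
          ((Q a).op (mol (ker (r n)) (fun x => cut ((n : ℝ) + 1) x • u x)) x -
            (cut ((n : ℝ) + 1) x • χ a x +
              (Q a).A ((fderiv ℝ (cut ((n : ℝ) + 1)) x).smulRight (u x)))) +
            ((cut ((n : ℝ) + 1) x • χ a x - χ a x) +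
              (Q a).A ((fderiv ℝ (cut ((n : ℝ) + 1)) x).smulRight (u x))) := by
        funext x; abel
      rw [e]
      have hm1 : AEStronglyMeasurable (fun x => cut ((n : ℝ) + 1) x • χ a x - χ a x) volume :=
        (hcχ a n).1.sub (hχ a).1
      refine (eLpNorm_add_le ?_ (hm1.add (hgm a n)) (by norm_num)).trans
        (add_le_add (hrχ n a) (eLpNorm_add_le hm1 (hgm a n) (by norm_num)))
      exact ((Q a).op_continuous (mol_contDiff (molK_ker (hr0 n)) ((hcu n).locallyIntegrable
        (by norm_num)))).aestronglyMeasurable.sub ((hcχ a n).1.add (hgm a n))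
    have h2 := hδt.add ((tendsto_cut (hχ a)).add (tendsto_grad (Q a) hu))
    rw [add_zero, add_zero] at h2
    exact tendsto_of_tendsto_of_tendsto_of_le_of_le tendsto_const_nhds h2 (fun _ => zero_le) h1

end Crest.Agent.R330.WS596
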