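import Mathlib
import Crest.Agent.R330.WS_596

/-!
# Row 330, S9-REM (helper365): removability of flats for first order weak equations

`L : E →L[ℝ] V` surjective, `c : V`, the flat `{x | L x = c}` has codimension `finrank V`.

* `tube_vol` : `vol {‖x‖ ≤ R, ‖L x - c‖ ≤ ρ} ≤ C ρ^(finrank V)`.
* `fcut L c δ` : smooth, `= 0` where `‖L x - c‖ ≤ δ`, `= 1` where `‖L x - c‖ ≥ 2 δ`,
  `‖D (fcut)‖ ≤ (C/δ) 1_{‖L x - c‖ ≤ 2 δ}`.
* `WkOff Qd u χ Z` : `Q u = χ` in the sense of distributions off the set `Z`.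
* `WkOff.rem` : a flat of codimension `≥ 3` is removable (`u ∈ L²_loc`); `WkOff.rem_finset` : finite
  unions; `wk_of_off` : off a finite union of flats implies everywhere.
-/

set_option autoImplicit false
set_option linter.unusedSectionVars false

open MeasureTheory Set Filter Topology ENNReal
open scoped ContDiff InnerProductSpace NNReal

noncomputable section

namespace Crest.Agent.R330.Rem365

open Crest.Agent.R330.WS596

variable {E : Type*} [NormedAddCommGroup E] [InnerProductSpace ℝ E] [FiniteDimensional ℝ E]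
  [MeasurableSpace E] [BorelSpace E]
  {V : Type*} [NormedAddCommGroup V] [InnerProductSpace ℝ V] [FiniteDimensional ℝ V]
  [MeasurableSpace V] [BorelSpace V]

/-! ### Volume of tubes -/

/-- Splitting of `E` along a surjective linear map. -/
def splitE (L : E →L[ℝ] V) (s : V →ₗ[ℝ] E) (hs : ∀ v, L (s v) = v) :
    E ≃ₗ[ℝ] V × LinearMap.ker (L : E →ₗ[ℝ] V) where
  toFun x := (L x, ⟨x - s (L x), by simp [LinearMap.mem_ker, hs]⟩)
  invFun p := s p.1 + p.2
  map_add' x y := by
    ext
    · simp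
    · simp only [map_add, Prod.snd_add, Submodule.coe_add]
      abel
  map_smul' r x := by
    ext
    · simp
    · simp [smul_sub]
  left_inv x := by simp
  right_inv p := by
    have h : L (p.2 : E) = 0 := p.2.2
    ext
    · simp [hs, h]
    · simp [hs, h]

theorem tube_vol (L : E →L[ℝ] V) (hL : Function.Surjective L) (R : ℝ) :
    ∃ C : ℝ, 0 ≤ C ∧ ∀ (c : V) (ρ : ℝ), 0 ≤ ρ →
      (volume : Measure E) {x : E | ‖x‖ ≤ R ∧ ‖L x - c‖ ≤ ρ} ≤
        ENNReal.ofReal (C * ρ ^ Module.finrank ℝ V) := by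
  obtain ⟨s, hs⟩ := (L : E →ₗ[ℝ] V).exists_rightInverse_of_surjective
    (LinearMap.range_eq_top.2 hL)
  have hs' : ∀ v, L (s v) = v := fun v => LinearMap.congr_fun hs v
  set T := (splitE L s hs').toContinuousLinearEquiv with hT
  have hTx : ∀ x, T x = (L x, ⟨x - s (L x), by simp [LinearMap.mem_ker, hs']⟩) := fun x => rfl
  set μ : Measure (V × LinearMap.ker (L : E →ₗ[ℝ] V)) := (volume : Measure E).map T
  have : μ.IsAddHaarMeasure := T.isAddHaarMeasure_map volume
  have hμ : μ = Measure.addHaarScalarFactor μ (volume.prod volume) •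
      ((volume : Measure V).prod (volume : Measure (LinearMap.ker (L : E →ₗ[ℝ] V)))) :=
    Measure.isAddLeftInvariant_eq_smul μ _
  set k : ℝ≥0 := Measure.addHaarScalarFactor μ (volume.prod volume)
  set B : ℝ → ℝ≥0∞ := fun r =>
    (volume : Measure (LinearMap.ker (L : E →ₗ[ℝ] V))) (Metric.closedBall 0 r)
  set P : E →L[ℝ] E := ContinuousLinearMap.id ℝ E - (LinearMap.toContinuousLinearMap s).comp L
  set R' : ℝ := ‖P‖ * |R|
  set a : ℝ≥0∞ := (k : ℝ≥0∞) * ((volume : Measure V) (Metric.closedBall 0 1) * B R')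
  have ha : a ≠ ⊤ := by
    refine ENNReal.mul_ne_top ENNReal.coe_ne_top (ENNReal.mul_ne_top ?_ ?_)
    · exact (isCompact_closedBall (0 : V) 1).measure_lt_top.ne
    · exact (isCompact_closedBall (0 : LinearMap.ker (L : E →ₗ[ℝ] V)) R').measure_lt_top.ne
  refine ⟨a.toReal, ENNReal.toReal_nonneg, fun c ρ hρ => ?_⟩
  have hsub : {x : E | ‖x‖ ≤ R ∧ ‖L x - c‖ ≤ ρ} ⊆
      T ⁻¹' (Metric.closedBall c ρ ×ˢ Metric.closedBall 0 R') := by
    rintro x ⟨h1, h2⟩
    rw [mem_preimage, hTx]
    refine ⟨by rw [mem_closedBall_iff_norm]; exact h2, ?_⟩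
    rw [mem_closedBall_zero_iff]
    have h3 : ‖x - s (L x)‖ ≤ ‖P‖ * ‖x‖ := by
      have := P.le_opNorm x
      simpa [P] using this
    refine h3.trans (mul_le_mul_of_nonneg_left ?_ (norm_nonneg _))
    exact h1.trans (le_abs_self R)
  have hTm : Measurable T := T.continuous.measurable
  calc (volume : Measure E) {x : E | ‖x‖ ≤ R ∧ ‖L x - c‖ ≤ ρ}
      ≤ (volume : Measure E) (T ⁻¹' (Metric.closedBall c ρ ×ˢ Metric.closedBall 0 R')) :=
        measure_mono hsub
    _ = μ (Metric.closedBall c ρ ×ˢ Metric.closedBall 0 R') := by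
        rw [Measure.map_apply hTm
          (Metric.isClosed_closedBall.measurableSet.prod Metric.isClosed_closedBall.measurableSet)]
    _ = (k : ℝ≥0∞) * ((volume : Measure V) (Metric.closedBall c ρ) * B R') := by
        rw [hμ]
        simp only [Measure.smul_apply, Measure.prod_prod]
        rfl
    _ = (k : ℝ≥0∞) * ((ENNReal.ofReal (ρ ^ Module.finrank ℝ V) *
          (volume : Measure V) (Metric.closedBall 0 1)) * B R') := by
        rw [Measure.addHaar_closedBall' volume c hρ]
    _ = ENNReal.ofReal (ρ ^ Module.finrank ℝ V) * a := by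
        simp only [a]
        ring
    _ = ENNReal.ofReal (a.toReal * ρ ^ Module.finrank ℝ V) := by
        rw [mul_comm a.toReal, ENNReal.ofReal_mul (pow_nonneg hρ _), ENNReal.ofReal_toReal ha]

/-- The flat has measure zero. -/
theorem flat_null (L : E →L[ℝ] V) (hL : Function.Surjective L) (hV : 1 ≤ Module.finrank ℝ V)
    (c : V) : (volume : Measure E) {x : E | L x = c} = 0 := by
  have h : {x : E | L x = c} ⊆ ⋃ R : ℕ, {x : E | ‖x‖ ≤ R ∧ ‖L x - c‖ ≤ 0} := by
    intro x hx
    obtain ⟨R, hR⟩ := exists_nat_ge ‖x‖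
    refine mem_iUnion.2 ⟨R, hR, ?_⟩
    rw [show L x = c from hx, sub_self, norm_zero]
  refine measure_mono_null h (measure_iUnion_null fun R => ?_)
  obtain ⟨C, _, hC⟩ := tube_vol L hL (R : ℝ)
  have h1 := hC c 0 le_rfl
  rw [zero_pow (by omega), mul_zero, ENNReal.ofReal_zero] at h1
  exact le_antisymm h1 bot_le

/-! ### Cut-off near a flat -/

theorem smoothTransition_deriv_bound :
    ∃ C : ℝ, 0 ≤ C ∧ ∀ t : ℝ, |deriv Real.smoothTransition t| ≤ C := by
  have hc : ContDiff ℝ 1 Real.smoothTransition := Real.smoothTransition.contDiff (n := 1)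
  have hd : Continuous (deriv Real.smoothTransition) := hc.continuous_deriv (by simp)
  obtain ⟨C, hC⟩ := (isCompact_Icc (a := (0 : ℝ)) (b := 1)).exists_bound_of_continuousOn
    hd.continuousOn
  refine ⟨max C 0, le_max_right _ _, fun t => ?_⟩
  by_cases ht : t ∈ Icc (0 : ℝ) 1
  · exact (hC t ht).trans (le_max_left _ _)
  · have h0 : deriv Real.smoothTransition t = 0 := by
      rw [mem_Icc, not_and_or, not_le, not_le] at ht
      rcases ht with ht | ht
      · have h1 : Real.smoothTransition =ᶠ[𝓝 t] fun _ => 0 := by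
          filter_upwards [Iio_mem_nhds ht] with s hs
          exact Real.smoothTransition.zero_of_nonpos (le_of_lt hs)
        rw [h1.deriv_eq, deriv_const]
      · have h1 : Real.smoothTransition =ᶠ[𝓝 t] fun _ => 1 := by
          filter_upwards [Ioi_mem_nhds ht] with s hs
          exact Real.smoothTransition.one_of_one_le (le_of_lt hs)
        rw [h1.deriv_eq, deriv_const]
    rw [h0, abs_zero]
    exact le_max_right _ _

/-- Cut-off near the flat `{L x = c}`. -/
def fcut (L : E →L[ℝ] V) (c : V) (δ : ℝ) (x : E) : ℝ :=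
  Real.smoothTransition (‖L x - c‖ ^ 2 / δ ^ 2 - 1)

theorem fcut_smooth (L : E →L[ℝ] V) (c : V) (δ : ℝ) : ContDiff ℝ ∞ (fcut L c δ) := by
  refine (Real.smoothTransition.contDiff (n := ⊤)).comp ?_
  exact (((L.contDiff.sub contDiff_const).norm_sq ℝ).div_const _).sub contDiff_const

theorem fcut_nonneg (L : E →L[ℝ] V) (c : V) (δ : ℝ) (x : E) : 0 ≤ fcut L c δ x :=
  Real.smoothTransition.nonneg _

theorem fcut_le_one (L : E →L[ℝ] V) (c : V) (δ : ℝ) (x : E) : fcut L c δ x ≤ 1 :=
  Real.smoothTransition.le_one _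

theorem fcut_zero {L : E →L[ℝ] V} {c : V} {δ : ℝ} (hδ : 0 < δ) {x : E} (h : ‖L x - c‖ ≤ δ) :
    fcut L c δ x = 0 := by
  refine Real.smoothTransition.zero_of_nonpos ?_
  rw [sub_nonpos, div_le_one (by positivity)]
  exact pow_le_pow_left₀ (norm_nonneg _) h 2

theorem fcut_one {L : E →L[ℝ] V} {c : V} {δ : ℝ} (hδ : 0 < δ) {x : E} (h : 2 * δ ≤ ‖L x - c‖) :
    fcut L c δ x = 1 := by
  refine Real.smoothTransition.one_of_one_le ?_
  have h1 : (2 * δ) ^ 2 ≤ ‖L x - c‖ ^ 2 := pow_le_pow_left₀ (by positivity) h 2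
  have h2 : 4 ≤ ‖L x - c‖ ^ 2 / δ ^ 2 := by
    rw [le_div_iff₀ (by positivity)]
    nlinarith
  linarith

theorem fcut_fderiv (L : E →L[ℝ] V) : ∃ C : ℝ, 0 ≤ C ∧ ∀ (c : V) (δ : ℝ), 0 < δ → ∀ x : E,
    ‖fderiv ℝ (fcut L c δ) x‖ ≤ {x : E | ‖L x - c‖ ≤ 2 * δ}.indicator (fun _ => C / δ) x := by
  obtain ⟨C, hC0, hC⟩ := smoothTransition_deriv_bound
  refine ⟨4 * C * ‖L‖, by positivity, fun c δ hδ x => ?_⟩
  have h1 : HasFDerivAt (fun x : E => ‖L x - c‖ ^ 2 / δ ^ 2 - 1)
      ((δ ^ 2)⁻¹ • (2 • (innerSL ℝ (L x - c)).comp L)) x := by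
    have h := ((L.hasFDerivAt (x := x)).sub_const c).norm_sq
    have h' := (h.mul_const ((δ ^ 2)⁻¹)).sub_const 1
    simpa only [div_eq_mul_inv] using h'
  have h2 : HasFDerivAt (fcut L c δ) (deriv Real.smoothTransition (‖L x - c‖ ^ 2 / δ ^ 2 - 1) •
      ((δ ^ 2)⁻¹ • (2 • (innerSL ℝ (L x - c)).comp L))) x := by
    have h := (((Real.smoothTransition.contDiff (n := 1)).differentiable (by simp)
      (‖L x - c‖ ^ 2 / δ ^ 2 - 1)).hasDerivAt).comp_hasFDerivAt x h1
    exact h
  by_cases hx : ‖L x - c‖ ≤ 2 * δ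
  · rw [indicator_of_mem (show x ∈ {x : E | ‖L x - c‖ ≤ 2 * δ} from hx), h2.fderiv]
    have h3 : ‖(2 • (innerSL ℝ (L x - c)).comp L : E →L[ℝ] ℝ)‖ ≤ 2 * (2 * δ * ‖L‖) := by
      rw [two_smul, two_mul]
      refine (norm_add_le _ _).trans (add_le_add ?_ ?_) <;>
      · refine (ContinuousLinearMap.opNorm_comp_le _ _).trans ?_
        rw [innerSL_apply_norm]
        exact mul_le_mul_of_nonneg_right hx (norm_nonneg _)
    rw [norm_smul, norm_smul, Real.norm_eq_abs, Real.norm_eq_abs,
      abs_of_pos (show (0 : ℝ) < (δ ^ 2)⁻¹ by positivity)]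
    calc |deriv Real.smoothTransition (‖L x - c‖ ^ 2 / δ ^ 2 - 1)| *
          ((δ ^ 2)⁻¹ * ‖(2 • (innerSL ℝ (L x - c)).comp L : E →L[ℝ] ℝ)‖)
        ≤ C * ((δ ^ 2)⁻¹ * (2 * (2 * δ * ‖L‖))) := by
          gcongr
          exact hC _
      _ = 4 * C * ‖L‖ / δ := by
          field_simp
          ring
  · rw [indicator_of_notMem (show x ∉ {x : E | ‖L x - c‖ ≤ 2 * δ} from hx)]
    have h3 : fcut L c δ =ᶠ[𝓝 x] fun _ => 1 := by
      have h4 : IsOpen {x : E | 2 * δ < ‖L x - c‖} :=
        isOpen_lt continuous_const (L.continuous.sub continuous_const).norm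
      filter_upwards [h4.mem_nhds (not_le.1 hx)] with y hy
      exact fcut_one hδ (le_of_lt hy)
    rw [h3.fderiv_eq, fderiv_fun_const]
    simp

/-! ### Removability -/

variable {F : Type*} [NormedAddCommGroup F] [InnerProductSpace ℂ F]

/-- `Q u = χ` in the sense of distributions off `Z`, `Qd` the formal adjoint of `Q`. -/
def WkOff (Qd : FOp E F) (u χ : E → F) (Z : Set E) : Prop :=
  ∀ ψ : E → F, ContDiff ℝ ∞ ψ → HasCompactSupport ψ → Disjoint (tsupport ψ) Z →
    ∫ x, ⟪Qd.op ψ x, u x⟫_ℂ = ∫ x, ⟪ψ x, χ x⟫_ℂ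

theorem WkOff.mono {Qd : FOp E F} {u χ : E → F} {Z Z' : Set E} (h : WkOff Qd u χ Z)
    (hZ : Z ⊆ Z') : WkOff Qd u χ Z' :=
  fun ψ h1 h2 h3 => h ψ h1 h2 (h3.mono_right hZ)

theorem wkOff_empty {Qd : FOp E F} {u χ : E → F} : WkOff Qd u χ ∅ ↔ Wk Qd u χ :=
  ⟨fun h ψ h1 h2 => h ψ h1 h2 (disjoint_empty _), fun h ψ h1 h2 _ => h ψ h1 h2⟩

/-- **A flat of codimension `≥ 3` is removable.** -/
theorem WkOff.rem {Qd : FOp E F} {u χ : E → F} (hu : LocallyIntegrable u)
    (hu2 : LocallyIntegrable fun x => ‖u x‖ ^ 2) (hχ : LocallyIntegrable χ) {Z : Set E}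
    {L : E →L[ℝ] V} (hL : Function.Surjective L) (hV : 3 ≤ Module.finrank ℝ V) {c : V}
    (h : WkOff Qd u χ (Z ∪ {x | L x = c})) : WkOff Qd u χ Z := by
  intro ψ hψ hψc hdis
  -- constants
  obtain ⟨R, hR⟩ := hψc.isBounded.subset_closedBall (0 : E)
  obtain ⟨C, hC0, hC⟩ := fcut_fderiv L
  obtain ⟨C', hC'0, hC'⟩ := tube_vol L hL R
  obtain ⟨M, hM⟩ := hψc.exists_bound_of_continuous hψ.continuous
  have hM0 : 0 ≤ M := (norm_nonneg _).trans (hM 0)
  set δ : ℕ → ℝ := fun n => 1 / ((n : ℝ) + 1) with hδdef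
  have hδ : ∀ n, 0 < δ n := fun n => by simp only [hδdef]; positivity
  set η : ℕ → E → ℝ := fun n => fcut L c (δ n) with hη
  set S : ℕ → Set E := fun n => {x : E | ‖x‖ ≤ R ∧ ‖L x - c‖ ≤ 2 * δ n} with hS
  have hSm : ∀ n, MeasurableSet (S n) := fun n =>
    ((isClosed_le continuous_norm continuous_const).inter
      (isClosed_le (L.continuous.sub continuous_const).norm continuous_const)).measurableSet
  have hηs : ∀ n, ContDiff ℝ ∞ (η n) := fun n => fcut_smooth L c _
  -- off the flat, `η n x = 1` eventually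
  have hη1 : ∀ x, L x ≠ c → ∀ᶠ n in atTop, η n x = 1 ∧ x ∉ S n := by
    intro x hx
    have h1 : 0 < ‖L x - c‖ := norm_pos_iff.2 (sub_ne_zero.2 hx)
    have h2 : Tendsto (fun n => 2 * δ n) atTop (𝓝 (2 * 0)) :=
      tendsto_one_div_add_atTop_nhds_zero_nat.const_mul 2
    rw [mul_zero] at h2
    filter_upwards [h2.eventually_lt_const h1] with n hn
    exact ⟨fcut_one (hδ n) hn.le, fun h3 => absurd h3.2 (not_le.2 hn)⟩
  have hae : ∀ᵐ x : E, L x ≠ c := by
    have h1 := flat_null L hL (by omega) c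
    exact measure_eq_zero_iff_ae_notMem.1 h1
  -- the equation for `η n ψ`
  have heq : ∀ n, (∫ x, ⟪η n x • Qd.op ψ x, u x⟫_ℂ) +
      ∫ x, ⟪Qd.A ((fderiv ℝ (η n) x).smulRight (ψ x)), u x⟫_ℂ = ∫ x, ⟪η n x • ψ x, χ x⟫_ℂ := by
    intro n
    have hηψ : ContDiff ℝ ∞ fun x => η n x • ψ x := (hηs n).smul hψ
    have hηψc : HasCompactSupport fun x => η n x • ψ x := hψc.smul_left
    have hd : Disjoint (tsupport fun x => η n x • ψ x) (Z ∪ {x | L x = c}) := by
      rw [disjoint_union_right]
      constructor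
      · have hsub : Function.support (fun x => η n x • ψ x) ⊆ Function.support ψ := by
          intro x hx h0
          exact hx (by simp only [h0, smul_zero])
        exact hdis.mono_left (closure_mono hsub)
      · rw [Set.disjoint_left]
        intro x hx hx'
        have h1 : tsupport (fun x => η n x • ψ x) ⊆ {x | δ n ≤ ‖L x - c‖} := by
          refine closure_minimal (fun y hy => ?_)
            (isClosed_le continuous_const (L.continuous.sub continuous_const).norm)
          by_contra h2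
          exact hy (by simp only [hη, fcut_zero (hδ n) (not_le.1 h2).le, zero_smul])
        have h2 : δ n ≤ ‖L x - c‖ := h1 hx
        rw [show L x = c from hx', sub_self, norm_zero] at h2
        exact absurd h2 (not_le.2 (hδ n))
    have h0 := h _ hηψ hηψc hd
    have hdc : Continuous (fderiv ℝ (η n)) := (hηs n).continuous_fderiv (by simp)
    have hg : Continuous fun x => Qd.A ((fderiv ℝ (η n) x).smulRight (ψ x)) :=
      Qd.A.continuous.comp ((ContinuousLinearMap.smulRightL ℝ E F).continuous₂.comp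
        (hdc.prodMk hψ.continuous))
    have hgc : HasCompactSupport fun x => Qd.A ((fderiv ℝ (η n) x).smulRight (ψ x)) := by
      refine hψc.mono' ?_
      intro x hx
      apply subset_tsupport
      intro h0
      apply hx
      simp only [h0, ContinuousLinearMap.smulRight_zero, map_zero]
    have i1 : Integrable fun x => ⟪η n x • Qd.op ψ x, u x⟫_ℂ :=
      integrable_inner_left ((hηs n).continuous.smul (Qd.op_continuous hψ))
        (Qd.op_supp hψc).smul_left hu
    have i2 : Integrable fun x => ⟪Qd.A ((fderiv ℝ (η n) x).smulRight (ψ x)), u x⟫_ℂ :=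
      integrable_inner_left hg hgc hu
    rw [← integral_add i1 i2, ← h0]
    refine integral_congr_ae (Eventually.of_forall fun x => ?_)
    simp only [Qd.op_smul (hηs n) hψ x, inner_add_left]
  -- limits
  have hl1 : Tendsto (fun n => ∫ x, ⟪η n x • Qd.op ψ x, u x⟫_ℂ) atTop
      (𝓝 (∫ x, ⟪Qd.op ψ x, u x⟫_ℂ)) := by
    refine tendsto_integral_of_dominated_convergence (fun x => ‖⟪Qd.op ψ x, u x⟫_ℂ‖)
      (fun n => ?_) (integrable_inner_left (Qd.op_continuous hψ) (Qd.op_supp hψc) hu).norm
      (fun n => Eventually.of_forall fun x => ?_) ?_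
    · exact (((hηs n).continuous.smul (Qd.op_continuous hψ)).aestronglyMeasurable).inner
        hu.aestronglyMeasurable
    · rw [inner_rsmul_left, norm_mul, Complex.norm_real, Real.norm_of_nonneg (fcut_nonneg _ _ _ _)]
      exact mul_le_of_le_one_left (norm_nonneg _) (fcut_le_one _ _ _ _)
    · filter_upwards [hae] with x hx
      refine tendsto_const_nhds.congr' ?_
      filter_upwards [hη1 x hx] with n hn
      rw [hn.1, one_smul]
  have hl2 : Tendsto (fun n => ∫ x, ⟪η n x • ψ x, χ x⟫_ℂ) atTop (𝓝 (∫ x, ⟪ψ x, χ x⟫_ℂ)) := by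
    refine tendsto_integral_of_dominated_convergence (fun x => ‖⟪ψ x, χ x⟫_ℂ‖)
      (fun n => ?_) (integrable_inner_left hψ.continuous hψc hχ).norm
      (fun n => Eventually.of_forall fun x => ?_) ?_
    · exact (((hηs n).continuous.smul hψ.continuous).aestronglyMeasurable).inner
        hχ.aestronglyMeasurable
    · rw [inner_rsmul_left, norm_mul, Complex.norm_real, Real.norm_of_nonneg (fcut_nonneg _ _ _ _)]
      exact mul_le_of_le_one_left (norm_nonneg _) (fcut_le_one _ _ _ _)
    · filter_upwards [hae] with x hx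
      refine tendsto_const_nhds.congr' ?_
      filter_upwards [hη1 x hx] with n hn
      rw [hn.1, one_smul]
  have hl3 : Tendsto (fun n => ∫ x, ⟪Qd.A ((fderiv ℝ (η n) x).smulRight (ψ x)), u x⟫_ℂ) atTop
      (𝓝 0) := by
    set K : ℝ := ‖Qd.A‖ * (C * M) with hK
    have hK0 : 0 ≤ K := by positivity
    have hiu : IntegrableOn (fun x => ‖u x‖ ^ 2) (Metric.closedBall (0 : E) R) :=
      hu2.integrableOn_isCompact (isCompact_closedBall _ _)
    have hSB : ∀ n, S n ⊆ Metric.closedBall (0 : E) R := fun n x hx => by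
      rw [mem_closedBall_zero_iff]
      exact hx.1
    have hSfin : ∀ n, volume (S n) ≠ ⊤ := fun n =>
      ((measure_mono (hSB n)).trans_lt (isCompact_closedBall (0 : E) R).measure_lt_top).ne
    have hiS : ∀ n, Integrable ((S n).indicator fun x => K * (((n : ℝ) + 1) ^ 2 + ‖u x‖ ^ 2)) := by
      intro n
      refine (integrable_indicator_iff (hSm n)).2 (Integrable.const_mul ?_ K)
      exact (integrableOn_const (hSfin n)).add (hiu.mono_set (hSB n))
    have hb : ∀ n x, ‖⟪Qd.A ((fderiv ℝ (η n) x).smulRight (ψ x)), u x⟫_ℂ‖ ≤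
        (S n).indicator (fun x => K * (((n : ℝ) + 1) ^ 2 + ‖u x‖ ^ 2)) x := by
      intro n x
      have h1 : ‖Qd.A ((fderiv ℝ (η n) x).smulRight (ψ x))‖ ≤
          ‖Qd.A‖ * (‖fderiv ℝ (η n) x‖ * ‖ψ x‖) := by
        refine (ContinuousLinearMap.le_opNorm _ _).trans ?_
        rw [ContinuousLinearMap.norm_smulRight_apply]
      by_cases hx : x ∈ S n
      · rw [indicator_of_mem hx]
        have h2 : ‖fderiv ℝ (η n) x‖ ≤ C * ((n : ℝ) + 1) := by
          refine (hC c (δ n) (hδ n) x).trans ?_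
          rw [indicator_of_mem (show x ∈ {x : E | ‖L x - c‖ ≤ 2 * δ n} from hx.2)]
          simp only [hδdef]
          rw [div_div_eq_mul_div, div_one]
        calc ‖⟪Qd.A ((fderiv ℝ (η n) x).smulRight (ψ x)), u x⟫_ℂ‖
            ≤ ‖Qd.A ((fderiv ℝ (η n) x).smulRight (ψ x))‖ * ‖u x‖ := norm_inner_le_norm _ _
          _ ≤ (‖Qd.A‖ * (‖fderiv ℝ (η n) x‖ * ‖ψ x‖)) * ‖u x‖ := by gcongr
          _ ≤ (‖Qd.A‖ * ((C * ((n : ℝ) + 1)) * M)) * ‖u x‖ := by
              gcongr
              exact hM x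
          _ = K * (((n : ℝ) + 1) * ‖u x‖) := by rw [hK]; ring
          _ ≤ K * (((n : ℝ) + 1) ^ 2 + ‖u x‖ ^ 2) := by
              gcongr
              nlinarith [sq_nonneg (((n : ℝ) + 1) - ‖u x‖), sq_nonneg ((n : ℝ) + 1),
                sq_nonneg ‖u x‖]
      · rw [indicator_of_notMem hx]
        have h0 : Qd.A ((fderiv ℝ (η n) x).smulRight (ψ x)) = 0 := by
          by_cases hx1 : ‖x‖ ≤ R
          · have hx2 : ¬ ‖L x - c‖ ≤ 2 * δ n := fun h' => hx ⟨hx1, h'⟩
            have h2 : ‖fderiv ℝ (η n) x‖ ≤ 0 := by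
              refine (hC c (δ n) (hδ n) x).trans ?_
              rw [indicator_of_notMem (show x ∉ {x : E | ‖L x - c‖ ≤ 2 * δ n} from hx2)]
            rw [norm_le_zero_iff.1 h2]
            simp
          · have h2 : ψ x = 0 := by
              by_contra h'
              refine hx1 ?_
              have := hR (subset_tsupport _ h')
              rwa [mem_closedBall_zero_iff] at this
            rw [h2, ContinuousLinearMap.smulRight_zero, map_zero]
        rw [h0, inner_zero_left, norm_zero]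
    have hlim : Tendsto (fun n => ∫ x, (S n).indicator
        (fun x => K * (((n : ℝ) + 1) ^ 2 + ‖u x‖ ^ 2)) x) atTop (𝓝 0) := by
      have e1 : ∀ n, ∫ x, (S n).indicator (fun x => K * (((n : ℝ) + 1) ^ 2 + ‖u x‖ ^ 2)) x =
          K * (((n : ℝ) + 1) ^ 2 * (volume (S n)).toReal +
            ∫ x, (S n).indicator (fun x => ‖u x‖ ^ 2) x) := by
        intro n
        have j1 : Integrable (fun _ : E => ((n : ℝ) + 1) ^ 2) (volume.restrict (S n)) :=
          integrableOn_const (hSfin n)
        have j2 : Integrable (fun x => ‖u x‖ ^ 2) (volume.restrict (S n)) :=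
          hiu.mono_set (hSB n)
        rw [integral_indicator (hSm n), integral_indicator (hSm n), integral_const_mul,
          integral_add j1 j2, setIntegral_const, smul_eq_mul, mul_comm (((n : ℝ) + 1) ^ 2)]
        rfl
      simp only [e1]
      have h1 : Tendsto (fun n : ℕ => ((n : ℝ) + 1) ^ 2 * (volume (S n)).toReal) atTop (𝓝 0) := by
        set d := Module.finrank ℝ V
        have h2 : ∀ n : ℕ, ((n : ℝ) + 1) ^ 2 * (volume (S n)).toReal ≤ C' * 2 ^ d * δ n := by
          intro n
          have h3 : (volume (S n)).toReal ≤ C' * (2 * δ n) ^ d :=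
            ENNReal.toReal_le_of_le_ofReal (by have := hδ n; positivity)
              (hC' c (2 * δ n) (by have := hδ n; positivity))
          have hn1 : (1 : ℝ) ≤ (n : ℝ) + 1 := by
            have : (0 : ℝ) ≤ n := Nat.cast_nonneg n
            linarith
          have h4 : δ n ≤ 1 := by
            simp only [hδdef]
            rw [div_le_one (by positivity)]
            exact hn1
          have h5 : (δ n) ^ d ≤ (δ n) ^ 3 := pow_le_pow_of_le_one (hδ n).le h4 hV
          have h6 : ((n : ℝ) + 1) * δ n = 1 := by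
            simp only [hδdef]
            field_simp
          calc ((n : ℝ) + 1) ^ 2 * (volume (S n)).toReal
              ≤ ((n : ℝ) + 1) ^ 2 * (C' * (2 * δ n) ^ d) := by gcongr
            _ = C' * 2 ^ d * (((n : ℝ) + 1) ^ 2 * (δ n) ^ d) := by rw [mul_pow]; ring
            _ ≤ C' * 2 ^ d * (((n : ℝ) + 1) ^ 2 * (δ n) ^ 3) := by gcongr
            _ = C' * 2 ^ d * ((((n : ℝ) + 1) * δ n) ^ 2 * δ n) := by ring
            _ = C' * 2 ^ d * δ n := by rw [h6]; ring
        refine squeeze_zero (fun n => by positivity) h2 ?_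
        have h3 : Tendsto (fun n => C' * 2 ^ d * δ n) atTop (𝓝 (C' * 2 ^ d * 0)) :=
          tendsto_one_div_add_atTop_nhds_zero_nat.const_mul _
        rwa [mul_zero] at h3
      have h2 : Tendsto (fun n => ∫ x, (S n).indicator (fun x => ‖u x‖ ^ 2) x) atTop (𝓝 0) := by
        have h3 := tendsto_integral_of_dominated_convergence (μ := (volume : Measure E))
          (F := fun n x => (S n).indicator (fun x => ‖u x‖ ^ 2) x) (f := fun _ => (0 : ℝ))
          ((Metric.closedBall (0 : E) R).indicator fun x => ‖u x‖ ^ 2)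
          (fun n => (hu2.aestronglyMeasurable).indicator (hSm n))
          ((integrable_indicator_iff Metric.isClosed_closedBall.measurableSet).2 hiu)
          (fun n => Eventually.of_forall fun x => ?_) ?_
        · simpa using h3
        · by_cases hx : x ∈ S n
          · rw [indicator_of_mem hx, indicator_of_mem (hSB n hx), Real.norm_of_nonneg (sq_nonneg _)]
          · rw [indicator_of_notMem hx, norm_zero]
            exact indicator_nonneg (fun _ _ => sq_nonneg _) _
        · filter_upwards [hae] with x hx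
          refine tendsto_const_nhds.congr' ?_
          filter_upwards [hη1 x hx] with n hn
          rw [indicator_of_notMem hn.2]
      have h3 := (h1.add h2).const_mul K
      simpa using h3
    refine squeeze_zero_norm (fun n => ?_) hlim
    refine (norm_integral_le_integral_norm _).trans ?_
    refine integral_mono_of_nonneg (Eventually.of_forall fun x => norm_nonneg _) (hiS n)
      (Eventually.of_forall fun x => hb n x)
  have h1 := hl1.add hl3
  rw [add_zero] at h1
  exact tendsto_nhds_unique (h1.congr heq) hl2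

/-- **Finite unions of flats of codimension `≥ 3` are removable.** -/
theorem WkOff.rem_finset {α : Type*} {Qd : FOp E F} {u χ : E → F} (hu : LocallyIntegrable u)
    (hu2 : LocallyIntegrable fun x => ‖u x‖ ^ 2) (hχ : LocallyIntegrable χ)
    {L : α → E →L[ℝ] V} (hV : 3 ≤ Module.finrank ℝ V) {c : α → V} (A : Finset α)
    (hL : ∀ a ∈ A, Function.Surjective (L a)) :
    ∀ {Z : Set E}, WkOff Qd u χ (Z ∪ ⋃ a ∈ A, {x | L a x = c a}) → WkOff Qd u χ Z := by
  classical
  induction A using Finset.induction_on with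
  | empty =>
    intro Z h
    refine h.mono ?_
    simp
  | insert a A _ ih =>
    intro Z h
    refine WkOff.rem hu hu2 hχ (hL a (Finset.mem_insert_self _ _)) hV (c := c a) ?_
    refine ih (fun b hb => hL b (Finset.mem_insert_of_mem hb)) (h.mono ?_)
    rw [Finset.set_biUnion_insert]
    intro x hx
    rcases hx with hx | hx | hx
    · exact Or.inl (Or.inl hx)
    · exact Or.inl (Or.inr hx)
    · exact Or.inr hx

/-- Square integrable version: a weak equation off finitely many flats holds everywhere. -/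
theorem wk_of_off {α : Type*} {Qd : FOp E F} {u χ : E → F} (hu : MemLp u 2 volume)
    (hχ : MemLp χ 2 volume) {L : α → E →L[ℝ] V} (hV : 3 ≤ Module.finrank ℝ V) {c : α → V}
    (A : Finset α) (hL : ∀ a ∈ A, Function.Surjective (L a))
    (h : WkOff Qd u χ (⋃ a ∈ A, {x | L a x = c a})) : Wk Qd u χ := by
  have hu2 : Integrable fun x => ‖u x‖ ^ 2 := (memLp_two_iff_integrable_sq_norm hu.1).1 hu
  refine wkOff_empty.1 (WkOff.rem_finset (hu.locallyIntegrable (by norm_num))
    hu2.locallyIntegrable (hχ.locallyIntegrable (by norm_num)) hV (c := c) A hL (Z := ∅) ?_)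
  rwa [empty_union]

end Crest.Agent.R330.Rem365

end
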