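import Mathlib
import Crest.Agent.R330.Rem_365

/-!
# Row 330, S9-DENS (helper365): cut-off near finitely many flats, density off the flats

`mcut A L c δ = ∏ a ∈ A, fcut (L a) (c a) δ` (product: invariant under isometries which permute the
flats, `mcut_comp`).

* `mcut_fderiv` : `‖D mcut‖ ≤ (C/δ) 1_{∃ a, ‖L a x - c a‖ ≤ 2 δ}`.
* `tendsto_mcut`, `tendsto_op_mcut` : `mcut_n ψ → ψ`, `Q (mcut_n ψ) → Q ψ` in `L²`.
* `exists_mol_step'` : 596's one step with an arbitrarily small radius.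
* `dens_off` : graph density of `C_c^∞` functions supported in any neighbourhood of the support, off
  the flats.
-/

set_option autoImplicit false
set_option linter.unusedSectionVars false

open MeasureTheory Set Filter Topology ENNReal
open scoped ContDiff InnerProductSpace NNReal

noncomputable section

namespace Crest.Agent.R330.MCut365

open Crest.Agent.R330.WS596 Crest.Agent.R330.Rem365 Crest.Agent.R330.Moll596

variable {E : Type*} [NormedAddCommGroup E] [InnerProductSpace ℝ E] [FiniteDimensional ℝ E]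
  [MeasurableSpace E] [BorelSpace E]
  {V : Type*} [NormedAddCommGroup V] [InnerProductSpace ℝ V] [FiniteDimensional ℝ V]
  [MeasurableSpace V] [BorelSpace V]
  {α : Type*}

/-- Product cut-off. -/
def mcut (A : Finset α) (L : α → E →L[ℝ] V) (c : α → V) (δ : ℝ) (x : E) : ℝ :=
  ∏ a ∈ A, fcut (L a) (c a) δ x

/-- The tubes of radius `r`. -/
def tubes (A : Finset α) (L : α → E →L[ℝ] V) (c : α → V) (r : ℝ) : Set E :=
  {x | ∃ a ∈ A, ‖L a x - c a‖ ≤ r}

theorem tubes_eq (A : Finset α) (L : α → E →L[ℝ] V) (c : α → V) (r : ℝ) :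
    tubes A L c r = ⋃ a ∈ A, {x | ‖L a x - c a‖ ≤ r} := by
  ext x
  simp [tubes]

theorem isClosed_tubes (A : Finset α) (L : α → E →L[ℝ] V) (c : α → V) (r : ℝ) :
    IsClosed (tubes A L c r) := by
  rw [tubes_eq]
  exact A.finite_toSet.isClosed_biUnion fun a _ =>
    isClosed_le (((L a).continuous.sub continuous_const).norm) continuous_const

section basic

variable (A : Finset α) (L : α → E →L[ℝ] V) (c : α → V)

theorem mcut_smooth (δ : ℝ) : ContDiff ℝ ∞ (mcut A L c δ) :=
  contDiff_prod fun a _ => fcut_smooth (L a) (c a) δ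

theorem mcut_nonneg (δ : ℝ) (x : E) : 0 ≤ mcut A L c δ x :=
  Finset.prod_nonneg fun _ _ => fcut_nonneg _ _ _ _

theorem mcut_le_one (δ : ℝ) (x : E) : mcut A L c δ x ≤ 1 :=
  Finset.prod_le_one (fun _ _ => fcut_nonneg _ _ _ _) fun _ _ => fcut_le_one _ _ _ _

variable {A L c}

theorem mcut_zero {δ : ℝ} (hδ : 0 < δ) {x : E} (h : x ∈ tubes A L c δ) : mcut A L c δ x = 0 := by
  obtain ⟨a, ha, h⟩ := h
  exact Finset.prod_eq_zero ha (fcut_zero hδ h)

theorem mcut_one {δ : ℝ} (hδ : 0 < δ) {x : E} (h : x ∉ tubes A L c (2 * δ)) :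
    mcut A L c δ x = 1 := by
  refine Finset.prod_eq_one fun a ha => fcut_one hδ ?_
  by_contra h'
  exact h ⟨a, ha, (not_le.1 h').le⟩

/-- The cut-off is invariant under isometries (any maps) permuting the distances to the flats. -/
theorem mcut_comp {g : E → E} {τ : α → α} (hτ : Set.BijOn τ A A)
    (h : ∀ a ∈ A, ∀ x, ‖L a (g x) - c a‖ = ‖L (τ a) x - c (τ a)‖) (δ : ℝ) (x : E) :
    mcut A L c δ (g x) = mcut A L c δ x := by
  unfold mcut
  refine Finset.prod_bij (fun a _ => τ a) (fun a ha => hτ.mapsTo ha)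
    (fun a ha b hb hab => hτ.injOn ha hb hab) (fun b hb => ?_) fun a ha => ?_
  · obtain ⟨a, ha, hab⟩ := hτ.surjOn hb
    exact ⟨a, ha, hab⟩
  · unfold fcut
    rw [h a ha x]

end basic

theorem mcut_fderiv (A : Finset α) (L : α → E →L[ℝ] V) : ∃ C : ℝ, 0 ≤ C ∧
    ∀ (c : α → V) (δ : ℝ), 0 < δ → ∀ x : E,
      ‖fderiv ℝ (mcut A L c δ) x‖ ≤ (tubes A L c (2 * δ)).indicator (fun _ => C / δ) x := by
  classical
  choose C hC0 hC using fun a => fcut_fderiv (L a)
  refine ⟨∑ a ∈ A, C a, Finset.sum_nonneg fun a _ => hC0 a, fun c δ hδ x => ?_⟩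
  by_cases hx : x ∈ tubes A L c (2 * δ)
  · rw [indicator_of_mem hx]
    have h1 : HasFDerivAt (mcut A L c δ) (∑ a ∈ A, (∏ b ∈ A.erase a, fcut (L b) (c b) δ x) •
        fderiv ℝ (fcut (L a) (c a) δ) x) x := by
      exact HasFDerivAt.finsetProd fun a _ =>
        ((fcut_smooth (L a) (c a) δ).differentiable (by simp) x).hasFDerivAt
    rw [h1.fderiv]
    refine (norm_sum_le _ _).trans ?_
    rw [Finset.sum_div]
    refine Finset.sum_le_sum fun a _ => ?_
    rw [norm_smul, Real.norm_eq_abs, abs_of_nonneg (Finset.prod_nonneg fun _ _ =>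
      fcut_nonneg _ _ _ _)]
    have h2 : ‖fderiv ℝ (fcut (L a) (c a) δ) x‖ ≤ C a / δ :=
      (hC a (c a) δ hδ x).trans (indicator_le_self' (fun _ _ => div_nonneg (hC0 a) hδ.le) _)
    calc (∏ b ∈ A.erase a, fcut (L b) (c b) δ x) * ‖fderiv ℝ (fcut (L a) (c a) δ) x‖
        ≤ 1 * (C a / δ) := mul_le_mul (Finset.prod_le_one (fun _ _ => fcut_nonneg _ _ _ _)
            fun _ _ => fcut_le_one _ _ _ _) h2 (norm_nonneg _) zero_le_one
      _ = C a / δ := one_mul _
  · rw [indicator_of_notMem hx]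
    have h3 : mcut A L c δ =ᶠ[𝓝 x] fun _ => 1 := by
      filter_upwards [(isClosed_tubes A L c (2 * δ)).isOpen_compl.mem_nhds hx] with y hy
      exact mcut_one hδ hy
    rw [h3.fderiv_eq, fderiv_fun_const]
    simp

/-- Volume of the tubes in a ball. -/
theorem tubes_vol (A : Finset α) {L : α → E →L[ℝ] V} (hL : ∀ a ∈ A, Function.Surjective (L a))
    (R : ℝ) : ∃ C : ℝ, 0 ≤ C ∧ ∀ (c : α → V) (ρ : ℝ), 0 ≤ ρ →
      (volume : Measure E) (Metric.closedBall 0 R ∩ tubes A L c ρ) ≤
        ENNReal.ofReal (C * ρ ^ Module.finrank ℝ V) := by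
  classical
  have h : ∀ a, ∃ C : ℝ, 0 ≤ C ∧ (a ∈ A → ∀ (c : V) (ρ : ℝ), 0 ≤ ρ →
      (volume : Measure E) {x : E | ‖x‖ ≤ R ∧ ‖L a x - c‖ ≤ ρ} ≤
        ENNReal.ofReal (C * ρ ^ Module.finrank ℝ V)) := by
    intro a
    by_cases ha : a ∈ A
    · obtain ⟨C, h0, h⟩ := tube_vol (L a) (hL a ha) R
      exact ⟨C, h0, fun _ => h⟩
    · exact ⟨0, le_rfl, fun h => absurd h ha⟩
  choose C hC0 hC using h
  refine ⟨∑ a ∈ A, C a, Finset.sum_nonneg fun a _ => hC0 a, fun c ρ hρ => ?_⟩
  have h1 : Metric.closedBall (0 : E) R ∩ tubes A L c ρ ⊆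
      ⋃ a ∈ A, {x : E | ‖x‖ ≤ R ∧ ‖L a x - c a‖ ≤ ρ} := by
    rintro x ⟨hx, a, ha, hxa⟩
    refine mem_biUnion ha ⟨?_, hxa⟩
    rwa [mem_closedBall_zero_iff] at hx
  refine (measure_mono h1).trans ((measure_biUnion_finset_le A _).trans ?_)
  rw [Finset.sum_mul, ENNReal.ofReal_sum_of_nonneg fun a _ =>
    mul_nonneg (hC0 a) (pow_nonneg hρ _)]
  exact Finset.sum_le_sum fun a ha => hC a ha (c a) ρ hρ

/-- The standard sequence of radii. -/
def dl (n : ℕ) : ℝ := 1 / ((n : ℝ) + 1)

theorem dl_pos (n : ℕ) : 0 < dl n := by unfold dl; positivity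

theorem dl_le_one (n : ℕ) : dl n ≤ 1 := by
  unfold dl
  rw [div_le_one (by positivity)]
  have : (0 : ℝ) ≤ n := Nat.cast_nonneg n
  linarith

theorem tendsto_dl : Tendsto dl atTop (𝓝 0) := tendsto_one_div_add_atTop_nhds_zero_nat

/-! ### `L²` convergence -/

section conv

variable {F : Type*} [NormedAddCommGroup F] [InnerProductSpace ℂ F] [CompleteSpace F]

/-- `L²` norm of a function supported in `ball R ∩ tubes` and bounded by `M`. -/
theorem eLpNorm_tube_le {A : Finset α} {L : α → E →L[ℝ] V} {c : α → V} {R ρ M : ℝ}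
    {g : E → F} (hg : ∀ x, ‖g x‖ ≤ (Metric.closedBall 0 R ∩ tubes A L c ρ).indicator
      (fun _ => M) x) :
    eLpNorm g 2 volume ^ 2 ≤ ENNReal.ofReal (M ^ 2) *
      (volume : Measure E) (Metric.closedBall 0 R ∩ tubes A L c ρ) := by
  have hS : MeasurableSet (Metric.closedBall (0 : E) R ∩ tubes A L c ρ) :=
    (Metric.isClosed_closedBall.inter (isClosed_tubes A L c ρ)).measurableSet
  rw [sq_eLpNorm]
  calc ∫⁻ x, ‖g x‖ₑ ^ 2
      ≤ ∫⁻ x, (Metric.closedBall 0 R ∩ tubes A L c ρ).indicator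
          (fun _ => ENNReal.ofReal (M ^ 2)) x := by
        refine lintegral_mono fun x => ?_
        have h1 := hg x
        by_cases hx : x ∈ Metric.closedBall (0 : E) R ∩ tubes A L c ρ
        · rw [indicator_of_mem hx] at h1 ⊢
          rw [← ofReal_norm, ← ENNReal.ofReal_pow (norm_nonneg _)]
          exact ENNReal.ofReal_le_ofReal (pow_le_pow_left₀ (norm_nonneg _) h1 2)
        · rw [indicator_of_notMem hx] at h1 ⊢
          rw [norm_le_zero_iff.1 h1]
          simp
    _ = ENNReal.ofReal (M ^ 2) * volume (Metric.closedBall 0 R ∩ tubes A L c ρ) := by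
        rw [lintegral_indicator hS, setLIntegral_const]

/-- Functions of size `K (n+1)` on the tubes of radius `2/(n+1)` tend to `0` in `L²` when the
codimension is at least `3`. -/
theorem tendsto_tube {A : Finset α} {L : α → E →L[ℝ] V} (hL : ∀ a ∈ A, Function.Surjective (L a))
    (hV : 3 ≤ Module.finrank ℝ V) (c : α → V) {R K : ℝ} {g : ℕ → E → F}
    (hg : ∀ n x, ‖g n x‖ ≤ (Metric.closedBall 0 R ∩ tubes A L c (2 * dl n)).indicator
      (fun _ => K * ((n : ℝ) + 1)) x) :
    Tendsto (fun n => eLpNorm (g n) 2 volume) atTop (𝓝 0) := by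
  obtain ⟨C, hC0, hC⟩ := tubes_vol A hL R
  set d := Module.finrank ℝ V
  refine tendsto_of_sq ?_
  have hb : ∀ n, eLpNorm (g n) 2 volume ^ 2 ≤ ENNReal.ofReal (K ^ 2 * C * 2 ^ d * dl n) := by
    intro n
    refine (eLpNorm_tube_le (hg n)).trans ?_
    have h1 := hC c (2 * dl n) (by have := dl_pos n; positivity)
    calc ENNReal.ofReal ((K * ((n : ℝ) + 1)) ^ 2) *
          volume (Metric.closedBall (0 : E) R ∩ tubes A L c (2 * dl n))
        ≤ ENNReal.ofReal ((K * ((n : ℝ) + 1)) ^ 2) * ENNReal.ofReal (C * (2 * dl n) ^ d) := by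
          gcongr
      _ = ENNReal.ofReal ((K * ((n : ℝ) + 1)) ^ 2 * (C * (2 * dl n) ^ d)) := by
          rw [← ENNReal.ofReal_mul (sq_nonneg _)]
      _ ≤ ENNReal.ofReal (K ^ 2 * C * 2 ^ d * dl n) := by
          refine ENNReal.ofReal_le_ofReal ?_
          have h5 : (dl n) ^ d ≤ (dl n) ^ 3 :=
            pow_le_pow_of_le_one (dl_pos n).le (dl_le_one n) hV
          have h6 : ((n : ℝ) + 1) * dl n = 1 := by
            unfold dl
            field_simp
          calc (K * ((n : ℝ) + 1)) ^ 2 * (C * (2 * dl n) ^ d)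
              = K ^ 2 * C * 2 ^ d * (((n : ℝ) + 1) ^ 2 * (dl n) ^ d) := by rw [mul_pow 2]; ring
            _ ≤ K ^ 2 * C * 2 ^ d * (((n : ℝ) + 1) ^ 2 * (dl n) ^ 3) := by gcongr
            _ = K ^ 2 * C * 2 ^ d * ((((n : ℝ) + 1) * dl n) ^ 2 * dl n) := by ring
            _ = K ^ 2 * C * 2 ^ d * dl n := by rw [h6]; ring
  have hl : Tendsto (fun n => ENNReal.ofReal (K ^ 2 * C * 2 ^ d * dl n)) atTop (𝓝 0) := by
    have h1 := (ENNReal.continuous_ofReal.tendsto _).comp
      (tendsto_dl.const_mul (K ^ 2 * C * 2 ^ d))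
    simpa only [mul_zero, ENNReal.ofReal_zero, Function.comp_def] using h1
  exact tendsto_of_tendsto_of_tendsto_of_le_of_le tendsto_const_nhds hl (fun _ => bot_le) hb

/-- Multiplication by the cut-off converges in `L²` (bounded functions in a ball). -/
theorem tendsto_mcut {A : Finset α} {L : α → E →L[ℝ] V} (hL : ∀ a ∈ A, Function.Surjective (L a))
    (hV : 3 ≤ Module.finrank ℝ V) (c : α → V) {g : E → F} {R M : ℝ} (hR : ∀ x, R < ‖x‖ → g x = 0)
    (hM : ∀ x, ‖g x‖ ≤ M) :
    Tendsto (fun n => eLpNorm (fun x => mcut A L c (dl n) x • g x - g x) 2 volume) atTop (𝓝 0) := by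
  have hM0 : 0 ≤ M := (norm_nonneg _).trans (hM 0)
  refine tendsto_tube hL hV c (R := R) (K := M) fun n x => ?_
  have h0 : mcut A L c (dl n) x • g x - g x = (mcut A L c (dl n) x - 1) • g x := by
    rw [sub_smul, one_smul]
  by_cases hx : x ∈ Metric.closedBall (0 : E) R ∩ tubes A L c (2 * dl n)
  · rw [indicator_of_mem hx, h0, norm_smul, Real.norm_eq_abs]
    have h1 : |mcut A L c (dl n) x - 1| ≤ 1 := by
      rw [abs_le]
      constructor <;> linarith [mcut_nonneg A L c (dl n) x, mcut_le_one A L c (dl n) x]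
    calc |mcut A L c (dl n) x - 1| * ‖g x‖ ≤ 1 * M :=
          mul_le_mul h1 (hM x) (norm_nonneg _) zero_le_one
      _ ≤ M * ((n : ℝ) + 1) := by
          have : (0 : ℝ) ≤ n := Nat.cast_nonneg n
          nlinarith
  · rw [indicator_of_notMem hx]
    have h1 : mcut A L c (dl n) x • g x - g x = 0 := by
      by_cases hx1 : x ∈ Metric.closedBall (0 : E) R
      · rw [mcut_one (dl_pos n) fun h' => hx ⟨hx1, h'⟩, one_smul, sub_self]
      · rw [mem_closedBall_zero_iff, not_le] at hx1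
        rw [hR x hx1, smul_zero, sub_zero]
    rw [h1, norm_zero]

/-- **Graph convergence** of the cut-off test functions. -/
theorem tendsto_op_mcut {A : Finset α} {L : α → E →L[ℝ] V}
    (hL : ∀ a ∈ A, Function.Surjective (L a)) (hV : 3 ≤ Module.finrank ℝ V) (c : α → V)
    (Q : FOp E F) {ψ : E → F} (hψ : ContDiff ℝ ∞ ψ) (hψc : HasCompactSupport ψ) :
    Tendsto (fun n => eLpNorm (fun x => Q.op (fun y => mcut A L c (dl n) y • ψ y) x - Q.op ψ x)
      2 volume) atTop (𝓝 0) := by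
  obtain ⟨R, hR⟩ := hψc.isBounded.subset_closedBall (0 : E)
  have hR' : ∀ x, R < ‖x‖ → ψ x = 0 := by
    intro x hx
    by_contra h'
    have h1 := hR (subset_tsupport _ h')
    rw [mem_closedBall_zero_iff] at h1
    linarith
  obtain ⟨M, hM⟩ := hψc.exists_bound_of_continuous hψ.continuous
  have hM0 : 0 ≤ M := (norm_nonneg _).trans (hM 0)
  have hopR : ∀ x, R < ‖x‖ → Q.op ψ x = 0 := by
    intro x hx
    have h1 : x ∉ tsupport ψ := fun h' => by
      have h2 := hR h'
      rw [mem_closedBall_zero_iff] at h2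
      linarith
    have h2 : fderiv ℝ ψ x = 0 := by
      by_contra h'
      exact h1 (support_fderiv_subset ℝ h')
    rw [FOp.op, h2, hR' x hx, map_zero, map_zero, add_zero]
  obtain ⟨M', hM'⟩ := (Q.op_supp hψc).exists_bound_of_continuous (Q.op_continuous hψ)
  obtain ⟨C, hC0, hC⟩ := mcut_fderiv A L
  have h1 := tendsto_mcut hL hV c (g := Q.op ψ) hopR hM'
  have h2 : Tendsto (fun n => eLpNorm (fun x =>
      Q.A ((fderiv ℝ (mcut A L c (dl n)) x).smulRight (ψ x))) 2 volume) atTop (𝓝 0) := by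
    refine tendsto_tube hL hV c (R := R) (K := ‖Q.A‖ * (C * M)) fun n x => ?_
    have h3 : ‖Q.A ((fderiv ℝ (mcut A L c (dl n)) x).smulRight (ψ x))‖ ≤
        ‖Q.A‖ * (‖fderiv ℝ (mcut A L c (dl n)) x‖ * ‖ψ x‖) := by
      refine (ContinuousLinearMap.le_opNorm _ _).trans ?_
      rw [ContinuousLinearMap.norm_smulRight_apply]
    have h4 := hC c (dl n) (dl_pos n) x
    by_cases hx : x ∈ Metric.closedBall (0 : E) R ∩ tubes A L c (2 * dl n)
    · rw [indicator_of_mem hx]
      rw [indicator_of_mem hx.2] at h4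
      have h5 : C / dl n = C * ((n : ℝ) + 1) := by
        unfold dl
        rw [div_div_eq_mul_div, div_one]
      rw [h5] at h4
      calc ‖Q.A ((fderiv ℝ (mcut A L c (dl n)) x).smulRight (ψ x))‖
          ≤ ‖Q.A‖ * (‖fderiv ℝ (mcut A L c (dl n)) x‖ * ‖ψ x‖) := h3
        _ ≤ ‖Q.A‖ * ((C * ((n : ℝ) + 1)) * M) := by
            gcongr
            exact hM x
        _ = ‖Q.A‖ * (C * M) * ((n : ℝ) + 1) := by ring
    · rw [indicator_of_notMem hx]
      refine h3.trans (le_of_eq ?_)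
      by_cases hx1 : x ∈ Metric.closedBall (0 : E) R
      · have hx2 : x ∉ tubes A L c (2 * dl n) := fun h' => hx ⟨hx1, h'⟩
        rw [indicator_of_notMem hx2] at h4
        rw [le_antisymm h4 (norm_nonneg _)]
        ring
      · rw [mem_closedBall_zero_iff, not_le] at hx1
        rw [hR' x hx1, norm_zero]
        ring
  have h3 := h1.add h2
  rw [add_zero] at h3
  refine tendsto_of_tendsto_of_tendsto_of_le_of_le tendsto_const_nhds h3 (fun _ => bot_le)
    fun n => ?_
  have hms := mcut_smooth A L c (dl n)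
  have hdc : Continuous (fderiv ℝ (mcut A L c (dl n))) := hms.continuous_fderiv (by simp)
  have hg : Continuous fun x => Q.A ((fderiv ℝ (mcut A L c (dl n)) x).smulRight (ψ x)) :=
    Q.A.continuous.comp ((ContinuousLinearMap.smulRightL ℝ E F).continuous₂.comp
      (hdc.prodMk hψ.continuous))
  have e1 : (fun x => Q.op (fun y => mcut A L c (dl n) y • ψ y) x - Q.op ψ x) =
      fun x => (mcut A L c (dl n) x • Q.op ψ x - Q.op ψ x) +
        Q.A ((fderiv ℝ (mcut A L c (dl n)) x).smulRight (ψ x)) := by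
    funext x
    rw [Q.op_smul hms hψ x]
    abel
  rw [e1]
  exact eLpNorm_add_le ((((hms.continuous.smul (Q.op_continuous hψ)).sub
    (Q.op_continuous hψ))).aestronglyMeasurable) hg.aestronglyMeasurable (by norm_num)

/-! ### Density -/

/-- 596's one step with an arbitrarily small radius. -/
theorem exists_mol_step' {κ : Type*} [Finite κ] {Q Qd : κ → FOp E F}
    (hadj : ∀ a, Adj (Q a) (Qd a))
    {u : E → F} (hu : MemLp u 2 volume) {χ : κ → E → F} (hχ : ∀ a, MemLp (χ a) 2 volume)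
    (hw : ∀ a, Wk (Qd a) u (χ a)) {R : ℝ} (hR : ∀ x, R ≤ ‖x‖ → u x = 0) {δ : ℝ≥0∞} (hδ : δ ≠ 0)
    {ρ : ℝ} (hρ : 0 < ρ) :
    ∃ r : ℝ, 0 < r ∧ r ≤ 1 ∧ r ≤ ρ ∧ eLpNorm (fun x => mol (ker r) u x - u x) 2 volume ≤ δ ∧
      ∀ a, eLpNorm (fun x => (Q a).op (mol (ker r) u) x - χ a x) 2 volume ≤ δ := by
  cases nonempty_fintype κ
  have hul : LocallyIntegrable u := hu.locallyIntegrable (by norm_num)
  have hδ3 : δ / 3 ≠ 0 := by simp [ENNReal.div_eq_zero_iff, hδ]
  -- bound of the zero order parts on the ball of radius `R + 1`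
  have hM : ∀ a, ∃ M : ℝ, 0 < M ∧ ∀ x : E, ‖x‖ ≤ R + 1 → ‖(Q a).B x‖ ≤ M := by
    intro a
    obtain ⟨M, hM⟩ := (isCompact_closedBall (0 : E) (R + 1)).exists_bound_of_continuousOn
      (Q a).contB.continuousOn
    refine ⟨max M 1, lt_max_of_lt_right one_pos, fun x hx => (hM x ?_).trans (le_max_left _ _)⟩
    simpa using hx
  choose M hM0 hM using hM
  have hBu : ∀ a, MemLp (fun y => (Q a).B y (u y)) 2 volume := by
    intro a
    refine ⟨(isBoundedBilinearMap_apply (𝕜 := ℝ) (E := F) (F := F)).continuous.comp_aestronglyMeasurable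
      ((Q a).contB.aestronglyMeasurable.prodMk hu.1), ?_⟩
    refine (eLpNorm_clm_le (M := M a) (fun x hx => hM a x ?_) (hM0 a).le).trans_lt
      (ENNReal.mul_lt_top ENNReal.ofReal_lt_top hu.2)
    by_contra h'
    exact hx (hR x (by linarith [not_le.1 h']))
  -- radii
  have hr1 : ∀ a, ∃ r₀ : ℝ, 0 < r₀ ∧ ∀ r ≤ r₀, ∀ η : E → ℝ, MolK r η →
      eLpNorm (fun x => mol η (χ a) x - χ a x) 2 volume ≤ δ / 3 := fun a =>
    exists_mol_close (hχ a) hδ3
  have hr2 : ∀ a, ∃ r₀ : ℝ, 0 < r₀ ∧ ∀ r ≤ r₀, ∀ η : E → ℝ, MolK r η →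
      eLpNorm (fun x => mol η (fun y => (Q a).B y (u y)) x - (Q a).B x (u x)) 2 volume ≤ δ / 3 :=
    fun a => exists_mol_close (hBu a) hδ3
  have hr3 : ∀ a, ∃ r₀ : ℝ, 0 < r₀ ∧ ∀ r ≤ r₀, ∀ η : E → ℝ, MolK r η →
      eLpNorm (fun x => mol η u x - u x) 2 volume ≤ δ / 3 / ENNReal.ofReal (M a) := fun a =>
    exists_mol_close hu (by
      simp only [ne_eq, ENNReal.div_eq_zero_iff, ENNReal.ofReal_ne_top, or_false]
      simpa [ENNReal.div_eq_zero_iff] using hδ)
  obtain ⟨r0, hr0, h0⟩ := exists_mol_close hu hδ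
  choose r1 hr1 h1 using hr1
  choose r2 hr2 h2 using hr2
  choose r3 hr3 h3 using hr3
  obtain ⟨r, hrpos, hr⟩ : ∃ r : ℝ, 0 < r ∧ r ≤ ρ ∧ r ≤ 1 ∧ r ≤ r0 ∧
      ∀ a, r ≤ r1 a ∧ r ≤ r2 a ∧ r ≤ r3 a := by
    have hev : ∀ᶠ r in 𝓝[>] (0 : ℝ), r ≤ ρ ∧ r ≤ 1 ∧ r ≤ r0 ∧
        ∀ a, r ≤ r1 a ∧ r ≤ r2 a ∧ r ≤ r3 a := by
      have hle : ∀ s : ℝ, 0 < s → ∀ᶠ r in 𝓝[>] (0 : ℝ), r ≤ s := fun s hs =>
        (eventually_le_nhds hs).filter_mono nhdsWithin_le_nhds
      refine (hle ρ hρ).and ((hle 1 one_pos).and ((hle r0 hr0).and (eventually_all.2 fun a => ?_)))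
      exact (hle _ (hr1 a)).and ((hle _ (hr2 a)).and (hle _ (hr3 a)))
    obtain ⟨r, h, h'⟩ := (hev.and self_mem_nhdsWithin).exists
    exact ⟨r, h', h⟩
  have hη := molK_ker (E := E) hrpos
  refine ⟨r, hrpos, hr.2.1, hr.1, h0 r hr.2.2.1 _ hη, fun a => ?_⟩
  have hχl : LocallyIntegrable (χ a) := (hχ a).locallyIntegrable (by norm_num)
  have hBul : LocallyIntegrable fun y => (Q a).B y (u y) := (hBu a).locallyIntegrable (by norm_num)
  have e1 : (fun x => (Q a).op (mol (ker r) u) x - χ a x) = fun x =>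
      ((mol (ker r) (χ a) x - χ a x) - (mol (ker r) (fun y => (Q a).B y (u y)) x - (Q a).B x (u x)))
        + (Q a).B x (mol (ker r) u x - u x) := by
    funext x
    have := mol_eq (hadj a) hul hχl (hw a) hη x
    rw [FOp.op, ← this, map_sub]
    abel
  have hm1 : AEStronglyMeasurable (fun x => mol (ker r) (χ a) x - χ a x) volume :=
    (mol_contDiff hη hχl).continuous.aestronglyMeasurable.sub (hχ a).1
  have hm2 : AEStronglyMeasurable
      (fun x => mol (ker r) (fun y => (Q a).B y (u y)) x - (Q a).B x (u x)) volume :=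
    (mol_contDiff hη hBul).continuous.aestronglyMeasurable.sub (hBu a).1
  have hm3' : AEStronglyMeasurable (fun x => mol (ker r) u x - u x) volume :=
    (mol_contDiff hη hul).continuous.aestronglyMeasurable.sub hu.1
  have hm3 : AEStronglyMeasurable (fun x => (Q a).B x (mol (ker r) u x - u x)) volume :=
    (isBoundedBilinearMap_apply (𝕜 := ℝ) (E := F) (F := F)).continuous.comp_aestronglyMeasurable
      ((Q a).contB.aestronglyMeasurable.prodMk hm3')
  have hb3 : eLpNorm (fun x => (Q a).B x (mol (ker r) u x - u x)) 2 volume ≤ δ / 3 := by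
    refine (eLpNorm_clm_le (M := M a) (fun x hx => hM a x ?_) (hM0 a).le).trans ?_
    · by_contra h'
      apply hx
      have hx' := (not_le.1 h').le
      rw [mol_zero hη hr.2.1 hR hx', hR x (by linarith), sub_zero]
    · calc ENNReal.ofReal (M a) * eLpNorm (fun x => mol (ker r) u x - u x) 2 volume
          ≤ ENNReal.ofReal (M a) * (δ / 3 / ENNReal.ofReal (M a)) := by
            gcongr
            exact h3 a r (hr.2.2.2 a).2.2 _ hη
        _ ≤ δ / 3 := ENNReal.mul_div_le
  rw [e1, ← ENNReal.add_thirds δ]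
  refine (eLpNorm_add_le (hm1.sub hm2) hm3 (by norm_num)).trans (add_le_add
    ((eLpNorm_sub_le hm1 hm2 (by norm_num)).trans (add_le_add ?_ ?_)) hb3)
  · exact h1 a r (hr.2.2.2 a).1 _ hη
  · exact h2 a r (hr.2.2.2 a).2.1 _ hη

/-- The mollification is supported in the closed thickening. -/
theorem mol_tsupport {r : ℝ} {η : E → ℝ} (hη : MolK r η) {K : Set E}
    {u : E → F} (hu : ∀ x ∉ K, u x = 0) : tsupport (mol η u) ⊆ Metric.cthickening r K := by
  refine closure_minimal (fun x hx => ?_) Metric.isClosed_cthickening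
  by_contra h'
  refine hx ?_
  rw [mol, ← integral_zero E F (μ := volume)]
  refine integral_congr_ae (Eventually.of_forall fun y => ?_)
  dsimp only
  by_cases hy : y ∈ K
  · have h1 : r ≤ ‖x - y‖ := by
      by_contra h2
      refine h' (Metric.mem_cthickening_of_dist_le x y r K hy ?_)
      rw [dist_eq_norm]
      exact (not_le.1 h2).le
    rw [hη.small _ h1, zero_smul]
  · rw [hu y hy, smul_zero]

/-- **Density off the flats.** -/
theorem dens_off {κ : Type*} [Finite κ] {Q Qd : κ → FOp E F} (hadj : ∀ a, Adj (Q a) (Qd a))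
    {u : E → F} (hu : MemLp u 2 volume) {χ : κ → E → F} (hχ : ∀ a, MemLp (χ a) 2 volume)
    (hw : ∀ a, Wk (Qd a) u (χ a)) {K U : Set E} (hK : IsCompact K) (hKu : ∀ x ∉ K, u x = 0)
    (hU : IsOpen U) (hKU : K ⊆ U) {A : Finset α} {L : α → E →L[ℝ] V}
    (hL : ∀ a ∈ A, Function.Surjective (L a)) (hV : 3 ≤ Module.finrank ℝ V) (c : α → V) :
    ∃ φ : ℕ → E → F, (∀ n, ContDiff ℝ ∞ (φ n)) ∧ (∀ n, HasCompactSupport (φ n)) ∧
      (∀ n, tsupport (φ n) ⊆ U) ∧ (∀ n, ∃ δ > 0, Disjoint (tsupport (φ n)) (tubes A L c δ)) ∧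
      (∀ n (g : E ≃ₗᵢ[ℝ] E) (T : F →L[ℝ] F), (∀ᵐ x, u (g x) = T (u x)) →
        (∀ δ x, mcut A L c δ (g x) = mcut A L c δ x) → ∀ x, φ n (g x) = T (φ n x)) ∧
      Tendsto (fun n => eLpNorm (fun x => φ n x - u x) 2 volume) atTop (𝓝 0) ∧
      ∀ a, Tendsto (fun n => eLpNorm (fun x => (Q a).op (φ n) x - χ a x) 2 volume) atTop (𝓝 0) := by
  cases nonempty_fintype κ
  obtain ⟨ρ, hρ, hρU⟩ := hK.exists_cthickening_subset_open hU hKU
  obtain ⟨R0, hR0⟩ := hK.isBounded.subset_closedBall (0 : E)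
  have hR : ∀ x, R0 + 1 ≤ ‖x‖ → u x = 0 := by
    intro x hx
    refine hKu x fun h' => ?_
    have h1 := hR0 h'
    rw [mem_closedBall_zero_iff] at h1
    linarith
  have hul : LocallyIntegrable u := hu.locallyIntegrable (by norm_num)
  set er : ℕ → ℝ≥0∞ := fun n => ENNReal.ofReal (dl n) with her
  have her0 : ∀ n, er n ≠ 0 := fun n => by
    simp only [her, ne_eq, ENNReal.ofReal_eq_zero, not_le]
    exact dl_pos n
  have hert : Tendsto er atTop (𝓝 0) := by
    have h1 := (ENNReal.continuous_ofReal.tendsto _).comp tendsto_dl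
    simpa only [ENNReal.ofReal_zero, Function.comp_def] using h1
  have step1 := fun n => exists_mol_step' hadj hu hχ hw hR (her0 n) hρ
  choose r hr0 hr1 hrρ hru hrχ using step1
  set f : ℕ → E → F := fun n => mol (ker (r n)) u with hf
  have hfs : ∀ n, ContDiff ℝ ∞ (f n) := fun n => mol_contDiff (molK_ker (hr0 n)) hul
  have hft : ∀ n, tsupport (f n) ⊆ Metric.cthickening ρ K := fun n =>
    (mol_tsupport (molK_ker (hr0 n)) hKu).trans (Metric.cthickening_mono (hrρ n) K)
  have hfc : ∀ n, HasCompactSupport (f n) := fun n =>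
    hK.cthickening.of_isClosed_subset (isClosed_tsupport _) (hft n)
  have step2 : ∀ n, ∃ m, eLpNorm (fun x => mcut A L c (dl m) x • f n x - f n x) 2 volume ≤ er n ∧
      ∀ a, eLpNorm (fun x => (Q a).op (fun y => mcut A L c (dl m) y • f n y) x -
        (Q a).op (f n) x) 2 volume ≤ er n := by
    intro n
    obtain ⟨R, hRn⟩ := (hfc n).isBounded.subset_closedBall (0 : E)
    obtain ⟨M, hM⟩ := (hfc n).exists_bound_of_continuous (hfs n).continuous
    have h1 := tendsto_mcut hL hV c (g := f n) (R := R) (fun x hx => by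
      by_contra h'
      have h2 := hRn (subset_tsupport _ h')
      rw [mem_closedBall_zero_iff] at h2
      linarith) hM
    have h2 := fun a => tendsto_op_mcut hL hV c (Q a) (hfs n) (hfc n)
    have hpos : 0 < er n := pos_iff_ne_zero.2 (her0 n)
    have e1 := h1.eventually_le_const hpos
    have e2 : ∀ᶠ m in atTop, ∀ a, eLpNorm (fun x => (Q a).op (fun y =>
        mcut A L c (dl m) y • f n y) x - (Q a).op (f n) x) 2 volume ≤ er n :=
      eventually_all.2 fun a => (h2 a).eventually_le_const hpos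
    obtain ⟨m, hm⟩ := (e1.and e2).exists
    exact ⟨m, hm.1, hm.2⟩
  choose m hm1 hm2 using step2
  refine ⟨fun n x => mcut A L c (dl (m n)) x • f n x, fun n => (mcut_smooth A L c _).smul (hfs n),
    fun n => (hfc n).smul_left, fun n => ?_, fun n => ⟨dl (m n) / 2, by have := dl_pos (m n); linarith, ?_⟩,
    fun n g T hg hgc x => ?_, ?_, fun a => ?_⟩
  · refine (closure_mono ?_).trans ((hft n).trans hρU)
    intro x hx h0
    exact hx (by simp only [h0, smul_zero])
  · rw [Set.disjoint_left]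
    intro x hx hx'
    obtain ⟨a, ha, hxa⟩ := hx'
    have h1 : tsupport (fun x => mcut A L c (dl (m n)) x • f n x) ⊆
        {x | dl (m n) ≤ ‖L a x - c a‖} := by
      refine closure_minimal (fun y hy => ?_)
        (isClosed_le continuous_const ((L a).continuous.sub continuous_const).norm)
      by_contra h2
      exact hy (by simp only [mcut_zero (dl_pos (m n)) ⟨a, ha, (not_le.1 h2).le⟩, zero_smul])
    have h2 : dl (m n) ≤ ‖L a x - c a‖ := h1 hx
    have := dl_pos (m n)
    linarith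
  · have h1 : f n (g x) = T (f n x) := mol_equivariant (molK_ker (hr0 n)) hul g T hg x
    simp only [h1, hgc, map_smul]
  · have hb : ∀ n, eLpNorm (fun x => mcut A L c (dl (m n)) x • f n x - u x) 2 volume ≤
        er n + er n := by
      intro n
      have e1 : (fun x => mcut A L c (dl (m n)) x • f n x - u x) = fun x =>
          (mcut A L c (dl (m n)) x • f n x - f n x) + (f n x - u x) := by
        funext x
        abel
      rw [e1]
      refine (eLpNorm_add_le ?_ ?_ (by norm_num)).trans (add_le_add (hm1 n) (hru n))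
      · exact ((((mcut_smooth A L c _).continuous.smul (hfs n).continuous).sub
          (hfs n).continuous)).aestronglyMeasurable
      · exact (hfs n).continuous.aestronglyMeasurable.sub hu.1
    have h2 := hert.add hert
    rw [add_zero] at h2
    exact tendsto_of_tendsto_of_tendsto_of_le_of_le tendsto_const_nhds h2 (fun _ => bot_le) hb
  · have hb : ∀ n, eLpNorm (fun x => (Q a).op (fun y => mcut A L c (dl (m n)) y • f n y) x -
        χ a x) 2 volume ≤ er n + er n := by
      intro n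
      have e1 : (fun x => (Q a).op (fun y => mcut A L c (dl (m n)) y • f n y) x - χ a x) = fun x =>
          ((Q a).op (fun y => mcut A L c (dl (m n)) y • f n y) x - (Q a).op (f n) x) +
            ((Q a).op (f n) x - χ a x) := by
        funext x
        abel
      rw [e1]
      have hc1 : Continuous ((Q a).op fun y => mcut A L c (dl (m n)) y • f n y) :=
        (Q a).op_continuous ((mcut_smooth A L c _).smul (hfs n))
      have hc2 : Continuous ((Q a).op (f n)) := (Q a).op_continuous (hfs n)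
      refine (eLpNorm_add_le (hc1.sub hc2).aestronglyMeasurable
        (hc2.aestronglyMeasurable.sub (hχ a).1) (by norm_num)).trans
        (add_le_add (hm2 n a) (hrχ n a))
    have h2 := hert.add hert
    rw [add_zero] at h2
    exact tendsto_of_tendsto_of_tendsto_of_le_of_le tendsto_const_nhds h2 (fun _ => bot_le) hb

end conv

end Crest.Agent.R330.MCut365

end
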