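import Mathlib
import Crest.Agent.R330.MCut_365

/-!
# Row 330, S10-LIM (helper365): weak = strong off finitely many flats, with a finite symmetry group

* `ws_off` : `u, χ_a ∈ L²`, `Q_a u = χ_a` tested with `C_c^∞` functions supported off finitely many
  flats of codimension `≥ 3`: there are `C_c^∞` functions `φ_n` supported off the flats with
  `φ_n → u`, `Q_a φ_n → χ_a` in `L²`, with all the symmetries of `u`.
* `tw`, `sym` : twisted translates and symmetrisation under a finite group acting by isometries `O s`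
  of `E` and unitaries `U s` of `F`.
* `wkOff_of_sym` : if `u, χ` are symmetric it is enough to test with symmetric functions.
* `ws_off_sym` : weak = strong within symmetric functions supported off the flats.
-/

set_option autoImplicit false
set_option linter.unusedSectionVars false

open MeasureTheory Set Filter Topology ENNReal
open scoped ContDiff InnerProductSpace NNReal

noncomputable section

namespace Crest.Agent.R330.WSOff365

open Crest.Agent.R330.WS596 Crest.Agent.R330.Rem365 Crest.Agent.R330.Moll596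
  Crest.Agent.R330.MCut365

variable {E : Type*} [NormedAddCommGroup E] [InnerProductSpace ℝ E] [FiniteDimensional ℝ E]
  [MeasurableSpace E] [BorelSpace E]
  {V : Type*} [NormedAddCommGroup V] [InnerProductSpace ℝ V] [FiniteDimensional ℝ V]
  [MeasurableSpace V] [BorelSpace V]
  {F : Type*} [NormedAddCommGroup F] [InnerProductSpace ℂ F] [CompleteSpace F]
  {α : Type*}

/-- The union of the flats. -/
def flats (A : Finset α) (L : α → E →L[ℝ] V) (c : α → V) : Set E := ⋃ a ∈ A, {x | L a x = c a}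

theorem flats_subset_tubes (A : Finset α) (L : α → E →L[ℝ] V) (c : α → V) {δ : ℝ} (hδ : 0 ≤ δ) :
    flats A L c ⊆ tubes A L c δ := by
  intro x hx
  simp only [flats, mem_iUnion, mem_ofPred_eq] at hx
  obtain ⟨a, ha, h⟩ := hx
  exact ⟨a, ha, by rw [h, sub_self, norm_zero]; exact hδ⟩

/-- A compact set off the flats has positive distance from them. -/
theorem exists_tube {A : Finset α} {L : α → E →L[ℝ] V} {c : α → V} {K : Set E} (hK : IsCompact K)
    (h : Disjoint K (flats A L c)) : ∃ δ > 0, Disjoint K (tubes A L c δ) := by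
  have h1 : ∀ a ∈ A, ∃ δ > 0, ∀ x ∈ K, δ < ‖L a x - c a‖ := by
    intro a ha
    rcases K.eq_empty_or_nonempty with rfl | hne
    · exact ⟨1, one_pos, fun x hx => absurd hx (notMem_empty x)⟩
    · obtain ⟨x0, hx0, hmin⟩ := hK.exists_isMinOn hne
        (f := fun x => ‖L a x - c a‖) (((L a).continuous.sub continuous_const).norm.continuousOn)
      have hpos : 0 < ‖L a x0 - c a‖ := by
        rw [norm_pos_iff, sub_ne_zero]
        intro h0
        refine Set.disjoint_left.1 h hx0 ?_
        simp only [flats, mem_iUnion, mem_ofPred_eq]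
        exact ⟨a, ha, h0⟩
      exact ⟨‖L a x0 - c a‖ / 2, by linarith, fun x hx => by
        have := hmin hx
        simp only [mem_ofPred_eq] at this
        linarith⟩
  choose! d hd0 hd using h1
  rcases A.eq_empty_or_nonempty with rfl | hne
  · refine ⟨1, one_pos, ?_⟩
    rw [tubes_eq]
    simp
  · refine ⟨A.inf' hne d, (Finset.lt_inf'_iff hne).2 fun a ha => hd0 a ha, ?_⟩
    rw [Set.disjoint_left]
    rintro x hx ⟨a, ha, hxa⟩
    have h1 := hd a ha x hx
    have h2 := Finset.inf'_le d ha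
    linarith

/-- **Weak = strong off the flats.** -/
theorem ws_off {κ : Type*} [Finite κ] {Q Qd : κ → FOp E F} (hadj : ∀ a, Adj (Q a) (Qd a))
    {u : E → F} (hu : MemLp u 2 volume) {χ : κ → E → F} (hχ : ∀ a, MemLp (χ a) 2 volume)
    {A : Finset α} {L : α → E →L[ℝ] V} {c : α → V}
    (hw : ∀ a, WkOff (Qd a) u (χ a) (flats A L c))
    (hL : ∀ a ∈ A, Function.Surjective (L a)) (hV : 3 ≤ Module.finrank ℝ V) :
    ∃ φ : ℕ → E → F, (∀ n, ContDiff ℝ ∞ (φ n)) ∧ (∀ n, HasCompactSupport (φ n)) ∧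
      (∀ n, Disjoint (tsupport (φ n)) (flats A L c)) ∧
      (∀ n (g : E ≃ₗᵢ[ℝ] E) (T : F →L[ℝ] F), (∀ᵐ x, u (g x) = T (u x)) →
        (∀ δ x, mcut A L c δ (g x) = mcut A L c δ x) → ∀ x, φ n (g x) = T (φ n x)) ∧
      Tendsto (fun n => eLpNorm (fun x => φ n x - u x) 2 volume) atTop (𝓝 0) ∧
      ∀ a, Tendsto (fun n => eLpNorm (fun x => (Q a).op (φ n) x - χ a x) 2 volume) atTop (𝓝 0) := by
  cases nonempty_fintype κ
  have hw' : ∀ a, Wk (Qd a) u (χ a) := fun a => wk_of_off hu (hχ a) hV A hL (hw a)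
  obtain ⟨f, hfs, hfc, hfe, hfu, hfχ⟩ := weak_strong hadj hu hχ hw'
  set er : ℕ → ℝ≥0∞ := fun n => ENNReal.ofReal (dl n) with her
  have her0 : ∀ n, er n ≠ 0 := fun n => by
    simp only [her, ne_eq, ENNReal.ofReal_eq_zero, not_le]
    exact dl_pos n
  have hert : Tendsto er atTop (𝓝 0) := by
    have h1 := (ENNReal.continuous_ofReal.tendsto _).comp tendsto_dl
    simpa only [ENNReal.ofReal_zero, Function.comp_def] using h1
  have step2 : ∀ n, ∃ m, eLpNorm (fun x => mcut A L c (dl m) x • f n x - f n x) 2 volume ≤ er n ∧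
      ∀ a, eLpNorm (fun x => (Q a).op (fun y => mcut A L c (dl m) y • f n y) x -
        (Q a).op (f n) x) 2 volume ≤ er n := by
    intro n
    obtain ⟨R, hRn⟩ := (hfc n).isBounded.subset_closedBall (0 : E)
    obtain ⟨M, hM⟩ := (hfc n).exists_bound_of_continuous (hfs n).continuous
    have h1 := tendsto_mcut hL hV c (g := f n) (R := R) (fun x hx => by
      by_contra h'
      have h2 := hRn (subset_tsupport _ h')
      rw [mem_closedBall_zero_iff] at h2
      linarith) hM
    have h2 := fun a => tendsto_op_mcut hL hV c (Q a) (hfs n) (hfc n)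
    have hpos : 0 < er n := pos_iff_ne_zero.2 (her0 n)
    have e1 := h1.eventually_le_const hpos
    have e2 : ∀ᶠ m in atTop, ∀ a, eLpNorm (fun x => (Q a).op (fun y =>
        mcut A L c (dl m) y • f n y) x - (Q a).op (f n) x) 2 volume ≤ er n :=
      eventually_all.2 fun a => (h2 a).eventually_le_const hpos
    obtain ⟨m, hm⟩ := (e1.and e2).exists
    exact ⟨m, hm.1, hm.2⟩
  choose m hm1 hm2 using step2
  refine ⟨fun n x => mcut A L c (dl (m n)) x • f n x, fun n => (mcut_smooth A L c _).smul (hfs n),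
    fun n => (hfc n).smul_left, fun n => ?_, fun n g T hg hgc x => ?_, ?_, fun a => ?_⟩
  · rw [Set.disjoint_left]
    intro x hx hx'
    obtain ⟨a, ha, hxa⟩ := flats_subset_tubes A L c (δ := dl (m n) / 2)
      (by have := dl_pos (m n); linarith) hx'
    have h1 : tsupport (fun x => mcut A L c (dl (m n)) x • f n x) ⊆
        {x | dl (m n) ≤ ‖L a x - c a‖} := by
      refine closure_minimal (fun y hy => ?_)
        (isClosed_le continuous_const ((L a).continuous.sub continuous_const).norm)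
      by_contra h2
      exact hy (by simp only [mcut_zero (dl_pos (m n)) ⟨a, ha, (not_le.1 h2).le⟩, zero_smul])
    have h2 : dl (m n) ≤ ‖L a x - c a‖ := h1 hx
    have := dl_pos (m n)
    linarith
  · have h1 : f n (g x) = T (f n x) := hfe n g T hg x
    simp only [h1, hgc, map_smul]
  · have hb : ∀ n, eLpNorm (fun x => mcut A L c (dl (m n)) x • f n x - u x) 2 volume ≤
        er n + eLpNorm (fun x => f n x - u x) 2 volume := by
      intro n
      have e1 : (fun x => mcut A L c (dl (m n)) x • f n x - u x) = fun x =>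
          (mcut A L c (dl (m n)) x • f n x - f n x) + (f n x - u x) := by
        funext x
        abel
      rw [e1]
      refine (eLpNorm_add_le ?_ ?_ (by norm_num)).trans (add_le_add (hm1 n) le_rfl)
      · exact ((((mcut_smooth A L c _).continuous.smul (hfs n).continuous).sub
          (hfs n).continuous)).aestronglyMeasurable
      · exact (hfs n).continuous.aestronglyMeasurable.sub hu.1
    have h2 := hert.add hfu
    rw [add_zero] at h2
    exact tendsto_of_tendsto_of_tendsto_of_le_of_le tendsto_const_nhds h2 (fun _ => bot_le) hb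
  · have hb : ∀ n, eLpNorm (fun x => (Q a).op (fun y => mcut A L c (dl (m n)) y • f n y) x -
        χ a x) 2 volume ≤ er n + eLpNorm (fun x => (Q a).op (f n) x - χ a x) 2 volume := by
      intro n
      have e1 : (fun x => (Q a).op (fun y => mcut A L c (dl (m n)) y • f n y) x - χ a x) = fun x =>
          ((Q a).op (fun y => mcut A L c (dl (m n)) y • f n y) x - (Q a).op (f n) x) +
            ((Q a).op (f n) x - χ a x) := by
        funext x
        abel
      rw [e1]
      have hc1 : Continuous ((Q a).op fun y => mcut A L c (dl (m n)) y • f n y) :=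
        (Q a).op_continuous ((mcut_smooth A L c _).smul (hfs n))
      have hc2 : Continuous ((Q a).op (f n)) := (Q a).op_continuous (hfs n)
      refine (eLpNorm_add_le (hc1.sub hc2).aestronglyMeasurable
        (hc2.aestronglyMeasurable.sub (hχ a).1) (by norm_num)).trans
        (add_le_add (hm2 n a) le_rfl)
    have h2 := hert.add (hfχ a)
    rw [add_zero] at h2
    exact tendsto_of_tendsto_of_tendsto_of_le_of_le tendsto_const_nhds h2 (fun _ => bot_le) hb

/-! ### Finite symmetry group -/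

variable {S : Type*} [Group S] [Fintype S] (O : S →* (E ≃ₗᵢ[ℝ] E)) (U : S →* (F ≃ₗᵢ[ℂ] F))

/-- Twisted translate. -/
def tw (s : S) (ψ : E → F) (x : E) : F := (U s).symm (ψ (O s x))

/-- Symmetrisation. -/
def sym (ψ : E → F) (x : E) : F := ((Fintype.card S : ℝ)⁻¹) • ∑ s : S, tw O U s ψ x

/-- Symmetric functions. -/
def IsSym (ψ : E → F) : Prop := ∀ s x, ψ (O s x) = U s (ψ x)

theorem inv_apply_U (s : S) (v : F) : U s⁻¹ v = (U s).symm v := by
  rw [map_inv]
  rfl

theorem inv_apply_O (s : S) (v : E) : O s⁻¹ v = (O s).symm v := by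
  rw [map_inv]
  rfl

theorem isSym_sym (ψ : E → F) : IsSym O U (sym O U ψ) := by
  intro t x
  have h1 : U t (sym O U ψ x) = ((Fintype.card S : ℝ)⁻¹) • ∑ s : S, U t (tw O U s ψ x) := by
    rw [sym, ← Complex.coe_smul, map_smul, map_sum, Complex.coe_smul]
  rw [h1, sym]
  congr 1
  rw [← Equiv.sum_comp (Equiv.mulRight t) fun s => U t (tw O U s ψ x)]
  refine Finset.sum_congr rfl fun s _ => ?_
  simp only [tw, Equiv.coe_mulRight]
  rw [← inv_apply_U, ← inv_apply_U, mul_inv_rev, map_mul, map_mul]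
  simp only [LinearIsometryEquiv.coe_mul, Function.comp_apply]
  rw [inv_apply_U U t, LinearIsometryEquiv.apply_symm_apply]

theorem sym_of_isSym {ψ : E → F} (h : IsSym O U ψ) : sym O U ψ = ψ := by
  funext x
  have h1 : ∀ s : S, tw O U s ψ x = ψ x := fun s => by
    rw [tw, h s x, LinearIsometryEquiv.symm_apply_apply]
  rw [sym, Finset.sum_congr rfl fun s _ => h1 s, Finset.sum_const, Finset.card_univ,
    ← Nat.cast_smul_eq_nsmul ℝ, smul_smul, inv_mul_cancel₀ (by positivity), one_smul]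

theorem tw_smooth (s : S) {ψ : E → F} (h : ContDiff ℝ ∞ ψ) : ContDiff ℝ ∞ (tw O U s ψ) := by
  have h1 : ContDiff ℝ ∞ fun x => ψ (O s x) := h.comp (O s).toContinuousLinearEquiv.contDiff
  exact (((U s).symm.toContinuousLinearEquiv.restrictScalars ℝ).contDiff).comp h1

theorem tsupport_tw (s : S) (ψ : E → F) : tsupport (tw O U s ψ) ⊆ (O s) ⁻¹' tsupport ψ := by
  refine closure_minimal (fun x hx => ?_) ((isClosed_tsupport ψ).preimage (O s).continuous)
  refine subset_tsupport _ fun h0 => hx ?_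
  rw [tw, h0, map_zero]

theorem tw_supp (s : S) {ψ : E → F} (h : HasCompactSupport ψ) :
    HasCompactSupport (tw O U s ψ) := by
  refine HasCompactSupport.of_support_subset_isCompact
    (K := (O s) ⁻¹' tsupport ψ) ?_ ((subset_tsupport _).trans (tsupport_tw O U s ψ))
  exact (O s).toHomeomorph.isCompact_preimage.2 h

theorem sym_smooth {ψ : E → F} (h : ContDiff ℝ ∞ ψ) : ContDiff ℝ ∞ (sym O U ψ) :=
  contDiff_const.smul (ContDiff.sum fun s _ => tw_smooth O U s h)

theorem support_sym (ψ : E → F) : Function.support (sym O U ψ) ⊆ ⋃ s : S, tsupport (tw O U s ψ) := by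
  intro x hx
  by_contra h'
  refine hx ?_
  rw [mem_iUnion, not_exists] at h'
  have h1 : ∀ s : S, tw O U s ψ x = 0 := fun s => image_eq_zero_of_notMem_tsupport (h' s)
  simp only [sym, h1, Finset.sum_const_zero, smul_zero]

theorem tsupport_sym (ψ : E → F) : tsupport (sym O U ψ) ⊆ ⋃ s : S, (O s) ⁻¹' tsupport ψ := by
  refine closure_minimal ((support_sym O U ψ).trans (iUnion_mono fun s => tsupport_tw O U s ψ)) ?_
  exact isClosed_iUnion_of_finite fun s => (isClosed_tsupport ψ).preimage (O s).continuous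

theorem sym_supp {ψ : E → F} (h : HasCompactSupport ψ) : HasCompactSupport (sym O U ψ) := by
  refine HasCompactSupport.of_support_subset_isCompact
    (K := ⋃ s : S, (O s) ⁻¹' tsupport ψ) ?_ ((subset_tsupport _).trans (tsupport_sym O U ψ))
  exact isCompact_iUnion fun s => (O s).toHomeomorph.isCompact_preimage.2 h

/-- The expression commutes with the symmetries. -/
def Cov (Q : FOp E F) : Prop :=
  ∀ (s : S) (ψ : E → F), ContDiff ℝ ∞ ψ → ∀ x, Q.op (tw O U s ψ) x = tw O U s (Q.op ψ) x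

theorem op_const_smul_sum (Q : FOp E F) (r : ℝ) {f : S → E → F} (hf : ∀ s, ContDiff ℝ ∞ (f s))
    (x : E) : Q.op (fun y => r • ∑ s, f s y) x = r • ∑ s, Q.op (f s) x := by
  have h1 : ∀ s, DifferentiableAt ℝ (f s) x := fun s => (hf s).differentiable (by simp) x
  have h2 : fderiv ℝ (fun y => r • ∑ s, f s y) x = r • ∑ s, fderiv ℝ (f s) x := by
    rw [fderiv_fun_const_smul (DifferentiableAt.fun_sum fun s _ => h1 s),
      fderiv_fun_sum fun s _ => h1 s]
  rw [FOp.op, h2, map_smul, map_sum, map_smul, map_sum, ← smul_add, ← Finset.sum_add_distrib]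
  rfl

theorem op_sym {Q : FOp E F} (hQ : Cov O U Q) {ψ : E → F} (hψ : ContDiff ℝ ∞ ψ) (x : E) :
    Q.op (sym O U ψ) x = sym O U (Q.op ψ) x := by
  have h1 := op_const_smul_sum Q ((Fintype.card S : ℝ)⁻¹) (f := fun s => tw O U s ψ)
    (fun s => tw_smooth O U s hψ) x
  rw [show Q.op (sym O U ψ) x = Q.op (fun y => ((Fintype.card S : ℝ)⁻¹) •
    ∑ s : S, tw O U s ψ y) x from rfl, h1, sym]
  congr 1
  exact Finset.sum_congr rfl fun s _ => hQ s ψ hψ x

theorem isSym_op {Q : FOp E F} (hQ : Cov O U Q) {ψ : E → F} (hψ : ContDiff ℝ ∞ ψ)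
    (h : IsSym O U ψ) : IsSym O U (Q.op ψ) := by
  have h1 : Q.op ψ = sym O U (Q.op ψ) := by
    funext x
    rw [← op_sym O U hQ hψ x, sym_of_isSym O U h]
  rw [h1]
  exact isSym_sym O U _

/-- Pairing of a symmetrisation with an a.e. symmetric function. -/
theorem integral_sym {ψ u : E → F} (hψ : Continuous ψ) (hψc : HasCompactSupport ψ)
    (hu : LocallyIntegrable u) (hus : ∀ s : S, ∀ᵐ x, u (O s x) = U s (u x)) :
    ∫ x, ⟪sym O U ψ x, u x⟫_ℂ = ∫ x, ⟪ψ x, u x⟫_ℂ := by
  have hcard : (Fintype.card S : ℝ) ≠ 0 := by positivity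
  have h0 : ∀ s : S, Integrable fun x => ⟪ψ (O s x), u (O s x)⟫_ℂ := fun s => by
    have h1 := integrable_inner_left hψ hψc hu
    exact ((O s).measurePreserving.integrable_comp_emb
      (O s).toHomeomorph.measurableEmbedding).2 h1
  have h1 : ∀ s : S, (fun x => ⟪tw O U s ψ x, u x⟫_ℂ) =ᵐ[volume]
      fun x => ⟪ψ (O s x), u (O s x)⟫_ℂ := fun s => by
    filter_upwards [hus s] with x hx
    rw [tw, hx, ← (U s).inner_map_map ((U s).symm (ψ (O s x))) (u x),
      LinearIsometryEquiv.apply_symm_apply]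
  have h2 : ∀ s : S, ∫ x, ⟪tw O U s ψ x, u x⟫_ℂ = ∫ x, ⟪ψ x, u x⟫_ℂ := fun s => by
    rw [integral_congr_ae (h1 s)]
    exact (O s).measurePreserving.integral_comp (O s).toHomeomorph.measurableEmbedding
      (fun x => ⟪ψ x, u x⟫_ℂ)
  have h3 : ∀ x, ⟪sym O U ψ x, u x⟫_ℂ =
      (((Fintype.card S : ℝ)⁻¹ : ℝ) : ℂ) * ∑ s : S, ⟪tw O U s ψ x, u x⟫_ℂ := fun x => by
    rw [sym, inner_rsmul_left, sum_inner]
  simp only [h3]
  rw [integral_const_mul, integral_finsetSum _ fun s _ => (h0 s).congr (h1 s).symm]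
  simp only [h2]
  rw [Finset.sum_const, Finset.card_univ, nsmul_eq_mul]
  push_cast
  rw [← mul_assoc, inv_mul_cancel₀ (by exact_mod_cast hcard), one_mul]

/-- **Testing with symmetric functions is enough.** -/
theorem wkOff_of_sym {Qd : FOp E F} (hQ : Cov O U Qd) {u χ : E → F} (hu : LocallyIntegrable u)
    (hχ : LocallyIntegrable χ) (hus : ∀ s : S, ∀ᵐ x, u (O s x) = U s (u x))
    (hχs : ∀ s : S, ∀ᵐ x, χ (O s x) = U s (χ x)) {Z : Set E} (hZ : ∀ s : S, ∀ x, O s x ∈ Z ↔ x ∈ Z)
    (h : ∀ ψ : E → F, ContDiff ℝ ∞ ψ → HasCompactSupport ψ → Disjoint (tsupport ψ) Z →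
      IsSym O U ψ → ∫ x, ⟪Qd.op ψ x, u x⟫_ℂ = ∫ x, ⟪ψ x, χ x⟫_ℂ) : WkOff Qd u χ Z := by
  intro ψ hψ hψc hdis
  have h1 := h (sym O U ψ) (sym_smooth O U hψ) (sym_supp O U hψc) (by
    rw [Set.disjoint_left] at hdis ⊢
    intro x hx hxZ
    obtain ⟨s, hs⟩ := mem_iUnion.1 (tsupport_sym O U ψ hx)
    exact hdis hs ((hZ s x).2 hxZ)) (isSym_sym O U ψ)
  rw [integral_sym O U hψ.continuous hψc hχ hχs] at h1
  rw [← h1, ← integral_sym O U (Qd.op_continuous hψ) (Qd.op_supp hψc) hu hus]
  refine integral_congr_ae (Eventually.of_forall fun x => ?_)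
  simp only
  rw [op_sym O U hQ hψ x]

/-- **Weak = strong within symmetric functions supported off the flats.** -/
theorem ws_off_sym {κ : Type*} [Finite κ] {Q Qd : κ → FOp E F} (hadj : ∀ a, Adj (Q a) (Qd a))
    (hQ : ∀ a, Cov O U (Qd a)) {u : E → F} (hu : MemLp u 2 volume) {χ : κ → E → F}
    (hχ : ∀ a, MemLp (χ a) 2 volume) (hus : ∀ s : S, ∀ᵐ x, u (O s x) = U s (u x))
    (hχs : ∀ a, ∀ s : S, ∀ᵐ x, χ a (O s x) = U s (χ a x))
    {A : Finset α} {L : α → E →L[ℝ] V} {c : α → V}
    (hL : ∀ a ∈ A, Function.Surjective (L a)) (hV : 3 ≤ Module.finrank ℝ V)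
    (hZ : ∀ s : S, ∀ δ x, mcut A L c δ (O s x) = mcut A L c δ x)
    (hZ' : ∀ s : S, ∀ x, O s x ∈ flats A L c ↔ x ∈ flats A L c)
    (hw : ∀ a, ∀ ψ : E → F, ContDiff ℝ ∞ ψ → HasCompactSupport ψ →
      Disjoint (tsupport ψ) (flats A L c) → IsSym O U ψ →
      ∫ x, ⟪(Qd a).op ψ x, u x⟫_ℂ = ∫ x, ⟪ψ x, χ a x⟫_ℂ) :
    ∃ φ : ℕ → E → F, (∀ n, ContDiff ℝ ∞ (φ n)) ∧ (∀ n, HasCompactSupport (φ n)) ∧
      (∀ n, Disjoint (tsupport (φ n)) (flats A L c)) ∧ (∀ n, IsSym O U (φ n)) ∧
      Tendsto (fun n => eLpNorm (fun x => φ n x - u x) 2 volume) atTop (𝓝 0) ∧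
      ∀ a, Tendsto (fun n => eLpNorm (fun x => (Q a).op (φ n) x - χ a x) 2 volume) atTop (𝓝 0) := by
  have hul : LocallyIntegrable u := hu.locallyIntegrable (by norm_num)
  obtain ⟨φ, h1, h2, h3, h4, h5, h6⟩ := ws_off hadj hu hχ (A := A) (L := L) (c := c)
    (fun a => wkOff_of_sym O U (hQ a) hul ((hχ a).locallyIntegrable (by norm_num)) hus (hχs a)
      hZ' (hw a)) hL hV
  refine ⟨φ, h1, h2, h3, fun n s x => ?_, h5, h6⟩
  exact h4 n (O s) ((U s).toContinuousLinearEquiv.toContinuousLinearMap.restrictScalars ℝ)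
    (hus s) (hZ s) x

end Crest.Agent.R330.WSOff365

end
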