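import Mathlib
import Crest.Agent.R330.WSOff_365

/-!
# Row 330 (helper365): finite partition of unity of one compactly supported function

* `exists_pou` : smooth finite partition of unity on a compact set, subordinate to an open cover.
* `exists_rep` : a `C_c^∞` function supported in `⋃ U i` is a finite sum of `C_c^∞` functions supported
  in single `U i`.
-/

set_option autoImplicit false
set_option linter.unusedSectionVars false

open MeasureTheory Set Filter Topology
open scoped ContDiff InnerProductSpace Manifold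

noncomputable section

namespace Crest.Agent.R330.Pou365

open Crest.Agent.R330.WS596 Crest.Agent.R330.WSOff365

variable {E : Type*} [NormedAddCommGroup E] [InnerProductSpace ℝ E] [FiniteDimensional ℝ E]

/-- Finite smooth partition of unity on a compact set. -/
theorem exists_pou {ι : Type*} {K : Set E} (hK : IsCompact K) {U : ι → Set E}
    (hU : ∀ i, IsOpen (U i)) (hKU : K ⊆ ⋃ i, U i) :
    ∃ (s : Finset ι) (θ : ι → E → ℝ), (∀ i, ContDiff ℝ ∞ (θ i)) ∧ (∀ i, tsupport (θ i) ⊆ U i) ∧
      (∀ i x, 0 ≤ θ i x) ∧ (∀ i x, θ i x ≤ 1) ∧ ∀ x ∈ K, ∑ i ∈ s, θ i x = 1 := by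
  classical
  obtain ⟨f, hf⟩ := SmoothPartitionOfUnity.exists_isSubordinate 𝓘(ℝ, E) hK.isClosed U hU hKU
  have hfin := f.locallyFinite.finite_nonempty_inter_compact hK
  refine ⟨hfin.toFinset, fun i => f i, fun i => (f i).contMDiff.contDiff, fun i => hf i,
    fun i x => f.nonneg i x, fun i x => f.le_one i x, fun x hx => ?_⟩
  rw [← f.sum_eq_one hx]
  refine (finsum_eq_sum_of_support_subset _ ?_).symm
  intro i hi
  simp only [Finite.coe_toFinset]
  exact ⟨x, hi, hx⟩

variable {F : Type*} [NormedAddCommGroup F] [InnerProductSpace ℂ F]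

/-- Decomposition of a compactly supported function. -/
theorem exists_rep {ι : Type*} {U : ι → Set E} (hU : ∀ i, IsOpen (U i)) {ψ : E → F}
    (hψ : ContDiff ℝ ∞ ψ) (hψc : HasCompactSupport ψ) (hs : tsupport ψ ⊆ ⋃ i, U i) :
    ∃ (s : Finset ι) (χ : ι → E → F), (∀ i, ContDiff ℝ ∞ (χ i)) ∧
      (∀ i, HasCompactSupport (χ i)) ∧ (∀ i, tsupport (χ i) ⊆ U i ∩ tsupport ψ) ∧
      ∀ x, ψ x = ∑ i ∈ s, χ i x := by
  obtain ⟨s, θ, h1, h2, -, -, h3⟩ := exists_pou hψc.isCompact hU hs
  refine ⟨s, fun i x => θ i x • ψ x, fun i => (h1 i).smul hψ, fun i => hψc.smul_left,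
    fun i => ?_, fun x => ?_⟩
  · refine subset_inter ((closure_mono ?_).trans (h2 i)) (closure_mono ?_)
    · intro x hx h0
      exact hx (by simp only [h0, zero_smul])
    · intro x hx h0
      exact hx (by simp only [h0, smul_zero])
  · rw [← Finset.sum_smul]
    by_cases hx : x ∈ tsupport ψ
    · rw [h3 x hx, one_smul]
    · rw [image_eq_zero_of_notMem_tsupport hx, smul_zero]

/-- Linearity of first order expressions. -/
theorem op_finset_sum {ι : Type*} (Q : FOp E F) (s : Finset ι) {χ : ι → E → F}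
    (h : ∀ i, ContDiff ℝ ∞ (χ i)) (x : E) :
    Q.op (fun y => ∑ i ∈ s, χ i y) x = ∑ i ∈ s, Q.op (χ i) x := by
  have h1 : ∀ i ∈ s, DifferentiableAt ℝ (χ i) x := fun i _ => (h i).differentiable (by simp) x
  simp only [FOp.op]
  rw [fderiv_fun_sum h1, map_sum, map_sum, Finset.sum_add_distrib]

end Crest.Agent.R330.Pou365

end
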