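import Crest.Agent.R330.TDef_414
import Crest.Agent.R330.Pou_365

/-!
# Row 330, T4 (helper815): localisation of statements about amplitudes

* `zeroA`, `addA` : zero and sum of amplitudes of a chart.
* `amp_induction` : a property closed under sums which holds for all amplitudes supported near each
  point of the support of `χ` holds for `χ`.
* `amp_induction₂` : the same for pairs of amplitudes of two charts.
-/

set_option autoImplicit false
set_option linter.unusedSectionVars false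

open MeasureTheory Filter Topology Crest.MathPhysics.MatrixQM
open scoped ContDiff InnerProductSpace ENNReal

noncomputable section

namespace Crest.Agent.R330.AmpLoc815

open Crest.Agent.R330.TDef414

variable {N p : ℕ} {b : ColorBasis N} {S : Type} [Group S] [Fintype S] {C : Chn b p S}
  {F : Type*} [NormedAddCommGroup F] [InnerProductSpace ℂ F] [FiniteDimensional ℂ F]
  {M : FermionRep N F} {G : GammaNine}

/-- The zero amplitude. -/
def zeroA (σ : Sl C) : Amp M G σ where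
  fn _ := 0
  smooth := contDiff_const
  supp := by
    have : tsupport (fun _ : Pos p => (0 : C.Fx M G)) = ∅ := by
      rw [tsupport_eq_empty_iff]; rfl
    rw [this]
    exact Set.empty_subset _
  off X hX := by
    have : tsupport (fun _ : Pos p => (0 : C.Fx M G)) = ∅ := by
      rw [tsupport_eq_empty_iff]; rfl
    rw [this] at hX
    exact absurd hX (Set.notMem_empty _)

/-- The sum of two amplitudes. -/
def addA {σ : Sl C} (χ χ' : Amp M G σ) : Amp M G σ where
  fn X := χ.fn X + χ'.fn X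
  smooth := χ.smooth.add χ'.smooth
  supp := (tsupport_add χ.fn χ'.fn).trans (Set.union_subset χ.supp χ'.supp)
  off X hX := by
    rcases tsupport_add χ.fn χ'.fn hX with h | h
    · exact χ.off X h
    · exact χ'.off X h

@[simp] theorem zeroA_fn (σ : Sl C) : (zeroA (M := M) (G := G) σ).fn = fun _ => 0 := rfl

@[simp] theorem addA_fn {σ : Sl C} (χ χ' : Amp M G σ) :
    (addA χ χ').fn = fun X => χ.fn X + χ'.fn X := rfl

/-- An amplitude is a sum of amplitudes subordinate to an open cover of its support. -/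
theorem amp_induction {σ : Sl C} (Pr : Amp M G σ → Prop) (h0 : Pr (zeroA σ))
    (hadd : ∀ χ χ', Pr χ → Pr χ' → Pr (addA χ χ')) (χ : Amp M G σ)
    (hloc : ∀ X ∈ tsupport χ.fn, ∃ U : Set (Pos p), IsOpen U ∧ X ∈ U ∧
      ∀ χ' : Amp M G σ, tsupport χ'.fn ⊆ U → tsupport χ'.fn ⊆ tsupport χ.fn → Pr χ') : Pr χ := by
  classical
  have hl : ∀ X : {X // X ∈ tsupport χ.fn}, ∃ U : Set (Pos p), IsOpen U ∧ X.1 ∈ U ∧
      ∀ χ' : Amp M G σ, tsupport χ'.fn ⊆ U → tsupport χ'.fn ⊆ tsupport χ.fn → Pr χ' :=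
    fun X => hloc X.1 X.2
  choose U hU hXU hP using hl
  obtain ⟨s, ψ, h1, h2, h3, h4⟩ := Pou365.exists_rep hU χ.smooth χ.compact
    (fun X hX => Set.mem_iUnion.2 ⟨⟨X, hX⟩, hXU ⟨X, hX⟩⟩)
  have key : ∀ t : Finset {X // X ∈ tsupport χ.fn}, ∃ η : Amp M G σ, Pr η ∧
      ∀ x, η.fn x = ∑ i ∈ t, ψ i x := by
    intro t
    induction t using Finset.induction_on with
    | empty => exact ⟨zeroA σ, h0, fun x => by simp⟩
    | insert i t hi ih =>
      obtain ⟨η, hη, hη2⟩ := ih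
      have hs : tsupport (ψ i) ⊆ tsupport χ.fn := (h3 i).trans Set.inter_subset_right
      let ηi : Amp M G σ := ⟨ψ i, h1 i, hs.trans χ.supp, fun X hX => χ.off X (hs hX)⟩
      refine ⟨addA ηi η, hadd _ _ (hP i ηi ((h3 i).trans Set.inter_subset_left) hs) hη,
        fun x => ?_⟩
      rw [Finset.sum_insert hi, ← hη2]
      rfl
  obtain ⟨η, hη, hη2⟩ := key s
  have h5 : η = χ := Amp.ext (by
    funext x
    rw [hη2, h4])
  rwa [h5] at hη

/-- The same for pairs of amplitudes of two charts. -/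
theorem amp_induction₂ {σ σ' : Sl C} (Pr : Amp M G σ → Amp M G σ' → Prop)
    (h0l : ∀ χ', Pr (zeroA σ) χ') (h0r : ∀ χ, Pr χ (zeroA σ'))
    (haddl : ∀ χ1 χ2 χ', Pr χ1 χ' → Pr χ2 χ' → Pr (addA χ1 χ2) χ')
    (haddr : ∀ χ χ1 χ2, Pr χ χ1 → Pr χ χ2 → Pr χ (addA χ1 χ2))
    (χ : Amp M G σ) (χ' : Amp M G σ')
    (hloc : ∀ X ∈ tsupport χ.fn, ∀ X' ∈ tsupport χ'.fn, ∃ U U' : Set (Pos p),
      IsOpen U ∧ IsOpen U' ∧ X ∈ U ∧ X' ∈ U' ∧
      ∀ (η : Amp M G σ) (η' : Amp M G σ'), tsupport η.fn ⊆ U → tsupport η'.fn ⊆ U' →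
        tsupport η.fn ⊆ tsupport χ.fn → tsupport η'.fn ⊆ tsupport χ'.fn → Pr η η') :
    Pr χ χ' := by
  classical
  refine amp_induction (fun η => Pr η χ') (h0l χ') (fun η1 η2 h1 h2 => haddl _ _ _ h1 h2) χ ?_
  intro X hX
  have hl : ∀ X' : {X' // X' ∈ tsupport χ'.fn}, ∃ U U' : Set (Pos p),
      IsOpen U ∧ IsOpen U' ∧ X ∈ U ∧ X'.1 ∈ U' ∧
      ∀ (η : Amp M G σ) (η' : Amp M G σ'), tsupport η.fn ⊆ U → tsupport η'.fn ⊆ U' →
        tsupport η.fn ⊆ tsupport χ.fn → tsupport η'.fn ⊆ tsupport χ'.fn → Pr η η' :=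
    fun X' => hloc X hX X'.1 X'.2
  choose U U' hU hU' hXU hXU' hP using hl
  obtain ⟨t, ht⟩ := χ'.compact.isCompact.elim_finite_subcover U' hU'
    (fun X' hX' => Set.mem_iUnion.2 ⟨⟨X', hX'⟩, hXU' ⟨X', hX'⟩⟩)
  refine ⟨⋂ i ∈ t, U i, isOpen_biInter_finset fun i _ => hU i,
    Set.mem_iInter₂.2 fun i _ => hXU i, fun η hη hηχ => ?_⟩
  refine amp_induction (fun η' => Pr η η') (h0r η) (fun η1 η2 h1 h2 => haddr _ _ _ h1 h2) χ' ?_
  intro X'' hX''
  obtain ⟨i, hi, hXi⟩ := Set.mem_iUnion₂.1 (ht hX'')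
  refine ⟨U' i, hU' i, hXi, fun η' hη' hηχ' => ?_⟩
  exact hP i η η' (hη.trans (Set.iInter₂_subset i hi)) hη' hηχ hηχ'

end Crest.Agent.R330.AmpLoc815

end
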