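import Crest.Agent.R330.TrialSys_796

/-!
# Row 330: the literal channel (helper441)

Definitions only (frozen at dispatch #2).  The same two structures serve one channel and the
direct sum of the channels.

* `IsLim e D W K0 d` : the limit system `(L, X, e, D, W)`; `D m α` are the free charges of mass
  `m`, `W w` is multiplication by `w(|X|²)`; `K0` is the space of zero states at mass one, of
  dimension `d`.
* `IsChan b M R G e D W T` : the (bare) trial states `T_g χ` of this limit system: core vectors,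
  linear in `χ`, supported in `r ≤ ‖x‖ ≤ ρ`, asymptotically isometric, weakly intertwining at mass
  zero and at mass one, compatible with radial multiplication.
* `Orth T T'` : asymptotic orthogonality of two channels.
* `CapAnn b M R G m T` : CAP0, the mass in a closed annulus is captured by the amplitudes.
* `Chan b M R G` : the bundled object; `ChanAll N` : what sections 8, 9 produce for all data.
-/

set_option autoImplicit false

open MeasureTheory Filter Topology Crest.MathPhysics.MatrixQM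
open scoped ContDiff InnerProductSpace ENNReal

noncomputable section

namespace Crest.Agent.R330.Chan441

open Crest.Agent.R330.Defs478 Crest.Agent.R330.Top478 Crest.Agent.R330.Sec478
  Crest.Agent.R330.TrialSys796

variable {N : ℕ} {F : Type*} [NormedAddCommGroup F] [InnerProductSpace ℂ F]
  [FiniteDimensional ℂ F]

/-- The limit system `(L, X, e, D, W)` with zero states `K0` at mass one. -/
structure IsLim {L : Type*} [NormedAddCommGroup L] [InnerProductSpace ℂ L] {X : Type*}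
    [AddCommGroup X] [Module ℂ X] (e : X →ₗ[ℂ] L) (D : ℝ → Fin 16 → X →ₗ[ℂ] X)
    (W : (ℝ → ℝ) → X →ₗ[ℂ] X) (K0 : Submodule ℂ L) (d : ℕ) : Prop where
  /-- the test vectors are dense -/
  dense : DenseRange e
  /-- `L` is separable -/
  sep : TopologicalSpace.SeparableSpace L
  /-- the charges are symmetric -/
  symm : ∀ (m : ℝ) (α : Fin 16) (χ χ' : X), ⟪e (D m α χ), e χ'⟫_ℂ = ⟪e χ, e (D m α χ')⟫_ℂ
  /-- the squares of the massless charges agree (`-Δ/2`) -/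
  sq : ∀ (α β : Fin 16) (χ : X), D 0 α (D 0 α χ) = D 0 β (D 0 β χ)
  /-- weak = strong for the massless charges -/
  ws : ∀ (f : L) (h : Fin 16 → L), (∀ χ α, ⟪e (D 0 α χ), f⟫_ℂ = ⟪e χ, h α⟫_ℂ) →
    ∀ ε : ℝ, 0 < ε → ∃ χ, ‖e χ - f‖ ≤ ε ∧ ∀ α, ‖e (D 0 α χ) - h α‖ ≤ ε
  /-- the Hardy inequality, `t = |X|²` -/
  hardy : ∀ w : ℝ → ℝ, ContDiff ℝ ∞ w → (∀ t, 0 ≤ t → w t ^ 2 * t ≤ 1) → ∀ χ,
    49 / 8 * ‖e (W w χ)‖ ^ 2 ≤ 1 / 16 * ∑ α, ‖e (D 0 α χ)‖ ^ 2
  /-- the zero states at mass one -/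
  free : IsFree e (D 1) K0 d

/-- The trial states of one channel (or of the sum of the channels). -/
structure IsChan (b : ColorBasis N) (M : FermionRep N F) (R : GaugeAction b M) (G : GammaNine)
    {L : Type*} [NormedAddCommGroup L] [InnerProductSpace ℂ L] {X : Type*} [AddCommGroup X]
    [Module ℂ X] (e : X →ₗ[ℂ] L) (D : ℝ → Fin 16 → X →ₗ[ℂ] X) (W : (ℝ → ℝ) → X →ₗ[ℂ] X)
    (T : ℝ → X → Cfg N → F) : Prop where
  /-- core vectors for large coupling -/
  core : ∀ χ, ∀ᶠ g in atTop, IsCoreVec b R (T g χ)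
  /-- `T_g` is additive -/
  add : ∀ g χ χ', T g (χ + χ') = T g χ + T g χ'
  /-- `T_g` is homogeneous -/
  smul : ∀ g (c : ℂ) χ, T g (c • χ) = c • T g χ
  /-- supported in an annulus -/
  supp : ∀ χ, ∃ r ρ : ℝ, 0 < r ∧ ∀ᶠ g in atTop, ∀ x, T g χ x ≠ 0 → r ≤ ‖x‖ ∧ ‖x‖ ≤ ρ
  /-- (a) asymptotic isometry -/
  iso : ∀ χ χ', Tendsto (fun g => ∫ x, ⟪T g χ x, T g χ' x⟫_ℂ) atTop (𝓝 ⟪e χ, e χ'⟫_ℂ)
  /-- (b) weak intertwining at mass zero and at mass one -/
  dual : ∀ m : ℝ, m = 0 ∨ m = 1 → ∀ χ α, ∀ ε : ℝ, 0 < ε → ∀ᶠ g in atTop, ∀ φ : Cfg N → F,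
    IsCoreVec b R φ →
    ‖∫ x, ⟪φ x, dcharge b M G g m α (T g χ) x - T g (D m α χ) x⟫_ℂ‖ ≤
      ε * Real.sqrt (En b M G g m φ)
  /-- radial multiplication -/
  rad : ∀ w : ℝ → ℝ, ContDiff ℝ ∞ w → ∀ χ, Tendsto (fun g =>
    ∫ x, ‖T g (W w χ) x - ((w (‖x‖ ^ 2) : ℝ) : ℂ) • T g χ x‖ ^ 2) atTop (𝓝 0)

/-- Asymptotic orthogonality of two families of trial states. -/
def Orth {X X' : Type*} (T : ℝ → X → Cfg N → F) (T' : ℝ → X' → Cfg N → F) : Prop :=
  ∀ χ χ', Tendsto (fun g => ∫ x, ⟪T g χ x, T' g χ' x⟫_ℂ) atTop (𝓝 0)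

/-- CAP0: no mass is left in a closed annulus when all amplitudes tend to zero. -/
def CapAnn (b : ColorBasis N) (M : FermionRep N F) (R : GaugeAction b M) (G : GammaNine)
    (m : ℝ) {X : Type*} (T : ℝ → X → Cfg N → F) : Prop :=
  ∀ (g : ℕ → ℝ) (φ : ℕ → Cfg N → F) (C : ℝ), Tendsto g atTop atTop →
    (∀ j, IsCoreVec b R (φ j)) → (∀ j, En b M G (g j) m (φ j) ≤ C) →
    (∀ χ, Tendsto (fun j => ∫ x, ⟪T (g j) χ x, φ j x⟫_ℂ) atTop (𝓝 0)) →
    ∀ r ρ : ℝ, 0 < r →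
      Tendsto (fun j => ∫ x in {x : Cfg N | r ≤ ‖x‖ ∧ ‖x‖ ≤ ρ}, ‖φ j x‖ ^ 2) atTop (𝓝 0)

/-- CAP0 for a finite family of channels (the amplitudes of all the channels). -/
def CapFam (b : ColorBasis N) (M : FermionRep N F) (R : GaugeAction b M) (G : GammaNine)
    (m : ℝ) {ι : Type*} {X : ι → Type*} (T : ∀ i, ℝ → X i → Cfg N → F) : Prop :=
  ∀ (g : ℕ → ℝ) (φ : ℕ → Cfg N → F) (C : ℝ), Tendsto g atTop atTop →
    (∀ j, IsCoreVec b R (φ j)) → (∀ j, En b M G (g j) m (φ j) ≤ C) →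
    (∀ i χ, Tendsto (fun j => ∫ x, ⟪T i (g j) χ x, φ j x⟫_ℂ) atTop (𝓝 0)) →
    ∀ r ρ : ℝ, 0 < r →
      Tendsto (fun j => ∫ x in {x : Cfg N | r ≤ ‖x‖ ∧ ‖x‖ ≤ ρ}, ‖φ j x‖ ^ 2) atTop (𝓝 0)

/-- One channel, bundled. -/
structure Chan (b : ColorBasis N) (M : FermionRep N F) (R : GaugeAction b M)
    (G : GammaNine) where
  L : Type
  nL : NormedAddCommGroup L
  iL : InnerProductSpace ℂ L
  cL : CompleteSpace L
  X : Type
  aX : AddCommGroup X
  mX : Module ℂ X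
  e : X →ₗ[ℂ] L
  D : ℝ → Fin 16 → X →ₗ[ℂ] X
  W : (ℝ → ℝ) → X →ₗ[ℂ] X
  T : ℝ → X → Cfg N → F
  K0 : Submodule ℂ L
  lim : IsLim e D W K0 1
  chan : IsChan b M R G e D W T

attribute [instance] Chan.nL Chan.iL Chan.cL Chan.aX Chan.mX

/-- The output of sections 8 and 9: `p(N) - 1` channels, asymptotically orthogonal, with
capture on annuli at mass zero and at mass one. -/
def ChanAll (N : ℕ) : Prop :=
  ∀ (F : Type) [NormedAddCommGroup F] [InnerProductSpace ℂ F] [FiniteDimensional ℂ F]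
    [Nontrivial F] (b : ColorBasis N) (M : FermionRep N F) (R : GaugeAction b M) (G : GammaNine),
    ∃ (ι : Type) (_ : Fintype ι) (C : ι → Chan b M R G), Fintype.card ι = pN N - 1 ∧
      (∀ i j, i ≠ j → Orth (C i).T (C j).T) ∧
      CapFam b M R G 0 (fun i => (C i).T) ∧ CapFam b M R G 1 (fun i => (C i).T)

/-- The direct sum: one system with a `p(N) - 1` dimensional space of zero states. -/
def SysAll (N : ℕ) : Prop :=
  ∀ (F : Type) [NormedAddCommGroup F] [InnerProductSpace ℂ F] [FiniteDimensional ℂ F]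
    [Nontrivial F] (b : ColorBasis N) (M : FermionRep N F) (R : GaugeAction b M) (G : GammaNine),
    ∃ (L : Type) (_ : NormedAddCommGroup L) (_ : InnerProductSpace ℂ L) (_ : CompleteSpace L)
      (X : Type) (_ : AddCommGroup X) (_ : Module ℂ X) (e : X →ₗ[ℂ] L)
      (D : ℝ → Fin 16 → X →ₗ[ℂ] X) (W : (ℝ → ℝ) → X →ₗ[ℂ] X) (T : ℝ → X → Cfg N → F)
      (K0 : Submodule ℂ L),
      IsLim e D W K0 (pN N - 1) ∧ IsChan b M R G e D W T ∧
        CapAnn b M R G 0 T ∧ CapAnn b M R G 1 T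

section lemmas

variable {b : ColorBasis N} {M : FermionRep N F} {R : GaugeAction b M} {G : GammaNine}
  {L : Type*} [NormedAddCommGroup L] [InnerProductSpace ℂ L] {X : Type*} [AddCommGroup X]
  [Module ℂ X] {e : X →ₗ[ℂ] L} {D : ℝ → Fin 16 → X →ₗ[ℂ] X} {W : (ℝ → ℝ) → X →ₗ[ℂ] X}
  {T : ℝ → X → Cfg N → F}

/-- The trial system of sections 10, 11. -/
theorem IsChan.isTrial (h : IsChan b M R G e D W T) : IsTrial b M R G e (D 1) T where
  core := h.core
  iso := h.iso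
  dual χ α ε hε := h.dual 1 (Or.inr rfl) χ α ε hε
  far χ := by
    obtain ⟨r, ρ, hr, h1⟩ := h.supp χ
    refine ⟨r, hr, ?_⟩
    filter_upwards [h1] with g hg x hx
    by_contra h2
    exact absurd (hg x h2).1 (not_le.2 hx)

end lemmas

end Crest.Agent.R330.Chan441

end
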