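import Crest.Agent.R330.Top_478

/-!
# Row 330: the section outputs in their weakest literal form (helper478)

`DimGe .. k` : the kernel contains `k` linearly independent vectors.

* `WeakLow`, `WeakUp` : S5, lower and upper bound; `weak_of`.
* `DLow`, `DUp` : S11, S10 : `dim ker Q^{g,1} ≥ k + (p(N) - 1)` for large `g` for every
  `k ≤ dim ker Q^{1,0}`; `n ≤ dim ker Q^{1,0} + (p(N) - 1)` if `n ≤ dim ker Q^{g,1}` for arbitrarily
  large `g`.
* `dim1_of_sections` : `Dim1 N` from `Weak`, `ConstZ`, `DLow`, `DUp`; `dim1_of'` : the induction.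
* `GapZ` : the gap `(GAP)` in literal form.
-/

set_option autoImplicit false

open MeasureTheory Filter Topology Crest.MathPhysics.MatrixQM
open scoped ContDiff InnerProductSpace ENNReal Cardinal

noncomputable section

namespace Crest.Agent.R330.Sec478

open Crest.Agent.R330.Defs478 Crest.Agent.R330.Top478

/-- The kernel has dimension at least `k`. -/
def DimGe {N : ℕ} {F : Type*} [NormedAddCommGroup F] [InnerProductSpace ℂ F]
    [FiniteDimensional ℂ F] (b : ColorBasis N) (M : FermionRep N F) (R : GaugeAction b M)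
    (G : GammaNine) (g m : ℝ) (k : ℕ) : Prop := (k : Cardinal) ≤ Module.rank ℂ (zker b M R G g m)

/-- The gap of the form `q_{g,m}` above its kernel. -/
def GapZ {N : ℕ} {F : Type*} [NormedAddCommGroup F] [InnerProductSpace ℂ F]
    [FiniteDimensional ℂ F] (b : ColorBasis N) (M : FermionRep N F) (R : GaugeAction b M)
    (G : GammaNine) (g m δ : ℝ) : Prop :=
  ∀ φ : Cfg N → F, IsCoreVec b R φ → ∃ ψ ∈ zset b M R G g m,
    δ * ∫ x, ‖φ x - ψ x‖ ^ 2 ≤ qf b M G g m φ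

/-- (GAP) for all data. -/
def GapAll (N : ℕ) : Prop :=
  ∀ (F : Type) [NormedAddCommGroup F] [InnerProductSpace ℂ F] [FiniteDimensional ℂ F]
    [Nontrivial F] (b : ColorBasis N) (M : FermionRep N F) (R : GaugeAction b M) (G : GammaNine)
    (g : ℝ), 0 < g → GapZ b M R G g 1 (1 / 24)

/-- (WEAK), lower bound. -/
def WeakLow (N : ℕ) : Prop :=
  ∀ (F : Type) [NormedAddCommGroup F] [InnerProductSpace ℂ F] [FiniteDimensional ℂ F]
    [Nontrivial F] (b : ColorBasis N) (M : FermionRep N F) (R : GaugeAction b M) (G : GammaNine),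
    ∃ g₀ : ℝ, 0 < g₀ ∧ ∀ g : ℝ, 0 < g → g < g₀ → DimGe b M R G g 1 (pN N)

/-- (WEAK), upper bound. -/
def WeakUp (N : ℕ) : Prop :=
  ∀ (F : Type) [NormedAddCommGroup F] [InnerProductSpace ℂ F] [FiniteDimensional ℂ F]
    [Nontrivial F] (b : ColorBasis N) (M : FermionRep N F) (R : GaugeAction b M) (G : GammaNine),
    ∃ g₀ : ℝ, 0 < g₀ ∧ ∀ g : ℝ, 0 < g → g < g₀ → ¬ DimGe b M R G g 1 (pN N + 1)

/-- (STRONG), lower bound. -/
def DLow (N : ℕ) : Prop :=
  ∀ (F : Type) [NormedAddCommGroup F] [InnerProductSpace ℂ F] [FiniteDimensional ℂ F]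
    [Nontrivial F] (b : ColorBasis N) (M : FermionRep N F) (R : GaugeAction b M) (G : GammaNine)
    (k : ℕ), DimGe b M R G 1 0 k →
    ∃ g₁ : ℝ, ∀ g : ℝ, 0 < g → g₁ < g → DimGe b M R G g 1 (k + (pN N - 1))

/-- (STRONG), upper bound. -/
def DUp (N : ℕ) : Prop :=
  ∀ (F : Type) [NormedAddCommGroup F] [InnerProductSpace ℂ F] [FiniteDimensional ℂ F]
    [Nontrivial F] (b : ColorBasis N) (M : FermionRep N F) (R : GaugeAction b M) (G : GammaNine)
    (k : ℕ), (∀ g₁ : ℝ, ∃ g : ℝ, 0 < g ∧ g₁ < g ∧ DimGe b M R G g 1 (k + (pN N - 1))) →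
    DimGe b M R G 1 0 k

theorem rank_eq_of_dimGe {r : Cardinal} {p : ℕ} (h1 : (p : Cardinal) ≤ r)
    (h2 : ¬ ((p + 1 : ℕ) : Cardinal) ≤ r) : r = p := by
  have h3 : r < ((p + 1 : ℕ) : Cardinal) := not_le.1 h2
  obtain ⟨n, rfl⟩ := Cardinal.lt_aleph0.1 (h3.trans (Cardinal.natCast_lt_aleph0 (n := p + 1)))
  have h4 : p ≤ n := by exact_mod_cast h1
  have h5 : n < p + 1 := by exact_mod_cast h3
  have h6 : n = p := by omega
  rw [h6]

/-- (WEAK) from its two halves. -/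
theorem weak_of {N : ℕ} (h1 : WeakLow N) (h2 : WeakUp N) : Weak N := by
  intro F _ _ _ _ b M R G
  obtain ⟨g₁, hg₁, h1⟩ := h1 F b M R G
  obtain ⟨g₂, hg₂, h2⟩ := h2 F b M R G
  exact ⟨min g₁ g₂, lt_min hg₁ hg₂, fun g h0 hg => rank_eq_of_dimGe
    (h1 g h0 (hg.trans_le (min_le_left _ _))) (h2 g h0 (hg.trans_le (min_le_right _ _)))⟩

/-- **`Dim1` from the sections.** -/
theorem dim1_of_sections {N : ℕ} (hW : Weak N) (hC : ConstZ N) (hL : DLow N) (hU : DUp N) :
    Dim1 N := by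
  intro F _ _ _ _ b M R G
  obtain ⟨g₀, hg₀, hW⟩ := hW F b M R G
  have h1 := hW (g₀ / 2) (half_pos hg₀) (half_lt_self hg₀)
  have hall : ∀ g : ℝ, 0 < g → Module.rank ℂ (zker b M R G g 1) = pN N := fun g hg => by
    rw [← hC F b M R G (g₀ / 2) g (half_pos hg₀) hg]
    exact h1
  have hp := one_le_pN N
  refine rank_eq_of_dimGe ?_ ?_
  · refine hU F b M R G 1 fun g₁ => ⟨max g₁ 0 + 1, by positivity,
      (le_max_left _ _).trans_lt (lt_add_one _), ?_⟩
    unfold DimGe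
    rw [hall _ (by positivity), Nat.add_sub_cancel' hp]
  · intro h2
    obtain ⟨g₁, h3⟩ := hL F b M R G 2 h2
    have h4 := h3 (max g₁ 0 + 1) (by positivity) ((le_max_left _ _).trans_lt (lt_add_one _))
    unfold DimGe at h4
    rw [hall _ (by positivity)] at h4
    have h5 : 2 + (pN N - 1) ≤ pN N := by exact_mod_cast h4
    omega

/-- **The induction**, in terms of the sections. -/
theorem dim1_all {S : ℕ → Prop} (hWL : ∀ N, 2 ≤ N → WeakLow N) (hWU : ∀ N, 2 ≤ N → WeakUp N)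
    (hC : ∀ N, 2 ≤ N → ConstZ N)
    (hL : ∀ N, 2 ≤ N → (∀ k, 2 ≤ k → k < N → S k) → DLow N)
    (hU : ∀ N, 2 ≤ N → (∀ k, 2 ≤ k → k < N → S k) → DUp N)
    (hS : ∀ N, 2 ≤ N → (∀ k, 2 ≤ k → k < N → S k) → Dim1 N → S N) :
    ∀ N, 2 ≤ N → Dim1 N ∧ S N := by
  intro N
  induction N using Nat.strong_induction_on with
  | _ N ih =>
    intro hN
    have h1 : ∀ k, 2 ≤ k → k < N → S k := fun k hk hkN => (ih k hkN hk).2
    have h2 : Dim1 N := dim1_of_sections (weak_of (hWL N hN) (hWU N hN)) (hC N hN)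
      (hL N hN h1) (hU N hN h1)
    exact ⟨h2, hS N hN h1 h2⟩

end Crest.Agent.R330.Sec478

end
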