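import Crest.Agent.R330.Dict_416
import Crest.Agent.R330.Sec_478

/-!
# Row 330 (helper416): the kernel of `Q^{g,1}` has constant dimension

* `dcharge_sub` : `Q^{t,m} - Q^{s,m} = (t - s) (Q^{1,0} - Q^{0,0})`.
* `L42` : the quartic part is bounded relative to the form `q_{s,1}`.
* `dimGe_coupling` : `DimGe` does not depend on the coupling `g > 0`.
* `constZ_of` : `ConstZ N` from the gap, `L42` and `Weak N`.
-/

set_option autoImplicit false
set_option linter.unusedSectionVars false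

open MeasureTheory Filter Topology Crest.MathPhysics.MatrixQM
open scoped ContDiff InnerProductSpace ENNReal

noncomputable section

namespace Crest.Agent.R330.Const416

open Crest.Agent.R330.Defs478 Crest.Agent.R330.Top478 Crest.Agent.R330.FA416
  Crest.Agent.R330.Dict416

variable {N : ℕ} {F : Type*} [NormedAddCommGroup F] [InnerProductSpace ℂ F]

theorem wpot_sub (b : ColorBasis N) (G : GammaNine) (t s m : ℝ) (α β : Fin 16)
    (A : Fin (N ^ 2 - 1)) (x : Cfg N) :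
    wpot b G t m α β A x - wpot b G s m α β A x =
      (t - s) * (wpot b G 1 0 α β A x - wpot b G 0 0 α β A x) := by
  unfold wpot
  ring

theorem dcharge_sub (b : ColorBasis N) (M : FermionRep N F) (G : GammaNine) (t s m : ℝ)
    (α : Fin 16) (φ : Cfg N → F) (x : Cfg N) :
    dcharge b M G t m α φ x - dcharge b M G s m α φ x =
      ((t - s : ℝ) : ℂ) • (dcharge b M G 1 0 α φ x - dcharge b M G 0 0 α φ x) := by
  unfold dcharge
  rw [add_sub_add_left_eq_sub, add_sub_add_left_eq_sub]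
  simp only [← Finset.sum_sub_distrib, ← sub_smul, ← Complex.ofReal_sub, Finset.smul_sum,
    smul_smul, ← Complex.ofReal_mul]
  refine Finset.sum_congr rfl fun A _ => Finset.sum_congr rfl fun β _ => ?_
  rw [wpot_sub]

section core

variable [FiniteDimensional ℂ F] {b : ColorBasis N} {M : FermionRep N F}

/-- The quartic part of the charges is bounded relative to the form. -/
def L42 (b : ColorBasis N) (M : FermionRep N F) (R : GaugeAction b M) (G : GammaNine) : Prop :=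
  ∀ s : ℝ, 0 < s → ∃ C : ℝ, ∀ φ : Cfg N → F, IsCoreVec b R φ →
    ∑ α, ∫ x, ‖dcharge b M G 1 0 α φ x - dcharge b M G 0 0 α φ x‖ ^ 2 ≤
      C * (qf b M G s 1 φ + ∫ x, ‖φ x‖ ^ 2)

variable {R : GaugeAction b M} {G : GammaNine}

theorem norm_QC_sub (t s m : ℝ) (φ : core b R) :
    ‖QC R G t m φ - QC R G s m φ‖ ^ 2 =
      (t - s) ^ 2 * ∑ α, ∫ x, ‖dcharge b M G 1 0 α φ.1 x - dcharge b M G 0 0 α φ.1 x‖ ^ 2 := by
  rw [norm_QC_sub_sq, Finset.mul_sum]
  refine Finset.sum_congr rfl fun α _ => ?_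
  rw [← integral_const_mul]
  refine integral_congr_ae (Eventually.of_forall fun x => ?_)
  change ‖dcharge b M G t m α φ.1 x - dcharge b M G s m α φ.1 x‖ ^ 2 = (t - s) ^ 2 *
    ‖dcharge b M G 1 0 α φ.1 x - dcharge b M G 0 0 α φ.1 x‖ ^ 2
  rw [dcharge_sub, norm_smul, mul_pow, Complex.norm_real, Real.norm_eq_abs, sq_abs]

/-- **The kernels of `Q^{g,1}` for all couplings `g > 0` have the same dimension** (finite
levels). -/
theorem dimGe_coupling {δ : ℝ} (hδ : 0 < δ) (hG : ∀ g : ℝ, 0 < g → GapL R G g 1 δ)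
    (h42 : L42 b M R G) {k : ℕ} {s t : ℝ} (hs : 0 < s) (ht : 0 < t) :
    DimGe (ιC R) (QC R G s 1) k ↔ DimGe (ιC R) (QC R G t 1) k := by
  refine dimGe_const (ι := ιC R) (Qf := fun g => QC R G g 1) (S := Set.Ioi 0)
    isPreconnected_Ioi (δ := 16 * δ) (by positivity)
    (fun g hg => gapL_iff.1 (hG g hg)) (fun s hs => ?_) hs ht
  obtain ⟨C, hC⟩ := h42 s hs
  refine ⟨Real.sqrt (max C 0), 1, one_pos, fun t _ _ φ => ?_⟩
  have h1 := hC φ.1 φ.2
  have hq : qf b M G s 1 φ.1 + ∫ x, ‖φ.1 x‖ ^ 2 ≤ ‖QC R G s 1 φ‖ ^ 2 + ‖ιC R φ‖ ^ 2 := by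
    rw [norm_QC_sq, norm_ιC_sq]
    have : 0 ≤ qf b M G s 1 φ.1 := by
      unfold qf
      exact mul_nonneg (by norm_num) (Finset.sum_nonneg fun α _ =>
        integral_nonneg fun x => sq_nonneg _)
    linarith
  have hq0 : 0 ≤ qf b M G s 1 φ.1 + ∫ x, ‖φ.1 x‖ ^ 2 := by
    unfold qf
    exact add_nonneg (mul_nonneg (by norm_num) (Finset.sum_nonneg fun α _ =>
      integral_nonneg fun x => sq_nonneg _)) (integral_nonneg fun x => sq_nonneg _)
  have h2 : ‖QC R G t 1 φ - QC R G s 1 φ‖ ^ 2 ≤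
      (Real.sqrt (max C 0) * |t - s| * (‖QC R G s 1 φ‖ + ‖ιC R φ‖)) ^ 2 := by
    rw [norm_QC_sub, mul_pow, mul_pow, Real.sq_sqrt (le_max_right _ _), sq_abs]
    calc (t - s) ^ 2 * ∑ α, ∫ x,
          ‖dcharge b M G 1 0 α φ.1 x - dcharge b M G 0 0 α φ.1 x‖ ^ 2
        ≤ (t - s) ^ 2 * (max C 0 * (‖QC R G s 1 φ‖ ^ 2 + ‖ιC R φ‖ ^ 2)) := by
          refine mul_le_mul_of_nonneg_left (h1.trans ?_) (sq_nonneg _)
          calc C * (qf b M G s 1 φ.1 + ∫ x, ‖φ.1 x‖ ^ 2)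
              ≤ max C 0 * (qf b M G s 1 φ.1 + ∫ x, ‖φ.1 x‖ ^ 2) :=
                mul_le_mul_of_nonneg_right (le_max_left _ _) hq0
            _ ≤ _ := mul_le_mul_of_nonneg_left hq (le_max_right _ _)
      _ ≤ (t - s) ^ 2 * (max C 0 * (‖QC R G s 1 φ‖ + ‖ιC R φ‖) ^ 2) := by
          refine mul_le_mul_of_nonneg_left (mul_le_mul_of_nonneg_left ?_ (le_max_right _ _))
            (sq_nonneg _)
          have := mul_nonneg (norm_nonneg (QC R G s 1 φ)) (norm_nonneg (ιC R φ))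
          nlinarith
      _ = _ := by ring
  exact (abs_le_abs_of_nonneg_sq (norm_nonneg _) (by positivity) h2)
where
  abs_le_abs_of_nonneg_sq {a c : ℝ} (ha : 0 ≤ a) (hc : 0 ≤ c) (h : a ^ 2 ≤ c ^ 2) : a ≤ c :=
    (pow_le_pow_iff_left₀ ha hc two_ne_zero).1 h

theorem hasDim_coupling {δ : ℝ} (hδ : 0 < δ) (hG : ∀ g : ℝ, 0 < g → GapL R G g 1 δ)
    (h42 : L42 b M R G) {d : ℕ} {s t : ℝ} (hs : 0 < s) (ht : 0 < t)
    (h : HasDim b M R G s 1 d) : HasDim b M R G t 1 d := by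
  rw [hasDim_iff] at h ⊢
  rwa [← dimGe_coupling hδ hG h42 hs ht, ← dimGe_coupling hδ hG h42 hs ht]

end core

/-- The bound of the quartic part for all data. -/
def L42All (N : ℕ) : Prop :=
  ∀ (F : Type) [NormedAddCommGroup F] [InnerProductSpace ℂ F] [FiniteDimensional ℂ F]
    [Nontrivial F] (b : ColorBasis N) (M : FermionRep N F) (R : GaugeAction b M) (G : GammaNine),
    L42 b M R G

/-- The gap for all data, uniform in the coupling. -/
def GapUnif (N : ℕ) : Prop :=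
  ∀ (F : Type) [NormedAddCommGroup F] [InnerProductSpace ℂ F] [FiniteDimensional ℂ F]
    [Nontrivial F] (b : ColorBasis N) (M : FermionRep N F) (R : GaugeAction b M) (G : GammaNine),
    ∃ δ : ℝ, 0 < δ ∧ ∀ g : ℝ, 0 < g → Sec478.GapZ b M R G g 1 δ

theorem gapUnif_of_gapAll {N : ℕ} (h : Sec478.GapAll N) : GapUnif N :=
  fun F _ _ _ _ b M R G => ⟨1 / 24, by norm_num, fun g hg => h F b M R G g hg⟩

/-- **(CONST)** -/
theorem constZ_of {N : ℕ} (hW : Weak N) (hG : GapUnif N) (h42 : L42All N) : ConstZ N := by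
  intro F _ _ _ _ b M R G g g' hg hg'
  obtain ⟨g₀, hg₀, hW⟩ := hW F b M R G
  obtain ⟨δ, hδ, hG⟩ := hG F b M R G
  have h1 := hW (g₀ / 2) (half_pos hg₀) (half_lt_self hg₀)
  have h2 : ∀ t : ℝ, 0 < t → HasDim b M R G t 1 (pN N) := fun t ht =>
    hasDim_coupling hδ (fun g hg => hG g hg) (h42 F b M R G) (half_pos hg₀) ht h1
  exact (h2 g hg).trans (h2 g' hg').symm

end Crest.Agent.R330.Const416

end
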