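import Crest.Agent.R330.Defs_478
import Crest.Agent.R330.Ims_714
import Crest.Agent.R330.Col_962

/-!
# R330/HIAnn_245 (leaf S9-ANN)

`AnnHI κ L` : Hardy inequality with constant `κ` for core vectors supported in the annulus
`1 ≤ |x| ≤ L` for all large couplings `g` (mass `0`).
`HI κ` : exterior Hardy inequality for the supercharges of the statement.
`HI_of_ann` : `(∀ L, AnnHI κ' L) → κ < κ' → HI κ` by scaling and log-radial IMS localisation.
-/

set_option autoImplicit false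
set_option linter.unusedSectionVars false

open MeasureTheory Filter Topology Crest.MathPhysics.MatrixQM
open scoped ContDiff InnerProductSpace ENNReal

noncomputable section

namespace Crest.Agent.R330.HIAnn245

open Crest.Agent.R330.Defs478 Crest.Agent.R330.Ims714

variable {N : ℕ} {F : Type*} [NormedAddCommGroup F] [InnerProductSpace ℂ F]
  [FiniteDimensional ℂ F]

/-- Hardy inequality on the annulus `1 ≤ |x| ≤ L` for all large couplings. -/
def AnnHI (b : ColorBasis N) (M : FermionRep N F) (R : GaugeAction b M) (G : GammaNine)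
    (κ L : ℝ) : Prop :=
  ∃ g₀ : ℝ, ∀ g : ℝ, g₀ ≤ g → ∀ φ : Cfg N → F, IsCoreVec b R φ →
    (∀ x, φ x ≠ 0 → 1 ≤ ‖x‖ ∧ ‖x‖ ≤ L) →
    κ * ∫ x, ‖φ x‖ ^ 2 / ‖x‖ ^ 2 ≤ qf b M G g 0 φ

/-- Exterior Hardy inequality for the supercharges of the statement. -/
def HI (b : ColorBasis N) (M : FermionRep N F) (R : GaugeAction b M) (G : GammaNine)
    (κ : ℝ) : Prop :=
  ∃ ρ : ℝ, 0 < ρ ∧ ∀ φ : Cfg N → F, IsCoreVec b R φ → (∀ x, ‖x‖ < ρ → φ x = 0) →
    κ * ∫ x, ‖φ x‖ ^ 2 / ‖x‖ ^ 2 ≤ qf b M G 1 0 φ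

/-! ### scaling -/

theorem dcharge_scale (b : ColorBasis N) (M : FermionRep N F) (G : GammaNine) (α : Fin 16)
    {φ : Cfg N → F} (hφ : Differentiable ℝ φ) (l : ℝ) (x : Cfg N) :
    dcharge b M G (l ^ 3) 0 α (fun y => φ (l • y)) x = l • dcharge b M G 1 0 α φ (l • x) := by
  have hr : ∀ (c : ℝ) (f : F), c • f = (c : ℂ) • f := fun c f => (Complex.coe_smul c f).symm
  have hd : ∀ v : Cfg N, fderiv ℝ (fun y => φ (l • y)) x v = l • fderiv ℝ φ (l • x) v := by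
    intro v
    have h1 : HasFDerivAt (fun y : Cfg N => l • y) (l • ContinuousLinearMap.id ℝ (Cfg N)) x :=
      (hasFDerivAt_id x).const_smul l
    have h2 := (hφ (l • x)).hasFDerivAt.comp x h1
    have h3 : fderiv ℝ (fun y => φ (l • y)) x =
        (fderiv ℝ φ (l • x)).comp (l • ContinuousLinearMap.id ℝ (Cfg N)) := h2.fderiv
    rw [h3]
    simp
  have hw : ∀ β A, wpot b G (l ^ 3) 0 α β A x = l * wpot b G 1 0 α β A (l • x) := by
    intro β A
    unfold wpot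
    simp only [zero_mul, sub_zero, one_mul, PiLp.smul_apply, smul_eq_mul]
    rw [Finset.mul_sum, Finset.mul_sum]
    refine Finset.sum_congr rfl fun B _ => ?_
    rw [Finset.mul_sum, Finset.mul_sum]
    refine Finset.sum_congr rfl fun C _ => ?_
    rw [Finset.mul_sum, Finset.mul_sum]
    refine Finset.sum_congr rfl fun i _ => ?_
    rw [Finset.mul_sum, Finset.mul_sum]
    refine Finset.sum_congr rfl fun j _ => ?_
    ring
  unfold dcharge Defs478.kin
  rw [smul_add, Finset.smul_sum, Finset.smul_sum]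
  congr 1
  · refine Finset.sum_congr rfl fun i _ => ?_
    rw [Finset.smul_sum]
    refine Finset.sum_congr rfl fun A _ => ?_
    rw [Finset.smul_sum]
    refine Finset.sum_congr rfl fun β _ => ?_
    rw [hd, hr, map_smul, hr]
    exact smul_comm _ _ _
  · refine Finset.sum_congr rfl fun A _ => ?_
    rw [Finset.smul_sum]
    refine Finset.sum_congr rfl fun β _ => ?_
    rw [hw, hr, smul_smul]
    push_cast
    rfl

theorem core_scale {b : ColorBasis N} {M : FermionRep N F} {R : GaugeAction b M}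
    {φ : Cfg N → F} (hφ : IsCoreVec b R φ) {l : ℝ} (hl : l ≠ 0) :
    IsCoreVec b R (fun y => φ (l • y)) := by
  refine ⟨hφ.1.comp (contDiff_const_smul l), ?_, fun g x => ?_⟩
  · exact hφ.2.1.comp_smul hl
  · show φ (l • b.act g x) = R.ρ g (φ (l • x))
    rw [← Col962.act_smul, hφ.2.2]

theorem qf_scale (b : ColorBasis N) (M : FermionRep N F) (G : GammaNine)
    {φ : Cfg N → F} (hφ : Differentiable ℝ φ) (l : ℝ) :
    qf b M G (l ^ 3) 0 (fun y => φ (l • y)) =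
      l ^ 2 * |(l ^ Module.finrank ℝ (Cfg N))⁻¹| * qf b M G 1 0 φ := by
  unfold qf
  have h : ∀ α : Fin 16, ∫ x, ‖dcharge b M G (l ^ 3) 0 α (fun y => φ (l • y)) x‖ ^ 2 =
      l ^ 2 * |(l ^ Module.finrank ℝ (Cfg N))⁻¹| * ∫ x, ‖dcharge b M G 1 0 α φ x‖ ^ 2 := by
    intro α
    have h1 : ∀ x, ‖dcharge b M G (l ^ 3) 0 α (fun y => φ (l • y)) x‖ ^ 2 =
        l ^ 2 * (fun z => ‖dcharge b M G 1 0 α φ z‖ ^ 2) (l • x) := by
      intro x
      rw [dcharge_scale b M G α hφ, norm_smul, mul_pow, Real.norm_eq_abs, sq_abs]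
    simp only [h1]
    rw [integral_const_mul, Measure.integral_comp_smul volume
      (fun z => ‖dcharge b M G 1 0 α φ z‖ ^ 2) l, smul_eq_mul]
    ring
  simp only [h]
  rw [← Finset.mul_sum]
  ring

theorem hardy_scale (φ : Cfg N → F) {l : ℝ} (hl : l ≠ 0) :
    ∫ x, ‖φ (l • x)‖ ^ 2 / ‖x‖ ^ 2 =
      l ^ 2 * |(l ^ Module.finrank ℝ (Cfg N))⁻¹| * ∫ x, ‖φ x‖ ^ 2 / ‖x‖ ^ 2 := by
  have h1 : ∀ x : Cfg N, ‖φ (l • x)‖ ^ 2 / ‖x‖ ^ 2 =
      l ^ 2 * (fun z => ‖φ z‖ ^ 2 / ‖z‖ ^ 2) (l • x) := by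
    intro x
    show _ = l ^ 2 * (‖φ (l • x)‖ ^ 2 / ‖l • x‖ ^ 2)
    rw [norm_smul, mul_pow, Real.norm_eq_abs, sq_abs]
    have : l ^ 2 ≠ 0 := pow_ne_zero 2 hl
    by_cases hx : ‖x‖ ^ 2 = 0
    · rw [hx]; simp
    · field_simp
  simp only [h1]
  rw [integral_const_mul, Measure.integral_comp_smul volume (fun z => ‖φ z‖ ^ 2 / ‖z‖ ^ 2) l,
    smul_eq_mul]
  ring

/-- the annulus inequality at scale `l` -/
theorem ann_scaled {b : ColorBasis N} {M : FermionRep N F} {R : GaugeAction b M} {G : GammaNine}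
    {κ L g₀ : ℝ} (h : ∀ g : ℝ, g₀ ≤ g → ∀ φ : Cfg N → F, IsCoreVec b R φ →
      (∀ x, φ x ≠ 0 → 1 ≤ ‖x‖ ∧ ‖x‖ ≤ L) → κ * ∫ x, ‖φ x‖ ^ 2 / ‖x‖ ^ 2 ≤ qf b M G g 0 φ)
    {l : ℝ} (hl : 0 < l) (hg : g₀ ≤ l ^ 3) {φ : Cfg N → F} (hφ : IsCoreVec b R φ)
    (hs : ∀ x, φ x ≠ 0 → l ≤ ‖x‖ ∧ ‖x‖ ≤ l * L) :
    κ * ∫ x, ‖φ x‖ ^ 2 / ‖x‖ ^ 2 ≤ qf b M G 1 0 φ := by
  have h1 := h (l ^ 3) hg (fun y => φ (l • y)) (core_scale hφ hl.ne') (fun x hx => by
    have h2 := hs (l • x) hx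
    rw [norm_smul, Real.norm_eq_abs, abs_of_pos hl] at h2
    constructor
    · have := h2.1
      nlinarith
    · have := h2.2
      exact le_of_mul_le_mul_left this hl)
  rw [qf_scale b M G (cv_diff hφ), hardy_scale φ hl.ne'] at h1
  have hc : 0 < l ^ 2 * |(l ^ Module.finrank ℝ (Cfg N))⁻¹| := by
    have : l ^ Module.finrank ℝ (Cfg N) ≠ 0 := pow_ne_zero _ hl.ne'
    positivity
  have h3 : (l ^ 2 * |(l ^ Module.finrank ℝ (Cfg N))⁻¹|) * (κ * ∫ x, ‖φ x‖ ^ 2 / ‖x‖ ^ 2) ≤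
      (l ^ 2 * |(l ^ Module.finrank ℝ (Cfg N))⁻¹|) * qf b M G 1 0 φ := by
    calc _ = κ * (l ^ 2 * |(l ^ Module.finrank ℝ (Cfg N))⁻¹| * ∫ x, ‖φ x‖ ^ 2 / ‖x‖ ^ 2) := by
          ring
      _ ≤ _ := h1
  exact le_of_mul_le_mul_left h3 hc

/-! ### the radial log partition -/

/-- bounded derivative of the smooth transition -/
theorem sT_deriv_zero {t : ℝ} (ht : t ≤ 0 ∨ 1 ≤ t) : deriv Real.smoothTransition t = 0 := by
  rcases ht with ht | ht
  · apply IsLocalMin.deriv_eq_zero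
    refine Filter.Eventually.of_forall fun y => ?_
    rw [Real.smoothTransition.zero_of_nonpos ht]
    exact Real.smoothTransition.nonneg y
  · apply IsLocalMax.deriv_eq_zero
    refine Filter.Eventually.of_forall fun y => ?_
    rw [Real.smoothTransition.one_of_one_le ht]
    exact Real.smoothTransition.le_one y

theorem exists_sT_bound : ∃ C : ℝ, 0 < C ∧ ∀ t, |deriv Real.smoothTransition t| ≤ C := by
  have hc : Continuous (deriv Real.smoothTransition) :=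
    (Real.smoothTransition.contDiff (n := 1)).continuous_deriv le_rfl
  obtain ⟨C, hC⟩ := isCompact_Icc.exists_bound_of_continuousOn
    (s := Set.Icc (0 : ℝ) 1) hc.continuousOn
  refine ⟨max C 1, by positivity, fun t => ?_⟩
  by_cases h : t ∈ Set.Icc (0 : ℝ) 1
  · exact (hC t h).trans (le_max_left _ _)
  · rw [sT_deriv_zero]
    · rw [abs_zero]; positivity
    · by_contra hcon
      push Not at hcon
      exact h ⟨hcon.1.le, hcon.2.le⟩

/-- logarithmic radius -/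
def lr (Λ : ℝ) (x : Cfg N) : ℝ := Real.log (‖x‖ ^ 2) / (2 * Real.log Λ)

/-- the angles -/
def ang (Λ : ℝ) (k : ℕ) (x : Cfg N) : ℝ :=
  Real.pi / 2 * Real.smoothTransition (lr Λ x - k)

theorem lr_le_iff {Λ : ℝ} (hΛ : 1 < Λ) {k : ℕ} {x : Cfg N} (hx : x ≠ 0) :
    lr Λ x ≤ k ↔ ‖x‖ ≤ Λ ^ k := by
  have hl : 0 < Real.log Λ := Real.log_pos hΛ
  have hn : 0 < ‖x‖ := norm_pos_iff.2 hx
  unfold lr
  rw [div_le_iff₀ (by positivity), Real.log_pow]
  have h1 : Real.log (Λ ^ k) = k * Real.log Λ := Real.log_pow _ _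
  constructor
  · intro h
    rw [← Real.log_le_log_iff hn (by positivity), h1]
    push_cast at h
    linarith
  · intro h
    rw [← Real.log_le_log_iff hn (by positivity), h1] at h
    push_cast
    linarith

theorem ang_zero {Λ : ℝ} (hΛ : 1 < Λ) {k : ℕ} {x : Cfg N} (hx : ‖x‖ ≤ Λ ^ k) :
    ang Λ k x = 0 := by
  unfold ang
  have hle : lr Λ x - k ≤ 0 := by
    by_cases h0 : x = 0
    · subst h0
      unfold lr
      simp
    · linarith [(lr_le_iff hΛ h0).2 hx]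
  rw [Real.smoothTransition.zero_of_nonpos hle, mul_zero]

theorem ang_one {Λ : ℝ} (hΛ : 1 < Λ) {k : ℕ} {x : Cfg N} (hx : Λ ^ (k + 1) ≤ ‖x‖) :
    ang Λ k x = Real.pi / 2 := by
  have hl : 0 < Real.log Λ := Real.log_pos hΛ
  have hn : 0 < ‖x‖ := lt_of_lt_of_le (by positivity) hx
  unfold ang
  have hle : 1 ≤ lr Λ x - k := by
    have h1 : Real.log (Λ ^ (k + 1)) = ((k + 1 : ℕ) : ℝ) * Real.log Λ := Real.log_pow _ _
    have h2 : Real.log (Λ ^ (k + 1)) ≤ Real.log ‖x‖ := Real.log_le_log (by positivity) hx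
    unfold lr
    rw [Real.log_pow, le_sub_iff_add_le, le_div_iff₀ (by positivity)]
    rw [h1] at h2
    push_cast at h2 ⊢
    linarith
  rw [Real.smoothTransition.one_of_one_le hle, mul_one]

theorem contDiff_ang {Λ : ℝ} (hΛ : 1 < Λ) (k : ℕ) : ContDiff ℝ ∞ (ang (N := N) Λ k) := by
  rw [contDiff_iff_contDiffAt]
  intro x
  by_cases h0 : x = 0
  · subst h0
    have h1 : ang (N := N) Λ k =ᶠ[𝓝 0] fun _ => (0 : ℝ) := by
      filter_upwards [Metric.ball_mem_nhds (0 : Cfg N) one_pos] with y hy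
      refine ang_zero hΛ ?_
      rw [mem_ball_zero_iff] at hy
      exact hy.le.trans (one_le_pow₀ hΛ.le)
    exact contDiffAt_const.congr_of_eventuallyEq h1
  · unfold ang lr
    refine contDiffAt_const.mul ?_
    refine Real.smoothTransition.contDiffAt.comp x ?_
    refine ContDiffAt.sub ?_ contDiffAt_const
    refine ContDiffAt.div_const ?_ _
    refine ContDiffAt.log ?_ ?_
    · exact (contDiff_norm_sq ℝ).contDiffAt
    · exact pow_ne_zero 2 (norm_ne_zero_iff.2 h0)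

theorem ang_act (b : ColorBasis N) (Λ : ℝ) (k : ℕ) (g : Matrix.specialUnitaryGroup (Fin N) ℂ)
    (x : Cfg N) : ang Λ k (b.act g x) = ang Λ k x := by
  unfold ang lr
  rw [Col962.norm_act]

theorem grad_eq_of_hasFDerivAt {χ : Cfg N → ℝ} {x v : Cfg N}
    (h : HasFDerivAt χ (innerSL ℝ v) x) : grad χ x = v := by
  ext iA
  rw [grad_apply, h.fderiv, innerSL_apply_apply]
  rw [EuclideanSpace.inner_single_right]
  simp

theorem hasFDerivAt_ang {Λ : ℝ} {k : ℕ} {x : Cfg N} (hx : x ≠ 0) :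
    HasFDerivAt (ang Λ k) (innerSL ℝ ((Real.pi / 2 * deriv Real.smoothTransition (lr Λ x - k) /
      (Real.log Λ * ‖x‖ ^ 2)) • x)) x := by
  have hn : ‖x‖ ^ 2 ≠ 0 := pow_ne_zero 2 (norm_ne_zero_iff.2 hx)
  have h1 : HasFDerivAt (fun y : Cfg N => ‖y‖ ^ 2) (2 • (innerSL ℝ x)) x :=
    (hasStrictFDerivAt_norm_sq x).hasFDerivAt
  have h2 : HasFDerivAt (fun y : Cfg N => Real.log (‖y‖ ^ 2)) ((‖x‖ ^ 2)⁻¹ • (2 • (innerSL ℝ x))) x :=
    h1.log hn
  have h3 : HasFDerivAt (fun y : Cfg N => Real.log (‖y‖ ^ 2) / (2 * Real.log Λ) - k)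
      ((2 * Real.log Λ)⁻¹ • ((‖x‖ ^ 2)⁻¹ • (2 • (innerSL ℝ x)))) x := by
    have := (h2.const_mul ((2 * Real.log Λ)⁻¹)).sub_const (k : ℝ)
    refine this.congr_of_eventuallyEq (Filter.Eventually.of_forall fun y => ?_)
    show _ = _
    simp only [div_eq_inv_mul]
  have h4 : HasDerivAt Real.smoothTransition (deriv Real.smoothTransition (lr Λ x - k))
      (lr Λ x - k) :=
    ((Real.smoothTransition.contDiff (n := 1)).differentiable one_ne_zero _).hasDerivAt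
  have h5 := h4.comp_hasFDerivAt x h3
  have h6 := h5.const_mul (Real.pi / 2)
  refine h6.congr_fderiv ?_
  ext v
  simp only [_root_.smul_apply, innerSL_apply_apply, smul_eq_mul, inner_smul_left,
    nsmul_eq_mul]
  simp only [RCLike.conj_to_real, Nat.cast_ofNat]
  have hinv : (2 * Real.log Λ)⁻¹ = 2⁻¹ * (Real.log Λ)⁻¹ := by rw [mul_inv]
  rw [hinv, div_eq_mul_inv (Real.pi / 2 * _), mul_inv]
  ring

theorem norm_grad_ang {Λ : ℝ} (hΛ : 1 < Λ) {C : ℝ}
    (hC : ∀ t, |deriv Real.smoothTransition t| ≤ C) {k : ℕ} {x : Cfg N} (hx : x ≠ 0) :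
    ‖grad (ang Λ k) x‖ ≤ Real.pi / 2 * C / (Real.log Λ * ‖x‖) := by
  have hl : 0 < Real.log Λ := Real.log_pos hΛ
  have hn : 0 < ‖x‖ := norm_pos_iff.2 hx
  rw [grad_eq_of_hasFDerivAt (hasFDerivAt_ang hx), norm_smul, Real.norm_eq_abs, abs_div,
    abs_mul, abs_of_pos (by positivity : 0 < Real.pi / 2),
    abs_of_pos (by positivity : 0 < Real.log Λ * ‖x‖ ^ 2)]
  rw [div_mul_eq_mul_div, div_le_div_iff₀ (by positivity) (by positivity)]
  have h1 := hC (lr Λ x - k)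
  have h2 : 0 ≤ |deriv Real.smoothTransition (lr Λ x - k)| := abs_nonneg _
  calc Real.pi / 2 * |deriv Real.smoothTransition (lr Λ x - k)| * ‖x‖ * (Real.log Λ * ‖x‖)
      = (Real.pi / 2 * (Real.log Λ * ‖x‖ ^ 2)) * |deriv Real.smoothTransition (lr Λ x - k)| := by
        ring
    _ ≤ (Real.pi / 2 * (Real.log Λ * ‖x‖ ^ 2)) * C := by gcongr
    _ = _ := by ring

/-- only one angle has a nonzero gradient at a given point -/
theorem grad_ang_zero {Λ : ℝ} {k : ℕ} {x : Cfg N} (hx : x ≠ 0)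
    (h : lr Λ x ≤ k ∨ (k : ℝ) + 1 ≤ lr Λ x) : grad (ang Λ k) x = 0 := by
  rw [grad_eq_of_hasFDerivAt (hasFDerivAt_ang hx), sT_deriv_zero]
  · simp
  · rcases h with h | h
    · left; linarith
    · right; linarith

theorem sum_grad_ang {Λ : ℝ} (hΛ : 1 < Λ) {C : ℝ}
    (hC : ∀ t, |deriv Real.smoothTransition t| ≤ C) {x : Cfg N} (hx : x ≠ 0) (n : ℕ) :
    ∑ k ∈ Finset.range n, ‖grad (ang Λ k) x‖ ^ 2 ≤
      (Real.pi / 2 * C / (Real.log Λ * ‖x‖)) ^ 2 := by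
  have h0 : ∀ k : ℕ, k ≠ ⌊lr Λ x⌋₊ → ‖grad (ang Λ k) x‖ ^ 2 = 0 := by
    intro k hk
    rw [grad_ang_zero hx, norm_zero]
    · ring
    · by_contra hcon
      push Not at hcon
      apply hk
      symm
      rw [Nat.floor_eq_iff (by linarith [hcon.1, (Nat.cast_nonneg k : (0 : ℝ) ≤ k)])]
      exact ⟨hcon.1.le, hcon.2⟩
  by_cases hm : ⌊lr Λ x⌋₊ ∈ Finset.range n
  · rw [Finset.sum_eq_single_of_mem _ hm fun k _ hk => h0 k hk]
    exact pow_le_pow_left₀ (norm_nonneg _) (norm_grad_ang hΛ hC hx) 2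
  · rw [Finset.sum_eq_zero fun k hk => h0 k (fun he => hm (he ▸ hk))]
    positivity

/-- the partition functions `J 0 = cos a₀`, `J (k+1) = sin a_k cos a_{k+1}` -/
def J (Λ : ℝ) : ℕ → Cfg N → ℝ
  | 0 => fun x => Real.cos (ang Λ 0 x)
  | (k + 1) => fun x => Real.sin (ang Λ k x) * Real.cos (ang Λ (k + 1) x)

theorem contDiff_J {Λ : ℝ} (hΛ : 1 < Λ) (k : ℕ) : ContDiff ℝ ∞ (J (N := N) Λ k) := by
  cases k with
  | zero => exact Real.contDiff_cos.comp (contDiff_ang hΛ 0)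
  | succ k =>
    exact (Real.contDiff_sin.comp (contDiff_ang hΛ k)).mul
      (Real.contDiff_cos.comp (contDiff_ang hΛ (k + 1)))

theorem J_act (b : ColorBasis N) (Λ : ℝ) (k : ℕ) (g : Matrix.specialUnitaryGroup (Fin N) ℂ)
    (x : Cfg N) : J Λ k (b.act g x) = J Λ k x := by
  cases k with
  | zero => simp only [J, ang_act]
  | succ k => simp only [J, ang_act]

theorem J_sum {Λ : ℝ} (hΛ : 1 < Λ) (x : Cfg N) (n : ℕ) :
    ∑ k ∈ Finset.range (n + 1), J Λ k x ^ 2 = 1 - Real.sin (ang Λ n x) ^ 2 := by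
  induction n with
  | zero =>
    simp only [zero_add, Finset.sum_range_one, J]
    have := Real.sin_sq_add_cos_sq (ang Λ 0 x)
    linarith
  | succ n ih =>
    rw [Finset.sum_range_succ, ih]
    simp only [J]
    have h1 := Real.sin_sq_add_cos_sq (ang Λ (n + 1) x)
    have h2 : Real.sin (ang Λ n x) ^ 2 * Real.sin (ang Λ (n + 1) x) ^ 2 =
        Real.sin (ang Λ (n + 1) x) ^ 2 := by
      by_cases h : ‖x‖ ≤ Λ ^ (n + 1)
      · rw [ang_zero hΛ h]; simp
      · rw [ang_one hΛ (le_of_not_ge h)]; simp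
    have h3 : Real.cos (ang Λ (n + 1) x) ^ 2 = 1 - Real.sin (ang Λ (n + 1) x) ^ 2 := by linarith
    rw [mul_pow, h3]
    linarith

theorem J_supp {Λ : ℝ} (hΛ : 1 < Λ) {k : ℕ} {x : Cfg N} (h : J Λ (k + 1) x ≠ 0) :
    Λ ^ k ≤ ‖x‖ ∧ ‖x‖ ≤ Λ ^ (k + 2) := by
  constructor
  · by_contra hcon
    push Not at hcon
    apply h
    simp only [J]
    rw [ang_zero hΛ hcon.le]; simp
  · by_contra hcon
    push Not at hcon
    apply h
    simp only [J]
    rw [ang_one hΛ (k := k + 1) hcon.le]; simp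

theorem J_zero {Λ : ℝ} (hΛ : 1 < Λ) {x : Cfg N} (h : Λ ≤ ‖x‖) : J Λ 0 x = 0 := by
  simp only [J]
  rw [ang_one hΛ (k := 0) (by simpa using h)]; simp

theorem grad_J_zero {Λ : ℝ} (hΛ : 1 < Λ) (x : Cfg N) :
    ‖grad (J Λ 0) x‖ ^ 2 ≤ ‖grad (ang Λ 0) x‖ ^ 2 := by
  have hd : DifferentiableAt ℝ (ang (N := N) Λ 0) x :=
    (contDiff_ang hΛ 0).differentiable (by simp) x
  have h : grad (J Λ 0) x = (-Real.sin (ang Λ 0 x)) • grad (ang Λ 0) x := by
    ext iA
    rw [grad_apply, PiLp.smul_apply, grad_apply, smul_eq_mul]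
    have h1 : HasFDerivAt (J (N := N) Λ 0) ((-Real.sin (ang Λ 0 x)) • fderiv ℝ (ang Λ 0) x) x :=
      hd.hasFDerivAt.cos
    rw [h1.fderiv]
    rfl
  rw [h, norm_smul, mul_pow, Real.norm_eq_abs, sq_abs, neg_sq]
  have := Real.sin_sq_le_one (ang Λ 0 x)
  nlinarith [sq_nonneg ‖grad (ang Λ 0) x‖]

theorem grad_J_succ {Λ : ℝ} (hΛ : 1 < Λ) (k : ℕ) (x : Cfg N) :
    ‖grad (J Λ (k + 1)) x‖ ^ 2 ≤ 2 * (‖grad (ang Λ k) x‖ ^ 2 + ‖grad (ang Λ (k + 1)) x‖ ^ 2) := by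
  have hd : ∀ j, DifferentiableAt ℝ (ang (N := N) Λ j) x := fun j =>
    (contDiff_ang hΛ j).differentiable (by simp) x
  have h : grad (J Λ (k + 1)) x =
      (Real.cos (ang Λ (k + 1) x) * Real.cos (ang Λ k x)) • grad (ang Λ k) x +
      (-(Real.sin (ang Λ k x) * Real.sin (ang Λ (k + 1) x))) • grad (ang Λ (k + 1)) x := by
    ext iA
    rw [grad_apply, PiLp.add_apply, PiLp.smul_apply, PiLp.smul_apply, grad_apply, grad_apply,
      smul_eq_mul, smul_eq_mul]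
    have h1 : HasFDerivAt (J (N := N) Λ (k + 1))
        (Real.sin (ang Λ k x) • ((-Real.sin (ang Λ (k + 1) x)) • fderiv ℝ (ang Λ (k + 1)) x) +
          Real.cos (ang Λ (k + 1) x) • (Real.cos (ang Λ k x) • fderiv ℝ (ang Λ k) x)) x :=
      (hd k).hasFDerivAt.sin.mul (hd (k + 1)).hasFDerivAt.cos
    rw [h1.fderiv]
    simp only [_root_.add_apply, _root_.smul_apply, smul_eq_mul]
    ring
  rw [h]
  have h1 : ‖(Real.cos (ang Λ (k + 1) x) * Real.cos (ang Λ k x)) • grad (ang Λ k) x‖ ≤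
      ‖grad (ang Λ k) x‖ := by
    rw [norm_smul, Real.norm_eq_abs, abs_mul]
    have e1 := Real.abs_cos_le_one (ang Λ (k + 1) x)
    have e2 := Real.abs_cos_le_one (ang Λ k x)
    have e3 : |Real.cos (ang Λ (k + 1) x)| * |Real.cos (ang Λ k x)| ≤ 1 :=
      mul_le_one₀ e1 (abs_nonneg _) e2
    exact (mul_le_mul_of_nonneg_right e3 (norm_nonneg _)).trans_eq (one_mul _)
  have h2 : ‖(-(Real.sin (ang Λ k x) * Real.sin (ang Λ (k + 1) x))) • grad (ang Λ (k + 1)) x‖ ≤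
      ‖grad (ang Λ (k + 1)) x‖ := by
    rw [norm_smul, Real.norm_eq_abs, abs_neg, abs_mul]
    have e1 := Real.abs_sin_le_one (ang Λ (k + 1) x)
    have e2 := Real.abs_sin_le_one (ang Λ k x)
    have e3 : |Real.sin (ang Λ k x)| * |Real.sin (ang Λ (k + 1) x)| ≤ 1 :=
      mul_le_one₀ e2 (abs_nonneg _) e1
    exact (mul_le_mul_of_nonneg_right e3 (norm_nonneg _)).trans_eq (one_mul _)
  have h3 := norm_add_le ((Real.cos (ang Λ (k + 1) x) * Real.cos (ang Λ k x)) • grad (ang Λ k) x)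
    ((-(Real.sin (ang Λ k x) * Real.sin (ang Λ (k + 1) x))) • grad (ang Λ (k + 1)) x)
  have h4 := h3.trans (add_le_add h1 h2)
  have h5 := pow_le_pow_left₀ (norm_nonneg _) h4 2
  nlinarith [sq_nonneg (‖grad (ang Λ k) x‖ - ‖grad (ang Λ (k + 1)) x‖)]

theorem sum_grad_J {Λ : ℝ} (hΛ : 1 < Λ) {C : ℝ}
    (hC : ∀ t, |deriv Real.smoothTransition t| ≤ C) {x : Cfg N} (hx : x ≠ 0) (n : ℕ) :
    ∑ k ∈ Finset.range (n + 1), ‖grad (J Λ k) x‖ ^ 2 ≤
      5 * (Real.pi / 2 * C / (Real.log Λ * ‖x‖)) ^ 2 := by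
  rw [Finset.sum_range_succ']
  have h1 : ∑ k ∈ Finset.range n, ‖grad (J Λ (k + 1)) x‖ ^ 2 ≤
      ∑ k ∈ Finset.range n, 2 * (‖grad (ang Λ k) x‖ ^ 2 + ‖grad (ang Λ (k + 1)) x‖ ^ 2) :=
    Finset.sum_le_sum fun k _ => grad_J_succ hΛ k x
  rw [← Finset.mul_sum, Finset.sum_add_distrib] at h1
  have h2 := sum_grad_ang hΛ hC hx n
  have h3 : ∑ k ∈ Finset.range n, ‖grad (ang Λ (k + 1)) x‖ ^ 2 ≤
      (Real.pi / 2 * C / (Real.log Λ * ‖x‖)) ^ 2 := by
    refine le_trans ?_ (sum_grad_ang hΛ hC hx (n + 1))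
    rw [Finset.sum_range_succ']
    have : 0 ≤ ‖grad (ang Λ 0) x‖ ^ 2 := by positivity
    linarith
  have h4 := grad_J_zero hΛ x
  have h5 : ‖grad (ang Λ 0) x‖ ^ 2 ≤ (Real.pi / 2 * C / (Real.log Λ * ‖x‖)) ^ 2 := by
    have := sum_grad_ang hΛ hC hx 1
    simpa using this
  linarith

/-! ### the main implication -/

theorem supercharge_eventually_zero (b : ColorBasis N) (M : FermionRep N F) (G : GammaNine)
    (α : Fin 16) {φ : Cfg N → F} {x : Cfg N} (h : φ =ᶠ[𝓝 x] 0) :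
    supercharge b M G α φ x = 0 := by
  have h1 : fderiv ℝ φ x = 0 := by
    rw [h.fderiv_eq]
    exact fderiv_const_apply (0 : F)
  have h2 : φ x = 0 := h.eq_of_nhds
  unfold supercharge
  simp [h1, h2]

theorem integrable_supercharge_sq {b : ColorBasis N} {M : FermionRep N F} {R : GaugeAction b M}
    (G : GammaNine) (α : Fin 16) {φ : Cfg N → F} (hφ : IsCoreVec b R φ) :
    Integrable fun x => ‖supercharge b M G α φ x‖ ^ 2 := by
  have hc : Continuous (supercharge b M G α φ) :=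
    Ims714.continuous_supercharge b M G α (cv_c1 hφ)
  refine (hc.norm.pow 2).integrable_of_hasCompactSupport ?_
  refine HasCompactSupport.intro hφ.2.1 fun x hx => ?_
  simp only [Pi.pow_apply,
    supercharge_eventually_zero b M G α (notMem_tsupport_iff_eventuallyEq.1 hx)]
  simp

theorem qf_one_zero (b : ColorBasis N) (M : FermionRep N F) (G : GammaNine) (φ : Cfg N → F) :
    qf b M G 1 0 φ = (1 / 16 : ℝ) * ∑ α : Fin 16, ∫ x, ‖supercharge b M G α φ x‖ ^ 2 := by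
  unfold qf
  simp only [dcharge_one_zero]

theorem integrable_hardy {R₀ : ℝ} (hR₀ : 0 < R₀) {φ : Cfg N → F} (hc : Continuous φ)
    (hs : HasCompactSupport φ) (h0 : ∀ x, ‖x‖ < R₀ → φ x = 0) :
    Integrable fun x => ‖φ x‖ ^ 2 / ‖x‖ ^ 2 := by
  have h1 : Integrable fun x => (R₀ ^ 2)⁻¹ * ‖φ x‖ ^ 2 := by
    refine Integrable.const_mul ?_ _
    refine (hc.norm.pow 2).integrable_of_hasCompactSupport ?_
    exact HasCompactSupport.intro hs fun x hx => by
      simp only [Pi.pow_apply, image_eq_zero_of_notMem_tsupport hx]; simp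
  refine h1.mono' ?_ ?_
  · exact ((hc.norm.pow 2).measurable.div (continuous_norm.pow 2).measurable).aestronglyMeasurable
  · refine Eventually.of_forall fun x => ?_
    rw [Real.norm_eq_abs, abs_of_nonneg (by positivity)]
    by_cases hx : ‖x‖ < R₀
    · rw [h0 x hx]; simp
    · push Not at hx
      rw [div_eq_inv_mul]
      gcongr

/-- IMS sum for the radial log partition. -/
theorem sum_qf_J {b : ColorBasis N} {M : FermionRep N F} {R : GaugeAction b M} {G : GammaNine}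
    {Λ : ℝ} (hΛ : 1 < Λ) {C : ℝ} (hC : ∀ t, |deriv Real.smoothTransition t| ≤ C)
    {R₀ : ℝ} (hR₀ : 0 < R₀) {φ : Cfg N → F} (hφ : IsCoreVec b R φ)
    (h0 : ∀ x, ‖x‖ < R₀ → φ x = 0) {n : ℕ} (hn : ∀ x ∈ tsupport φ, ‖x‖ < Λ ^ n) :
    ∑ k ∈ Finset.range (n + 1), qf b M G 1 0 (fun x => J Λ k x • φ x) ≤
      qf b M G 1 0 φ +
        5 / 2 * (Real.pi / 2 * C / Real.log Λ) ^ 2 * ∫ x, ‖φ x‖ ^ 2 / ‖x‖ ^ 2 := by
  have hcore : ∀ k, IsCoreVec b R (fun x => J Λ k x • φ x) := fun k =>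
    isCoreVec_mul (contDiff_J hΛ k) (J_act b Λ k) hφ
  have hint : ∀ k α, Integrable fun x =>
      ‖supercharge b M G α (fun y => J Λ k y • φ y) x‖ ^ 2 := fun k α =>
    integrable_supercharge_sq G α (hcore k)
  have hH := integrable_hardy hR₀ hφ.1.continuous hφ.2.1 h0
  have hpt : ∀ α x, ∑ k ∈ Finset.range (n + 1),
      ‖supercharge b M G α (fun y => J Λ k y • φ y) x‖ ^ 2 ≤
      ‖supercharge b M G α φ x‖ ^ 2 +
        5 / 2 * (Real.pi / 2 * C / Real.log Λ) ^ 2 * (‖φ x‖ ^ 2 / ‖x‖ ^ 2) := by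
    intro α x
    by_cases hx : x ∈ tsupport φ
    · have hxn := hn x hx
      have hx0 : x ≠ 0 := by
        rintro rfl
        have : (0 : Cfg N) ∉ tsupport φ := by
          rw [notMem_tsupport_iff_eventuallyEq]
          filter_upwards [Metric.ball_mem_nhds (0 : Cfg N) hR₀] with y hy
          rw [mem_ball_zero_iff] at hy
          exact h0 y hy
        exact this hx
      have hl : 0 < Real.log Λ := Real.log_pos hΛ
      have hnx : 0 < ‖x‖ := norm_pos_iff.2 hx0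
      have hJd : ∀ k ∈ Finset.range (n + 1), DifferentiableAt ℝ (J (N := N) Λ k) x := fun k _ =>
        (contDiff_J hΛ k).differentiable (by simp) x
      have hone : ∀ᶠ y in 𝓝 x, ∑ k ∈ Finset.range (n + 1), J Λ k y ^ 2 = 1 := by
        have : ∀ᶠ y : Cfg N in 𝓝 x, ‖y‖ < Λ ^ n :=
          (continuous_norm.tendsto x).eventually_lt_const hxn
        filter_upwards [this] with y hy
        rw [J_sum hΛ, ang_zero hΛ hy.le]; simp
      have h1 := ims_pointwise (Finset.range (n + 1)) G M α (wquart b M G α) hJd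
        (cv_diff hφ x) hone.self_of_nhds (sum_mul_grad_eq_zero _ hJd hone)
      simp only [← supercharge_eq_dop] at h1
      rw [h1]
      have h2 := sum_grad_J hΛ hC hx0 n
      have h3 : 1 / 2 * (∑ k ∈ Finset.range (n + 1), ‖grad (J Λ k) x‖ ^ 2) * ‖φ x‖ ^ 2 ≤
          1 / 2 * (5 * (Real.pi / 2 * C / (Real.log Λ * ‖x‖)) ^ 2) * ‖φ x‖ ^ 2 := by
        gcongr
      have h4 : 1 / 2 * (5 * (Real.pi / 2 * C / (Real.log Λ * ‖x‖)) ^ 2) * ‖φ x‖ ^ 2 =
          5 / 2 * (Real.pi / 2 * C / Real.log Λ) ^ 2 * (‖φ x‖ ^ 2 / ‖x‖ ^ 2) := by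
        field_simp
      linarith
    · have he := notMem_tsupport_iff_eventuallyEq.1 hx
      have h1 : ∀ k, supercharge b M G α (fun y => J Λ k y • φ y) x = 0 := fun k => by
        refine supercharge_eventually_zero b M G α ?_
        filter_upwards [he] with y hy
        simp [hy]
      have h2 : φ x = 0 := image_eq_zero_of_notMem_tsupport hx
      simp only [h1, norm_zero, h2, supercharge_eventually_zero b M G α he]
      simp
  have hsum : ∀ α, ∑ k ∈ Finset.range (n + 1),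
      ∫ x, ‖supercharge b M G α (fun y => J Λ k y • φ y) x‖ ^ 2 ≤
      (∫ x, ‖supercharge b M G α φ x‖ ^ 2) +
        5 / 2 * (Real.pi / 2 * C / Real.log Λ) ^ 2 * ∫ x, ‖φ x‖ ^ 2 / ‖x‖ ^ 2 := by
    intro α
    rw [← integral_finsetSum _ fun k _ => hint k α, ← integral_const_mul,
      ← integral_add (integrable_supercharge_sq G α hφ) (hH.const_mul _)]
    exact integral_mono (integrable_finsetSum _ fun k _ => hint k α)
      ((integrable_supercharge_sq G α hφ).add (hH.const_mul _)) (hpt α)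
  simp only [qf_one_zero]
  rw [← Finset.mul_sum, Finset.sum_comm]
  have h5 : ∑ α : Fin 16, ∑ k ∈ Finset.range (n + 1),
      ∫ x, ‖supercharge b M G α (fun y => J Λ k y • φ y) x‖ ^ 2 ≤
      ∑ α : Fin 16, ((∫ x, ‖supercharge b M G α φ x‖ ^ 2) +
        5 / 2 * (Real.pi / 2 * C / Real.log Λ) ^ 2 * ∫ x, ‖φ x‖ ^ 2 / ‖x‖ ^ 2) :=
    Finset.sum_le_sum fun α _ => hsum α
  rw [Finset.sum_add_distrib, Finset.sum_const, Finset.card_univ, Fintype.card_fin,
    nsmul_eq_mul] at h5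
  push_cast at h5
  linarith

/-- **S9-ANN.** Annulus Hardy inequalities at large coupling give the exterior Hardy
inequality. -/
theorem HI_of_ann {b : ColorBasis N} {M : FermionRep N F} {R : GaugeAction b M} {G : GammaNine}
    {κ κ' : ℝ} (hA : ∀ L, AnnHI b M R G κ' L) (hκ : κ < κ') : HI b M R G κ := by
  obtain ⟨C, hC0, hC⟩ := exists_sT_bound
  set δ : ℝ := 2 * (κ' - κ) / 5 with hδ
  have hδ0 : 0 < δ := by rw [hδ]; linarith
  set s : ℝ := 1 + (Real.pi / 2 * C) ^ 2 / δ with hs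
  have hs1 : 1 ≤ s := by
    have : 0 ≤ (Real.pi / 2 * C) ^ 2 / δ := by positivity
    rw [hs]; linarith
  set Λ : ℝ := Real.exp s with hΛdef
  have hΛ : 1 < Λ := by rw [hΛdef]; exact Real.one_lt_exp_iff.2 (by linarith)
  have hlog : Real.log Λ = s := by rw [hΛdef, Real.log_exp]
  have hB : 5 / 2 * (Real.pi / 2 * C / Real.log Λ) ^ 2 ≤ κ' - κ := by
    rw [hlog, div_pow]
    have h1 : (Real.pi / 2 * C) ^ 2 ≤ δ * s ^ 2 := by
      have h2 : (Real.pi / 2 * C) ^ 2 / δ ≤ s ^ 2 := by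
        have : (Real.pi / 2 * C) ^ 2 / δ ≤ s := by rw [hs]; linarith
        nlinarith
      rw [div_le_iff₀ hδ0] at h2
      linarith
    have h3 : (Real.pi / 2 * C) ^ 2 / s ^ 2 ≤ δ := by
      rw [div_le_iff₀ (by positivity)]
      exact h1
    rw [hδ] at h3
    linarith
  obtain ⟨g₀, hg⟩ := hA (Λ ^ 2)
  obtain ⟨k₀, hk₀⟩ := pow_unbounded_of_one_lt (max 1 g₀) hΛ
  refine ⟨Λ ^ (k₀ + 2), by positivity, fun φ hφ h0 => ?_⟩
  obtain ⟨r, hr⟩ := hφ.2.1.isBounded.exists_norm_le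
  obtain ⟨n, hn⟩ := pow_unbounded_of_one_lt r hΛ
  have hn' : ∀ x ∈ tsupport φ, ‖x‖ < Λ ^ n := fun x hx => (hr x hx).trans_lt hn
  have hsum := sum_qf_J (G := G) hΛ hC (R₀ := Λ ^ (k₀ + 2)) (by positivity) hφ h0 hn'
  have hH := integrable_hardy (R₀ := Λ ^ (k₀ + 2)) (by positivity) hφ.1.continuous hφ.2.1 h0
  have hk : ∀ k, κ' * ∫ x, ‖J Λ k x • φ x‖ ^ 2 / ‖x‖ ^ 2 ≤
      qf b M G 1 0 (fun x => J Λ k x • φ x) := by
    intro k
    have hzero : (∀ x, J Λ k x • φ x = 0) → κ' * ∫ x, ‖J Λ k x • φ x‖ ^ 2 / ‖x‖ ^ 2 ≤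
        qf b M G 1 0 (fun x => J Λ k x • φ x) := by
      intro h
      have h1 : (∫ x, ‖J Λ k x • φ x‖ ^ 2 / ‖x‖ ^ 2) = 0 := by
        simp [h]
      rw [h1, mul_zero]
      unfold qf
      have : 0 ≤ ∑ α : Fin 16, ∫ x, ‖dcharge b M G 1 0 α (fun x => J Λ k x • φ x) x‖ ^ 2 :=
        Finset.sum_nonneg fun α _ => integral_nonneg fun x => by positivity
      linarith
    cases k with
    | zero =>
      apply hzero
      intro x
      by_cases hx : ‖x‖ < Λ ^ (k₀ + 2)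
      · rw [h0 x hx, smul_zero]
      · push Not at hx
        rw [J_zero hΛ, zero_smul]
        calc Λ = Λ ^ 1 := (pow_one Λ).symm
          _ ≤ Λ ^ (k₀ + 2) := pow_le_pow_right₀ hΛ.le (by omega)
          _ ≤ ‖x‖ := hx
    | succ j =>
      by_cases hj : j < k₀
      · apply hzero
        intro x
        by_cases hx : ‖x‖ < Λ ^ (k₀ + 2)
        · rw [h0 x hx, smul_zero]
        · push Not at hx
          by_contra hcon
          have hJ : J Λ (j + 1) x ≠ 0 := fun h => hcon (by rw [h, zero_smul])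
          have h2 := (J_supp hΛ hJ).2
          have h3 : Λ ^ (j + 2) < Λ ^ (k₀ + 2) := pow_lt_pow_right₀ hΛ (by omega)
          linarith
      · push Not at hj
        have h1 : max 1 g₀ ≤ Λ ^ j := hk₀.le.trans (pow_le_pow_right₀ hΛ.le hj)
        have h2 : g₀ ≤ (Λ ^ j) ^ 3 := by
          have h3 : (1 : ℝ) ≤ Λ ^ j := (le_max_left _ _).trans h1
          have h4 : Λ ^ j ≤ (Λ ^ j) ^ 3 := le_self_pow₀ h3 (by norm_num)
          exact ((le_max_right _ _).trans h1).trans h4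
        refine ann_scaled hg (by positivity) h2
          (isCoreVec_mul (contDiff_J hΛ (j + 1)) (J_act b Λ (j + 1)) hφ) fun x hx => ?_
        have hJ : J Λ (j + 1) x ≠ 0 := fun h => hx (by
          show J Λ (j + 1) x • φ x = 0
          rw [h, zero_smul])
        have h3 := J_supp hΛ hJ
        refine ⟨h3.1, h3.2.trans_eq (by ring)⟩
  have hintk : ∀ k, Integrable fun x => ‖J Λ k x • φ x‖ ^ 2 / ‖x‖ ^ 2 := fun k =>
    integrable_hardy (R₀ := Λ ^ (k₀ + 2)) (by positivity)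
      ((contDiff_J hΛ k).continuous.smul hφ.1.continuous)
      (isCoreVec_mul (contDiff_J hΛ k) (J_act b Λ k) hφ).2.1
      (fun x hx => by rw [h0 x hx, smul_zero])
  have htot : ∑ k ∈ Finset.range (n + 1), ∫ x, ‖J Λ k x • φ x‖ ^ 2 / ‖x‖ ^ 2 =
      ∫ x, ‖φ x‖ ^ 2 / ‖x‖ ^ 2 := by
    rw [← integral_finsetSum _ fun k _ => hintk k]
    refine integral_congr_ae (Eventually.of_forall fun x => ?_)
    show ∑ k ∈ Finset.range (n + 1), ‖J Λ k x • φ x‖ ^ 2 / ‖x‖ ^ 2 = ‖φ x‖ ^ 2 / ‖x‖ ^ 2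
    by_cases hx : x ∈ tsupport φ
    · have h1 : ∑ k ∈ Finset.range (n + 1), J Λ k x ^ 2 = 1 := by
        rw [J_sum hΛ, ang_zero hΛ (hn' x hx).le]; simp
      simp only [norm_smul, mul_pow, Real.norm_eq_abs, sq_abs]
      rw [← Finset.sum_div, ← Finset.sum_mul, h1, one_mul]
    · rw [image_eq_zero_of_notMem_tsupport hx]
      simp
  have hfin : κ' * ∫ x, ‖φ x‖ ^ 2 / ‖x‖ ^ 2 ≤ qf b M G 1 0 φ +
      5 / 2 * (Real.pi / 2 * C / Real.log Λ) ^ 2 * ∫ x, ‖φ x‖ ^ 2 / ‖x‖ ^ 2 := by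
    refine le_trans (le_of_eq ?_) ((Finset.sum_le_sum fun k _ => hk k).trans hsum)
    rw [← htot, Finset.mul_sum]
  have hnn : 0 ≤ ∫ x, ‖φ x‖ ^ 2 / ‖x‖ ^ 2 := integral_nonneg fun x => by positivity
  nlinarith [mul_le_mul_of_nonneg_right hB hnn]

end Crest.Agent.R330.HIAnn245

end
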