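import Crest.Agent.R330.Cov_837
import Crest.Agent.R330.Defs_478

/-!
Row 330 (helper837): the shared charges `dcharge` (Defs_478) are instances of the general charges
`chargeW` with `W = wpot`; all general facts transported.
-/

set_option autoImplicit false
set_option linter.unusedSectionVars false
set_option linter.deprecated false

noncomputable section

namespace Crest.Agent.R330.Brid837

open MeasureTheory Filter Topology Crest.MathPhysics.MatrixQM
open scoped ContDiff InnerProductSpace ENNReal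
open Crest.Agent.R330.IBP837 Crest.Agent.R330.Cov837 Crest.Agent.R330.Defs478

variable {N : ℕ} {F : Type*} [NormedAddCommGroup F] [InnerProductSpace ℂ F]
  [FiniteDimensional ℂ F] {b : ColorBasis N} {M : FermionRep N F} {G : GammaNine} {g m : ℝ}
  {α : Fin 16} {φ ψ : Cfg N → F}

/-- the shared deformed charge is the general charge with coefficients `wpot` -/
theorem dcharge_eq (b : ColorBasis N) (M : FermionRep N F) (G : GammaNine) (g m : ℝ) (α : Fin 16)
    (φ : Cfg N → F) : dcharge b M G g m α φ = chargeW M G (wpot b G g m) α φ := by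
  funext x
  rw [chargeW_apply]
  unfold dcharge kin
  congr 1
  · rw [Fintype.sum_prod_type]
    refine Finset.sum_congr rfl fun i _ => Finset.sum_congr rfl fun A _ => ?_
    rw [dco_apply, Finset.smul_sum]
    refine Finset.sum_congr rfl fun β _ => ?_
    rw [smul_smul]
  · rw [vco_apply]

theorem wpot_eq (g m : ℝ) (α β : Fin 16) (A : Fin (N ^ 2 - 1)) (x : Cfg N) :
    wpot b G g m α β A x = g * wco b G α β A x +
      ∑ j : Fin 9, (-(m * cc j * (Gam G * G.γ j) α β)) * x (j, A) := by
  unfold wpot wco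
  rw [sub_eq_add_neg]
  congr 1
  rw [Finset.mul_sum, ← Finset.sum_neg_distrib]
  refine Finset.sum_congr rfl fun j _ => ?_
  ring

theorem wpot_contDiff {n : WithTop ℕ∞} (β : Fin 16) (A : Fin (N ^ 2 - 1)) :
    ContDiff ℝ n (wpot b G g m α β A) := by
  have h : wpot b G g m α β A = fun x => g * wco b G α β A x +
      ∑ j : Fin 9, (-(m * cc j * (Gam G * G.γ j) α β)) * x (j, A) :=
    funext fun x => wpot_eq g m α β A x
  rw [h]
  refine (contDiff_const.mul (wco_contDiff b G α β A)).add (ContDiff.sum fun j _ => ?_)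
  exact contDiff_const.mul (EuclideanSpace.proj (j, A) : Cfg N →L[ℝ] ℝ).contDiff

theorem isCov_wpot : IsCov b (wpot b G g m) := by
  have h : wpot b G g m = fun α β A x => (g * wco b G α β A x) +
      ∑ j : Fin 9, (-(m * cc j * (Gam G * G.γ j) α β)) * x (j, A) := by
    funext α β A x
    exact wpot_eq g m α β A x
  rw [h]
  exact isCov_add (isCov_const_mul (isCov_wco G) g)
    (isCov_lin fun α β j => -(m * cc j * (Gam G * G.γ j) α β))

theorem wpot_continuous (β : Fin 16) (A : Fin (N ^ 2 - 1)) : Continuous (wpot b G g m α β A) :=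
  (wpot_contDiff (n := 0) β A).continuous

theorem dcharge_sub (hφ : Differentiable ℝ φ) (hψ : Differentiable ℝ ψ) :
    dcharge b M G g m α (φ - ψ) = dcharge b M G g m α φ - dcharge b M G g m α ψ := by
  funext x
  simp only [dcharge_eq, Pi.sub_apply]
  exact chargeW_sub (hφ x) (hψ x)

theorem dcharge_neg : dcharge b M G g m α (-φ) = - dcharge b M G g m α φ := by
  funext x
  simp only [dcharge_eq, Pi.neg_apply]
  exact chargeW_neg

theorem dcharge_zero : dcharge b M G g m α (0 : Cfg N → F) = 0 := by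
  funext x
  simp only [dcharge_eq, Pi.zero_apply]
  exact chargeW_zero

theorem dcharge_leibniz {χ : Cfg N → ℝ} (hχ : Differentiable ℝ χ)
    (hφ : Differentiable ℝ φ) (x : Cfg N) :
    dcharge b M G g m α (fun y => χ y • φ y) x = χ x • dcharge b M G g m α φ x +
      ∑ k, (-Complex.I) • (fderiv ℝ χ x (EuclideanSpace.single k 1)) • dco M G α k (φ x) := by
  simp only [dcharge_eq]
  exact chargeW_leibniz (hχ x) (hφ x)

theorem tsupport_dcharge_subset : tsupport (dcharge b M G g m α φ) ⊆ tsupport φ := by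
  rw [dcharge_eq]; exact tsupport_chargeW_subset

theorem hasCompactSupport_dcharge (h : HasCompactSupport φ) :
    HasCompactSupport (dcharge b M G g m α φ) := by
  rw [dcharge_eq]; exact hasCompactSupport_chargeW h

theorem contDiff_dcharge (hφ : ContDiff ℝ ∞ φ) : ContDiff ℝ ∞ (dcharge b M G g m α φ) := by
  rw [dcharge_eq]
  exact contDiff_chargeW (fun β A => wpot_contDiff β A) hφ

theorem memLp_dcharge {p : ℝ≥0∞} (hφ : ContDiff ℝ 1 φ) (hc : HasCompactSupport φ) :
    MemLp (dcharge b M G g m α φ) p volume := by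
  rw [dcharge_eq]
  exact memLp_chargeW wpot_continuous hφ hc

theorem core_memLp_dcharge {R : GaugeAction b M} (h : IsCoreVec b R φ) {p : ℝ≥0∞} :
    MemLp (dcharge b M G g m α φ) p volume := memLp_dcharge (h.1.of_le (by norm_num)) h.2.1

/-- symmetry -/
theorem dcharge_symm (hφ : ContDiff ℝ 1 φ) (hψ : ContDiff ℝ 1 ψ)
    (hc : HasCompactSupport φ ∨ HasCompactSupport ψ) :
    ∫ x, ⟪dcharge b M G g m α φ x, ψ x⟫_ℂ = ∫ x, ⟪φ x, dcharge b M G g m α ψ x⟫_ℂ := by
  simp only [dcharge_eq]
  exact chargeW_symm wpot_continuous hφ hψ hc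

theorem dcharge_weak_of_limit {f : ℕ → Cfg N → F} {Φ Y : Cfg N → F}
    (hf : ∀ n, ContDiff ℝ 1 (f n)) (hc : ∀ n, HasCompactSupport (f n))
    (hΦ : MemLp Φ 2 volume) (hY : MemLp Y 2 volume)
    (h1 : Tendsto (fun n => eLpNorm (f n - Φ) 2 volume) atTop (𝓝 0))
    (h2 : Tendsto (fun n => eLpNorm (dcharge b M G g m α (f n) - Y) 2 volume) atTop (𝓝 0))
    (hψ : ContDiff ℝ 1 ψ) (hψc : HasCompactSupport ψ) :
    ∫ x, ⟪Y x, ψ x⟫_ℂ = ∫ x, ⟪Φ x, dcharge b M G g m α ψ x⟫_ℂ := by
  simp only [dcharge_eq] at h2 ⊢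
  exact chargeW_weak_of_limit wpot_continuous hf hc hΦ hY h1 h2 hψ hψc

theorem dcharge_closable {f : ℕ → Cfg N → F} {Y : Cfg N → F}
    (hf : ∀ n, ContDiff ℝ 1 (f n)) (hc : ∀ n, HasCompactSupport (f n))
    (hY : MemLp Y 2 volume)
    (h1 : Tendsto (fun n => eLpNorm (f n) 2 volume) atTop (𝓝 0))
    (h2 : Tendsto (fun n => eLpNorm (dcharge b M G g m α (f n) - Y) 2 volume) atTop (𝓝 0)) :
    Y =ᵐ[volume] 0 := by
  simp only [dcharge_eq] at h2
  exact chargeW_closable wpot_continuous hf hc hY h1 h2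

/-- elements of the kernel are weak solutions -/
theorem zset_weak {R : GaugeAction b M} {Ψ : Cfg N → F} (h : Ψ ∈ zset b M R G g m)
    (α : Fin 16) (hψ : ContDiff ℝ 1 ψ) (hψc : HasCompactSupport ψ) :
    ∫ x, ⟪Ψ x, dcharge b M G g m α ψ x⟫_ℂ = 0 := by
  obtain ⟨hΨ, f, hf, h1, h2⟩ := h
  have h3 := dcharge_weak_of_limit (b := b) (M := M) (G := G) (g := g) (m := m) (α := α)
    (fun n => (hf n).1.of_le (by norm_num)) (fun n => (hf n).2.1) hΨ
    (MemLp.zero : MemLp (0 : Cfg N → F) 2 volume) h1 (by simpa using h2 α) hψ hψc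
  rw [← h3]
  simp

/-- gauge covariance -/
theorem dcharge_tg (R : GaugeAction b M) (h : Matrix.specialUnitaryGroup (Fin N) ℂ)
    (hφ : Differentiable ℝ φ) :
    dcharge b M G g m α (tg R h φ) = tg R h (dcharge b M G g m α φ) := by
  rw [dcharge_eq, dcharge_eq]
  exact chargeW_tg R h isCov_wpot α hφ

/-- the charges map core vectors to core vectors -/
theorem core_dcharge {R : GaugeAction b M} (hφ : IsCoreVec b R φ) :
    IsCoreVec b R (dcharge b M G g m α φ) := by
  rw [dcharge_eq]
  exact core_chargeW isCov_wpot α (fun β A => wpot_contDiff β A) hφ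

end Crest.Agent.R330.Brid837
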