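import Crest.Agent.R330.Top_478
import Crest.Agent.R330.Brid_837
import Crest.Agent.R330.CoerCfg_87

/-!
# Row 330, section 5 (WEAK): frozen literal statements (helper798, closer of S5)

* `IsVacCfg b c` : `c` is a zero of the potential at `g = m = 1`.
* `OrbitList b c` : `c : Nat.Partition N → Cfg N` lists the orbits of zeros without repetition.
* `wlin`, `lcharge` : the linearised charges at a vacuum configuration `c`;
  `wpot_shift` : `wpot g 1 (g⁻¹ c + u) = wlin c u + g wpot 1 0 u`.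
* `brk b om x` : the gauge direction `[om, x]`.
* `gau A Ω` : the function `exp(-⟨u, A u⟩/2) Ω`.
* `VacPack b M R G c A Ω` : everything needed about one vacuum.
* `Trial N`, `Lower N`, `Upper N`; `weak_of : Lower N → Upper N → Weak N`.
-/

set_option autoImplicit false
set_option linter.unusedSectionVars false

open MeasureTheory Filter Topology Crest.MathPhysics.MatrixQM
open scoped ContDiff InnerProductSpace ENNReal Cardinal

noncomputable section

namespace Crest.Agent.R330.S5Defs798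

open Crest.Agent.R330.Defs478 Crest.Agent.R330.Top478 Crest.Agent.R330.CoerCfg87

variable {N : ℕ} {F : Type*} [NormedAddCommGroup F] [InnerProductSpace ℂ F]

/-! ## vacua -/

/-- zeros of the potential at `g = m = 1` -/
def IsVacCfg (b : ColorBasis N) (c : Cfg N) : Prop := Vcyc b 1 1 c = 0 ∧ Vhi c = 0

/-- the list of the orbits of zeros -/
structure OrbitList (b : ColorBasis N) (c : Nat.Partition N → Cfg N) : Prop where
  vac : ∀ l, IsVacCfg b (c l)
  all : ∀ x, IsVacCfg b x → ∃ l h, x = b.act h (c l)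
  inj : ∀ l l' h, b.act h (c l) = c l' → l = l'

/-- LEAF S5a1 -/
def OrbitsProp (N : ℕ) : Prop := ∀ b : ColorBasis N, ∃ c, OrbitList b c

/-- LEAF S5a1': the zeros of the potential are the zeros of all coefficients `wpot 1 1` -/
def VacWpot (N : ℕ) : Prop := ∀ (b : ColorBasis N) (G : GammaNine) (c : Cfg N),
  IsVacCfg b c ↔ ∀ α β A, wpot b G 1 1 α β A c = 0

/-! ## linearised charges -/

/-- linear part of the potential coefficients at `c` -/
def wlin (b : ColorBasis N) (G : GammaNine) (c : Cfg N) (α β : Fin 16) (A : Fin (N ^ 2 - 1))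
    (u : Cfg N) : ℝ :=
  wpot b G 1 1 α β A (c + u) - wpot b G 1 1 α β A c - wpot b G 1 0 α β A u

/-- linearised charges at `c` -/
def lcharge (b : ColorBasis N) (M : FermionRep N F) (G : GammaNine) (c : Cfg N) (α : Fin 16)
    (φ : Cfg N → F) (x : Cfg N) : F :=
  kin M G α φ x + ∑ A : Fin (N ^ 2 - 1), ∑ β : Fin 16,
    ((wlin b G c α β A x : ℝ) : ℂ) • M.θ β A (φ x)

/-- explicit form of the linear part -/
theorem wlin_eq (b : ColorBasis N) (G : GammaNine) (c : Cfg N) (α β : Fin 16)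
    (A : Fin (N ^ 2 - 1)) (u : Cfg N) :
    wlin b G c α β A u =
      (∑ B : Fin (N ^ 2 - 1), ∑ C : Fin (N ^ 2 - 1), ∑ i : Fin 9, ∑ j : Fin 9,
        1 / 2 * b.structConst A B C * (c (i, B) * u (j, C) + u (i, B) * c (j, C)) * G.γ2 i j α β)
      - ∑ j : Fin 9, cc j * u (j, A) * (Gam G * G.γ j) α β := by
  unfold wlin wpot
  simp only [one_mul, zero_mul, sub_zero, PiLp.add_apply]
  have h1 : ∀ B C : Fin (N ^ 2 - 1), ∀ i j : Fin 9,
      1 / 2 * b.structConst A B C * (c (i, B) + u (i, B)) * (c (j, C) + u (j, C)) * G.γ2 i j α β =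
      1 / 2 * b.structConst A B C * c (i, B) * c (j, C) * G.γ2 i j α β +
      1 / 2 * b.structConst A B C * (c (i, B) * u (j, C) + u (i, B) * c (j, C)) * G.γ2 i j α β +
      1 / 2 * b.structConst A B C * u (i, B) * u (j, C) * G.γ2 i j α β := by
    intro B C i j; ring
  have h2 : ∀ j : Fin 9, cc j * (c (j, A) + u (j, A)) * (Gam G * G.γ j) α β =
      cc j * c (j, A) * (Gam G * G.γ j) α β + cc j * u (j, A) * (Gam G * G.γ j) α β := by
    intro j; ring
  simp only [h1, h2, Finset.sum_add_distrib]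
  ring

/-- shifting the origin to the vacuum `g⁻¹ c` -/
theorem wpot_shift (b : ColorBasis N) (G : GammaNine) {c : Cfg N} {α β : Fin 16}
    {A : Fin (N ^ 2 - 1)} (hc : wpot b G 1 1 α β A c = 0) {g : ℝ} (hg : g ≠ 0) (u : Cfg N) :
    wpot b G g 1 α β A (g⁻¹ • c + u) = wlin b G c α β A u + g * wpot b G 1 0 α β A u := by
  rw [wlin_eq]
  unfold wpot at hc ⊢
  simp only [one_mul, zero_mul, sub_zero, PiLp.add_apply, PiLp.smul_apply, smul_eq_mul] at hc ⊢
  have h1 : ∀ B C : Fin (N ^ 2 - 1), ∀ i j : Fin 9,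
      1 / 2 * b.structConst A B C * (g⁻¹ * c (i, B) + u (i, B)) * (g⁻¹ * c (j, C) + u (j, C)) *
        G.γ2 i j α β =
      g⁻¹ * g⁻¹ * (1 / 2 * b.structConst A B C * c (i, B) * c (j, C) * G.γ2 i j α β) +
      g⁻¹ * (1 / 2 * b.structConst A B C * (c (i, B) * u (j, C) + u (i, B) * c (j, C)) *
        G.γ2 i j α β) +
      1 / 2 * b.structConst A B C * u (i, B) * u (j, C) * G.γ2 i j α β := by
    intro B C i j; ring
  have h2 : ∀ j : Fin 9, cc j * (g⁻¹ * c (j, A) + u (j, A)) * (Gam G * G.γ j) α β =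
      g⁻¹ * (cc j * c (j, A) * (Gam G * G.γ j) α β) + cc j * u (j, A) * (Gam G * G.γ j) α β := by
    intro j; ring
  simp only [h1, h2, Finset.sum_add_distrib, ← Finset.mul_sum]
  have h3 : (∑ B : Fin (N ^ 2 - 1), ∑ C : Fin (N ^ 2 - 1), ∑ i : Fin 9, ∑ j : Fin 9,
      1 / 2 * b.structConst A B C * c (i, B) * c (j, C) * G.γ2 i j α β) =
      ∑ j : Fin 9, cc j * c (j, A) * (Gam G * G.γ j) α β := by linarith
  rw [h3]
  field_simp
  ring

/-! ## gauge directions and the local vacuum -/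

/-- the gauge direction `[om, x]` -/
def brk (b : ColorBasis N) (om : Fin (N ^ 2 - 1) → ℝ) (x : Cfg N) : Cfg N :=
  WithLp.toLp 2 fun iA => br b om (comp x iA.1) iA.2

/-- the Gaussian times a spinor -/
def gau (A : Cfg N →ₗ[ℝ] Cfg N) (Ω : F) (u : Cfg N) : F :=
  Real.exp (-(1 / 2) * ⟪u, A u⟫_ℝ) • Ω

/-- everything needed about one vacuum `c` -/
structure VacPack [FiniteDimensional ℂ F] (b : ColorBasis N) (M : FermionRep N F)
    (R : GaugeAction b M) (G : GammaNine) (c : Cfg N) (A : Cfg N →ₗ[ℝ] Cfg N) (Ω : F) : Prop where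
  symm : ∀ u v, ⟪A u, v⟫_ℝ = ⟪u, A v⟫_ℝ
  pos : ∀ u, 0 ≤ ⟪u, A u⟫_ℝ
  ker : ∀ u, A u = 0 ↔ ∃ om, u = brk b om c
  inv : ∀ h, b.act h c = c → ∀ u, A (b.act h u) = b.act h (A u)
  unit : ‖Ω‖ = 1
  neut : ∀ h, b.act h c = c → R.ρ h Ω = Ω
  kill : ∀ α x, lcharge b M G c α (gau A Ω) x = 0

/-- LEAF S5c : a vacuum package at every vacuum configuration -/
def VacPackProp (N : ℕ) : Prop :=
  ∀ (F : Type) [NormedAddCommGroup F] [InnerProductSpace ℂ F] [FiniteDimensional ℂ F]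
    [Nontrivial F] (b : ColorBasis N) (M : FermionRep N F) (R : GaugeAction b M) (G : GammaNine)
    (c : Cfg N), IsVacCfg b c → ∃ A Ω, VacPack b M R G c A Ω

/-- LEAF S5-LIOUVILLE : the weak zero modes of the linearised charges which are constant along the
gauge directions and have moderate growth are multiples of the vacuum. -/
def LiouvilleProp (N : ℕ) : Prop :=
  ∀ (F : Type) [NormedAddCommGroup F] [InnerProductSpace ℂ F] [FiniteDimensional ℂ F]
    [Nontrivial F] (b : ColorBasis N) (M : FermionRep N F) (R : GaugeAction b M) (G : GammaNine)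
    (c : Cfg N) (A : Cfg N →ₗ[ℝ] Cfg N) (Ω : F), IsVacCfg b c → VacPack b M R G c A Ω →
    ∀ f : Cfg N → F, AEStronglyMeasurable f volume →
      (∫⁻ x, ENNReal.ofReal (Real.exp (-2 * ‖x‖)) * ‖f x‖ₑ ^ 2 < ⊤) →
      (∀ ψ : Cfg N → F, ContDiff ℝ ∞ ψ → HasCompactSupport ψ →
        ∀ α, ∫ x, ⟪f x, lcharge b M G c α ψ x⟫_ℂ = 0) →
      (∀ ψ : Cfg N → F, ContDiff ℝ ∞ ψ → HasCompactSupport ψ →
        ∀ om, ∫ x, ⟪f x, fderiv ℝ ψ x (brk b om c)⟫_ℂ = 0) →
      ∃ k : ℂ, f =ᵐ[volume] fun x => k • gau A Ω x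

/-! ## outputs -/

/-- LEAF S5e : trial states -/
def Trial (N : ℕ) : Prop :=
  ∀ (F : Type) [NormedAddCommGroup F] [InnerProductSpace ℂ F] [FiniteDimensional ℂ F]
    [Nontrivial F] (b : ColorBasis N) (M : FermionRep N F) (R : GaugeAction b M) (G : GammaNine)
    (ε : ℝ), 0 < ε → ∃ g₀ : ℝ, 0 < g₀ ∧ ∀ g : ℝ, 0 < g → g < g₀ →
      ∃ φ : Nat.Partition N → Cfg N → F, (∀ l, IsCoreVec b R (φ l)) ∧
        (∀ l, 0 < ∫ x, ‖φ l x‖ ^ 2) ∧
        (∀ l, qf b M G g 1 (φ l) ≤ ε * ∫ x, ‖φ l x‖ ^ 2) ∧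
        ∀ l l', l ≠ l' → Disjoint (tsupport (φ l)) (tsupport (φ l'))

/-- `p(N) ≤ dim ker` for small coupling -/
def Lower (N : ℕ) : Prop :=
  ∀ (F : Type) [NormedAddCommGroup F] [InnerProductSpace ℂ F] [FiniteDimensional ℂ F]
    [Nontrivial F] (b : ColorBasis N) (M : FermionRep N F) (R : GaugeAction b M) (G : GammaNine),
    ∃ g₀ : ℝ, 0 < g₀ ∧ ∀ g : ℝ, 0 < g → g < g₀ →
      (pN N : Cardinal) ≤ Module.rank ℂ (zker b M R G g 1)

/-- `dim ker ≤ p(N)` for small coupling -/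
def Upper (N : ℕ) : Prop :=
  ∀ (F : Type) [NormedAddCommGroup F] [InnerProductSpace ℂ F] [FiniteDimensional ℂ F]
    [Nontrivial F] (b : ColorBasis N) (M : FermionRep N F) (R : GaugeAction b M) (G : GammaNine),
    ∃ g₀ : ℝ, 0 < g₀ ∧ ∀ g : ℝ, 0 < g → g < g₀ →
      Module.rank ℂ (zker b M R G g 1) ≤ (pN N : Cardinal)

theorem weak_of {N : ℕ} (hL : Lower N) (hU : Upper N) : Weak N := by
  intro F _ _ _ _ b M R G
  obtain ⟨g₀, h0, hL⟩ := hL F b M R G
  obtain ⟨g₁, h1, hU⟩ := hU F b M R G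
  exact ⟨min g₀ g₁, lt_min h0 h1, fun g hg hg' =>
    le_antisymm (hU g hg (hg'.trans_le (min_le_right _ _)))
      (hL g hg (hg'.trans_le (min_le_left _ _)))⟩

end Crest.Agent.R330.S5Defs798

end
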