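import Crest.Agent.R330.SInd_478
import Crest.Agent.R330.S5Defs_798
import Crest.Agent.R330.Const_416
import Crest.Agent.R330.HIAnn_245

/-!
# Row 330: S0512 from the open section outputs (helper478, closer of section 12)

* `Below N` : `SInd k` for all `1 ≤ k < N`.
* `AnnHIAll N`, `HIAll N` : annulus and exterior Hardy inequality with every constant below `49/8`.
* `DecayAll N`, `HardyAll N` : decay, global Hardy inequality (section 9, end).
* `EvenAll N` : all zero states are even.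
* `StepIn N` : the list of the open inputs; `dim1_all`, `s0512_of`.
-/

set_option autoImplicit false

open MeasureTheory Filter Topology Crest.MathPhysics.MatrixQM
open scoped ContDiff InnerProductSpace ENNReal

noncomputable section

namespace Crest.Agent.R330.Close478

open Crest.Agent.R330.Defs478 Crest.Agent.R330.Top478 Crest.Agent.R330.Sec478
  Crest.Agent.R330.SInd478

/-- The induction hypothesis. -/
def Below (N : ℕ) : Prop := ∀ k, 1 ≤ k → k < N → SInd k

/-- Exterior Hardy inequality for all data and all constants below `49/8`. -/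
def HIAll (N : ℕ) : Prop :=
  ∀ (F : Type) [NormedAddCommGroup F] [InnerProductSpace ℂ F] [FiniteDimensional ℂ F]
    [Nontrivial F] (b : ColorBasis N) (M : FermionRep N F) (R : GaugeAction b M) (G : GammaNine)
    (κ : ℝ), κ < 49 / 8 → HIAnn245.HI b M R G κ

/-- Annulus Hardy inequality at large coupling for all data and all constants below `49/8`. -/
def AnnHIAll (N : ℕ) : Prop :=
  ∀ (F : Type) [NormedAddCommGroup F] [InnerProductSpace ℂ F] [FiniteDimensional ℂ F]
    [Nontrivial F] (b : ColorBasis N) (M : FermionRep N F) (R : GaugeAction b M) (G : GammaNine)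
    (κ : ℝ), κ < 49 / 8 → ∀ L, HIAnn245.AnnHI b M R G κ L

theorem hiAll_of_ann {N : ℕ} (h : AnnHIAll N) : HIAll N := by
  intro F _ _ _ _ b M R G κ hκ
  obtain ⟨κ', h1, h2⟩ := exists_between hκ
  exact HIAnn245.HI_of_ann (h F b M R G κ' h2) h1

/-- All zero states are even. -/
def EvenAll (N : ℕ) : Prop :=
  ∀ (F : Type) [NormedAddCommGroup F] [InnerProductSpace ℂ F] [FiniteDimensional ℂ F]
    [Nontrivial F] (b : ColorBasis N) (M : FermionRep N F) (R : GaugeAction b M) (G : GammaNine),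
    ∀ ψ ∈ zset b M R G 1 0, ∀ P : F →ₗ[ℂ] F, IsParity M G P → ∀ᵐ x, P (ψ x) = ψ x

/-- Decay of the zero states. -/
def DecayAll (N : ℕ) : Prop :=
  ∀ (F : Type) [NormedAddCommGroup F] [InnerProductSpace ℂ F] [FiniteDimensional ℂ F]
    [Nontrivial F] (b : ColorBasis N) (M : FermionRep N F) (R : GaugeAction b M) (G : GammaNine),
    ∀ ψ ∈ zset b M R G 1 0, ∀ s : ℝ, 0 ≤ s → s < 5 / 2 →
      Integrable fun x => ‖x‖ ^ (2 * s) * ‖ψ x‖ ^ 2

/-- Global Hardy inequality with the projection on the line of a unit vector. -/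
def HardyAll (N : ℕ) : Prop :=
  ∀ (F : Type) [NormedAddCommGroup F] [InnerProductSpace ℂ F] [FiniteDimensional ℂ F]
    [Nontrivial F] (b : ColorBasis N) (M : FermionRep N F) (R : GaugeAction b M) (G : GammaNine),
    ∀ ψ ∈ zset b M R G 1 0, ∫ x, ‖ψ x‖ ^ 2 = 1 →
      (∀ φ ∈ zset b M R G 1 0, φ =ᵐ[volume] fun x => (∫ y, ⟪ψ y, φ y⟫_ℂ) • ψ x) →
      ∃ c : ℝ, 0 < c ∧ ∀ φ : Cfg N → F, IsCoreVec b R φ →
        c * ∫ x, (1 + ‖x‖ ^ 2)⁻¹ * ‖φ x - (∫ y, ⟪ψ y, φ y⟫_ℂ) • ψ x‖ ^ 2 ≤ qf b M G 1 0 φ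

/-- The open inputs for `N` colours. -/
structure StepIn (N : ℕ) : Prop where
  gap : GapAll N
  l42 : Const416.L42All N
  low : S5Defs798.Lower N
  up : S5Defs798.Upper N
  dlow : Below N → DLow N
  dup : Below N → DUp N
  ann : Below N → AnnHIAll N
  decay : HIAll N → DecayAll N
  hardy : HIAll N → HardyAll N
  even : Below N → EvenAll N

/-- A normalised spanning zero state from `Dim1`. -/
theorem exists_line {N : ℕ} {F : Type*} [NormedAddCommGroup F] [InnerProductSpace ℂ F]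
    [FiniteDimensional ℂ F] {b : ColorBasis N} {M : FermionRep N F} {R : GaugeAction b M}
    {G : GammaNine} (h : HasDim b M R G 1 0 1) :
    ∃ ψ ∈ zset b M R G 1 0, ∫ x, ‖ψ x‖ ^ 2 = 1 ∧
      ∀ φ ∈ zset b M R G 1 0, φ =ᵐ[volume] fun x => (∫ y, ⟪ψ y, φ y⟫_ℂ) • ψ x := by
  obtain ⟨Ψ, hΨ, h0, hl⟩ := line_of_hasDim h
  rw [← zset_one_zero] at hΨ hl
  have hΨ2 : MemLp Ψ 2 volume := hΨ.1
  have hI : Integrable fun x => ‖Ψ x‖ ^ 2 := hΨ2.integrable_norm_pow (by norm_num)
  set n : ℝ := ∫ x, ‖Ψ x‖ ^ 2 with hn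
  have hn0 : 0 < n := by
    refine lt_of_le_of_ne (integral_nonneg fun x => sq_nonneg _) fun h1 => h0 ?_
    have h2 := (integral_eq_zero_iff_of_nonneg (fun x => sq_nonneg ‖Ψ x‖) hI).1 (hn ▸ h1.symm)
    filter_upwards [h2] with x hx
    have h3 : ‖Ψ x‖ ^ 2 = 0 := hx
    simpa using h3
  set a : ℝ := (Real.sqrt n)⁻¹ with ha
  have hs : 0 < Real.sqrt n := Real.sqrt_pos.2 hn0
  have ha0 : 0 < a := inv_pos.2 hs
  have ha2 : a ^ 2 * n = 1 := by
    rw [ha, inv_pow, Real.sq_sqrt hn0.le, inv_mul_cancel₀ hn0.ne']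
  refine ⟨(a : ℂ) • Ψ, zset_smul _ hΨ, ?_, fun φ hφ => ?_⟩
  · have h1 : ∀ x, ‖((a : ℂ) • Ψ) x‖ ^ 2 = a ^ 2 * ‖Ψ x‖ ^ 2 := fun x => by
      rw [Pi.smul_apply, norm_smul, mul_pow]
      simp
    simp only [h1, integral_const_mul]
    exact ha2
  · obtain ⟨c, hc⟩ := hl φ hφ
    have h1 : ∫ y, ⟪((a : ℂ) • Ψ) y, φ y⟫_ℂ = (a : ℂ) * c * n := by
      have h2 : (fun y => ⟪((a : ℂ) • Ψ) y, φ y⟫_ℂ) =ᵐ[volume]
          fun y => (a : ℂ) * c * ((‖Ψ y‖ ^ 2 : ℝ) : ℂ) := by
        filter_upwards [hc] with y hy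
        rw [hy, Pi.smul_apply, Pi.smul_apply, inner_smul_left, inner_smul_right,
          inner_self_eq_norm_sq_to_K]
        simp [mul_assoc]
      rw [integral_congr_ae h2, integral_const_mul, integral_complex_ofReal]
    rw [h1]
    filter_upwards [hc] with x hx
    rw [hx, Pi.smul_apply, Pi.smul_apply, smul_smul]
    congr 1
    have h3 : ((a ^ 2 * n : ℝ) : ℂ) = 1 := by rw [ha2]; simp
    push_cast at h3
    calc c = c * 1 := (mul_one c).symm
      _ = (a : ℂ) * c * n * a := by rw [← h3]; ring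

/-- `SInd N` from its parts. -/
theorem sInd_of {N : ℕ} (h1 : Dim1 N) (hd : DecayAll N) (hh : HardyAll N) (he : EvenAll N) :
    SInd N := by
  intro F _ _ _ _ b M R G
  obtain ⟨ψ, hψ, hn, hl⟩ := exists_line (h1 F b M R G)
  exact ⟨ψ, hψ, hn, hl, hd F b M R G ψ hψ, hh F b M R G ψ hψ hn hl, he F b M R G ψ hψ⟩

/-- **The induction.** -/
theorem dim1_all (h : ∀ N, 2 ≤ N → StepIn N) : ∀ N, 2 ≤ N → Dim1 N ∧ SInd N := by
  intro N
  induction N using Nat.strong_induction_on with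
  | _ N ih =>
    intro hN
    have hB : Below N := fun k hk hkN => by
      rcases Nat.lt_or_ge 1 k with h1 | h1
      · exact (ih k hkN h1).2
      · obtain rfl : k = 1 := le_antisymm h1 hk
        exact sInd_one
    have hs := h N hN
    have hW : Weak N := S5Defs798.weak_of hs.low hs.up
    have hC : ConstZ N := Const416.constZ_of hW (Const416.gapUnif_of_gapAll hs.gap) hs.l42
    have h1 : Dim1 N := dim1_of_sections hW hC (hs.dlow hB) (hs.dup hB)
    have h2 := hiAll_of_ann (hs.ann hB)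
    exact ⟨h1, sInd_of h1 (hs.decay h2) (hs.hardy h2) (hs.even hB)⟩

/-- **The statement of S0512** from the open inputs. -/
theorem s0512_of (h : ∀ N, 2 ≤ N → StepIn N) {N : ℕ} (hN : 2 ≤ N) (F : Type)
    [NormedAddCommGroup F] [InnerProductSpace ℂ F] [FiniteDimensional ℂ F] [Nontrivial F]
    (b : ColorBasis N) (M : FermionRep N F) (R : GaugeAction b M) (G : GammaNine) :
    ∃ Ψ₀ ∈ zeroEnergyStates b M R G, ¬ (Ψ₀ =ᵐ[volume] 0) ∧
      ∀ Ψ ∈ zeroEnergyStates b M R G, ∃ c : ℂ, Ψ =ᵐ[volume] c • Ψ₀ :=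
  s0512_of_dim1 (dim1_all h N hN).1 F b M R G

end Crest.Agent.R330.Close478

end
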