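import Crest.Agent.R330.FA2_416

/-!
# Row 330 (helper416): gap on a core with sectors

* `dense_of_weak` : `(ι + A) V` is dense in the closure of `ι V` if no vector of the closure is
  orthogonal to it (weak = strong).
* `gap_of_core_closure` : the gap from `‖A φ‖² ≥ δ ‖Q φ‖²`, density only in the closure of `ι V`.
* `gap_of_sectors` : a symmetric idempotent `p` of the core commuting with `A` ; inequality
  `‖A φ‖² ≥ δ ‖Q φ‖²` on the range of `p`, inequality `‖Q φ‖² ≥ δ ‖ι φ‖²` on the range of `1 - p`.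
-/

set_option autoImplicit false
set_option linter.unusedSectionVars false

open Filter Topology Set
open scoped InnerProductSpace

noncomputable section

namespace Crest.Agent.R330.FA416

variable {V H H' : Type*} [AddCommGroup V] [Module ℂ V]
  [NormedAddCommGroup H] [InnerProductSpace ℂ H]
  [NormedAddCommGroup H'] [InnerProductSpace ℂ H']
  {ι : V →ₗ[ℂ] H} {Q : V →ₗ[ℂ] H'}

/-- The closure of the core in the Hilbert space. -/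
def clo (ι : V →ₗ[ℂ] H) : Submodule ℂ H := (LinearMap.range ι).topologicalClosure

theorem isClosed_clo (ι : V →ₗ[ℂ] H) : IsClosed (clo ι : Set H) :=
  Submodule.isClosed_topologicalClosure _

theorem mem_clo (φ : V) : ι φ ∈ clo ι :=
  Submodule.le_topologicalClosure _ ⟨φ, rfl⟩

theorem mem_clo_iff {x : H} : x ∈ clo ι ↔ ∃ φ : ℕ → V, Tendsto (fun n => ι (φ n)) atTop (𝓝 x) := by
  unfold clo
  rw [← SetLike.mem_coe, Submodule.topologicalClosure_coe, mem_closure_iff_seq_limit]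
  constructor
  · rintro ⟨y, hy, hlim⟩
    choose φ hφ using hy
    exact ⟨φ, by simpa only [hφ] using hlim⟩
  · rintro ⟨φ, h⟩
    exact ⟨fun n => ι (φ n), fun n => ⟨φ n, rfl⟩, h⟩

theorem kerF_le_clo : kerF ι Q ≤ clo ι := fun Ψ hΨ => by
  obtain ⟨φ, h1, -⟩ := mem_kerF.1 hΨ
  exact mem_clo_iff.2 ⟨φ, h1⟩

/-- **Weak = strong gives density**: `T : V → clo ι`-valued. -/
theorem dense_of_weak [CompleteSpace H] (T : V →ₗ[ℂ] H) (hT : ∀ φ, T φ ∈ clo ι)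
    (h : ∀ χ ∈ clo ι, (∀ φ, ⟪χ, T φ⟫_ℂ = 0) → χ = 0) (x : H) (hx : x ∈ clo ι) :
    x ∈ clo T := by
  have : CompleteSpace (clo T) := (isClosed_clo T).completeSpace_coe
  have hle : clo T ≤ clo ι := by
    unfold clo
    refine Submodule.topologicalClosure_minimal _ ?_ (Submodule.isClosed_topologicalClosure _)
    rintro y ⟨φ, rfl⟩
    exact hT φ
  obtain ⟨y, hy, z, hz, hyz⟩ := (clo T).exists_add_mem_mem_orthogonal x
  have h1 : z ∈ clo ι := by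
    have : z = x - y := by rw [hyz]; abel
    rw [this]
    exact sub_mem hx (hle hy)
  have h2 : z = 0 := h z h1 fun φ => by
    have h3 := hz (T φ) (mem_clo φ)
    rw [← inner_conj_symm, h3, map_zero]
  rw [hyz, h2, add_zero]
  exact hy

/-- The core as a map into its closure. -/
def ιc (ι : V →ₗ[ℂ] H) : V →ₗ[ℂ] clo ι := ι.codRestrict (clo ι) mem_clo

theorem coe_ιc (φ : V) : ((ιc ι φ : clo ι) : H) = ι φ := rfl

theorem kerF_ιc (x : clo ι) : x ∈ kerF (ιc ι) Q ↔ (x : H) ∈ kerF ι Q := by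
  rw [mem_kerF, mem_kerF]
  constructor
  · rintro ⟨φ, h1, h2⟩
    exact ⟨φ, (continuous_subtype_val.tendsto _).comp h1, h2⟩
  · rintro ⟨φ, h1, h2⟩
    exact ⟨φ, tendsto_subtype_rng.2 h1, h2⟩

theorem Gap.of_ιc {δ : ℝ} (h : Gap (ιc ι) Q δ) : Gap ι Q δ := fun φ => by
  obtain ⟨ψ, h1, h2⟩ := h φ
  exact ⟨ψ, (kerF_ιc ψ).1 h1, h2⟩

/-- **Gap from the inequality on the core**, density in the closure of the core. -/
theorem gap_of_core_closure [CompleteSpace H] (A : V →ₗ[ℂ] H) (hAc : ∀ φ, A φ ∈ clo ι)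
    (hA : ∀ φ ψ, ⟪Q φ, Q ψ⟫_ℂ = ⟪A φ, ι ψ⟫_ℂ) (hd : ∀ x ∈ clo ι, x ∈ clo (ι + A)) {δ : ℝ}
    (hδ : ∀ φ, δ * ‖Q φ‖ ^ 2 ≤ ‖A φ‖ ^ 2) : Gap ι Q δ := by
  have : CompleteSpace (clo ι) := (isClosed_clo ι).completeSpace_coe
  set A' : V →ₗ[ℂ] clo ι := A.codRestrict (clo ι) hAc with hA'
  have hcoe : ∀ φ, ((A' φ : clo ι) : H) = A φ := fun φ => rfl
  refine Gap.of_ιc (gap_of_core (ι := ιc ι) A' (fun φ ψ => ?_) ?_ fun φ => ?_)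
  · rw [hA, Submodule.coe_inner]
    rfl
  · intro x
    obtain ⟨φ, hφ⟩ := mem_clo_iff.1 (hd x x.2)
    rw [mem_closure_iff_seq_limit]
    refine ⟨fun n => (ιc ι + A') (φ n), fun n => ⟨φ n, rfl⟩, tendsto_subtype_rng.2 ?_⟩
    exact hφ
  · have h1 := hδ φ
    rwa [← hcoe] at h1

/-- **Gap with sectors**. -/
theorem gap_of_sectors [CompleteSpace H] (A : V →ₗ[ℂ] V)
    (hA : ∀ φ ψ, ⟪Q φ, Q ψ⟫_ℂ = ⟪ι (A φ), ι ψ⟫_ℂ)
    (hd : ∀ φ, ι φ ∈ clo (ι + ι ∘ₗ A))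
    (p : V →ₗ[ℂ] V) (hpp : ∀ φ, p (p φ) = p φ) (hpA : ∀ φ, p (A φ) = A (p φ))
    (hps : ∀ φ ψ, ⟪ι (p φ), ι ψ⟫_ℂ = ⟪ι φ, ι (p ψ)⟫_ℂ) {δ : ℝ}
    (h1 : ∀ φ, δ * ‖Q (p φ)‖ ^ 2 ≤ ‖ι (A (p φ))‖ ^ 2)
    (h2 : ∀ φ, δ * ‖ι (φ - p φ)‖ ^ 2 ≤ ‖Q (φ - p φ)‖ ^ 2) : Gap ι Q δ := by
  -- the sector
  set V₀ : Submodule ℂ V := LinearMap.range p with hV₀
  have hfix : ∀ φ ∈ V₀, p φ = φ := by
    rintro φ ⟨χ, rfl⟩
    exact hpp χ
  set ι₀ : V₀ →ₗ[ℂ] H := ι ∘ₗ V₀.subtype with hι₀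
  set Q₀ : V₀ →ₗ[ℂ] H' := Q ∘ₗ V₀.subtype with hQ₀
  have hAV : ∀ φ ∈ V₀, A φ ∈ V₀ := by
    rintro φ hφ
    exact ⟨A φ, by rw [hpA, hfix φ hφ]⟩
  set A₀ : V₀ →ₗ[ℂ] H := (ι ∘ₗ A) ∘ₗ V₀.subtype with hA₀
  -- contraction
  have hcon : ∀ φ, ‖ι (p φ)‖ ≤ ‖ι φ‖ := fun φ => by
    have h3 : ‖ι (p φ)‖ ^ 2 = (⟪ι φ, ι (p φ)⟫_ℂ).re := by
      have h5 : ⟪ι (p φ), ι (p φ)⟫_ℂ = ⟪ι φ, ι (p φ)⟫_ℂ := by rw [hps, hpp]
      rw [← h5, inner_self_eq_norm_sq_to_K]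
      norm_cast
    have h4 : ‖ι (p φ)‖ ^ 2 ≤ ‖ι φ‖ * ‖ι (p φ)‖ := by
      rw [h3]
      exact (Complex.re_le_norm _).trans (norm_inner_le_norm _ _)
    rcases eq_or_lt_of_le (norm_nonneg (ι (p φ))) with h0 | h0
    · rw [← h0]
      exact norm_nonneg _
    · rw [sq] at h4
      exact le_of_mul_le_mul_right h4 h0
  have hgap₀ : Gap ι₀ Q₀ δ := by
    refine gap_of_core_closure A₀ ?_ ?_ ?_ ?_
    · rintro ⟨φ, hφ⟩
      exact mem_clo (ι := ι₀) ⟨A φ, hAV φ hφ⟩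
    · rintro ⟨φ, hφ⟩ ⟨ψ, hψ⟩
      exact hA φ ψ
    · -- density
      have hcl : IsClosed (clo (ι₀ + A₀) : Set H) := isClosed_clo _
      intro x hx
      obtain ⟨φ, hφ⟩ := mem_clo_iff.1 hx
      refine hcl.mem_of_tendsto hφ (Eventually.of_forall fun n => ?_)
      rcases φ n with ⟨φ', hφ'⟩
      change ι φ' ∈ clo (ι₀ + A₀)
      obtain ⟨u, hu⟩ := mem_clo_iff.1 (hd φ')
      refine mem_clo_iff.2 ⟨fun n => ⟨p (u n), ⟨u n, rfl⟩⟩, ?_⟩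
      rw [tendsto_iff_norm_sub_tendsto_zero] at hu ⊢
      refine squeeze_zero (fun _ => norm_nonneg _) (fun n => ?_) hu
      have h3 : (ι₀ + A₀) ⟨p (u n), ⟨u n, rfl⟩⟩ - ι φ' = ι (p (u n + A (u n) - φ')) := by
        change ι (p (u n)) + ι (A (p (u n))) - ι φ' = _
        rw [map_sub, map_add, hpA, hfix φ' hφ', map_sub, map_add]
      have h4 : (ι + ι ∘ₗ A) (u n) - ι φ' = ι (u n + A (u n) - φ') := by
        rw [map_sub, map_add]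
        rfl
      rw [h3, h4]
      exact hcon _
    · rintro ⟨φ, hφ⟩
      have h3 := h1 φ
      rw [hfix φ hφ] at h3
      exact h3
  -- the kernel of the sector
  have hker : ∀ ψ ∈ kerF ι₀ Q₀, ψ ∈ kerF ι Q := by
    intro ψ hψ
    obtain ⟨φ, h3, h4⟩ := mem_kerF.1 hψ
    exact mem_kerF.2 ⟨fun n => φ n, h3, h4⟩
  intro φ
  obtain ⟨ψ, hψ, h3⟩ := hgap₀ ⟨p φ, ⟨φ, rfl⟩⟩
  refine ⟨ψ, hker ψ hψ, ?_⟩
  have h3' : δ * ‖ι (p φ) - ψ‖ ^ 2 ≤ ‖Q (p φ)‖ ^ 2 := h3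
  -- orthogonality in H'
  have horth : ∀ χ ∈ V₀, ⟪ι χ, ι (φ - p φ)⟫_ℂ = 0 := by
    intro χ hχ
    rw [← hfix χ hχ, hps, map_sub, hpp, sub_self, map_zero, inner_zero_right]
  have hQo : ⟪Q (p φ), Q (φ - p φ)⟫_ℂ = 0 := by
    rw [hA, ← hpA]
    exact horth _ ⟨_, rfl⟩
  have hQ : ‖Q φ‖ ^ 2 = ‖Q (p φ)‖ ^ 2 + ‖Q (φ - p φ)‖ ^ 2 := by
    have h4 : Q φ = Q (p φ) + Q (φ - p φ) := by rw [← map_add]; congr 1; abel
    rw [h4, norm_add_sq (𝕜 := ℂ), hQo]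
    simp
  -- orthogonality in H
  have hψo : ⟪ψ, ι (φ - p φ)⟫_ℂ = 0 := by
    obtain ⟨u, hu, -⟩ := mem_kerF.1 hψ
    have h4 : Tendsto (fun n => ⟪ι₀ (u n), ι (φ - p φ)⟫_ℂ) atTop
        (𝓝 ⟪ψ, ι (φ - p φ)⟫_ℂ) := hu.inner tendsto_const_nhds
    have h5 : ∀ n, ⟪ι₀ (u n), ι (φ - p φ)⟫_ℂ = 0 := fun n => horth _ (u n).2
    simp only [h5] at h4
    exact (tendsto_nhds_unique h4 tendsto_const_nhds)
  have hι : ‖ι φ - ψ‖ ^ 2 = ‖ι (p φ) - ψ‖ ^ 2 + ‖ι (φ - p φ)‖ ^ 2 := by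
    have h4 : ι φ - ψ = (ι (p φ) - ψ) + ι (φ - p φ) := by
      rw [map_sub]
      abel
    have h5 : ⟪ι (p φ) - ψ, ι (φ - p φ)⟫_ℂ = 0 := by
      rw [inner_sub_left, hψo, horth _ ⟨φ, rfl⟩, sub_self]
    rw [h4, norm_add_sq (𝕜 := ℂ), h5]
    simp
  rw [hι, hQ, mul_add]
  exact add_le_add h3' (h2 φ)

end Crest.Agent.R330.FA416

end
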