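import Crest.Agent.R330.Defs_478
import Crest.Agent.R330.FA3_416

/-!
# Row 330 (helper416): dictionary between core functions and the Hilbert space

* `ιC R` : core functions in `Lp F 2`; `QC R G g m` : the sixteen charges `Q_α^{g,m}` in the
  `ℓ²`-sum of sixteen copies of `Lp F 2`.
* `zker_eq` : the kernel `zker` of the definitions is `kerF (ιC R) (QC R G g m)`.
* `norm_ιC_sq`, `inner_ιC`, `norm_QC_sq`, `inner_QC` : norms and inner products as integrals.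
* `GapL` : the literal gap; `gapL_iff`.
-/

set_option autoImplicit false
set_option linter.unusedSectionVars false

open MeasureTheory Filter Topology Crest.MathPhysics.MatrixQM
open scoped ContDiff InnerProductSpace ENNReal

noncomputable section

namespace Crest.Agent.R330.Dict416

open Crest.Agent.R330.Defs478 Crest.Agent.R330.FA416

variable {N : ℕ} {F : Type*} [NormedAddCommGroup F] [InnerProductSpace ℂ F]

/-- The Hilbert space `L²`. -/
abbrev L2 (N : ℕ) (F : Type*) [NormedAddCommGroup F] := Lp F 2 (volume : Measure (Cfg N))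

/-- The Hilbert space of sixteen copies of `L²`. -/
abbrev L2' (N : ℕ) (F : Type*) [NormedAddCommGroup F] [InnerProductSpace ℂ F] :=
  PiLp 2 (fun _ : Fin 16 => L2 N F)

/-! ### Integrals and `L²` -/

theorem norm_toLp_sq {f : Cfg N → F} (hf : MemLp f 2 volume) :
    ‖(hf.toLp f : L2 N F)‖ ^ 2 = ∫ x, ‖f x‖ ^ 2 := by
  have h1 : ‖(hf.toLp f : L2 N F)‖ ^ 2 = (⟪hf.toLp f, hf.toLp f⟫_ℂ).re := by
    rw [inner_self_eq_norm_sq_to_K]
    norm_cast
  rw [h1, L2.inner_def]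
  have h2 : ∀ᵐ x, (⟪(hf.toLp f : Cfg N → F) x, (hf.toLp f : Cfg N → F) x⟫_ℂ : ℂ) =
      ((‖f x‖ ^ 2 : ℝ) : ℂ) := by
    filter_upwards [hf.coeFn_toLp] with x hx
    rw [hx, inner_self_eq_norm_sq_to_K]
    norm_cast
  rw [integral_congr_ae h2, integral_complex_ofReal, Complex.ofReal_re]

theorem inner_toLp {f f' : Cfg N → F} (hf : MemLp f 2 volume) (hf' : MemLp f' 2 volume) :
    ⟪(hf.toLp f : L2 N F), hf'.toLp f'⟫_ℂ = ∫ x, ⟪f x, f' x⟫_ℂ := by
  rw [L2.inner_def]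
  refine integral_congr_ae ?_
  filter_upwards [hf.coeFn_toLp, hf'.coeFn_toLp] with x hx hx'
  rw [hx, hx']

theorem norm_sq_eq_integral (f : L2 N F) : ‖f‖ ^ 2 = ∫ x, ‖(f : Cfg N → F) x‖ ^ 2 := by
  have h := norm_toLp_sq (Lp.memLp f)
  rwa [Lp.toLp_coeFn] at h

/-! ### The core -/

section core

variable [FiniteDimensional ℂ F] {b : ColorBasis N} {M : FermionRep N F} {R : GaugeAction b M}

theorem cv_memLp {φ : Cfg N → F} (h : IsCoreVec b R φ) : MemLp φ 2 volume :=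
  h.1.continuous.memLp_of_hasCompactSupport h.2.1

theorem support_dcharge (G : GammaNine) (g m : ℝ) (α : Fin 16) {φ : Cfg N → F} :
    Function.support (dcharge b M G g m α φ) ⊆ tsupport φ := by
  intro x hx
  by_contra hn
  refine hx ?_
  have h1 : φ x = 0 := image_eq_zero_of_notMem_tsupport hn
  have h2 : fderiv ℝ φ x = 0 := by
    have h3 : φ =ᶠ[𝓝 x] fun _ => 0 := notMem_tsupport_iff_eventuallyEq.1 hn
    rw [h3.fderiv_eq]
    simp
  simp [dcharge, kin, h1, h2]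

theorem hcs_dcharge (G : GammaNine) (g m : ℝ) (α : Fin 16) {φ : Cfg N → F}
    (h : HasCompactSupport φ) : HasCompactSupport (dcharge b M G g m α φ) :=
  h.mono' (support_dcharge G g m α)

theorem memLp_dcharge (G : GammaNine) (g m : ℝ) (α : Fin 16) {φ : Cfg N → F}
    (h : ContDiff ℝ 1 φ) (hc : HasCompactSupport φ) : MemLp (dcharge b M G g m α φ) 2 volume :=
  (continuous_dcharge b M G g m α h).memLp_of_hasCompactSupport (hcs_dcharge G g m α hc)

theorem cv_memLp_dcharge (G : GammaNine) (g m : ℝ) (α : Fin 16) {φ : Cfg N → F}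
    (h : IsCoreVec b R φ) : MemLp (dcharge b M G g m α φ) 2 volume :=
  memLp_dcharge G g m α (cv_c1 h) h.2.1

variable (R) in
/-- The core in `L²`. -/
def ιC : core b R →ₗ[ℂ] L2 N F where
  toFun φ := (cv_memLp φ.2).toLp φ.1
  map_add' _ _ := rfl
  map_smul' _ _ := rfl

variable (R) in
/-- One charge of a core function, in `L²`. -/
def qL (G : GammaNine) (g m : ℝ) (α : Fin 16) (φ : core b R) : L2 N F :=
  (cv_memLp_dcharge G g m α φ.2).toLp (dcharge b M G g m α φ.1)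

theorem qL_add (G : GammaNine) (g m : ℝ) (α : Fin 16) (φ ψ : core b R) :
    qL R G g m α (φ + ψ) = qL R G g m α φ + qL R G g m α ψ := by
  unfold qL
  rw [← MemLp.toLp_add]
  congr 1
  exact dcharge_add b M G g m α (cv_diff φ.2) (cv_diff ψ.2)

theorem qL_smul (G : GammaNine) (g m : ℝ) (α : Fin 16) (c : ℂ) (φ : core b R) :
    qL R G g m α (c • φ) = c • qL R G g m α φ := by
  unfold qL
  rw [← MemLp.toLp_const_smul]
  congr 1
  exact dcharge_smul b M G g m α c (cv_diff φ.2)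

variable (R) in
/-- The charges. -/
def QC (G : GammaNine) (g m : ℝ) : core b R →ₗ[ℂ] L2' N F where
  toFun φ := WithLp.toLp 2 fun α => qL R G g m α φ
  map_add' φ ψ := by
    ext1 α
    exact qL_add G g m α φ ψ
  map_smul' c φ := by
    ext1 α
    exact qL_smul G g m α c φ

theorem ιC_apply (φ : core b R) : ιC R φ = (cv_memLp φ.2).toLp φ.1 := rfl

theorem QC_apply (G : GammaNine) (g m : ℝ) (φ : core b R) (α : Fin 16) :
    QC R G g m φ α = qL R G g m α φ := rfl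

theorem norm_ιC_sq (φ : core b R) : ‖ιC R φ‖ ^ 2 = ∫ x, ‖φ.1 x‖ ^ 2 :=
  norm_toLp_sq (cv_memLp φ.2)

theorem inner_ιC (φ ψ : core b R) : ⟪ιC R φ, ιC R ψ⟫_ℂ = ∫ x, ⟪φ.1 x, ψ.1 x⟫_ℂ :=
  inner_toLp (cv_memLp φ.2) (cv_memLp ψ.2)

theorem norm_qL_sq (G : GammaNine) (g m : ℝ) (α : Fin 16) (φ : core b R) :
    ‖qL R G g m α φ‖ ^ 2 = ∫ x, ‖dcharge b M G g m α φ.1 x‖ ^ 2 :=
  norm_toLp_sq (cv_memLp_dcharge G g m α φ.2)

theorem norm_QC_sq (G : GammaNine) (g m : ℝ) (φ : core b R) :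
    ‖QC R G g m φ‖ ^ 2 = 16 * qf b M G g m φ.1 := by
  rw [PiLp.norm_sq_eq_of_L2]
  simp only [QC_apply, norm_qL_sq, qf]
  ring

theorem inner_qL (G : GammaNine) (g m g' m' : ℝ) (α β : Fin 16) (φ ψ : core b R) :
    ⟪qL R G g m α φ, qL R G g' m' β ψ⟫_ℂ =
      ∫ x, ⟪dcharge b M G g m α φ.1 x, dcharge b M G g' m' β ψ.1 x⟫_ℂ :=
  inner_toLp (cv_memLp_dcharge G g m α φ.2) (cv_memLp_dcharge G g' m' β ψ.2)

theorem inner_QC (G : GammaNine) (g m g' m' : ℝ) (φ ψ : core b R) :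
    ⟪QC R G g m φ, QC R G g' m' ψ⟫_ℂ =
      ∑ α, ∫ x, ⟪dcharge b M G g m α φ.1 x, dcharge b M G g' m' α ψ.1 x⟫_ℂ := by
  rw [PiLp.inner_apply]
  simp only [QC_apply, inner_qL]

theorem norm_ιC_sub_sq (φ : core b R) {Ψ : Cfg N → F} (hΨ : MemLp Ψ 2 volume) :
    ‖ιC R φ - hΨ.toLp Ψ‖ ^ 2 = ∫ x, ‖φ.1 x - Ψ x‖ ^ 2 := by
  rw [ιC_apply, ← MemLp.toLp_sub, norm_toLp_sq]
  rfl

theorem norm_qL_sub_sq (G : GammaNine) (g m g' m' : ℝ) (α : Fin 16) (φ : core b R) :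
    ‖qL R G g m α φ - qL R G g' m' α φ‖ ^ 2 =
      ∫ x, ‖dcharge b M G g m α φ.1 x - dcharge b M G g' m' α φ.1 x‖ ^ 2 := by
  unfold qL
  rw [← MemLp.toLp_sub, norm_toLp_sq]
  rfl

theorem norm_QC_sub_sq (G : GammaNine) (g m g' m' : ℝ) (φ : core b R) :
    ‖QC R G g m φ - QC R G g' m' φ‖ ^ 2 =
      ∑ α, ∫ x, ‖dcharge b M G g m α φ.1 x - dcharge b M G g' m' α φ.1 x‖ ^ 2 := by
  rw [PiLp.norm_sq_eq_of_L2]
  exact Finset.sum_congr rfl fun α _ => norm_qL_sub_sq G g m g' m' α φ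

/-! ### The kernel -/

theorem tendsto_toLp_iff {f : ℕ → Cfg N → F} {h : Cfg N → F} (hf : ∀ n, MemLp (f n) 2 volume)
    (hh : MemLp h 2 volume) :
    Tendsto (fun n => ((hf n).toLp (f n) : L2 N F)) atTop (𝓝 (hh.toLp h)) ↔
      Tendsto (fun n => eLpNorm (f n - h) 2 volume) atTop (𝓝 0) :=
  Lp.tendsto_Lp_iff_tendsto_eLpNorm'' f hf h hh

theorem tendsto_QC_iff (G : GammaNine) (g m : ℝ) (φ : ℕ → core b R) :
    Tendsto (fun n => QC R G g m (φ n)) atTop (𝓝 0) ↔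
      ∀ α, Tendsto (fun n => eLpNorm (dcharge b M G g m α (φ n).1) 2 volume) atTop (𝓝 0) := by
  have h1 : Tendsto (fun n => QC R G g m (φ n)) atTop (𝓝 0) ↔
      Tendsto (fun n => fun α => QC R G g m (φ n) α) atTop (𝓝 fun _ => (0 : L2 N F)) := by
    constructor
    · intro h
      exact ((PiLp.continuous_ofLp 2 _).tendsto _).comp h
    · intro h
      exact ((PiLp.continuous_toLp 2 _).tendsto _).comp h
  rw [h1, tendsto_pi_nhds]
  refine forall_congr' fun α => ?_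
  simp only [QC_apply]
  have h2 := tendsto_toLp_iff (fun n => cv_memLp_dcharge G g m α (φ n).2)
    (MemLp.zero (μ := (volume : Measure (Cfg N))) (p := 2) (ε := F))
  have h3 : (MemLp.toLp (0 : Cfg N → F) MemLp.zero : L2 N F) = 0 := rfl
  rw [h3] at h2
  simp only [sub_zero] at h2
  exact h2

/-- Zero states and the kernel of the form. -/
theorem mem_zset_iff {G : GammaNine} {g m : ℝ} {Ψ : Cfg N → F} :
    Ψ ∈ zset b M R G g m ↔
      ∃ h : MemLp Ψ 2 volume, (h.toLp Ψ : L2 N F) ∈ kerF (ιC R) (QC R G g m) := by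
  constructor
  · rintro ⟨h, φ, hφ, h1, h2⟩
    refine ⟨h, mem_kerF.2 ⟨fun n => ⟨φ n, hφ n⟩, ?_, (tendsto_QC_iff G g m _).2 h2⟩⟩
    exact (tendsto_toLp_iff (fun n => cv_memLp (hφ n)) h).2 h1
  · rintro ⟨h, hk⟩
    obtain ⟨φ, h1, h2⟩ := mem_kerF.1 hk
    exact ⟨h, fun n => (φ n).1, fun n => (φ n).2,
      (tendsto_toLp_iff (fun n => cv_memLp (φ n).2) h).1 h1, (tendsto_QC_iff G g m _).1 h2⟩

/-- **The kernel of the definitions is the abstract kernel.** -/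
theorem zker_eq (G : GammaNine) (g m : ℝ) :
    zker b M R G g m = kerF (ιC R) (QC R G g m) := by
  ext ψ
  rw [mem_zker, mem_zset_iff]
  constructor
  · rintro ⟨h, hk⟩
    rwa [Lp.toLp_coeFn] at hk
  · intro hk
    exact ⟨Lp.memLp ψ, by rwa [Lp.toLp_coeFn]⟩

theorem hasDim_iff {G : GammaNine} {g m : ℝ} {d : ℕ} :
    HasDim b M R G g m d ↔
      DimGe (ιC R) (QC R G g m) d ∧ ¬ DimGe (ιC R) (QC R G g m) (d + 1) := by
  unfold HasDim
  rw [zker_eq]
  exact finrank_kerF_iff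

/-! ### The literal gap -/

variable (R) in
/-- The gap with the form `qf`. -/
def GapL (G : GammaNine) (g m δ : ℝ) : Prop :=
  ∀ φ, IsCoreVec b R φ → ∃ Ψ ∈ zset b M R G g m, δ * ∫ x, ‖φ x - Ψ x‖ ^ 2 ≤ qf b M G g m φ

theorem gapL_iff {G : GammaNine} {g m δ : ℝ} :
    GapL R G g m δ ↔ Gap (ιC R) (QC R G g m) (16 * δ) := by
  constructor
  · rintro h ⟨φ, hφ⟩
    obtain ⟨Ψ, hΨ, h1⟩ := h φ hφ
    obtain ⟨h2, h3⟩ := mem_zset_iff.1 hΨ
    refine ⟨h2.toLp Ψ, h3, ?_⟩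
    rw [norm_ιC_sub_sq, norm_QC_sq]
    linarith
  · intro h φ hφ
    obtain ⟨ψ, h1, h2⟩ := h ⟨φ, hφ⟩
    refine ⟨(ψ : Cfg N → F), mem_zset_iff.2 ⟨Lp.memLp ψ, by rwa [Lp.toLp_coeFn]⟩, ?_⟩
    have h3 := norm_ιC_sub_sq ⟨φ, hφ⟩ (Lp.memLp ψ)
    rw [Lp.toLp_coeFn] at h3
    rw [h3, norm_QC_sq] at h2
    linarith

end core

end Crest.Agent.R330.Dict416

end
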