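import Crest.Agent.R330.WSLit_596
import Crest.Agent.R330.Dict_416

/-!
# R330 (helper596): essential self-adjointness of every single charge on the core

* `mem_clo_iff_inv` : the closure of the core in `L²` = the invariant `L²` functions.
* `charge_weak_strong_one` : weak = strong for ONE charge `dcharge g m α`, tested on the core.
* `dense_sub` : `(Q_α - c) D` is dense in the closure of the core for every non-real `c`
  (abstract shape of FA3_416); `exists_core_sub` : the same with functions.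
-/

set_option autoImplicit false
set_option linter.unusedSectionVars false
set_option linter.unusedVariables false

open MeasureTheory Set Filter Topology Crest.MathPhysics.MatrixQM
open scoped ContDiff InnerProductSpace ENNReal

universe v

noncomputable section
namespace Crest.Agent.R330.Esa596
open Crest.Agent.R330.SUgrp596 Crest.Agent.R330.Moll596 Crest.Agent.R330.WS596
  Crest.Agent.R330.Haar596 Crest.Agent.R330.IBP837 Crest.Agent.R330.Cov837
  Crest.Agent.R330.Brid837 Crest.Agent.R330.Defs478 Crest.Agent.R330.WSLit596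
  Crest.Agent.R330.FA416 Crest.Agent.R330.Dict416

variable {N : ℕ} {F : Type v} [NormedAddCommGroup F] [InnerProductSpace ℂ F]
  [FiniteDimensional ℂ F] {b : ColorBasis N} {M : FermionRep N F} {R : GaugeAction b M}
  {G : GammaNine} {g m : ℝ}

/-- the closure of the core = invariant `L²` functions -/
theorem mem_clo_iff_inv {x : L2 N F} : x ∈ clo (ιC R) ↔ InvAE R (x : Cfg N → F) := by
  rw [mem_clo_iff]
  constructor
  · rintro ⟨φ, h⟩
    refine InvAE.of_tendsto (φ := fun n => (φ n).1) (fun n => core_aesm (φ n).2)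
      (fun n => InvAE.of_core (φ n).2) (Lp.aestronglyMeasurable x) ?_
    have h' : Tendsto (fun n => ((cv_memLp (φ n).2).toLp (φ n).1 : L2 N F)) atTop
        (𝓝 ((Lp.memLp x).toLp (x : Cfg N → F))) := by
      rw [Lp.toLp_coeFn]
      exact h
    exact (tendsto_toLp_iff (fun n => cv_memLp (φ n).2) (Lp.memLp x)).1 h'
  · intro h
    obtain ⟨φ, h1, h2⟩ := exists_core_tendsto (Lp.memLp x) h
    refine ⟨fun n => ⟨φ n, h1 n⟩, ?_⟩
    have := (tendsto_toLp_iff (fun n => cv_memLp (h1 n)) (Lp.memLp x)).2 h2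
    rw [Lp.toLp_coeFn] at this
    exact this

theorem toLp_mem_clo {Ψ : Cfg N → F} (hΨ : MemLp Ψ 2 volume) (hi : InvAE R Ψ) :
    (hΨ.toLp Ψ : L2 N F) ∈ clo (ιC R) := by
  obtain ⟨φ, h1, h2⟩ := exists_core_tendsto hΨ hi
  exact mem_clo_iff.2 ⟨fun n => ⟨φ n, h1 n⟩,
    (tendsto_toLp_iff (fun n => cv_memLp (h1 n)) hΨ).2 h2⟩

theorem InvAE.congr {Ψ Ψ' : Cfg N → F} (h : InvAE R Ψ) (he : Ψ =ᵐ[volume] Ψ') : InvAE R Ψ' := by
  intro k
  have h1 := (act_measurePreserving b k).quasiMeasurePreserving.ae_eq_comp he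
  filter_upwards [h k, he, h1] with x hx hx2 hx3
  have hx3' : Ψ (b.act k x) = Ψ' (b.act k x) := hx3
  rw [← hx3', hx, hx2]

theorem InvAE.smul {Ψ : Cfg N → F} (h : InvAE R Ψ) (c : ℂ) : InvAE R (fun x => c • Ψ x) := by
  intro k
  filter_upwards [h k] with x hx
  rw [hx, map_smul]

/-- **weak = strong for one charge, tested on the core** -/
theorem charge_weak_strong_one (α : Fin 16) {Ψ χ : Cfg N → F} (hΨ : MemLp Ψ 2 volume)
    (hΨi : InvAE R Ψ) (hχ : MemLp χ 2 volume) (hχi : InvAE R χ)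
    (h : ∀ ψ, IsCoreVec b R ψ → ∫ x, ⟪Ψ x, dcharge b M G g m α ψ x⟫_ℂ = ∫ x, ⟪χ x, ψ x⟫_ℂ) :
    ∃ φ : ℕ → Cfg N → F, (∀ n, IsCoreVec b R (φ n)) ∧
      Tendsto (fun n => eLpNorm (φ n - Ψ) 2 volume) atTop (𝓝 0) ∧
      Tendsto (fun n => eLpNorm (dcharge b M G g m α (φ n) - χ) 2 volume) atTop (𝓝 0) := by
  have hW : ∀ α β A, Continuous (wpot b G g m α β A) := fun α β A => wpot_continuous β A
  have hw : ∀ ψ : Cfg N → F, ContDiff ℝ ∞ ψ → HasCompactSupport ψ →
      ∫ x, ⟪Ψ x, chargeW M G (wpot b G g m) α ψ x⟫_ℂ = ∫ x, ⟪χ x, ψ x⟫_ℂ := fun ψ hψ hc =>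
    weak_of_core_weak hW isCov_wpot α (hΨ.locallyIntegrable (by norm_num))
      (hχ.locallyIntegrable (by norm_num)) hΨi hχi
      (fun ψ hψ => by rw [← dcharge_eq]; exact h ψ hψ) hψ hc
  obtain ⟨φ, h1, h2, h3, h4, h5⟩ := dirac_weak_strong (ι := Unit) (a := fun _ => dco M G α)
    (V := fun _ x => vco M (fun β A => wpot b G g m α β A x)) (fun _ => vco_cont M hW α)
    (fun _ => dco_symm M G α) (fun _ x => vco_symm M _) hΨ (χ := fun _ => χ) (fun _ => hχ)
    (fun _ => hw)
  refine ⟨φ, fun n => ⟨h1 n, h2 n, fun k x => ?_⟩, h4, ?_⟩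
  · exact h3 n (actL b k) ((LinearMap.toContinuousLinearMap (R.ρ k)).restrictScalars ℝ) (hΨi k) x
  · refine (h5 ()).congr fun n => ?_
    rw [dcharge_eq]
    rfl

/-- a symmetric operator has no non-real generalised eigenvalue in the weak sense -/
theorem zero_of_weak_eigen (α : Fin 16) {c : ℂ} (hc : c.im ≠ 0) {Ψ : Cfg N → F}
    (hΨ : MemLp Ψ 2 volume) (hΨi : InvAE R Ψ)
    (h : ∀ ψ, IsCoreVec b R ψ →
      ∫ x, ⟪Ψ x, dcharge b M G g m α ψ x⟫_ℂ = c * ∫ x, ⟪Ψ x, ψ x⟫_ℂ) : Ψ =ᵐ[volume] 0 := by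
  set χ : Cfg N → F := fun x => (starRingEnd ℂ c) • Ψ x with hχd
  have hχ : MemLp χ 2 volume := hΨ.const_smul (starRingEnd ℂ c)
  have hχi : InvAE R χ := InvAE.smul hΨi _
  obtain ⟨φ, h1, h2, h3⟩ := charge_weak_strong_one (G := G) (g := g) (m := m) α hΨ hΨi hχ hχi
    (fun ψ hψ => by
      rw [h ψ hψ, ← integral_const_mul]
      refine integral_congr_ae (Eventually.of_forall fun x => ?_)
      simp only [hχd, inner_smul_left, Complex.conj_conj])
  have hm : ∀ n, MemLp (φ n) 2 volume := fun n => cv_memLp (h1 n)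
  have hq : ∀ n, MemLp (dcharge b M G g m α (φ n)) 2 volume := fun n => cv_memLp_dcharge G g m α (h1 n)
  have hA := tendsto_integral_inner hm hΨ hq hχ h2 h3
  have hB := tendsto_integral_inner hq hχ hm hΨ h3 h2
  have hs : ∀ n, ∫ x, ⟪φ n x, dcharge b M G g m α (φ n) x⟫_ℂ =
      ∫ x, ⟪dcharge b M G g m α (φ n) x, φ n x⟫_ℂ := fun n =>
    (dcharge_symm ((h1 n).1.of_le (by norm_cast)) ((h1 n).1.of_le (by norm_cast))
      (Or.inl (h1 n).2.1)).symm
  simp only [hs] at hA
  have key := tendsto_nhds_unique hA hB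
  have e1 : ∫ x, ⟪Ψ x, χ x⟫_ℂ = (starRingEnd ℂ c) * ((∫ x, ‖Ψ x‖ ^ 2 : ℝ) : ℂ) := by
    rw [← integral_complex_ofReal, ← integral_const_mul]
    refine integral_congr_ae (Eventually.of_forall fun x => ?_)
    simp only [hχd, inner_smul_right, inner_self_eq_norm_sq_to_K]
    norm_cast
  have e2 : ∫ x, ⟪χ x, Ψ x⟫_ℂ = c * ((∫ x, ‖Ψ x‖ ^ 2 : ℝ) : ℂ) := by
    rw [← integral_complex_ofReal, ← integral_const_mul]
    refine integral_congr_ae (Eventually.of_forall fun x => ?_)
    simp only [hχd, inner_smul_left, inner_self_eq_norm_sq_to_K, Complex.conj_conj]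
    norm_cast
  rw [e1, e2] at key
  have h0 : (∫ x, ‖Ψ x‖ ^ 2 : ℝ) = 0 := by
    have := congrArg Complex.im key
    simp only [Complex.mul_im, Complex.conj_re, Complex.conj_im, Complex.ofReal_re,
      Complex.ofReal_im, mul_zero, zero_add] at this
    have h5 : c.im * (∫ x, ‖Ψ x‖ ^ 2 : ℝ) = 0 := by linarith
    exact (mul_eq_zero.1 h5).resolve_left hc
  have h6 := (integral_eq_zero_iff_of_nonneg (fun x => by positivity)
    (hΨ.integrable_norm_pow (by norm_num))).1 h0
  filter_upwards [h6] with x hx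
  have : ‖Ψ x‖ ^ 2 = 0 := hx
  simpa using this

/-- one charge minus a constant, on the core, with values in `L²` -/
def qsub (R : GaugeAction b M) (G : GammaNine) (g m : ℝ) (α : Fin 16) (c : ℂ) :
    core b R →ₗ[ℂ] L2 N F where
  toFun φ := qL R G g m α φ - c • ιC R φ
  map_add' φ ψ := by
    rw [qL_add, map_add, smul_add]
    abel
  map_smul' a φ := by
    rw [qL_smul, map_smul, RingHom.id_apply, smul_sub, smul_comm c a]

theorem qsub_apply (α : Fin 16) (c : ℂ) (φ : core b R) :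
    qsub R G g m α c φ = qL R G g m α φ - c • ιC R φ := rfl

theorem qL_mem_clo (α : Fin 16) (φ : core b R) : qL R G g m α φ ∈ clo (ιC R) :=
  mem_clo (ι := ιC R) (⟨dcharge b M G g m α φ.1, core_dcharge φ.2⟩ : core b R)

/-- **essential self-adjointness of every charge**: `(Q_α - c) D` is dense in the closure of the
core for non-real `c`. -/
theorem dense_sub (α : Fin 16) {c : ℂ} (hc : c.im ≠ 0) {x : L2 N F} (hx : x ∈ clo (ιC R)) :
    x ∈ clo (qsub R G g m α c) := by
  have := complete_F F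
  refine dense_of_weak (ι := ιC R) (qsub R G g m α c) (fun φ => ?_) (fun χ hχ h => ?_) x hx
  · exact sub_mem (qL_mem_clo α φ) (Submodule.smul_mem _ _ (mem_clo φ))
  · have hz : (χ : Cfg N → F) =ᵐ[volume] 0 := by
      refine zero_of_weak_eigen (R := R) (G := G) (g := g) (m := m) α hc (Lp.memLp χ)
        (mem_clo_iff_inv.1 hχ) fun ψ hψ => ?_
      have h1 := h ⟨ψ, hψ⟩
      rw [qsub_apply, inner_sub_right, inner_smul_right, sub_eq_zero] at h1
      have e1 : ⟪χ, qL R G g m α ⟨ψ, hψ⟩⟫_ℂ =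
          ∫ x, ⟪(χ : Cfg N → F) x, dcharge b M G g m α ψ x⟫_ℂ := by
        have := inner_toLp (Lp.memLp χ) (cv_memLp_dcharge G g m α hψ)
        rw [Lp.toLp_coeFn] at this
        exact this
      have e2 : ⟪χ, ιC R ⟨ψ, hψ⟩⟫_ℂ = ∫ x, ⟪(χ : Cfg N → F) x, ψ x⟫_ℂ := by
        have := inner_toLp (Lp.memLp χ) (cv_memLp hψ)
        rw [Lp.toLp_coeFn] at this
        exact this
      rw [e1, e2] at h1
      exact h1
    exact (Lp.eq_zero_iff_ae_eq_zero).2 hz

/-- the same with functions: for every invariant `v ∈ L²` there are core `φ_n` with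
`(Q_α - c) φ_n → v`. -/
theorem exists_core_sub (α : Fin 16) {c : ℂ} (hc : c.im ≠ 0) {w : Cfg N → F}
    (hw : MemLp w 2 volume) (hi : InvAE R w) :
    ∃ φ : ℕ → Cfg N → F, (∀ n, IsCoreVec b R (φ n)) ∧
      Tendsto (fun n => eLpNorm (dcharge b M G g m α (φ n) - c • φ n - w) 2 volume)
        atTop (𝓝 0) := by
  have h := dense_sub (R := R) (G := G) (g := g) (m := m) α hc (toLp_mem_clo hw hi)
  obtain ⟨φ, h1⟩ := mem_clo_iff.1 h
  refine ⟨fun n => (φ n).1, fun n => (φ n).2, ?_⟩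
  have hm : ∀ n, MemLp (dcharge b M G g m α (φ n).1 - c • (φ n).1) 2 volume := fun n =>
    (cv_memLp_dcharge G g m α (φ n).2).sub ((cv_memLp (φ n).2).const_smul c)
  have e : ∀ n, qsub R G g m α c (φ n) =
      ((hm n).toLp (dcharge b M G g m α (φ n).1 - c • (φ n).1) : L2 N F) := fun n => rfl
  simp only [e] at h1
  exact (tendsto_toLp_iff hm hw).1 h1

end Crest.Agent.R330.Esa596
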