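import Crest.Agent.R330.Gauge_406

/-!
# (1.3), main statements

* `Bop b M ω = (1/2) Σ_{α,A} θ_α([ω,T_A]) θ_α(T_A)`;
* `rho_gSU : ρ(exp(-i t Σ ω_A T_A)) = exp(t B(ω))`;
* `fderiv_equivariant : Dφ(x)([ω,x]) = B(ω) φ(x)` for equivariant differentiable `φ`.
-/

set_option autoImplicit false
set_option linter.unusedSectionVars false
set_option linter.style.haveILetI false

open MeasureTheory Filter Topology Crest.MathPhysics.MatrixQM
open NormedSpace (exp)
open scoped InnerProductSpace ContDiff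

noncomputable section

namespace Crest.Agent.R330.Lift406

variable {N : ℕ} {F : Type*} [NormedAddCommGroup F] [InnerProductSpace ℂ F] [FiniteDimensional ℂ F]

theorem expF_mul_neg (B : F →L[ℂ] F) (s : ℝ) : exp (s • B) * exp (-(s • B)) = 1 :=
  exp_mul_exp_neg B s

theorem expF_neg_mul (B : F →L[ℂ] F) (s : ℝ) : exp (-(s • B)) * exp (s • B) = 1 :=
  exp_neg_mul_exp B s

/-- the antisymmetric matrix of `ad ω` (tensored with `1` on `Fin 16`) on the fermion indices -/
def gm (b : ColorBasis N) (om : Fin (N ^ 2 - 1) → ℝ) : Matrix (Idx N) (Idx N) ℝ :=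
  fun p q => if p.1 = q.1 then ∑ B, b.structConst B q.2 p.2 * om B else 0

theorem gm_antisymm (b : ColorBasis N) (om : Fin (N ^ 2 - 1) → ℝ) (p q : Idx N) :
    gm b om p q = - gm b om q p := by
  simp only [gm]
  by_cases h : p.1 = q.1
  · rw [if_pos h, if_pos h.symm, ← Finset.sum_neg_distrib]
    refine Finset.sum_congr rfl fun B _ => ?_
    rw [structConst_swap_right b B p.2 q.2]; ring
  · rw [if_neg h, if_neg (Ne.symm h), neg_zero]

/-- `B(ω)` -/
def Bop (b : ColorBasis N) (M : FermionRep N F) (om : Fin (N ^ 2 - 1) → ℝ) : F →L[ℂ] F :=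
  spin M (gm b om)

/-- `θ_α(v) = Σ_A v_A θ_α^A` -/
def thv (M : FermionRep N F) (α : Fin 16) :
    (Fin (N ^ 2 - 1) → ℝ) →ₗ[ℝ] (F →L[ℂ] F) where
  toFun v := ∑ A, (v A : ℂ) • th M (α, A)
  map_add' u v := by simp [add_smul, Finset.sum_add_distrib]
  map_smul' c v := by
    simp only [Pi.smul_apply, smul_eq_mul, Complex.ofReal_mul, mul_smul, RingHom.id_apply,
      Finset.smul_sum]
    refine Finset.sum_congr rfl fun A _ => ?_
    ext w; simp

theorem thv_apply (M : FermionRep N F) (α : Fin 16) (v : Fin (N ^ 2 - 1) → ℝ) :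
    thv M α v = ∑ A, (v A : ℂ) • th M (α, A) := rfl

theorem thv_single (M : FermionRep N F) (α : Fin 16) (A : Fin (N ^ 2 - 1)) :
    thv M α (Pi.single A 1) = th M (α, A) := by
  rw [thv_apply, Finset.sum_eq_single A]
  · simp
  · intro B _ hB; simp [Pi.single_eq_of_ne hB]
  · simp

theorem adL_single (b : ColorBasis N) (om : Fin (N ^ 2 - 1) → ℝ) (A C : Fin (N ^ 2 - 1)) :
    adL b om (Pi.single A 1) C = ∑ B, b.structConst B A C * om B := by
  rw [adL_apply]
  refine Finset.sum_congr rfl fun B _ => ?_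
  rw [Finset.sum_eq_single A]
  · simp
  · intro D _ hD; simp [Pi.single_eq_of_ne hD]
  · simp

/-- `[B(ω), θ_α(v)] = θ_α([ω,v])` -/
theorem Bop_comm_thv (b : ColorBasis N) (M : FermionRep N F) (om : Fin (N ^ 2 - 1) → ℝ)
    (α : Fin 16) (v : Fin (N ^ 2 - 1) → ℝ) :
    Bop b M om * thv M α v - thv M α v * Bop b M om = thv M α (adL b om v) := by
  have h1 : ∀ A, Bop b M om * th M (α, A) - th M (α, A) * Bop b M om =
      thv M α (adL b om (Pi.single A 1)) := by
    intro A
    rw [Bop, spin_comm M _ (gm_antisymm b om), Fintype.sum_prod_type, thv_apply,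
      Finset.sum_eq_single α]
    · refine Finset.sum_congr rfl fun C _ => ?_
      rw [adL_single, gm, if_pos rfl]
    · intro β _ hβ
      refine Finset.sum_eq_zero fun C _ => ?_
      rw [gm, if_neg hβ]; simp
    · simp
  have h2 : v = ∑ A, v A • (Pi.single A 1 : Fin (N ^ 2 - 1) → ℝ) := by
    funext C
    rw [Finset.sum_apply, Finset.sum_eq_single C]
    · simp
    · intro B _ hB; simp [Pi.single_eq_of_ne (Ne.symm hB)]
    · simp
  conv_rhs => rw [h2]
  rw [map_sum, map_sum, thv_apply, Finset.mul_sum, Finset.sum_mul, ← Finset.sum_sub_distrib]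
  refine Finset.sum_congr rfl fun A _ => ?_
  rw [mul_smul_comm, smul_mul_assoc, ← smul_sub, h1, map_smul, map_smul]
  ext w; simp

theorem exp_Bop_thv (b : ColorBasis N) (M : FermionRep N F) (om : Fin (N ^ 2 - 1) → ℝ)
    (α : Fin 16) (t : ℝ) (v : Fin (N ^ 2 - 1) → ℝ) :
    thv M α (exp (t • adL b om) v) * exp (t • Bop b M om) = exp (t • Bop b M om) * thv M α v :=
  exp_intertwine (LinearMap.toContinuousLinearMap (thv M α)) (adL b om) (Bop b M om)
    (fun v => Bop_comm_thv b M om α v) t v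

theorem Bop_skew (b : ColorBasis N) (M : FermionRep N F) (om : Fin (N ^ 2 - 1) → ℝ) (v w : F) :
    ⟪Bop b M om v, w⟫_ℂ = - ⟪v, Bop b M om w⟫_ℂ :=
  spin_skew M _ (gm_antisymm b om) v w

theorem Bop_trace (b : ColorBasis N) (M : FermionRep N F) (om : Fin (N ^ 2 - 1) → ℝ) :
    LinearMap.trace ℂ F ((Bop b M om : F →L[ℂ] F) : F →ₗ[ℂ] F) = 0 :=
  spin_trace M _ (gm_antisymm b om)

/-- `ρ(g)` as a continuous operator -/
def rhoC {b : ColorBasis N} {M : FermionRep N F} (R : GaugeAction b M)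
    (g : Matrix.specialUnitaryGroup (Fin N) ℂ) : F →L[ℂ] F :=
  LinearMap.toContinuousLinearMap (R.ρ g)

theorem rhoC_apply {b : ColorBasis N} {M : FermionRep N F} (R : GaugeAction b M)
    (g : Matrix.specialUnitaryGroup (Fin N) ℂ) (v : F) : rhoC R g v = R.ρ g v := rfl

theorem rhoC_mul {b : ColorBasis N} {M : FermionRep N F} (R : GaugeAction b M)
    (g h : Matrix.specialUnitaryGroup (Fin N) ℂ) : rhoC R (g * h) = rhoC R g * rhoC R h := by
  ext v; simp [rhoC_apply, map_mul]

theorem rhoC_one {b : ColorBasis N} {M : FermionRep N F} (R : GaugeAction b M) :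
    rhoC R 1 = 1 := by
  ext v; simp [rhoC_apply]

theorem rhoC_pow {b : ColorBasis N} {M : FermionRep N F} (R : GaugeAction b M)
    (g : Matrix.specialUnitaryGroup (Fin N) ℂ) (n : ℕ) : rhoC R (g ^ n) = rhoC R g ^ n := by
  induction n with
  | zero => rw [pow_zero, pow_zero, rhoC_one]
  | succ n ih => rw [pow_succ, pow_succ, rhoC_mul, ih]

theorem rhoC_th {b : ColorBasis N} {M : FermionRep N F} (R : GaugeAction b M)
    (g : Matrix.specialUnitaryGroup (Fin N) ℂ) (α : Fin 16) (A : Fin (N ^ 2 - 1)) :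
    rhoC R g * th M (α, A) = (∑ B, (b.adjMat g B A : ℂ) • th M (α, B)) * rhoC R g := by
  ext v
  have h := congrArg (fun f : F →ₗ[ℂ] F => f v) (R.intertwine g α A)
  simp only [LinearMap.comp_apply, LinearMap.sum_apply, LinearMap.smul_apply] at h
  simp only [mulA, rhoC_apply, th_apply, _root_.sum_apply, _root_.smul_apply]
  exact h

theorem rhoC_gSU_thv {b : ColorBasis N} {M : FermionRep N F} (R : GaugeAction b M)
    (om : Fin (N ^ 2 - 1) → ℝ) (t : ℝ) (α : Fin 16) (v : Fin (N ^ 2 - 1) → ℝ) :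
    rhoC R (gSU b om t) * thv M α v =
      thv M α (exp (t • adL b om) v) * rhoC R (gSU b om t) := by
  rw [thv_apply, Finset.mul_sum]
  simp only [mul_smul_comm, rhoC_th]
  rw [thv_apply, Finset.sum_mul]
  simp only [Finset.sum_mul, Finset.smul_sum, smul_mul_assoc, smul_smul]
  rw [Finset.sum_comm]
  refine Finset.sum_congr rfl fun B _ => ?_
  rw [← Finset.sum_smul, ← adjMat_gSU_sum]
  congr 1
  push_cast
  exact Finset.sum_congr rfl fun A _ => mul_comm _ _

theorem det_rhoC_gSU {b : ColorBasis N} {M : FermionRep N F} (R : GaugeAction b M)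
    (om : Fin (N ^ 2 - 1) → ℝ) (t : ℝ) :
    LinearMap.det (rhoC R (gSU b om t)).toLinearMap = 1 := by
  have h := chi_gSU ((LinearMap.det : (F →ₗ[ℂ] F) →* ℂ).comp R.ρ) b om t
  exact h

/-- **(1.3)** the gauge action is the exponential of the quadratic fermion operator. -/
theorem rhoC_gSU [Nontrivial F] {b : ColorBasis N} {M : FermionRep N F} (R : GaugeAction b M)
    (om : Fin (N ^ 2 - 1) → ℝ) (t : ℝ) :
    rhoC R (gSU b om t) = exp (t • Bop b M om) := by
  -- scalar up to exp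
  have key : ∀ s : ℝ, ∃ c : ℂ, rhoC R (gSU b om s) = c • exp (s • Bop b M om) := by
    intro s
    obtain ⟨c, hc⟩ := schur M (exp (-(s • Bop b M om)) * rhoC R (gSU b om s)) (by
      rintro ⟨α, A⟩
      rw [← thv_single]
      have h2 : exp (-(s • Bop b M om)) * thv M α (exp (s • adL b om) (Pi.single A 1)) =
          thv M α (Pi.single A 1) * exp (-(s • Bop b M om)) := by
        have h3 := exp_Bop_thv b M om α s (Pi.single A 1)
        calc exp (-(s • Bop b M om)) * thv M α (exp (s • adL b om) (Pi.single A 1))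
            = exp (-(s • Bop b M om)) * (thv M α (exp (s • adL b om) (Pi.single A 1)) *
                exp (s • Bop b M om)) * exp (-(s • Bop b M om)) := by
              rw [mul_assoc, mul_assoc, expF_mul_neg, mul_one]
          _ = _ := by
              rw [h3, ← mul_assoc, expF_neg_mul, one_mul]
      rw [mul_assoc, rhoC_gSU_thv, ← mul_assoc, h2, mul_assoc])
    refine ⟨c, ?_⟩
    calc rhoC R (gSU b om s) = (exp (s • Bop b M om) * exp (-(s • Bop b M om))) *
          rhoC R (gSU b om s) := by rw [expF_mul_neg, one_mul]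
      _ = exp (s • Bop b M om) * (c • 1) := by rw [mul_assoc, hc]
      _ = c • exp (s • Bop b M om) := by rw [mul_smul_comm, mul_one]
  set d := Module.finrank ℂ F with hd
  have hdpos : 0 < d := Module.finrank_pos
  obtain ⟨c, hc⟩ := key (t / d)
  have hcd : c ^ d = 1 := by
    have h1 := det_rhoC_gSU R om (t / d)
    rw [hc] at h1
    have h2 : (c • exp ((t / d) • Bop b M om) : F →L[ℂ] F).toLinearMap =
        c • (exp ((t / d) • Bop b M om) : F →L[ℂ] F).toLinearMap := rfl
    rw [h2, LinearMap.det_smul, det_exp_skew _ (Bop_skew b M om) (Bop_trace b M om), mul_one] at h1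
    exact h1
  have h3 : gSU b om t = gSU b om (t / d) ^ d := by
    rw [gSU_pow]; congr 1; field_simp
  rw [h3, rhoC_pow, hc, smul_pow, hcd, one_smul]
  letI : NormedAlgebra ℚ (F →L[ℂ] F) := NormedAlgebra.restrictScalars ℚ ℂ (F →L[ℂ] F)
  rw [← NormedSpace.exp_nsmul]
  congr 1
  rw [← Nat.cast_smul_eq_nsmul ℝ, smul_smul]
  congr 1; field_simp

/-- `[ω,x]_i^A = [ω,x_i]^A` on configurations -/
def brC (b : ColorBasis N) (om : Fin (N ^ 2 - 1) → ℝ) (x : Cfg N) : Cfg N :=
  WithLp.toLp 2 (fun p => adL b om (fun B => x (p.1, B)) p.2)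

theorem act_gSU (b : ColorBasis N) (om : Fin (N ^ 2 - 1) → ℝ) (t : ℝ) (x : Cfg N) :
    b.act (gSU b om t) x =
      WithLp.toLp 2 (fun p => exp (t • adL b om) (fun B => x (p.1, B)) p.2) := by
  rw [ColorBasis.act]
  congr 1
  funext p
  exact adjMat_gSU_sum b om t (fun B => x (p.1, B)) p.2

theorem hasDerivAt_act_gSU (b : ColorBasis N) (om : Fin (N ^ 2 - 1) → ℝ) (x : Cfg N) :
    HasDerivAt (fun t : ℝ => b.act (gSU b om t) x) (brC b om x) 0 := by
  have h1 : ∀ p : Fin 9 × Fin (N ^ 2 - 1),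
      HasDerivAt (fun t : ℝ => exp (t • adL b om) (fun B => x (p.1, B)) p.2)
        (adL b om (fun B => x (p.1, B)) p.2) 0 := by
    intro p
    have h2 : HasDerivAt (fun u : ℝ => exp (u • adL b om)) (exp ((0:ℝ) • adL b om) * adL b om) 0 :=
      hasDerivAt_exp_smul_const (adL b om) 0
    have h3 := (h2.clm_apply (hasDerivAt_const (0:ℝ) (fun B => x (p.1, B))))
    have h4 := (hasDerivAt_pi.mp h3) p.2
    refine h4.congr_deriv ?_
    simp
  have h5 : HasDerivAt (fun t : ℝ => fun p : Fin 9 × Fin (N ^ 2 - 1) =>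
      exp (t • adL b om) (fun B => x (p.1, B)) p.2)
      (fun p => adL b om (fun B => x (p.1, B)) p.2) 0 := hasDerivAt_pi.mpr h1
  have h6 := ((EuclideanSpace.equiv (Fin 9 × Fin (N ^ 2 - 1)) ℝ).symm :
    (Fin 9 × Fin (N ^ 2 - 1) → ℝ) →L[ℝ] Cfg N).hasFDerivAt
      (x := fun p : Fin 9 × Fin (N ^ 2 - 1) => exp ((0:ℝ) • adL b om) (fun B => x (p.1, B)) p.2)
  have h7 := h6.comp_hasDerivAt (0:ℝ) h5
  simp only [act_gSU]
  exact h7

theorem hasDerivAt_exp_zero (B : F →L[ℂ] F) (v : F) :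
    HasDerivAt (fun t : ℝ => exp (t • B) v) (B v) 0 := by
  have h1 : HasDerivAt (fun u : ℝ => exp (u • B)) (exp ((0:ℝ) • B) * B) 0 :=
    hasDerivAt_exp_smul_const B 0
  have h5 := (((ContinuousLinearMap.apply ℂ F v).restrictScalars ℝ).hasFDerivAt
    (x := exp ((0:ℝ) • B)))
  refine (h5.comp_hasDerivAt (0:ℝ) h1).congr_deriv ?_
  simp

/-- **infinitesimal equivariance**: `Dφ(x)([ω,x]) = B(ω) φ(x)`. -/
theorem fderiv_equivariant [Nontrivial F] {b : ColorBasis N} {M : FermionRep N F}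
    (R : GaugeAction b M) (φ : Cfg N → F) (hφ : ∀ g x, φ (b.act g x) = R.ρ g (φ x))
    (om : Fin (N ^ 2 - 1) → ℝ) (x : Cfg N) (hd : DifferentiableAt ℝ φ x) :
    fderiv ℝ φ x (brC b om x) = Bop b M om (φ x) := by
  have hx0 : b.act (gSU b om 0) x = x := by
    rw [act_gSU]
    simp
  have h1 : HasDerivAt (fun t : ℝ => φ (b.act (gSU b om t) x)) (fderiv ℝ φ x (brC b om x)) 0 := by
    have h2 : HasFDerivAt φ (fderiv ℝ φ x) (b.act (gSU b om 0) x) := by
      rw [hx0]; exact hd.hasFDerivAt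
    exact h2.comp_hasDerivAt (0:ℝ) (hasDerivAt_act_gSU b om x)
  have h3 : HasDerivAt (fun t : ℝ => φ (b.act (gSU b om t) x)) (Bop b M om (φ x)) 0 := by
    have h4 := hasDerivAt_exp_zero (Bop b M om) (φ x)
    refine h4.congr_of_eventuallyEq (Eventually.of_forall fun t => ?_)
    change φ (b.act (gSU b om t) x) = exp (t • Bop b M om) (φ x)
    rw [hφ, ← rhoC_gSU R, rhoC_apply]
  exact h1.unique h3

end Crest.Agent.R330.Lift406
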