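import Crest.Agent.R330.Mass_288
import Crest.Agent.R330.Alg2_962
import Crest.Agent.R330.RhoB_406

/-! # Row 330: the master identity on core vectors

`{Q_α, Q_β}^{g,m} φ = 2 δ_αβ H φ + m L_αβ φ` for equivariant `C²` functions, with
`H = Ham0 + Hmass`. -/

set_option autoImplicit false
set_option linter.unusedSectionVars false

noncomputable section

open Matrix Finset
open Crest.MathPhysics.MatrixQM

namespace Crest.Agent.R330.Master288

open Crest.Agent.R330.IBP837 Crest.Agent.R330.Alg962 Crest.Agent.R330.Defs478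
open Crest.Agent.R330.GapAlg916 (pairs gg trace_gg_Gam)
open Crest.Agent.R330.Mass288 (Hmass anti_mass)
open Crest.Agent.R330.SDefs726 (Sp vf rot)

variable {N : ℕ} {F : Type*} [NormedAddCommGroup F] [InnerProductSpace ℂ F]
  [FiniteDimensional ℂ F]

theorem brC_single (b : ColorBasis N) (E : Fin (N ^ 2 - 1)) (x : Cfg N) :
    Lift406.brC b (Pi.single E 1) x = - Alg2962.gvec b E x := by
  ext ⟨i, A⟩
  show Lift406.adL b (Pi.single E 1) (fun B => x (i, B)) A = - ∑ B, b.structConst A B E * x (i, B)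
  rw [Lift406.adL_apply, ← Finset.sum_neg_distrib]
  rw [Finset.sum_eq_single E]
  · refine Finset.sum_congr rfl fun B _ => ?_
    rw [Col962.f_swap13 b A B E]
    simp
  · intro D _ hD
    refine Finset.sum_eq_zero fun B _ => ?_
    simp [Pi.single_eq_of_ne hD]
  · simp

theorem Bop_single (b : ColorBasis N) (M : FermionRep N F) (E : Fin (N ^ 2 - 1)) (v : F) :
    Lift406.Bop b M (Pi.single E 1) v = (1 / 2 : ℂ) • ∑ c, Alg2962.ThE b M E c c v := by
  unfold Lift406.Bop Lift406.spin
  rw [_root_.smul_apply, _root_.sum_apply]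
  congr 1
  rw [Fintype.sum_prod_type]
  refine Finset.sum_congr rfl fun c _ => ?_
  unfold Alg2962.ThE
  refine Finset.sum_congr rfl fun A _ => ?_
  rw [_root_.sum_apply, Fintype.sum_prod_type, Finset.sum_eq_single c]
  · refine Finset.sum_congr rfl fun B _ => ?_
    have h : Lift406.gm b (Pi.single E 1) (c, A) (c, B) = b.structConst B A E := by
      unfold Lift406.gm
      rw [if_pos rfl, Finset.sum_eq_single E]
      · simp only [Pi.single_eq_same, mul_one]
        exact (Col962.f_cyc b E B A).symm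
      · intro D _ hD; simp [Pi.single_eq_of_ne hD]
      · simp
    rw [h]
    rfl
  · intro d _ hd
    refine Finset.sum_eq_zero fun B _ => ?_
    have h : Lift406.gm b (Pi.single E 1) (c, A) (d, B) = 0 := by
      unfold Lift406.gm
      rw [if_neg (Ne.symm hd)]
    rw [h]
    simp
  · simp

/-- the gauge generators vanish on equivariant functions -/
theorem Jgauge_zero [Nontrivial F] {b : ColorBasis N} {M : FermionRep N F} (R : GaugeAction b M)
    {φ : Cfg N → F} (hφ : ∀ g x, φ (b.act g x) = R.ρ g (φ x)) {x : Cfg N}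
    (hd : DifferentiableAt ℝ φ x) (E : Fin (N ^ 2 - 1)) : Alg2962.Jg b M E φ x = 0 := by
  have h := Lift406.fderiv_equivariant R φ hφ (Pi.single E 1) x hd
  rw [brC_single, Bop_single, map_neg] at h
  unfold Alg2962.Jg
  rw [← h, add_neg_cancel, smul_zero]

/-- the Hamiltonian on smooth functions -/
def Ham (b : ColorBasis N) (M : FermionRep N F) (G : GammaNine) (g m : ℝ) (φ : Cfg N → F)
    (x : Cfg N) : F := Alg2962.Ham0 b M G g φ x + Hmass b M G g m φ x

/-- **Master identity (1.4)** for equivariant `C²` functions. -/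
theorem master [Nontrivial F] {b : ColorBasis N} {M : FermionRep N F} (R : GaugeAction b M)
    (G : GammaNine) (g m : ℝ) {φ : Cfg N → F} (hφ : ContDiff ℝ 2 φ)
    (he : ∀ g x, φ (b.act g x) = R.ρ g (φ x)) (α β : Fin 16) (x : Cfg N) :
    dcharge b M G g m α (dcharge b M G g m β φ) x + dcharge b M G g m β (dcharge b M G g m α φ) x =
      (if α = β then (2 : ℂ) • Ham b M G g m φ x else 0) +
      ∑ p ∈ pairs, (2 * Complex.I * ((m * cc p.1 * (gg G p * Gam G) α β : ℝ) : ℂ)) •
        SDefs726.Jg M G (rot p.1 p.2) φ x := by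
  rw [anti_mass b M G g m hφ, Alg2962.dcharge_anti_zero_of_gauge b M G g α β hφ x
    (fun E => Jgauge_zero R he (hφ.differentiable (by norm_num) x) E)]
  unfold Ham
  split_ifs
  · rw [smul_add]
  · simp

/-- `H φ = (1/16) Σ_α Q_α Q_α φ`. -/
theorem ham_eq [Nontrivial F] {b : ColorBasis N} {M : FermionRep N F} (R : GaugeAction b M)
    (G : GammaNine) (g m : ℝ) {φ : Cfg N → F} (hφ : ContDiff ℝ 2 φ)
    (he : ∀ g x, φ (b.act g x) = R.ρ g (φ x)) (x : Cfg N) :
    Ham b M G g m φ x =
      (1 / 16 : ℂ) • ∑ α, dcharge b M G g m α (dcharge b M G g m α φ) x := by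
  have h1 : ∀ α, (2 : ℂ) • dcharge b M G g m α (dcharge b M G g m α φ) x =
      (2 : ℂ) • Ham b M G g m φ x +
      ∑ p ∈ pairs, (2 * Complex.I * ((m * cc p.1 * (gg G p * Gam G) α α : ℝ) : ℂ)) •
        SDefs726.Jg M G (rot p.1 p.2) φ x := by
    intro α
    have := master R G g m hφ he α α x
    rw [if_pos rfl, ← two_smul ℂ] at this
    exact this
  have h2 : (2 : ℂ) • ∑ α, dcharge b M G g m α (dcharge b M G g m α φ) x =
      (32 : ℂ) • Ham b M G g m φ x := by
    rw [Finset.smul_sum, Finset.sum_congr rfl fun α _ => h1 α, Finset.sum_add_distrib,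
      Finset.sum_comm]
    have h3 : ∑ p ∈ pairs, ∑ α, (2 * Complex.I *
        ((m * cc p.1 * (gg G p * Gam G) α α : ℝ) : ℂ)) • SDefs726.Jg M G (rot p.1 p.2) φ x = 0 := by
      refine Finset.sum_eq_zero fun p hp => ?_
      rw [← Finset.sum_smul, ← Finset.mul_sum, ← Complex.ofReal_sum, ← Finset.mul_sum]
      have h4 : ∑ α, (gg G p * Gam G) α α = 0 := trace_gg_Gam G hp
      rw [h4]
      simp
    rw [h3, add_zero, Finset.sum_const, Finset.card_univ, Fintype.card_fin,
      ← Nat.cast_smul_eq_nsmul ℂ, smul_smul]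
    norm_num
  have h5 : ∑ α, dcharge b M G g m α (dcharge b M G g m α φ) x = (16 : ℂ) • Ham b M G g m φ x := by
    have h6 := congrArg (fun v => (1 / 2 : ℂ) • v) h2
    simp only [smul_smul] at h6
    norm_num at h6
    exact h6
  rw [h5, smul_smul]
  norm_num

end Crest.Agent.R330.Master288
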