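import Crest.Agent.R330.AnnAbs_245
import Crest.Agent.R330.Chan_441
import Crest.Agent.R330.Close_478
import Crest.Agent.R330.Esa_596
import Crest.Agent.R330.Master_288

/-!
# Row 330, field `ann` (helper245): `AnnHIAll N` from the summed trial system

**annHIAll_of_sys** : `Chan441.SysAll N → Close478.AnnHIAll N`.

Only mass `0` is used: isometry, weak intertwining, radial multiplication, capture on annuli; weak =
strong, equality of the squares and the Hardy inequality on test amplitudes for the limit system.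
-/

set_option autoImplicit false
set_option linter.unusedSectionVars false

open MeasureTheory Filter Topology Set Crest.MathPhysics.MatrixQM
open scoped ContDiff InnerProductSpace ENNReal

noncomputable section

namespace Crest.Agent.R330.AnnHI245

open Crest.Agent.R330.Defs478 Crest.Agent.R330.Top478 Crest.Agent.R330.Sec478
  Crest.Agent.R330.TrialSys796 Crest.Agent.R330.Chan441 Crest.Agent.R330.Dict416
  Crest.Agent.R330.FA416 Crest.Agent.R330.AnnAbs245 Crest.Agent.R330.Brid837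

/-! ### The radial weight -/

/-- A smooth weight `w` with `w(t)² t ≤ 1` for `t ≥ 0`, `w(t)² t = 1` for `1 ≤ t ≤ L²` and compact
support in `(0, ∞)`. -/
theorem exists_weight (L : ℝ) (hL : 1 ≤ L) : ∃ w : ℝ → ℝ, ContDiff ℝ ∞ w ∧
    (∀ t, 0 ≤ t → w t ^ 2 * t ≤ 1) ∧ (∀ t, 1 ≤ t → t ≤ L ^ 2 → w t ^ 2 * t = 1) ∧
    (∀ t, w t ^ 2 ≤ 4) ∧ ∀ t, w t ≠ 0 → 1 / 4 ≤ t ∧ t ≤ L ^ 2 + 1 := by
  have hL2 : 1 ≤ L ^ 2 := by nlinarith
  set c : ℝ := (1 + L ^ 2) / 2 with hc
  have hr1 : (0 : ℝ) < (L ^ 2 - 1) / 2 + 1 / 4 := by linarith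
  have hr2 : (L ^ 2 - 1) / 2 + 1 / 4 < (L ^ 2 - 1) / 2 + 1 / 2 := by linarith
  let η : ContDiffBump c := ⟨(L ^ 2 - 1) / 2 + 1 / 4, (L ^ 2 - 1) / 2 + 1 / 2, hr1, hr2⟩
  have hη1 : ∀ t, 1 ≤ t → t ≤ L ^ 2 → η t = 1 := by
    intro t h1 h2
    refine η.one_of_mem_closedBall ?_
    rw [Metric.mem_closedBall, Real.dist_eq, abs_le]
    show -((L ^ 2 - 1) / 2 + 1 / 4) ≤ t - c ∧ t - c ≤ (L ^ 2 - 1) / 2 + 1 / 4
    rw [hc]
    constructor <;> linarith
  have hη2 : ∀ t, η t ≠ 0 → 1 / 2 < t ∧ t < L ^ 2 + 1 / 2 := by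
    intro t h1
    have h2 : t ∈ Function.support η := h1
    rw [η.support_eq, Metric.mem_ball, Real.dist_eq, abs_lt] at h2
    have h3 : -((L ^ 2 - 1) / 2 + 1 / 2) < t - c ∧ t - c < (L ^ 2 - 1) / 2 + 1 / 2 := h2
    rw [hc] at h3
    constructor <;> linarith [h3.1, h3.2]
  refine ⟨fun t => η t / Real.sqrt t, ?_, ?_, ?_, ?_, ?_⟩
  · rw [contDiff_iff_contDiffAt]
    intro t
    by_cases ht : 1 / 4 < t
    · have h0 : (0 : ℝ) < t := by linarith
      exact (η.contDiff.contDiffAt).div ((Real.contDiffAt_sqrt h0.ne')) (Real.sqrt_ne_zero'.2 h0)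
    · have h1 : (fun t => η t / Real.sqrt t) =ᶠ[𝓝 t] fun _ => 0 := by
        filter_upwards [Iio_mem_nhds (show t < 1 / 2 by linarith [not_lt.1 ht])] with s hs
        have h2 : η s = 0 := by
          by_contra h3
          exact absurd (hη2 s h3).1 (not_lt.2 (le_of_lt hs))
        rw [h2, zero_div]
      exact contDiffAt_const.congr_of_eventuallyEq h1
  · intro t ht
    rcases eq_or_lt_of_le ht with h0 | h0
    · rw [← h0, mul_zero]
      exact zero_le_one
    · rw [div_pow, Real.sq_sqrt ht, div_mul_cancel₀ _ h0.ne']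
      exact pow_le_one₀ η.nonneg η.le_one
  · intro t h1 h2
    have h0 : (0 : ℝ) < t := by linarith
    show (η t / Real.sqrt t) ^ 2 * t = 1
    rw [div_pow, Real.sq_sqrt h0.le, div_mul_cancel₀ _ h0.ne', hη1 t h1 h2, one_pow]
  · intro t
    show (η t / Real.sqrt t) ^ 2 ≤ 4
    by_cases h : η t = 0
    · rw [h, zero_div]
      norm_num
    · have h1 := hη2 t h
      have h0 : (0 : ℝ) < t := by linarith [h1.1]
      rw [div_pow, Real.sq_sqrt h0.le, div_le_iff₀ h0]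
      have h2 : η t ^ 2 ≤ 1 := pow_le_one₀ η.nonneg η.le_one
      linarith [h1.1]
  · intro t ht
    have h : η t ≠ 0 := fun h => ht (by simp [h])
    have h1 := hη2 t h
    constructor <;> linarith [h1.1, h1.2]

/-! ### Multiplication operators on `L²` -/

section mul

variable {N : ℕ} {F : Type*} [NormedAddCommGroup F] [InnerProductSpace ℂ F]

theorem memLp_mul {w : Cfg N → ℝ} (hw : Continuous w) {C : ℝ} (hC : ∀ x, |w x| ≤ C)
    {f : Cfg N → F} (hf : MemLp f 2 volume) :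
    MemLp (fun x => ((w x : ℝ) : ℂ) • f x) 2 volume := by
  refine MemLp.of_le_mul (c := C) hf ?_ ?_
  · exact ((Complex.continuous_ofReal.comp hw).aestronglyMeasurable).smul hf.1
  · refine Eventually.of_forall fun x => ?_
    rw [norm_smul, Complex.norm_real, Real.norm_eq_abs]
    exact mul_le_mul_of_nonneg_right (hC x) (norm_nonneg _)

/-- Multiplication by a bounded continuous function. -/
def mulL {w : Cfg N → ℝ} (hw : Continuous w) {C : ℝ} (hC : ∀ x, |w x| ≤ C) :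
    L2 N F →L[ℂ] L2 N F :=
  LinearMap.mkContinuous
    { toFun := fun f => (memLp_mul hw hC (Lp.memLp f)).toLp _
      map_add' := fun f h => by
        rw [← MemLp.toLp_add]
        refine (MemLp.toLp_eq_toLp_iff _ _).2 ?_
        filter_upwards [Lp.coeFn_add f h] with x hx
        rw [hx]
        simp [smul_add]
      map_smul' := fun c f => by
        rw [RingHom.id_apply, ← MemLp.toLp_const_smul]
        refine (MemLp.toLp_eq_toLp_iff _ _).2 ?_
        filter_upwards [Lp.coeFn_smul c f] with x hx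
        rw [hx]
        simp only [Pi.smul_apply]
        rw [smul_comm] } C (fun f => by
      have hC0 : 0 ≤ C := (abs_nonneg _).trans (hC 0)
      refine (sq_le_sq₀ (norm_nonneg _) (mul_nonneg hC0 (norm_nonneg _))).1 ?_
      show ‖((memLp_mul hw hC (Lp.memLp f)).toLp _ : L2 N F)‖ ^ 2 ≤ _
      rw [norm_toLp_sq, mul_pow, norm_sq_eq_integral f, ← integral_const_mul]
      refine integral_mono ((memLp_mul hw hC (Lp.memLp f)).integrable_norm_pow (by norm_num))
        (((Lp.memLp f).integrable_norm_pow (by norm_num)).const_mul _) fun x => ?_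
      simp only [norm_smul, Complex.norm_real, Real.norm_eq_abs, mul_pow]
      exact mul_le_mul_of_nonneg_right (pow_le_pow_left₀ (abs_nonneg _) (hC x) 2)
        (sq_nonneg _))

theorem mulL_toLp {w : Cfg N → ℝ} (hw : Continuous w) {C : ℝ} (hC : ∀ x, |w x| ≤ C)
    {f : Cfg N → F} (hf : MemLp f 2 volume) :
    mulL hw hC (hf.toLp f : L2 N F) = (memLp_mul hw hC hf).toLp _ := by
  show (memLp_mul hw hC (Lp.memLp (hf.toLp f))).toLp _ = _
  refine (MemLp.toLp_eq_toLp_iff _ _).2 ?_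
  filter_upwards [hf.coeFn_toLp] with x hx
  rw [hx]

end mul

/-! ### The charges on the core -/

section core

variable {N : ℕ} {F : Type*} [NormedAddCommGroup F] [InnerProductSpace ℂ F]
  [FiniteDimensional ℂ F] {b : ColorBasis N} {M : FermionRep N F} {R : GaugeAction b M}

variable (R) in
/-- One charge as a linear map of the core. -/
def qm (G : GammaNine) (g m : ℝ) (α : Fin 16) : core b R →ₗ[ℂ] core b R where
  toFun φ := ⟨dcharge b M G g m α φ.1, core_dcharge φ.2⟩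
  map_add' φ ψ := Subtype.ext (dcharge_add b M G g m α (cv_diff φ.2) (cv_diff ψ.2))
  map_smul' c φ := Subtype.ext (dcharge_smul b M G g m α c (cv_diff φ.2))

theorem qm_coe (G : GammaNine) (g m : ℝ) (α : Fin 16) (φ : core b R) :
    (qm R G g m α φ).1 = dcharge b M G g m α φ.1 := rfl

theorem ιC_qm (G : GammaNine) (g m : ℝ) (α : Fin 16) (φ : core b R) :
    ιC R (qm R G g m α φ) = qL R G g m α φ := rfl

theorem qm_symm (G : GammaNine) (g m : ℝ) (α : Fin 16) (u v : core b R) :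
    ⟪ιC R (qm R G g m α u), ιC R v⟫_ℂ = ⟪ιC R u, ιC R (qm R G g m α v)⟫_ℂ := by
  rw [inner_ιC, inner_ιC]
  exact dcharge_symm (u.2.1.of_le (by norm_cast)) (v.2.1.of_le (by norm_cast)) (Or.inl u.2.2.1)

theorem qm_sq [Nontrivial F] (G : GammaNine) (g : ℝ) (α β : Fin 16) (v : core b R) :
    qm R G g 0 β (qm R G g 0 β v) = qm R G g 0 α (qm R G g 0 α v) := by
  have key : ∀ γ : Fin 16, ∀ x, dcharge b M G g 0 γ (dcharge b M G g 0 γ v.1) x =
      Master288.Ham b M G g 0 v.1 x := by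
    intro γ x
    have h1 := Master288.master R G g 0 (v.2.1.of_le (by norm_cast)) v.2.2.2 γ γ x
    rw [if_pos rfl] at h1
    simp only [zero_mul, Complex.ofReal_zero, mul_zero, zero_smul, Finset.sum_const_zero,
      add_zero] at h1
    rw [← two_smul ℂ] at h1
    exact smul_right_injective F (two_ne_zero : (2 : ℂ) ≠ 0) h1
  refine Subtype.ext (funext fun x => ?_)
  rw [qm_coe, qm_coe, qm_coe, qm_coe, key, key]

theorem norm_mulL_sq {w : Cfg N → ℝ} (hw : Continuous w) {C : ℝ} (hC : ∀ x, |w x| ≤ C)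
    (v : core b R) : ‖mulL hw hC (ιC R v)‖ ^ 2 = ∫ x, w x ^ 2 * ‖v.1 x‖ ^ 2 := by
  rw [ιC_apply, mulL_toLp hw hC (cv_memLp v.2), norm_toLp_sq]
  refine integral_congr_ae (Eventually.of_forall fun x => ?_)
  simp only [norm_smul, Complex.norm_real, Real.norm_eq_abs, mul_pow, sq_abs]

theorem norm_sub_mulL_sq {w : Cfg N → ℝ} (hw : Continuous w) {C : ℝ} (hC : ∀ x, |w x| ≤ C)
    (u v : core b R) : ‖ιC R u - mulL hw hC (ιC R v)‖ ^ 2 =
      ∫ x, ‖u.1 x - ((w x : ℝ) : ℂ) • v.1 x‖ ^ 2 := by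
  rw [ιC_apply v, mulL_toLp hw hC (cv_memLp v.2), norm_ιC_sub_sq]

theorem En_eq (G : GammaNine) (g : ℝ) (v : core b R) :
    AnnAbs245.En (ιC R) (qm R G g 0) v = (∫ x, ‖v.1 x‖ ^ 2) + 16 * qf b M G g 0 v.1 := by
  unfold AnnAbs245.En
  rw [norm_ιC_sq]
  congr 1
  simp only [ιC_qm, norm_qL_sq, qf]
  ring

theorem qf_nonneg' (G : GammaNine) (g m : ℝ) (φ : Cfg N → F) : 0 ≤ qf b M G g m φ := by
  unfold qf
  refine mul_nonneg (by norm_num) (Finset.sum_nonneg fun α _ => integral_nonneg fun x => ?_)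
  positivity

theorem En_le (G : GammaNine) (g : ℝ) (v : core b R) :
    TrialSys796.En b M G g 0 v.1 ≤ AnnAbs245.En (ιC R) (qm R G g 0) v := by
  rw [En_eq]
  unfold TrialSys796.En
  have := qf_nonneg' (b := b) (M := M) G g 0 v.1
  linarith

end core

/-! ### The theorem for one set of data -/

section main

variable {N : ℕ} {F : Type*} [NormedAddCommGroup F] [InnerProductSpace ℂ F]
  [FiniteDimensional ℂ F] [Nontrivial F] {b : ColorBasis N} {M : FermionRep N F}
  {R : GaugeAction b M} {G : GammaNine}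
  {L : Type*} [NormedAddCommGroup L] [InnerProductSpace ℂ L] [CompleteSpace L] {X : Type*}
  [AddCommGroup X] [Module ℂ X] {e : X →ₗ[ℂ] L} {D : ℝ → Fin 16 → X →ₗ[ℂ] X}
  {W : (ℝ → ℝ) → X →ₗ[ℂ] X} {T : ℝ → X → Cfg N → F} {K0 : Submodule ℂ L} {d : ℕ}

open Classical in
/-- The trial map with values in the core. -/
def Tc (R : GaugeAction b M) (T : ℝ → X → Cfg N → F) (g : ℝ) (χ : X) : core b R :=
  if h : IsCoreVec b R (T g χ) then ⟨T g χ, h⟩ else 0

theorem Tc_coe {g : ℝ} {χ : X} (h : IsCoreVec b R (T g χ)) : (Tc R T g χ).1 = T g χ := by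
  unfold Tc
  rw [dif_pos h]

theorem sys_of (hC : IsChan b M R G e D W T) :
    Sys (ιC R) (fun g => qm R G g 0) e (D 0) (Tc R T) where
  sym g a u v := qm_symm G g 0 a u v
  iso χ χ' := by
    refine (hC.iso χ χ').congr' ?_
    filter_upwards [hC.core χ, hC.core χ'] with g h1 h2
    rw [inner_ιC, Tc_coe h1, Tc_coe h2]
  dec χ a ε hε := by
    filter_upwards [hC.dual 0 (Or.inl rfl) χ a ε hε, hC.core χ, hC.core (D 0 a χ)] with g h1 h2 h3 v
    have h4 := h1 v.1 v.2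
    have h5 : ⟪ιC R v, ιC R (qm R G g 0 a (Tc R T g χ) - Tc R T g (D 0 a χ))⟫_ℂ =
        ∫ x, ⟪v.1 x, dcharge b M G g 0 a (T g χ) x - T g (D 0 a χ) x⟫_ℂ := by
      rw [inner_ιC]
      refine integral_congr_ae (Eventually.of_forall fun x => ?_)
      show ⟪v.1 x, (qm R G g 0 a (Tc R T g χ)).1 x - (Tc R T g (D 0 a χ)).1 x⟫_ℂ = _
      rw [qm_coe, Tc_coe h2, Tc_coe h3]
    rw [h5]
    exact h4.trans (mul_le_mul_of_nonneg_left (Real.sqrt_le_sqrt (En_le G g v)) hε.le)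

set_option maxHeartbeats 1000000 in
/-- **`AnnHI` from the trial system at mass `0`.** -/
theorem annHI_of (hL : IsLim e D W K0 d) (hC : IsChan b M R G e D W T)
    (hcap : CapAnn b M R G 0 T) {κ : ℝ} (hκ : κ < 49 / 8) (Λ : ℝ) :
    HIAnn245.AnnHI b M R G κ Λ := by
  have := hL.sep
  set Λ' : ℝ := max Λ 1 with hΛ'
  have hΛ1 : 1 ≤ Λ' := le_max_right _ _
  obtain ⟨w, hw1, hw2, hw3, hw4, hw5⟩ := exists_weight Λ' hΛ1
  set wx : Cfg N → ℝ := fun x => w (‖x‖ ^ 2) with hwx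
  have hwc : Continuous wx := hw1.continuous.comp (continuous_norm.pow 2)
  have hwb : ∀ x, |wx x| ≤ 2 := fun x => by
    have h1 := hw4 (‖x‖ ^ 2)
    have h2 : |wx x| ^ 2 ≤ 2 ^ 2 := by
      rw [sq_abs]
      linarith
    exact (sq_le_sq₀ (abs_nonneg _) (by norm_num)).1 h2
  set B : L2 N F →L[ℂ] L2 N F := mulL hwc hwb with hB
  have hS := sys_of hC
  have hBι : ∀ v : core b R, ‖B (ιC R v)‖ ^ 2 = ∫ x, wx x ^ 2 * ‖v.1 x‖ ^ 2 :=
    norm_mulL_sq hwc hwb
  -- recovery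
  have hrec := hS.recover (0 : Fin 16) (fun g β v => qm_sq G g 0 β v)
    (fun β χ => hL.sq β 0 χ) (fun β χ χ' => hL.symm 0 β χ χ') (by
      intro g _ v ε hε
      have h1 := Esa596.dense_sub (R := R) (G := G) (g := g) (m := 0) (0 : Fin 16)
        (c := Complex.I) (by simp) (mem_clo v)
      obtain ⟨φ, h2⟩ := mem_clo_iff.1 h1
      obtain ⟨n, hn⟩ := ((tendsto_iff_norm_sub_tendsto_zero.1 h2).eventually_lt_const hε).exists
      refine ⟨φ n, ?_⟩
      rw [Esa596.qsub_apply] at hn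
      exact hn)
  -- capture
  have hcap' : ∀ (g : ℕ → ℝ) (v : ℕ → core b R) (C : ℝ), Tendsto g atTop atTop →
      (∀ j, AnnAbs245.En (ιC R) (qm R G (g j) 0) (v j) ≤ C) →
      (∀ χ, Tendsto (fun j => ⟪ιC R (Tc R T (g j) χ), ιC R (v j)⟫_ℂ) atTop (𝓝 0)) →
      Tendsto (fun j => ‖B (ιC R (v j))‖) atTop (𝓝 0) := by
    intro g v C hg hv hT
    have h1 := hcap g (fun j => (v j).1) C hg (fun j => (v j).2)
      (fun j => (En_le G (g j) (v j)).trans (hv j)) (fun χ => by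
        refine (hT χ).congr' ?_
        filter_upwards [hg.eventually (hC.core χ)] with j hj
        rw [inner_ιC, Tc_coe hj]) (1 / 2) (Λ' + 1) (by norm_num)
    have h2 : Tendsto (fun j => 4 * ∫ x in {x : Cfg N | 1 / 2 ≤ ‖x‖ ∧ ‖x‖ ≤ Λ' + 1},
        ‖(v j).1 x‖ ^ 2) atTop (𝓝 0) := by
      have := h1.const_mul 4
      rwa [mul_zero] at this
    have h3 : Tendsto (fun j => ‖B (ιC R (v j))‖ ^ 2) atTop (𝓝 0) := by
      refine squeeze_zero (fun _ => sq_nonneg _) (fun j => ?_) h2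
      rw [hBι]
      have hSm : MeasurableSet {x : Cfg N | 1 / 2 ≤ ‖x‖ ∧ ‖x‖ ≤ Λ' + 1} :=
        ((isClosed_le continuous_const continuous_norm).inter
          (isClosed_le continuous_norm continuous_const)).measurableSet
      have hint : Integrable (fun x => ‖(v j).1 x‖ ^ 2) :=
        (cv_memLp (v j).2).integrable_norm_pow (by norm_num)
      rw [← integral_const_mul, ← integral_indicator hSm]
      refine integral_mono_of_nonneg (Eventually.of_forall fun x => by positivity) ?_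
        (Eventually.of_forall fun x => ?_)
      · exact Integrable.indicator (hint.const_mul 4) hSm
      · show wx x ^ 2 * ‖(v j).1 x‖ ^ 2 ≤ _
        by_cases hx : wx x = 0
        · rw [hx, zero_pow two_ne_zero, zero_mul]
          exact Set.indicator_nonneg (fun _ _ => by positivity) _
        · have h4 := hw5 _ hx
          have h5 : x ∈ {x : Cfg N | 1 / 2 ≤ ‖x‖ ∧ ‖x‖ ≤ Λ' + 1} := by
            constructor
            · nlinarith [norm_nonneg x, h4.1]
            · nlinarith [norm_nonneg x, h4.2]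
          rw [Set.indicator_of_mem h5]
          exact mul_le_mul_of_nonneg_right (hw4 _) (sq_nonneg _)
    have h4 := h3.sqrt
    rw [Real.sqrt_zero] at h4
    exact h4.congr fun j => Real.sqrt_sq (norm_nonneg _)
  -- the weight of the trial states
  have hW : ∀ χ, Tendsto (fun g => ‖ιC R (Tc R T g (W w χ)) - B (ιC R (Tc R T g χ))‖) atTop
      (𝓝 0) := by
    intro χ
    have h1 : Tendsto (fun g => ‖ιC R (Tc R T g (W w χ)) - B (ιC R (Tc R T g χ))‖ ^ 2) atTop
        (𝓝 0) := by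
      refine (hC.rad w hw1 χ).congr' ?_
      filter_upwards [hC.core χ, hC.core (W w χ)] with g h2 h3
      rw [norm_sub_mulL_sq hwc hwb, Tc_coe h2, Tc_coe h3]
    have h4 := h1.sqrt
    rw [Real.sqrt_zero] at h4
    exact h4.congr fun j => Real.sqrt_sq (norm_nonneg _)
  have hws : ∀ (f : L) (k : Fin 16 → L), (∀ χ a, ⟪f, e (D 0 a χ)⟫_ℂ = ⟪k a, e χ⟫_ℂ) →
      ∀ ε : ℝ, 0 < ε → ∃ χ, ‖e χ - f‖ ≤ ε ∧ ∀ a, ‖e (D 0 a χ) - k a‖ ≤ ε := by
    intro f k h
    refine hL.ws f k fun χ a => ?_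
    rw [← inner_conj_symm, h, inner_conj_symm]
  obtain ⟨g₀, hg₀⟩ := hS.ann hrec hws B (fun χ => W w χ) hW hcap' (κ := 49 / 8)
    (c₀ := 1 / 16) (by norm_num) (fun χ => hL.hardy w hw1 hw2 χ) hκ Λ'
  refine ⟨g₀, fun g hg φ hφ hsupp => ?_⟩
  have hsupp' : ∀ x, φ x ≠ 0 → 1 ≤ ‖x‖ ^ 2 ∧ ‖x‖ ^ 2 ≤ Λ' ^ 2 := by
    intro x hx
    obtain ⟨h1, h2⟩ := hsupp x hx
    have h3 : ‖x‖ ≤ Λ' := h2.trans (le_max_left _ _)
    exact ⟨by nlinarith, pow_le_pow_left₀ (norm_nonneg _) h3 2⟩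
  have hBφ : ‖B (ιC R ⟨φ, hφ⟩)‖ ^ 2 = ∫ x, ‖φ x‖ ^ 2 / ‖x‖ ^ 2 := by
    rw [hBι]
    refine integral_congr_ae (Eventually.of_forall fun x => ?_)
    show wx x ^ 2 * ‖φ x‖ ^ 2 = ‖φ x‖ ^ 2 / ‖x‖ ^ 2
    by_cases hx : φ x = 0
    · rw [hx, norm_zero, zero_pow two_ne_zero, mul_zero, zero_div]
    · obtain ⟨h1, h2⟩ := hsupp' x hx
      have h3 := hw3 _ h1 h2
      have h0 : (0 : ℝ) < ‖x‖ ^ 2 := by linarith
      have h4 : wx x ^ 2 = 1 / ‖x‖ ^ 2 := by
        rw [eq_div_iff h0.ne']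
        exact h3
      rw [h4]
      ring
  have hφB : ‖ιC R ⟨φ, hφ⟩‖ ≤ Λ' * ‖B (ιC R ⟨φ, hφ⟩)‖ := by
    refine (sq_le_sq₀ (norm_nonneg _) (by positivity)).1 ?_
    rw [mul_pow, hBφ, norm_ιC_sq, ← integral_const_mul]
    have hint : Integrable (fun x => ‖φ x‖ ^ 2) := (cv_memLp hφ).integrable_norm_pow (by norm_num)
    have e1 : ∀ x, Λ' ^ 2 * (‖φ x‖ ^ 2 / ‖x‖ ^ 2) = Λ' ^ 2 * (wx x ^ 2 * ‖φ x‖ ^ 2) := by
      intro x
      by_cases hx : φ x = 0
      · rw [hx, norm_zero, zero_pow two_ne_zero, mul_zero, zero_div]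
      · obtain ⟨h1, h2⟩ := hsupp' x hx
        have h3 := hw3 _ h1 h2
        have h0 : (0 : ℝ) < ‖x‖ ^ 2 := by linarith
        have h4 : wx x ^ 2 = 1 / ‖x‖ ^ 2 := by
          rw [eq_div_iff h0.ne']
          exact h3
        rw [h4]
        ring
    have hint2 : Integrable (fun x => Λ' ^ 2 * (‖φ x‖ ^ 2 / ‖x‖ ^ 2)) := by
      refine (Integrable.congr ?_ (Eventually.of_forall fun x => (e1 x).symm))
      refine Integrable.const_mul ?_ _
      refine Integrable.mono' (hint.const_mul 4) ?_ (Eventually.of_forall fun x => ?_)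
      · exact ((hwc.pow 2).aestronglyMeasurable).mul hint.1
      · rw [Real.norm_eq_abs, abs_of_nonneg (by positivity)]
        exact mul_le_mul_of_nonneg_right (hw4 _) (sq_nonneg _)
    refine integral_mono hint hint2 fun x => ?_
    show ‖φ x‖ ^ 2 ≤ Λ' ^ 2 * (‖φ x‖ ^ 2 / ‖x‖ ^ 2)
    by_cases hx : φ x = 0
    · rw [hx, norm_zero, zero_pow two_ne_zero, zero_div, mul_zero]
    · obtain ⟨h1, h2⟩ := hsupp' x hx
      have h0 : (0 : ℝ) < ‖x‖ ^ 2 := by linarith
      rw [mul_div_assoc', le_div_iff₀ h0]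
      nlinarith [sq_nonneg ‖φ x‖]
  have h1 := hg₀ g hg ⟨φ, hφ⟩ hφB
  rw [hBφ] at h1
  refine h1.trans (le_of_eq ?_)
  simp only [ιC_qm, norm_qL_sq, qf]

end main

/-- **Field `ann`: the annulus Hardy inequality for all data.** -/
theorem annHIAll_of_sys {N : ℕ} (h : SysAll N) : Close478.AnnHIAll N := by
  intro F _ _ _ _ b M R G κ hκ Λ
  obtain ⟨L, _, _, _, X, _, _, e, D, W, T, K0, hL, hC, hcap, -⟩ := h F b M R G
  exact annHI_of hL hC hcap hκ Λ

end Crest.Agent.R330.AnnHI245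

end
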