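import Crest.Agent.R330.Dbl_798

/-!
# Row 330, S5-AVG: group averaging (helper798)

`avg μ ρ act f x = ∫ g, ρ g⁻¹ (f (act g x)) ∂μ`.

* `isMulRightInvariant_of_compact`, `isInvInvariant_of_compact` : a Haar probability measure on a
  compact group is right and inversion invariant.
* `avg_weight` : `∫ κ F = ∫ F κ̄`, `κ̄ x = ∫ κ (act g⁻¹ x)`, for invariant `F`.
* `ball_eq`, `ball_le`, `le_ball` : localisation of invariant integrals in a ball about `p`.
* `unfold_weight` : `∫ F = ∫ F κ / κ̄`.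
* `avg_equivariant`, `continuous_avg`, `norm_avg_le` : the average.
* `avg_upper` : `∫ ‖avg f‖² ≤ μ (near p 2R) ∫ ‖f‖²` if `f` lives in `closedBall p R`.
* `avg_sq` : `∫ ‖avg f‖² = re ∫_g ∫_x ⟪ρ g⁻¹ (f (act g x)), f x⟫`.
* `avg_lower` : lower bound for `∫ ‖avg f‖²`.
-/

set_option linter.unusedSectionVars false
set_option linter.unusedVariables false
set_option linter.style.haveILetI false

open MeasureTheory Metric Set Module Filter Topology
open scoped ENNReal NNReal InnerProductSpace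

noncomputable section

namespace Crest.Agent.R330.Avg798

open Crest.Agent.R330.Dbl798

/-! ## invariance of the Haar probability measure -/

section Haar

variable {G : Type*} [Group G] [TopologicalSpace G] [IsTopologicalGroup G] [CompactSpace G]
  [MeasurableSpace G] [BorelSpace G] (μ : Measure G) [μ.IsHaarMeasure] [IsProbabilityMeasure μ]

theorem isMulRightInvariant_of_compact : μ.IsMulRightInvariant := by
  constructor
  intro g
  haveI : IsProbabilityMeasure (Measure.map (fun x => x * g) μ) :=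
    Measure.isProbabilityMeasure_map (measurable_mul_const g).aemeasurable
  exact Measure.isHaarMeasure_eq_of_isProbabilityMeasure _ _

theorem isInvInvariant_of_compact : μ.IsInvInvariant := by
  haveI := isMulRightInvariant_of_compact μ
  constructor
  haveI : IsProbabilityMeasure μ.inv := by
    rw [Measure.inv_def]
    exact Measure.isProbabilityMeasure_map measurable_inv.aemeasurable
  haveI : μ.inv.IsHaarMeasure := { }
  exact Measure.isHaarMeasure_eq_of_isProbabilityMeasure _ _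

end Haar

/-! ## localisation of invariant integrals -/

section Loc

variable {G : Type*} [Group G] [TopologicalSpace G] [IsTopologicalGroup G] [MeasurableSpace G]
  [BorelSpace G] [SecondCountableTopology G]
variable {E : Type*} [NormedAddCommGroup E] [NormedSpace ℝ E] [FiniteDimensional ℝ E]
  [MeasurableSpace E] [BorelSpace E]
variable (μ : Measure G) [IsProbabilityMeasure μ] (ν : Measure E) [SFinite ν]
variable {act : G → E → E}

theorem measurable_act (H : IsoAct act) : Measurable fun q : G × E => act q.1 q.2 :=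
  H.cont.measurable

theorem measurable_act_inv (H : IsoAct act) : Measurable fun q : G × E => act q.1⁻¹ q.2 :=
  (H.cont.comp ((continuous_inv.comp continuous_fst).prodMk continuous_snd)).measurable

/-- averaged weight -/
def bar (act : G → E → E) (κ : E → ℝ≥0∞) (x : E) : ℝ≥0∞ := ∫⁻ g, κ (act g⁻¹ x) ∂μ

theorem measurable_bar (H : IsoAct act) {κ : E → ℝ≥0∞} (hκ : Measurable κ) :
    Measurable (bar μ act κ) :=
  Measurable.lintegral_prod_left' (f := fun q : G × E => κ (act q.1⁻¹ q.2))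
    (hκ.comp (measurable_act_inv H))

theorem avg_weight (H : IsoAct act) (hν : ∀ g, MeasurePreserving (act g) ν ν)
    {κ F : E → ℝ≥0∞} (hκ : Measurable κ) (hF : Measurable F)
    (hinv : ∀ g x, F (act g x) = F x) :
    ∫⁻ x, κ x * F x ∂ν = ∫⁻ x, bar μ act κ x * F x ∂ν := by
  have h1 : ∀ g : G, ∫⁻ x, κ x * F x ∂ν = ∫⁻ x, κ (act g⁻¹ x) * F x ∂ν := by
    intro g
    have h2 := (hν g⁻¹).lintegral_comp (f := fun x => κ x * F x) (hκ.mul hF)
    rw [← h2]
    refine lintegral_congr fun x => ?_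
    show κ (act g⁻¹ x) * F (act g⁻¹ x) = _
    rw [hinv]
  calc ∫⁻ x, κ x * F x ∂ν = ∫⁻ _g, (∫⁻ x, κ x * F x ∂ν) ∂μ := by
        rw [lintegral_const, measure_univ, mul_one]
    _ = ∫⁻ g, (∫⁻ x, κ (act g⁻¹ x) * F x ∂ν) ∂μ := lintegral_congr fun g => h1 g
    _ = ∫⁻ x, (∫⁻ g, κ (act g⁻¹ x) * F x ∂μ) ∂ν := by
        refine lintegral_lintegral_swap ?_
        exact ((hκ.comp (measurable_act_inv H)).mul (hF.comp measurable_snd)).aemeasurable
    _ = ∫⁻ x, bar μ act κ x * F x ∂ν := by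
        refine lintegral_congr fun x => ?_
        have hm : Measurable fun g : G => κ (act g⁻¹ x) :=
          hκ.comp ((measurable_act_inv H).comp (measurable_id.prodMk measurable_const))
        rw [bar, lintegral_mul_const _ hm]

/-- the averaged weight is invariant -/
theorem bar_inv [μ.IsMulLeftInvariant] (H : IsoAct act) {κ : E → ℝ≥0∞} (hκ : Measurable κ)
    (h : G) (x : E) : bar μ act κ (act h x) = bar μ act κ x := by
  unfold bar
  have h1 : ∀ g : G, κ (act g⁻¹ (act h x)) = (fun g => κ (act g⁻¹ x)) (h⁻¹ * g) := by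
    intro g
    simp only [mul_inv_rev, inv_inv, H.mul]
  simp_rw [h1]
  exact lintegral_mul_left_eq_self (μ := μ) (fun g => κ (act g⁻¹ x)) h⁻¹

theorem bar_ball (H : IsoAct act) (p x : E) (r : ℝ) :
    bar μ act ((closedBall p r).indicator 1) x = μ (hit act p x r) := by
  unfold bar
  rw [← lintegral_indicator_one (measurableSet_hit H p x r)]
  refine lintegral_congr fun g => ?_
  by_cases hg : g ∈ hit act p x r
  · rw [indicator_of_mem hg, indicator_of_mem]
    · rfl
    · rw [mem_closedBall, H.dist_inv]; exact hg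
  · rw [indicator_of_notMem hg, indicator_of_notMem]
    rw [mem_closedBall, H.dist_inv]; exact hg

theorem ball_eq (H : IsoAct act) (hν : ∀ g, MeasurePreserving (act g) ν ν)
    {F : E → ℝ≥0∞} (hF : Measurable F) (hinv : ∀ g x, F (act g x) = F x) (p : E) (r : ℝ) :
    ∫⁻ x in closedBall p r, F x ∂ν = ∫⁻ x, μ (hit act p x r) * F x ∂ν := by
  have hm : Measurable ((closedBall p r).indicator (1 : E → ℝ≥0∞)) :=
    measurable_one.indicator measurableSet_closedBall
  rw [← lintegral_indicator measurableSet_closedBall]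
  have h1 := avg_weight μ ν H hν hm hF hinv
  simp_rw [bar_ball μ H] at h1
  rw [← h1]
  refine lintegral_congr fun x => ?_
  by_cases hx : x ∈ closedBall p r
  · simp [hx]
  · simp [hx]

theorem ball_le [μ.IsMulLeftInvariant] (H : IsoAct act)
    (hν : ∀ g, MeasurePreserving (act g) ν ν)
    {F : E → ℝ≥0∞} (hF : Measurable F) (hinv : ∀ g x, F (act g x) = F x) (p : E) (r : ℝ) :
    ∫⁻ x in closedBall p r, F x ∂ν ≤ μ (near act p (2 * r)) * ∫⁻ x, F x ∂ν := by
  rw [ball_eq μ ν H hν hF hinv, ← lintegral_const_mul _ hF]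
  exact lintegral_mono fun x => mul_le_mul_left (hit_le μ H p x r) _

theorem le_ball [μ.IsMulLeftInvariant] (H : IsoAct act)
    (hν : ∀ g, MeasurePreserving (act g) ν ν)
    {F : E → ℝ≥0∞} (hF : Measurable F) (hinv : ∀ g x, F (act g x) = F x) (p : E) (r a : ℝ)
    {S : Set E} (hSm : MeasurableSet S) (hS : ∀ x ∈ S, ∃ h : G, dist x (act h p) ≤ r) :
    μ (near act p a) * ∫⁻ x in S, F x ∂ν ≤ ∫⁻ x in closedBall p (r + a), F x ∂ν := by
  rw [ball_eq μ ν H hν hF hinv, ← lintegral_const_mul _ hF]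
  calc ∫⁻ x in S, μ (near act p a) * F x ∂ν
      ≤ ∫⁻ x in S, μ (hit act p x (r + a)) * F x ∂ν := by
        refine setLIntegral_mono' hSm fun x hx => ?_
        obtain ⟨h, hh⟩ := hS x hx
        exact mul_le_mul_left (le_hit μ H p x ⟨h, hh⟩) _
    _ ≤ ∫⁻ x, μ (hit act p x (r + a)) * F x ∂ν := setLIntegral_le_lintegral _ _

/-- (U0): unfolding an invariant integral with a weight. -/
theorem unfold_weight [μ.IsMulLeftInvariant] (H : IsoAct act)
    (hν : ∀ g, MeasurePreserving (act g) ν ν)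
    {κ F : E → ℝ≥0∞} (hκ : Measurable κ) (hF : Measurable F)
    (hinv : ∀ g x, F (act g x) = F x) (h0 : ∀ x, bar μ act κ x ≠ 0)
    (htop : ∀ x, bar μ act κ x ≠ ∞) :
    ∫⁻ x, F x ∂ν = ∫⁻ x, κ x * (F x / bar μ act κ x) ∂ν := by
  have h1 := avg_weight μ ν H hν (F := fun x => F x / bar μ act κ x) hκ
    (hF.div (measurable_bar μ H hκ)) (fun g x => by rw [hinv, bar_inv μ H hκ])
  rw [h1]
  refine lintegral_congr fun x => ?_
  rw [ENNReal.mul_div_cancel (h0 x) (htop x)]

end Loc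

/-! ## averages of `F`-valued functions -/

section Average

variable {G : Type*} [Group G] [TopologicalSpace G] [IsTopologicalGroup G] [CompactSpace G]
  [MeasurableSpace G] [BorelSpace G] [SecondCountableTopology G]
variable {E : Type*} [NormedAddCommGroup E] [NormedSpace ℝ E] [FiniteDimensional ℝ E]
  [MeasurableSpace E] [BorelSpace E]
variable {F : Type*} [NormedAddCommGroup F] [InnerProductSpace ℂ F] [FiniteDimensional ℂ F]
variable (μ : Measure G) [IsProbabilityMeasure μ] (ν : Measure E) [IsFiniteMeasureOnCompacts ν]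
  [SFinite ν]
variable {act : G → E → E} (ρ : G →* (F →ₗ[ℂ] F))

/-- unitarity and continuity of `ρ` as in `GaugeAction` -/
structure URep (ρ : G →* (F →ₗ[ℂ] F)) : Prop where
  cont : Continuous fun g => LinearMap.toContinuousLinearMap (ρ g)
  unit : ∀ g (v w : F), ⟪ρ g v, ρ g w⟫_ℂ = ⟪v, w⟫_ℂ

theorem URep.norm_map {ρ : G →* (F →ₗ[ℂ] F)} (hρ : URep ρ) (g : G) (v : F) :
    ‖ρ g v‖ = ‖v‖ := by
  have h1 := hρ.unit g v v
  rw [inner_self_eq_norm_sq_to_K, inner_self_eq_norm_sq_to_K] at h1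
  have h2 : ‖ρ g v‖ ^ 2 = ‖v‖ ^ 2 := by exact_mod_cast h1
  exact (pow_left_inj₀ (norm_nonneg _) (norm_nonneg _) two_ne_zero).1 h2

theorem URep.continuous_apply {ρ : G →* (F →ₗ[ℂ] F)} (hρ : URep ρ) {X : Type*}
    [TopologicalSpace X] {a : X → G} {v : X → F} (ha : Continuous a) (hv : Continuous v) :
    Continuous fun x => ρ (a x) (v x) :=
  (hρ.cont.comp ha).clm_apply hv

theorem URep.inv_apply (ρ : G →* (F →ₗ[ℂ] F)) (g : G) (v : F) : ρ g⁻¹ (ρ g v) = v := by
  rw [← Module.End.mul_apply, ← map_mul, inv_mul_cancel, map_one, Module.End.one_apply]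

theorem URep.apply_inv (ρ : G →* (F →ₗ[ℂ] F)) (g : G) (v : F) : ρ g (ρ g⁻¹ v) = v := by
  rw [← Module.End.mul_apply, ← map_mul, mul_inv_cancel, map_one, Module.End.one_apply]

/-- The average. -/
def avg (act : G → E → E) (f : E → F) (x : E) : F := ∫ g, ρ g⁻¹ (f (act g x)) ∂μ

/-- The integrand is jointly continuous. -/
theorem cont_integrand (H : IsoAct act) {ρ : G →* (F →ₗ[ℂ] F)} (hρ : URep ρ) {f : E → F}
    (hf : Continuous f) : Continuous fun q : G × E => ρ q.1⁻¹ (f (act q.1 q.2)) :=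
  hρ.continuous_apply (continuous_inv.comp continuous_fst) (hf.comp H.cont)

theorem integrable_integrand (H : IsoAct act) {ρ : G →* (F →ₗ[ℂ] F)} (hρ : URep ρ) {f : E → F}
    (hf : Continuous f) (x : E) : Integrable (fun g => ρ g⁻¹ (f (act g x))) μ := by
  have hc : Continuous fun g : G => ρ g⁻¹ (f (act g x)) :=
    (cont_integrand H hρ hf).comp (continuous_id.prodMk continuous_const)
  exact hc.integrable_of_hasCompactSupport (HasCompactSupport.of_compactSpace _)

theorem avg_equivariant [μ.IsHaarMeasure] (H : IsoAct act) {f : E → F} (h : G) (x : E)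
    (hint : Integrable (fun g => ρ g⁻¹ (f (act g x))) μ) :
    avg μ ρ act f (act h x) = ρ h (avg μ ρ act f x) := by
  haveI := isMulRightInvariant_of_compact μ
  unfold avg
  have h1 : ∀ g : G, ρ g⁻¹ (f (act g (act h x))) =
      (fun k => ρ h (ρ k⁻¹ (f (act k x)))) (g * h) := by
    intro g
    simp only [mul_inv_rev, H.mul, map_mul, Module.End.mul_apply]
    rw [URep.apply_inv]
  simp_rw [h1]
  rw [integral_mul_right_eq_self (μ := μ) (fun k => ρ h (ρ k⁻¹ (f (act k x)))) h]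
  exact ContinuousLinearMap.integral_comp_comm (LinearMap.toContinuousLinearMap (ρ h)) hint

theorem continuous_avg (H : IsoAct act) {ρ : G →* (F →ₗ[ℂ] F)} (hρ : URep ρ) {f : E → F}
    (hf : Continuous f) : Continuous (avg μ ρ act f) := by
  have hc : Continuous (Function.uncurry fun (x : E) (g : G) => ρ g⁻¹ (f (act g x))) :=
    (cont_integrand H hρ hf).comp (continuous_snd.prodMk continuous_fst)
  have := continuous_parametric_integral_of_continuous (μ := μ) hc isCompact_univ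
  rw [Measure.restrict_univ] at this
  exact this

theorem hasCompactSupport_avg (H : IsoAct act) {f : E → F} {p : E} {R : ℝ}
    (hsupp : ∀ x, f x ≠ 0 → dist x p ≤ R) : HasCompactSupport (avg μ ρ act f) := by
  haveI : ProperSpace E := FiniteDimensional.proper ℝ E
  have hK : IsCompact ((fun q : G × E => act q.1⁻¹ q.2) '' (univ ×ˢ closedBall p R)) :=
    (isCompact_univ.prod (isCompact_closedBall p R)).image
      (H.cont.comp ((continuous_inv.comp continuous_fst).prodMk continuous_snd))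
  refine HasCompactSupport.intro hK fun x hx => ?_
  unfold avg
  rw [integral_eq_zero_of_ae]
  filter_upwards with g
  have : f (act g x) = 0 := by
    by_contra hne
    refine hx ⟨(g, act g x), ⟨mem_univ _, hsupp _ hne⟩, ?_⟩
    exact H.inv_act g x
  simp [this]

/-- pointwise Cauchy-Schwarz for the average -/
theorem enorm_avg_sq_le [μ.IsHaarMeasure] (H : IsoAct act) {ρ : G →* (F →ₗ[ℂ] F)} (hρ : URep ρ)
    {f : E → F} (hf : Continuous f) {p : E} {R : ℝ} (hsupp : ∀ x, f x ≠ 0 → dist x p ≤ R)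
    (x : E) :
    ‖avg μ ρ act f x‖ₑ ^ 2 ≤ μ (near act p (2 * R)) * ∫⁻ g, ‖f (act g x)‖ₑ ^ 2 ∂μ := by
  haveI := isInvInvariant_of_compact μ
  set A : Set G := {g | dist (act g x) p ≤ R} with hA
  have hAm : MeasurableSet A :=
    (isClosed_le ((H.cont_left x).dist continuous_const) continuous_const).measurableSet
  have hAhit : A = (hit act p x R)⁻¹ := by
    ext g
    show dist (act g x) p ≤ R ↔ dist x (act g⁻¹ p) ≤ R
    rw [dist_comm x, H.dist_inv, dist_comm]
  have hAle : μ A ≤ μ (near act p (2 * R)) := by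
    rw [hAhit, Measure.measure_inv]
    exact hit_le μ H p x R
  have hmeas : Measurable fun g => ‖f (act g x)‖ₑ := (hf.comp (H.cont_left x)).enorm.measurable
  have h1 : ‖avg μ ρ act f x‖ₑ ≤ ∫⁻ g, A.indicator 1 g * ‖f (act g x)‖ₑ ∂μ := by
    refine (enorm_integral_le_lintegral_enorm _).trans (lintegral_mono fun g => ?_)
    have h2 : ‖ρ g⁻¹ (f (act g x))‖ₑ = ‖f (act g x)‖ₑ := by
      rw [← ofReal_norm, ← ofReal_norm, hρ.norm_map]
    show ‖ρ g⁻¹ (f (act g x))‖ₑ ≤ _
    rw [h2]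
    by_cases hg : g ∈ A
    · simp [hg]
    · have : f (act g x) = 0 := by
        by_contra hne
        exact hg (hsupp _ hne)
      simp [this]
  have h3 : ∫⁻ g, A.indicator 1 g * ‖f (act g x)‖ₑ ∂μ ≤
      (∫⁻ g, (A.indicator 1 g) ^ (2 : ℝ) ∂μ) ^ (1 / (2 : ℝ)) *
        (∫⁻ g, ‖f (act g x)‖ₑ ^ (2 : ℝ) ∂μ) ^ (1 / (2 : ℝ)) :=
    ENNReal.lintegral_mul_le_Lp_mul_Lq μ Real.HolderConjugate.two_two
      (measurable_one.indicator hAm).aemeasurable hmeas.aemeasurable
  have h4 : ∫⁻ g, (A.indicator (1 : G → ℝ≥0∞) g) ^ (2 : ℝ) ∂μ = μ A := by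
    rw [← lintegral_indicator_one hAm]
    refine lintegral_congr fun g => ?_
    by_cases hg : g ∈ A <;> simp [hg]
  have h5 : ‖avg μ ρ act f x‖ₑ ^ 2 ≤ ((μ A) ^ (1 / (2 : ℝ)) *
      (∫⁻ g, ‖f (act g x)‖ₑ ^ (2 : ℝ) ∂μ) ^ (1 / (2 : ℝ))) ^ 2 := by
    rw [h4] at h3
    exact pow_le_pow_left' (h1.trans h3) 2
  refine h5.trans ?_
  rw [mul_pow, ← ENNReal.rpow_natCast, ← ENNReal.rpow_mul, ← ENNReal.rpow_natCast,
    ← ENNReal.rpow_mul]
  norm_num
  exact mul_le_mul_left hAle _

/-- **A1**: upper bound for the average. -/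
theorem avg_upper [μ.IsHaarMeasure] (H : IsoAct act) (hν : ∀ g, MeasurePreserving (act g) ν ν)
    {ρ : G →* (F →ₗ[ℂ] F)} (hρ : URep ρ) {f : E → F} (hf : Continuous f) {p : E} {R : ℝ}
    (hsupp : ∀ x, f x ≠ 0 → dist x p ≤ R) :
    ∫⁻ x, ‖avg μ ρ act f x‖ₑ ^ 2 ∂ν ≤ μ (near act p (2 * R)) * ∫⁻ x, ‖f x‖ₑ ^ 2 ∂ν := by
  have hm : Measurable fun q : E × G => ‖f (act q.2 q.1)‖ₑ ^ 2 :=
    ((hf.comp (H.cont.comp (continuous_snd.prodMk continuous_fst))).enorm.measurable.pow_const 2)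
  calc ∫⁻ x, ‖avg μ ρ act f x‖ₑ ^ 2 ∂ν
      ≤ ∫⁻ x, μ (near act p (2 * R)) * ∫⁻ g, ‖f (act g x)‖ₑ ^ 2 ∂μ ∂ν :=
        lintegral_mono fun x => enorm_avg_sq_le μ H hρ hf hsupp x
    _ = μ (near act p (2 * R)) * ∫⁻ x, ∫⁻ g, ‖f (act g x)‖ₑ ^ 2 ∂μ ∂ν :=
        lintegral_const_mul _ (Measurable.lintegral_prod_right' (f := fun q : E × G =>
          ‖f (act q.2 q.1)‖ₑ ^ 2) hm)
    _ = μ (near act p (2 * R)) * ∫⁻ g, ∫⁻ x, ‖f (act g x)‖ₑ ^ 2 ∂ν ∂μ := by
        rw [lintegral_lintegral_swap hm.aemeasurable]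
    _ = μ (near act p (2 * R)) * ∫⁻ _g, ∫⁻ x, ‖f x‖ₑ ^ 2 ∂ν ∂μ := by
        congr 1
        refine lintegral_congr fun g => ?_
        exact (hν g).lintegral_comp (hf.enorm.measurable.pow_const 2)
    _ = _ := by rw [lintegral_const, measure_univ, mul_one]

/-! ### the inner product identity and the lower bound -/

/-- overlap of `f` with its translate -/
def ov (ν : Measure E) (ρ : G →* (F →ₗ[ℂ] F)) (act : G → E → E) (f : E → F) (g : G) : ℂ :=
  ∫ x, ⟪f x, ρ g⁻¹ (f (act g x))⟫_ℂ ∂ν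

theorem hcs_pair (H : IsoAct act) {k f : E → F} (hk : Continuous k) (hf : Continuous f)
    {ρ : G →* (F →ₗ[ℂ] F)} (hρ : URep ρ) (hkc : HasCompactSupport k) :
    Integrable (fun q : E × G => ⟪k q.1, ρ q.2⁻¹ (f (act q.2 q.1))⟫_ℂ) (ν.prod μ) := by
  have hc : Continuous fun q : E × G => ⟪k q.1, ρ q.2⁻¹ (f (act q.2 q.1))⟫_ℂ :=
    (hk.comp continuous_fst).inner
      ((cont_integrand H hρ hf).comp (continuous_snd.prodMk continuous_fst))
  refine hc.integrable_of_hasCompactSupport ?_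
  refine HasCompactSupport.intro (K := tsupport k ×ˢ univ) (hkc.isCompact.prod isCompact_univ) ?_
  rintro ⟨x, g⟩ hx
  have hx' : x ∉ tsupport k := fun h => hx ⟨h, mem_univ _⟩
  simp [image_eq_zero_of_notMem_tsupport hx']

theorem integral_inner_avg (H : IsoAct act) {k f : E → F} (hk : Continuous k)
    (hf : Continuous f) {ρ : G →* (F →ₗ[ℂ] F)} (hρ : URep ρ) (hkc : HasCompactSupport k) :
    ∫ x, ⟪k x, avg μ ρ act f x⟫_ℂ ∂ν = ∫ g, ∫ x, ⟪k x, ρ g⁻¹ (f (act g x))⟫_ℂ ∂ν ∂μ := by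
  have h1 : ∀ x, ⟪k x, avg μ ρ act f x⟫_ℂ = ∫ g, ⟪k x, ρ g⁻¹ (f (act g x))⟫_ℂ ∂μ := fun x =>
    (integral_inner (integrable_integrand μ H hρ hf x) (k x)).symm
  simp_rw [h1]
  exact integral_integral_swap (hcs_pair μ ν H hk hf hρ hkc)

theorem integral_avg_avg [μ.IsHaarMeasure] (H : IsoAct act)
    (hν : ∀ g, MeasurePreserving (act g) ν ν) {f : E → F} (hf : Continuous f)
    {ρ : G →* (F →ₗ[ℂ] F)} (hρ : URep ρ) {p : E} {R : ℝ}
    (hsupp : ∀ x, f x ≠ 0 → dist x p ≤ R) :
    ∫ x, ⟪avg μ ρ act f x, avg μ ρ act f x⟫_ℂ ∂ν = ∫ x, ⟪avg μ ρ act f x, f x⟫_ℂ ∂ν := by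
  have hac := continuous_avg μ H hρ hf
  rw [integral_inner_avg μ ν H hac hf hρ (hasCompactSupport_avg μ ρ H hsupp)]
  have h1 : ∀ g : G, ∫ x, ⟪avg μ ρ act f x, ρ g⁻¹ (f (act g x))⟫_ℂ ∂ν =
      ∫ x, ⟪avg μ ρ act f x, f x⟫_ℂ ∂ν := by
    intro g
    have h2 : ∀ x, ⟪avg μ ρ act f x, ρ g⁻¹ (f (act g x))⟫_ℂ =
        (fun y => ⟪avg μ ρ act f y, f y⟫_ℂ) (act g x) := by
      intro x
      show _ = ⟪avg μ ρ act f (act g x), f (act g x)⟫_ℂ
      rw [avg_equivariant μ ρ H g x (integrable_integrand μ H hρ hf x), ← hρ.unit g,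
        URep.apply_inv]
    have hcont : Continuous fun y => ⟪avg μ ρ act f y, f y⟫_ℂ := hac.inner hf
    rw [integral_congr_ae (Eventually.of_forall h2)]
    have h7 := integral_map (μ := ν) (φ := act g) (f := fun y => ⟪avg μ ρ act f y, f y⟫_ℂ)
      (hν g).measurable.aemeasurable hcont.aestronglyMeasurable
    rw [(hν g).map_eq] at h7
    exact h7.symm
  simp_rw [h1]
  simp

/-- `∫ ‖avg f‖² = re ∫ ov`. -/
theorem avg_sq [μ.IsHaarMeasure] (H : IsoAct act)
    (hν : ∀ g, MeasurePreserving (act g) ν ν) {f : E → F} (hf : Continuous f)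
    {ρ : G →* (F →ₗ[ℂ] F)} (hρ : URep ρ) {p : E} {R : ℝ}
    (hsupp : ∀ x, f x ≠ 0 → dist x p ≤ R) :
    ∫ x, ‖avg μ ρ act f x‖ ^ 2 ∂ν = ∫ g, (ov ν ρ act f g).re ∂μ := by
  haveI : ProperSpace E := FiniteDimensional.proper ℝ E
  have hfc : HasCompactSupport f :=
    HasCompactSupport.intro (isCompact_closedBall p R) fun x hx => by
      by_contra hne
      exact hx (hsupp x hne)
  have h1 := integral_avg_avg μ ν H hν hf hρ hsupp
  have h2 := integral_inner_avg μ ν H hf hf hρ hfc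
  have h3 : ∫ x, ⟪avg μ ρ act f x, f x⟫_ℂ ∂ν = (starRingEnd ℂ) (∫ g, ov ν ρ act f g ∂μ) := by
    rw [show (∫ g, ov ν ρ act f g ∂μ) = ∫ x, ⟪f x, avg μ ρ act f x⟫_ℂ ∂ν from h2.symm,
      ← integral_conj]
    simp_rw [inner_conj_symm]
  have h4 : (∫ x, ⟪avg μ ρ act f x, avg μ ρ act f x⟫_ℂ ∂ν) =
      ((∫ x, ‖avg μ ρ act f x‖ ^ 2 ∂ν : ℝ) : ℂ) := by
    rw [← integral_complex_ofReal]
    refine integral_congr_ae (Eventually.of_forall fun x => ?_)
    show ⟪avg μ ρ act f x, avg μ ρ act f x⟫_ℂ = ((‖avg μ ρ act f x‖ ^ 2 : ℝ) : ℂ)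
    rw [inner_self_eq_norm_sq_to_K]
    push_cast
    rfl
  have h5 : ((∫ x, ‖avg μ ρ act f x‖ ^ 2 ∂ν : ℝ) : ℂ) =
      (starRingEnd ℂ) (∫ g, ov ν ρ act f g ∂μ) := by rw [← h4, h1, h3]
  have h6 := congrArg Complex.re h5
  rw [Complex.ofReal_re, Complex.conj_re] at h6
  rw [h6]
  have hint : Integrable (fun g => ov ν ρ act f g) μ :=
    (hcs_pair μ ν H hf hf hρ hfc).integral_prod_right
  exact (integral_re hint).symm

theorem integrable_ov (H : IsoAct act) {f : E → F} (hf : Continuous f)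
    {ρ : G →* (F →ₗ[ℂ] F)} (hρ : URep ρ) (hfc : HasCompactSupport f) :
    Integrable (fun g => ov ν ρ act f g) μ :=
  (hcs_pair μ ν H hf hf hρ hfc).integral_prod_right

theorem ov_eq_zero (H : IsoAct act) {f : E → F} {ρ : G →* (F →ₗ[ℂ] F)} {p : E} {R : ℝ}
    (hsupp : ∀ x, f x ≠ 0 → dist x p ≤ R) {g : G} (hg : g ∉ near act p (2 * R)) :
    ov ν ρ act f g = 0 := by
  unfold ov
  rw [integral_eq_zero_of_ae]
  filter_upwards with x
  by_cases h1 : f x = 0
  · simp [h1]
  by_cases h2 : f (act g x) = 0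
  · simp [h2]
  exfalso
  apply hg
  show dist (act g p) p ≤ 2 * R
  calc dist (act g p) p ≤ dist (act g p) (act g x) + dist (act g x) p := dist_triangle _ _ _
    _ ≤ R + R := by
        rw [H.dist_eq, dist_comm p x]
        exact add_le_add (hsupp x h1) (hsupp _ h2)
    _ = 2 * R := by ring

/-- **A2**: lower bound for the average. -/
theorem avg_lower [μ.IsHaarMeasure] (H : IsoAct act)
    (hν : ∀ g, MeasurePreserving (act g) ν ν) {f : E → F} (hf : Continuous f)
    {ρ : G →* (F →ₗ[ℂ] F)} (hρ : URep ρ) {p : E} {R a c ε I : ℝ}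
    (hsupp : ∀ x, f x ≠ 0 → dist x p ≤ R) (ha : a ≤ 2 * R) (hε : 0 ≤ ε) (hI : 0 ≤ I)
    (h1 : ∀ g ∈ near act p a, c * I ≤ (ov ν ρ act f g).re)
    (h2 : ∀ g ∈ near act p (2 * R), -(ε * I) ≤ (ov ν ρ act f g).re) :
    (c * μ.real (near act p a) - ε * μ.real (near act p (2 * R))) * I ≤
      ∫ x, ‖avg μ ρ act f x‖ ^ 2 ∂ν := by
  haveI : ProperSpace E := FiniteDimensional.proper ℝ E
  have hfc : HasCompactSupport f :=
    HasCompactSupport.intro (isCompact_closedBall p R) fun x hx => by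
      by_contra hne
      exact hx (hsupp x hne)
  rw [avg_sq μ ν H hν hf hρ hsupp]
  have hint : Integrable (fun g => (ov ν ρ act f g).re) μ := (integrable_ov μ ν H hf hρ hfc).re
  set A := near act p a with hA
  set B := near act p (2 * R) with hB
  have hAm : MeasurableSet A := measurableSet_near H p a
  have hBm : MeasurableSet B := measurableSet_near H p (2 * R)
  have hAB : A ⊆ B := near_mono act p ha
  have hle : ∀ g, A.indicator (fun _ => c * I) g - B.indicator (fun _ => ε * I) g ≤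
      (ov ν ρ act f g).re := by
    intro g
    by_cases hgA : g ∈ A
    · have hgB : g ∈ B := hAB hgA
      rw [indicator_of_mem hgA, indicator_of_mem hgB]
      have := h1 g hgA
      have : 0 ≤ ε * I := mul_nonneg hε hI
      linarith [h1 g hgA]
    · rw [indicator_of_notMem hgA]
      by_cases hgB : g ∈ B
      · rw [indicator_of_mem hgB, zero_sub]
        exact h2 g hgB
      · rw [indicator_of_notMem hgB, ov_eq_zero ν H hsupp hgB]
        simp
  have hi1 : Integrable (A.indicator (fun _ : G => c * I)) μ :=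
    (integrable_const _).indicator hAm
  have hi2 : Integrable (B.indicator (fun _ : G => ε * I)) μ :=
    (integrable_const _).indicator hBm
  have h3 : ∫ g, (A.indicator (fun _ => c * I) g - B.indicator (fun _ => ε * I) g) ∂μ ≤
      ∫ g, (ov ν ρ act f g).re ∂μ := integral_mono (hi1.sub hi2) hint hle
  refine le_trans (le_of_eq ?_) h3
  rw [integral_sub hi1 hi2, integral_indicator hAm, integral_indicator hBm, setIntegral_const,
    setIntegral_const]
  simp only [smul_eq_mul]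
  ring

end Average

end Crest.Agent.R330.Avg798

end
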