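import Mathlib
import Crest.Prelude.Def_MatrixModel

/-!
Row 330, S13.B: pointwise barrier for the sector of `SO(4)` acting on the rows `0,1,2,3`.

`Lo x D i j = Σ_A (x_i^A D_j^A - x_j^A D_i^A)` (value at a point of the orbital rotation generator,
`D` the gradient).  For every unit colour vector `e`, with `d² = |x|² - |x e|²`,
`‖L^L_3‖ ≤ Σ_a ‖L^R_a‖ + 16 d |D|`.
-/

set_option autoImplicit false
set_option linter.unusedSectionVars false

noncomputable section

open MeasureTheory Filter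
open scoped InnerProductSpace

namespace Crest.Agent.R330.Bar186

section pt

variable {E : Type*} [NormedAddCommGroup E] [NormedSpace ℝ E] {κ ι : Type*} [Fintype κ]
  [Fintype ι]

/-- value at a point of the orbital rotation generator in the plane `(i,j)` -/
def Lo (x : κ × ι → ℝ) (D : κ × ι → E) (i j : κ) : E :=
  ∑ A, (x (i, A) • D (j, A) - x (j, A) • D (i, A))

/-- component of the `i`-th row along the colour vector `e` -/
def rw_ (x : κ × ι → ℝ) (e : ι → ℝ) (i : κ) : ℝ := ∑ A, x (i, A) * e A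

/-- square of the distance of the matrix `x` to the matrices of the form `n ⊗ e` -/
def dsq (x : κ × ι → ℝ) (e : ι → ℝ) : ℝ := ∑ i, ∑ A, (x (i, A) - rw_ x e i * e A) ^ 2

/-- square of the gradient -/
def gsq (D : κ × ι → E) : ℝ := ∑ i, ∑ A, ‖D (i, A)‖ ^ 2

theorem dsq_nonneg (x : κ × ι → ℝ) (e : ι → ℝ) : 0 ≤ dsq x e := by
  unfold dsq; positivity

theorem gsq_nonneg (D : κ × ι → E) : 0 ≤ gsq D := by
  unfold gsq; positivity

theorem dsq_eq (x : κ × ι → ℝ) (e : ι → ℝ) (he : ∑ A, e A ^ 2 = 1) :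
    dsq x e = (∑ i, ∑ A, x (i, A) ^ 2) - ∑ i, rw_ x e i ^ 2 := by
  unfold dsq
  rw [← Finset.sum_sub_distrib]
  refine Finset.sum_congr rfl fun i _ => ?_
  have h1 : ∑ A, (x (i, A) - rw_ x e i * e A) ^ 2 =
      ∑ A, x (i, A) ^ 2 - 2 * rw_ x e i * (∑ A, x (i, A) * e A) +
        rw_ x e i ^ 2 * ∑ A, e A ^ 2 := by
    rw [Finset.mul_sum, Finset.mul_sum, ← Finset.sum_sub_distrib, ← Finset.sum_add_distrib]
    exact Finset.sum_congr rfl fun A _ => by ring
  rw [h1, he]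
  have : ∑ A, x (i, A) * e A = rw_ x e i := rfl
  rw [this]
  ring

/-- Cauchy–Schwarz for a finite sum of scalar times vector -/
theorem norm_sum_smul_le (a : ι → ℝ) (v : ι → E) :
    ‖∑ A, a A • v A‖ ≤ Real.sqrt (∑ A, a A ^ 2) * Real.sqrt (∑ A, ‖v A‖ ^ 2) := by
  calc ‖∑ A, a A • v A‖ ≤ ∑ A, ‖a A • v A‖ := norm_sum_le _ _
    _ = ∑ A, |a A| * ‖v A‖ := Finset.sum_congr rfl fun A _ => by rw [norm_smul, Real.norm_eq_abs]
    _ ≤ Real.sqrt (∑ A, |a A| ^ 2) * Real.sqrt (∑ A, ‖v A‖ ^ 2) :=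
        Real.sum_mul_le_sqrt_mul_sqrt _ _ _
    _ = _ := by simp only [sq_abs]

/-- the remainder of the generator after the rank-one part -/
theorem Lo_sub (x : κ × ι → ℝ) (D : κ × ι → E) (e : ι → ℝ) (i j : κ) :
    ‖Lo x D i j - (rw_ x e i • (∑ A, e A • D (j, A)) - rw_ x e j • (∑ A, e A • D (i, A)))‖ ≤
      2 * (Real.sqrt (dsq x e) * Real.sqrt (gsq D)) := by
  have key : ∀ i j : κ, ‖∑ A, (x (i, A) - rw_ x e i * e A) • D (j, A)‖ ≤
      Real.sqrt (dsq x e) * Real.sqrt (gsq D) := by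
    intro i j
    refine (norm_sum_smul_le _ _).trans ?_
    gcongr
    · unfold dsq
      exact Finset.single_le_sum (f := fun i => ∑ A, (x (i, A) - rw_ x e i * e A) ^ 2)
        (fun i _ => by positivity) (Finset.mem_univ i)
    · unfold gsq
      exact Finset.single_le_sum (f := fun j => ∑ A, ‖D (j, A)‖ ^ 2)
        (fun i _ => by positivity) (Finset.mem_univ j)
  have h1 : Lo x D i j - (rw_ x e i • (∑ A, e A • D (j, A)) - rw_ x e j • (∑ A, e A • D (i, A))) =
      (∑ A, (x (i, A) - rw_ x e i * e A) • D (j, A)) -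
        ∑ A, (x (j, A) - rw_ x e j * e A) • D (i, A) := by
    unfold Lo
    rw [Finset.smul_sum, Finset.smul_sum, ← Finset.sum_sub_distrib, ← Finset.sum_sub_distrib,
      ← Finset.sum_sub_distrib]
    refine Finset.sum_congr rfl fun A _ => ?_
    simp only [sub_smul, mul_smul]
    abel
  rw [h1]
  calc _ ≤ ‖∑ A, (x (i, A) - rw_ x e i * e A) • D (j, A)‖ +
        ‖∑ A, (x (j, A) - rw_ x e j * e A) • D (i, A)‖ := norm_sub_le _ _
    _ ≤ _ := by linarith [key i j, key j i]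

end pt

section pt2

variable {E : Type*} [NormedAddCommGroup E] [InnerProductSpace ℝ E] {κ ι : Type*} [Fintype κ]
  [Fintype ι]

/-- for a simple `E`-valued bivector the two `su(2)` parts have the same norm -/
theorem pf_zero (n : Fin 4 → ℝ) (m : Fin 4 → E) :
    ⟪n 0 • m 1 - n 1 • m 0, n 2 • m 3 - n 3 • m 2⟫_ℝ -
      ⟪n 0 • m 2 - n 2 • m 0, n 1 • m 3 - n 3 • m 1⟫_ℝ +
      ⟪n 0 • m 3 - n 3 • m 0, n 1 • m 2 - n 2 • m 1⟫_ℝ = 0 := by
  simp only [inner_sub_left, inner_sub_right, real_inner_smul_left, real_inner_smul_right]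
  rw [real_inner_comm (m 1) (m 3), real_inner_comm (m 1) (m 2), real_inner_comm (m 2) (m 3)]
  ring

theorem simple_le (n : Fin 4 → ℝ) (m : Fin 4 → E) :
    ‖(n 0 • m 1 - n 1 • m 0) + (n 2 • m 3 - n 3 • m 2)‖ ≤
      ‖(n 0 • m 1 - n 1 • m 0) - (n 2 • m 3 - n 3 • m 2)‖ +
      ‖(n 0 • m 2 - n 2 • m 0) + (n 1 • m 3 - n 3 • m 1)‖ +
      ‖(n 0 • m 3 - n 3 • m 0) - (n 1 • m 2 - n 2 • m 1)‖ := by
  have h := pf_zero n m
  set a := n 0 • m 1 - n 1 • m 0
  set a' := n 2 • m 3 - n 3 • m 2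
  set c := n 0 • m 2 - n 2 • m 0
  set c' := n 1 • m 3 - n 3 • m 1
  set g := n 0 • m 3 - n 3 • m 0
  set g' := n 1 • m 2 - n 2 • m 1
  have e1 := norm_add_sq_real a a'
  have e2 := norm_sub_sq_real a a'
  have e3 := norm_add_sq_real c c'
  have e4 := norm_sub_sq_real c c'
  have e5 := norm_add_sq_real g g'
  have e6 := norm_sub_sq_real g g'
  have h2 : ‖a + a'‖ ^ 2 ≤ ‖a - a'‖ ^ 2 + ‖c + c'‖ ^ 2 + ‖g - g'‖ ^ 2 := by
    nlinarith [sq_nonneg ‖c - c'‖, sq_nonneg ‖g + g'‖]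
  refine abs_le_of_sq_le_sq' ?_ (by positivity) |>.2
  nlinarith [norm_nonneg (a - a'), norm_nonneg (c + c'), norm_nonneg (g - g'),
    mul_nonneg (norm_nonneg (a - a')) (norm_nonneg (c + c')),
    mul_nonneg (norm_nonneg (a - a')) (norm_nonneg (g - g')),
    mul_nonneg (norm_nonneg (c + c')) (norm_nonneg (g - g'))]

/-- **pointwise barrier** (abstract form, four chosen rows) -/
theorem bar (x : κ × ι → ℝ) (D : κ × ι → E) (e : ι → ℝ) (r : Fin 4 → κ) :
    ‖Lo x D (r 0) (r 1) + Lo x D (r 2) (r 3)‖ ≤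
      ‖Lo x D (r 0) (r 1) - Lo x D (r 2) (r 3)‖ +
      ‖Lo x D (r 0) (r 2) + Lo x D (r 1) (r 3)‖ +
      ‖Lo x D (r 0) (r 3) - Lo x D (r 1) (r 2)‖ +
      16 * (Real.sqrt (dsq x e) * Real.sqrt (gsq D)) := by
  set δ := Real.sqrt (dsq x e) * Real.sqrt (gsq D) with hδ
  set n : Fin 4 → ℝ := fun i => rw_ x e (r i)
  set m : Fin 4 → E := fun i => ∑ A, e A • D (r i, A)
  have hR := fun i j : Fin 4 => Lo_sub x D e (r i) (r j)
  set B : Fin 4 → Fin 4 → E := fun i j => n i • m j - n j • m i with hB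
  set R : Fin 4 → Fin 4 → E := fun i j => Lo x D (r i) (r j) - B i j with hRdef
  have hR' : ∀ i j, ‖R i j‖ ≤ 2 * δ := fun i j => hR i j
  have hL : ∀ i j, Lo x D (r i) (r j) = B i j + R i j := fun i j => by simp [hRdef]
  have hs := simple_le n m
  have t1 : ‖Lo x D (r 0) (r 1) + Lo x D (r 2) (r 3)‖ ≤ ‖B 0 1 + B 2 3‖ + 4 * δ := by
    have : Lo x D (r 0) (r 1) + Lo x D (r 2) (r 3) = (B 0 1 + B 2 3) + (R 0 1 + R 2 3) := by
      rw [hL 0 1, hL 2 3]; abel
    rw [this]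
    refine (norm_add_le _ _).trans ?_
    have := norm_add_le (R 0 1) (R 2 3)
    linarith [hR' 0 1, hR' 2 3]
  have t2 : ‖B 0 1 - B 2 3‖ ≤ ‖Lo x D (r 0) (r 1) - Lo x D (r 2) (r 3)‖ + 4 * δ := by
    have : B 0 1 - B 2 3 = (Lo x D (r 0) (r 1) - Lo x D (r 2) (r 3)) - (R 0 1 - R 2 3) := by
      rw [hL 0 1, hL 2 3]; abel
    rw [this]
    refine (norm_sub_le _ _).trans ?_
    have := norm_sub_le (R 0 1) (R 2 3)
    linarith [hR' 0 1, hR' 2 3]
  have t3 : ‖B 0 2 + B 1 3‖ ≤ ‖Lo x D (r 0) (r 2) + Lo x D (r 1) (r 3)‖ + 4 * δ := by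
    have : B 0 2 + B 1 3 = (Lo x D (r 0) (r 2) + Lo x D (r 1) (r 3)) - (R 0 2 + R 1 3) := by
      rw [hL 0 2, hL 1 3]; abel
    rw [this]
    refine (norm_sub_le _ _).trans ?_
    have := norm_add_le (R 0 2) (R 1 3)
    linarith [hR' 0 2, hR' 1 3]
  have t4 : ‖B 0 3 - B 1 2‖ ≤ ‖Lo x D (r 0) (r 3) - Lo x D (r 1) (r 2)‖ + 4 * δ := by
    have : B 0 3 - B 1 2 = (Lo x D (r 0) (r 3) - Lo x D (r 1) (r 2)) - (R 0 3 - R 1 2) := by
      rw [hL 0 3, hL 1 2]; abel
    rw [this]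
    refine (norm_sub_le _ _).trans ?_
    have := norm_sub_le (R 0 3) (R 1 2)
    linarith [hR' 0 3, hR' 1 2]
  have hs' : ‖B 0 1 + B 2 3‖ ≤ ‖B 0 1 - B 2 3‖ + ‖B 0 2 + B 1 3‖ + ‖B 0 3 - B 1 2‖ := hs
  linarith

end pt2

section pt3

variable {κ ι : Type*} [Fintype κ] [Fintype ι]

/-- the barrier for a complex inner product space -/
theorem barC {F : Type*} [NormedAddCommGroup F] [InnerProductSpace ℂ F] (x : κ × ι → ℝ)
    (D : κ × ι → F) (e : ι → ℝ) (r : Fin 4 → κ) :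
    ‖Lo x D (r 0) (r 1) + Lo x D (r 2) (r 3)‖ ≤
      ‖Lo x D (r 0) (r 1) - Lo x D (r 2) (r 3)‖ +
      ‖Lo x D (r 0) (r 2) + Lo x D (r 1) (r 3)‖ +
      ‖Lo x D (r 0) (r 3) - Lo x D (r 1) (r 2)‖ +
      16 * (Real.sqrt (dsq x e) * Real.sqrt (gsq D)) := by
  let _ : InnerProductSpace ℝ F := InnerProductSpace.rclikeToReal ℂ F
  exact bar x D e r

/-- there is a unit colour vector with `Σ_{jk} (x_j·x_k)² ≤ |x|² Σ_i (x_i·e)²` -/
theorem exists_top [Nonempty ι] (x : κ × ι → ℝ) :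
    ∃ e : ι → ℝ, ∑ A, e A ^ 2 = 1 ∧
      ∀ u : ι → ℝ, ∑ i, rw_ x u i ^ 2 ≤ (∑ i, rw_ x e i ^ 2) * ∑ A, u A ^ 2 := by
  classical
  -- maximise on the unit sphere of `EuclideanSpace`
  let g : EuclideanSpace ℝ ι → ℝ := fun u => ∑ i, rw_ x u i ^ 2
  have hg : Continuous g := by
    unfold g rw_
    fun_prop
  obtain ⟨e, he, hmax⟩ := (isCompact_sphere (0 : EuclideanSpace ℝ ι) 1).exists_isMaxOn
    (NormedSpace.sphere_nonempty.2 zero_le_one) hg.continuousOn
  have he1 : ∑ A, e A ^ 2 = 1 := by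
    have : ‖e‖ = 1 := by simpa using he
    have h2 := EuclideanSpace.norm_sq_eq e
    rw [this] at h2
    simpa [Real.norm_eq_abs, sq_abs] using h2.symm
  refine ⟨e, he1, fun u => ?_⟩
  set s : ℝ := Real.sqrt (∑ A, u A ^ 2) with hs
  have hs0 : 0 ≤ ∑ A, u A ^ 2 := by positivity
  rcases eq_or_lt_of_le hs0 with h0 | h0
  · have hu : ∀ A, u A = 0 := by
      intro A
      have := (Finset.sum_eq_zero_iff_of_nonneg (fun A _ => sq_nonneg (u A))).1 h0.symm A
        (Finset.mem_univ A)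
      exact pow_eq_zero_iff (two_ne_zero) |>.1 this
    have : ∀ i, rw_ x u i = 0 := fun i => by simp [rw_, hu]
    simp [this, ← h0]
  · have hspos : 0 < s := Real.sqrt_pos.2 h0
    have hs2 : s ^ 2 = ∑ A, u A ^ 2 := Real.sq_sqrt hs0
    let v : EuclideanSpace ℝ ι := WithLp.toLp 2 fun A => s⁻¹ * u A
    have hv : v ∈ Metric.sphere (0 : EuclideanSpace ℝ ι) 1 := by
      rw [mem_sphere_zero_iff_norm, EuclideanSpace.norm_eq]
      have : ∑ i, ‖v i‖ ^ 2 = 1 := by
        simp only [v, Real.norm_eq_abs, sq_abs, mul_pow, ← Finset.mul_sum]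
        rw [← hs2]
        field_simp
      rw [this, Real.sqrt_one]
    have h1 := hmax hv
    have h2 : g v = (s ^ 2)⁻¹ * ∑ i, rw_ x u i ^ 2 := by
      simp only [g, rw_, v]
      rw [Finset.mul_sum]
      refine Finset.sum_congr rfl fun i _ => ?_
      have : ∑ A, x (i, A) * (s⁻¹ * u A) = s⁻¹ * ∑ A, x (i, A) * u A := by
        rw [Finset.mul_sum]; exact Finset.sum_congr rfl fun A _ => by ring
      rw [this, mul_pow, inv_pow]
    have h3 : g v ≤ g e := h1
    rw [h2] at h3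
    have h4 : (0 : ℝ) < s ^ 2 := by positivity
    rw [inv_mul_le_iff₀ h4] at h3
    rw [← hs2]
    calc ∑ i, rw_ x u i ^ 2 ≤ s ^ 2 * g e := h3
      _ = _ := by simp only [g]; ring

/-- Gram inequality: for the top direction `e`,
`Σ_{jk} (x_j·x_k)² ≤ (Σ_i (x_i·e)²) |x|²` -/
theorem gram_le (x : κ × ι → ℝ) (e : ι → ℝ)
    (h : ∀ u : ι → ℝ, ∑ i, rw_ x u i ^ 2 ≤ (∑ i, rw_ x e i ^ 2) * ∑ A, u A ^ 2) :
    ∑ j, ∑ k, (∑ A, x (j, A) * x (k, A)) ^ 2 ≤
      (∑ i, rw_ x e i ^ 2) * ∑ i, ∑ A, x (i, A) ^ 2 := by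
  rw [Finset.sum_comm, Finset.mul_sum]
  refine Finset.sum_le_sum fun k _ => ?_
  exact h fun A => x (k, A)

end pt3

section colour

open Crest.MathPhysics.MatrixQM

/-- completeness of a colour basis -/
theorem expand {N : ℕ} (hN : 1 ≤ N) (b : ColorBasis N) (X : Matrix (Fin N) (Fin N) ℂ)
    (hX : X.trace = 0) : X = ∑ A, (X * b.T A).trace • b.T A := by
  classical
  let v : Option (Fin (N ^ 2 - 1)) → Matrix (Fin N) (Fin N) ℂ := fun o => o.elim 1 b.T
  have hN' : (N : ℂ) ≠ 0 := by exact_mod_cast (by omega : N ≠ 0)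
  have horth : ∀ i j, (v i * v j).trace = if i = j then (i.elim (N : ℂ) fun _ => 1) else 0 := by
    intro i j
    cases i <;> cases j <;> simp [v, b.traceless, b.orthonormal]
  have hli : LinearIndependent ℂ v := by
    rw [Fintype.linearIndependent_iff]
    intro c hc j
    have h1 : ((∑ i, c i • v i) * v j).trace = 0 := by rw [hc]; simp
    rw [Finset.sum_mul, Matrix.trace_sum] at h1
    have h2 : ∑ i, ((c i • v i) * v j).trace = c j * (j.elim (N : ℂ) fun _ => 1) := by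
      rw [Finset.sum_eq_single j]
      · rw [smul_mul_assoc, Matrix.trace_smul, horth, if_pos rfl, smul_eq_mul]
      · intro i _ hij
        rw [smul_mul_assoc, Matrix.trace_smul, horth, if_neg hij, smul_zero]
      · intro h; exact absurd (Finset.mem_univ j) h
    rw [h2] at h1
    rcases mul_eq_zero.1 h1 with h | h
    · exact h
    · exfalso
      cases j with
      | none => exact hN' h
      | some A => exact one_ne_zero h
  have hcard : Fintype.card (Option (Fin (N ^ 2 - 1))) =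
      Module.finrank ℂ (Matrix (Fin N) (Fin N) ℂ) := by
    rw [Module.finrank_matrix]
    simp only [Fintype.card_option, Fintype.card_fin, Module.finrank_self, mul_one]
    have : 1 ≤ N ^ 2 := Nat.one_le_pow _ _ hN
    rw [Nat.sub_add_cancel this]
    ring
  have hspan := hli.span_eq_top_of_card_eq_finrank' hcard
  have hXs : X ∈ Submodule.span ℂ (Set.range v) := by rw [hspan]; trivial
  obtain ⟨c, hc⟩ := (Submodule.mem_span_range_iff_exists_fun ℂ).1 hXs
  have hcoef : ∀ j, (X * v j).trace = c j * (j.elim (N : ℂ) fun _ => 1) := by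
    intro j
    rw [← hc, Finset.sum_mul, Matrix.trace_sum, Finset.sum_eq_single j]
    · rw [smul_mul_assoc, Matrix.trace_smul, horth, if_pos rfl, smul_eq_mul]
    · intro i _ hij
      rw [smul_mul_assoc, Matrix.trace_smul, horth, if_neg hij, smul_zero]
    · intro h; exact absurd (Finset.mem_univ j) h
  have h0 : c none = 0 := by
    have := hcoef none
    simp only [v, Option.elim, mul_one] at this
    rw [hX] at this
    rcases mul_eq_zero.1 this.symm with h | h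
    · exact h
    · exact absurd h hN'
  have hA : ∀ A, c (some A) = (X * b.T A).trace := by
    intro A
    have := hcoef (some A)
    simpa [v] using this.symm
  conv_lhs => rw [← hc]
  rw [Fintype.sum_option, h0, zero_smul, zero_add]
  exact Finset.sum_congr rfl fun A _ => by rw [hA]; rfl

/-- the matrix with colour coordinates `u` -/
def mat {N : ℕ} (b : ColorBasis N) (u : Fin (N ^ 2 - 1) → ℝ) : Matrix (Fin N) (Fin N) ℂ :=
  ∑ A, (u A : ℂ) • b.T A

theorem mat_trace {N : ℕ} (b : ColorBasis N) (u : Fin (N ^ 2 - 1) → ℝ) : (mat b u).trace = 0 := by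
  unfold mat
  rw [Matrix.trace_sum]
  exact Finset.sum_eq_zero fun A _ => by rw [Matrix.trace_smul, b.traceless, smul_zero]

theorem mat_herm {N : ℕ} (b : ColorBasis N) (u : Fin (N ^ 2 - 1) → ℝ) : (mat b u).IsHermitian := by
  unfold mat Matrix.IsHermitian
  rw [Matrix.conjTranspose_sum]
  refine Finset.sum_congr rfl fun A _ => ?_
  rw [Matrix.conjTranspose_smul, (b.herm A).eq]
  simp

theorem mat_mul_trace {N : ℕ} (b : ColorBasis N) (u v : Fin (N ^ 2 - 1) → ℝ) :
    (mat b u * mat b v).trace = ((∑ A, u A * v A : ℝ) : ℂ) := by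
  unfold mat
  rw [Finset.sum_mul, Matrix.trace_sum]
  push_cast
  refine Finset.sum_congr rfl fun A _ => ?_
  rw [Finset.mul_sum, Matrix.trace_sum, Finset.sum_eq_single A]
  · rw [smul_mul_smul_comm, Matrix.trace_smul, b.orthonormal, if_pos rfl]; simp
  · intro B _ hB
    rw [smul_mul_smul_comm, Matrix.trace_smul, b.orthonormal, if_neg (Ne.symm hB)]; simp
  · intro h; exact absurd (Finset.mem_univ A) h

/-- colour bracket `[u,v]^A = Σ f_ABC u^B v^C` -/
def brk {N : ℕ} (b : ColorBasis N) (u v : Fin (N ^ 2 - 1) → ℝ) (A : Fin (N ^ 2 - 1)) : ℝ :=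
  ∑ B, ∑ C, b.structConst A B C * u B * v C

theorem brk_eq {N : ℕ} (b : ColorBasis N) (u v : Fin (N ^ 2 - 1) → ℝ) (A : Fin (N ^ 2 - 1)) :
    brk b u v A =
      (-Complex.I * ((mat b u * mat b v - mat b v * mat b u) * b.T A).trace).re := by
  have hcyc : ∀ B C, b.structConst A B C =
      (-Complex.I * ((b.T B * b.T C - b.T C * b.T B) * b.T A).trace).re := by
    intro B C
    unfold ColorBasis.structConst
    congr 2
    rw [sub_mul, sub_mul, Matrix.trace_sub, Matrix.trace_sub]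
    have e1 : (b.T A * b.T B * b.T C).trace = (b.T B * b.T C * b.T A).trace := by
      rw [mul_assoc, Matrix.trace_mul_comm]
    have e2 : (b.T B * b.T A * b.T C).trace = (b.T C * b.T B * b.T A).trace := by
      rw [Matrix.trace_mul_comm, ← mul_assoc]
    rw [e1, e2]
  have hexp : (mat b u * mat b v - mat b v * mat b u) * b.T A =
      ∑ B, ∑ C, ((u B * v C : ℝ) : ℂ) • ((b.T B * b.T C - b.T C * b.T B) * b.T A) := by
    have e1 : mat b u * mat b v = ∑ B, ∑ C, ((u B * v C : ℝ) : ℂ) • (b.T B * b.T C) := by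
      unfold mat
      rw [Finset.sum_mul]
      refine Finset.sum_congr rfl fun B _ => ?_
      rw [Finset.mul_sum]
      refine Finset.sum_congr rfl fun C _ => ?_
      rw [smul_mul_smul_comm]; push_cast; rfl
    have e2 : mat b v * mat b u = ∑ B, ∑ C, ((u B * v C : ℝ) : ℂ) • (b.T C * b.T B) := by
      rw [Finset.sum_comm]
      unfold mat
      rw [Finset.sum_mul]
      refine Finset.sum_congr rfl fun C _ => ?_
      rw [Finset.mul_sum]
      refine Finset.sum_congr rfl fun B _ => ?_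
      rw [smul_mul_smul_comm]; push_cast; rw [mul_comm]
    rw [e1, e2, ← Finset.sum_sub_distrib, Finset.sum_mul]
    refine Finset.sum_congr rfl fun B _ => ?_
    rw [← Finset.sum_sub_distrib, Finset.sum_mul]
    refine Finset.sum_congr rfl fun C _ => ?_
    rw [← smul_sub, smul_mul_assoc]
  rw [hexp, Matrix.trace_sum, Finset.mul_sum, Complex.re_sum]
  unfold brk
  refine Finset.sum_congr rfl fun B _ => ?_
  rw [Matrix.trace_sum, Finset.mul_sum, Complex.re_sum]
  refine Finset.sum_congr rfl fun C _ => ?_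
  rw [Matrix.trace_smul, hcyc, smul_eq_mul, mul_left_comm, Complex.re_ofReal_mul]
  ring

/-- Parseval for the bracket: `Σ_A ([u,v]^A)² = - Tr([U,V]²)` -/
theorem brk_sq {N : ℕ} (hN : 1 ≤ N) (b : ColorBasis N) (u v : Fin (N ^ 2 - 1) → ℝ) :
    ((∑ A, brk b u v A ^ 2 : ℝ) : ℂ) =
      -((mat b u * mat b v - mat b v * mat b u) * (mat b u * mat b v - mat b v * mat b u)).trace := by
  set W := mat b u * mat b v - mat b v * mat b u with hW
  have hWt : W.trace = 0 := by rw [hW, Matrix.trace_sub, Matrix.trace_mul_comm, sub_self]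
  have hWh : W.conjTranspose = -W := by
    rw [hW, Matrix.conjTranspose_sub, Matrix.conjTranspose_mul, Matrix.conjTranspose_mul,
      (mat_herm b u).eq, (mat_herm b v).eq]
    abel
  -- `-i Tr (W T_A)` is real
  have hreal : ∀ A, -Complex.I * (W * b.T A).trace = (brk b u v A : ℂ) := by
    intro A
    have hs : star (-Complex.I * (W * b.T A).trace) = -Complex.I * (W * b.T A).trace := by
      rw [star_mul', ← Matrix.trace_conjTranspose, Matrix.conjTranspose_mul, (b.herm A).eq, hWh,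
        mul_neg, Matrix.trace_neg, Matrix.trace_mul_comm]
      simp
    rw [brk_eq, ← hW]
    exact (Complex.conj_eq_iff_re.1 hs).symm
  have hexp := expand hN b W hWt
  have h1 : (W * W).trace = ∑ A, (W * b.T A).trace * (W * b.T A).trace := by
    conv_lhs => rw [hexp]
    rw [Finset.mul_sum, Matrix.trace_sum]
    refine Finset.sum_congr rfl fun A _ => ?_
    rw [mul_smul_comm, Matrix.trace_smul, ← hexp, smul_eq_mul]
  rw [h1, ← Finset.sum_neg_distrib]
  push_cast
  refine Finset.sum_congr rfl fun A _ => ?_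
  rw [← hreal A]
  ring_nf
  rw [Complex.I_sq]
  ring

/-- for two colours: `|[u,v]|² = 2 (|u|²|v|² - (u·v)²)` -/
theorem brk_two (b : ColorBasis 2) (u v : Fin (2 ^ 2 - 1) → ℝ) :
    ∑ A, brk b u v A ^ 2 =
      2 * ((∑ A, u A * u A) * (∑ A, v A * v A) - (∑ A, u A * v A) ^ 2) := by
  have h := brk_sq (by norm_num) b u v
  have huu := mat_mul_trace b u u
  have hvv := mat_mul_trace b v v
  have huv := mat_mul_trace b u v
  have hu := mat_trace b u
  have hv := mat_trace b v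
  set U := mat b u
  set V := mat b v
  have hU1 : U 1 1 = -U 0 0 := by rw [Matrix.trace_fin_two] at hu; linear_combination hu
  have hV1 : V 1 1 = -V 0 0 := by rw [Matrix.trace_fin_two] at hv; linear_combination hv
  have key : -((U * V - V * U) * (U * V - V * U)).trace =
      2 * ((U * U).trace * (V * V).trace - (U * V).trace ^ 2) := by
    simp only [Matrix.trace_fin_two, Matrix.mul_apply, Fin.sum_univ_two, Matrix.sub_apply, hU1, hV1]
    ring
  rw [key, huu, hvv, huv] at h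
  exact_mod_cast h

/-- the bosonic potential `V = ¼ Σ_{jk} |[x_j,x_k]|²` -/
def pot {N : ℕ} (b : ColorBasis N) (x : Fin 9 × Fin (N ^ 2 - 1) → ℝ) : ℝ :=
  1 / 4 * ∑ j, ∑ k, ∑ A, brk b (fun B => x (j, B)) (fun B => x (k, B)) A ^ 2

theorem pot_two (b : ColorBasis 2) (x : Fin 9 × Fin (2 ^ 2 - 1) → ℝ) :
    pot b x = 1 / 2 * ((∑ j, ∑ A, x (j, A) ^ 2) ^ 2 - ∑ j, ∑ k, (∑ A, x (j, A) * x (k, A)) ^ 2) := by
  unfold pot
  simp only [brk_two]
  rw [sq (∑ j, ∑ A, x (j, A) ^ 2), Finset.sum_mul_sum]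
  rw [← Finset.sum_sub_distrib, Finset.mul_sum, Finset.mul_sum]
  refine Finset.sum_congr rfl fun j _ => ?_
  rw [← Finset.sum_sub_distrib, Finset.mul_sum, Finset.mul_sum]
  refine Finset.sum_congr rfl fun k _ => ?_
  simp only [sq]
  ring

/-- **two colours**: `V ≥ ½ |x|² d²` for the top direction `e` -/
theorem pot_ge (b : ColorBasis 2) (x : Fin 9 × Fin (2 ^ 2 - 1) → ℝ) (e : Fin (2 ^ 2 - 1) → ℝ)
    (he : ∑ A, e A ^ 2 = 1)
    (h : ∀ u : Fin (2 ^ 2 - 1) → ℝ, ∑ i, rw_ x u i ^ 2 ≤ (∑ i, rw_ x e i ^ 2) * ∑ A, u A ^ 2) :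
    1 / 2 * (∑ j, ∑ A, x (j, A) ^ 2) * dsq x e ≤ pot b x := by
  rw [pot_two, dsq_eq x e he]
  have := gram_le x e h
  nlinarith

end colour

end Crest.Agent.R330.Bar186
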