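import Mathlib
import Crest.Prelude.Def_MatrixModel

/-!
Row 330, S0513 (helper963): the deterministic barrier lemma for the sector
`J^R_a f = 0`, `J^L_3 f = i m f` of SO(4) acting on the first four spatial indices, and the
`N = 2` potential bound.
-/

set_option autoImplicit false
set_option linter.unusedSectionVars false
set_option linter.unusedSimpArgs false
set_option linter.unusedVariables false

noncomputable section

namespace Crest.Agent.R330.Bar963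

open Crest.MathPhysics.MatrixQM
open scoped InnerProductSpace

/-! ### 1. Structure constants for two colours -/

/-- bosonic potential `(1/4) Σ_{jk} |[x_j,x_k]|²` -/
def V {N : ℕ} (b : ColorBasis N) (x : Cfg N) : ℝ :=
  (1 / 4 : ℝ) * ∑ j : Fin 9, ∑ k : Fin 9, ∑ A : Fin (N ^ 2 - 1),
    (∑ B : Fin (N ^ 2 - 1), ∑ C : Fin (N ^ 2 - 1),
      b.structConst A B C * x (j, B) * x (k, C)) ^ 2

section Two

variable (b : ColorBasis 2)

def ta (A : Fin (2 ^ 2 - 1)) : ℝ := (b.T A 0 0).re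
def tb (A : Fin (2 ^ 2 - 1)) : ℝ := (b.T A 0 1).re
def tc (A : Fin (2 ^ 2 - 1)) : ℝ := (b.T A 0 1).im

theorem T00 (A : Fin (2 ^ 2 - 1)) : b.T A 0 0 = (ta b A : ℂ) := by
  have h := (b.herm A).apply 0 0
  apply Complex.ext
  · rfl
  · have := congrArg Complex.im h
    simp at this
    simp
    linarith

theorem T01 (A : Fin (2 ^ 2 - 1)) : b.T A 0 1 = (tb b A : ℂ) + (tc b A : ℂ) * Complex.I := by
  apply Complex.ext <;> simp [tb, tc]

theorem T10 (A : Fin (2 ^ 2 - 1)) : b.T A 1 0 = (tb b A : ℂ) - (tc b A : ℂ) * Complex.I := by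
  have h := (b.herm A).apply 1 0
  rw [← h, T01]
  simp
  ring

theorem T11 (A : Fin (2 ^ 2 - 1)) : b.T A 1 1 = -(ta b A : ℂ) := by
  have h := b.traceless A
  rw [Matrix.trace_fin_two, T00] at h
  linear_combination h

theorem orth (A B : Fin (2 ^ 2 - 1)) :
    ta b A * ta b B + tb b A * tb b B + tc b A * tc b B = if A = B then 1 / 2 else 0 := by
  have h := b.orthonormal A B
  rw [Matrix.trace_fin_two, Matrix.mul_apply, Matrix.mul_apply, Fin.sum_univ_two,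
    Fin.sum_univ_two, T00, T01, T10, T11, T00, T01, T10, T11] at h
  have h2 := congrArg Complex.re h
  simp at h2
  split_ifs at h2 ⊢ with hAB
  · simp at h2; linarith
  · simp at h2; linarith

/-- `f_ABC = 4 det (t_A, t_B, t_C)` -/
theorem structConst_two (A B C : Fin (2 ^ 2 - 1)) :
    b.structConst A B C =
      4 * (ta b C * (tb b A * (-tc b B) - (-tc b A) * tb b B) +
        tb b C * ((-tc b A) * ta b B - ta b A * (-tc b B)) +
        (-tc b C) * (ta b A * tb b B - tb b A * ta b B)) := by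
  unfold ColorBasis.structConst
  rw [Matrix.trace_fin_two, Matrix.mul_apply, Matrix.mul_apply, Fin.sum_univ_two,
    Fin.sum_univ_two]
  simp only [Matrix.sub_apply, Matrix.mul_apply, Fin.sum_univ_two, T00, T01, T10, T11]
  simp
  ring

/-- the three colour indices -/
def k0 : Fin (2 ^ 2 - 1) := ⟨0, by decide⟩
def k1 : Fin (2 ^ 2 - 1) := ⟨1, by decide⟩
def k2 : Fin (2 ^ 2 - 1) := ⟨2, by decide⟩

theorem sum3 (g : Fin (2 ^ 2 - 1) → ℝ) : ∑ A, g A = g k0 + g k1 + g k2 :=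
  Fin.sum_univ_three g

theorem cases3 (A : Fin (2 ^ 2 - 1)) : A = k0 ∨ A = k1 ∨ A = k2 := by
  revert A; decide

/-- Gram determinant: the square of the triple product -/
theorem f_sq : (b.structConst k0 k1 k2) ^ 2 = 2 := by
  rw [structConst_two]
  have h00 := orth b k0 k0
  have h11 := orth b k1 k1
  have h22 := orth b k2 k2
  have h01 := orth b k0 k1
  have h02 := orth b k0 k2
  have h12 := orth b k1 k2
  simp only [if_true] at h00 h11 h22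
  have e01 : k0 ≠ k1 := by decide
  have e02 : k0 ≠ k2 := by decide
  have e12 : k1 ≠ k2 := by decide
  rw [if_neg e01] at h01
  rw [if_neg e02] at h02
  rw [if_neg e12] at h12
  generalize ta b k0 = a0 at *
  generalize ta b k1 = a1 at *
  generalize ta b k2 = a2 at *
  generalize tb b k0 = b0 at *
  generalize tb b k1 = b1 at *
  generalize tb b k2 = b2 at *
  generalize tc b k0 = c0 at *
  generalize tc b k1 = c1 at *
  generalize tc b k2 = c2 at *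
  have key : (a2 * (b0 * (-c1) - (-c0) * b1) + b2 * ((-c0) * a1 - a0 * (-c1)) +
        (-c2) * (a0 * b1 - b0 * a1)) ^ 2 =
      (a0 * a0 + b0 * b0 + c0 * c0) * ((a1 * a1 + b1 * b1 + c1 * c1) * (a2 * a2 + b2 * b2 + c2 * c2)
        - (a1 * a2 + b1 * b2 + c1 * c2) ^ 2)
      - (a0 * a1 + b0 * b1 + c0 * c1) * ((a0 * a1 + b0 * b1 + c0 * c1) *
          (a2 * a2 + b2 * b2 + c2 * c2) - (a1 * a2 + b1 * b2 + c1 * c2) *
          (a0 * a2 + b0 * b2 + c0 * c2))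
      + (a0 * a2 + b0 * b2 + c0 * c2) * ((a0 * a1 + b0 * b1 + c0 * c1) *
          (a1 * a2 + b1 * b2 + c1 * c2) - (a1 * a1 + b1 * b1 + c1 * c1) *
          (a0 * a2 + b0 * b2 + c0 * c2)) := by ring
  rw [mul_pow, key, h00, h11, h22, h01, h02, h12]
  norm_num

/-- `|[u,v]|² = 2 (|u|² |v|² - (u.v)²)` -/
theorem comm_sq (u v : Fin (2 ^ 2 - 1) → ℝ) :
    ∑ A, (∑ B, ∑ C, b.structConst A B C * u B * v C) ^ 2 =
      2 * ((∑ A, u A ^ 2) * (∑ A, v A ^ 2) - (∑ A, u A * v A) ^ 2) := by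
  have hf := f_sq b
  have p120 : b.structConst k1 k2 k0 = b.structConst k0 k1 k2 := by
    rw [structConst_two, structConst_two]; ring
  have p201 : b.structConst k2 k0 k1 = b.structConst k0 k1 k2 := by
    rw [structConst_two, structConst_two]; ring
  have p021 : b.structConst k0 k2 k1 = -b.structConst k0 k1 k2 := by
    rw [structConst_two, structConst_two]; ring
  have p102 : b.structConst k1 k0 k2 = -b.structConst k0 k1 k2 := by
    rw [structConst_two, structConst_two]; ring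
  have p210 : b.structConst k2 k1 k0 = -b.structConst k0 k1 k2 := by
    rw [structConst_two, structConst_two]; ring
  have z1 : ∀ A C, b.structConst A A C = 0 := by
    intro A C; rw [structConst_two]; ring
  have z2 : ∀ A C, b.structConst A C A = 0 := by
    intro A C; rw [structConst_two]; ring
  have z3 : ∀ A C, b.structConst C A A = 0 := by
    intro A C; rw [structConst_two]; ring
  simp only [sum3, z1, z2, z3, p120, p201, p021, p102, p210]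
  linear_combination ((u k1 * v k2 - u k2 * v k1) ^ 2 + (u k2 * v k0 - u k0 * v k2) ^ 2 +
    (u k0 * v k1 - u k1 * v k0) ^ 2) * hf

end Two

/-! ### 2. The potential for two colours -/

/-- colour vector `x^A ∈ ℝ⁹` -/
def W2 (u v : Fin 9 → ℝ) : ℝ := (∑ i, u i ^ 2) * (∑ i, v i ^ 2) - (∑ i, u i * v i) ^ 2

theorem W2_nonneg (u v : Fin 9 → ℝ) : 0 ≤ W2 u v := by
  have := Finset.sum_mul_sq_le_sq_mul_sq Finset.univ u v
  unfold W2
  linarith

theorem W2_comm (u v : Fin 9 → ℝ) : W2 u v = W2 v u := by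
  unfold W2
  rw [mul_comm, Finset.sum_congr rfl (fun i _ => mul_comm (u i) (v i))]

theorem V_two (b : ColorBasis 2) (x : Cfg 2) :
    V b x = (1 / 2 : ℝ) * ∑ A, ∑ B, W2 (fun i => x (i, A)) (fun i => x (i, B)) := by
  unfold V
  have h1 : ∀ j k : Fin 9, ∑ A : Fin (2 ^ 2 - 1),
      (∑ B : Fin (2 ^ 2 - 1), ∑ C : Fin (2 ^ 2 - 1),
        b.structConst A B C * x (j, B) * x (k, C)) ^ 2 =
      2 * ((∑ A, x (j, A) ^ 2) * (∑ A, x (k, A) ^ 2) - (∑ A, x (j, A) * x (k, A)) ^ 2) :=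
    fun j k => comm_sq b (fun B => x (j, B)) (fun C => x (k, C))
  simp only [h1]
  have e1 : ∑ j : Fin 9, ∑ k : Fin 9, (∑ A, x (j, A) ^ 2) * (∑ A, x (k, A) ^ 2) =
      ∑ A : Fin (2 ^ 2 - 1), ∑ B : Fin (2 ^ 2 - 1),
        (∑ i : Fin 9, x (i, A) ^ 2) * (∑ i, x (i, B) ^ 2) := by
    rw [← Finset.sum_mul_sum, ← Finset.sum_mul_sum, Finset.sum_comm]
  have e2 : ∑ j : Fin 9, ∑ k : Fin 9, (∑ A, x (j, A) * x (k, A)) ^ 2 =
      ∑ A : Fin (2 ^ 2 - 1), ∑ B : Fin (2 ^ 2 - 1), (∑ i : Fin 9, x (i, A) * x (i, B)) ^ 2 := by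
    have l1 : ∑ j : Fin 9, ∑ k : Fin 9, (∑ A, x (j, A) * x (k, A)) ^ 2 =
        ∑ j : Fin 9, ∑ k : Fin 9, ∑ A : Fin (2 ^ 2 - 1), ∑ B : Fin (2 ^ 2 - 1),
          (x (j, A) * x (k, A)) * (x (j, B) * x (k, B)) := by
      simp only [sq, Finset.sum_mul_sum]
    have l2 : ∑ A : Fin (2 ^ 2 - 1), ∑ B : Fin (2 ^ 2 - 1), (∑ i : Fin 9, x (i, A) * x (i, B)) ^ 2 =
        ∑ A : Fin (2 ^ 2 - 1), ∑ B : Fin (2 ^ 2 - 1), ∑ j : Fin 9, ∑ k : Fin 9,
          (x (j, A) * x (j, B)) * (x (k, A) * x (k, B)) := by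
      simp only [sq, Finset.sum_mul_sum]
    rw [l1, l2]
    have l3 : ∀ j : Fin 9, ∑ k : Fin 9, ∑ A : Fin (2 ^ 2 - 1), ∑ B : Fin (2 ^ 2 - 1),
          (x (j, A) * x (k, A)) * (x (j, B) * x (k, B)) =
        ∑ A : Fin (2 ^ 2 - 1), ∑ B : Fin (2 ^ 2 - 1), ∑ k : Fin 9,
          (x (j, A) * x (j, B)) * (x (k, A) * x (k, B)) := by
      intro j
      rw [Finset.sum_comm]
      refine Finset.sum_congr rfl fun A _ => ?_
      rw [Finset.sum_comm]
      refine Finset.sum_congr rfl fun B _ => Finset.sum_congr rfl fun k _ => ?_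
      ring
    simp only [l3]
    rw [Finset.sum_comm]
    refine Finset.sum_congr rfl fun A _ => ?_
    rw [Finset.sum_comm]
  have e3 : ∑ j : Fin 9, ∑ k : Fin 9, 2 * ((∑ A, x (j, A) ^ 2) * (∑ A, x (k, A) ^ 2) -
      (∑ A, x (j, A) * x (k, A)) ^ 2) = 2 * (∑ j : Fin 9, ∑ k : Fin 9,
        (∑ A, x (j, A) ^ 2) * (∑ A, x (k, A) ^ 2) - ∑ j : Fin 9, ∑ k : Fin 9,
          (∑ A, x (j, A) * x (k, A)) ^ 2) := by
    simp only [← Finset.mul_sum, Finset.sum_sub_distrib]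
  rw [e3, e1, e2]
  unfold W2
  simp only [Finset.sum_sub_distrib]
  ring

/-- `V ≥ Σ_A |x^{A0} ∧ x^A|²` -/
theorem V_ge (b : ColorBasis 2) (x : Cfg 2) (A0 : Fin (2 ^ 2 - 1)) :
    ∑ A, W2 (fun i => x (i, A0)) (fun i => x (i, A)) ≤ V b x := by
  rw [V_two]
  set g : Fin (2 ^ 2 - 1) → Fin (2 ^ 2 - 1) → ℝ :=
    fun A B => W2 (fun i => x (i, A)) (fun i => x (i, B)) with hg
  have hpos : ∀ A B, 0 ≤ g A B := fun A B => W2_nonneg _ _
  have hsymm : ∀ A B, g A B = g B A := fun A B => W2_comm _ _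
  have hdiag : ∀ A, g A A = 0 := by
    intro A
    simp only [hg, W2]
    simp only [← sq]
    ring
  change ∑ A, g A0 A ≤ 1 / 2 * ∑ A, ∑ B, g A B
  simp only [sum3]
  have h01 := hpos k0 k1
  have h02 := hpos k0 k2
  have h12 := hpos k1 k2
  have s01 := hsymm k0 k1
  have s02 := hsymm k0 k2
  have s12 := hsymm k1 k2
  have d0 := hdiag k0
  have d1 := hdiag k1
  have d2 := hdiag k2
  rcases cases3 A0 with rfl | rfl | rfl <;> linarith

/-! ### 3. Rotation fields -/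

/-- the vector field of `L_ij = Σ_A (x_i^A ∂_{jA} - x_j^A ∂_{iA})` -/
def rot {N : ℕ} (i j : Fin 9) (x : Cfg N) : Cfg N :=
  ∑ A : Fin (N ^ 2 - 1), (x (i, A) • EuclideanSpace.single (j, A) (1 : ℝ) -
    x (j, A) • EuclideanSpace.single (i, A) (1 : ℝ))

theorem rot_apply {N : ℕ} (i j : Fin 9) (x : Cfg N) (k : Fin 9) (B : Fin (N ^ 2 - 1)) :
    rot i j x (k, B) = (if k = j then x (i, B) else 0) - (if k = i then x (j, B) else 0) := by
  unfold rot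
  simp only [WithLp.ofLp_sum, WithLp.ofLp_sub, WithLp.ofLp_smul, Finset.sum_apply,
    Pi.sub_apply, Pi.smul_apply, PiLp.single_apply, smul_eq_mul, mul_ite, mul_one,
    mul_zero, Prod.mk.injEq, Finset.sum_sub_distrib]
  congr 1
  · by_cases h : k = j
    · simp [h]
    · simp [h]
  · by_cases h : k = i
    · simp [h]
    · simp [h]

theorem map_rot {N : ℕ} {F : Type*} [AddCommGroup F] [Module ℝ F] (D : Cfg N →ₗ[ℝ] F)
    (i j : Fin 9) (x : Cfg N) :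
    D (rot i j x) = ∑ A : Fin (N ^ 2 - 1), (x (i, A) • D (EuclideanSpace.single (j, A) (1 : ℝ)) -
      x (j, A) • D (EuclideanSpace.single (i, A) (1 : ℝ))) := by
  unfold rot
  simp only [map_sum, map_sub, map_smul]

/-- left (weight) direction -/
def Kp {N : ℕ} (x : Cfg N) : Cfg N := rot 0 1 x + rot 2 3 x

/-- right directions -/
def Km {N : ℕ} (a : Fin 3) (x : Cfg N) : Cfg N :=
  match a with
  | 0 => rot 0 1 x - rot 2 3 x
  | 1 => rot 0 2 x + rot 1 3 x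
  | 2 => rot 0 3 x - rot 1 2 x

/-- the components of `K⁺ y - Σ c_a K⁻_a y` -/
def Ec (c : Fin 3 → ℝ) (y : Fin 9 → ℝ) : Fin 9 → ℝ :=
  ![-y 1 - (c 0 * (-y 1) + c 1 * (-y 2) + c 2 * (-y 3)),
    y 0 - (c 0 * y 0 + c 1 * (-y 3) + c 2 * y 2),
    -y 3 - (c 0 * y 3 + c 1 * y 0 + c 2 * (-y 1)),
    y 2 - (c 0 * (-y 2) + c 1 * y 1 + c 2 * y 0), 0, 0, 0, 0, 0]

theorem E_apply {N : ℕ} (c : Fin 3 → ℝ) (x : Cfg N) (k : Fin 9) (A : Fin (N ^ 2 - 1)) :
    (Kp x - ∑ a, c a • Km a x) (k, A) = Ec c (fun i => x (i, A)) k := by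
  rw [Fin.sum_univ_three]
  simp only [Kp, Km, WithLp.ofLp_sub, WithLp.ofLp_add, WithLp.ofLp_smul, Pi.sub_apply,
    Pi.add_apply, Pi.smul_apply, rot_apply, smul_eq_mul]
  fin_cases k <;> simp [Ec]

theorem Ec_sq_le (c : Fin 3 → ℝ) (hc : c 0 ^ 2 + c 1 ^ 2 + c 2 ^ 2 ≤ 1) (y : Fin 9 → ℝ) :
    ∑ k, Ec c y k ^ 2 ≤ 4 * ∑ k, y k ^ 2 := by
  have h1 : ∑ k, Ec c y k ^ 2 = (-y 1 - (c 0 * (-y 1) + c 1 * (-y 2) + c 2 * (-y 3))) ^ 2 +
      (y 0 - (c 0 * y 0 + c 1 * (-y 3) + c 2 * y 2)) ^ 2 +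
      (-y 3 - (c 0 * y 3 + c 1 * y 0 + c 2 * (-y 1))) ^ 2 +
      (y 2 - (c 0 * (-y 2) + c 1 * y 1 + c 2 * y 0)) ^ 2 := by
    simp [Fin.sum_univ_succ, Ec, Matrix.cons_val_zero, Matrix.cons_val_succ]
    ring
  have h2 : ∑ k, y k ^ 2 ≥ y 0 ^ 2 + y 1 ^ 2 + y 2 ^ 2 + y 3 ^ 2 := by
    simp only [Fin.sum_univ_succ, Fin.sum_univ_zero]
    have : ∀ k, 0 ≤ y k ^ 2 := fun k => sq_nonneg _
    simp
    nlinarith [this 4, this 5, this 6, this 7, this 8]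
  rw [h1]
  have h3 : (c 0 ^ 2 + c 1 ^ 2 + c 2 ^ 2) * (y 0 ^ 2 + y 1 ^ 2 + y 2 ^ 2 + y 3 ^ 2) ≤
      1 * (y 0 ^ 2 + y 1 ^ 2 + y 2 ^ 2 + y 3 ^ 2) := by
    apply mul_le_mul_of_nonneg_right hc
    positivity
  nlinarith [sq_nonneg (-y 1 + (c 0 * (-y 1) + c 1 * (-y 2) + c 2 * (-y 3))),
    sq_nonneg (y 0 + (c 0 * y 0 + c 1 * (-y 3) + c 2 * y 2)),
    sq_nonneg (-y 3 + (c 0 * y 3 + c 1 * y 0 + c 2 * (-y 1))),
    sq_nonneg (y 2 + (c 0 * (-y 2) + c 1 * y 1 + c 2 * y 0))]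

theorem Ec_sub (c : Fin 3 → ℝ) (y z : Fin 9 → ℝ) (t : ℝ) (k : Fin 9) :
    Ec c (fun i => y i - t * z i) k = Ec c y k - t * Ec c z k := by
  fin_cases k <;> simp [Ec] <;> ring

/-- the coefficients killing `p` -/
theorem exists_c (p : Fin 9 → ℝ) :
    ∃ c : Fin 3 → ℝ, c 0 ^ 2 + c 1 ^ 2 + c 2 ^ 2 ≤ 1 ∧ ∀ k, Ec c p k = 0 := by
  set s := p 0 ^ 2 + p 1 ^ 2 + p 2 ^ 2 + p 3 ^ 2 with hs
  by_cases h0 : s = 0
  · have hp0 : p 0 = 0 := by nlinarith [sq_nonneg (p 0), sq_nonneg (p 1), sq_nonneg (p 2), sq_nonneg (p 3)]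
    have hp1 : p 1 = 0 := by nlinarith [sq_nonneg (p 0), sq_nonneg (p 1), sq_nonneg (p 2), sq_nonneg (p 3)]
    have hp2 : p 2 = 0 := by nlinarith [sq_nonneg (p 0), sq_nonneg (p 1), sq_nonneg (p 2), sq_nonneg (p 3)]
    have hp3 : p 3 = 0 := by nlinarith [sq_nonneg (p 0), sq_nonneg (p 1), sq_nonneg (p 2), sq_nonneg (p 3)]
    refine ⟨0, by simp, fun k => ?_⟩
    fin_cases k <;> simp [Ec, hp0, hp1, hp2, hp3]
  · refine ⟨![(p 0 ^ 2 + p 1 ^ 2 - p 2 ^ 2 - p 3 ^ 2) / s, 2 * (p 1 * p 2 - p 0 * p 3) / s,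
      2 * (p 1 * p 3 + p 0 * p 2) / s], ?_, fun k => ?_⟩
    · simp only [Matrix.cons_val_zero, Matrix.cons_val_one, Matrix.cons_val]
      apply le_of_eq
      field_simp
      rw [hs]
      ring
    · fin_cases k <;> simp [Ec] <;> field_simp <;> rw [hs] <;> ring

/-! ### 4. The barrier lemma -/

theorem norm_sq_eq {N : ℕ} (x : Cfg N) :
    ‖x‖ ^ 2 = ∑ A : Fin (N ^ 2 - 1), ∑ i : Fin 9, x (i, A) ^ 2 := by
  rw [EuclideanSpace.real_norm_sq_eq, Fintype.sum_prod_type, Finset.sum_comm]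

/-- (BG) deterministic barrier: some combination `E = K⁺ - Σ c_a K⁻_a`, `|c| ≤ 1`, has
`|E x|² |x|² ≤ 12 V(x)`. -/
theorem barrier_field (b : ColorBasis 2) (x : Cfg 2) :
    ∃ c : Fin 3 → ℝ, (∀ a, |c a| ≤ 1) ∧ ‖Kp x - ∑ a, c a • Km a x‖ ^ 2 * ‖x‖ ^ 2 ≤ 12 * V b x := by
  have : Nonempty (Fin (2 ^ 2 - 1)) := ⟨k0⟩
  obtain ⟨A0, hA0⟩ := Finite.exists_max
    (fun A : Fin (2 ^ 2 - 1) => ∑ i : Fin 9, x (i, A) ^ 2)
  set r : ℝ := ∑ i : Fin 9, x (i, A0) ^ 2 with hr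
  have hr0 : 0 ≤ r := Finset.sum_nonneg fun i _ => sq_nonneg _
  have hx : ‖x‖ ^ 2 ≤ 3 * r := by
    rw [norm_sq_eq, sum3]
    have h0 := hA0 k0
    have h1 := hA0 k1
    have h2 := hA0 k2
    simp only at h0 h1 h2
    linarith
  obtain ⟨c, hc, hc0⟩ := exists_c (fun i => x (i, A0))
  refine ⟨c, fun a => ?_, ?_⟩
  · have key : c a ^ 2 ≤ ∑ a, c a ^ 2 :=
      Finset.single_le_sum (f := fun a => c a ^ 2) (fun i _ => sq_nonneg _) (Finset.mem_univ a)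
    rw [Fin.sum_univ_three] at key
    exact abs_le_one_iff_mul_self_le_one.mpr (by nlinarith)
  · have hE : ‖Kp x - ∑ a, c a • Km a x‖ ^ 2 =
        ∑ A, ∑ k, Ec c (fun i => x (i, A)) k ^ 2 := by
      rw [norm_sq_eq]
      simp only [E_apply]
    by_cases hrz : r = 0
    · have : ‖x‖ ^ 2 = 0 := le_antisymm (by rw [hrz] at hx; linarith) (sq_nonneg _)
      rw [this, mul_zero]
      have := V_ge b x A0
      have h2 : 0 ≤ ∑ A, W2 (fun i => x (i, A0)) (fun i => x (i, A)) :=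
        Finset.sum_nonneg fun A _ => W2_nonneg _ _
      linarith
    · have hrp : 0 < r := lt_of_le_of_ne hr0 (Ne.symm hrz)
      have hterm : ∀ A, (∑ k, Ec c (fun i => x (i, A)) k ^ 2) * r ≤
          4 * W2 (fun i => x (i, A0)) (fun i => x (i, A)) := by
        intro A
        set t : ℝ := (∑ i, x (i, A0) * x (i, A)) / r with ht
        have e1 : ∀ k, Ec c (fun i => x (i, A)) k = Ec c (fun i => x (i, A) - t * x (i, A0)) k := by
          intro k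
          rw [Ec_sub c (fun i => x (i, A)) (fun i => x (i, A0)) t k, hc0 k]
          ring
        have e2 : ∑ k, Ec c (fun i => x (i, A)) k ^ 2 ≤
            4 * ∑ k : Fin 9, (x (k, A) - t * x (k, A0)) ^ 2 := by
          simp only [e1]
          exact Ec_sq_le c hc _
        have e3 : (∑ k : Fin 9, (x (k, A) - t * x (k, A0)) ^ 2) * r =
            W2 (fun i => x (i, A0)) (fun i => x (i, A)) := by
          have e4 : ∑ k : Fin 9, (x (k, A) - t * x (k, A0)) ^ 2 =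
              (∑ k : Fin 9, x (k, A) ^ 2) - 2 * t * (∑ i, x (i, A0) * x (i, A)) + t ^ 2 * r := by
            rw [hr, Finset.mul_sum, Finset.mul_sum, ← Finset.sum_sub_distrib,
              ← Finset.sum_add_distrib]
            refine Finset.sum_congr rfl fun k _ => ?_
            ring
          rw [e4]
          unfold W2
          rw [← hr, ht]
          field_simp
          ring
        calc (∑ k, Ec c (fun i => x (i, A)) k ^ 2) * r ≤
            (4 * ∑ k : Fin 9, (x (k, A) - t * x (k, A0)) ^ 2) * r :=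
              mul_le_mul_of_nonneg_right e2 hr0
          _ = 4 * W2 (fun i => x (i, A0)) (fun i => x (i, A)) := by rw [← e3]; ring
      have hsum : ‖Kp x - ∑ a, c a • Km a x‖ ^ 2 * r ≤ 4 * V b x := by
        rw [hE, Finset.sum_mul]
        calc ∑ A, (∑ k, Ec c (fun i => x (i, A)) k ^ 2) * r ≤
            ∑ A, 4 * W2 (fun i => x (i, A0)) (fun i => x (i, A)) :=
              Finset.sum_le_sum fun A _ => hterm A
          _ = 4 * ∑ A, W2 (fun i => x (i, A0)) (fun i => x (i, A)) := by rw [Finset.mul_sum]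
          _ ≤ 4 * V b x := by linarith [V_ge b x A0]
      calc ‖Kp x - ∑ a, c a • Km a x‖ ^ 2 * ‖x‖ ^ 2 ≤
          ‖Kp x - ∑ a, c a • Km a x‖ ^ 2 * (3 * r) :=
            mul_le_mul_of_nonneg_left hx (sq_nonneg _)
        _ = 3 * (‖Kp x - ∑ a, c a • Km a x‖ ^ 2 * r) := by ring
        _ ≤ 12 * V b x := by linarith

/-- (BP) pointwise coercivity -/
theorem barrier {F : Type*} [NormedAddCommGroup F] [NormedSpace ℝ F] (b : ColorBasis 2)
    (x : Cfg 2) (D : Cfg 2 →L[ℝ] F) (v : F) {μ ν s : ℝ} (hμ : μ * ‖v‖ ≤ ‖D (Kp x)‖)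
    (hν : ∀ a, ‖D (Km a x)‖ ≤ ν * ‖v‖) (hμν : 3 * ν ≤ μ) (hs : 0 ≤ s) :
    2 * Real.sqrt (s / 12) * (μ - 3 * ν) * ‖x‖ * ‖v‖ ^ 2 ≤ s * ‖D‖ ^ 2 + V b x * ‖v‖ ^ 2 := by
  obtain ⟨c, hc, hcE⟩ := barrier_field b x
  set e : Cfg 2 := Kp x - ∑ a, c a • Km a x with he
  have h1 : (μ - 3 * ν) * ‖v‖ ≤ ‖D‖ * ‖e‖ := by
    have h2 : D (Kp x) = D e + ∑ a, c a • D (Km a x) := by
      rw [he, map_sub, map_sum]
      simp only [map_smul]
      abel
    have h3 : ‖D (Kp x)‖ ≤ ‖D e‖ + 3 * (ν * ‖v‖) := by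
      rw [h2]
      refine (norm_add_le _ _).trans ?_
      have h4 : ‖∑ a, c a • D (Km a x)‖ ≤ ∑ a : Fin 3, ν * ‖v‖ := by
        refine norm_sum_le_of_le _ fun a _ => ?_
        rw [norm_smul, Real.norm_eq_abs]
        calc |c a| * ‖D (Km a x)‖ ≤ 1 * ‖D (Km a x)‖ :=
              mul_le_mul_of_nonneg_right (hc a) (norm_nonneg _)
          _ ≤ ν * ‖v‖ := by rw [one_mul]; exact hν a
      rw [Finset.sum_const, Finset.card_univ, Fintype.card_fin, nsmul_eq_mul] at h4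
      push_cast at h4
      linarith
    have h5 : ‖D e‖ ≤ ‖D‖ * ‖e‖ := D.le_opNorm e
    nlinarith
  have hq : 0 ≤ Real.sqrt (s / 12) := Real.sqrt_nonneg _
  have hq2 : Real.sqrt (s / 12) ^ 2 = s / 12 := Real.sq_sqrt (by positivity)
  set q := Real.sqrt (s / 12) with hqd
  -- 12 q² ‖D‖² + (e² x² / 12) v² ≥ 2 q ‖D‖ e x v
  have h6 : ‖e‖ ^ 2 * ‖x‖ ^ 2 / 12 * ‖v‖ ^ 2 ≤ V b x * ‖v‖ ^ 2 := by
    apply mul_le_mul_of_nonneg_right _ (sq_nonneg _)
    linarith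
  have h7 : s = 12 * q ^ 2 := by rw [hq2]; ring
  have h8 : 2 * q * ‖x‖ * ‖v‖ * ((μ - 3 * ν) * ‖v‖) ≤ 2 * q * ‖x‖ * ‖v‖ * (‖D‖ * ‖e‖) :=
    mul_le_mul_of_nonneg_left h1 (by positivity)
  have h9 : 2 * q * ‖x‖ * ‖v‖ * (‖D‖ * ‖e‖) ≤
      12 * q ^ 2 * ‖D‖ ^ 2 + ‖e‖ ^ 2 * ‖x‖ ^ 2 / 12 * ‖v‖ ^ 2 := by
    nlinarith [sq_nonneg (12 * q * ‖D‖ - ‖e‖ * ‖x‖ * ‖v‖)]
  calc 2 * q * (μ - 3 * ν) * ‖x‖ * ‖v‖ ^ 2 = 2 * q * ‖x‖ * ‖v‖ * ((μ - 3 * ν) * ‖v‖) := by ring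
    _ ≤ 12 * q ^ 2 * ‖D‖ ^ 2 + ‖e‖ ^ 2 * ‖x‖ ^ 2 / 12 * ‖v‖ ^ 2 := h8.trans h9
    _ ≤ s * ‖D‖ ^ 2 + V b x * ‖v‖ ^ 2 := by rw [h7]; linarith

/-- operator norm against the coordinate gradient -/
theorem opNorm_sq_le {κ : Type*} [Fintype κ] [DecidableEq κ] {F : Type*} [NormedAddCommGroup F]
    [NormedSpace ℝ F] (D : EuclideanSpace ℝ κ →L[ℝ] F) :
    ‖D‖ ^ 2 ≤ ∑ k, ‖D (EuclideanSpace.single k (1 : ℝ))‖ ^ 2 := by
  set G : ℝ := ∑ k, ‖D (EuclideanSpace.single k (1 : ℝ))‖ ^ 2 with hG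
  have hG0 : 0 ≤ G := Finset.sum_nonneg fun k _ => sq_nonneg _
  have h : ‖D‖ ≤ Real.sqrt G := by
    refine D.opNorm_le_bound (Real.sqrt_nonneg _) fun y => ?_
    have hy : y = ∑ k, y k • EuclideanSpace.single k (1 : ℝ) := by
      ext k
      simp [Pi.single_apply]
    have h1 : ‖D y‖ ≤ ∑ k, |y k| * ‖D (EuclideanSpace.single k (1 : ℝ))‖ := by
      conv_lhs => rw [hy, map_sum]
      refine norm_sum_le_of_le _ fun k _ => ?_
      rw [map_smul, norm_smul, Real.norm_eq_abs]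
    have h2 : (∑ k, |y k| * ‖D (EuclideanSpace.single k (1 : ℝ))‖) ^ 2 ≤
        (∑ k, |y k| ^ 2) * G :=
      Finset.sum_mul_sq_le_sq_mul_sq _ _ _
    have h3 : ∑ k, |y k| ^ 2 = ‖y‖ ^ 2 := by
      rw [EuclideanSpace.real_norm_sq_eq]
      simp only [sq_abs]
    rw [h3] at h2
    have h4 : ∑ k, |y k| * ‖D (EuclideanSpace.single k (1 : ℝ))‖ ≤ Real.sqrt G * ‖y‖ := by
      apply le_of_sq_le_sq _ (by positivity)
      rw [mul_pow, Real.sq_sqrt hG0]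
      linarith
    exact h1.trans h4
  calc ‖D‖ ^ 2 ≤ Real.sqrt G ^ 2 := by gcongr
    _ = G := Real.sq_sqrt hG0

end Crest.Agent.R330.Bar963
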