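import Crest.Agent.R330.Vac_973

/-!
# Row 330 (helper973): existence of the gauge action

* `complete` : a traceless matrix is `Σ_A Tr(T_A X) T_A`.
* `adjMat_orth`, `adjMat_mul`, `adjMat_one` : the adjoint matrices are orthogonal, a homomorphism.
* `rot` : colour rotations of a fermionic module; `lift` : the spin lift with `lift O Ω = Ω`.
* `gaugeAction` : the gauge action which fixes a vacuum; `nonempty_gaugeAction`.
-/

set_option autoImplicit false
set_option linter.unusedSectionVars false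

noncomputable section

open scoped InnerProductSpace Matrix

namespace Crest.Agent.R330.GaugeEx973

open Crest.MathPhysics.MatrixQM Crest.Agent.R330.Vac973

variable {N : ℕ}

/-! ### Completeness of the colour basis -/

/-- **Completeness**: a traceless matrix is `Σ_A Tr(T_A X) T_A`. -/
theorem complete (b : ColorBasis N) {X : Matrix (Fin N) (Fin N) ℂ} (hX : X.trace = 0) :
    X = ∑ A, (b.T A * X).trace • b.T A := by
  rcases Nat.eq_zero_or_pos N with rfl | hN
  · exact Subsingleton.elim _ _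
  set f : ((Fin (N ^ 2 - 1) → ℂ) × ℂ) →ₗ[ℂ] Matrix (Fin N) (Fin N) ℂ :=
    { toFun := fun c => (∑ A, c.1 A • b.T A) + c.2 • (1 : Matrix (Fin N) (Fin N) ℂ)
      map_add' := fun x y => by
        simp only [Prod.fst_add, Prod.snd_add, Pi.add_apply, add_smul, Finset.sum_add_distrib]
        abel
      map_smul' := fun t x => by
        simp only [Prod.smul_fst, Prod.smul_snd, Pi.smul_apply, smul_eq_mul, RingHom.id_apply,
          smul_add, Finset.smul_sum, smul_smul] } with hf
  have hfa : ∀ c : (Fin (N ^ 2 - 1) → ℂ) × ℂ,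
      f c = (∑ A, c.1 A • b.T A) + c.2 • (1 : Matrix (Fin N) (Fin N) ℂ) := fun _ => rfl
  have htr : ∀ c : (Fin (N ^ 2 - 1) → ℂ) × ℂ, (f c).trace = c.2 * N := by
    intro c
    rw [hfa, Matrix.trace_add, Matrix.trace_sum, Matrix.trace_smul, Matrix.trace_one,
      Fintype.card_fin, smul_eq_mul]
    simp only [Matrix.trace_smul, b.traceless, smul_zero, Finset.sum_const_zero, zero_add]
  have hco : ∀ (c : (Fin (N ^ 2 - 1) → ℂ) × ℂ) (B : Fin (N ^ 2 - 1)),
      (b.T B * f c).trace = c.1 B := by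
    intro c B
    rw [hfa, mul_add, Matrix.trace_add, Finset.mul_sum, Matrix.trace_sum]
    simp only [Matrix.mul_smul, Matrix.trace_smul, b.orthonormal, mul_one, b.traceless,
      add_zero, smul_eq_mul, mul_ite, mul_zero]
    rw [Finset.sum_ite_eq Finset.univ B c.1]
    simp
  have hN0 : (N : ℂ) ≠ 0 := Nat.cast_ne_zero.2 hN.ne'
  have hinj : Function.Injective f := by
    rw [← LinearMap.ker_eq_bot, LinearMap.ker_eq_bot']
    intro c hc
    refine Prod.ext (funext fun B => ?_) ?_
    · rw [← hco c B, hc, mul_zero, Matrix.trace_zero]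
      rfl
    · have h1 := htr c
      rw [hc, Matrix.trace_zero] at h1
      exact (mul_eq_zero.1 h1.symm).resolve_right hN0
  have hdim : Module.finrank ℂ ((Fin (N ^ 2 - 1) → ℂ) × ℂ) =
      Module.finrank ℂ (Matrix (Fin N) (Fin N) ℂ) := by
    rw [Module.finrank_prod, Module.finrank_fintype_fun_eq_card, Fintype.card_fin,
      Module.finrank_self, Module.finrank_matrix, Fintype.card_fin, Module.finrank_self, mul_one]
    have h1 : 1 ≤ N ^ 2 := Nat.one_le_pow _ _ hN
    have h2 : N ^ 2 = N * N := sq N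
    omega
  have hsurj : Function.Surjective f :=
    (LinearMap.injective_iff_surjective_of_finrank_eq_finrank hdim).1 hinj
  obtain ⟨c, rfl⟩ := hsurj X
  have h2 : c.2 = 0 := by
    have h1 := htr c
    rw [hX] at h1
    exact (mul_eq_zero.1 h1.symm).resolve_right hN0
  simp only [hco]
  rw [hfa, h2, zero_smul, add_zero]

/-! ### The adjoint matrices -/

section adj

variable (b : ColorBasis N) (g h : Matrix.specialUnitaryGroup (Fin N) ℂ)

/-- The adjoint matrix. -/
abbrev adjM : Matrix (Fin (N ^ 2 - 1)) (Fin (N ^ 2 - 1)) ℝ := fun A B => b.adjMat g A B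

theorem star_mul_self' : star (g : Matrix (Fin N) (Fin N) ℂ) * (g : Matrix (Fin N) (Fin N) ℂ) = 1 :=
  Matrix.mem_unitaryGroup_iff'.1 (Matrix.mem_specialUnitaryGroup_iff.1 g.2).1

theorem mul_star_self' : (g : Matrix (Fin N) (Fin N) ℂ) * star (g : Matrix (Fin N) (Fin N) ℂ) = 1 :=
  Matrix.mem_unitaryGroup_iff.1 (Matrix.mem_specialUnitaryGroup_iff.1 g.2).1

/-- Traces of products of two Hermitian matrices are real. -/
theorem trace_real {X Y : Matrix (Fin N) (Fin N) ℂ} (hX : X.IsHermitian) (hY : Y.IsHermitian) :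
    (((X * Y).trace.re : ℝ) : ℂ) = (X * Y).trace := by
  refine Complex.conj_eq_iff_re.1 ?_
  have h1 := Matrix.trace_conjTranspose (X * Y)
  rw [Matrix.conjTranspose_mul, hX.eq, hY.eq, Matrix.trace_mul_comm] at h1
  exact h1.symm

theorem herm_conj (B : Fin (N ^ 2 - 1)) : ((g : Matrix (Fin N) (Fin N) ℂ) * b.T B *
    star (g : Matrix (Fin N) (Fin N) ℂ)).IsHermitian := by
  unfold Matrix.IsHermitian
  rw [Matrix.star_eq_conjTranspose, Matrix.conjTranspose_mul, Matrix.conjTranspose_mul,
    Matrix.conjTranspose_conjTranspose, (b.herm B).eq, mul_assoc]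

theorem trace_conj (X : Matrix (Fin N) (Fin N) ℂ) : ((g : Matrix (Fin N) (Fin N) ℂ) * X *
    star (g : Matrix (Fin N) (Fin N) ℂ)).trace = X.trace := by
  rw [Matrix.trace_mul_comm, ← mul_assoc, star_mul_self', one_mul]

theorem adjMat_coe (A B : Fin (N ^ 2 - 1)) : ((b.adjMat g A B : ℝ) : ℂ) =
    (b.T A * ((g : Matrix (Fin N) (Fin N) ℂ) * b.T B *
      star (g : Matrix (Fin N) (Fin N) ℂ))).trace := by
  rw [← trace_real (b.herm A) (herm_conj b g B)]
  unfold ColorBasis.adjMat
  simp only [mul_assoc]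

/-- `g T_B g* = Σ_A R(g)_AB T_A`. -/
theorem conj_eq (B : Fin (N ^ 2 - 1)) : (g : Matrix (Fin N) (Fin N) ℂ) * b.T B *
    star (g : Matrix (Fin N) (Fin N) ℂ) = ∑ A, ((b.adjMat g A B : ℝ) : ℂ) • b.T A := by
  simp only [adjMat_coe]
  exact complete b (by rw [trace_conj, b.traceless])

theorem adjMat_orth : (adjM b g)ᵀ * adjM b g = 1 := by
  ext B C
  rw [Matrix.mul_apply]
  simp only [Matrix.transpose_apply]
  have h1 : (((g : Matrix (Fin N) (Fin N) ℂ) * b.T B * star (g : Matrix (Fin N) (Fin N) ℂ)) *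
      ((g : Matrix (Fin N) (Fin N) ℂ) * b.T C * star (g : Matrix (Fin N) (Fin N) ℂ))).trace =
      if B = C then 1 else 0 := by
    have h2 : ((g : Matrix (Fin N) (Fin N) ℂ) * b.T B * star (g : Matrix (Fin N) (Fin N) ℂ)) *
        ((g : Matrix (Fin N) (Fin N) ℂ) * b.T C * star (g : Matrix (Fin N) (Fin N) ℂ)) =
        (g : Matrix (Fin N) (Fin N) ℂ) * (b.T B * b.T C) *
          star (g : Matrix (Fin N) (Fin N) ℂ) := by
      calc _ = (g : Matrix (Fin N) (Fin N) ℂ) * b.T B *
            (star (g : Matrix (Fin N) (Fin N) ℂ) * (g : Matrix (Fin N) (Fin N) ℂ)) * b.T C *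
            star (g : Matrix (Fin N) (Fin N) ℂ) := by simp only [mul_assoc]
        _ = _ := by rw [star_mul_self', mul_one]; simp only [mul_assoc]
    rw [h2, trace_conj, b.orthonormal]
  rw [conj_eq b g B, Finset.sum_mul, Matrix.trace_sum] at h1
  simp only [Matrix.smul_mul, Matrix.trace_smul, ← adjMat_coe, smul_eq_mul] at h1
  have h3 : ((∑ A, b.adjMat g A B * b.adjMat g A C : ℝ) : ℂ) =
      ((if B = C then 1 else 0 : ℝ) : ℂ) := by
    push_cast
    rw [h1]
    split_ifs <;> simp
  rw [Complex.ofReal_inj.1 h3, Matrix.one_apply]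

theorem adjMat_mul : adjM b (g * h) = adjM b g * adjM b h := by
  ext A B
  rw [Matrix.mul_apply]
  have h1 : ((b.adjMat (g * h) A B : ℝ) : ℂ) =
      ((∑ C, b.adjMat g A C * b.adjMat h C B : ℝ) : ℂ) := by
    rw [adjMat_coe]
    have h2 : ((g * h : Matrix.specialUnitaryGroup (Fin N) ℂ) : Matrix (Fin N) (Fin N) ℂ) * b.T B *
        star ((g * h : Matrix.specialUnitaryGroup (Fin N) ℂ) : Matrix (Fin N) (Fin N) ℂ) =
        (g : Matrix (Fin N) (Fin N) ℂ) * ((h : Matrix (Fin N) (Fin N) ℂ) * b.T B *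
          star (h : Matrix (Fin N) (Fin N) ℂ)) * star (g : Matrix (Fin N) (Fin N) ℂ) := by
      rw [Submonoid.coe_mul, star_mul]
      simp only [mul_assoc]
    rw [h2, conj_eq b h B, Finset.mul_sum, Finset.sum_mul, Finset.mul_sum, Matrix.trace_sum]
    push_cast
    refine Finset.sum_congr rfl fun C _ => ?_
    rw [Matrix.mul_smul, Matrix.smul_mul, Matrix.mul_smul, Matrix.trace_smul, ← adjMat_coe,
      smul_eq_mul, mul_comm]
  exact Complex.ofReal_inj.1 h1

theorem adjMat_one : adjM b 1 = 1 := by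
  ext A B
  have h1 : ((b.adjMat 1 A B : ℝ) : ℂ) = ((if A = B then 1 else 0 : ℝ) : ℂ) := by
    rw [adjMat_coe]
    have h2 : ((1 : Matrix.specialUnitaryGroup (Fin N) ℂ) : Matrix (Fin N) (Fin N) ℂ) = 1 := rfl
    rw [h2, star_one, one_mul, mul_one, b.orthonormal]
    split_ifs <;> simp
  rw [Matrix.one_apply]
  exact Complex.ofReal_inj.1 h1

theorem continuous_adjMat (A B : Fin (N ^ 2 - 1)) :
    Continuous fun g : Matrix.specialUnitaryGroup (Fin N) ℂ => b.adjMat g A B := by
  unfold ColorBasis.adjMat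
  have h1 : Continuous fun g : Matrix.specialUnitaryGroup (Fin N) ℂ =>
      (g : Matrix (Fin N) (Fin N) ℂ) := continuous_subtype_val
  exact Complex.continuous_re.comp ((((continuous_const.mul h1).mul continuous_const).mul
    h1.star).matrix_trace)

end adj

/-! ### Rotated modules -/

section rotation

variable {F : Type*} [NormedAddCommGroup F] [InnerProductSpace ℂ F]

theorem orth_left {O : Matrix (Fin (N ^ 2 - 1)) (Fin (N ^ 2 - 1)) ℝ} (hO : Oᵀ * O = 1)
    (A B : Fin (N ^ 2 - 1)) : ∑ C, (O C A : ℂ) * (O C B : ℂ) = if A = B then 1 else 0 := by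
  have h1 := congrFun (congrFun hO A) B
  rw [Matrix.mul_apply, Matrix.one_apply] at h1
  simp only [Matrix.transpose_apply] at h1
  have h2 : ((∑ C, O C A * O C B : ℝ) : ℂ) = ((if A = B then 1 else 0 : ℝ) : ℂ) := by rw [h1]
  push_cast at h2
  rw [h2]
  split_ifs <;> simp

theorem orth_right {O : Matrix (Fin (N ^ 2 - 1)) (Fin (N ^ 2 - 1)) ℝ} (hO : Oᵀ * O = 1)
    (A B : Fin (N ^ 2 - 1)) : ∑ C, (O A C : ℂ) * (O B C : ℂ) = if A = B then 1 else 0 := by
  have hO' : O * Oᵀ = 1 := mul_eq_one_comm.1 hO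
  have h1 := congrFun (congrFun hO' A) B
  rw [Matrix.mul_apply, Matrix.one_apply] at h1
  simp only [Matrix.transpose_apply] at h1
  have h2 : ((∑ C, O A C * O B C : ℝ) : ℂ) = ((if A = B then 1 else 0 : ℝ) : ℂ) := by rw [h1]
  push_cast at h2
  rw [h2]
  split_ifs <;> simp

/-- **The rotated module**: `θ'_α^A = Σ_B O_BA θ_α^B`. -/
def rot (M : FermionRep N F) (O : Matrix (Fin (N ^ 2 - 1)) (Fin (N ^ 2 - 1)) ℝ)
    (hO : Oᵀ * O = 1) : FermionRep N F where
  θ α A := ∑ B, (O B A : ℂ) • M.θ α B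
  selfAdjoint α A x y := by
    simp only [LinearMap.sum_apply, LinearMap.smul_apply, sum_inner, inner_sum, inner_smul_left,
      inner_smul_right, Complex.conj_ofReal]
    exact Finset.sum_congr rfl fun B _ => by rw [M.selfAdjoint α B x y]
  anticomm α A β B := by
    have h1 : ∀ (C D : Fin (N ^ 2 - 1)), M.θ α C ∘ₗ M.θ β D =
        (if α = β ∧ C = D then (LinearMap.id : F →ₗ[ℂ] F) else 0) - M.θ β D ∘ₗ M.θ α C :=
      fun C D => eq_sub_of_add_eq (M.anticomm α C β D)
    have h2 : (∑ C, (O C A : ℂ) • M.θ α C) ∘ₗ (∑ D, (O D B : ℂ) • M.θ β D) =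
        ∑ C, ∑ D, ((O C A : ℂ) * (O D B : ℂ)) • (M.θ α C ∘ₗ M.θ β D) := by
      refine LinearMap.ext fun v => ?_
      simp only [LinearMap.comp_apply, LinearMap.sum_apply, LinearMap.smul_apply, map_sum,
        map_smul, Finset.smul_sum, smul_smul]
      rw [Finset.sum_comm]
      refine Finset.sum_congr rfl fun C _ => Finset.sum_congr rfl fun D _ => ?_
      rw [mul_comm]
    have h3 : (∑ D, (O D B : ℂ) • M.θ β D) ∘ₗ (∑ C, (O C A : ℂ) • M.θ α C) =
        ∑ C, ∑ D, ((O C A : ℂ) * (O D B : ℂ)) • (M.θ β D ∘ₗ M.θ α C) := by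
      refine LinearMap.ext fun v => ?_
      simp only [LinearMap.comp_apply, LinearMap.sum_apply, LinearMap.smul_apply, map_sum,
        map_smul, Finset.smul_sum, smul_smul]
    rw [h2, h3, ← Finset.sum_add_distrib]
    simp only [← Finset.sum_add_distrib, ← smul_add, M.anticomm]
    by_cases hαβ : α = β
    · simp only [hαβ, true_and]
      have h4 : ∀ C : Fin (N ^ 2 - 1), (∑ D, ((O C A : ℂ) * (O D B : ℂ)) •
          (if C = D then (LinearMap.id : F →ₗ[ℂ] F) else 0)) =
          ((O C A : ℂ) * (O C B : ℂ)) • (LinearMap.id : F →ₗ[ℂ] F) := by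
        intro C
        rw [Finset.sum_eq_single C]
        · rw [if_pos rfl]
        · intro D _ hD
          rw [if_neg (Ne.symm hD), smul_zero]
        · intro h
          exact absurd (Finset.mem_univ C) h
      simp only [h4]
      rw [← Finset.sum_smul, orth_left hO]
      split_ifs
      · rw [one_smul]
      · rw [zero_smul]
    · simp only [hαβ, false_and, if_false, smul_zero, Finset.sum_const_zero]
  irreducible W hW := by
    refine M.irreducible W fun α B v hv => ?_
    have h1 : M.θ α B v = ∑ A, (O B A : ℂ) • (∑ C, (O C A : ℂ) • M.θ α C) v := by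
      simp only [LinearMap.sum_apply, LinearMap.smul_apply, Finset.smul_sum, smul_smul]
      rw [Finset.sum_comm]
      simp only [← Finset.sum_smul, orth_right hO]
      rw [Finset.sum_eq_single B]
      · rw [if_pos rfl, one_smul]
      · intro C _ hC
        rw [if_neg (Ne.symm hC), zero_smul]
      · intro h
        exact absurd (Finset.mem_univ B) h
    rw [h1]
    exact W.sum_mem fun A _ => W.smul_mem _ (hW α A v hv)

variable {M : FermionRep N F} {Ω : F} {O : Matrix (Fin (N ^ 2 - 1)) (Fin (N ^ 2 - 1)) ℝ}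

theorem ann_rot (hO : Oᵀ * O = 1) (j : Fin 8 × Fin (N ^ 2 - 1)) (v : F) :
    ann (rot M O hO) j v = ∑ B, (O B j.2 : ℂ) • ann M (j.1, B) v := by
  simp only [ann, rot, LinearMap.add_apply, LinearMap.smul_apply, LinearMap.sum_apply, smul_add,
    Finset.smul_sum, Finset.sum_add_distrib, smul_smul, mul_comm]

theorem cre_rot (hO : Oᵀ * O = 1) (j : Fin 8 × Fin (N ^ 2 - 1)) (v : F) :
    cre (rot M O hO) j v = ∑ B, (O B j.2 : ℂ) • cre M (j.1, B) v := by
  simp only [cre, rot, LinearMap.sub_apply, LinearMap.smul_apply, LinearMap.sum_apply, smul_sub,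
    Finset.smul_sum, Finset.sum_sub_distrib, smul_smul, mul_comm]

theorem isVac_rot (h : IsVac M Ω) (hO : Oᵀ * O = 1) : IsVac (rot M O hO) Ω :=
  ⟨h.ne, fun j => by
    rw [ann_rot]
    exact Finset.sum_eq_zero fun B _ => by rw [h.ann, smul_zero]⟩

variable [FiniteDimensional ℂ F]

theorem exists_lift (h : IsVac M Ω) (hO : Oᵀ * O = 1) : ∃ U : F →ₗ[ℂ] F, U Ω = Ω ∧
    ∀ α A v, U (M.θ α A v) = (rot M O hO).θ α A (U v) :=
  exists_intertwiner h (isVac_rot h hO)

/-- **The spin lift** of a colour rotation. -/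
def lift (h : IsVac M Ω) (hO : Oᵀ * O = 1) : F →ₗ[ℂ] F := (exists_lift h hO).choose

theorem lift_vac (h : IsVac M Ω) (hO : Oᵀ * O = 1) : lift h hO Ω = Ω :=
  (exists_lift h hO).choose_spec.1

theorem lift_rot (h : IsVac M Ω) (hO : Oᵀ * O = 1) (α : Fin 16) (A : Fin (N ^ 2 - 1)) (v : F) :
    lift h hO (M.θ α A v) = (rot M O hO).θ α A (lift h hO v) :=
  (exists_lift h hO).choose_spec.2 α A v

theorem lift_theta (h : IsVac M Ω) (hO : Oᵀ * O = 1) (α : Fin 16) (A : Fin (N ^ 2 - 1)) (v : F) :
    lift h hO (M.θ α A v) = ∑ B, (O B A : ℂ) • M.θ α B (lift h hO v) := by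
  rw [lift_rot]
  simp only [rot, LinearMap.sum_apply, LinearMap.smul_apply]

theorem inner_lift (h : IsVac M Ω) (hO : Oᵀ * O = 1) (x y : F) :
    ⟪lift h hO x, lift h hO y⟫_ℂ = ⟪x, y⟫_ℂ :=
  inner_intertwiner (M' := rot M O hO) h (by rw [lift_vac]) (lift_rot h hO) x y

/-- The lift is determined by its action on the vacuum and the generators. -/
theorem lift_unique (h : IsVac M Ω) (hO : Oᵀ * O = 1) {T : F →ₗ[ℂ] F} (h0 : T Ω = Ω)
    (hT : ∀ α A v, T (M.θ α A v) = ∑ B, (O B A : ℂ) • M.θ α B (T v)) : T = lift h hO := by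
  refine eq_of_intertwine h (θ' := (rot M O hO).θ) (fun α A v => ?_) (lift_rot h hO)
    (h0.trans (lift_vac h hO).symm)
  rw [hT]
  simp only [rot, LinearMap.sum_apply, LinearMap.smul_apply]

theorem lift_one (h : IsVac M Ω) (h1 : (1 : Matrix (Fin (N ^ 2 - 1)) (Fin (N ^ 2 - 1)) ℝ)ᵀ * 1 = 1) :
    lift h h1 = LinearMap.id := by
  refine (lift_unique h h1 rfl fun α A v => ?_).symm
  rw [Finset.sum_eq_single A]
  · rw [Matrix.one_apply_eq, Complex.ofReal_one, one_smul]
    rfl
  · intro B _ hB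
    rw [Matrix.one_apply_ne hB, Complex.ofReal_zero, zero_smul]
  · intro h2
    exact absurd (Finset.mem_univ A) h2

theorem lift_mul (h : IsVac M Ω) {O' : Matrix (Fin (N ^ 2 - 1)) (Fin (N ^ 2 - 1)) ℝ}
    (hO : Oᵀ * O = 1) (hO' : O'ᵀ * O' = 1) (hm : (O * O')ᵀ * (O * O') = 1) :
    lift h hm = lift h hO ∘ₗ lift h hO' := by
  refine (lift_unique h hm ?_ fun α A v => ?_).symm
  · rw [LinearMap.comp_apply, lift_vac, lift_vac]
  · simp only [LinearMap.comp_apply]
    rw [lift_theta, map_sum]
    simp only [map_smul, lift_theta, Finset.smul_sum, smul_smul]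
    rw [Finset.sum_comm]
    refine Finset.sum_congr rfl fun B _ => ?_
    rw [← Finset.sum_smul]
    congr 1
    rw [Matrix.mul_apply]
    push_cast
    exact Finset.sum_congr rfl fun C _ => mul_comm _ _

theorem lift_cre (h : IsVac M Ω) (hO : Oᵀ * O = 1) (j : Fin 8 × Fin (N ^ 2 - 1)) (v : F) :
    lift h hO (cre M j v) = ∑ B, (O B j.2 : ℂ) • cre M (j.1, B) (lift h hO v) := by
  rw [← cre_rot hO]
  simp only [cre, LinearMap.sub_apply, LinearMap.smul_apply, map_sub, map_smul, lift_rot]

/-- **The lift is continuous.** -/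
theorem continuous_lift (h : IsVac M Ω) {X : Type*} [TopologicalSpace X]
    {O : X → Matrix (Fin (N ^ 2 - 1)) (Fin (N ^ 2 - 1)) ℝ} (hO : ∀ x, (O x)ᵀ * O x = 1)
    (hc : ∀ A B, Continuous fun x => O x A B) :
    Continuous fun x => LinearMap.toContinuousLinearMap (lift h (hO x)) := by
  refine continuous_clm_apply.2 fun v => ?_
  show Continuous fun x => lift h (hO x) v
  have hv : v ∈ gen (cre M) Ω := by rw [h.gen_eq_top]; trivial
  induction hv using Submodule.span_induction with
  | mem w hw =>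
    induction hw with
    | base => simp only [lift_vac]; exact continuous_const
    | step j w hw ih =>
      simp only [lift_cre]
      refine continuous_finsetSum _ fun B _ => ?_
      exact (Complex.continuous_ofReal.comp (hc B j.2)).smul
        ((LinearMap.continuous_of_finiteDimensional (cre M (j.1, B))).comp ih)
  | zero => simp only [map_zero]; exact continuous_const
  | add x y _ _ hx hy => simp only [map_add]; exact hx.add hy
  | smul a x _ hx => simp only [map_smul]; exact hx.const_smul a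

/-! ### The gauge action -/

/-- **The gauge action which fixes the vacuum.** -/
def gaugeAction (b : ColorBasis N) (h : IsVac M Ω) : GaugeAction b M where
  ρ :=
    { toFun := fun g => lift h (adjMat_orth b g)
      map_one' := by
        have h1 := adjMat_one b
        have h2 : ∀ (O : Matrix (Fin (N ^ 2 - 1)) (Fin (N ^ 2 - 1)) ℝ) (hO : Oᵀ * O = 1),
            O = 1 → lift h hO = LinearMap.id := by
          intro O hO h3
          subst h3
          exact lift_one h hO
        exact h2 _ _ h1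
      map_mul' := fun g g' => by
        have h1 := adjMat_mul b g g'
        have h2 : ∀ (O : Matrix (Fin (N ^ 2 - 1)) (Fin (N ^ 2 - 1)) ℝ) (hO : Oᵀ * O = 1),
            O = adjM b g * adjM b g' →
            lift h hO = lift h (adjMat_orth b g) ∘ₗ lift h (adjMat_orth b g') := by
          intro O hO h3
          subst h3
          exact lift_mul h _ _ hO
        exact h2 _ _ h1 }
  continuous := continuous_lift h (fun g => adjMat_orth b g) fun A B => continuous_adjMat b A B
  unitary g v w := inner_lift h (adjMat_orth b g) v w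
  intertwine g α A := by
    refine LinearMap.ext fun v => ?_
    show lift h (adjMat_orth b g) (M.θ α A v) = _
    rw [lift_theta]
    simp only [LinearMap.comp_apply, LinearMap.sum_apply, LinearMap.smul_apply]
    rfl

theorem gaugeAction_vac (b : ColorBasis N) (h : IsVac M Ω)
    (g : Matrix.specialUnitaryGroup (Fin N) ℂ) : (gaugeAction b h).ρ g Ω = Ω :=
  lift_vac h (adjMat_orth b g)

/-- **Every fermionic module has a gauge action.** -/
theorem nonempty_gaugeAction [Nontrivial F] (b : ColorBasis N) (M : FermionRep N F) :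
    Nonempty (GaugeAction b M) := by
  obtain ⟨Ω, hΩ⟩ := exists_vac M
  exact ⟨gaugeAction b hΩ⟩

end rotation

end Crest.Agent.R330.GaugeEx973

end
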