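import Crest.Agent.R330.Bind6_839
import Crest.Agent.R330.GaugeEx_973

/-!
# Row 330, section 6 binding (helper839): spin lift of colour isometries and the heavy parity

* `colLift h R` : for a linear isometry `R` of colour space, `U θ_β(u) = θ_β(R u) U`, `U Ω = Ω`,
  unitary (973's lift).
* `exists_par M K` : the parity of `Kᗮ`: commutes with `Od M K`, anticommutes with `Od M Kᗮ`,
  involution, unitary, self-adjoint.
-/

set_option autoImplicit false
set_option linter.unusedSectionVars false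

open MeasureTheory Filter Topology Crest.MathPhysics.MatrixQM
open Crest.Agent.R330.IBP837 Crest.Agent.R330.Defs478 Crest.Agent.R330.Frame839
open Crest.Agent.R330.LS839 Crest.Agent.R330.Clus839 Crest.Agent.R330.Bind6839
open Crest.Agent.R330.Vac973 Crest.Agent.R330.GaugeEx973
open scoped ContDiff InnerProductSpace ENNReal

noncomputable section

namespace Crest.Agent.R330.Bind6b839

variable {N : ℕ} {F : Type*} [NormedAddCommGroup F] [InnerProductSpace ℂ F]
  [FiniteDimensional ℂ F] {M : FermionRep N F} {Ω : F}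

/-- matrix of a colour isometry -/
def omat (R : Colg N ≃ₗᵢ[ℝ] Colg N) : Matrix (Fin (N ^ 2 - 1)) (Fin (N ^ 2 - 1)) ℝ :=
  fun A B => (R (EuclideanSpace.single B 1)) A

theorem omat_orth (R : Colg N ≃ₗᵢ[ℝ] Colg N) : (omat R).transpose * omat R = 1 := by
  ext A B
  rw [Matrix.mul_apply, Matrix.one_apply]
  have h : ⟪R (EuclideanSpace.single A 1), R (EuclideanSpace.single B 1)⟫_ℝ =
      ⟪(EuclideanSpace.single A 1 : Colg N), EuclideanSpace.single B 1⟫_ℝ :=
    R.inner_map_map _ _
  rw [PiLp.inner_apply, EuclideanSpace.inner_single_left] at h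
  simp only [Matrix.transpose_apply, omat]
  have h2 : ∑ i, ⟪(R (EuclideanSpace.single A 1)) i, (R (EuclideanSpace.single B 1)) i⟫_ℝ =
      ∑ i, (R (EuclideanSpace.single A 1)) i * (R (EuclideanSpace.single B 1)) i :=
    Finset.sum_congr rfl fun i _ => by simp [mul_comm]
  rw [← h2, h]
  simp

theorem R_apply (R : Colg N ≃ₗᵢ[ℝ] Colg N) (u : Colg N) (A : Fin (N ^ 2 - 1)) :
    (R u) A = ∑ B, omat R A B * u B := by
  have h : u = ∑ B, u B • (EuclideanSpace.single B (1 : ℝ) : Colg N) := by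
    ext A
    simp [Finset.sum_apply, Pi.single_apply]
  conv_lhs => rw [h]
  rw [map_sum]
  simp only [map_smul, WithLp.ofLp_sum, WithLp.ofLp_smul, Finset.sum_apply, Pi.smul_apply,
    smul_eq_mul, omat]
  exact Finset.sum_congr rfl fun B _ => mul_comm _ _

/-- Spin lift of a colour isometry. -/
def colLift (h : IsVac M Ω) (R : Colg N ≃ₗᵢ[ℝ] Colg N) : F →ₗ[ℂ] F := lift h (omat_orth R)

theorem colLift_vac (h : IsVac M Ω) (R : Colg N ≃ₗᵢ[ℝ] Colg N) : colLift h R Ω = Ω :=
  lift_vac h _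

theorem colLift_inner (h : IsVac M Ω) (R : Colg N ≃ₗᵢ[ℝ] Colg N) (x y : F) :
    ⟪colLift h R x, colLift h R y⟫_ℂ = ⟪x, y⟫_ℂ := inner_lift h _ x y

theorem colLift_thv (h : IsVac M Ω) (R : Colg N ≃ₗᵢ[ℝ] Colg N) (β : Fin 16) (u : Colg N)
    (f : F) : colLift h R (thv M β u f) = thv M β (R u) (colLift h R f) := by
  unfold thv
  simp only [LinearMap.sum_apply, LinearMap.smul_apply, map_sum, map_smul]
  have h1 : ∀ A, colLift h R (M.θ β A f) = ∑ B, (omat R B A : ℂ) • M.θ β B (colLift h R f) :=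
    fun A => lift_theta h (omat_orth R) β A f
  simp only [h1, Finset.smul_sum, smul_smul]
  rw [Finset.sum_comm]
  refine Finset.sum_congr rfl fun B _ => ?_
  rw [R_apply]
  push_cast
  rw [Finset.sum_smul]
  exact Finset.sum_congr rfl fun A _ => by rw [mul_comm]

theorem colLift_comp (h : IsVac M Ω) (R R' : Colg N ≃ₗᵢ[ℝ] Colg N) (f : F)
    (hR : ∀ u, R (R' u) = u) : colLift h R (colLift h R' f) = f := by
  have key : (colLift h R) ∘ₗ (colLift h R') = LinearMap.id := by
    refine eq_of_intertwine h (θ' := M.θ) (fun α A v => ?_) (fun α A v => rfl) ?_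
    · have e : ∀ w, M.θ α A w = thv M α (EuclideanSpace.single A 1) w := by
        intro w
        unfold thv
        rw [LinearMap.sum_apply, Finset.sum_eq_single A]
        · simp
        · intro B _ hB
          simp [hB]
        · simp
      rw [LinearMap.comp_apply, LinearMap.comp_apply, e, colLift_thv, colLift_thv, hR, ← e]
    · rw [LinearMap.comp_apply, colLift_vac, colLift_vac]
      rfl
  exact LinearMap.congr_fun key f

/-- **The parity of `Kᗮ`.** -/
theorem exists_par [Nontrivial F] (M : FermionRep N F) (K : Submodule ℝ (Colg N)) :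
    ∃ Γ : F →ₗ[ℂ] F, (∀ L ∈ Od M K, ∀ f, Γ (L f) = L (Γ f)) ∧
      (∀ L ∈ Od M Kᗮ, ∀ f, Γ (L f) = - L (Γ f)) ∧ (∀ f, Γ (Γ f) = f) ∧
      (∀ f f', ⟪Γ f, Γ f'⟫_ℂ = ⟪f, f'⟫_ℂ) ∧ (∀ f f', ⟪Γ f, f'⟫_ℂ = ⟪f, Γ f'⟫_ℂ) ∧
      ∀ f, ‖Γ f‖ = ‖f‖ := by
  obtain ⟨Ω, h⟩ := exists_vac (M := M)
  have h1 : ∀ L ∈ Od M K, ∀ f, colLift h K.reflection (L f) = L (colLift h K.reflection f) := by
    intro L hL f
    unfold Od at hL
    induction hL using Submodule.span_induction with
    | mem x hx =>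
      obtain ⟨β, u, hu, rfl⟩ := hx
      rw [colLift_thv, (Submodule.reflection_mem_subspace_eq_self hu)]
    | zero => simp
    | add x y _ _ h1 h2 => rw [LinearMap.add_apply, LinearMap.add_apply, map_add, h1, h2]
    | smul r x _ h1 => rw [LinearMap.smul_apply, LinearMap.smul_apply, map_smul, h1]
  have h2 : ∀ L ∈ Od M Kᗮ, ∀ f,
      colLift h K.reflection (L f) = - L (colLift h K.reflection f) := by
    intro L hL f
    unfold Od at hL
    induction hL using Submodule.span_induction with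
    | mem x hx =>
      obtain ⟨β, u, hu, rfl⟩ := hx
      have e : K.reflection u = -u :=
        Submodule.reflection_mem_subspace_orthogonalComplement_eq_neg hu
      rw [colLift_thv, e]
      unfold thv
      simp only [LinearMap.sum_apply, LinearMap.smul_apply]
      rw [← Finset.sum_neg_distrib]
      refine Finset.sum_congr rfl fun A _ => ?_
      rw [← neg_smul]
      congr 1
      simp
    | zero => simp
    | add x y _ _ h1 h2 =>
      rw [LinearMap.add_apply, LinearMap.add_apply, map_add, h1, h2]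
      abel
    | smul r x _ h1 => rw [LinearMap.smul_apply, LinearMap.smul_apply, map_smul, h1, smul_neg]
  have h3 : ∀ f, colLift h K.reflection (colLift h K.reflection f) = f := fun f =>
    colLift_comp h _ _ f fun u => K.reflection_reflection u
  have h4 : ∀ f f', ⟪colLift h K.reflection f, colLift h K.reflection f'⟫_ℂ = ⟪f, f'⟫_ℂ :=
    fun f f' => colLift_inner h _ f f'
  refine ⟨colLift h K.reflection, h1, h2, h3, h4, fun f f' => ?_, fun f => ?_⟩
  · conv_lhs => rw [← h3 f']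
    rw [h4]
  · have h5 := h4 f f
    rw [inner_self_eq_norm_sq_to_K, inner_self_eq_norm_sq_to_K] at h5
    have h6 : ‖colLift h K.reflection f‖ ^ 2 = ‖f‖ ^ 2 := by exact_mod_cast h5
    exact (pow_left_inj₀ (norm_nonneg _) (norm_nonneg _) two_ne_zero).1 h6

/-! ## (F3): dependence of the heavy part on the base point -/

theorem aB_sub (b : ColorBasis N) (c : Cfg N) (M : FermionRep N F) (G : GammaNine) (α : Fin 16)
    {κ : Type*} [Fintype κ] (t : OrthonormalBasis κ ℝ (Tn (actB b) c)) (p p' e : Cfg N) (f : F) :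
    aB b c M G α t p e f - aB b c M G α t p' e f =
      Complex.I • ∑ a, ((⟪e, nn (actB b) c p (t a) - nn (actB b) c p' (t a)⟫_ℝ : ℝ) : ℂ) •
        Theta M G α (t a) f := by
  unfold aB
  simp only [LinearMap.smul_apply, LinearMap.sub_apply, LinearMap.sum_apply, inner_sub_right,
    Complex.ofReal_sub, sub_smul, Finset.sum_sub_distrib]
  module

theorem wB_sub (b : ColorBasis N) (M : FermionRep N F) (G : GammaNine) (g : ℝ) (α : Fin 16)
    (p p' z : Cfg N) (f : F) :
    wB b M G g α p z f - wB b M G g α p' z f = wB b M G g α (p - p') z f := by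
  have h : wB b M G g α p z f = wB b M G g α (p - p') z f + wB b M G g α p' z f := by
    unfold wB
    rw [← LS839.vco_add]
    congr 2
    funext β A
    have e : p = (p - p') + p' := by abel
    conv_lhs => rw [e, wb_add_left]
    ring
  rw [h]
  abel

/-- **(F3)**: the heavy part at `p` and at `p'` differ by `C |p - p'| (|D| + g |z| |f|)`. -/
theorem F3 (b : ColorBasis N) (M : FermionRep N F) (G : GammaNine) {r B : ℝ}
    (hr0 : 0 < r) (hB0 : 0 ≤ B) (hB : ActBound (actB b) B) :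
    ∃ C : ℝ, 0 ≤ C ∧ ∀ (g : ℝ), 0 ≤ g → ∀ (α : Fin 16) (c : Cfg N), GapAt (actB b) c r →
      ∀ (κ κ' : Type) [Fintype κ] [Fintype κ']
      (v : OrthonormalBasis κ ℝ (Zs b c)) (t : OrthonormalBasis κ' ℝ (Tn (actB b) c))
      (p p' z : Cfg N), B * ‖p - c‖ ≤ r / 2 → B * ‖p' - c‖ ≤ r / 2 →
      ∀ (D : Cfg N →L[ℝ] F) (f : F),
      ‖((∑ i, aB b c M G α t p (v i) (D (v i))) + wB b M G g α p z f) -
        ((∑ i, aB b c M G α t p' (v i) (D (v i))) + wB b M G g α p' z f)‖ ≤
      C * ‖p - p'‖ * (‖D‖ + g * ‖z‖ * ‖f‖) := by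
  obtain ⟨C1, h1, hT⟩ := exists_Theta_bound M G
  obtain ⟨C2, h2, hV⟩ := exists_vco_bound M
  obtain ⟨C3, h3, hW⟩ := exists_wb_bound b G
  have hD0 : (0 : ℝ) ≤ (Module.finrank ℝ (Cfg N) : ℝ) := Nat.cast_nonneg _
  refine ⟨(Module.finrank ℝ (Cfg N) : ℝ) * ((Module.finrank ℝ (Cfg N) : ℝ) *
    (4 * B / r * C1)) + C2 * (2 * C3), by positivity,
    fun g hg α c hr κ κ' _ _ v t p p' z hp hp' D f => ?_⟩
  have hcv : (Fintype.card κ : ℝ) ≤ (Module.finrank ℝ (Cfg N) : ℝ) := by
    have e1 : Fintype.card κ = Module.finrank ℝ (Zs b c) :=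
      (Module.finrank_eq_card_basis v.toBasis).symm
    rw [e1]
    exact_mod_cast Submodule.finrank_le _
  have hct : (Fintype.card κ' : ℝ) ≤ (Module.finrank ℝ (Cfg N) : ℝ) := by
    have e1 : Fintype.card κ' = Module.finrank ℝ (Tn (actB b) c) :=
      (Module.finrank_eq_card_basis t.toBasis).symm
    rw [e1]
    exact_mod_cast Submodule.finrank_le _
  have hv : ∀ i, ‖((v i : Zs b c) : Cfg N)‖ = 1 := fun i => v.orthonormal.1 i
  have ht : ∀ a, ‖((t a : Tn (actB b) c) : Cfg N)‖ = 1 := fun a => t.orthonormal.1 a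
  have ht' : ∀ a, ‖t a‖ = 1 := fun a => t.orthonormal.1 a
  have e0 : ((∑ i, aB b c M G α t p (v i) (D (v i))) + wB b M G g α p z f) -
      ((∑ i, aB b c M G α t p' (v i) (D (v i))) + wB b M G g α p' z f) =
      (∑ i, (aB b c M G α t p (v i) (D (v i)) - aB b c M G α t p' (v i) (D (v i)))) +
      wB b M G g α (p - p') z f := by
    rw [Finset.sum_sub_distrib, ← wB_sub b M G g α p p' z f]
    abel
  rw [e0]
  have a1 : ∀ i, ‖aB b c M G α t p (v i) (D (v i)) - aB b c M G α t p' (v i) (D (v i))‖ ≤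
      (Module.finrank ℝ (Cfg N) : ℝ) * (4 * B / r * C1) * (‖p - p'‖ * ‖D‖) := by
    intro i
    rw [aB_sub, norm_smul, Complex.norm_I, one_mul]
    have a2 : ∀ a ∈ (Finset.univ : Finset κ'),
        ‖((⟪((v i : Zs b c) : Cfg N), nn (actB b) c p (t a) - nn (actB b) c p' (t a)⟫_ℝ : ℝ) : ℂ) •
          Theta M G α (t a) (D (v i))‖ ≤ (4 * B / r * ‖p - p'‖) * (C1 * ‖D‖) := by
      intro a _
      rw [norm_smul, Complex.norm_real]
      have b1 : ‖⟪((v i : Zs b c) : Cfg N),
          nn (actB b) c p (t a) - nn (actB b) c p' (t a)⟫_ℝ‖ ≤ 4 * B / r * ‖p - p'‖ := by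
        refine (norm_inner_le_norm _ _).trans ?_
        rw [hv i, one_mul]
        have := nn_sub_bound hr0 hr hB hB0 hp hp' (t a)
        rwa [ht' a, mul_one] at this
      have b2 : ‖Theta M G α (t a) (D (v i))‖ ≤ C1 * ‖D‖ := by
        refine (hT _ _ _).trans ?_
        rw [ht a, mul_one]
        refine mul_le_mul_of_nonneg_left ?_ h1
        have := D.le_opNorm ((v i : Zs b c) : Cfg N)
        rwa [hv i, mul_one] at this
      exact mul_le_mul b1 b2 (norm_nonneg _) (by positivity)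
    refine (norm_sum_le _ _).trans ((Finset.sum_le_sum a2).trans ?_)
    rw [Finset.sum_const, Finset.card_univ, nsmul_eq_mul]
    calc (Fintype.card κ' : ℝ) * ((4 * B / r * ‖p - p'‖) * (C1 * ‖D‖))
        ≤ (Module.finrank ℝ (Cfg N) : ℝ) * ((4 * B / r * ‖p - p'‖) * (C1 * ‖D‖)) :=
          mul_le_mul_of_nonneg_right hct (by positivity)
      _ = _ := by ring
  have a3 : ‖∑ i, (aB b c M G α t p (v i) (D (v i)) - aB b c M G α t p' (v i) (D (v i)))‖ ≤
      (Module.finrank ℝ (Cfg N) : ℝ) * ((Module.finrank ℝ (Cfg N) : ℝ) * (4 * B / r * C1) *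
        (‖p - p'‖ * ‖D‖)) := by
    refine (norm_sum_le _ _).trans ((Finset.sum_le_sum fun i _ => a1 i).trans ?_)
    rw [Finset.sum_const, Finset.card_univ, nsmul_eq_mul]
    exact mul_le_mul_of_nonneg_right hcv (by positivity)
  have a4 : ‖wB b M G g α (p - p') z f‖ ≤ C2 * (2 * g * (C3 * ‖p - p'‖ * ‖z‖)) * ‖f‖ := by
    refine hV _ _ _ fun β A => ?_
    rw [abs_mul, abs_of_nonneg (by positivity : (0 : ℝ) ≤ 2 * g)]
    exact mul_le_mul_of_nonneg_left (hW _ _ _ _ _) (by positivity)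
  refine (norm_add_le _ _).trans ((add_le_add a3 a4).trans ?_)
  have p0 := norm_nonneg (p - p')
  have p1 := norm_nonneg D
  have p2 := norm_nonneg f
  have p3 := norm_nonneg z
  generalize ‖p - p'‖ = P at *
  generalize ‖D‖ = Q at *
  generalize ‖f‖ = S at *
  generalize ‖z‖ = Z at *
  generalize (Module.finrank ℝ (Cfg N) : ℝ) = d at *
  have q1 : 0 ≤ d * (d * (4 * B / r * C1)) := by positivity
  have q2 : 0 ≤ C2 * (2 * C3) := by positivity
  have e1 : d * (d * (4 * B / r * C1) * (P * Q)) + C2 * (2 * g * (C3 * P * Z)) * S =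
      d * (d * (4 * B / r * C1)) * (P * Q) + C2 * (2 * C3) * (P * (g * Z * S)) := by ring
  rw [e1]
  have r1 : 0 ≤ P * Q := by positivity
  have r2 : 0 ≤ P * (g * Z * S) := by positivity
  nlinarith [mul_nonneg q1 r2, mul_nonneg q2 r1]

end Crest.Agent.R330.Bind6b839

end
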