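import Crest.Agent.R330.Blk_317

/-!
# Row 330 (helper317): block decompositions, part 2: colour vectors and configurations

* `D.emb b bp p : ℝ^{k_p^2-1} →ₗᵢ ℝ^{N^2-1}` with `cm b (emb u) = embM p (cm (bp p) u)`.
* brackets: `br_emb`, `br_emb_ne`; adjoint action: `adj_emb`, `adj_emb_ne`.
* `D.embCfg b bp p : Cfg (k p) →ₗᵢ Cfg N`, `mat_embCfg`, `act_embCfg`, `act_embCfg_ne`.
* `D.cenCfg b R` : the commuting configuration with cluster positions `R`, `mat_cenCfg`,
  `act_cenCfg`.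
-/

set_option autoImplicit false
set_option linter.unusedSectionVars false

noncomputable section

open Matrix
open Crest.MathPhysics.MatrixQM
open Crest.Agent.R330.SlA314 Crest.Agent.R330.SlB314
open scoped InnerProductSpace

namespace Crest.Agent.R330.Blk317

namespace Dec

variable {N : ℕ} {ι : Type*} [Fintype ι] {k : ι → ℕ} (D : Dec N k) (b : ColorBasis N)
  (bp : ∀ p, ColorBasis (k p))

/-! ### 1. Colour vectors -/

/-- The colour vector in `su(N)` of a colour vector of the block. -/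
def embF (p : ι) (u : EuclideanSpace ℝ (Fin (k p ^ 2 - 1))) :
    EuclideanSpace ℝ (Fin (N ^ 2 - 1)) := vec b (D.embM p (cm (bp p) u))

theorem cm_embF (p : ι) (u : EuclideanSpace ℝ (Fin (k p ^ 2 - 1))) :
    cm b (D.embF b bp p u) = D.embM p (cm (bp p) u) :=
  cm_vec b (D.embM_herm p (cm_herm _ _)) (by rw [D.trace_embM, cm_trace])

theorem cmE_add {n : ℕ} (b : ColorBasis n) (u v : EuclideanSpace ℝ (Fin (n ^ 2 - 1))) :
    cm b (u + v : EuclideanSpace ℝ (Fin (n ^ 2 - 1))) = cm b u + cm b v := cm_add b _ _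

theorem cmE_sub {n : ℕ} (b : ColorBasis n) (u v : EuclideanSpace ℝ (Fin (n ^ 2 - 1))) :
    cm b (u - v : EuclideanSpace ℝ (Fin (n ^ 2 - 1))) = cm b u - cm b v := cm_sub b _ _

theorem cmE_smul {n : ℕ} (b : ColorBasis n) (t : ℝ) (v : EuclideanSpace ℝ (Fin (n ^ 2 - 1))) :
    cm b (t • v : EuclideanSpace ℝ (Fin (n ^ 2 - 1))) = (t : ℂ) • cm b v := cm_smul b _ _

theorem cmE_zero {n : ℕ} (b : ColorBasis n) :
    cm b (0 : EuclideanSpace ℝ (Fin (n ^ 2 - 1))) = 0 := by
  have := cmE_smul b 0 0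
  simpa using this

theorem inner_embF (p : ι) (u v : EuclideanSpace ℝ (Fin (k p ^ 2 - 1))) :
    ⟪D.embF b bp p u, D.embF b bp p v⟫_ℝ = ⟪u, v⟫_ℝ := by
  have h : ((⟪D.embF b bp p u, D.embF b bp p v⟫_ℝ : ℝ) : ℂ) = ((⟪u, v⟫_ℝ : ℝ) : ℂ) := by
    rw [inner_eq_trace b, inner_eq_trace (bp p), cm_embF, cm_embF, embM_mul, trace_embM]
  exact_mod_cast h

theorem inner_embF_ne {p q : ι} (hpq : p ≠ q) (u : EuclideanSpace ℝ (Fin (k p ^ 2 - 1)))
    (v : EuclideanSpace ℝ (Fin (k q ^ 2 - 1))) :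
    ⟪D.embF b bp p u, D.embF b bp q v⟫_ℝ = 0 := by
  have h : ((⟪D.embF b bp p u, D.embF b bp q v⟫_ℝ : ℝ) : ℂ) = ((0 : ℝ) : ℂ) := by
    rw [inner_eq_trace b, cm_embF, cm_embF, D.embM_mul_ne hpq, Matrix.trace_zero,
      Complex.ofReal_zero]
  exact_mod_cast h

/-- **The colour embedding of the block.** -/
def emb (p : ι) : EuclideanSpace ℝ (Fin (k p ^ 2 - 1)) →ₗᵢ[ℝ]
    EuclideanSpace ℝ (Fin (N ^ 2 - 1)) where
  toFun := D.embF b bp p
  map_add' u v := by
    apply (cm_eq_iff b).1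
    rw [cmE_add, cm_embF, cm_embF, cm_embF, cmE_add, embM_add]
  map_smul' t v := by
    apply (cm_eq_iff b).1
    rw [RingHom.id_apply, cmE_smul, cm_embF, cm_embF, cmE_smul, embM_smul]
  norm_map' u := by
    have h := D.inner_embF b bp p u u
    rw [real_inner_self_eq_norm_sq, real_inner_self_eq_norm_sq] at h
    exact (sq_eq_sq₀ (norm_nonneg _) (norm_nonneg _)).1 h

theorem cm_emb (p : ι) (u : EuclideanSpace ℝ (Fin (k p ^ 2 - 1))) :
    cm b (D.emb b bp p u) = D.embM p (cm (bp p) u) := D.cm_embF b bp p u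

theorem inner_emb (p : ι) (u v : EuclideanSpace ℝ (Fin (k p ^ 2 - 1))) :
    ⟪D.emb b bp p u, D.emb b bp p v⟫_ℝ = ⟪u, v⟫_ℝ := D.inner_embF b bp p u v

theorem inner_emb_ne {p q : ι} (hpq : p ≠ q) (u : EuclideanSpace ℝ (Fin (k p ^ 2 - 1)))
    (v : EuclideanSpace ℝ (Fin (k q ^ 2 - 1))) :
    ⟪D.emb b bp p u, D.emb b bp q v⟫_ℝ = 0 := D.inner_embF_ne b bp hpq u v

/-- The coefficients of the embedding. -/
def embC (p : ι) (A : Fin (N ^ 2 - 1)) (a : Fin (k p ^ 2 - 1)) : ℝ :=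
  (b.T A * D.embM p ((bp p).T a)).trace.re

theorem cm_single {n : ℕ} (b : ColorBasis n) (a : Fin (n ^ 2 - 1)) :
    cm b (EuclideanSpace.single a (1 : ℝ)) = b.T a := by
  unfold cm
  rw [Finset.sum_eq_single a]
  · simp
  · intro c _ hc
    simp [hc]
  · intro h
    exact absurd (Finset.mem_univ a) h

theorem emb_single (p : ι) (a : Fin (k p ^ 2 - 1)) (A : Fin (N ^ 2 - 1)) :
    D.emb b bp p (EuclideanSpace.single a 1) A = D.embC b bp p A a := by
  show (b.T A * D.embM p (cm (bp p) (EuclideanSpace.single a (1 : ℝ)))).trace.re = _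
  rw [cm_single]
  rfl

theorem emb_apply (p : ι) (u : EuclideanSpace ℝ (Fin (k p ^ 2 - 1))) (A : Fin (N ^ 2 - 1)) :
    D.emb b bp p u A = ∑ a, D.embC b bp p A a * u a := by
  have h : u = ∑ a, u a • EuclideanSpace.single a (1 : ℝ) := by
    ext c
    simp [Finset.sum_apply, Pi.single_apply]
  conv_lhs => rw [h, map_sum]
  simp only [map_smul]
  rw [WithLp.ofLp_sum, Finset.sum_apply]
  refine Finset.sum_congr rfl fun a _ => ?_
  rw [PiLp.smul_apply, D.emb_single, smul_eq_mul, mul_comm]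

/-- orthogonality relations of the coefficients -/
theorem sum_embC (p : ι) (a c : Fin (k p ^ 2 - 1)) :
    ∑ A, D.embC b bp p A a * D.embC b bp p A c = if a = c then 1 else 0 := by
  have h := D.inner_emb b bp p (EuclideanSpace.single a 1) (EuclideanSpace.single c 1)
  rw [PiLp.inner_apply] at h
  simp only [D.emb_single] at h
  rw [EuclideanSpace.inner_single_left] at h
  simp only [map_one, one_mul] at h
  rw [PiLp.single_apply] at h
  rw [← h]
  exact Finset.sum_congr rfl fun A _ => by simp [mul_comm]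

theorem sum_embC_ne {p q : ι} (hpq : p ≠ q) (a : Fin (k p ^ 2 - 1)) (c : Fin (k q ^ 2 - 1)) :
    ∑ A, D.embC b bp p A a * D.embC b bp q A c = 0 := by
  have h := D.inner_emb_ne b bp hpq (EuclideanSpace.single a 1) (EuclideanSpace.single c 1)
  rw [PiLp.inner_apply] at h
  simp only [D.emb_single] at h
  rw [← h]
  exact Finset.sum_congr rfl fun A _ => by simp [mul_comm]

/-! ### 2. Brackets -/

/-- **the embedding is a homomorphism** -/
theorem br_emb (p : ι) (u v : EuclideanSpace ℝ (Fin (k p ^ 2 - 1))) :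
    br b (D.emb b bp p u) (D.emb b bp p v) =
      D.emb b bp p (WithLp.toLp 2 (br (bp p) u v)) := by
  have h : cm b (br b (D.emb b bp p u) (D.emb b bp p v)) =
      cm b (D.emb b bp p (WithLp.toLp 2 (br (bp p) u v))) := by
    rw [cm_br, cm_emb, cm_emb, cm_emb]
    show _ = D.embM p (cm (bp p) (br (bp p) u v))
    rw [cm_br, embM_smul, embM_sub, embM_mul, embM_mul]
  exact cm_inj b h

/-- **different blocks commute** -/
theorem br_emb_ne {p q : ι} (hpq : p ≠ q) (u : EuclideanSpace ℝ (Fin (k p ^ 2 - 1)))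
    (v : EuclideanSpace ℝ (Fin (k q ^ 2 - 1))) :
    br b (D.emb b bp p u) (D.emb b bp q v) = 0 := by
  apply cm_inj b
  rw [cm_br, cm_emb, cm_emb, D.embM_mul_ne hpq, D.embM_mul_ne hpq.symm, sub_zero, smul_zero]
  have h := cmE_zero b
  exact h.symm

/-! ### 3. The adjoint action -/

/-- **the adjoint action of the block group on the block** -/
theorem adj_emb (p : ι) (h : specialUnitaryGroup (Fin (k p)) ℂ)
    (u : EuclideanSpace ℝ (Fin (k p ^ 2 - 1))) (A : Fin (N ^ 2 - 1)) :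
    ∑ B, b.adjMat (D.iota p h) A B * D.emb b bp p u B =
      D.emb b bp p (WithLp.toLp 2 fun a => ∑ c, (bp p).adjMat h a c * u c) A := by
  have h1 : cm b (fun A => ∑ B, b.adjMat (D.iota p h) A B * D.emb b bp p u B) =
      cm b (D.emb b bp p (WithLp.toLp 2 fun a => ∑ c, (bp p).adjMat h a c * u c)) := by
    rw [cm_adj, cm_emb, iota_conj_embM, cm_emb]
    congr 1
    exact (cm_adj (bp p) h u).symm
  exact congrFun (cm_inj b h1) A

/-- **the block group acts trivially on the other blocks** -/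
theorem adj_emb_ne {p q : ι} (hpq : p ≠ q) (h : specialUnitaryGroup (Fin (k p)) ℂ)
    (u : EuclideanSpace ℝ (Fin (k q ^ 2 - 1))) (A : Fin (N ^ 2 - 1)) :
    ∑ B, b.adjMat (D.iota p h) A B * D.emb b bp q u B = D.emb b bp q u A := by
  have h1 : cm b (fun A => ∑ B, b.adjMat (D.iota p h) A B * D.emb b bp q u B) =
      cm b (D.emb b bp q u) := by
    rw [cm_adj, cm_emb, D.iota_conj_embM_ne hpq]
  exact congrFun (cm_inj b h1) A

theorem adj_embC (p : ι) (h : specialUnitaryGroup (Fin (k p)) ℂ) (a : Fin (k p ^ 2 - 1))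
    (A : Fin (N ^ 2 - 1)) :
    ∑ B, b.adjMat (D.iota p h) A B * D.embC b bp p B a =
      ∑ c, (bp p).adjMat h c a * D.embC b bp p A c := by
  have h1 := D.adj_emb b bp p h (EuclideanSpace.single a 1) A
  simp only [D.emb_single] at h1
  rw [h1, D.emb_apply]
  refine Finset.sum_congr rfl fun c _ => ?_
  rw [mul_comm]
  congr 1
  show ∑ d, (bp p).adjMat h c d * (EuclideanSpace.single a (1 : ℝ) :
    EuclideanSpace ℝ (Fin (k p ^ 2 - 1))) d = _
  rw [Finset.sum_eq_single a]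
  · simp
  · intro d _ hd
    simp [hd]
  · intro h
    exact absurd (Finset.mem_univ a) h

theorem adj_embC_ne {p q : ι} (hpq : p ≠ q) (h : specialUnitaryGroup (Fin (k p)) ℂ)
    (a : Fin (k q ^ 2 - 1)) (A : Fin (N ^ 2 - 1)) :
    ∑ B, b.adjMat (D.iota p h) A B * D.embC b bp q B a = D.embC b bp q A a := by
  have h1 := D.adj_emb_ne b bp hpq h (EuclideanSpace.single a 1) A
  simpa only [D.emb_single] using h1

/-! ### 4. Configurations -/

/-- The configuration of a tuple of matrices. -/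
def cfgOf (X : Fin 9 → Matrix (Fin N) (Fin N) ℂ) : Cfg N :=
  WithLp.toLp 2 fun iA => (b.T iA.2 * X iA.1).trace.re

theorem mat_cfgOf {X : Fin 9 → Matrix (Fin N) (Fin N) ℂ} (hX : ∀ i, (X i).IsHermitian)
    (h0 : ∀ i, (X i).trace = 0) (i : Fin 9) : mat b (cfgOf b X) i = X i :=
  exists_cm b (X i) (hX i) (h0 i)

theorem cfgOf_mat (x : Cfg N) : cfgOf b (mat b x) = x := by
  apply mat_inj b
  intro i
  rw [mat_cfgOf b (fun i => mat_herm b x i) (fun i => mat_trace b x i)]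

/-- The embedding of the configurations of the block, as a function. -/
def embCfgF (p : ι) (y : Cfg (k p)) : Cfg N := cfgOf b fun i => D.embM p (mat (bp p) y i)

theorem mat_embCfgF (p : ι) (y : Cfg (k p)) (i : Fin 9) :
    mat b (D.embCfgF b bp p y) i = D.embM p (mat (bp p) y i) :=
  mat_cfgOf b (X := fun i => D.embM p (mat (bp p) y i))
    (fun i => D.embM_herm p (mat_herm _ _ _)) (fun i => by rw [D.trace_embM, mat_trace]) i

/-- **The embedding of the configurations of the block.** -/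
def embCfg (p : ι) : Cfg (k p) →ₗᵢ[ℝ] Cfg N where
  toFun := D.embCfgF b bp p
  map_add' x y := by
    apply mat_inj b
    intro i
    rw [mat_add, mat_embCfgF, mat_embCfgF, mat_embCfgF, mat_add, embM_add]
  map_smul' t y := by
    apply mat_inj b
    intro i
    rw [RingHom.id_apply, mat_smul, mat_embCfgF, mat_embCfgF, mat_smul, embM_smul]
  norm_map' y := by
    have h : ((‖D.embCfgF b bp p y‖ ^ 2 : ℝ) : ℂ) = ((‖y‖ ^ 2 : ℝ) : ℂ) := by
      rw [norm_sq_eq b, norm_sq_eq (bp p)]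
      refine Finset.sum_congr rfl fun i _ => ?_
      rw [mat_embCfgF, embM_mul, trace_embM]
    have h' : ‖D.embCfgF b bp p y‖ ^ 2 = ‖y‖ ^ 2 := by exact_mod_cast h
    exact (sq_eq_sq₀ (norm_nonneg _) (norm_nonneg _)).1 h'

theorem mat_embCfg (p : ι) (y : Cfg (k p)) (i : Fin 9) :
    mat b (D.embCfg b bp p y) i = D.embM p (mat (bp p) y i) := D.mat_embCfgF b bp p y i

theorem inner_embCfg_ne {p q : ι} (hpq : p ≠ q) (x : Cfg (k p)) (y : Cfg (k q)) :
    ⟪D.embCfg b bp p x, D.embCfg b bp q y⟫_ℝ = 0 := by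
  have h : ((⟪D.embCfg b bp p x, D.embCfg b bp q y⟫_ℝ : ℝ) : ℂ) = ((0 : ℝ) : ℂ) := by
    rw [inner_eq b, Complex.ofReal_zero]
    refine Finset.sum_eq_zero fun i _ => ?_
    rw [mat_embCfg, mat_embCfg, D.embM_mul_ne hpq, Matrix.trace_zero]
  exact_mod_cast h

/-- coordinates of the embedded configuration -/
theorem embCfg_apply (p : ι) (y : Cfg (k p)) (i : Fin 9) (A : Fin (N ^ 2 - 1)) :
    D.embCfg b bp p y (i, A) = ∑ a, D.embC b bp p A a * y (i, a) := by
  have h := D.emb_apply b bp p (WithLp.toLp 2 fun a => y (i, a)) A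
  exact h

theorem embCfg_single (p : ι) (i : Fin 9) (a : Fin (k p ^ 2 - 1)) :
    D.embCfg b bp p (EuclideanSpace.single (i, a) 1) =
      ∑ A, D.embC b bp p A a • EuclideanSpace.single (i, A) (1 : ℝ) := by
  ext ⟨j, B⟩
  rw [D.embCfg_apply, WithLp.ofLp_sum, Finset.sum_apply]
  simp only [PiLp.smul_apply, smul_eq_mul, PiLp.single_apply, Prod.mk.injEq, mul_ite, mul_one,
    mul_zero]
  by_cases hj : j = i
  · subst hj
    simp
  · simp [hj]

/-- **equivariance** -/
theorem act_embCfg (p : ι) (h : specialUnitaryGroup (Fin (k p)) ℂ) (y : Cfg (k p)) :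
    b.act (D.iota p h) (D.embCfg b bp p y) = D.embCfg b bp p ((bp p).act h y) := by
  apply mat_inj b
  intro i
  rw [mat_act, mat_embCfg, mat_embCfg, mat_act, iota_conj_embM]

theorem act_embCfg_ne {p q : ι} (hpq : p ≠ q) (h : specialUnitaryGroup (Fin (k p)) ℂ)
    (y : Cfg (k q)) :
    b.act (D.iota p h) (D.embCfg b bp q y) = D.embCfg b bp q y := by
  apply mat_inj b
  intro i
  rw [mat_act, mat_embCfg, D.iota_conj_embM_ne hpq]

/-- Infinitesimal gauge transformations of the block. -/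
theorem brx_emb (p : ι) (u : EuclideanSpace ℝ (Fin (k p ^ 2 - 1))) (y : Cfg (k p)) :
    brx b (D.emb b bp p u) (D.embCfg b bp p y) = D.embCfg b bp p (brx (bp p) u y) := by
  apply mat_inj b
  intro i
  rw [mat_brx, mat_embCfg, mat_embCfg, mat_brx, cm_emb, embM_mul, embM_mul, embM_smul, embM_sub]

theorem brx_emb_ne {p q : ι} (hpq : p ≠ q) (u : EuclideanSpace ℝ (Fin (k p ^ 2 - 1)))
    (y : Cfg (k q)) : brx b (D.emb b bp p u) (D.embCfg b bp q y) = 0 := by
  apply mat_inj b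
  intro i
  rw [mat_brx, mat_embCfg, cm_emb, D.embM_mul_ne hpq, D.embM_mul_ne hpq.symm, sub_zero,
    smul_zero]
  have h : mat b (0 : Cfg N) i = 0 := by
    have := mat_smul b 0 (0 : Cfg N) i
    simpa using this
  exact h.symm

/-! ### 5. The centre -/

/-- The matrix `Σ_p r_p V_p V_p*`. -/
def cenM (r : ι → ℝ) : Matrix (Fin N) (Fin N) ℂ := ∑ p, (r p : ℂ) • D.proj p

theorem cenM_herm (r : ι → ℝ) : (D.cenM r).IsHermitian := by
  unfold Matrix.IsHermitian cenM
  rw [Matrix.conjTranspose_sum]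
  refine Finset.sum_congr rfl fun p _ => ?_
  rw [Matrix.conjTranspose_smul, (D.proj_herm p).eq, Complex.star_def, Complex.conj_ofReal]

theorem trace_cenM (r : ι → ℝ) : (D.cenM r).trace = ((∑ p, k p * r p : ℝ) : ℂ) := by
  unfold cenM
  rw [Matrix.trace_sum]
  push_cast
  refine Finset.sum_congr rfl fun p _ => ?_
  rw [Matrix.trace_smul, D.trace_proj, smul_eq_mul, mul_comm]

theorem cenM_mul_embM (r : ι → ℝ) (p : ι) (X : Matrix (Fin (k p)) (Fin (k p)) ℂ) :
    D.cenM r * D.embM p X = (r p : ℂ) • D.embM p X := by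
  classical
  unfold cenM
  rw [Finset.sum_mul, Finset.sum_eq_single p]
  · rw [Matrix.smul_mul, proj_mul_embM]
  · intro q _ hq
    rw [Matrix.smul_mul, D.proj_mul_embM_ne hq, smul_zero]
  · intro h
    exact absurd (Finset.mem_univ p) h

theorem embM_mul_cenM (r : ι → ℝ) (p : ι) (X : Matrix (Fin (k p)) (Fin (k p)) ℂ) :
    D.embM p X * D.cenM r = (r p : ℂ) • D.embM p X := by
  classical
  unfold cenM
  rw [Finset.mul_sum, Finset.sum_eq_single p]
  · rw [Matrix.mul_smul, embM_mul_proj]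
  · intro q _ hq
    rw [Matrix.mul_smul, D.embM_mul_proj_ne (Ne.symm hq), smul_zero]
  · intro h
    exact absurd (Finset.mem_univ p) h

theorem cenM_mul_proj (r : ι → ℝ) (p : ι) : D.cenM r * D.proj p = (r p : ℂ) • D.proj p := by
  rw [← embM_one, cenM_mul_embM]

theorem cenM_mul_cenM (r s : ι → ℝ) : D.cenM r * D.cenM s = D.cenM fun p => r p * s p := by
  have h : D.cenM s = ∑ p, (s p : ℂ) • D.proj p := rfl
  rw [h, Finset.mul_sum]
  unfold cenM
  refine Finset.sum_congr rfl fun p _ => ?_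
  have h1 := D.cenM_mul_proj r p
  unfold cenM at h1
  rw [Matrix.mul_smul, h1, smul_smul]
  push_cast
  rw [mul_comm]

theorem cenM_add (r s : ι → ℝ) : D.cenM (r + s) = D.cenM r + D.cenM s := by
  unfold cenM
  simp [add_smul, Finset.sum_add_distrib]

theorem cenM_smul (t : ℝ) (r : ι → ℝ) : D.cenM (t • r) = (t : ℂ) • D.cenM r := by
  unfold cenM
  rw [Finset.smul_sum]
  refine Finset.sum_congr rfl fun p _ => ?_
  rw [smul_smul, Pi.smul_apply, smul_eq_mul, Complex.ofReal_mul]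

theorem conj_cenM (r : ι → ℝ) (p : ι) (h : specialUnitaryGroup (Fin (k p)) ℂ) :
    (D.iota p h : Matrix (Fin N) (Fin N) ℂ) * D.cenM r *
        star (D.iota p h : Matrix (Fin N) (Fin N) ℂ) = D.cenM r := by
  unfold cenM
  rw [Finset.mul_sum, Finset.sum_mul]
  refine Finset.sum_congr rfl fun q _ => ?_
  rw [Matrix.mul_smul, Matrix.smul_mul, iota_conj_proj]

/-- The commuting configuration with cluster positions `R i p` (`Σ_p k_p R i p = 0`). -/
def cenCfg (R : Fin 9 → ι → ℝ) : Cfg N := cfgOf b fun i => D.cenM (R i)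

theorem mat_cenCfg {R : Fin 9 → ι → ℝ} (hR : ∀ i, ∑ p, (k p : ℝ) * R i p = 0) (i : Fin 9) :
    mat b (D.cenCfg b R) i = D.cenM (R i) :=
  mat_cfgOf b (fun i => D.cenM_herm _) (fun i => by rw [D.trace_cenM, hR i, Complex.ofReal_zero]) i

theorem act_cenCfg {R : Fin 9 → ι → ℝ} (hR : ∀ i, ∑ p, (k p : ℝ) * R i p = 0) (p : ι)
    (h : specialUnitaryGroup (Fin (k p)) ℂ) :
    b.act (D.iota p h) (D.cenCfg b R) = D.cenCfg b R := by
  apply mat_inj b
  intro i
  rw [mat_act, D.mat_cenCfg b hR, conj_cenM]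

theorem inner_cenCfg {R S : Fin 9 → ι → ℝ} (hR : ∀ i, ∑ p, (k p : ℝ) * R i p = 0)
    (hS : ∀ i, ∑ p, (k p : ℝ) * S i p = 0) :
    ⟪D.cenCfg b R, D.cenCfg b S⟫_ℝ = ∑ i, ∑ p, (k p : ℝ) * (R i p * S i p) := by
  have h : ((⟪D.cenCfg b R, D.cenCfg b S⟫_ℝ : ℝ) : ℂ) =
      ((∑ i, ∑ p, (k p : ℝ) * (R i p * S i p) : ℝ) : ℂ) := by
    rw [inner_eq b, Complex.ofReal_sum]
    refine Finset.sum_congr rfl fun i _ => ?_
    rw [D.mat_cenCfg b hR, D.mat_cenCfg b hS, cenM_mul_cenM, trace_cenM]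
  exact_mod_cast h

theorem norm_sq_cenCfg {R : Fin 9 → ι → ℝ} (hR : ∀ i, ∑ p, (k p : ℝ) * R i p = 0) :
    ‖D.cenCfg b R‖ ^ 2 = ∑ i, ∑ p, (k p : ℝ) * R i p ^ 2 := by
  rw [← real_inner_self_eq_norm_sq, D.inner_cenCfg b hR hR]
  simp only [sq]

theorem inner_cenCfg_embCfg {R : Fin 9 → ι → ℝ} (hR : ∀ i, ∑ p, (k p : ℝ) * R i p = 0) (p : ι)
    (y : Cfg (k p)) : ⟪D.cenCfg b R, D.embCfg b bp p y⟫_ℝ = 0 := by
  have h : ((⟪D.cenCfg b R, D.embCfg b bp p y⟫_ℝ : ℝ) : ℂ) = ((0 : ℝ) : ℂ) := by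
    rw [inner_eq b, Complex.ofReal_zero]
    refine Finset.sum_eq_zero fun i _ => ?_
    rw [D.mat_cenCfg b hR, mat_embCfg, cenM_mul_embM, Matrix.trace_smul, trace_embM, mat_trace,
      smul_zero]
  exact_mod_cast h

end Dec

end Crest.Agent.R330.Blk317

end
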