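import Crest.Agent.R330.Blk2_317
import Crest.Agent.R330.Bind6_839

/-!
# Row 330 (helper317): block decompositions, part 3: decomposition of colour space

* `D.BD X` : `X` is block diagonal; `BD_iff_sum`, `BD_iff_commute`, `commute_cenM_iff`.
* `embAdj p` : the adjoint of `emb p`; `tr_p` : the block traces `tp p u`.
* `decomp` : `u = Σ_p emb p (embAdj p u) + cenV (tp · u)` for block diagonal `u`.
* `kkD b : Submodule` of the block diagonal colour vectors; `kkD_orth`: its complement;
  `kc_cenCfg : kc (actB b) (cenCfg R) = kkD b` for separated `R`.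
-/

set_option autoImplicit false
set_option linter.unusedSectionVars false

noncomputable section

open Matrix
open Crest.MathPhysics.MatrixQM
open Crest.Agent.R330.SlA314 Crest.Agent.R330.SlB314 Crest.Agent.R330.LS839
open Crest.Agent.R330.Frame839 Crest.Agent.R330.Bind6839
open scoped InnerProductSpace

namespace Crest.Agent.R330.Blk317

namespace Dec

variable {N : ℕ} {ι : Type*} [Fintype ι] {k : ι → ℕ} (D : Dec N k) (b : ColorBasis N)
  (bp : ∀ p, ColorBasis (k p))

/-! ### 1. Block diagonal matrices -/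

/-- Block diagonal. -/
def BD (X : Matrix (Fin N) (Fin N) ℂ) : Prop := ∀ p q, p ≠ q → (D.V p)ᴴ * X * D.V q = 0

theorem sum_sum_proj (X : Matrix (Fin N) (Fin N) ℂ) : ∑ p, ∑ q, D.proj p * X * D.proj q = X := by
  have h : ∀ p, ∑ q, D.proj p * X * D.proj q = D.proj p * X := fun p => by
    rw [← Finset.mul_sum, D.sum_proj, Matrix.mul_one]
  simp only [h]
  rw [← Finset.sum_mul, D.sum_proj, Matrix.one_mul]

theorem BD_proj_iff (X : Matrix (Fin N) (Fin N) ℂ) :
    D.BD X ↔ ∀ p q, p ≠ q → D.proj p * X * D.proj q = 0 := by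
  constructor
  · intro h p q hpq
    unfold proj
    calc D.V p * (D.V p)ᴴ * X * (D.V q * (D.V q)ᴴ)
        = D.V p * ((D.V p)ᴴ * X * D.V q) * (D.V q)ᴴ := by simp only [Matrix.mul_assoc]
      _ = 0 := by rw [h p q hpq, Matrix.mul_zero, Matrix.zero_mul]
  · intro h p q hpq
    calc (D.V p)ᴴ * X * D.V q
        = ((D.V p)ᴴ * D.V p) * (D.V p)ᴴ * X * D.V q * ((D.V q)ᴴ * D.V q) := by
          rw [D.iso, D.iso, Matrix.one_mul, Matrix.mul_one]
      _ = (D.V p)ᴴ * (D.V p * (D.V p)ᴴ * X * (D.V q * (D.V q)ᴴ)) * D.V q := by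
          simp only [Matrix.mul_assoc]
      _ = 0 := by
          have h1 := h p q hpq
          unfold proj at h1
          rw [h1, Matrix.mul_zero, Matrix.zero_mul]

theorem BD_iff_sum (X : Matrix (Fin N) (Fin N) ℂ) :
    D.BD X ↔ ∑ p, D.embM p (D.cut p X) = X := by
  classical
  simp only [embM_cut]
  constructor
  · intro h
    rw [BD_proj_iff] at h
    conv_rhs => rw [← D.sum_sum_proj X]
    refine Finset.sum_congr rfl fun p _ => ?_
    rw [Finset.sum_eq_single p (fun q _ hq => h p q (Ne.symm hq))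
      (fun h => absurd (Finset.mem_univ p) h)]
  · intro h p q hpq
    rw [← h, Matrix.mul_sum, Matrix.sum_mul]
    refine Finset.sum_eq_zero fun s _ => ?_
    by_cases hs : p = s
    · subst hs
      unfold proj
      calc (D.V p)ᴴ * (D.V p * (D.V p)ᴴ * X * (D.V p * (D.V p)ᴴ)) * D.V q
          = (D.V p)ᴴ * (D.V p * (D.V p)ᴴ * X * D.V p) * ((D.V p)ᴴ * D.V q) := by
            simp only [Matrix.mul_assoc]
        _ = 0 := by rw [D.ortho p q hpq, Matrix.mul_zero]
    · unfold proj
      calc (D.V p)ᴴ * (D.V s * (D.V s)ᴴ * X * (D.V s * (D.V s)ᴴ)) * D.V q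
          = ((D.V p)ᴴ * D.V s) * ((D.V s)ᴴ * X * (D.V s * (D.V s)ᴴ)) * D.V q := by
            simp only [Matrix.mul_assoc]
        _ = 0 := by rw [D.ortho p s hs, Matrix.zero_mul, Matrix.zero_mul]

theorem BD_iff_commute (X : Matrix (Fin N) (Fin N) ℂ) :
    D.BD X ↔ ∀ p, D.proj p * X = X * D.proj p := by
  classical
  rw [BD_proj_iff]
  constructor
  · intro h p
    have h1 : D.proj p * X = D.proj p * X * D.proj p := by
      conv_lhs => rw [← Matrix.mul_one (D.proj p * X), ← D.sum_proj, Finset.mul_sum]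
      rw [Finset.sum_eq_single p (fun q _ hq => h p q (Ne.symm hq))
        (fun h => absurd (Finset.mem_univ p) h)]
    have h2 : X * D.proj p = D.proj p * X * D.proj p := by
      conv_lhs => rw [← Matrix.one_mul (X * D.proj p), ← D.sum_proj, Finset.sum_mul]
      rw [Finset.sum_eq_single p (fun q _ hq => by rw [← Matrix.mul_assoc]; exact h q p hq)
        (fun h => absurd (Finset.mem_univ p) h), Matrix.mul_assoc]
    rw [h1, h2]
  · intro h p q hpq
    rw [h p, Matrix.mul_assoc, D.proj_mul_ne hpq, Matrix.mul_zero]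

theorem BD_embM (p : ι) (X : Matrix (Fin (k p)) (Fin (k p)) ℂ) : D.BD (D.embM p X) := by
  rw [BD_iff_commute]
  intro q
  by_cases h : q = p
  · subst h
    rw [proj_mul_embM, embM_mul_proj]
  · rw [D.proj_mul_embM_ne h, D.embM_mul_proj_ne (Ne.symm h)]

theorem BD_cenM (r : ι → ℝ) : D.BD (D.cenM r) := by
  rw [BD_iff_commute]
  intro q
  rw [cenM_mul_proj, ← embM_one, embM_mul_cenM]

theorem BD_add {X Y : Matrix (Fin N) (Fin N) ℂ} (hX : D.BD X) (hY : D.BD Y) : D.BD (X + Y) := by
  intro p q hpq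
  rw [Matrix.mul_add, Matrix.add_mul, hX p q hpq, hY p q hpq, add_zero]

theorem BD_smul {X : Matrix (Fin N) (Fin N) ℂ} (c : ℂ) (hX : D.BD X) : D.BD (c • X) := by
  intro p q hpq
  rw [Matrix.mul_smul, Matrix.smul_mul, hX p q hpq, smul_zero]

theorem BD_zero : D.BD 0 := by
  intro p q _
  rw [Matrix.mul_zero, Matrix.zero_mul]

/-- **Commuting with separated positions = block diagonal.** -/
theorem commute_cenM_iff {κ : Type*} {R : κ → ι → ℝ} (hs : ∀ p q, p ≠ q → ∃ i, R i p ≠ R i q)
    (X : Matrix (Fin N) (Fin N) ℂ) :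
    (∀ i, X * D.cenM (R i) = D.cenM (R i) * X) ↔ D.BD X := by
  classical
  constructor
  · intro h
    rw [BD_proj_iff]
    intro p q hpq
    obtain ⟨i, hi⟩ := hs p q hpq
    have h1 : D.proj p * (X * D.cenM (R i)) * D.proj q =
        D.proj p * (D.cenM (R i) * X) * D.proj q := by rw [h i]
    have h2 : D.proj p * (X * D.cenM (R i)) * D.proj q =
        (R i q : ℂ) • (D.proj p * X * D.proj q) := by
      rw [Matrix.mul_assoc, Matrix.mul_assoc, cenM_mul_proj, Matrix.mul_smul, Matrix.mul_smul,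
        Matrix.mul_assoc]
    have h3 : D.proj p * (D.cenM (R i) * X) * D.proj q =
        (R i p : ℂ) • (D.proj p * X * D.proj q) := by
      have h4 : D.proj p * D.cenM (R i) = (R i p : ℂ) • D.proj p := by
        rw [← embM_one, embM_mul_cenM]
      rw [← Matrix.mul_assoc, h4, Matrix.smul_mul, Matrix.smul_mul]
    rw [h2, h3] at h1
    have h5 : ((R i q : ℂ) - (R i p : ℂ)) • (D.proj p * X * D.proj q) = 0 := by
      rw [sub_smul, h1, sub_self]
    rcases smul_eq_zero.1 h5 with h6 | h6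
    · exfalso
      apply hi
      have h7 : (R i q : ℂ) = (R i p : ℂ) := sub_eq_zero.1 h6
      exact_mod_cast h7.symm
    · exact h6
  · intro h i
    rw [BD_iff_commute] at h
    unfold cenM
    rw [Finset.mul_sum, Finset.sum_mul]
    exact Finset.sum_congr rfl fun p _ => by rw [Matrix.mul_smul, Matrix.smul_mul, h p]

/-! ### 2. The adjoint of the embedding, block traces -/

/-- The component in the block. -/
def embAdj (p : ι) (u : Colg N) : Colg (k p) := vec (bp p) (D.cut p (cm b u))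

theorem trace_real_of_herm {n : ℕ} {X Y : Matrix (Fin n) (Fin n) ℂ} (hX : X.IsHermitian)
    (hY : Y.IsHermitian) : (((X * Y).trace.re : ℝ) : ℂ) = (X * Y).trace := by
  apply Complex.conj_eq_iff_re.1
  rw [starRingEnd_apply, ← Matrix.trace_conjTranspose, Matrix.conjTranspose_mul, hX.eq, hY.eq,
    Matrix.trace_mul_comm]

theorem inner_emb_left (p : ι) (u : Colg (k p)) (v : Colg N) :
    ⟪D.emb b bp p u, v⟫_ℝ = ⟪u, D.embAdj b bp p v⟫_ℝ := by
  have h : ((⟪D.emb b bp p u, v⟫_ℝ : ℝ) : ℂ) = ((⟪u, D.embAdj b bp p v⟫_ℝ : ℝ) : ℂ) := by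
    rw [inner_eq_trace b, cm_emb, embM_trace_mul, PiLp.inner_apply]
    unfold cm
    rw [Finset.sum_mul, Matrix.trace_sum]
    push_cast
    refine Finset.sum_congr rfl fun a _ => ?_
    rw [Matrix.smul_mul, Matrix.trace_smul, smul_eq_mul]
    show _ = ((⟪u a, ((bp p).T a * D.cut p (cm b v)).trace.re⟫_ℝ : ℝ) : ℂ)
    rw [real_inner_eq_re_inner, RCLike.inner_apply, conj_trivial, RCLike.re_to_real]
    push_cast
    rw [trace_real_of_herm ((bp p).herm a) (D.cut_herm p (cm_herm b v)), mul_comm]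
    rfl
  exact_mod_cast h

theorem embAdj_emb (p : ι) (u : Colg (k p)) : D.embAdj b bp p (D.emb b bp p u) = u := by
  unfold embAdj
  rw [cm_emb, cut_embM]
  exact vec_cm (bp p) u

theorem embAdj_emb_ne {p q : ι} (hpq : p ≠ q) (u : Colg (k q)) :
    D.embAdj b bp p (D.emb b bp q u) = 0 := by
  unfold embAdj
  rw [cm_emb, D.cut_embM_ne hpq, vec_zero]

theorem embAdj_add (p : ι) (u v : Colg N) :
    D.embAdj b bp p (u + v) = D.embAdj b bp p u + D.embAdj b bp p v := by
  unfold embAdj
  rw [cmE_add, cut_add, vec_add]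

theorem embAdj_smul (p : ι) (t : ℝ) (u : Colg N) :
    D.embAdj b bp p (t • u) = t • D.embAdj b bp p u := by
  unfold embAdj
  rw [cmE_smul, cut_smul, vec_smul]

/-- The mean of the block. -/
def tp (p : ι) (u : Colg N) : ℝ := (D.cut p (cm b u)).trace.re / k p

theorem trace_cut_real (p : ι) (u : Colg N) :
    (((D.cut p (cm b u)).trace.re : ℝ) : ℂ) = (D.cut p (cm b u)).trace := by
  apply Complex.conj_eq_iff_re.1
  rw [starRingEnd_apply, ← Matrix.trace_conjTranspose, (D.cut_herm p (cm_herm b u)).eq]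

theorem sum_tp (hk : ∀ p, 0 < k p) (u : Colg N) : ∑ p, (k p : ℝ) * D.tp b p u = 0 := by
  have h : ((∑ p, (k p : ℝ) * D.tp b p u : ℝ) : ℂ) = ((0 : ℝ) : ℂ) := by
    rw [Complex.ofReal_zero, ← cm_trace b u, ← D.sum_trace_cut, Complex.ofReal_sum]
    refine Finset.sum_congr rfl fun p _ => ?_
    unfold tp
    rw [mul_div_cancel₀ _ (by exact_mod_cast (hk p).ne'), trace_cut_real]
  exact_mod_cast h

theorem cm_embAdj (hk : ∀ p, 0 < k p) (p : ι) (u : Colg N) :
    cm (bp p) (D.embAdj b bp p u) = D.cut p (cm b u) - (D.tp b p u : ℂ) • 1 := by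
  have h1 : D.embAdj b bp p u =
      vec (bp p) (D.cut p (cm b u) - (D.tp b p u : ℂ) • (1 : Matrix (Fin (k p)) (Fin (k p)) ℂ)) := by
    unfold embAdj
    rw [vec_sub, vec_smul]
    have h2 : vec (bp p) (1 : Matrix (Fin (k p)) (Fin (k p)) ℂ) = 0 := by
      ext a
      rw [vec_apply, Matrix.mul_one, (bp p).traceless]
      rfl
    rw [h2, smul_zero, sub_zero]
  rw [h1, cm_vec]
  · have h3 : ((D.tp b p u : ℂ) • (1 : Matrix (Fin (k p)) (Fin (k p)) ℂ)).IsHermitian := by
      unfold Matrix.IsHermitian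
      rw [Matrix.conjTranspose_smul, Matrix.conjTranspose_one, Complex.star_def,
        Complex.conj_ofReal]
    exact (D.cut_herm p (cm_herm b u)).sub h3
  · rw [Matrix.trace_sub, Matrix.trace_smul, Matrix.trace_one, Fintype.card_fin, smul_eq_mul,
      ← trace_cut_real]
    unfold tp
    push_cast
    rw [div_mul_cancel₀ _ (by exact_mod_cast (hk p).ne'), sub_self]

/-! ### 3. The centre and the decomposition -/

/-- The colour vector of the centre with block values `r`. -/
def cenV (r : ι → ℝ) : Colg N := vec b (D.cenM r)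

theorem cm_cenV {r : ι → ℝ} (hr : ∑ p, (k p : ℝ) * r p = 0) : cm b (D.cenV b r) = D.cenM r :=
  cm_vec b (D.cenM_herm r) (by rw [D.trace_cenM, hr, Complex.ofReal_zero])

theorem cenV_add (r s : ι → ℝ) : D.cenV b (r + s) = D.cenV b r + D.cenV b s := by
  unfold cenV
  rw [cenM_add, vec_add]

theorem cenV_smul (t : ℝ) (r : ι → ℝ) : D.cenV b (t • r) = t • D.cenV b r := by
  unfold cenV
  rw [cenM_smul, vec_smul]

theorem inner_cenV {r s : ι → ℝ} (hr : ∑ p, (k p : ℝ) * r p = 0)
    (hs : ∑ p, (k p : ℝ) * s p = 0) :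
    ⟪D.cenV b r, D.cenV b s⟫_ℝ = ∑ p, (k p : ℝ) * (r p * s p) := by
  have h : ((⟪D.cenV b r, D.cenV b s⟫_ℝ : ℝ) : ℂ) =
      ((∑ p, (k p : ℝ) * (r p * s p) : ℝ) : ℂ) := by
    rw [inner_eq_trace b, D.cm_cenV b hr, D.cm_cenV b hs, cenM_mul_cenM, trace_cenM]
  exact_mod_cast h

theorem inner_cenV_emb {r : ι → ℝ} (hr : ∑ p, (k p : ℝ) * r p = 0) (p : ι) (u : Colg (k p)) :
    ⟪D.cenV b r, D.emb b bp p u⟫_ℝ = 0 := by
  have h : ((⟪D.cenV b r, D.emb b bp p u⟫_ℝ : ℝ) : ℂ) = ((0 : ℝ) : ℂ) := by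
    rw [inner_eq_trace b, D.cm_cenV b hr, cm_emb, cenM_mul_embM, Matrix.trace_smul, trace_embM,
      cm_trace, smul_zero, Complex.ofReal_zero]
  exact_mod_cast h

/-- **Decomposition of the block diagonal colour vectors.** -/
theorem decomp (hk : ∀ p, 0 < k p) {u : Colg N} (hu : D.BD (cm b u)) :
    u = (∑ p, D.emb b bp p (D.embAdj b bp p u)) + D.cenV b fun p => D.tp b p u := by
  rw [← cm_eq_iff b, cmE_add, D.cm_cenV b (D.sum_tp b hk u)]
  have h1 : cm b (∑ p, D.emb b bp p (D.embAdj b bp p u) : Colg N) =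
      ∑ p, cm b (D.emb b bp p (D.embAdj b bp p u)) := by
    classical
    have h2 : ∀ s : Finset ι, cm b (∑ p ∈ s, D.emb b bp p (D.embAdj b bp p u) : Colg N) =
        ∑ p ∈ s, cm b (D.emb b bp p (D.embAdj b bp p u)) := by
      intro s
      induction s using Finset.induction_on with
      | empty =>
        rw [Finset.sum_empty, Finset.sum_empty]
        exact cmE_zero b
      | insert a s ha ih => rw [Finset.sum_insert ha, Finset.sum_insert ha, cmE_add, ih]
    exact h2 _
  rw [h1]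
  simp only [cm_emb, D.cm_embAdj b bp hk, embM_sub, embM_smul, embM_one]
  rw [Finset.sum_sub_distrib, (D.BD_iff_sum _).1 hu]
  unfold cenM
  rw [sub_add_cancel]

/-- The block diagonal colour vectors. -/
def kkD : Submodule ℝ (Colg N) where
  carrier := {u | D.BD (cm b u)}
  add_mem' {u v} hu hv := by
    show D.BD (cm b (u + v : Colg N))
    rw [cmE_add]
    exact D.BD_add hu hv
  zero_mem' := by
    show D.BD (cm b (0 : Colg N))
    rw [cmE_zero]
    exact D.BD_zero
  smul_mem' t u hu := by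
    show D.BD (cm b (t • u : Colg N))
    rw [cmE_smul]
    exact D.BD_smul _ hu

theorem mem_kkD {u : Colg N} : u ∈ D.kkD b ↔ D.BD (cm b u) := Iff.rfl

theorem emb_mem_kkD (p : ι) (u : Colg (k p)) : D.emb b bp p u ∈ D.kkD b := by
  rw [mem_kkD, cm_emb]
  exact D.BD_embM p _

theorem cenV_mem_kkD {r : ι → ℝ} (hr : ∑ p, (k p : ℝ) * r p = 0) : D.cenV b r ∈ D.kkD b := by
  rw [mem_kkD, D.cm_cenV b hr]
  exact D.BD_cenM r

/-- **The complement of the block diagonal vectors**: all diagonal blocks vanish. -/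
theorem mem_kkD_orth {u : Colg N} : u ∈ (D.kkD b)ᗮ ↔ ∀ p, D.cut p (cm b u) = 0 := by
  rw [Submodule.mem_orthogonal]
  constructor
  · intro h
    -- test with the block diagonal part of `u` itself
    set w : Colg N := vec b (∑ p, D.embM p (D.cut p (cm b u))) with hw
    have hH : (∑ p, D.embM p (D.cut p (cm b u))).IsHermitian := by
      unfold Matrix.IsHermitian
      rw [Matrix.conjTranspose_sum]
      exact Finset.sum_congr rfl fun p _ =>
        (D.embM_herm p (D.cut_herm p (cm_herm b u))).eq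
    have h0 : (∑ p, D.embM p (D.cut p (cm b u))).trace = 0 := by
      rw [Matrix.trace_sum]
      simp only [trace_embM]
      rw [D.sum_trace_cut, cm_trace]
    have hcm : cm b w = ∑ p, D.embM p (D.cut p (cm b u)) := cm_vec b hH h0
    have hwm : w ∈ D.kkD b := by
      rw [mem_kkD, hcm]
      intro p q hpq
      rw [Matrix.mul_sum, Matrix.sum_mul]
      exact Finset.sum_eq_zero fun s _ => D.BD_embM s _ p q hpq
    have h1 := h w hwm
    have h2 : ((⟪w, u⟫_ℝ : ℝ) : ℂ) = ∑ p, (D.cut p (cm b u) * D.cut p (cm b u)).trace := by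
      rw [inner_eq_trace b, hcm, Finset.sum_mul, Matrix.trace_sum]
      exact Finset.sum_congr rfl fun p _ => by rw [embM_trace_mul]
    rw [h1] at h2
    have h3 : ∀ p, (D.cut p (cm b u) * D.cut p (cm b u)).trace =
        ((∑ i, ∑ j, ‖D.cut p (cm b u) i j‖ ^ 2 : ℝ) : ℂ) := by
      intro p
      have h4 : D.cut p (cm b u) * D.cut p (cm b u) =
          (D.cut p (cm b u))ᴴ * D.cut p (cm b u) := by
        rw [(D.cut_herm p (cm_herm b u)).eq]
      rw [h4]
      simp only [Matrix.trace, Matrix.diag, Matrix.mul_apply, Matrix.conjTranspose_apply]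
      push_cast
      rw [Finset.sum_comm]
      refine Finset.sum_congr rfl fun i _ => Finset.sum_congr rfl fun j _ => ?_
      exact Complex.conj_mul' _
    simp only [h3] at h2
    have h5 : ∑ p, ∑ i, ∑ j, ‖D.cut p (cm b u) i j‖ ^ 2 = 0 := by
      have : ((0 : ℝ) : ℂ) = ((∑ p, ∑ i, ∑ j, ‖D.cut p (cm b u) i j‖ ^ 2 : ℝ) : ℂ) := by
        rw [h2]
        push_cast
        rfl
      exact_mod_cast this.symm
    intro p
    have h6 := (Finset.sum_eq_zero_iff_of_nonneg (fun p _ => Finset.sum_nonneg fun i _ =>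
      Finset.sum_nonneg fun j _ => by positivity)).1 h5 p (Finset.mem_univ p)
    ext i j
    have h7 := (Finset.sum_eq_zero_iff_of_nonneg (fun i _ =>
      Finset.sum_nonneg fun j _ => by positivity)).1 h6 i (Finset.mem_univ i)
    have h8 := (Finset.sum_eq_zero_iff_of_nonneg (fun j _ => by positivity)).1 h7 j
      (Finset.mem_univ j)
    rw [Matrix.zero_apply]
    exact norm_eq_zero.1 ((sq_eq_zero_iff).1 h8)
  · intro h v hv
    have h1 : ((⟪v, u⟫_ℝ : ℝ) : ℂ) = ((0 : ℝ) : ℂ) := by
      rw [inner_eq_trace b, ← (D.BD_iff_sum _).1 hv, Finset.sum_mul, Matrix.trace_sum,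
        Complex.ofReal_zero]
      refine Finset.sum_eq_zero fun p _ => ?_
      rw [embM_trace_mul, h p, Matrix.mul_zero, Matrix.trace_zero]
    exact_mod_cast h1

/-- the stabiliser algebra of a commuting configuration with separated clusters -/
theorem kc_cenCfg {R : Fin 9 → ι → ℝ} (hR : ∀ i, ∑ p, (k p : ℝ) * R i p = 0)
    (hs : ∀ p q, p ≠ q → ∃ i, R i p ≠ R i q) :
    kc (actB b) (D.cenCfg b R) = D.kkD b := by
  ext u
  rw [mem_kc, actB_apply, mem_kkD, ← D.commute_cenM_iff hs]
  constructor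
  · intro h i
    have h1 := mat_brx b u.ofLp (D.cenCfg b R) i
    rw [h, D.mat_cenCfg b hR] at h1
    have h2 : mat b (0 : Cfg N) i = 0 := by
      have := mat_smul b 0 (0 : Cfg N) i
      simpa using this
    rw [h2] at h1
    rcases smul_eq_zero.1 h1.symm with h3 | h3
    · exact absurd (neg_eq_zero.1 h3) Complex.I_ne_zero
    · exact sub_eq_zero.1 h3
  · intro h
    apply mat_inj b
    intro i
    have h2 : mat b (0 : Cfg N) i = 0 := by
      have := mat_smul b 0 (0 : Cfg N) i
      simpa using this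
    rw [mat_brx, D.mat_cenCfg b hR, h i, sub_self, smul_zero, h2]

end Dec

end Crest.Agent.R330.Blk317

end
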