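import Crest.Agent.R330.Blk3_317

/-!
# Row 330 (helper317): block decompositions, part 4: the centre, orthonormal bases

* `cw k : Fin (card ι - 1) → ι → ℝ` : weights, `Σ_p k_p cw s p = 0`, `Σ_p k_p cw s p cw t p = δ`,
  `cw_complete`.
* `D.cenE b : ℝ^{m-1} →ₗᵢ Colg N`, `cm_cenE`; `pos k w p = Σ_s w_s cw s p` (block values).
* `D.cenC b : EuclideanSpace ℝ (Fin 9 × Fin (m-1)) →ₗᵢ Cfg N`, `cenC_eq : = cenCfg (pos ..)`.
* `kkBasis : OrthonormalBasis (Fin (m-1) ⊕ Σ p, Fin (k p^2-1)) ℝ (kkD b)`,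
  `tupBasis`, `comp_embCfg`, `comp_cenCfg`.
-/

set_option autoImplicit false
set_option linter.unusedSectionVars false

noncomputable section

open Matrix Module
open Crest.MathPhysics.MatrixQM
open Crest.Agent.R330.SlA314 Crest.Agent.R330.SlB314 Crest.Agent.R330.LS839
open Crest.Agent.R330.Frame839 Crest.Agent.R330.Bind6839
open scoped InnerProductSpace

namespace Crest.Agent.R330.Blk317

/-! ### 1. Weights -/

section weights

variable {ι : Type*} [Fintype ι] (k : ι → ℕ)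

/-- The vector `(√k_p)`. -/
def sk : EuclideanSpace ℝ ι := WithLp.toLp 2 fun p => Real.sqrt (k p)

variable {k}

theorem sk_ne [Nonempty ι] (hk : ∀ p, 0 < k p) : sk k ≠ 0 := by
  intro h
  obtain ⟨p⟩ := ‹Nonempty ι›
  have h1 : sk k p = 0 := by rw [h]; rfl
  have h2 : Real.sqrt (k p) ≠ 0 := by
    rw [Real.sqrt_ne_zero (by positivity)]
    exact_mod_cast (hk p).ne'
  exact h2 h1

theorem finrank_perp [Nonempty ι] (hk : ∀ p, 0 < k p) :
    finrank ℝ (ℝ ∙ sk k)ᗮ = Fintype.card ι - 1 := by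
  have h1 := Submodule.finrank_add_finrank_orthogonal (ℝ ∙ sk k)
  rw [finrank_span_singleton (sk_ne hk), finrank_euclideanSpace] at h1
  omega

/-- An orthonormal basis of the hyperplane `Σ √k_p w_p = 0`. -/
def cwB [Nonempty ι] (hk : ∀ p, 0 < k p) :
    OrthonormalBasis (Fin (Fintype.card ι - 1)) ℝ (ℝ ∙ sk k)ᗮ :=
  (stdOrthonormalBasis ℝ (ℝ ∙ sk k)ᗮ).reindex (finCongr (finrank_perp hk))

/-- The weights of the centre. -/
def cw [Nonempty ι] (hk : ∀ p, 0 < k p) (s : Fin (Fintype.card ι - 1)) (p : ι) : ℝ :=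
  (cwB hk s : EuclideanSpace ℝ ι) p / Real.sqrt (k p)

variable [Nonempty ι] (hk : ∀ p, 0 < k p)

include hk in
theorem sqrt_ne (p : ι) : Real.sqrt (k p) ≠ 0 := by
  rw [Real.sqrt_ne_zero (by positivity)]
  exact_mod_cast (hk p).ne'

theorem mul_sqrt_cw (s : Fin (Fintype.card ι - 1)) (p : ι) :
    Real.sqrt (k p) * cw hk s p = (cwB hk s : EuclideanSpace ℝ ι) p := by
  unfold cw
  rw [mul_div_cancel₀ _ (sqrt_ne hk p)]

theorem k_eq (p : ι) : (k p : ℝ) = Real.sqrt (k p) * Real.sqrt (k p) :=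
  (Real.mul_self_sqrt (by positivity)).symm

theorem sum_cw (s : Fin (Fintype.card ι - 1)) : ∑ p, (k p : ℝ) * cw hk s p = 0 := by
  have h := (Submodule.mem_orthogonal_singleton_iff_inner_right).1 (cwB hk s).2
  rw [PiLp.inner_apply] at h
  rw [← h]
  refine Finset.sum_congr rfl fun p _ => ?_
  rw [k_eq, mul_assoc, mul_sqrt_cw]
  simp [sk, mul_comm]

theorem cw_orth (s t : Fin (Fintype.card ι - 1)) :
    ∑ p, (k p : ℝ) * (cw hk s p * cw hk t p) = if s = t then 1 else 0 := by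
  have h := (orthonormal_iff_ite.1 (cwB hk).orthonormal) s t
  rw [Submodule.coe_inner, PiLp.inner_apply] at h
  rw [← h]
  refine Finset.sum_congr rfl fun p _ => ?_
  rw [k_eq]
  have h1 : Real.sqrt (k p) * Real.sqrt (k p) * (cw hk s p * cw hk t p) =
      (Real.sqrt (k p) * cw hk s p) * (Real.sqrt (k p) * cw hk t p) := by ring
  rw [h1, mul_sqrt_cw, mul_sqrt_cw]
  simp [mul_comm]

/-- **completeness of the weights** -/
theorem cw_complete {r : ι → ℝ} (hr : ∑ p, (k p : ℝ) * r p = 0) (p : ι) :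
    r p = ∑ s, (∑ q, (k q : ℝ) * (r q * cw hk s q)) * cw hk s p := by
  set w : EuclideanSpace ℝ ι := WithLp.toLp 2 fun q => Real.sqrt (k q) * r q with hw
  have hwm : w ∈ (ℝ ∙ sk k)ᗮ := by
    rw [Submodule.mem_orthogonal_singleton_iff_inner_right, PiLp.inner_apply, ← hr]
    refine Finset.sum_congr rfl fun q _ => ?_
    have h1 : ⟪(sk k) q, w q⟫_ℝ = w q * (sk k) q := by simp [mul_comm]
    rw [h1, hw]
    show Real.sqrt (k q) * r q * Real.sqrt (k q) = _
    have h9 := k_eq (k := k) q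
    linear_combination (-(r q)) * h9
  have h := (cwB hk).sum_repr' ⟨w, hwm⟩
  have h1 := congrArg (fun v : (ℝ ∙ sk k)ᗮ => (v : EuclideanSpace ℝ ι) p) h
  simp only [Submodule.coe_sum, Submodule.coe_smul, Submodule.coe_inner] at h1
  rw [WithLp.ofLp_sum, Finset.sum_apply] at h1
  have h2 : Real.sqrt (k p) * r p = Real.sqrt (k p) *
      ∑ s, (∑ q, (k q : ℝ) * (r q * cw hk s q)) * cw hk s p := by
    rw [Finset.mul_sum]
    have h3 : Real.sqrt (k p) * r p = w p := rfl
    rw [h3, ← h1]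
    refine Finset.sum_congr rfl fun s _ => ?_
    rw [PiLp.smul_apply, smul_eq_mul, ← mul_sqrt_cw hk s p]
    have h4 : ⟪(cwB hk s : EuclideanSpace ℝ ι), w⟫_ℝ = ∑ q, (k q : ℝ) * (r q * cw hk s q) := by
      rw [PiLp.inner_apply]
      refine Finset.sum_congr rfl fun q _ => ?_
      have h5 : ⟪(cwB hk s : EuclideanSpace ℝ ι) q, w q⟫_ℝ =
          w q * (cwB hk s : EuclideanSpace ℝ ι) q := by simp [mul_comm]
      rw [h5, ← mul_sqrt_cw hk s q, hw]
      show Real.sqrt (k q) * r q * _ = _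
      have h9 := k_eq (k := k) q
      linear_combination (-(r q * cw hk s q)) * h9
    rw [h4]
    ring
  exact mul_left_cancel₀ (sqrt_ne hk p) h2

/-- The block values of a vector of the centre. -/
def pos (w : EuclideanSpace ℝ (Fin (Fintype.card ι - 1))) (p : ι) : ℝ := ∑ s, w s * cw hk s p

theorem sum_pos (w : EuclideanSpace ℝ (Fin (Fintype.card ι - 1))) :
    ∑ p, (k p : ℝ) * pos hk w p = 0 := by
  unfold pos
  simp only [Finset.mul_sum]
  rw [Finset.sum_comm]
  refine Finset.sum_eq_zero fun s _ => ?_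
  have h := sum_cw hk s
  have h1 : ∀ p, (k p : ℝ) * (w s * cw hk s p) = w s * ((k p : ℝ) * cw hk s p) := fun p => by ring
  simp only [h1]
  rw [← Finset.mul_sum, h, mul_zero]

theorem pos_add (w w' : EuclideanSpace ℝ (Fin (Fintype.card ι - 1))) :
    pos hk (w + w') = pos hk w + pos hk w' := by
  funext p
  simp [pos, add_mul, Finset.sum_add_distrib]

theorem pos_smul (t : ℝ) (w : EuclideanSpace ℝ (Fin (Fintype.card ι - 1))) :
    pos hk (t • w) = t • pos hk w := by
  funext p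
  simp [pos, Finset.mul_sum, mul_assoc]

theorem pos_single (s : Fin (Fintype.card ι - 1)) :
    pos hk (EuclideanSpace.single s 1) = cw hk s := by
  funext p
  unfold pos
  rw [Finset.sum_eq_single s]
  · simp
  · intro t _ ht
    simp [ht]
  · intro h
    exact absurd (Finset.mem_univ s) h

theorem inner_pos (w w' : EuclideanSpace ℝ (Fin (Fintype.card ι - 1))) :
    ∑ p, (k p : ℝ) * (pos hk w p * pos hk w' p) = ⟪w, w'⟫_ℝ := by
  have h1 : ∀ p, (k p : ℝ) * (pos hk w p * pos hk w' p) =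
      ∑ s, ∑ t, (w s * w' t) * ((k p : ℝ) * (cw hk s p * cw hk t p)) := by
    intro p
    unfold pos
    rw [Finset.sum_mul_sum, Finset.mul_sum]
    refine Finset.sum_congr rfl fun s _ => ?_
    rw [Finset.mul_sum]
    exact Finset.sum_congr rfl fun t _ => by ring
  simp only [h1]
  rw [Finset.sum_comm]
  rw [PiLp.inner_apply]
  refine Finset.sum_congr rfl fun s _ => ?_
  rw [Finset.sum_comm]
  have h2 : ∀ t, ∑ p, (w s * w' t) * ((k p : ℝ) * (cw hk s p * cw hk t p)) =
      (w s * w' t) * if s = t then 1 else 0 := fun t => by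
    rw [← Finset.mul_sum, cw_orth]
  simp only [h2]
  simp [mul_comm]

/-- every tuple of block values with mean zero is a position -/
theorem pos_surj {r : ι → ℝ} (hr : ∑ p, (k p : ℝ) * r p = 0) :
    pos hk (WithLp.toLp 2 fun s => ∑ q, (k q : ℝ) * (r q * cw hk s q)) = r := by
  funext p
  exact (cw_complete hk hr p).symm

theorem pos_inj {w w' : EuclideanSpace ℝ (Fin (Fintype.card ι - 1))}
    (h : pos hk w = pos hk w') : w = w' := by
  have h1 : pos hk (w - w') = 0 := by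
    have h2 : w - w' = w + (-1 : ℝ) • w' := by simp [sub_eq_add_neg]
    rw [h2, pos_add, pos_smul, h]
    funext p
    simp
  have h3 := inner_pos hk (w - w') (w - w')
  rw [h1] at h3
  simp only [Pi.zero_apply, mul_zero, Finset.sum_const_zero] at h3
  exact sub_eq_zero.1 (inner_self_eq_zero.1 h3.symm)

end weights

/-! ### 2. Lifting isometries of colour spaces to configurations -/

section lift

variable {κ α β : Type*} [Fintype κ] [Fintype α] [Fintype β]

/-- `1 ⊗ J`. -/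
def tupI (κ : Type*) [Fintype κ] (J : EuclideanSpace ℝ α →ₗᵢ[ℝ] EuclideanSpace ℝ β) :
    EuclideanSpace ℝ (κ × α) →ₗᵢ[ℝ] EuclideanSpace ℝ (κ × β) where
  toFun x := WithLp.toLp 2 fun q => J (WithLp.toLp 2 fun a => x (q.1, a)) q.2
  map_add' x y := by
    ext ⟨i, B⟩
    have h : (WithLp.toLp 2 fun a => (x + y) (i, a) : EuclideanSpace ℝ α) =
        (WithLp.toLp 2 fun a => x (i, a)) + WithLp.toLp 2 fun a => y (i, a) := rfl
    show J (WithLp.toLp 2 fun a => (x + y) (i, a)) B = _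
    rw [h, map_add]
    rfl
  map_smul' t x := by
    ext ⟨i, B⟩
    have h : (WithLp.toLp 2 fun a => (t • x) (i, a) : EuclideanSpace ℝ α) =
        t • (WithLp.toLp 2 fun a => x (i, a)) := rfl
    show J (WithLp.toLp 2 fun a => (t • x) (i, a)) B = _
    rw [h, map_smul]
    rfl
  norm_map' x := by
    have h : ∀ (γ : Type _) [Fintype γ] (z : EuclideanSpace ℝ (κ × γ)),
        ‖z‖ ^ 2 = ∑ i, ‖(WithLp.toLp 2 fun a => z (i, a) : EuclideanSpace ℝ γ)‖ ^ 2 := by
      intro γ _ z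
      simp only [EuclideanSpace.norm_sq_eq]
      rw [Fintype.sum_prod_type]
    rw [← sq_eq_sq₀ (norm_nonneg _) (norm_nonneg _), h, EuclideanSpace.norm_sq_eq x,
      Fintype.sum_prod_type]
    refine Finset.sum_congr rfl fun i _ => ?_
    have h2 : ‖(WithLp.toLp 2 fun a => x (i, a) : EuclideanSpace ℝ α)‖ ^ 2 =
        ∑ a, ‖x (i, a)‖ ^ 2 := by
      rw [EuclideanSpace.norm_sq_eq]
    rw [← h2, ← J.norm_map (WithLp.toLp 2 fun a => x (i, a))]
    rfl

theorem tupI_apply (J : EuclideanSpace ℝ α →ₗᵢ[ℝ] EuclideanSpace ℝ β)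
    (x : EuclideanSpace ℝ (κ × α)) (i : κ) (B : β) :
    tupI κ J x (i, B) = J (WithLp.toLp 2 fun a => x (i, a)) B := rfl

theorem tupI_single [DecidableEq κ] [DecidableEq α]
    (J : EuclideanSpace ℝ α →ₗᵢ[ℝ] EuclideanSpace ℝ β) (i : κ) (a : α) (j : κ) (B : β) :
    tupI κ J (EuclideanSpace.single (i, a) 1) (j, B) =
      if j = i then J (EuclideanSpace.single a 1) B else 0 := by
  rw [tupI_apply]
  by_cases h : j = i
  · subst h
    have h1 : (WithLp.toLp 2 fun c => (EuclideanSpace.single (j, a) (1 : ℝ) :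
        EuclideanSpace ℝ (κ × α)) (j, c) : EuclideanSpace ℝ α) = EuclideanSpace.single a 1 := by
      ext c
      simp [PiLp.single_apply]
    rw [if_pos rfl, h1]
  · rw [if_neg h]
    have h1 : (WithLp.toLp 2 fun c => (EuclideanSpace.single (i, a) (1 : ℝ) :
        EuclideanSpace ℝ (κ × α)) (j, c) : EuclideanSpace ℝ α) = 0 := by
      ext c
      simp [h]
    rw [h1, map_zero]
    rfl

end lift

namespace Dec

variable {N : ℕ} {ι : Type*} [Fintype ι] {k : ι → ℕ} (D : Dec N k) (b : ColorBasis N)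
  (bp : ∀ p, ColorBasis (k p))

/-! ### 3. The centre -/

theorem comp_embCfg (p : ι) (y : Cfg (k p)) (i : Fin 9) :
    comp (D.embCfg b bp p y) i = D.emb b bp p (comp y i) := rfl

theorem comp_cenCfg (R : Fin 9 → ι → ℝ) (i : Fin 9) :
    comp (D.cenCfg b R) i = D.cenV b (R i) := rfl

theorem embCfg_eq_tupI (p : ι) (y : Cfg (k p)) :
    D.embCfg b bp p y = tupI (Fin 9) (D.emb b bp p) y := rfl

/-- The spinor version of the embedding. -/
def embS (p : ι) : EuclideanSpace ℝ (Fin 16 × Fin (k p ^ 2 - 1)) →ₗᵢ[ℝ]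
    EuclideanSpace ℝ (Fin 16 × Fin (N ^ 2 - 1)) := tupI (Fin 16) (D.emb b bp p)

variable [Nonempty ι] (hk : ∀ p, 0 < k p)

/-- **The embedding of the centre.** -/
def cenE : EuclideanSpace ℝ (Fin (Fintype.card ι - 1)) →ₗᵢ[ℝ] Colg N where
  toFun w := D.cenV b (pos hk w)
  map_add' w w' := by rw [pos_add, cenV_add]
  map_smul' t w := by rw [pos_smul, cenV_smul]; rfl
  norm_map' w := by
    have h : ‖D.cenV b (pos hk w)‖ ^ 2 = ‖w‖ ^ 2 := by
      rw [← real_inner_self_eq_norm_sq, D.inner_cenV b (sum_pos hk w) (sum_pos hk w),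
        inner_pos, real_inner_self_eq_norm_sq]
    exact (sq_eq_sq₀ (norm_nonneg _) (norm_nonneg _)).1 h

theorem cenE_apply (w : EuclideanSpace ℝ (Fin (Fintype.card ι - 1))) :
    D.cenE b hk w = D.cenV b (pos hk w) := rfl

theorem cm_cenE (w : EuclideanSpace ℝ (Fin (Fintype.card ι - 1))) :
    cm b (D.cenE b hk w) = D.cenM (pos hk w) := D.cm_cenV b (sum_pos hk w)

theorem inner_cenE_emb (w : EuclideanSpace ℝ (Fin (Fintype.card ι - 1))) (p : ι)
    (u : Colg (k p)) : ⟪D.cenE b hk w, D.emb b bp p u⟫_ℝ = 0 :=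
  D.inner_cenV_emb b bp (sum_pos hk w) p u

theorem cenE_mem_kkD (w : EuclideanSpace ℝ (Fin (Fintype.card ι - 1))) :
    D.cenE b hk w ∈ D.kkD b := D.cenV_mem_kkD b (sum_pos hk w)

/-- **The positions of the clusters** as configurations. -/
def cenC : EuclideanSpace ℝ (Fin 9 × Fin (Fintype.card ι - 1)) →ₗᵢ[ℝ] Cfg N :=
  tupI (Fin 9) (D.cenE b hk)

/-- the position of the cluster `p` in direction `i` -/
def posC (X : EuclideanSpace ℝ (Fin 9 × Fin (Fintype.card ι - 1))) (i : Fin 9) (p : ι) : ℝ :=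
  pos hk (WithLp.toLp 2 fun s => X (i, s)) p

omit D b in
theorem sum_posC (X : EuclideanSpace ℝ (Fin 9 × Fin (Fintype.card ι - 1))) (i : Fin 9) :
    ∑ p, (k p : ℝ) * posC hk X i p = 0 := sum_pos hk _

theorem cenC_eq (X : EuclideanSpace ℝ (Fin 9 × Fin (Fintype.card ι - 1))) :
    D.cenC b hk X = D.cenCfg b (posC hk X) := rfl

theorem comp_cenC (X : EuclideanSpace ℝ (Fin 9 × Fin (Fintype.card ι - 1))) (i : Fin 9) :
    comp (D.cenC b hk X) i = D.cenE b hk (WithLp.toLp 2 fun s => X (i, s)) := rfl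

theorem mat_cenC (X : EuclideanSpace ℝ (Fin 9 × Fin (Fintype.card ι - 1))) (i : Fin 9) :
    mat b (D.cenC b hk X) i = D.cenM (posC hk X i) := D.mat_cenCfg b (sum_posC hk X) i

theorem act_cenC (X : EuclideanSpace ℝ (Fin 9 × Fin (Fintype.card ι - 1))) (p : ι)
    (h : specialUnitaryGroup (Fin (k p)) ℂ) :
    b.act (D.iota p h) (D.cenC b hk X) = D.cenC b hk X := D.act_cenCfg b (sum_posC hk X) p h

theorem inner_cenC_embCfg (X : EuclideanSpace ℝ (Fin 9 × Fin (Fintype.card ι - 1))) (p : ι)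
    (y : Cfg (k p)) : ⟪D.cenC b hk X, D.embCfg b bp p y⟫_ℝ = 0 :=
  D.inner_cenCfg_embCfg b bp (sum_posC hk X) p y

/-- every tuple of positions with centre of mass zero -/
theorem exists_cenC {R : Fin 9 → ι → ℝ} (hR : ∀ i, ∑ p, (k p : ℝ) * R i p = 0) :
    ∃ X, posC hk X = R ∧ D.cenC b hk X = D.cenCfg b R := by
  refine ⟨WithLp.toLp 2 fun q => ∑ p, (k p : ℝ) * (R q.1 p * cw hk q.2 p), ?_⟩
  have h : posC hk (WithLp.toLp 2 fun q => ∑ p, (k p : ℝ) * (R q.1 p * cw hk q.2 p)) = R := by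
    funext i
    exact pos_surj hk (hR i)
  exact ⟨h, by rw [cenC_eq, h]⟩

/-! ### 4. The orthonormal basis of the block diagonal vectors -/

/-- the vectors of the basis -/
def kkv : Fin (Fintype.card ι - 1) ⊕ (Σ p, Fin (k p ^ 2 - 1)) → Colg N
  | Sum.inl s => D.cenE b hk (EuclideanSpace.single s 1)
  | Sum.inr q => D.emb b bp q.1 (EuclideanSpace.single q.2 1)

theorem kkv_mem (x : Fin (Fintype.card ι - 1) ⊕ (Σ p, Fin (k p ^ 2 - 1))) :
    D.kkv b bp hk x ∈ D.kkD b := by
  rcases x with s | ⟨p, a⟩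
  · exact D.cenE_mem_kkD b hk _
  · exact D.emb_mem_kkD b bp p _

theorem orthonormal_kkv : Orthonormal ℝ (D.kkv b bp hk) := by
  classical
  rw [orthonormal_iff_ite]
  rintro (s | ⟨p, a⟩) (t | ⟨q, c⟩)
  · show ⟪D.cenE b hk _, D.cenE b hk _⟫_ℝ = _
    rw [LinearIsometry.inner_map_map, EuclideanSpace.inner_single_left]
    simp [PiLp.single_apply, eq_comm]
  · show ⟪D.cenE b hk _, D.emb b bp q _⟫_ℝ = _
    rw [D.inner_cenE_emb]
    simp
  · show ⟪D.emb b bp p _, D.cenE b hk _⟫_ℝ = _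
    rw [real_inner_comm, D.inner_cenE_emb]
    simp
  · show ⟪D.emb b bp p _, D.emb b bp q _⟫_ℝ = _
    by_cases hpq : p = q
    · subst hpq
      rw [D.inner_emb, EuclideanSpace.inner_single_left]
      simp [PiLp.single_apply, eq_comm]
    · rw [D.inner_emb_ne b bp hpq, if_neg]
      intro h
      exact hpq (congrArg Sigma.fst (Sum.inr.inj h))

theorem emb_mem_span (p : ι) (u : Colg (k p)) :
    D.emb b bp p u ∈ Submodule.span ℝ (Set.range (D.kkv b bp hk)) := by
  have h : u = ∑ a, u a • EuclideanSpace.single a (1 : ℝ) := by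
    ext c
    simp [Finset.sum_apply, Pi.single_apply]
  rw [h, map_sum]
  refine Submodule.sum_mem _ fun a _ => ?_
  rw [map_smul]
  exact Submodule.smul_mem _ _ (Submodule.subset_span ⟨Sum.inr ⟨p, a⟩, rfl⟩)

theorem cenE_mem_span (w : EuclideanSpace ℝ (Fin (Fintype.card ι - 1))) :
    D.cenE b hk w ∈ Submodule.span ℝ (Set.range (D.kkv b bp hk)) := by
  have h : w = ∑ a, w a • EuclideanSpace.single a (1 : ℝ) := by
    ext c
    simp [Finset.sum_apply, Pi.single_apply]
  rw [h, map_sum]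
  refine Submodule.sum_mem _ fun a _ => ?_
  rw [map_smul]
  exact Submodule.smul_mem _ _ (Submodule.subset_span ⟨Sum.inl a, rfl⟩)

theorem span_kkv : Submodule.span ℝ (Set.range (D.kkv b bp hk)) = D.kkD b := by
  apply le_antisymm
  · rw [Submodule.span_le]
    rintro _ ⟨x, rfl⟩
    exact D.kkv_mem b bp hk x
  · intro u hu
    rw [D.decomp b bp hk hu]
    refine Submodule.add_mem _ (Submodule.sum_mem _ fun p _ => D.emb_mem_span b bp hk p _) ?_
    have h : (D.cenV b fun p => D.tp b p u) =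
        D.cenE b hk (WithLp.toLp 2 fun s => ∑ q, (k q : ℝ) * (D.tp b q u * cw hk s q)) := by
      rw [cenE_apply, pos_surj hk (D.sum_tp b hk u)]
    rw [h]
    exact D.cenE_mem_span b bp hk _

/-- **The orthonormal basis of the block diagonal vectors**: centre and blocks. -/
def kkBasis : OrthonormalBasis (Fin (Fintype.card ι - 1) ⊕ (Σ p, Fin (k p ^ 2 - 1))) ℝ
    (D.kkD b) :=
  OrthonormalBasis.mk (v := fun x => (⟨D.kkv b bp hk x, D.kkv_mem b bp hk x⟩ : D.kkD b))
    (by
      have h := D.orthonormal_kkv b bp hk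
      classical
      rw [orthonormal_iff_ite] at h ⊢
      exact h)
    (by
      intro u _
      have h1 : (u : Colg N) ∈ Submodule.span ℝ (Set.range (D.kkv b bp hk)) := by
        rw [D.span_kkv b bp hk]
        exact u.2
      have h2 : Submodule.map (D.kkD b).subtype (Submodule.span ℝ
          (Set.range fun x => (⟨D.kkv b bp hk x, D.kkv_mem b bp hk x⟩ : D.kkD b))) =
          Submodule.span ℝ (Set.range (D.kkv b bp hk)) := by
        rw [Submodule.map_span, ← Set.range_comp]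
        rfl
      rw [← h2] at h1
      obtain ⟨v, hv, hvu⟩ := h1
      have h3 : v = u := Subtype.ext hvu
      rw [← h3]
      exact hv)

theorem kkBasis_inl (s : Fin (Fintype.card ι - 1)) :
    ((D.kkBasis b bp hk (Sum.inl s) : D.kkD b) : Colg N) =
      D.cenE b hk (EuclideanSpace.single s 1) := by
  unfold kkBasis
  rw [OrthonormalBasis.coe_mk]
  rfl

theorem kkBasis_inr (p : ι) (a : Fin (k p ^ 2 - 1)) :
    ((D.kkBasis b bp hk (Sum.inr ⟨p, a⟩) : D.kkD b) : Colg N) =
      D.emb b bp p (EuclideanSpace.single a 1) := by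
  unfold kkBasis
  rw [OrthonormalBasis.coe_mk]
  rfl

end Dec

end Crest.Agent.R330.Blk317

end
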