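import Crest.Agent.R330.Blk4_317

/-!
# Row 330 (helper317): block decompositions, part 5: generators and charges of the blocks

* `bθ p β a` : the generators of the block; Clifford relations, `rho_bθ`, `rho_bθ_ne`.
* `cθ β s` : the generators of the centre; `rho_cθ`.
* `wv b G g m α β x` : colour vector of the potential; `wv_block` : at `x = cen X + Σ_q y_q` it is
  `Σ_q emb q (wv (bp q) .. (y q)) - m Σ_j c_j (Γγ^j)_{αβ} cen X_j`; `wA_block`.
* `Theta_embCfg`, `Theta_cenC`.
* `tupBasis`, `ukBasis` and `light_split` : the light charge of 839 (`Σ aA ∂ + wA`) is the sum of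
  the charge of the centre and of the charges of the blocks.
-/

set_option autoImplicit false
set_option linter.unusedSectionVars false

noncomputable section

open Matrix hiding comp
open Module
open Crest.MathPhysics.MatrixQM
open Crest.Agent.R330.SlA314 Crest.Agent.R330.SlB314 Crest.Agent.R330.LS839
open Crest.Agent.R330.Frame839 Crest.Agent.R330.Bind6839
open Crest.Agent.R330.Defs478 Crest.Agent.R330.IBP837
open scoped InnerProductSpace

namespace Crest.Agent.R330.Blk317

variable {N : ℕ} {F : Type*} [NormedAddCommGroup F] [InnerProductSpace ℂ F]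
  [FiniteDimensional ℂ F]

/-! ### 1. Linearity of `thv` -/

section thv

variable (M : FermionRep N F)

theorem thv_add (β : Fin 16) (u v : Colg N) : thv M β (u + v) = thv M β u + thv M β v := by
  unfold thv
  rw [← Finset.sum_add_distrib]
  refine Finset.sum_congr rfl fun A _ => ?_
  rw [← add_smul]
  congr 1
  rw [PiLp.add_apply]
  push_cast
  rfl

theorem thv_smul (β : Fin 16) (t : ℝ) (u : Colg N) : thv M β (t • u) = (t : ℂ) • thv M β u := by
  unfold thv
  rw [Finset.smul_sum]
  refine Finset.sum_congr rfl fun A _ => ?_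
  rw [smul_smul, PiLp.smul_apply, smul_eq_mul]
  push_cast
  rfl

theorem thv_zero (β : Fin 16) : thv M β (0 : Colg N) = 0 := by
  have h := thv_smul M β 0 0
  simpa using h

theorem thv_sum {κ : Type*} (β : Fin 16) (s : Finset κ) (u : κ → Colg N) :
    thv M β (∑ x ∈ s, u x) = ∑ x ∈ s, thv M β (u x) := by
  classical
  induction s using Finset.induction_on with
  | empty => rw [Finset.sum_empty, Finset.sum_empty, thv_zero]
  | insert a s ha ih => rw [Finset.sum_insert ha, Finset.sum_insert ha, thv_add, ih]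

theorem thv_symm (β : Fin 16) (u : Colg N) : (thv M β u).IsSymmetric := by
  intro f h
  unfold thv
  simp only [LinearMap.sum_apply, LinearMap.smul_apply, sum_inner, inner_sum, inner_smul_left,
    inner_smul_right, Complex.conj_ofReal]
  exact Finset.sum_congr rfl fun A _ => by rw [M.selfAdjoint β A f h]

/-- expansion in an orthonormal family of coordinates -/
theorem vco_eq_thv (w : Fin 16 → Fin (N ^ 2 - 1) → ℝ) :
    vco M w = ∑ β, thv M β (WithLp.toLp 2 (w β)) := by
  unfold vco thv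
  rw [Finset.sum_comm]

variable {b : ColorBasis N}

/-- The adjoint action on colour vectors. -/
def adv (b : ColorBasis N) (g : specialUnitaryGroup (Fin N) ℂ) (u : Colg N) : Colg N :=
  WithLp.toLp 2 fun A => ∑ B, b.adjMat g A B * u B

theorem cm_adv (g : specialUnitaryGroup (Fin N) ℂ) (u : Colg N) :
    cm b (adv b g u) =
      (g : Matrix (Fin N) (Fin N) ℂ) * cm b u * star (g : Matrix (Fin N) (Fin N) ℂ) :=
  cm_adj b g u

theorem comp_act_adv (g : specialUnitaryGroup (Fin N) ℂ) (x : Cfg N) (i : Fin 9) :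
    comp (b.act g x) i = adv b g (comp x i) := rfl

/-- **covariance of the generators** -/
theorem rho_thv (R : GaugeAction b M) (g : specialUnitaryGroup (Fin N) ℂ) (β : Fin 16)
    (u : Colg N) (f : F) : R.ρ g (thv M β u f) = thv M β (adv b g u) (R.ρ g f) := by
  unfold thv
  simp only [LinearMap.sum_apply, LinearMap.smul_apply, map_sum, map_smul]
  have h1 : ∀ A, R.ρ g (M.θ β A f) = ∑ B, (b.adjMat g B A : ℂ) • M.θ β B (R.ρ g f) := by
    intro A
    have h2 := LinearMap.congr_fun (R.intertwine g β A) f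
    simpa only [LinearMap.comp_apply, LinearMap.sum_apply, LinearMap.smul_apply] using h2
  simp only [h1, Finset.smul_sum, smul_smul]
  rw [Finset.sum_comm]
  refine Finset.sum_congr rfl fun B _ => ?_
  rw [← Finset.sum_smul]
  congr 1
  show _ = ((∑ A, b.adjMat g B A * u A : ℝ) : ℂ)
  push_cast
  exact Finset.sum_congr rfl fun A _ => mul_comm _ _

end thv

namespace Dec

variable {ι : Type*} [Fintype ι] {k : ι → ℕ} (D : Dec N k) (b : ColorBasis N)
  (bp : ∀ p, ColorBasis (k p)) (M : FermionRep N F)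

/-! ### 2. Generators of the blocks -/

/-- **The generators of the block `p`.** -/
def bθ (p : ι) (β : Fin 16) (a : Fin (k p ^ 2 - 1)) : F →ₗ[ℂ] F :=
  thv M β (D.emb b bp p (EuclideanSpace.single a 1))

theorem bθ_eq (p : ι) (β : Fin 16) (a : Fin (k p ^ 2 - 1)) :
    D.bθ b bp M p β a = ∑ A, ((D.embC b bp p A a : ℝ) : ℂ) • M.θ β A := by
  unfold bθ thv
  simp only [D.emb_single]

theorem thv_emb (p : ι) (β : Fin 16) (u : Colg (k p)) :
    thv M β (D.emb b bp p u) = ∑ a, ((u a : ℝ) : ℂ) • D.bθ b bp M p β a := by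
  have h : u = ∑ a, u a • EuclideanSpace.single a (1 : ℝ) := by
    ext c
    simp [Finset.sum_apply, Pi.single_apply]
  conv_lhs => rw [h, map_sum, thv_sum]
  refine Finset.sum_congr rfl fun a _ => ?_
  rw [map_smul, thv_smul]
  rfl

theorem bθ_symm (p : ι) (β : Fin 16) (a : Fin (k p ^ 2 - 1)) :
    (D.bθ b bp M p β a).IsSymmetric := thv_symm M β _

theorem bθ_anti (p : ι) (α β : Fin 16) (a c : Fin (k p ^ 2 - 1)) (f : F) :
    D.bθ b bp M p α a (D.bθ b bp M p β c f) + D.bθ b bp M p β c (D.bθ b bp M p α a f) =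
      (if α = β ∧ a = c then (1 : ℂ) else 0) • f := by
  unfold bθ
  rw [thv_anti, D.inner_emb, EuclideanSpace.inner_single_left]
  congr 1
  by_cases h1 : α = β <;> by_cases h2 : a = c <;> simp [h1, h2, PiLp.single_apply]

theorem bθ_anti_ne {p q : ι} (hpq : p ≠ q) (α β : Fin 16) (a : Fin (k p ^ 2 - 1))
    (c : Fin (k q ^ 2 - 1)) (f : F) :
    D.bθ b bp M p α a (D.bθ b bp M q β c f) + D.bθ b bp M q β c (D.bθ b bp M p α a f) = 0 := by
  unfold bθ
  rw [thv_anti, D.inner_emb_ne b bp hpq]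
  simp

/-- the relation in the form of `FermionRep` -/
theorem bθ_anticomm (p : ι) (α β : Fin 16) (a c : Fin (k p ^ 2 - 1)) :
    D.bθ b bp M p α a ∘ₗ D.bθ b bp M p β c + D.bθ b bp M p β c ∘ₗ D.bθ b bp M p α a =
      if α = β ∧ a = c then (LinearMap.id : F →ₗ[ℂ] F) else 0 := by
  apply LinearMap.ext
  intro f
  rw [LinearMap.add_apply, LinearMap.comp_apply, LinearMap.comp_apply, bθ_anti]
  by_cases h : α = β ∧ a = c <;> simp [h]

theorem adv_iota_emb (p : ι) (h : specialUnitaryGroup (Fin (k p)) ℂ) (u : Colg (k p)) :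
    adv b (D.iota p h) (D.emb b bp p u) = D.emb b bp p (adv (bp p) h u) := by
  ext A
  exact D.adj_emb b bp p h u A

theorem adv_iota_emb_ne {p q : ι} (hpq : p ≠ q) (h : specialUnitaryGroup (Fin (k p)) ℂ)
    (u : Colg (k q)) : adv b (D.iota p h) (D.emb b bp q u) = D.emb b bp q u := by
  ext A
  exact D.adj_emb_ne b bp hpq h u A

theorem adv_iota_cenV {r : ι → ℝ} (hr : ∑ p, (k p : ℝ) * r p = 0) (p : ι)
    (h : specialUnitaryGroup (Fin (k p)) ℂ) :
    adv b (D.iota p h) (D.cenV b r) = D.cenV b r := by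
  apply (cm_eq_iff b).1
  rw [cm_adv, D.cm_cenV b hr, conj_cenM]

theorem adv_single {n : ℕ} (b : ColorBasis n) (h : specialUnitaryGroup (Fin n) ℂ)
    (a : Fin (n ^ 2 - 1)) : adv b h (EuclideanSpace.single a 1) =
      ∑ c, b.adjMat h c a • EuclideanSpace.single c (1 : ℝ) := by
  ext c
  have h1 : adv b h (EuclideanSpace.single a 1) c = b.adjMat h c a := by
    show ∑ d, b.adjMat h c d * (EuclideanSpace.single a (1 : ℝ) :
      EuclideanSpace ℝ (Fin (n ^ 2 - 1))) d = _
    rw [Finset.sum_eq_single a]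
    · simp
    · intro d _ hd
      simp [hd]
    · intro h
      exact absurd (Finset.mem_univ a) h
  rw [h1]
  simp [Finset.sum_apply, Pi.single_apply]

/-- **covariance of the generators of the block** -/
theorem rho_bθ (R : GaugeAction b M) (p : ι) (h : specialUnitaryGroup (Fin (k p)) ℂ) (β : Fin 16)
    (a : Fin (k p ^ 2 - 1)) (f : F) :
    R.ρ (D.iota p h) (D.bθ b bp M p β a f) =
      ∑ c, ((bp p).adjMat h c a : ℂ) • D.bθ b bp M p β c (R.ρ (D.iota p h) f) := by
  have h1 : D.bθ b bp M p β a f = thv M β (D.emb b bp p (EuclideanSpace.single a 1)) f := rfl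
  rw [h1, rho_thv, adv_iota_emb, adv_single, map_sum, thv_sum, LinearMap.sum_apply]
  refine Finset.sum_congr rfl fun c _ => ?_
  rw [map_smul, thv_smul, LinearMap.smul_apply]
  rfl

theorem rho_bθ_ne (R : GaugeAction b M) {p q : ι} (hpq : p ≠ q)
    (h : specialUnitaryGroup (Fin (k p)) ℂ) (β : Fin 16) (a : Fin (k q ^ 2 - 1)) (f : F) :
    R.ρ (D.iota p h) (D.bθ b bp M q β a f) = D.bθ b bp M q β a (R.ρ (D.iota p h) f) := by
  unfold bθ
  rw [rho_thv, D.adv_iota_emb_ne b bp hpq]

/-! ### 3. The potential -/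

/-- The colour vector of the coefficients of the potential. -/
def wv {n : ℕ} (b : ColorBasis n) (G : GammaNine) (g m : ℝ) (α β : Fin 16) (x : Cfg n) : Colg n :=
  WithLp.toLp 2 fun A => wpot b G g m α β A x

theorem wv_eq {n : ℕ} (b : ColorBasis n) (G : GammaNine) (g m : ℝ) (α β : Fin 16) (x : Cfg n) :
    wv b G g m α β x = (∑ i, ∑ j, (g * (1 / 2 * G.γ2 i j α β)) •
      (WithLp.toLp 2 (br b (comp x i) (comp x j)) : Colg n)) -
      ∑ j, (m * (cc j * (Gam G * G.γ j) α β)) • comp x j := by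
  ext A
  show wpot b G g m α β A x = _
  rw [wpot_wb, wb_eq]
  simp only [wl]
  rw [PiLp.sub_apply]
  simp only [WithLp.ofLp_sum, WithLp.ofLp_smul, Finset.sum_apply, Pi.smul_apply, smul_eq_mul]
  rw [Finset.mul_sum, Finset.mul_sum]
  congr 1
  · refine Finset.sum_congr rfl fun i _ => ?_
    rw [Finset.mul_sum]
    refine Finset.sum_congr rfl fun j _ => ?_
    have h : br b (fun B => x (i, B)) (fun C => x (j, C)) A =
      br b (comp x i) (comp x j) A := rfl
    rw [h]
    ring
  · refine Finset.sum_congr rfl fun j _ => ?_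
    have h : (comp x j) A = x (j, A) := rfl
    rw [h]
    ring

/-- `[Σ_p V_p X_p V_p*, Σ_q V_q Y_q V_q*]` -/
theorem comm_sum_embM (X Y : ∀ p, Matrix (Fin (k p)) (Fin (k p)) ℂ) :
    (∑ p, D.embM p (X p)) * (∑ p, D.embM p (Y p)) = ∑ p, D.embM p (X p * Y p) := by
  classical
  rw [Finset.sum_mul]
  refine Finset.sum_congr rfl fun p _ => ?_
  rw [Finset.mul_sum, Finset.sum_eq_single p (fun q _ hq => D.embM_mul_ne (Ne.symm hq) _ _)
    (fun h => absurd (Finset.mem_univ p) h), embM_mul]

theorem cmE_sum {n : ℕ} (b : ColorBasis n) {κ : Type*} (s : Finset κ) (u : κ → Colg n) :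
    cm b (∑ x ∈ s, u x : Colg n) = ∑ x ∈ s, cm b (u x) := by
  classical
  induction s using Finset.induction_on with
  | empty =>
    rw [Finset.sum_empty, Finset.sum_empty]
    exact cmE_zero b
  | insert a s ha ih => rw [Finset.sum_insert ha, Finset.sum_insert ha, cmE_add, ih]

/-- brackets of block diagonal vectors -/
theorem br_block {r s : ι → ℝ} (hr : ∑ p, (k p : ℝ) * r p = 0) (hs : ∑ p, (k p : ℝ) * s p = 0)
    (u v : ∀ p, Colg (k p)) :
    br b (D.cenV b r + ∑ p, D.emb b bp p (u p) : Colg N)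
      (D.cenV b s + ∑ p, D.emb b bp p (v p) : Colg N) =
      (∑ p, D.emb b bp p (WithLp.toLp 2 (br (bp p) (u p) (v p))) : Colg N) := by
  apply cm_inj b
  rw [cm_br, cmE_add, cmE_add, cmE_sum, cmE_sum, cmE_sum, D.cm_cenV b hr, D.cm_cenV b hs]
  simp only [cm_emb]
  have h1 : ∀ p, cm (bp p) ((WithLp.toLp 2 (br (bp p) (u p) (v p)) : Colg (k p))) =
      -Complex.I • (cm (bp p) (u p) * cm (bp p) (v p) - cm (bp p) (v p) * cm (bp p) (u p)) :=
    fun p => cm_br (bp p) _ _
  simp only [h1, embM_smul, embM_sub]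
  rw [← Finset.smul_sum, Finset.sum_sub_distrib, ← D.comm_sum_embM, ← D.comm_sum_embM]
  congr 1
  have hc : ∀ (t : ι → ℝ) (w : ∀ p, Colg (k p)), D.cenM t * ∑ p, D.embM p (cm (bp p) (w p)) =
      (∑ p, D.embM p (cm (bp p) (w p))) * D.cenM t := by
    intro t w
    rw [Finset.mul_sum, Finset.sum_mul]
    exact Finset.sum_congr rfl fun p _ => by rw [cenM_mul_embM, embM_mul_cenM]
  have hcc : D.cenM r * D.cenM s = D.cenM s * D.cenM r := by
    rw [cenM_mul_cenM, cenM_mul_cenM]
    congr 1
    funext p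
    ring
  rw [Matrix.add_mul, Matrix.mul_add, Matrix.mul_add, Matrix.add_mul, Matrix.mul_add,
    Matrix.mul_add, hc r v, hc s u, hcc]
  abel

/-- a block diagonal configuration -/
def bcfg (R : Fin 9 → ι → ℝ) (y : ∀ p, Cfg (k p)) : Cfg N :=
  D.cenCfg b R + ∑ p, D.embCfg b bp p (y p)

theorem comp_sum {κ : Type*} (s : Finset κ) (x : κ → Cfg N) (i : Fin 9) :
    comp (∑ q ∈ s, x q) i = ∑ q ∈ s, comp (x q) i := by
  classical
  induction s using Finset.induction_on with
  | empty => rw [Finset.sum_empty, Finset.sum_empty]; rfl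
  | insert a s ha ih => rw [Finset.sum_insert ha, Finset.sum_insert ha, comp_add, ih]

theorem comp_bcfg (R : Fin 9 → ι → ℝ) (y : ∀ p, Cfg (k p)) (i : Fin 9) :
    comp (D.bcfg b bp R y) i = D.cenV b (R i) + ∑ p, D.emb b bp p (comp (y p) i) := by
  unfold bcfg
  rw [comp_add, comp_sum, comp_cenCfg]
  simp only [comp_embCfg]

/-- **The potential at a block diagonal configuration.** -/
theorem wv_block (G : GammaNine) (g m : ℝ) (α β : Fin 16) {R : Fin 9 → ι → ℝ}
    (hR : ∀ i, ∑ p, (k p : ℝ) * R i p = 0) (y : ∀ p, Cfg (k p)) :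
    wv b G g m α β (D.bcfg b bp R y) =
      (∑ p, D.emb b bp p (wv (bp p) G g m α β (y p))) -
        ∑ j, (m * (cc j * (Gam G * G.γ j) α β)) • D.cenV b (R j) := by
  rw [wv_eq]
  simp only [comp_bcfg]
  simp only [D.br_block b bp (hR _) (hR _), WithLp.toLp_ofLp]
  simp only [wv_eq (bp _), map_sub, map_sum, map_smul, Finset.sum_sub_distrib, smul_add,
    Finset.sum_add_distrib, Finset.smul_sum]
  have h1 : ∑ p : ι, ∑ i : Fin 9, ∑ j : Fin 9, (g * (1 / 2 * G.γ2 i j α β)) •
      D.emb b bp p (WithLp.toLp 2 (br (bp p) (comp (y p) i) (comp (y p) j))) =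
      ∑ i : Fin 9, ∑ j : Fin 9, ∑ p : ι, (g * (1 / 2 * G.γ2 i j α β)) •
      D.emb b bp p (WithLp.toLp 2 (br (bp p) (comp (y p) i) (comp (y p) j))) := by
    rw [Finset.sum_comm]
    refine Finset.sum_congr rfl fun i _ => ?_
    rw [Finset.sum_comm]
  have h2 : ∑ p : ι, ∑ j : Fin 9, (m * (cc j * (Gam G * G.γ j) α β)) •
      D.emb b bp p (comp (y p) j) =
      ∑ j : Fin 9, ∑ p : ι, (m * (cc j * (Gam G * G.γ j) α β)) •
      D.emb b bp p (comp (y p) j) := Finset.sum_comm
  rw [h1, h2]
  abel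

/-- **The light potential of 839 at a block diagonal configuration.** -/
theorem wA_block (G : GammaNine) (g m : ℝ) (α : Fin 16) {R : Fin 9 → ι → ℝ}
    (hR : ∀ i, ∑ p, (k p : ℝ) * R i p = 0) (y : ∀ p, Cfg (k p)) (f : F) :
    wA b M G g m α (D.bcfg b bp R y) f =
      (∑ p, ∑ a, ∑ β, ((wpot (bp p) G g m α β a (y p) : ℝ) : ℂ) • D.bθ b bp M p β a f) -
        ∑ j, ∑ β, ((m * (cc j * (Gam G * G.γ j) α β) : ℝ) : ℂ) • thv M β (D.cenV b (R j)) f := by
  have h1 : wA b M G g m α (D.bcfg b bp R y) =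
      ∑ β, thv M β (wv b G g m α β (D.bcfg b bp R y)) := vco_eq_thv M _
  rw [h1, LinearMap.sum_apply]
  have h2 : ∀ β, thv M β (wv b G g m α β (D.bcfg b bp R y)) f =
      (∑ p, ∑ a, ((wpot (bp p) G g m α β a (y p) : ℝ) : ℂ) • D.bθ b bp M p β a f) -
        ∑ j, ((m * (cc j * (Gam G * G.γ j) α β) : ℝ) : ℂ) • thv M β (D.cenV b (R j)) f := by
    intro β
    rw [D.wv_block b bp G g m α β hR y]
    have h3 : ∀ u v : Colg N, thv M β (u - v) f = thv M β u f - thv M β v f := by
      intro u v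
      have h4 : u - v = u + (-1 : ℝ) • v := by simp [sub_eq_add_neg]
      rw [h4, thv_add, thv_smul, LinearMap.add_apply, LinearMap.smul_apply]
      push_cast
      rw [neg_one_smul, sub_eq_add_neg]
    rw [h3, thv_sum, thv_sum, LinearMap.sum_apply, LinearMap.sum_apply]
    congr 1
    · refine Finset.sum_congr rfl fun p _ => ?_
      rw [thv_emb, LinearMap.sum_apply]
      rfl
    · refine Finset.sum_congr rfl fun j _ => ?_
      rw [thv_smul, LinearMap.smul_apply]
  simp only [h2, Finset.sum_sub_distrib]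
  congr 1
  · rw [Finset.sum_comm]
    refine Finset.sum_congr rfl fun p _ => ?_
    rw [Finset.sum_comm]
  · rw [Finset.sum_comm]

/-! ### 4. The kinetic part -/

theorem Theta_eq_thv (G : GammaNine) (α : Fin 16) (e : Cfg N) :
    Theta M G α e = ∑ i, ∑ β, ((G.γ i α β : ℝ) : ℂ) • thv M β (comp e i) := by
  rw [Theta_eq, vco_eq_thv, Finset.sum_comm]
  refine Finset.sum_congr rfl fun β _ => ?_
  have h : (WithLp.toLp 2 (fun A => ∑ i, G.γ i α β * e (i, A)) : Colg N) =
      ∑ i, G.γ i α β • comp e i := by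
    ext A
    simp [comp]
  rw [h, thv_sum]
  exact Finset.sum_congr rfl fun i _ => by rw [thv_smul]

theorem Theta_embCfg (G : GammaNine) (α : Fin 16) (p : ι) (i : Fin 9) (a : Fin (k p ^ 2 - 1)) :
    Theta M G α (D.embCfg b bp p (EuclideanSpace.single (i, a) 1)) =
      ∑ β, ((G.γ i α β : ℝ) : ℂ) • D.bθ b bp M p β a := by
  classical
  rw [Theta_eq_thv]
  have h : ∀ j, comp (D.embCfg b bp p (EuclideanSpace.single (i, a) 1)) j =
      if j = i then D.emb b bp p (EuclideanSpace.single a 1) else 0 := by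
    intro j
    rw [comp_embCfg]
    have h1 : comp (EuclideanSpace.single (i, a) (1 : ℝ) : Cfg (k p)) j =
        if j = i then EuclideanSpace.single a 1 else 0 := by
      by_cases hj : j = i
      · subst hj
        rw [if_pos rfl]
        ext c
        simp [comp, PiLp.single_apply]
      · rw [if_neg hj]
        ext c
        simp [comp, hj]
    rw [h1]
    by_cases hj : j = i
    · rw [if_pos hj, if_pos hj]
    · rw [if_neg hj, if_neg hj, map_zero]
  simp only [h]
  rw [Finset.sum_eq_single i]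
  · rw [if_pos rfl]
    rfl
  · intro j _ hj
    simp only [if_neg hj, thv_zero, smul_zero, Finset.sum_const_zero]
  · intro h
    exact absurd (Finset.mem_univ i) h

variable [Nonempty ι] (hk : ∀ p, 0 < k p)

/-- **The generators of the centre.** -/
def cθ (β : Fin 16) (s : Fin (Fintype.card ι - 1)) : F →ₗ[ℂ] F :=
  thv M β (D.cenE b hk (EuclideanSpace.single s 1))

theorem thv_cenE (β : Fin 16) (w : EuclideanSpace ℝ (Fin (Fintype.card ι - 1))) :
    thv M β (D.cenE b hk w) = ∑ s, ((w s : ℝ) : ℂ) • D.cθ b M hk β s := by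
  have h : w = ∑ a, w a • EuclideanSpace.single a (1 : ℝ) := by
    ext c
    simp [Finset.sum_apply, Pi.single_apply]
  conv_lhs => rw [h, map_sum, thv_sum]
  refine Finset.sum_congr rfl fun a _ => ?_
  rw [map_smul, thv_smul]
  rfl

theorem cθ_symm (β : Fin 16) (s : Fin (Fintype.card ι - 1)) :
    (D.cθ b M hk β s).IsSymmetric := thv_symm M β _

theorem cθ_anti (α β : Fin 16) (s t : Fin (Fintype.card ι - 1)) (f : F) :
    D.cθ b M hk α s (D.cθ b M hk β t f) + D.cθ b M hk β t (D.cθ b M hk α s f) =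
      (if α = β ∧ s = t then (1 : ℂ) else 0) • f := by
  unfold cθ
  rw [thv_anti, LinearIsometry.inner_map_map, EuclideanSpace.inner_single_left]
  congr 1
  by_cases h1 : α = β <;> by_cases h2 : s = t <;> simp [h1, h2, PiLp.single_apply]

theorem cθ_bθ_anti (α β : Fin 16) (s : Fin (Fintype.card ι - 1)) (p : ι)
    (a : Fin (k p ^ 2 - 1)) (f : F) :
    D.cθ b M hk α s (D.bθ b bp M p β a f) + D.bθ b bp M p β a (D.cθ b M hk α s f) = 0 := by
  unfold cθ bθ
  rw [thv_anti, D.inner_cenE_emb]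
  simp

theorem rho_cθ (R : GaugeAction b M) (p : ι) (h : specialUnitaryGroup (Fin (k p)) ℂ)
    (β : Fin 16) (s : Fin (Fintype.card ι - 1)) (f : F) :
    R.ρ (D.iota p h) (D.cθ b M hk β s f) = D.cθ b M hk β s (R.ρ (D.iota p h) f) := by
  unfold cθ
  rw [rho_thv, cenE_apply, D.adv_iota_cenV b (sum_pos hk _)]

theorem Theta_cenC (G : GammaNine) (α : Fin 16) (i : Fin 9) (s : Fin (Fintype.card ι - 1)) :
    Theta M G α (D.cenC b hk (EuclideanSpace.single (i, s) 1)) =
      ∑ β, ((G.γ i α β : ℝ) : ℂ) • D.cθ b M hk β s := by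
  classical
  rw [Theta_eq_thv]
  have h : ∀ j, comp (D.cenC b hk (EuclideanSpace.single (i, s) 1)) j =
      if j = i then D.cenE b hk (EuclideanSpace.single s 1) else 0 := by
    intro j
    rw [comp_cenC]
    have h1 : (WithLp.toLp 2 fun t => (EuclideanSpace.single (i, s) (1 : ℝ) :
        EuclideanSpace ℝ (Fin 9 × Fin (Fintype.card ι - 1))) (j, t) :
        EuclideanSpace ℝ (Fin (Fintype.card ι - 1))) =
        if j = i then EuclideanSpace.single s 1 else 0 := by
      by_cases hj : j = i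
      · subst hj
        rw [if_pos rfl]
        ext c
        simp [PiLp.single_apply]
      · rw [if_neg hj]
        ext c
        simp [hj]
    rw [h1]
    by_cases hj : j = i
    · rw [if_pos hj, if_pos hj]
    · rw [if_neg hj, if_neg hj, map_zero]
  simp only [h]
  rw [Finset.sum_eq_single i]
  · rw [if_pos rfl]
    rfl
  · intro j _ hj
    simp only [if_neg hj, thv_zero, smul_zero, Finset.sum_const_zero]
  · intro h
    exact absurd (Finset.mem_univ i) h

end Dec

end Crest.Agent.R330.Blk317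

end
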