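import Crest.Agent.R330.HvDef_442
import Crest.Agent.R330.Fact_161
import Crest.Agent.R330.Char_973

/-!
# Row 330 (helper735): neutrality of the heavy vacua under a group of light rotations

Abstract over 442's Clifford modules.

* `pcs_add`, `vacJ_add`, `light_add` : two orthogonal partial complex structures.
* `scalar_family` : a group of operators which preserves `vacJ J`, commutes with the light
  generators and has no characters acts trivially on `vacJ J`.
* `KE e A` : the complex structure `A` of `V₁` transported by the isometry `e : V₁ → V`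
  (`0` on the complement).
* `neutral` : for `w ∈ vacJ J` killed by the annihilators of the block `e(V₁)`, the rotations of the
  block act trivially.
-/

set_option autoImplicit false
set_option linter.unusedSectionVars false

open scoped InnerProductSpace

noncomputable section

namespace Crest.Agent.R330.BlkNeut735

open Crest.Agent.R330.Cliff442 Crest.Agent.R330.Cliff442.CRep

variable {V V₁ F : Type*} [NormedAddCommGroup V] [InnerProductSpace ℝ V]
  [NormedAddCommGroup V₁] [InnerProductSpace ℝ V₁]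
  [NormedAddCommGroup F] [InnerProductSpace ℂ F]

/-! ### Sums of orthogonal structures -/

section add

variable {J K : V →ₗ[ℝ] V} (hJ : PCS J) (hK : PCS K) (h1 : ∀ x, J (K x) = 0)
  (h2 : ∀ x, K (J x) = 0)
include hJ hK h1 h2

theorem pcs_add : PCS (J + K) := by
  refine ⟨fun x y => ?_, fun x => ?_⟩
  · rw [LinearMap.add_apply, LinearMap.add_apply, inner_add_left, inner_add_right, hJ.skew,
      hK.skew]
    ring
  · simp only [LinearMap.add_apply, map_add, h1, h2, add_zero, zero_add, hJ.cube, hK.cube]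
    abel

theorem mem_vacJ_add (M : CRep V F) {f : F} : f ∈ M.vacJ (J + K) ↔
    f ∈ M.vacJ J ∧ f ∈ M.vacJ K := by
  constructor
  · intro h
    rw [mem_vacJ] at h
    constructor
    · rw [mem_vacJ]
      intro x
      have h3 := h (-(J (J x)))
      simp only [LinearMap.add_apply, map_neg, h2, hJ.cube, neg_neg, add_zero] at h3
      exact h3
    · rw [mem_vacJ]
      intro x
      have h3 := h (-(K (K x)))
      simp only [LinearMap.add_apply, map_neg, h1, hK.cube, neg_neg, zero_add] at h3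
      exact h3
  · rintro ⟨hf, hg⟩
    rw [mem_vacJ] at hf hg ⊢
    intro x
    simp only [LinearMap.add_apply, map_add, h1, h2, add_zero, zero_add]
    rw [M.add, M.add, LinearMap.add_apply, LinearMap.add_apply, hf, hg, smul_add]

theorem light_add {x : V} (hx : (J + K) x = 0) : J x = 0 ∧ K x = 0 := by
  have h3 : J x = -K x := by
    rw [LinearMap.add_apply] at hx
    exact eq_neg_of_add_eq_zero_left hx
  have h4 : ⟪J x, J x⟫_ℝ = 0 := by
    have e1 : ⟪J x, J x⟫_ℝ = ⟪J x, -K x⟫_ℝ := congrArg (fun y => ⟪J x, y⟫_ℝ) h3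
    rw [e1, inner_neg_right, hJ.skew, h1, inner_zero_right, neg_zero, neg_zero]
  have h5 : J x = 0 := inner_self_eq_zero.1 h4
  refine ⟨h5, ?_⟩
  rw [h5] at h3
  exact neg_eq_zero.1 h3.symm

end add

/-! ### Groups without characters -/

section fam

variable [FiniteDimensional ℝ V] [FiniteDimensional ℂ F] {M : CRep V F} {H : Type*} [Group H]

/-- **A group of operators without characters acts trivially on an irreducible vacuum space.** -/
theorem scalar_family (hI : M.Irr) {J : V →ₗ[ℝ] V} (hJ : PCS J) (ρ : H →* (F →ₗ[ℂ] F))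
    (hchar : ∀ (χ : H →* ℂ) h, χ h = 1) (hm : ∀ h, ∀ f ∈ M.vacJ J, ρ h f ∈ M.vacJ J)
    (hc : ∀ h x, J x = 0 → ∀ f ∈ M.vacJ J, ρ h (M.θ x f) = M.θ x (ρ h f)) (h : H) {f : F}
    (hf : f ∈ M.vacJ J) : ρ h f = f := by
  have hs : ∀ h, ∃ c : ℂ, ∀ f ∈ M.vacJ J, ρ h f = c • f := fun h =>
    (hI.vacJ hJ).schur (ρ h) (hm h) (fun x hx f hf => hc h x (mem_light.1 hx) f hf)
  choose c hc' using hs
  by_cases h0 : f = 0
  · rw [h0, map_zero]
  have hn : (‖f‖ : ℝ) ^ 2 ≠ 0 := pow_ne_zero 2 (norm_ne_zero_iff.2 h0)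
  have inj : ∀ a a' : ℂ, a • f = a' • f → a = a' := fun a a' e =>
    smul_left_injective ℂ h0 e
  let χ : H →* ℂ :=
    { toFun := c
      map_one' := by
        refine inj _ _ ?_
        rw [← hc' 1 f hf, map_one, one_smul]
        rfl
      map_mul' := fun g g' => by
        refine inj _ _ ?_
        rw [← hc' (g * g') f hf, map_mul, mul_smul, Module.End.mul_apply, hc' g' f hf, map_smul,
          hc' g f hf, smul_comm] }
  have h1 : c h = 1 := hchar χ h
  rw [hc' h f hf, h1, one_smul]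

end fam

/-! ### The transported complex structure -/

section KE

variable [FiniteDimensional ℝ V] [FiniteDimensional ℝ V₁] (e : V₁ →ₗᵢ[ℝ] V)

/-- The adjoint of the embedding. -/
def ad (x : V) : V₁ := LinearMap.adjoint e.toLinearMap x

theorem inner_ad (x : V) (y : V₁) : ⟪ad e x, y⟫_ℝ = ⟪x, e y⟫_ℝ := by
  unfold ad
  rw [LinearMap.adjoint_inner_left]
  rfl

theorem ad_e (y : V₁) : ad e (e y) = y := by
  refine ext_inner_right ℝ fun z => ?_
  rw [inner_ad, e.inner_map_map]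

theorem ad_eq_zero {x : V} (h : ∀ y, ⟪x, e y⟫_ℝ = 0) : ad e x = 0 := by
  refine ext_inner_right ℝ fun z => ?_
  rw [inner_ad, h, inner_zero_left]

/-- The structure `A` of `V₁` transported by `e`. -/
def KE (A : V₁ →ₗ[ℝ] V₁) : V →ₗ[ℝ] V :=
  e.toLinearMap ∘ₗ A ∘ₗ LinearMap.adjoint e.toLinearMap

theorem KE_apply (A : V₁ →ₗ[ℝ] V₁) (x : V) : KE e A x = e (A (ad e x)) := rfl

theorem KE_e (A : V₁ →ₗ[ℝ] V₁) (y : V₁) : KE e A (e y) = e (A y) := by
  rw [KE_apply, ad_e]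

variable {A : V₁ →ₗ[ℝ] V₁} (hS : Skew A) (hA : ∀ x, A (A x) = -x)
include hS hA

theorem KE_pcs : PCS (KE e A) := by
  refine ⟨fun x y => ?_, fun x => ?_⟩
  · have h1 : ⟪KE e A x, y⟫_ℝ = ⟪A (ad e x), ad e y⟫_ℝ := by
      rw [KE_apply, real_inner_comm, ← inner_ad, real_inner_comm]
    have h2 : ⟪x, KE e A y⟫_ℝ = ⟪ad e x, A (ad e y)⟫_ℝ := by
      rw [KE_apply, inner_ad]
    rw [h1, h2, hS]
  · rw [KE_apply, KE_apply, ad_e, KE_apply, ad_e, hA, map_neg]

/-- The light directions of the transported structure are orthogonal to the block. -/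
theorem KE_light {x : V} (hx : KE e A x = 0) (y : V₁) : ⟪x, e y⟫_ℝ = 0 := by
  have h1 : A (ad e x) = 0 := by
    rw [KE_apply] at hx
    exact (map_eq_zero_iff e e.injective).1 hx
  have h2 : ad e x = 0 := by
    have := hA (ad e x)
    rw [h1, map_zero] at this
    exact neg_eq_zero.1 this.symm
  rw [← inner_ad, h2, inner_zero_left]

/-- The vacuum space of the transported structure. -/
theorem mem_vacJ_KE (M : CRep V F) {f : F} : f ∈ M.vacJ (KE e A) ↔
    ∀ y, M.θ (e y) f = Complex.I • M.θ (e (A y)) f := by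
  have key : ∀ y, (M.θ (e (A y)) f = Complex.I • M.θ (e (A (A y))) f ↔
      M.θ (e y) f = Complex.I • M.θ (e (A y)) f) := by
    intro y
    rw [hA, map_neg, M.neg, LinearMap.neg_apply]
    constructor
    · intro h
      rw [h, smul_neg, smul_neg, smul_smul, Complex.I_mul_I, neg_smul, one_smul, neg_neg]
    · intro h
      conv_rhs => rw [h]
      rw [smul_neg, smul_smul, Complex.I_mul_I, neg_smul, one_smul, neg_neg]
  rw [mem_vacJ]
  constructor
  · intro h y
    have h1 := h (e y)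
    rw [KE_e, KE_e] at h1
    exact (key y).1 h1
  · intro h x
    rw [KE_apply, KE_e]
    exact (key _).2 (h _)

end KE

/-! ### Neutrality -/

section neut

variable [FiniteDimensional ℝ V] [FiniteDimensional ℝ V₁] [FiniteDimensional ℂ F]
  {M : CRep V F} {H : Type*} [Group H]

/-- An equivariant operator preserves the vacuum space. -/
theorem map_vacJ {J : V →ₗ[ℝ] V} {U : F →ₗ[ℂ] F} {R R' : V → V}
    (hR : ∀ x, R (R' x) = x) (hU : ∀ x f, U (M.θ x f) = M.θ (R x) (U f))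
    (hJ : ∀ x, J (R x) = R (J x)) {f : F} (hf : f ∈ M.vacJ J) : U f ∈ M.vacJ J := by
  rw [mem_vacJ] at hf ⊢
  intro x
  have h1 : J x = R (J (R' x)) := by rw [← hJ, hR]
  have h2 : J (J x) = R (J (J (R' x))) := by rw [h1, hJ]
  rw [h2, h1, ← hU, ← hU, hf, map_smul]

variable (e : V₁ →ₗᵢ[ℝ] V) {A : V₁ →ₗ[ℝ] V₁} (hS : Skew A) (hA : ∀ x, A (A x) = -x)
include hS hA

/-- **Neutrality.** `H` acts on `F` by `ρ`, on `V` by `R`, on `V₁` by `R₁`; `J` is a partial complex
structure which vanishes on the block `e(V₁)` and commutes with `R`; the light directions of `J`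
orthogonal to the block are fixed by `R`. Then `ρ` is trivial on the vectors of `vacJ J` which are
killed by the annihilators of the block. -/
theorem neutral (hI : M.Irr) {J : V →ₗ[ℝ] V} (hJ : PCS J) (hJe : ∀ y, J (e y) = 0)
    (ρ : H →* (F →ₗ[ℂ] F)) (hchar : ∀ (χ : H →* ℂ) h, χ h = 1) (R : H → V → V)
    (R₁ : H → V₁ → V₁) (hR : ∀ h x, R h (R h⁻¹ x) = x) (hR₁ : ∀ h x, R₁ h (R₁ h⁻¹ x) = x)
    (hRe : ∀ h y, R h (e y) = e (R₁ h y)) (hRA : ∀ h y, A (R₁ h y) = R₁ h (A y))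
    (hU : ∀ h x f, ρ h (M.θ x f) = M.θ (R h x) (ρ h f)) (hJR : ∀ h x, J (R h x) = R h (J x))
    (hl : ∀ h x, J x = 0 → (∀ y, ⟪x, e y⟫_ℝ = 0) → R h x = x) (h : H) {f : F}
    (hf : f ∈ M.vacJ J) (hf' : ∀ y, M.θ (e y) f = Complex.I • M.θ (e (A y)) f) :
    ρ h f = f := by
  have hK := KE_pcs e hS hA
  have h1 : ∀ x, J (KE e A x) = 0 := fun x => by rw [KE_apply, hJe]
  have h2 : ∀ x, KE e A (J x) = 0 := fun x => by
    rw [KE_apply, ad_eq_zero e (fun y => by rw [hJ.skew, hJe, inner_zero_right, neg_zero]),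
      map_zero, map_zero]
  have hP := pcs_add hJ hK h1 h2
  have hmem : ∀ g : F, g ∈ M.vacJ (J + KE e A) ↔ g ∈ M.vacJ J ∧
      ∀ y, M.θ (e y) g = Complex.I • M.θ (e (A y)) g := fun g => by
    rw [mem_vacJ_add hJ hK h1 h2 M, mem_vacJ_KE e hS hA M]
  refine scalar_family hI hP ρ hchar (fun k g hg => ?_) (fun k x hx g _ => ?_) h
    ((hmem f).2 ⟨hf, hf'⟩)
  · obtain ⟨g1, g2⟩ := (hmem g).1 hg
    refine (hmem _).2 ⟨map_vacJ (R := R k) (R' := R k⁻¹) (hR k) (hU k) (hJR k) g1, fun y => ?_⟩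
    have e1 : e y = R k (e (R₁ k⁻¹ y)) := by rw [hRe, hR₁]
    have e2 : e (A y) = R k (e (A (R₁ k⁻¹ y))) := by rw [hRe, ← hRA, hR₁]
    rw [e1, e2, ← hU, ← hU, g2, map_smul]
  · obtain ⟨x1, x2⟩ := light_add hJ hK h1 h2 hx
    rw [hU, hl k x x1 (KE_light e hS hA x2)]

end neut

/-! ### The components -/

section comp

open Crest.Agent.R330.Fact161

variable [FiniteDimensional ℝ V] [FiniteDimensional ℂ F] {F₁ : Type*} [NormedAddCommGroup F₁]
  [InnerProductSpace ℂ F₁] [FiniteDimensional ℂ F₁] {ι : Type*} {M₁ : CRep V₁ F₁}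
  {u v : ι → V₁} {s : Finset ι} {Ω : F₁} (hp : Pol M₁ u v s Ω) (M : CRep V F) (e : V₁ →ₗᵢ[ℝ] V)

/-- A unitary operator which preserves `vacJ J` commutes with the projection. -/
theorem proj_comm_unitary {J : V →ₗ[ℝ] V} (hJ : PCS J) {U U' : F →ₗ[ℂ] F}
    (hUU : ∀ f g, ⟪U f, g⟫_ℂ = ⟪f, U' g⟫_ℂ) (hm : ∀ f ∈ M.vacJ J, U f ∈ M.vacJ J)
    (hm' : ∀ f ∈ M.vacJ J, U' f ∈ M.vacJ J) (f : F) : M.proj J (U f) = U (M.proj J f) := by
  have key : ∀ g, (∀ f ∈ M.vacJ J, ⟪f, g⟫_ℂ = 0) → M.proj J g = 0 := by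
    intro g hg
    have h1 : ⟪M.proj J g, M.proj J g⟫_ℂ = 0 := by
      rw [M.proj_symm hJ, M.proj_idem hJ, ← M.proj_symm hJ]
      exact hg _ (proj_mem hJ g)
    exact inner_self_eq_zero.1 h1
  have h2 : U f = U (M.proj J f) + U (f - M.proj J f) := by rw [← map_add]; simp
  have h3 : M.proj J (U (f - M.proj J f)) = 0 := by
    refine key _ fun g hg => ?_
    rw [← inner_conj_symm, hUU, inner_conj_symm]
    have h4 : ⟪U' g, f - M.proj J f⟫_ℂ = 0 := M.proj_orth hJ (hm' g hg) f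
    exact h4
  conv_lhs => rw [h2, map_add, h3, add_zero]
  exact M.proj_of_mem hJ (hm _ (proj_mem hJ f))

/-- **Components.** For `f ∈ vacJ J` the operator `U` of a block rotation acts on the components of
`f` with respect to the block through the operator `U₁` of the block. -/
theorem adj_Op_of_neutral {J : V →ₗ[ℝ] V} (hJ : PCS J) (hJe : ∀ y, J (e y) = 0)
    {U U' : F →ₗ[ℂ] F} {U₁ U₁' : F₁ →ₗ[ℂ] F₁} {O' : V₁ → V₁}
    (hUU : ∀ f g, ⟪U f, g⟫_ℂ = ⟪f, U' g⟫_ℂ) (hUU₁ : ∀ f g, ⟪U₁ f, g⟫_ℂ = ⟪f, U₁' g⟫_ℂ)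
    (hm : ∀ f ∈ M.vacJ J, U f ∈ M.vacJ J) (hm' : ∀ f ∈ M.vacJ J, U' f ∈ M.vacJ J)
    (hU' : ∀ x f, U' (M.θ (e x) f) = M.θ (e (O' x)) (U' f))
    (h1' : ∀ x f, U₁' (M₁.θ x f) = M₁.θ (O' x) (U₁' f)) (h0' : U₁' Ω = Ω)
    (hO' : Function.Surjective O') (hinj : Function.Injective U₁')
    (hneut : ∀ w ∈ M.vacJ J, w ∈ vacE M e u v s → U' w = w)
    (w : vacE M e u v s) {f : F} (hf : f ∈ M.vacJ J) :
    (Op hp M e w).adjoint (U f) = U₁ ((Op hp M e w).adjoint f) := by
  refine ext_inner_left ℂ fun g => ?_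
  have hPθ : ∀ x f, M.proj J (M.θ (e x) f) = M.θ (e x) (M.proj J f) := fun x f =>
    (M.proj_comm_th hJ.skew (hJe x) f).symm
  -- `w' = U' w`
  have hw' : U' (w : F) ∈ vacE M e u v s := lift_mem hp hp M M e e hO' hinj hU' h1' h0' w.2
  obtain ⟨hPw, hPw2⟩ := comm_Op hp M M (e := e) (e' := e) (U := M.proj J) hPθ w
  obtain ⟨hPw', hPw2'⟩ := comm_Op hp M M (e := e) (e' := e) (U := M.proj J) hPθ ⟨U' w, hw'⟩
  have e1 : M.proj J (U' (w : F)) = M.proj J (w : F) := by
    have c1 : ∀ f g, ⟪U' f, g⟫_ℂ = ⟪f, U g⟫_ℂ := fun f g => by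
      rw [← inner_conj_symm, ← hUU, inner_conj_symm]
    rw [proj_comm_unitary M hJ c1 hm' hm, hneut _ (proj_mem hJ _) hPw]
  have e2 : ∀ g' : F₁, M.proj J (U' (Op hp M e w g')) = M.proj J (Op hp M e w (U₁' g')) := by
    intro g'
    rw [lift_Op hp hp M M e e hU' h1' h0' w hw', hPw2', hPw2]
    congr 2
    exact Subtype.ext e1
  have swap : ∀ a b : F, b ∈ M.vacJ J → ⟪a, b⟫_ℂ = ⟪M.proj J a, b⟫_ℂ := fun a b hb => by
    rw [M.proj_symm hJ, M.proj_of_mem hJ hb]
  have hU'g : ∀ a b : F, ⟪a, U b⟫_ℂ = ⟪U' a, b⟫_ℂ := fun a b => by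
    rw [← inner_conj_symm, hUU, inner_conj_symm]
  have hU₁'g : ∀ a b : F₁, ⟪a, U₁ b⟫_ℂ = ⟪U₁' a, b⟫_ℂ := fun a b => by
    rw [← inner_conj_symm, hUU₁, inner_conj_symm]
  rw [LinearMap.adjoint_inner_right, hU'g, swap _ _ hf, e2, ← swap _ _ hf,
    ← LinearMap.adjoint_inner_right, hU₁'g]

end comp

end Crest.Agent.R330.BlkNeut735

end
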