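import Crest.Agent.R330.Fact2_161

/-!
# Row 330, S8-FACT (helper161), several blocks, part 2 (abstract)

* `pr_update_add`, `pr_update_smul` : the product is linear in every slot.
* `th_pr_gen` : **slot action for arbitrary (not nec. even) factors**: `θ (e q x)` acts on slot `q`
  and the slots in front of `q` get their parity.
* `anti_wop`, `anti_pr` : an operator which anticommutes with all `θ (e p x)` (total parity).
* `comm_pr` : an operator which commutes with all `θ (e p x)`.
* `eq_zero_of_pr`, `ext_pr`, `span_pr` : the products span.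
* `fderiv_pr` : Leibniz rule.
-/

set_option autoImplicit false
set_option linter.unusedSectionVars false

open scoped InnerProductSpace

noncomputable section

namespace Crest.Agent.R330.Fact161

open Crest.Agent.R330.Cliff442 Crest.Agent.R330.Cliff442.CRep

section one

variable {V V₁ F F₁ : Type*} [NormedAddCommGroup V] [InnerProductSpace ℝ V]
  [NormedAddCommGroup V₁] [InnerProductSpace ℝ V₁]
  [NormedAddCommGroup F] [InnerProductSpace ℂ F] [NormedAddCommGroup F₁] [InnerProductSpace ℂ F₁]
  {ι : Type*} [FiniteDimensional ℂ F]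
  {M₁ : CRep V₁ F₁} {u v : ι → V₁} {s : Finset ι} {Ω : F₁} (h : Pol M₁ u v s Ω)
  (M : CRep V F) (e : V₁ →ₗᵢ[ℝ] V)

include h

/-- Operators which anticommute with the block (total parity). -/
theorem anti_wop {U : F →ₗ[ℂ] F} (hU : ∀ x f, U (M.θ (e x) f) = -M.θ (e x) (U f)) (f : F₁)
    {w : F} (hw : w ∈ vacE M e u v s) :
    U w ∈ vacE M e u v s ∧ U (wop h M e f w) = wop h M e (par h f) (U w) := by
  refine wop_lift h h M M e e (O := fun x => -x) (U₁ := par h) (fun x => ⟨-x, neg_neg x⟩)
    (fun a b hab => ?_) (fun x f => ?_) (fun x f => ?_) (par_vac h) hw f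
  · have := congrArg (par h) hab
    rwa [par_par, par_par] at this
  · rw [hU, map_neg, M.neg]
    rfl
  · rw [par_th, M₁.neg]
    rfl

/-- Operators which commute with the block. -/
theorem comm_wop {U : F →ₗ[ℂ] F} (hU : ∀ x f, U (M.θ (e x) f) = M.θ (e x) (U f)) (f : F₁)
    {w : F} (hw : w ∈ vacE M e u v s) :
    U w ∈ vacE M e u v s ∧ U (wop h M e f w) = wop h M e f (U w) :=
  wop_lift h h M M e e (O := id) (U₁ := LinearMap.id) Function.surjective_id
    Function.injective_id hU (fun _ _ => rfl) rfl hw f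

variable [FiniteDimensional ℂ F₁]

/-- The adjoint of `wop f` has values in the vacuum space. -/
theorem adj_wop_mem (f : F₁) (g : F) : (wop h M e f).adjoint g ∈ vacE M e u v s := by
  have h1 : PE M e u v s ((wop h M e f).adjoint g) = (wop h M e f).adjoint g := by
    refine ext_inner_left ℂ fun w => ?_
    rw [← inner_PE, LinearMap.adjoint_inner_right, LinearMap.adjoint_inner_right, wop_PE]
  rw [← h1]
  exact PE_mem M e u v s _

theorem adj_wop_th {x : V} (hx : ∀ y, ⟪x, e y⟫_ℝ = 0) (f : F₁) (g : F) :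
    M.θ x ((wop h M e f).adjoint g) = (wop h M e (par h f)).adjoint (M.θ x g) := by
  refine ext_inner_left ℂ fun w => ?_
  rw [← M.symm, LinearMap.adjoint_inner_right, LinearMap.adjoint_inner_right,
    ← M.symm, th_perp_wop h M hx, par_par]

end one

theorem ne_of_mem' {κ : Type*} {l : List κ} {p q : κ} (hq : q ∉ l) (hp : p ∈ l) : p ≠ q := by
  rintro rfl
  exact hq hp

section fam

variable {V F : Type*} [NormedAddCommGroup V] [InnerProductSpace ℝ V]
  [NormedAddCommGroup F] [InnerProductSpace ℂ F] [FiniteDimensional ℂ F]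
  {κ : Type*} {Vf Ff ιf : κ → Type*}
  [∀ p, NormedAddCommGroup (Vf p)] [∀ p, InnerProductSpace ℝ (Vf p)]
  [∀ p, NormedAddCommGroup (Ff p)] [∀ p, InnerProductSpace ℂ (Ff p)]
  {M₁ : ∀ p, CRep (Vf p) (Ff p)} {u v : ∀ p, ιf p → Vf p} {s : ∀ p, Finset (ιf p)}
  {Ω : ∀ p, Ff p} (h : ∀ p, Pol (M₁ p) (u p) (v p) (s p) (Ω p)) (M : CRep V F)
  {e : ∀ p, Vf p →ₗᵢ[ℝ] V}

theorem pr_update_of_notMem [DecidableEq κ] {l : List κ} {q : κ} (hq : q ∉ l) (f : ∀ p, Ff p)
    (a : Ff q) (w : F) : pr h M e l (Function.update f q a) w = pr h M e l f w :=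
  pr_congr h M (fun _ hp => Function.update_of_ne (ne_of_mem' hq hp) _ _) w

theorem pr_update_add [DecidableEq κ] {l : List κ} (hl : l.Nodup) {q : κ} (hq : q ∈ l)
    (f : ∀ p, Ff p) (a b : Ff q) (w : F) : pr h M e l (Function.update f q (a + b)) w =
      pr h M e l (Function.update f q a) w + pr h M e l (Function.update f q b) w := by
  induction l with
  | nil => exact absurd hq List.not_mem_nil
  | cons p l ih =>
    obtain ⟨h1, h2⟩ := List.nodup_cons.1 hl
    by_cases hpq : p = q
    · subst hpq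
      rw [pr_cons, pr_cons, pr_cons, Function.update_self, Function.update_self,
        Function.update_self, pr_update_of_notMem h M h1, pr_update_of_notMem h M h1,
        pr_update_of_notMem h M h1, map_add, LinearMap.add_apply]
    · have hq' : q ∈ l := (List.mem_cons.1 hq).resolve_left fun e => hpq e.symm
      rw [pr_cons, pr_cons, pr_cons, ih h2 hq', Function.update_of_ne hpq,
        Function.update_of_ne hpq, Function.update_of_ne hpq, map_add]

theorem pr_update_smul [DecidableEq κ] {l : List κ} (hl : l.Nodup) {q : κ} (hq : q ∈ l)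
    (f : ∀ p, Ff p) (c : ℂ) (a : Ff q) (w : F) : pr h M e l (Function.update f q (c • a)) w =
      c • pr h M e l (Function.update f q a) w := by
  induction l with
  | nil => exact absurd hq List.not_mem_nil
  | cons p l ih =>
    obtain ⟨h1, h2⟩ := List.nodup_cons.1 hl
    by_cases hpq : p = q
    · subst hpq
      rw [pr_cons, pr_cons, Function.update_self, Function.update_self,
        pr_update_of_notMem h M h1, pr_update_of_notMem h M h1, map_smul, LinearMap.smul_apply]
    · have hq' : q ∈ l := (List.mem_cons.1 hq).resolve_left fun e => hpq e.symm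
      rw [pr_cons, pr_cons, ih h2 hq', Function.update_of_ne hpq, Function.update_of_ne hpq,
        map_smul]

theorem pr_append (l l' : List κ) (f : ∀ p, Ff p) (w : F) :
    pr h M e (l ++ l') f w = pr h M e l f (pr h M e l' f w) := by
  induction l with
  | nil => rfl
  | cons p l ih => rw [List.cons_append, pr_cons, pr_cons, ih]

/-- The factors in front of `q` with their parity, the factor `q` replaced by `a`. -/
def slot [DecidableEq κ] (l₁ : List κ) (q : κ) (f : ∀ p, Ff p) (a : Ff q) : ∀ p, Ff p :=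
  fun p => if hp : p = q then hp ▸ a else if p ∈ l₁ then par (h p) (f p) else f p

theorem slot_self [DecidableEq κ] (l₁ : List κ) (q : κ) (f : ∀ p, Ff p) (a : Ff q) :
    slot h l₁ q f a q = a := by
  unfold slot
  rw [dif_pos rfl]

theorem slot_mem [DecidableEq κ] {l₁ : List κ} {q p : κ} (hp : p ≠ q) (hm : p ∈ l₁)
    (f : ∀ p, Ff p) (a : Ff q) : slot h l₁ q f a p = par (h p) (f p) := by
  unfold slot
  rw [dif_neg hp, if_pos hm]

theorem slot_notMem [DecidableEq κ] {l₁ : List κ} {q p : κ} (hp : p ≠ q) (hm : p ∉ l₁)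
    (f : ∀ p, Ff p) (a : Ff q) : slot h l₁ q f a p = f p := by
  unfold slot
  rw [dif_neg hp, if_neg hm]

section orth

variable (ho : ∀ p q, p ≠ q → ∀ x y, ⟪e p x, e q y⟫_ℝ = 0)
include ho

/-- **Slot action for arbitrary factors.** -/
theorem th_pr_gen [DecidableEq κ] {l₁ l₂ : List κ} {q : κ} (hl : (l₁ ++ q :: l₂).Nodup)
    (x : Vf q) (f : ∀ p, Ff p) (w : F) :
    M.θ (e q x) (pr h M e (l₁ ++ q :: l₂) f w) =
      pr h M e (l₁ ++ q :: l₂) (slot h l₁ q f ((M₁ q).θ x (f q))) w := by
  have hnd := List.nodup_append.1 hl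
  have hq1 : q ∉ l₁ := fun hm => hnd.2.2 q hm q (List.mem_cons_self ..) rfl
  have hq2 : q ∉ l₂ := (List.nodup_cons.1 hnd.2.1).1
  rw [pr_append, pr_append, th_perp_pr h M ho (l := l₁) (fun p hp y =>
    ho q p (ne_of_mem' hq1 hp).symm x y), pr_cons, th_wop]
  have e1 : pr h M e (q :: l₂) (slot h l₁ q f ((M₁ q).θ x (f q))) w =
      wop (h q) M (e q) ((M₁ q).θ x (f q)) (pr h M e l₂ f w) := by
    rw [pr_cons, slot_self]
    congr 1
    refine pr_congr h M (fun p hp => slot_notMem h (ne_of_mem' hq2 hp) (fun hm => ?_) _ _) w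
    exact hnd.2.2 p hm p (List.mem_cons_of_mem _ hp) rfl
  rw [e1]
  refine pr_congr h M (fun p hp => ?_) _
  rw [slot_mem h (ne_of_mem' hq1 hp) hp]

/-- Operators which anticommute with all blocks. -/
theorem anti_pr {U : F →ₗ[ℂ] F} (hU : ∀ p x f, U (M.θ (e p x) f) = -M.θ (e p x) (U f))
    {l : List κ} (hl : l.Nodup) (f : ∀ p, Ff p) {w : F} (hw : w ∈ vacA M e u v s) :
    U (pr h M e l f w) = pr h M e l (fun p => par (h p) (f p)) (U w) := by
  induction l with
  | nil => rfl
  | cons p l ih =>
    obtain ⟨h1, h2⟩ := List.nodup_cons.1 hl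
    rw [pr_cons, pr_cons, ← ih h2]
    exact (anti_wop (h p) M (e p) (hU p) (f p) (mem_pr h M ho h1 f (mem_vacA.1 hw p))).2

/-- Operators which commute with all blocks. -/
theorem comm_pr {U : F →ₗ[ℂ] F} (hU : ∀ p x f, U (M.θ (e p x) f) = M.θ (e p x) (U f))
    {l : List κ} (hl : l.Nodup) (f : ∀ p, Ff p) {w : F} (hw : w ∈ vacA M e u v s) :
    U (pr h M e l f w) = pr h M e l f (U w) := by
  induction l with
  | nil => rfl
  | cons p l ih =>
    obtain ⟨h1, h2⟩ := List.nodup_cons.1 hl
    rw [pr_cons, pr_cons, ← ih h2]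
    exact (comm_wop (h p) M (e p) (hU p) (f p) (mem_pr h M ho h1 f (mem_vacA.1 hw p))).2

/-- **A vector orthogonal to all products vanishes.** -/
theorem eq_zero_of_pr [∀ p, FiniteDimensional ℂ (Ff p)] {l : List κ} (hl : l.Nodup) {g : F}
    (hg : ∀ q, q ∉ l → g ∈ vacE M (e q) (u q) (v q) (s q))
    (h0 : ∀ f, ∀ w ∈ vacA M e u v s, ⟪pr h M e l f w, g⟫_ℂ = 0) : g = 0 := by
  classical
  induction l generalizing g with
  | nil =>
    have h1 : g ∈ vacA M e u v s := mem_vacA.2 fun p => hg p List.not_mem_nil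
    exact inner_self_eq_zero.1 (h0 Ω g h1)
  | cons p l ih =>
    obtain ⟨h1, h2⟩ := List.nodup_cons.1 hl
    have key : ∀ a : Ff p, (wop (h p) M (e p) a).adjoint g = 0 := by
      intro a
      refine ih h2 (fun q hq => ?_) fun f w hw => ?_
      · by_cases hqp : q = p
        · subst hqp
          exact adj_wop_mem (h q) M (e q) a g
        · have hq' : g ∈ vacE M (e q) (u q) (v q) (s q) :=
            hg q fun hm => (List.mem_cons.1 hm).elim hqp hq
          rw [mem_vacE] at hq' ⊢
          intro k hk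
          rw [ann_apply, adj_wop_th (h p) M (e p) (fun y => ho q p hqp _ y),
            adj_wop_th (h p) M (e p) (fun y => ho q p hqp _ y), ← map_smul, ← map_add,
            ← ann_apply, hq' k hk, map_zero]
      · rw [LinearMap.adjoint_inner_right]
        have h3 := h0 (Function.update f p a) w hw
        rw [pr_cons, Function.update_self, pr_update_of_notMem h M h1] at h3
        exact h3
    refine eq_zero_of_inner (h p) M (e p) fun w f => ?_
    have h4 := key f
    have h5 : ⟪(w : F), (wop (h p) M (e p) f).adjoint g⟫_ℂ = 0 := by rw [h4, inner_zero_right]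
    rw [LinearMap.adjoint_inner_right, wop_of_mem (h p) M (e p) f w.2] at h5
    exact h5

/-- Two linear maps which agree on all products of a complete list are equal. -/
theorem span_pr [∀ p, FiniteDimensional ℂ (Ff p)] {l : List κ} (hl : l.Nodup)
    (hc : ∀ p, p ∈ l) :
    Submodule.span ℂ {g | ∃ f, ∃ w ∈ vacA M e u v s, g = pr h M e l f w} = ⊤ := by
  rw [← Submodule.orthogonal_eq_bot_iff, Submodule.eq_bot_iff]
  intro g hg
  refine eq_zero_of_pr h M ho hl (fun q hq => absurd (hc q) hq) fun f w hw => ?_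
  have hm : pr h M e l f w ∈ Submodule.span ℂ {g | ∃ f, ∃ w ∈ vacA M e u v s, g = pr h M e l f w} :=
    Submodule.subset_span ⟨f, w, hw, rfl⟩
  exact (Submodule.mem_orthogonal _ _).1 hg _ hm

theorem ext_pr [∀ p, FiniteDimensional ℂ (Ff p)] {l : List κ} (hl : l.Nodup)
    (hc : ∀ p, p ∈ l) {G : Type*} [AddCommGroup G] [Module ℂ G] {T T' : F →ₗ[ℂ] G}
    (hT : ∀ f, ∀ w ∈ vacA M e u v s, T (pr h M e l f w) = T' (pr h M e l f w)) : T = T' := by
  refine LinearMap.ext_on (span_pr h M ho hl hc) ?_
  rintro _ ⟨f, w, hw, rfl⟩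
  exact hT f w hw

end orth

/-- **Leibniz rule.** -/
theorem fderiv_pr [DecidableEq κ] {E : Type*} [NormedAddCommGroup E] [NormedSpace ℝ E]
    {l : List κ} (hl : l.Nodup) {f : E → ∀ p, Ff p} {w : E → F} {x : E}
    (hf : ∀ p ∈ l, DifferentiableAt ℝ (fun y => f y p) x) (hw : DifferentiableAt ℝ w x) :
    DifferentiableAt ℝ (fun y => pr h M e l (f y) (w y)) x ∧ ∀ y,
    fderiv ℝ (fun y => pr h M e l (f y) (w y)) x y = pr h M e l (f x) (fderiv ℝ w x y) +
      (l.map fun q => pr h M e l
        (Function.update (f x) q (fderiv ℝ (fun z => f z q) x y)) (w x)).sum := by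
  induction l with
  | nil => exact ⟨hw, fun y => by simp [pr_nil]⟩
  | cons p l ih =>
    obtain ⟨h1, h2⟩ := List.nodup_cons.1 hl
    obtain ⟨d1, d2⟩ := ih h2 fun q hq => hf q (List.mem_cons_of_mem _ hq)
    have d3 := hf p (List.mem_cons_self ..)
    refine ⟨?_, fun y => ?_⟩
    · exact ((bilin_wop (h p) M (e p)).differentiableAt (f x p, pr h M e l (f x) (w x))).comp x
        (d3.prodMk d1)
    · have e1 : fderiv ℝ (fun y => pr h M e (p :: l) (f y) (w y)) x y =
          wop (h p) M (e p) (f x p) (fderiv ℝ (fun y => pr h M e l (f y) (w y)) x y) +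
            wop (h p) M (e p) (fderiv ℝ (fun z => f z p) x y) (pr h M e l (f x) (w x)) :=
        fderiv_wop (h p) M (e p) d3 d1 y
      rw [e1, d2, map_add, List.map_cons, List.sum_cons, pr_cons, pr_cons, Function.update_self,
        pr_update_of_notMem h M h1, map_list_sum, List.map_map]
      have e2 : (l.map ((wop (h p) M (e p) (f x p)) ∘ fun q => pr h M e l
          (Function.update (f x) q (fderiv ℝ (fun z => f z q) x y)) (w x))) =
          l.map fun q => pr h M e (p :: l)
            (Function.update (f x) q (fderiv ℝ (fun z => f z q) x y)) (w x) := by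
        refine List.map_congr_left fun q hq => ?_
        have hpq : p ≠ q := fun e => h1 (e ▸ hq)
        rw [Function.comp_apply, pr_cons, Function.update_of_ne hpq]
      rw [e2]
      abel

end fam

end Crest.Agent.R330.Fact161

end
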