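import Crest.Agent.R330.SlG_944
import Crest.Agent.R330.Bind6_839

/-!
# Row 330, S8 (T1): building slice functions, core vectors from slice functions

* `adC b k : Colg N →ₗᵢ Colg N` : adjoint action on colour vectors; `comp_actg`, `act_actB`.
* `StabInv b c P` : `P` is invariant under the stabiliser of `c`; instances `Tan`, `Nor`, `Uk`, `Mm`,
  `Zs`; orthogonal projections commute with the stabiliser (`proj_act`).
* `cen_fixed` : vectors with colour components in the centre of `k` are fixed by the stabiliser.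
* `IsInv b c r a` : invariant scalar functions; algebra; norms of projections.
* `IsSliceFun.smul`, `.add`, `.sum` ...; `core_of_pieces`.
-/

set_option autoImplicit false
set_option linter.unusedSectionVars false

open MeasureTheory Filter Topology Crest.MathPhysics.MatrixQM
open Crest.Agent.R330.Frame839 Crest.Agent.R330.LS839 Crest.Agent.R330.Clus839
open Crest.Agent.R330.Bind6839
open Crest.Agent.R330.SlA314 Crest.Agent.R330.SlB314
open Crest.Agent.R330.SlF944 Crest.Agent.R330.SlG944
open scoped ContDiff InnerProductSpace ENNReal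

noncomputable section

namespace Crest.Agent.R330.TCore944

variable {N : ℕ} {F : Type*} [NormedAddCommGroup F] [InnerProductSpace ℂ F] [FiniteDimensional ℂ F]
variable {b : ColorBasis N} {M : FermionRep N F}

local notation "SU" => Matrix.specialUnitaryGroup (Fin N) ℂ

/-! ## adjoint action on colour vectors -/

/-- adjoint action on colour vectors -/
def adC (b : ColorBasis N) (k : Matrix.specialUnitaryGroup (Fin N) ℂ) : Colg N →ₗ[ℝ] Colg N where
  toFun u := WithLp.toLp 2 fun A => ∑ B, b.adjMat k A B * u B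
  map_add' u v := by
    ext A
    simp [mul_add, Finset.sum_add_distrib]
  map_smul' t v := by
    ext A
    simp only [PiLp.smul_apply, smul_eq_mul, RingHom.id_apply, Finset.mul_sum]
    exact Finset.sum_congr rfl fun B _ => by ring

theorem comp_actg (k : SU) (x : Cfg N) (i : Fin 9) : comp (b.act k x) i = adC b k (comp x i) := rfl

theorem cm_adC (k : SU) (u : Colg N) : cm b (adC b k u).ofLp =
    (k : Matrix (Fin N) (Fin N) ℂ) * cm b u.ofLp * star (k : Matrix (Fin N) (Fin N) ℂ) :=
  cm_adj b k u.ofLp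

/-- equivariance of the infinitesimal action -/
theorem act_actB (k : SU) (w : Colg N) (x : Cfg N) :
    b.act k (actB b w x) = actB b (adC b k w) (b.act k x) := by
  rw [actB_apply, actB_apply]
  apply mat_inj b
  intro i
  rw [mat_act, mat_brx, mat_brx, mat_act, cm_adC]
  have h1 := star_mul_self' k
  have e1 : (k : Matrix (Fin N) (Fin N) ℂ) * cm b w.ofLp * star (k : Matrix (Fin N) (Fin N) ℂ) *
      ((k : Matrix (Fin N) (Fin N) ℂ) * mat b x i * star (k : Matrix (Fin N) (Fin N) ℂ)) =
      (k : Matrix (Fin N) (Fin N) ℂ) * (cm b w.ofLp * mat b x i) *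
        star (k : Matrix (Fin N) (Fin N) ℂ) := by
    calc _ = (k : Matrix (Fin N) (Fin N) ℂ) * cm b w.ofLp *
          (star (k : Matrix (Fin N) (Fin N) ℂ) * (k : Matrix (Fin N) (Fin N) ℂ)) *
          (mat b x i * star (k : Matrix (Fin N) (Fin N) ℂ)) := by simp only [Matrix.mul_assoc]
      _ = _ := by rw [h1]; simp only [Matrix.mul_assoc, Matrix.mul_one]
  have e2 : (k : Matrix (Fin N) (Fin N) ℂ) * mat b x i * star (k : Matrix (Fin N) (Fin N) ℂ) *
      ((k : Matrix (Fin N) (Fin N) ℂ) * cm b w.ofLp * star (k : Matrix (Fin N) (Fin N) ℂ)) =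
      (k : Matrix (Fin N) (Fin N) ℂ) * (mat b x i * cm b w.ofLp) *
        star (k : Matrix (Fin N) (Fin N) ℂ) := by
    calc _ = (k : Matrix (Fin N) (Fin N) ℂ) * mat b x i *
          (star (k : Matrix (Fin N) (Fin N) ℂ) * (k : Matrix (Fin N) (Fin N) ℂ)) *
          (cm b w.ofLp * star (k : Matrix (Fin N) (Fin N) ℂ)) := by simp only [Matrix.mul_assoc]
      _ = _ := by rw [h1]; simp only [Matrix.mul_assoc, Matrix.mul_one]
  rw [e1, e2]
  simp only [mul_smul_comm, smul_mul_assoc, Matrix.mul_sub, Matrix.sub_mul]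

theorem adC_mul (k l : SU) (u : Colg N) : adC b (k * l) u = adC b k (adC b l u) := by
  have h : cm b (adC b (k * l) u).ofLp = cm b (adC b k (adC b l u)).ofLp := by
    rw [cm_adC, cm_adC, cm_adC]
    simp [Matrix.mul_assoc]
  have h2 := cm_inj b h
  exact WithLp.ofLp_injective 2 h2

theorem adC_one (u : Colg N) : adC b 1 u = u := by
  have h : cm b (adC b 1 u).ofLp = cm b u.ofLp := by
    rw [cm_adC]
    simp
  have h2 := cm_inj b h
  exact WithLp.ofLp_injective 2 h2

theorem adC_inner (k : SU) (u v : Colg N) : ⟪adC b k u, adC b k v⟫_ℝ = ⟪u, v⟫_ℝ := by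
  have h : ((⟪adC b k u, adC b k v⟫_ℝ : ℝ) : ℂ) = ((⟪u, v⟫_ℝ : ℝ) : ℂ) := by
    rw [inner_colg b, inner_colg b, cm_adC, cm_adC]
    have h1 := star_mul_self' k
    have e1 : (k : Matrix (Fin N) (Fin N) ℂ) * cm b u.ofLp *
        star (k : Matrix (Fin N) (Fin N) ℂ) *
        ((k : Matrix (Fin N) (Fin N) ℂ) * cm b v.ofLp * star (k : Matrix (Fin N) (Fin N) ℂ)) =
        (k : Matrix (Fin N) (Fin N) ℂ) * (cm b u.ofLp * cm b v.ofLp) *
          star (k : Matrix (Fin N) (Fin N) ℂ) := by
      calc _ = (k : Matrix (Fin N) (Fin N) ℂ) * cm b u.ofLp *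
            (star (k : Matrix (Fin N) (Fin N) ℂ) * (k : Matrix (Fin N) (Fin N) ℂ)) *
            (cm b v.ofLp * star (k : Matrix (Fin N) (Fin N) ℂ)) := by simp only [Matrix.mul_assoc]
        _ = _ := by rw [h1]; simp only [Matrix.mul_assoc, Matrix.mul_one]
    rw [e1, Matrix.trace_mul_comm, ← Matrix.mul_assoc, star_mul_self', Matrix.one_mul]
  exact_mod_cast h

/-! ## subspaces invariant under the stabiliser -/

/-- invariance under the stabiliser of `c` -/
def StabInv (b : ColorBasis N) (c : Cfg N) (P : Submodule ℝ (Cfg N)) : Prop :=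
  ∀ k : Matrix.specialUnitaryGroup (Fin N) ℂ, b.act k c = c → ∀ y ∈ P, b.act k y ∈ P

theorem act_inv_stab {c : Cfg N} {k : SU} (hk : b.act k c = c) : b.act k⁻¹ c = c := by
  conv_lhs => rw [← hk]
  rw [act_inv_act]

theorem StabInv.orth {c : Cfg N} {P : Submodule ℝ (Cfg N)} (h : StabInv b c P) :
    StabInv b c Pᗮ := by
  intro k hk y hy
  rw [Submodule.mem_orthogonal] at hy ⊢
  intro u hu
  have h1 := hy _ (h k⁻¹ (act_inv_stab hk) u hu)
  have h2 := act_inner b k (b.act k⁻¹ u) y
  rw [act_act_inv, h1] at h2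
  exact h2

theorem StabInv.inf {c : Cfg N} {P Q : Submodule ℝ (Cfg N)} (h : StabInv b c P)
    (h' : StabInv b c Q) : StabInv b c (P ⊓ Q) :=
  fun k hk y hy => ⟨h k hk y hy.1, h' k hk y hy.2⟩

/-- orthogonal projections onto invariant subspaces commute with the stabiliser -/
theorem proj_act {c : Cfg N} {P : Submodule ℝ (Cfg N)} (h : StabInv b c P) {k : SU}
    (hk : b.act k c = c) (x : Cfg N) :
    P.starProjection (b.act k x) = b.act k (P.starProjection x) := by
  apply Submodule.eq_starProjection_of_mem_of_inner_eq_zero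
  · exact h k hk _ (Submodule.starProjection_apply_mem _ _)
  · intro w hw
    rw [← act_sub]
    have h1 := Submodule.sub_starProjection_mem_orthogonal (K := P) x
    have h2 := h.orth k hk _ h1
    rw [real_inner_comm]
    exact (Submodule.mem_orthogonal _ _).1 h2 w hw

theorem stabInv_nor (c : Cfg N) : StabInv b c (Nor b c) := fun _ hk _ hy => act_mem_Nor b hy hk

theorem stabInv_tan (c : Cfg N) : StabInv b c (Tan b c) := by
  have h := (stabInv_nor (b := b) c).orth
  unfold Nor at h
  rwa [Submodule.orthogonal_orthogonal] at h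

/-- the stabiliser algebra is invariant -/
theorem adC_mem_kc {c : Cfg N} {k : SU} (hk : b.act k c = c) {w : Colg N}
    (hw : w ∈ kc (actB b) c) : adC b k w ∈ kc (actB b) c := by
  rw [mem_kc] at hw ⊢
  have h := act_actB (b := b) k w c
  rw [hw, hk] at h
  rw [← h]
  have h2 := act_smul b k (0 : ℝ) (0 : Cfg N)
  simpa using h2

theorem stabInv_uk (c : Cfg N) : StabInv b c (Uk b c) := by
  intro k hk y hy i
  rw [comp_actg]
  exact adC_mem_kc hk (hy i)

theorem stabInv_mm (c : Cfg N) : StabInv b c (Mm b c) := by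
  have h := (stabInv_uk (b := b) c).orth
  have h2 : (Uk b c)ᗮ = Mm b c := Tup_orth _
  rwa [h2] at h

theorem stabInv_zs (c : Cfg N) : StabInv b c (Zs b c) := by
  refine (stabInv_mm c).inf ?_
  rw [Nor_eq]
  exact stabInv_nor c

/-! ## the centre of `k` -/

/-- the centre of the stabiliser algebra -/
def cenk (b : ColorBasis N) (c : Cfg N) : Submodule ℝ (Colg N) where
  carrier := {w | w ∈ kc (actB b) c ∧
    ∀ v ∈ kc (actB b) c, cm b v.ofLp * cm b w.ofLp = cm b w.ofLp * cm b v.ofLp}
  add_mem' {u w} h h' := ⟨Submodule.add_mem _ h.1 h'.1, fun v hv => by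
    rw [WithLp.ofLp_add, cm_add, Matrix.mul_add, Matrix.add_mul, h.2 v hv, h'.2 v hv]⟩
  zero_mem' := ⟨Submodule.zero_mem _, fun v _ => by
    have : cm b (0 : Colg N).ofLp = 0 := by
      have := cm_smul b 0 (0 : Fin (N ^ 2 - 1) → ℝ)
      simpa using this
    rw [this, Matrix.mul_zero, Matrix.zero_mul]⟩
  smul_mem' t w h := ⟨Submodule.smul_mem _ _ h.1, fun v hv => by
    rw [WithLp.ofLp_smul, cm_smul, mul_smul_comm, smul_mul_assoc, h.2 v hv]⟩

theorem mem_kc_iff {c : Cfg N} {w : Colg N} :
    w ∈ kc (actB b) c ↔ ∀ i, cm b w.ofLp * mat b c i = mat b c i * cm b w.ofLp := by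
  rw [mem_kc, actB_apply]
  constructor
  · intro h i
    have h1 : mat b (brx b w.ofLp c) i = mat b 0 i := by rw [h]
    rw [mat_brx] at h1
    have h2 : mat b (0 : Cfg N) i = 0 := by
      have := mat_smul b 0 (0 : Cfg N) i
      simpa using this
    rw [h2, smul_eq_zero] at h1
    rcases h1 with h1 | h1
    · simp at h1
    · exact sub_eq_zero.1 h1
  · intro h
    apply mat_inj b
    intro i
    rw [mat_brx, h i, sub_self, smul_zero]
    have := mat_smul b 0 (0 : Cfg N) i
    simpa using this.symm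

/-- the centre of `k` is fixed by the stabiliser -/
theorem adC_cenk {c : Cfg N} {k : SU} (hk : b.act k c = c) {w : Colg N} (hw : w ∈ cenk b c) :
    adC b k w = w := by
  rcases Nat.eq_zero_or_pos N with h0 | hN
  · subst h0
    apply WithLp.ofLp_injective 2
    funext A
    exact absurd A.2 (by simp)
  have hkc : ∀ i, (k : Matrix (Fin N) (Fin N) ℂ) * mat b c i =
      mat b c i * (k : Matrix (Fin N) (Fin N) ℂ) := by
    intro i
    have h1 : mat b (b.act k c) i = mat b c i := by rw [hk]
    rw [mat_act] at h1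
    conv_rhs => rw [← h1]
    rw [Matrix.mul_assoc, star_mul_self', Matrix.mul_one]
  have hkc' : ∀ i, star (k : Matrix (Fin N) (Fin N) ℂ) * mat b c i =
      mat b c i * star (k : Matrix (Fin N) (Fin N) ℂ) := by
    intro i
    have := congrArg Matrix.conjTranspose (hkc i)
    rw [Matrix.conjTranspose_mul, Matrix.conjTranspose_mul, (mat_herm b c i).eq] at this
    exact this.symm
  -- every Hermitian matrix in the commutant commutes with `cm w`
  have key : ∀ H : Matrix (Fin N) (Fin N) ℂ, H.IsHermitian →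
      (∀ i, H * mat b c i = mat b c i * H) → H * cm b w.ofLp = cm b w.ofLp * H := by
    intro H hH hHc
    have hN' : (N : ℂ) ≠ 0 := by exact_mod_cast hN.ne'
    set τ : ℂ := H.trace / N with hτ
    have hτr : star τ = τ := by
      rw [hτ, star_div₀, ← Matrix.trace_conjTranspose, hH.eq]
      simp
    set H0 := H - τ • (1 : Matrix (Fin N) (Fin N) ℂ) with hH0
    have h1 : H0.IsHermitian := by
      unfold Matrix.IsHermitian
      rw [hH0, Matrix.conjTranspose_sub, hH.eq, Matrix.conjTranspose_smul,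
        Matrix.conjTranspose_one, hτr]
    have h2 : H0.trace = 0 := by
      rw [hH0, Matrix.trace_sub, Matrix.trace_smul τ (1 : Matrix (Fin N) (Fin N) ℂ),
        Matrix.trace_one, Fintype.card_fin, smul_eq_mul, hτ]
      field_simp
      ring
    set v : Colg N := WithLp.toLp 2 (fun A => (b.T A * H0).trace.re) with hv
    have h3 : cm b v.ofLp = H0 := exists_cm b H0 h1 h2
    have h4 : v ∈ kc (actB b) c := by
      rw [mem_kc_iff]
      intro i
      rw [h3, hH0, Matrix.sub_mul, Matrix.mul_sub, hHc i, smul_mul_assoc, mul_smul_comm,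
        Matrix.one_mul, Matrix.mul_one]
    have h5 := hw.2 v h4
    rw [h3, hH0, Matrix.sub_mul, Matrix.mul_sub, smul_mul_assoc, mul_smul_comm,
      Matrix.one_mul, Matrix.mul_one] at h5
    exact sub_left_injective h5
  have hkw : (k : Matrix (Fin N) (Fin N) ℂ) * cm b w.ofLp =
      cm b w.ofLp * (k : Matrix (Fin N) (Fin N) ℂ) := by
    set K : Matrix (Fin N) (Fin N) ℂ := (k : Matrix (Fin N) (Fin N) ℂ) with hK
    have h1 := key (K + star K) (by
      unfold Matrix.IsHermitian
      rw [Matrix.conjTranspose_add, Matrix.star_eq_conjTranspose,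
        Matrix.conjTranspose_conjTranspose, add_comm]) (fun i => by
      rw [Matrix.add_mul, Matrix.mul_add, hkc, hkc'])
    have h2 := key (Complex.I • (K - star K)) (by
      unfold Matrix.IsHermitian
      rw [Matrix.conjTranspose_smul, Matrix.conjTranspose_sub, Matrix.star_eq_conjTranspose,
        Matrix.conjTranspose_conjTranspose]
      have : star Complex.I = -Complex.I := by simp
      rw [this, neg_smul, ← smul_neg, neg_sub]) (fun i => by
      rw [smul_mul_assoc, mul_smul_comm, Matrix.sub_mul, Matrix.mul_sub, hkc, hkc'])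
    have h3 : (K - star K) * cm b w.ofLp = cm b w.ofLp * (K - star K) := by
      rw [smul_mul_assoc, mul_smul_comm] at h2
      exact smul_right_injective _ Complex.I_ne_zero h2
    have h4 : (2 : ℂ) • (K * cm b w.ofLp) = (2 : ℂ) • (cm b w.ofLp * K) := by
      have h5 : (2 : ℂ) • K = (K + star K) + (K - star K) := by
        rw [two_smul]; abel
      rw [← smul_mul_assoc, ← mul_smul_comm, h5, Matrix.add_mul, Matrix.mul_add, h1, h3]
    exact smul_right_injective _ (two_ne_zero) h4
  have h : cm b (adC b k w).ofLp = cm b w.ofLp := by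
    rw [cm_adC, hkw, Matrix.mul_assoc, mul_star_self', Matrix.mul_one]
  exact WithLp.ofLp_injective 2 (cm_inj b h)

/-- `R⁹ ⊗ centre(k)` is fixed pointwise by the stabiliser -/
theorem cen_fixed {c : Cfg N} {k : SU} (hk : b.act k c = c) {x : Cfg N}
    (hx : x ∈ Tup (cenk b c)) : b.act k x = x :=
  ext_comp fun i => by rw [comp_actg, adC_cenk hk (hx i)]

/-! ## invariant scalars -/

/-- invariant scalar functions on the slice ball -/
def IsInv (b : ColorBasis N) (c : Cfg N) (r : ℝ) (a : Cfg N → ℝ) : Prop :=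
  ∀ (k : Matrix.specialUnitaryGroup (Fin N) ℂ) (y : Cfg N), b.act k c = c → y ∈ Nor b c →
    ‖y‖ < r → a (b.act k y) = a y

theorem IsInv.mul {c : Cfg N} {r : ℝ} {a a' : Cfg N → ℝ} (h : IsInv b c r a)
    (h' : IsInv b c r a') : IsInv b c r (fun y => a y * a' y) :=
  fun k y hk hy hn => by simp only [h k y hk hy hn, h' k y hk hy hn]

theorem IsInv.add {c : Cfg N} {r : ℝ} {a a' : Cfg N → ℝ} (h : IsInv b c r a)
    (h' : IsInv b c r a') : IsInv b c r (fun y => a y + a' y) :=
  fun k y hk hy hn => by simp only [h k y hk hy hn, h' k y hk hy hn]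

theorem IsInv.comp {c : Cfg N} {r : ℝ} {a : Cfg N → ℝ} (h : IsInv b c r a) (f : ℝ → ℝ) :
    IsInv b c r (fun y => f (a y)) :=
  fun k y hk hy hn => by simp only [h k y hk hy hn]

theorem isInv_const (c : Cfg N) (r t : ℝ) : IsInv b c r (fun _ => t) := fun _ _ _ _ _ => rfl

/-- a function of the fixed part is invariant -/
theorem isInv_fixed {c : Cfg N} {r : ℝ} {P : Submodule ℝ (Cfg N)}
    (hP : P ≤ Tup (cenk b c)) (f : Cfg N → ℝ) : IsInv b c r (fun y => f (P.starProjection y)) := by
  intro k y hk _ _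
  have h1 : StabInv b c P := fun k hk y hy => by rwa [cen_fixed hk (hP hy)]
  simp only [proj_act h1 hk]
  rw [cen_fixed hk (hP (Submodule.starProjection_apply_mem _ _))]

theorem isInv_norm_proj {c : Cfg N} {r : ℝ} {P : Submodule ℝ (Cfg N)}
    (hP : StabInv b c P) : IsInv b c r (fun y => ‖P.starProjection y‖) := by
  intro k y hk _ _
  simp only [proj_act hP hk, act_norm]

/-- a quadratic form in an invariant part with invariant parameter -/
theorem isInv_two {c : Cfg N} {r : ℝ} {P Q : Submodule ℝ (Cfg N)}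
    (hP : StabInv b c P) (hQ : StabInv b c Q) (f : Cfg N → Cfg N → ℝ)
    (hf : ∀ k : Matrix.specialUnitaryGroup (Fin N) ℂ, b.act k c = c → ∀ y ∈ P, ∀ z ∈ Q,
      f (b.act k y) (b.act k z) = f y z) :
    IsInv b c r (fun y => f (P.starProjection y) (Q.starProjection y)) := by
  intro k y hk _ _
  simp only [proj_act hP hk, proj_act hQ hk]
  exact hf k hk _ (Submodule.starProjection_apply_mem _ _) _
    (Submodule.starProjection_apply_mem _ _)

/-! ## algebra of slice functions -/

variable {R : GaugeAction b M} {c : Cfg N} {r : ℝ}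

theorem sf_zero : IsSliceFun R c r (fun _ => (0 : F)) := fun k y _ _ _ => by rw [map_zero]

theorem sf_add {f f' : Cfg N → F} (h : IsSliceFun R c r f) (h' : IsSliceFun R c r f') :
    IsSliceFun R c r (fun y => f y + f' y) :=
  fun k y hk hy hn => by simp only [h k y hk hy hn, h' k y hk hy hn, map_add]

theorem sf_sub {f f' : Cfg N → F} (h : IsSliceFun R c r f) (h' : IsSliceFun R c r f') :
    IsSliceFun R c r (fun y => f y - f' y) :=
  fun k y hk hy hn => by simp only [h k y hk hy hn, h' k y hk hy hn, map_sub]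

theorem sf_csmul (t : ℂ) {f : Cfg N → F} (h : IsSliceFun R c r f) :
    IsSliceFun R c r (fun y => t • f y) :=
  fun k y hk hy hn => by simp only [h k y hk hy hn, map_smul]

theorem sf_smul {a : Cfg N → ℝ} {f : Cfg N → F} (ha : IsInv b c r a)
    (h : IsSliceFun R c r f) : IsSliceFun R c r (fun y => ((a y : ℝ) : ℂ) • f y) :=
  fun k y hk hy hn => by simp only [ha k y hk hy hn, h k y hk hy hn, map_smul]

theorem sf_smul' {a : Cfg N → ℝ} {f : Cfg N → F} (ha : IsInv b c r a)
    (h : IsSliceFun R c r f) : IsSliceFun R c r (fun y => a y • f y) := by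
  intro k y hk hy hn
  simp only
  rw [ha k y hk hy hn, h k y hk hy hn]
  exact ((R.ρ k).map_smul_of_tower (a y) (f y)).symm

theorem sf_sum {ι : Type*} (s : Finset ι) {f : ι → Cfg N → F}
    (h : ∀ i ∈ s, IsSliceFun R c r (f i)) : IsSliceFun R c r (fun y => ∑ i ∈ s, f i y) :=
  fun k y hk hy hn => by
    rw [map_sum]
    exact Finset.sum_congr rfl fun i hi => h i hi k y hk hy hn

/-- an equivariant function of the projections -/
theorem sf_two {P Q : Submodule ℝ (Cfg N)} (hP : StabInv b c P) (hQ : StabInv b c Q)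
    (w : Cfg N → Cfg N → F)
    (hw : ∀ k : Matrix.specialUnitaryGroup (Fin N) ℂ, b.act k c = c → ∀ y ∈ P, ∀ z ∈ Q,
      w (b.act k y) (b.act k z) = R.ρ k (w y z)) :
    IsSliceFun R c r (fun y => w (P.starProjection y) (Q.starProjection y)) := by
  intro k y hk _ _
  simp only [proj_act hP hk, proj_act hQ hk]
  exact hw k hk _ (Submodule.starProjection_apply_mem _ _) _
    (Submodule.starProjection_apply_mem _ _)

/-! ## algebra of the extension -/

theorem ext_add' (hg : Good b c r) {f f' : Cfg N → F} (h : IsSliceFun R c r f)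
    (h' : IsSliceFun R c r f') :
    ext R c r (fun y => f y + f' y) = fun x => ext R c r f x + ext R c r f' x := by
  funext x
  by_cases hx : x ∈ SlD314.tube b c r
  · obtain ⟨g, y, hy, hn, rfl⟩ := (SlD314.mem_tube_iff b c r x).1 hx
    rw [ext_apply R hg h g hy hn, ext_apply R hg h' g hy hn, ext_apply R hg (sf_add h h') g hy hn,
      map_add]
  · rw [ext_off R _ hx, ext_off R _ hx, ext_off R _ hx, add_zero]

theorem ext_csmul (hg : Good b c r) (t : ℂ) {f : Cfg N → F} (h : IsSliceFun R c r f) :
    ext R c r (fun y => t • f y) = fun x => t • ext R c r f x := by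
  funext x
  by_cases hx : x ∈ SlD314.tube b c r
  · obtain ⟨g, y, hy, hn, rfl⟩ := (SlD314.mem_tube_iff b c r x).1 hx
    rw [ext_apply R hg h g hy hn, ext_apply R hg (sf_csmul t h) g hy hn, map_smul]
  · rw [ext_off R _ hx, ext_off R _ hx, smul_zero]

/-- multiplication by (the restriction of) a gauge invariant function -/
theorem ext_mul (hg : Good b c r) {J : Cfg N → ℝ} (hJ : ∀ g x, J (b.act g x) = J x)
    {f : Cfg N → F} (h : IsSliceFun R c r f) :
    ext R c r (fun y => ((J (c + y) : ℝ) : ℂ) • f y) = fun x => ((J x : ℝ) : ℂ) • ext R c r f x := by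
  have hJi : IsInv b c r (fun y => J (c + y)) := by
    intro k y hk _ _
    have h1 := hJ k (c + y)
    rw [act_add, hk] at h1
    exact h1
  funext x
  by_cases hx : x ∈ SlD314.tube b c r
  · obtain ⟨g, y, hy, hn, rfl⟩ := (SlD314.mem_tube_iff b c r x).1 hx
    rw [ext_apply R hg h g hy hn, ext_apply R hg (sf_smul hJi h) g hy hn, map_smul, hJ]
  · rw [ext_off R _ hx, ext_off R _ hx, smul_zero]

/-- the pairing of an equivariant function with an extension is a gauge invariant function,
given on the slice by the pairing of the slice functions -/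
theorem inner_ext (hg : Good b c r) {f : Cfg N → F} (h : IsSliceFun R c r f) {φ : Cfg N → F}
    (hφ : ∀ g x, φ (b.act g x) = R.ρ g (φ x)) (g : Matrix.specialUnitaryGroup (Fin N) ℂ)
    {y : Cfg N} (hy : y ∈ Nor b c) (hn : ‖y‖ < r) :
    ⟪φ (b.act g (c + y)), ext R c r f (b.act g (c + y))⟫_ℂ = ⟪φ (c + y), f y⟫_ℂ := by
  rw [ext_apply R hg h g hy hn, hφ, R.unitary]

theorem inner_ext_inv (hg : Good b c r) {f : Cfg N → F} (h : IsSliceFun R c r f) {φ : Cfg N → F}
    (hφ : ∀ g x, φ (b.act g x) = R.ρ g (φ x)) (g : Matrix.specialUnitaryGroup (Fin N) ℂ)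
    (x : Cfg N) :
    ⟪φ (b.act g x), ext R c r f (b.act g x)⟫_ℂ = ⟪φ x, ext R c r f x⟫_ℂ := by
  rw [ext_equivariant R hg h, hφ, R.unitary]

/-! ## core vectors from pieces -/

/-- **(T1)** scalar factor times an equivariant function -/
theorem core_of_pieces [Nontrivial F] (hg : Good b c r) {r' : ℝ} (hrr : r' < r)
    {a : Cfg N → ℝ} {w : Cfg N → F} (ha : IsInv b c r a) (hw : IsSliceFun R c r w)
    (has : ∀ y ∈ Nor b c, ‖y‖ < r → ContDiffAt ℝ ∞ a y)
    (hws : ∀ y ∈ Nor b c, ‖y‖ < r → ContDiffAt ℝ ∞ w y)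
    (h0 : ∀ y ∈ Nor b c, r' < ‖y‖ → ‖y‖ < r → a y = 0 ∨ w y = 0) :
    IsCoreVec b R (ext R c r (fun y => ((a y : ℝ) : ℂ) • w y)) := by
  refine ext_core' R hg (sf_smul ha hw) (fun y hy hn => ?_) hrr (fun y hy h1 h2 => ?_)
  · exact (Complex.ofRealCLM.contDiff.contDiffAt.comp y (has y hy hn)).smul (hws y hy hn)
  · rcases h0 y hy h1 h2 with h | h
    · simp [h]
    · simp [h]

end Crest.Agent.R330.TCore944

end
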