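import Crest.Agent.R330.FactI_161
import Crest.Agent.R330.Fact3_161
import Crest.Agent.R330.TCore_944
import Crest.Agent.R330.Blk2_317

/-!
# Row 330, S8-FACT (helper161): the literal factorisation, part 2

* `rho_thv`, `rho_cr`, `rho_gvac` : gauge covariance of the generators and of the reference vacuum.
* `rho_wop` : gauge covariance of the factorisation operators.
* `mult` : 494's `Mult` structure of a block.
* `prG` : the product over a family of blocks `ε p : Colg (k p) →ₗᵢ Colg N`; `inner_prG`,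
  `thv_prG`, `thv_prG_gen`, `thv_perp_prG`, `rho_prG`, `rho_prG_id`, `span_prG`, ...
* `rho_iota_prG` : 317's block embeddings.
-/

set_option autoImplicit false
set_option linter.unusedSectionVars false

open MeasureTheory Crest.MathPhysics.MatrixQM
open scoped BigOperators InnerProductSpace

noncomputable section

namespace Crest.Agent.R330.FactI161

open Crest.Agent.R330.Cliff442 Crest.Agent.R330.Cliff442.CRep Crest.Agent.R330.Fact161
open Crest.Agent.R330.LS839 Crest.Agent.R330.Bind6839 Crest.Agent.R330.Defs478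
open Crest.Agent.R330.SInd478 Crest.Agent.R330.Om0331 Crest.Agent.R330.TCore944

/-! ### Gauge covariance -/

section gauge

variable {N k : ℕ} {F F₁ : Type*} [NormedAddCommGroup F] [InnerProductSpace ℂ F]
  [FiniteDimensional ℂ F] [NormedAddCommGroup F₁] [InnerProductSpace ℂ F₁]
  [FiniteDimensional ℂ F₁] {b : ColorBasis N} {M : FermionRep N F} (R : GaugeAction b M)

theorem rho_theta (g : Matrix.specialUnitaryGroup (Fin N) ℂ) (α : Fin 16) (A : Fin (N ^ 2 - 1))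
    (f : F) : R.ρ g (M.θ α A f) = ∑ B, ((b.adjMat g B A : ℝ) : ℂ) • M.θ α B (R.ρ g f) := by
  have h := LinearMap.congr_fun (R.intertwine g α A) f
  simp only [LinearMap.comp_apply, LinearMap.sum_apply, LinearMap.smul_apply] at h
  exact h

/-- **Gauge covariance of `θ_β(u)`.** -/
theorem rho_thv (g : Matrix.specialUnitaryGroup (Fin N) ℂ) (β : Fin 16) (u : Colg N) (f : F) :
    R.ρ g (thv M β u f) = thv M β (adC b g u) (R.ρ g f) := by
  unfold thv
  simp only [LinearMap.sum_apply, LinearMap.smul_apply, map_sum, map_smul, rho_theta,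
    Finset.smul_sum, smul_smul]
  rw [Finset.sum_comm]
  refine Finset.sum_congr rfl fun B _ => ?_
  rw [← Finset.sum_smul]
  congr 1
  change _ = ((∑ A, b.adjMat g B A * u A : ℝ) : ℂ)
  push_cast
  exact Finset.sum_congr rfl fun A _ => mul_comm _ _

theorem rho_cr (g : Matrix.specialUnitaryGroup (Fin N) ℂ) (x : W16 N) (f : F) :
    R.ρ g ((cr M).θ x f) = (cr M).θ (teL (adC b g) x) (R.ρ g f) := by
  rw [cr_eq_sum, cr_eq_sum, map_sum]
  refine Finset.sum_congr rfl fun β _ => ?_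
  rw [rho_thv, row_teL]

/-- **The reference vacuum is gauge invariant.** -/
theorem rho_gvac {G : GammaNine} {Ω : F} (hΩ : IsGVac M G Ω)
    (g : Matrix.specialUnitaryGroup (Fin N) ℂ) : R.ρ g Ω = Ω := by
  refine rho_fix_neg_Gam R G (fun p => ?_) g
  change M.θ p.1 p.2 Ω = _
  rw [hΩ p.1 p.2, Fintype.sum_prod_type, neg_smul, ← smul_neg, ← Finset.sum_neg_distrib]
  congr 1
  refine Finset.sum_congr rfl fun β _ => ?_
  rw [Finset.sum_eq_single p.2]
  · simp only [Matrix.neg_apply, tens, if_true, Complex.ofReal_neg, neg_smul, neg_neg]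
  · intro B _ hB
    simp [tens, hB]
  · intro h
    exact absurd (Finset.mem_univ _) h

theorem rho_mul_apply (g h : Matrix.specialUnitaryGroup (Fin N) ℂ) (f : F) :
    R.ρ (g * h) f = R.ρ g (R.ρ h f) := by
  rw [map_mul]
  rfl

theorem rho_inv_apply (g : Matrix.specialUnitaryGroup (Fin N) ℂ) (f : F) :
    R.ρ g⁻¹ (R.ρ g f) = f := by
  rw [← rho_mul_apply, inv_mul_cancel, map_one]
  rfl

theorem rho_apply_inv (g : Matrix.specialUnitaryGroup (Fin N) ℂ) (f : F) :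
    R.ρ g (R.ρ g⁻¹ f) = f := by
  rw [← rho_mul_apply, mul_inv_cancel, map_one]
  rfl

theorem rho_injective (g : Matrix.specialUnitaryGroup (Fin N) ℂ) :
    Function.Injective (R.ρ g) := fun x y h => by
  rw [← rho_inv_apply R g x, h, rho_inv_apply]

theorem adC_surjective (b : ColorBasis N) (g : Matrix.specialUnitaryGroup (Fin N) ℂ) :
    Function.Surjective (adC b g) := fun u =>
  ⟨adC b g⁻¹ u, by rw [← adC_mul, mul_inv_cancel, adC_one]⟩

theorem teL_surjective {k' : ℕ} {τ : Colg k →ₗ[ℝ] Colg k'} (hτ : Function.Surjective τ) :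
    Function.Surjective (teL τ) := by
  intro y
  choose c hc using fun β => hτ (row β y)
  refine ⟨∑ β, ins β (c β), ext_row fun β => ?_⟩
  rw [row_teL, map_sum]
  simp only [row_ins]
  rw [Finset.sum_ite_eq, if_pos (Finset.mem_univ _), hc]

/-- A linear map `U` on `F` which maps `θ(ε c)` to `θ(ε' (τ c))`, on spinor-colour vectors. -/
theorem cr_te_of_thv {k' : ℕ} {N' : ℕ} {F' : Type*} [NormedAddCommGroup F']
    [InnerProductSpace ℂ F'] {M' : FermionRep N' F'} {ε : Colg k →ₗᵢ[ℝ] Colg N}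
    {ε' : Colg k' →ₗᵢ[ℝ] Colg N'} {τ : Colg k →ₗ[ℝ] Colg k'} {U : F →ₗ[ℂ] F'}
    (hU : ∀ β c f, U (thv M β (ε c) f) = thv M' β (ε' (τ c)) (U f)) (x : W16 k) (f : F) :
    U ((cr M).θ (te ε x) f) = (cr M').θ (te ε' (teL τ x)) (U f) := by
  rw [cr_te, cr_te, map_sum]
  refine Finset.sum_congr rfl fun β _ => ?_
  rw [hU, row_teL]

theorem cr_of_thv {k' : ℕ} {F' : Type*} [NormedAddCommGroup F']
    [InnerProductSpace ℂ F'] {M₁ : FermionRep k F₁} {M' : FermionRep k' F'}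
    {τ : Colg k →ₗ[ℝ] Colg k'} {U : F₁ →ₗ[ℂ] F'}
    (hU : ∀ β c f, U (thv M₁ β c f) = thv M' β (τ c) (U f)) (x : W16 k) (f : F₁) :
    U ((cr M₁).θ x f) = (cr M').θ (teL τ x) (U f) := by
  rw [cr_eq_sum, cr_eq_sum, map_sum]
  refine Finset.sum_congr rfl fun β _ => ?_
  rw [hU, row_teL]

variable {G : GammaNine} {b₁ : ColorBasis k} {M₁ : FermionRep k F₁} (R₁ : GaugeAction b₁ M₁)
  {Ω : F₁} (hΩ : IsGVac M₁ G Ω) (h1 : ‖Ω‖ = 1) {ε ε' : Colg k →ₗᵢ[ℝ] Colg N}

/-- **Gauge covariance of the factorisation operators.** -/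
theorem rho_wop {g : Matrix.specialUnitaryGroup (Fin N) ℂ}
    {h : Matrix.specialUnitaryGroup (Fin k) ℂ}
    (hg : ∀ u, adC b g (ε u) = ε' (adC b₁ h u)) (f : F₁) {w : F} (hw : w ∈ vacB M G ε) :
    R.ρ g w ∈ vacB M G ε' ∧ R.ρ g (wop (polG hΩ h1) (cr M) (te ε) f w) =
      wop (polG hΩ h1) (cr M) (te ε') (R₁.ρ h f) (R.ρ g w) :=
  wop_lift (polG hΩ h1) (polG hΩ h1) (cr M) (cr M) (te ε) (te ε') (O := teL (adC b₁ h))
    (teL_surjective (adC_surjective b₁ h)) (rho_injective R₁ h)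
    (cr_te_of_thv (fun β c f => by rw [rho_thv, hg]))
    (cr_of_thv (fun β c f => rho_thv R₁ h β c f)) (rho_gvac R₁ hΩ h) hw f

end gauge

/-! ### 494's structure -/

section mult

variable {N k : ℕ} {F F₁ : Type*} [NormedAddCommGroup F] [InnerProductSpace ℂ F]
  [FiniteDimensional ℂ F] [NormedAddCommGroup F₁] [InnerProductSpace ℂ F₁]
  [FiniteDimensional ℂ F₁] (M : FermionRep N F) {G : GammaNine} {M₁ : FermionRep k F₁} {Ω : F₁}
  (hΩ : IsGVac M₁ G Ω) (h1 : ‖Ω‖ = 1) (ε : Colg k →ₗᵢ[ℝ] Colg N)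

/-- The generators of a block. -/
def bth (M : FermionRep N F) (ε : Colg k →ₗᵢ[ℝ] Colg N) (β : Fin 16) (a : Fin (k ^ 2 - 1)) :
    F →ₗ[ℂ] F := thv M β (ε (EuclideanSpace.single a 1))

theorem cr_te_single (p : Fin 16 × Fin (k ^ 2 - 1)) :
    (cr M).θ (te ε (EuclideanSpace.single p 1)) = bth M ε p.1 p.2 := by
  have h : (EuclideanSpace.single p (1 : ℝ) : W16 k) = ins p.1 (EuclideanSpace.single p.2 1) := by
    ext q
    rw [ins_apply]
    by_cases h1 : q.1 = p.1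
    · rw [if_pos h1]
      by_cases h2 : q.2 = p.2
      · have : q = p := Prod.ext h1 h2
        subst this
        simp
      · have : q ≠ p := fun e => h2 (by rw [e])
        simp [this, h2]
    · rw [if_neg h1]
      have : q ≠ p := fun e => h1 (by rw [e])
      simp [this]
  rw [h, cr_te_ins]
  rfl

theorem bth_wop (β : Fin 16) (a : Fin (k ^ 2 - 1)) (f : F₁) (w : F) :
    bth M ε β a (wop (polG hΩ h1) (cr M) (te ε) f w) =
      wop (polG hΩ h1) (cr M) (te ε) (M₁.θ β a f) w := by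
  have h := th_wop (polG hΩ h1) (cr M) (te ε) (EuclideanSpace.single (β, a) 1) f w
  rw [cr_te_single, cr_single] at h
  exact h

theorem thv_wop (β : Fin 16) (c : Colg k) (f : F₁) (w : F) :
    thv M β (ε c) (wop (polG hΩ h1) (cr M) (te ε) f w) =
      wop (polG hΩ h1) (cr M) (te ε) (thv M₁ β c f) w := by
  have h := th_wop (polG hΩ h1) (cr M) (te ε) (ins β c) f w
  rw [cr_te_ins, cr_ins] at h
  exact h

variable {κ : Type*} [Fintype κ] [DecidableEq κ]

/-- **494's multiplicity structure of a block**, from an orthonormal basis of its vacuum space. -/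
def mult (W : OrthonormalBasis κ ℂ (vacB M G ε)) : Prod494.Mult M₁ (bth M ε) κ where
  J i := Op (polG hΩ h1) (cr M) (te ε) (W i)
  inner_J i j u v := by
    rw [inner_Op]
    have h2 : ⟪((W i : vacB M G ε) : F), W j⟫_ℂ = if i = j then 1 else 0 :=
      orthonormal_iff_ite.1 W.orthonormal i j
    rw [h2]
    split_ifs <;> simp
  span v := ⟨fun i => (Op (polG hΩ h1) (cr M) (te ε) (W i)).adjoint v,
    sum_J_apply (polG hΩ h1) (cr M) (te ε) W v⟩
  inter i β a u := by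
    have h := th_Op (polG hΩ h1) (cr M) (te ε) (W i) (EuclideanSpace.single (β, a) 1) u
    rw [cr_te_single, cr_single] at h
    exact h

theorem mult_J (W : OrthonormalBasis κ ℂ (vacB M G ε)) (i : κ) (f : F₁) :
    (mult M hΩ h1 ε W).J i f = wop (polG hΩ h1) (cr M) (te ε) f (W i) :=
  (wop_of_mem (polG hΩ h1) (cr M) (te ε) f (W i).2).symm

end mult

/-! ### Families of blocks -/

section fam

variable {N : ℕ} {F : Type*} [NormedAddCommGroup F] [InnerProductSpace ℂ F]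
  [FiniteDimensional ℂ F] {κ : Type*} {k : κ → ℕ} {Ff : κ → Type*}
  [∀ p, NormedAddCommGroup (Ff p)] [∀ p, InnerProductSpace ℂ (Ff p)]
  [∀ p, FiniteDimensional ℂ (Ff p)] (M : FermionRep N F) {G : GammaNine}
  {Mp : ∀ p, FermionRep (k p) (Ff p)} {Ωp : ∀ p, Ff p} (hΩ : ∀ p, IsGVac (Mp p) G (Ωp p))
  (h1 : ∀ p, ‖Ωp p‖ = 1) (ε : ∀ p, Colg (k p) →ₗᵢ[ℝ] Colg N)

/-- The product over the list `l` of the block factors `f p`, applied to `w`. -/
def prG (l : List κ) (f : ∀ p, Ff p) (w : F) : F :=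
  pr (fun p => polG (hΩ p) (h1 p)) (cr M) (fun p => te (ε p)) l f w

/-- The common vacuum space of the blocks. -/
def vacAll (M : FermionRep N F) (G : GammaNine) (ε : ∀ p, Colg (k p) →ₗᵢ[ℝ] Colg N) :
    Submodule ℂ F :=
  vacA (cr M) (fun p => te (ε p)) (fun p => gu G (k p)) (fun p => gv G (k p)) fun p => gs G (k p)

theorem mem_vacAll {w : F} : w ∈ vacAll M G ε ↔ ∀ p (β : Fin 16) (c : Colg (k p)),
    thv M β (ε p c) w = Complex.I • ∑ β', ((Gam G β' β : ℝ) : ℂ) • thv M β' (ε p c) w := by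
  unfold vacAll
  rw [mem_vacA]
  exact forall_congr' fun p => mem_vacB_iff M G (ε p)

theorem gvac_mem_vacAll {Ω : F} (hΩ' : IsGVac M G Ω) : Ω ∈ vacAll M G ε :=
  mem_vacA.2 fun p => gvac_mem_vacB M G (ε p) hΩ'

theorem prG_nil (f : ∀ p, Ff p) (w : F) : prG M hΩ h1 ε [] f w = w := rfl

theorem prG_cons (p : κ) (l : List κ) (f : ∀ p, Ff p) (w : F) : prG M hΩ h1 ε (p :: l) f w =
    wop (polG (hΩ p) (h1 p)) (cr M) (te (ε p)) (f p) (prG M hΩ h1 ε l f w) := rfl

theorem prG_congr {l : List κ} {f g : ∀ p, Ff p} (hfg : ∀ p ∈ l, f p = g p) (w : F) :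
    prG M hΩ h1 ε l f w = prG M hΩ h1 ε l g w := pr_congr _ _ hfg w

theorem prG_add (l : List κ) (f : ∀ p, Ff p) (w w' : F) :
    prG M hΩ h1 ε l f (w + w') = prG M hΩ h1 ε l f w + prG M hΩ h1 ε l f w' := pr_add _ _ l f w w'

theorem prG_smul (l : List κ) (f : ∀ p, Ff p) (c : ℂ) (w : F) :
    prG M hΩ h1 ε l f (c • w) = c • prG M hΩ h1 ε l f w := pr_smul _ _ l f c w

theorem prG_zero (l : List κ) (f : ∀ p, Ff p) : prG M hΩ h1 ε l f 0 = 0 := by
  have := prG_smul M hΩ h1 ε l f 0 0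
  simpa using this

theorem prG_update_add [DecidableEq κ] {l : List κ} (hl : l.Nodup) {q : κ} (hq : q ∈ l)
    (f : ∀ p, Ff p) (a a' : Ff q) (w : F) :
    prG M hΩ h1 ε l (Function.update f q (a + a')) w =
      prG M hΩ h1 ε l (Function.update f q a) w + prG M hΩ h1 ε l (Function.update f q a') w :=
  pr_update_add _ _ hl hq f a a' w

theorem prG_update_smul [DecidableEq κ] {l : List κ} (hl : l.Nodup) {q : κ} (hq : q ∈ l)
    (f : ∀ p, Ff p) (c : ℂ) (a : Ff q) (w : F) :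
    prG M hΩ h1 ε l (Function.update f q (c • a)) w =
      c • prG M hΩ h1 ε l (Function.update f q a) w := pr_update_smul _ _ hl hq f c a w

theorem prG_vac (l : List κ) {w : F} (hw : w ∈ vacAll M G ε) : prG M hΩ h1 ε l Ωp w = w :=
  pr_vac _ _ l hw

theorem norm_prG_le (l : List κ) (f : ∀ p, Ff p) (w : F) :
    ‖prG M hΩ h1 ε l f w‖ ≤ (l.map fun p => ‖f p‖).prod * ‖w‖ := norm_pr_le _ _ l f w

theorem contDiff_prG {E : Type*} [NormedAddCommGroup E] [NormedSpace ℝ E] {n : WithTop ℕ∞}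
    (l : List κ) {f : E → ∀ p, Ff p} {w : E → F} (hf : ∀ p, ContDiff ℝ n fun x => f x p)
    (hw : ContDiff ℝ n w) : ContDiff ℝ n fun x => prG M hΩ h1 ε l (f x) (w x) :=
  contDiff_pr _ _ l hf hw

theorem fderiv_prG [DecidableEq κ] {E : Type*} [NormedAddCommGroup E] [NormedSpace ℝ E]
    {l : List κ} (hl : l.Nodup) {f : E → ∀ p, Ff p} {w : E → F} {x : E}
    (hf : ∀ p ∈ l, DifferentiableAt ℝ (fun y => f y p) x) (hw : DifferentiableAt ℝ w x) :
    DifferentiableAt ℝ (fun y => prG M hΩ h1 ε l (f y) (w y)) x ∧ ∀ y,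
    fderiv ℝ (fun y => prG M hΩ h1 ε l (f y) (w y)) x y =
      prG M hΩ h1 ε l (f x) (fderiv ℝ w x y) +
      (l.map fun q => prG M hΩ h1 ε l
        (Function.update (f x) q (fderiv ℝ (fun z => f z q) x y)) (w x)).sum :=
  fderiv_pr _ _ hl hf hw

/-- Orthogonality of the blocks on spinor-colour vectors. -/
theorem fam_orth {ε : ∀ p, Colg (k p) →ₗᵢ[ℝ] Colg N}
    (ho : ∀ p q, p ≠ q → ∀ u v, ⟪ε p u, ε q v⟫_ℝ = 0) :
    ∀ p q, p ≠ q → ∀ x y, ⟪te (ε p) x, te (ε q) y⟫_ℝ = 0 :=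
  fun p q hpq => te_orth (ho p q hpq)

section orth

variable (ho : ∀ p q, p ≠ q → ∀ u v, ⟪ε p u, ε q v⟫_ℝ = 0)
include ho

theorem inner_prG {l : List κ} (hl : l.Nodup) (f g : ∀ p, Ff p) {w w' : F}
    (hw : w ∈ vacAll M G ε) : ⟪prG M hΩ h1 ε l f w, prG M hΩ h1 ε l g w'⟫_ℂ =
      (l.map fun p => ⟪f p, g p⟫_ℂ).prod * ⟪w, w'⟫_ℂ := inner_pr _ _ (fam_orth ho) hl f g hw

theorem norm_prG {l : List κ} (hl : l.Nodup) (f : ∀ p, Ff p) {w : F} (hw : w ∈ vacAll M G ε) :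
    ‖prG M hΩ h1 ε l f w‖ = (l.map fun p => ‖f p‖).prod * ‖w‖ := norm_pr _ _ (fam_orth ho) hl f hw

theorem prG_perm {l l' : List κ} (hp : l.Perm l') (hl : l.Nodup) {f : ∀ p, Ff p}
    (hf : ∀ p, par (polG (hΩ p) (h1 p)) (f p) = f p) {w : F} (hw : w ∈ vacAll M G ε) :
    prG M hΩ h1 ε l f w = prG M hΩ h1 ε l' f w := pr_perm _ _ (fam_orth ho) hp hl hf hw

/-- Colour vectors orthogonal to all blocks. -/
theorem thv_perp_prG {l : List κ} {u : Colg N} (hu : ∀ p ∈ l, ∀ c, ⟪u, ε p c⟫_ℝ = 0)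
    (β : Fin 16) (f : ∀ p, Ff p) (w : F) : thv M β u (prG M hΩ h1 ε l f w) =
      prG M hΩ h1 ε l (fun p => par (polG (hΩ p) (h1 p)) (f p)) (thv M β u w) := by
  have h := th_perp_pr (fun p => polG (hΩ p) (h1 p)) (cr M) (e := fun p => te (ε p)) (fam_orth ho)
    (l := l) (y := ins β u) (fun p hp x => ins_orth (hu p hp) β x) f w
  rw [cr_ins] at h
  exact h

theorem thv_perp_prG_even {l : List κ} {u : Colg N} (hu : ∀ p ∈ l, ∀ c, ⟪u, ε p c⟫_ℝ = 0)
    (β : Fin 16) {f : ∀ p, Ff p} (hf : ∀ p ∈ l, par (polG (hΩ p) (h1 p)) (f p) = f p) (w : F) :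
    thv M β u (prG M hΩ h1 ε l f w) = prG M hΩ h1 ε l f (thv M β u w) := by
  rw [thv_perp_prG M hΩ h1 ε ho hu]
  exact prG_congr M hΩ h1 ε hf _

/-- **Slot action**, the other factors even. -/
theorem thv_prG [DecidableEq κ] {l : List κ} (hl : l.Nodup) {q : κ} (hq : q ∈ l) (β : Fin 16)
    (c : Colg (k q)) {f : ∀ p, Ff p}
    (hf : ∀ p ∈ l, p ≠ q → par (polG (hΩ p) (h1 p)) (f p) = f p) (w : F) :
    thv M β (ε q c) (prG M hΩ h1 ε l f w) =
      prG M hΩ h1 ε l (Function.update f q (thv (Mp q) β c (f q))) w := by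
  have h := th_pr (fun p => polG (hΩ p) (h1 p)) (cr M) (e := fun p => te (ε p)) (fam_orth ho)
    hl hq (ins β c) hf w
  rw [cr_te_ins, cr_ins] at h
  exact h

/-- **Slot action**, arbitrary factors. -/
theorem thv_prG_gen [DecidableEq κ] {l₁ l₂ : List κ} {q : κ} (hl : (l₁ ++ q :: l₂).Nodup)
    (β : Fin 16) (c : Colg (k q)) (f : ∀ p, Ff p) (w : F) :
    thv M β (ε q c) (prG M hΩ h1 ε (l₁ ++ q :: l₂) f w) = prG M hΩ h1 ε (l₁ ++ q :: l₂)
      (slot (fun p => polG (hΩ p) (h1 p)) l₁ q f (thv (Mp q) β c (f q))) w := by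
  have h := th_pr_gen (fun p => polG (hΩ p) (h1 p)) (cr M) (e := fun p => te (ε p)) (fam_orth ho)
    hl (ins β c) f w
  rw [cr_te_ins, cr_ins] at h
  exact h

/-- Total parity. -/
theorem parity_prG {P : F →ₗ[ℂ] F} (hP : ∀ β A f, P (M.θ β A f) = -M.θ β A (P f)) {l : List κ}
    (hl : l.Nodup) (f : ∀ p, Ff p) {w : F} (hw : w ∈ vacAll M G ε) :
    P (prG M hΩ h1 ε l f w) =
      prG M hΩ h1 ε l (fun p => par (polG (hΩ p) (h1 p)) (f p)) (P w) := by
  refine anti_pr (fun p => polG (hΩ p) (h1 p)) (cr M) (fam_orth ho) (fun p x f => ?_) hl f hw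
  rw [cr_apply, cr_apply, map_sum, ← Finset.sum_neg_distrib]
  refine Finset.sum_congr rfl fun q _ => ?_
  rw [map_smul, hP, smul_neg]

/-- Operators which commute with the blocks. -/
theorem comm_prG {U : F →ₗ[ℂ] F} (hU : ∀ p β c f, U (thv M β (ε p c) f) = thv M β (ε p c) (U f))
    {l : List κ} (hl : l.Nodup) (f : ∀ p, Ff p) {w : F} (hw : w ∈ vacAll M G ε) :
    U (prG M hΩ h1 ε l f w) = prG M hΩ h1 ε l f (U w) := by
  refine comm_pr (fun p => polG (hΩ p) (h1 p)) (cr M) (fam_orth ho) (fun p x f => ?_) hl f hw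
  rw [cr_te, cr_te, map_sum]
  exact Finset.sum_congr rfl fun β _ => hU p β _ f

/-- **The products span.** -/
theorem span_prG {l : List κ} (hl : l.Nodup) (hc : ∀ p, p ∈ l) :
    Submodule.span ℂ {g | ∃ f, ∃ w ∈ vacAll M G ε, g = prG M hΩ h1 ε l f w} = ⊤ :=
  span_pr (fun p => polG (hΩ p) (h1 p)) (cr M) (fam_orth ho) hl hc

theorem ext_prG {l : List κ} (hl : l.Nodup) (hc : ∀ p, p ∈ l) {G' : Type*} [AddCommGroup G']
    [Module ℂ G'] {T T' : F →ₗ[ℂ] G'}
    (hT : ∀ f, ∀ w ∈ vacAll M G ε, T (prG M hΩ h1 ε l f w) = T' (prG M hΩ h1 ε l f w)) : T = T' :=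
  ext_pr (fun p => polG (hΩ p) (h1 p)) (cr M) (fam_orth ho) hl hc hT

variable {b : ColorBasis N} {M} (R : GaugeAction b M)

/-- **Gauge covariance of products**, general form (block permutations allowed). -/
theorem rho_prG {g : Matrix.specialUnitaryGroup (Fin N) ℂ} {σ : κ → κ}
    {τ : ∀ p, Colg (k p) →ₗ[ℝ] Colg (k (σ p))} {Up : ∀ p, Ff p →ₗ[ℂ] Ff (σ p)}
    (hτ : ∀ p, Function.Surjective (τ p)) (hi : ∀ p, Function.Injective (Up p))
    (hg : ∀ p c, adC b g (ε p c) = ε (σ p) (τ p c))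
    (hU : ∀ p β c f, Up p (thv (Mp p) β c f) = thv (Mp (σ p)) β (τ p c) (Up p f))
    (h0 : ∀ p, Up p (Ωp p) = Ωp (σ p)) {l : List κ} (hl : l.Nodup) {f f' : ∀ p, Ff p}
    (hf : ∀ p ∈ l, f' (σ p) = Up p (f p)) {w : F} (hw : w ∈ vacAll M G ε) :
    R.ρ g (prG M hΩ h1 ε l f w) = prG M hΩ h1 ε (l.map σ) f' (R.ρ g w) :=
  pr_lift (fun p => polG (hΩ p) (h1 p)) (cr M) (e := fun p => te (ε p)) (U := R.ρ g) (σ := σ)
    (O := fun p => teL (τ p)) (Up := Up) (fam_orth ho) (fun p => teL_surjective (hτ p)) hi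
    (fun p => cr_te_of_thv (fun β c f => by rw [rho_thv, hg]))
    (fun p => cr_of_thv (hU p)) h0 hl hf hw

variable {bp : ∀ p, ColorBasis (k p)} (Rp : ∀ p, GaugeAction (bp p) (Mp p))

/-- **Gauge covariance of products**, elements which preserve every block. -/
theorem rho_prG_id {g : Matrix.specialUnitaryGroup (Fin N) ℂ}
    {h : ∀ p, Matrix.specialUnitaryGroup (Fin (k p)) ℂ}
    (hg : ∀ p c, adC b g (ε p c) = ε p (adC (bp p) (h p) c)) {l : List κ} (hl : l.Nodup)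
    (f : ∀ p, Ff p) {w : F} (hw : w ∈ vacAll M G ε) :
    R.ρ g (prG M hΩ h1 ε l f w) = prG M hΩ h1 ε l (fun p => (Rp p).ρ (h p) (f p)) (R.ρ g w) := by
  have h2 := rho_prG hΩ h1 ε ho R (g := g) (σ := id) (τ := fun p => adC (bp p) (h p))
    (Up := fun p => (Rp p).ρ (h p)) (fun p => adC_surjective (bp p) (h p))
    (fun p => rho_injective (Rp p) (h p)) hg (fun p β c f => rho_thv (Rp p) (h p) β c f)
    (fun p => rho_gvac (Rp p) (hΩ p) (h p)) hl (f := f)
    (f' := fun p => (Rp p).ρ (h p) (f p)) (fun p _ => rfl) hw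
  rw [List.map_id] at h2
  exact h2

end orth

/-! ### 317's block embeddings -/

section dec

open Crest.Agent.R330.Blk317

variable {ι : Type*} [Fintype ι] [DecidableEq ι] {kk : ι → ℕ} (D : Dec N kk) (b : ColorBasis N)
  (bp : ∀ p, ColorBasis (kk p))

theorem adC_emb (p : ι) (h : Matrix.specialUnitaryGroup (Fin (kk p)) ℂ) (u : Colg (kk p)) :
    adC b (D.iota p h) (D.emb b bp p u) = D.emb b bp p (adC (bp p) h u) := by
  ext A
  exact D.adj_emb b bp p h u A

theorem adC_emb_ne {p q : ι} (hpq : p ≠ q) (h : Matrix.specialUnitaryGroup (Fin (kk p)) ℂ)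
    (u : Colg (kk q)) : adC b (D.iota p h) (D.emb b bp q u) = D.emb b bp q u := by
  ext A
  exact D.adj_emb_ne b bp hpq h u A

theorem emb_orth : ∀ p q, p ≠ q → ∀ u v, ⟪D.emb b bp p u, D.emb b bp q v⟫_ℝ = 0 :=
  fun _ _ hpq u v => D.inner_emb_ne b bp hpq u v

variable {Gf : ι → Type*} [∀ p, NormedAddCommGroup (Gf p)] [∀ p, InnerProductSpace ℂ (Gf p)]
  [∀ p, FiniteDimensional ℂ (Gf p)] {Mq : ∀ p, FermionRep (kk p) (Gf p)} {Ωq : ∀ p, Gf p}
  (hΩq : ∀ p, IsGVac (Mq p) G (Ωq p)) (h1q : ∀ p, ‖Ωq p‖ = 1) {b bp M} (R : GaugeAction b M)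
  (Rq : ∀ p, GaugeAction (bp p) (Mq p))

/-- **Gauge covariance under the block group of one block.** -/
theorem rho_iota_prG (q : ι) (h : Matrix.specialUnitaryGroup (Fin (kk q)) ℂ) {l : List ι}
    (hl : l.Nodup) (f : ∀ p, Gf p) {w : F}
    (hw : w ∈ vacAll M G fun p => D.emb b bp p) :
    R.ρ (D.iota q h) (prG M hΩq h1q (fun p => D.emb b bp p) l f w) =
      prG M hΩq h1q (fun p => D.emb b bp p) l (Function.update f q ((Rq q).ρ h (f q)))
        (R.ρ (D.iota q h) w) := by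
  have h2 := rho_prG_id hΩq h1q (fun p => D.emb b bp p) (emb_orth D b bp) R Rq
    (g := D.iota q h) (h := fun p => if hp : p = q then hp ▸ h else 1) (fun p c => ?_) hl f hw
  · rw [h2]
    refine prG_congr M hΩq h1q _ (fun p _ => ?_) _
    by_cases hp : p = q
    · subst hp
      rw [dif_pos rfl, Function.update_self]
    · rw [dif_neg hp, Function.update_of_ne hp, map_one]
      rfl
  · by_cases hp : p = q
    · subst hp
      rw [dif_pos rfl, adC_emb]
    · rw [dif_neg hp, adC_one, adC_emb_ne D b bp (Ne.symm hp)]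

end dec

end fam

end Crest.Agent.R330.FactI161

end
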