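import Crest.Agent.R330.Prod2_494
import Crest.Agent.R330.Decoup_924

/-!
# Row 330 (helper494): charges of different blocks have no cross terms

* `cross_zero` : two first order operators `op e a w`, `op v β p` (924) with constant skew
  coefficients, symmetric potentials, everything anticommuting, each potential constant along the
  directions of the other: `∫⟪A f, B h⟫ + ∫⟪B f, A h⟫ = 0`.
* `norm_sq_sum_of_cross` : then `∫ |∑ A_p f|² = ∑ ∫ |A_p f|²`.
* `pcharge_eq_op` : the block charges are such operators; `Blk` perpendicular blocks,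
  `pcharge_cross`, `pcharge_cross_op`.
-/

set_option autoImplicit false
set_option linter.unusedSectionVars false

open MeasureTheory Filter Topology Crest.MathPhysics.MatrixQM
open scoped ContDiff InnerProductSpace ENNReal

noncomputable section

namespace Crest.Agent.R330.Prod494

open Crest.Agent.R330.Defs478 Crest.Agent.R330.Decoup924

section gen

variable {E : Type*} [NormedAddCommGroup E] [NormedSpace ℝ E] [FiniteDimensional ℝ E]
  [MeasurableSpace E] [BorelSpace E] {μ : Measure E} [μ.IsAddHaarMeasure]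
  {F : Type*} [NormedAddCommGroup F] [InnerProductSpace ℂ F]
  {κ ι : Type*} [Fintype κ] [Fintype ι]

/-- Anticommuting first order operators in independent variables: no cross terms. -/
theorem cross_zero {e : κ → E} {a : κ → F →L[ℝ] F} {w : E → F →L[ℝ] F}
    {v : ι → E} {β : ι → F →L[ℝ] F} {p : E → F →L[ℝ] F}
    (hw : ContDiff ℝ 1 w) (hp : ContDiff ℝ 1 p)
    (has : ∀ k, Skew (a k)) (hws : ∀ x, Symm (w x))
    (hβs : ∀ i, Skew (β i)) (hps : ∀ x, Symm (p x))
    (hvw : ∀ i x, fderiv ℝ w x (v i) = 0) (hep : ∀ k x, fderiv ℝ p x (e k) = 0)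
    (haβ : ∀ k i, Anti (a k) (β i)) (hap : ∀ k x, Anti (a k) (p x))
    (hwβ : ∀ i x, Anti (w x) (β i)) (hwp : ∀ x, Anti (w x) (p x))
    {f h : E → F} (hf : ContDiff ℝ 2 f) (hh : ContDiff ℝ 2 h)
    (hcf : HasCompactSupport f) (hch : HasCompactSupport h) :
    ∫ x, ⟪op e (fun k _ => a k) w f x, op v (fun i _ => β i) p h x⟫_ℂ ∂μ +
      ∫ x, ⟪op v (fun i _ => β i) p f x, op e (fun k _ => a k) w h x⟫_ℂ ∂μ = 0 := by
  have h0 := cross_identity (μ := μ) (e := e) (a := a) (w := w) (v := v)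
    (β := fun i _ => β i) (p := p) hw (fun i => contDiff_const) hp has hws (fun i _ => hβs i) hps
    (fun i x => by simp) hvw (fun k i _ => haβ k i) hap hwβ hwp hf hh hcf hch
  rw [h0]
  have h1 : ∀ x, ⟪f x, ∑ k, a k (dop (e k) v (fun i _ => β i) p h x)⟫_ℂ = 0 := by
    intro x
    have h2 : ∀ k, dop (e k) v (fun i _ => β i) p h x = 0 := by
      intro k
      unfold dop
      simp [hep k x]
    simp [h2]
  simp [h1]

end gen

section sums

variable {X : Type*} [MeasurableSpace X] {μ : Measure X}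
  {F : Type*} [NormedAddCommGroup F] [InnerProductSpace ℂ F]

theorem integrable_inner_of_memLp {u v : X → F} (hu : MemLp u 2 μ) (hv : MemLp v 2 μ) :
    Integrable (fun x => ⟪u x, v x⟫_ℂ) μ := by
  refine (hu.norm.integrable_mul hv.norm).mono' (hu.1.inner hv.1)
    (Eventually.of_forall fun x => ?_)
  exact norm_inner_le_norm _ _

theorem integral_inner_self {u : X → F} :
    ∫ x, ⟪u x, u x⟫_ℂ ∂μ = ((∫ x, ‖u x‖ ^ 2 ∂μ : ℝ) : ℂ) := by
  rw [← integral_complex_ofReal]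
  exact integral_congr_ae (Eventually.of_forall fun x => isc _)

theorem norm_sq_add_of_cross {u v : X → F} (hu : MemLp u 2 μ) (hv : MemLp v 2 μ)
    (h : ∫ x, ⟪u x, v x⟫_ℂ ∂μ + ∫ x, ⟪v x, u x⟫_ℂ ∂μ = 0) :
    ∫ x, ‖u x + v x‖ ^ 2 ∂μ = ∫ x, ‖u x‖ ^ 2 ∂μ + ∫ x, ‖v x‖ ^ 2 ∂μ := by
  have h1 : ((∫ x, ‖u x + v x‖ ^ 2 ∂μ : ℝ) : ℂ) =
      ((∫ x, ‖u x‖ ^ 2 ∂μ + ∫ x, ‖v x‖ ^ 2 ∂μ : ℝ) : ℂ) := by
    rw [Complex.ofReal_add, ← integral_inner_self, ← integral_inner_self, ← integral_inner_self]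
    have e1 : ∀ x, ⟪u x + v x, u x + v x⟫_ℂ =
        (⟪u x, u x⟫_ℂ + ⟪v x, v x⟫_ℂ) + (⟪u x, v x⟫_ℂ + ⟪v x, u x⟫_ℂ) := fun x => by
      rw [inner_add_left, inner_add_right, inner_add_right]
      ring
    simp only [e1]
    rw [integral_add, integral_add, integral_add, h, add_zero]
    · exact integrable_inner_of_memLp hu hv
    · exact integrable_inner_of_memLp hv hu
    · exact integrable_inner_of_memLp hu hu
    · exact integrable_inner_of_memLp hv hv
    · exact (integrable_inner_of_memLp hu hu).add (integrable_inner_of_memLp hv hv)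
    · exact (integrable_inner_of_memLp hu hv).add (integrable_inner_of_memLp hv hu)
  exact_mod_cast h1

/-- a finite family without cross terms -/
theorem norm_sq_sum_of_cross {P : Type*} [DecidableEq P] (s : Finset P) {u : P → X → F}
    (hu : ∀ p ∈ s, MemLp (u p) 2 μ)
    (h : ∀ p ∈ s, ∀ q ∈ s, p ≠ q →
      ∫ x, ⟪u p x, u q x⟫_ℂ ∂μ + ∫ x, ⟪u q x, u p x⟫_ℂ ∂μ = 0) :
    ∫ x, ‖∑ p ∈ s, u p x‖ ^ 2 ∂μ = ∑ p ∈ s, ∫ x, ‖u p x‖ ^ 2 ∂μ := by
  classical
  induction s using Finset.induction_on with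
  | empty => simp
  | insert a s ha ih =>
    have hs : ∀ p ∈ s, MemLp (u p) 2 μ := fun p hp => hu p (Finset.mem_insert_of_mem hp)
    have ih' := ih hs fun p hp q hq hpq =>
      h p (Finset.mem_insert_of_mem hp) q (Finset.mem_insert_of_mem hq) hpq
    have hua : MemLp (u a) 2 μ := hu a (Finset.mem_insert_self a s)
    have hsum : MemLp (fun x => ∑ p ∈ s, u p x) 2 μ := memLp_finset_sum s hs
    rw [Finset.sum_insert ha, ← ih']
    simp only [Finset.sum_insert ha]
    refine norm_sq_add_of_cross hua hsum ?_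
    simp only [inner_sum, sum_inner]
    rw [integral_finset_sum _ fun p hp => integrable_inner_of_memLp hua (hs p hp),
      integral_finset_sum _ fun p hp => integrable_inner_of_memLp (hs p hp) hua,
      ← Finset.sum_add_distrib]
    refine Finset.sum_eq_zero fun p hp => ?_
    exact h a (Finset.mem_insert_self a s) p (Finset.mem_insert_of_mem hp)
      fun hap => ha (hap ▸ hp)

end sums

/-! ### The block charges -/

variable {N N' : ℕ} {F : Type*} [NormedAddCommGroup F] [InnerProductSpace ℂ F]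
  [FiniteDimensional ℂ F]
  {E E' E'' : Type*} [NormedAddCommGroup E] [InnerProductSpace ℝ E] [FiniteDimensional ℝ E]
  [MeasurableSpace E] [BorelSpace E]
  [NormedAddCommGroup E'] [InnerProductSpace ℝ E']
  [FiniteDimensional ℝ E'] [MeasurableSpace E'] [BorelSpace E']
  [NormedAddCommGroup E''] [InnerProductSpace ℝ E'']
  [FiniteDimensional ℝ E''] [MeasurableSpace E''] [BorelSpace E'']

/-- an endomorphism as a continuous real linear map -/
def rl (T : F →ₗ[ℂ] F) : F →L[ℝ] F := (LinearMap.toContinuousLinearMap T).restrictScalars ℝ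

theorem rl_apply (T : F →ₗ[ℂ] F) (v : F) : rl T v = T v := rfl

/-- derivative coefficients of the block charge -/
def aco (θ : Fin 16 → Fin (N ^ 2 - 1) → (F →ₗ[ℂ] F)) (G : GammaNine) (α : Fin 16)
    (k : Fin 9 × Fin (N ^ 2 - 1)) : F →L[ℝ] F :=
  rl (∑ β : Fin 16, (-Complex.I * (G.γ k.1 α β : ℂ)) • θ β k.2)

/-- the potential of the block charge as a function of the block variable -/
def wco (b : ColorBasis N) (θ : Fin 16 → Fin (N ^ 2 - 1) → (F →ₗ[ℂ] F)) (G : GammaNine)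
    (g m : ℝ) (α : Fin 16) (y : Cfg N) : F →L[ℝ] F :=
  ∑ A : Fin (N ^ 2 - 1), ∑ β : Fin 16, wpot b G g m α β A y • rl (θ β A)

/-- the block variable as a continuous linear map -/
def fstL (T : E ≃ₗᵢ[ℝ] WithLp 2 (Cfg N × E')) : E →L[ℝ] Cfg N :=
  (ContinuousLinearMap.fst ℝ (Cfg N) E').comp
    ((WithLp.prodContinuousLinearEquiv 2 ℝ (Cfg N) E' : WithLp 2 (Cfg N × E') →L[ℝ] _).comp
      (T.toContinuousLinearEquiv : E →L[ℝ] WithLp 2 (Cfg N × E')))

theorem fstL_apply (T : E ≃ₗᵢ[ℝ] WithLp 2 (Cfg N × E')) (x : E) : fstL T x = (T x).fst := rfl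

theorem pcharge_eq_op (T : E ≃ₗᵢ[ℝ] WithLp 2 (Cfg N × E')) (b : ColorBasis N)
    (θ : Fin 16 → Fin (N ^ 2 - 1) → (F →ₗ[ℂ] F)) (G : GammaNine) (g m : ℝ) (α : Fin 16)
    (φ : E → F) :
    pcharge T b θ G g m α φ =
      op (fun k : Fin 9 × Fin (N ^ 2 - 1) => emb T (EuclideanSpace.single k 1))
        (fun k _ => aco θ G α k) (fun x => wco b θ G g m α (fstL T x)) φ := by
  funext x
  unfold pcharge op
  congr 1
  · rw [Fintype.sum_prod_type]
    refine Finset.sum_congr rfl fun i _ => Finset.sum_congr rfl fun A _ => ?_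
    unfold aco
    rw [rl_apply, LinearMap.sum_apply]
    rfl
  · unfold wco
    rw [_root_.sum_apply]
    refine Finset.sum_congr rfl fun A _ => ?_
    rw [_root_.sum_apply]
    refine Finset.sum_congr rfl fun β _ => ?_
    rw [_root_.smul_apply, rl_apply, fstL_apply]
    exact Complex.coe_smul _ _

theorem contDiff_wpot {n : WithTop ℕ∞} (b : ColorBasis N) (G : GammaNine) (g m : ℝ)
    (α β : Fin 16) (A : Fin (N ^ 2 - 1)) : ContDiff ℝ n (wpot b G g m α β A) := by
  have h1 : ∀ k : Fin 9 × Fin (N ^ 2 - 1), ContDiff ℝ n (fun x : Cfg N => x k) := fun k =>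
    (EuclideanSpace.proj k : Cfg N →L[ℝ] ℝ).contDiff
  unfold wpot
  refine (contDiff_const.mul (ContDiff.sum fun B _ => ContDiff.sum fun C _ =>
    ContDiff.sum fun i _ => ContDiff.sum fun j _ => ?_)).sub
      (contDiff_const.mul (ContDiff.sum fun i _ => ?_))
  · exact ((contDiff_const.mul (h1 _)).mul (h1 _)).mul contDiff_const
  · exact (contDiff_const.mul (h1 _)).mul contDiff_const

theorem contDiff_wco {n : WithTop ℕ∞} (b : ColorBasis N)
    (θ : Fin 16 → Fin (N ^ 2 - 1) → (F →ₗ[ℂ] F)) (G : GammaNine) (g m : ℝ) (α : Fin 16) :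
    ContDiff ℝ n (wco b θ G g m α) := by
  unfold wco
  exact ContDiff.sum fun A _ => ContDiff.sum fun β _ =>
    (contDiff_wpot b G g m α β A).smul contDiff_const

theorem fderiv_wco_perp (b : ColorBasis N) (θ : Fin 16 → Fin (N ^ 2 - 1) → (F →ₗ[ℂ] F))
    (G : GammaNine) (g m : ℝ) (α : Fin 16) (T : E ≃ₗᵢ[ℝ] WithLp 2 (Cfg N × E')) (x v : E)
    (hv : (T v).fst = 0) :
    fderiv ℝ (fun x => wco b θ G g m α (fstL T x)) x v = 0 := by
  have h1 : HasFDerivAt (wco b θ G g m α) (fderiv ℝ (wco b θ G g m α) (fstL T x)) (fstL T x) :=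
    ((contDiff_wco (n := 1) b θ G g m α).differentiable (by norm_num) _).hasFDerivAt
  have h2 := h1.comp x (fstL T).hasFDerivAt
  have h3 : (fun x => wco b θ G g m α (fstL T x)) = wco b θ G g m α ∘ (fstL T) := rfl
  have h4 : fstL T v = 0 := hv
  rw [h3, h2.fderiv, ContinuousLinearMap.comp_apply, h4, map_zero]

/-- the operators are symmetric -/
def SymT (θ : Fin 16 → Fin (N ^ 2 - 1) → (F →ₗ[ℂ] F)) : Prop :=
  ∀ β A v w, ⟪θ β A v, w⟫_ℂ = ⟪v, θ β A w⟫_ℂ

theorem Mult.symT {F₁ : Type*} [NormedAddCommGroup F₁] [InnerProductSpace ℂ F₁]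
    [FiniteDimensional ℂ F₁] {ι : Type*} [Fintype ι] [DecidableEq ι] {M : FermionRep N F₁}
    {θ : Fin 16 → Fin (N ^ 2 - 1) → (F →ₗ[ℂ] F)} (L : Mult M θ ι) : SymT θ := by
  intro β A v w
  have e : ∀ u, θ β A u = ∑ i, L.J i (M.θ β A (L.comp i u)) := by
    intro u
    conv_lhs => rw [← L.sum_J_comp u]
    rw [map_sum]
    exact Finset.sum_congr rfl fun i _ => L.inter i β A _
  rw [e v, e w, sum_inner, inner_sum]
  refine Finset.sum_congr rfl fun i _ => ?_
  rw [← L.inner_comp, ← inner_conj_symm, ← L.inner_comp, inner_conj_symm]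
  exact M.selfAdjoint β A _ _

theorem skew_aco {θ : Fin 16 → Fin (N ^ 2 - 1) → (F →ₗ[ℂ] F)} (h : SymT θ) (G : GammaNine)
    (α : Fin 16) (k : Fin 9 × Fin (N ^ 2 - 1)) : Skew (aco θ G α k) := by
  intro v w
  unfold aco
  rw [rl_apply, rl_apply, LinearMap.sum_apply, LinearMap.sum_apply, sum_inner, inner_sum,
    ← Finset.sum_neg_distrib]
  refine Finset.sum_congr rfl fun β _ => ?_
  rw [LinearMap.smul_apply, LinearMap.smul_apply, inner_smul_left, inner_smul_right, h β k.2]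
  simp

theorem symm_wco {θ : Fin 16 → Fin (N ^ 2 - 1) → (F →ₗ[ℂ] F)} (h : SymT θ) (b : ColorBasis N)
    (G : GammaNine) (g m : ℝ) (α : Fin 16) (y : Cfg N) : Symm (wco b θ G g m α y) := by
  intro v w
  unfold wco
  simp only [_root_.sum_apply, _root_.smul_apply, sum_inner, inner_sum,
    rl_apply]
  refine Finset.sum_congr rfl fun A _ => Finset.sum_congr rfl fun β _ => ?_
  rw [← Complex.coe_smul, ← Complex.coe_smul, inner_smul_left, inner_smul_right, h β A]
  simp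

/-- the operators of the two blocks anticommute -/
def AntiT (θ : Fin 16 → Fin (N ^ 2 - 1) → (F →ₗ[ℂ] F))
    (θ' : Fin 16 → Fin (N' ^ 2 - 1) → (F →ₗ[ℂ] F)) : Prop :=
  ∀ β A β' A' v, θ β A (θ' β' A' v) = -θ' β' A' (θ β A v)

/-- an operator which anticommutes with all `θ β A` -/
def AntiO (S : F →L[ℝ] F) (θ : Fin 16 → Fin (N ^ 2 - 1) → (F →ₗ[ℂ] F)) : Prop :=
  (∀ β A v, S (θ β A v) = -θ β A (S v))

theorem anti_sum_right {S : F →L[ℝ] F} {ι : Type*} (s : Finset ι) {T : ι → (F →L[ℝ] F)}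
    (h : ∀ i ∈ s, Anti S (T i)) : Anti S (∑ i ∈ s, T i) := by
  intro v
  rw [_root_.sum_apply, _root_.sum_apply, map_sum,
    ← Finset.sum_neg_distrib]
  exact Finset.sum_congr rfl fun i hi => h i hi v

theorem Anti.symm {S T : F →L[ℝ] F} (h : Anti S T) : Anti T S := fun v => by
  rw [h v, neg_neg]

theorem anti_smul_right {S T : F →L[ℝ] F} (h : Anti S T) (r : ℝ) : Anti S (r • T) := by
  intro v
  rw [_root_.smul_apply, _root_.smul_apply, map_smul, h v, smul_neg]

/-- an operator `S`, complex linear up to the constant `-i`: for `S` complex linear -/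
theorem anti_aco {S : F →L[ℝ] F} (hS : ∀ (c : ℂ) v, S (c • v) = c • S v)
    {θ : Fin 16 → Fin (N ^ 2 - 1) → (F →ₗ[ℂ] F)} (h : AntiO S θ) (G : GammaNine)
    (α : Fin 16) (k : Fin 9 × Fin (N ^ 2 - 1)) : Anti S (aco θ G α k) := by
  intro v
  unfold aco
  rw [rl_apply, rl_apply, LinearMap.sum_apply, LinearMap.sum_apply, map_sum,
    ← Finset.sum_neg_distrib]
  refine Finset.sum_congr rfl fun β _ => ?_
  rw [LinearMap.smul_apply, LinearMap.smul_apply, hS, h, smul_neg]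

theorem anti_wco {S : F →L[ℝ] F} {θ : Fin 16 → Fin (N ^ 2 - 1) → (F →ₗ[ℂ] F)} (h : AntiO S θ)
    (b : ColorBasis N) (G : GammaNine) (g m : ℝ) (α : Fin 16) (y : Cfg N) :
    Anti S (wco b θ G g m α y) := by
  unfold wco
  refine anti_sum_right _ fun A _ => anti_sum_right _ fun β _ => anti_smul_right ?_ _
  exact fun v => h β A v

theorem rl_smul (T : F →ₗ[ℂ] F) (c : ℂ) (v : F) : rl T (c • v) = c • rl T v := by
  rw [rl_apply, rl_apply, map_smul]

theorem aco_smul (θ : Fin 16 → Fin (N ^ 2 - 1) → (F →ₗ[ℂ] F)) (G : GammaNine) (α : Fin 16)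
    (k : Fin 9 × Fin (N ^ 2 - 1)) (c : ℂ) (v : F) :
    aco θ G α k (c • v) = c • aco θ G α k v := rl_smul _ _ _

theorem wco_smul (b : ColorBasis N) (θ : Fin 16 → Fin (N ^ 2 - 1) → (F →ₗ[ℂ] F)) (G : GammaNine)
    (g m : ℝ) (α : Fin 16) (y : Cfg N) (c : ℂ) (v : F) :
    wco b θ G g m α y (c • v) = c • wco b θ G g m α y v := by
  unfold wco
  simp only [_root_.sum_apply, _root_.smul_apply, rl_smul,
    Finset.smul_sum]
  refine Finset.sum_congr rfl fun A _ => Finset.sum_congr rfl fun β _ => ?_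
  rw [smul_comm]

theorem AntiT.aco {θ : Fin 16 → Fin (N ^ 2 - 1) → (F →ₗ[ℂ] F)}
    {θ' : Fin 16 → Fin (N' ^ 2 - 1) → (F →ₗ[ℂ] F)} (h : AntiT θ θ') (G : GammaNine)
    (α : Fin 16) (k : Fin 9 × Fin (N ^ 2 - 1)) : AntiO (aco θ G α k) θ' := by
  intro β' A' v
  unfold Prod494.aco
  rw [rl_apply, rl_apply, LinearMap.sum_apply, LinearMap.sum_apply, map_sum,
    ← Finset.sum_neg_distrib]
  refine Finset.sum_congr rfl fun β _ => ?_
  rw [LinearMap.smul_apply, LinearMap.smul_apply, map_smul, h, smul_neg]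

theorem AntiT.wco {θ : Fin 16 → Fin (N ^ 2 - 1) → (F →ₗ[ℂ] F)}
    {θ' : Fin 16 → Fin (N' ^ 2 - 1) → (F →ₗ[ℂ] F)} (h : AntiT θ θ') (b : ColorBasis N)
    (G : GammaNine) (g m : ℝ) (α : Fin 16) (y : Cfg N) : AntiO (wco b θ G g m α y) θ' := by
  intro β' A' v
  unfold Prod494.wco
  simp only [_root_.sum_apply, _root_.smul_apply, rl_apply]
  rw [map_sum, ← Finset.sum_neg_distrib]
  refine Finset.sum_congr rfl fun A _ => ?_
  rw [map_sum, ← Finset.sum_neg_distrib]
  refine Finset.sum_congr rfl fun β _ => ?_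
  rw [h, ← Complex.coe_smul, ← Complex.coe_smul, map_smul, smul_neg]

/-- perpendicular blocks -/
def Perp (T : E ≃ₗᵢ[ℝ] WithLp 2 (Cfg N × E')) (T' : E ≃ₗᵢ[ℝ] WithLp 2 (Cfg N' × E'')) : Prop :=
  (∀ v, (T (emb T' v)).fst = 0) ∧ ∀ v, (T' (emb T v)).fst = 0

theorem Perp.symm {T : E ≃ₗᵢ[ℝ] WithLp 2 (Cfg N × E')} {T' : E ≃ₗᵢ[ℝ] WithLp 2 (Cfg N' × E'')}
    (h : Perp T T') : Perp T' T := ⟨h.2, h.1⟩

/-- **No cross terms between the charges of perpendicular blocks.** -/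
theorem pcharge_cross {T : E ≃ₗᵢ[ℝ] WithLp 2 (Cfg N × E')}
    {T' : E ≃ₗᵢ[ℝ] WithLp 2 (Cfg N' × E'')} (hT : Perp T T')
    (b : ColorBasis N) (b' : ColorBasis N') {θ : Fin 16 → Fin (N ^ 2 - 1) → (F →ₗ[ℂ] F)}
    {θ' : Fin 16 → Fin (N' ^ 2 - 1) → (F →ₗ[ℂ] F)} (hs : SymT θ) (hs' : SymT θ')
    (ha : AntiT θ θ') (G : GammaNine) (g m : ℝ) (α : Fin 16)
    {f h : E → F} (hf : ContDiff ℝ 2 f) (hh : ContDiff ℝ 2 h)
    (hcf : HasCompactSupport f) (hch : HasCompactSupport h) :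
    (∫ x, ⟪pcharge T b θ G g m α f x, pcharge T' b' θ' G g m α h x⟫_ℂ) +
      ∫ x, ⟪pcharge T' b' θ' G g m α f x, pcharge T b θ G g m α h x⟫_ℂ = 0 := by
  simp only [pcharge_eq_op]
  refine cross_zero (μ := (volume : Measure E)) ?_ ?_ (skew_aco hs G α) (fun x => symm_wco hs b G g m α _) (skew_aco hs' G α)
    (fun x => symm_wco hs' b' G g m α _) ?_ ?_ ?_ ?_ ?_ ?_ hf hh hcf hch
  · exact (contDiff_wco b θ G g m α).comp (fstL T).contDiff
  · exact (contDiff_wco b' θ' G g m α).comp (fstL T').contDiff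
  · exact fun i x => fderiv_wco_perp b θ G g m α T x _ (hT.1 _)
  · exact fun k x => fderiv_wco_perp b' θ' G g m α T' x _ (hT.2 _)
  · exact fun k i => anti_aco (aco_smul θ G α k) (ha.aco G α k) G α i
  · exact fun k x => anti_wco (ha.aco G α k) b' G g m α _
  · exact fun i x => anti_aco (wco_smul b θ G g m α _) (ha.wco b G g m α _) G α i
  · exact fun x => anti_wco (ha.wco b G g m α _) b' G g m α _

/-- **No cross terms with an operator in the remaining variables.** -/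
theorem pcharge_cross_op {κ : Type*} [Fintype κ] {T : E ≃ₗᵢ[ℝ] WithLp 2 (Cfg N × E')}
    (b : ColorBasis N) {θ : Fin 16 → Fin (N ^ 2 - 1) → (F →ₗ[ℂ] F)} (hs : SymT θ)
    (G : GammaNine) (g m : ℝ) (α : Fin 16) {e : κ → E} {a : κ → F →L[ℝ] F} {w : E → F →L[ℝ] F}
    (hw : ContDiff ℝ 1 w) (has : ∀ k, Skew (a k)) (hws : ∀ x, Symm (w x))
    (haC : ∀ k (c : ℂ) v, a k (c • v) = c • a k v) (hwC : ∀ x (c : ℂ) v, w x (c • v) = c • w x v)
    (ha : ∀ k, AntiO (a k) θ) (hwθ : ∀ x, AntiO (w x) θ)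
    (he : ∀ k, (T (e k)).fst = 0) (hwT : ∀ x v, fderiv ℝ w x (emb T v) = 0)
    {f h : E → F} (hf : ContDiff ℝ 2 f) (hh : ContDiff ℝ 2 h)
    (hcf : HasCompactSupport f) (hch : HasCompactSupport h) :
    (∫ x, ⟪op e (fun k _ => a k) w f x, pcharge T b θ G g m α h x⟫_ℂ) +
      ∫ x, ⟪pcharge T b θ G g m α f x, op e (fun k _ => a k) w h x⟫_ℂ = 0 := by
  simp only [pcharge_eq_op]
  refine cross_zero (μ := (volume : Measure E)) hw ?_ has hws (skew_aco hs G α)
    (fun x => symm_wco hs b G g m α _) (fun i x => hwT x _) ?_ ?_ ?_ ?_ ?_ hf hh hcf hch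
  · exact (contDiff_wco b θ G g m α).comp (fstL T).contDiff
  · exact fun k x => fderiv_wco_perp b θ G g m α T x _ (he k)
  · exact fun k i => anti_aco (haC k) (ha k) G α i
  · exact fun k x => anti_wco (ha k) b G g m α _
  · exact fun i x => anti_aco (hwC x) (hwθ x) G α i
  · exact fun x => anti_wco (hwθ x) b G g m α _

end Crest.Agent.R330.Prod494

end
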