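import Crest.Agent.R330.Prod4_494
import Crest.Agent.R330.Prod5_494

/-!
# Row 330 (helper494): several blocks

* `IsPJ Pr` : a linear contraction of `L²(E; F)`; `ComS Pr S` : commutes with the indicator of `S`.
* `isPJ_pproj`, `comS_pproj` : the block projections `pproj T L ψ`.
* `lprod Pr l` : the product of the projections over a list; `lprod_le`, `lprod_sq_le` :
  `∫_{⋂ S_p} |φ - Πφ|² ≤ |l| ∑ ∫_{S_p} |φ - P_p φ|²`.
* `Perp.fst_add`, `ofEmb` : the splitting of `E` along a linear isometric embedding of `Cfg N`.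
-/

set_option autoImplicit false
set_option linter.unusedSectionVars false

open MeasureTheory Filter Topology Crest.MathPhysics.MatrixQM
open scoped ContDiff InnerProductSpace ENNReal

noncomputable section

namespace Crest.Agent.R330.Prod494

open Crest.Agent.R330.Defs478

/-! ### The triangle inequality -/

section tri

variable {X : Type*} [MeasurableSpace X] {μ : Measure X}
  {F : Type*} [NormedAddCommGroup F] [InnerProductSpace ℂ F]

theorem sqrt_int_eq {u : X → F} (hu : MemLp u 2 μ) :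
    √(∫ x, ‖u x‖ ^ 2 ∂μ) = ‖hu.toLp u‖ := by
  have h : ‖hu.toLp u‖ ^ 2 = ∫ x, ‖u x‖ ^ 2 ∂μ := by
    have h1 : (((‖hu.toLp u‖ ^ 2 : ℝ)) : ℂ) = ((∫ x, ‖u x‖ ^ 2 ∂μ : ℝ) : ℂ) := by
      rw [← isc, L2.inner_def, ← integral_inner_self]
      refine integral_congr_ae ?_
      filter_upwards [hu.coeFn_toLp] with x hx
      rw [hx]
    exact_mod_cast h1
  rw [← h, Real.sqrt_sq (norm_nonneg _)]

theorem sqrt_int_add_le {u v : X → F} (hu : MemLp u 2 μ) (hv : MemLp v 2 μ) :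
    √(∫ x, ‖u x + v x‖ ^ 2 ∂μ) ≤ √(∫ x, ‖u x‖ ^ 2 ∂μ) + √(∫ x, ‖v x‖ ^ 2 ∂μ) := by
  have h1 : √(∫ x, ‖u x + v x‖ ^ 2 ∂μ) = ‖(hu.add hv).toLp (u + v)‖ := sqrt_int_eq (hu.add hv)
  rw [h1, sqrt_int_eq hu, sqrt_int_eq hv, MemLp.toLp_add]
  exact norm_add_le _ _

end tri

/-! ### Products of projections -/

section prod

variable {E : Type*} [MeasurableSpace E] {μ : Measure E}
  {F : Type*} [NormedAddCommGroup F] [InnerProductSpace ℂ F]

/-- a linear contraction of `L²` -/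
structure IsPJ (μ : Measure E) (Pr : (E → F) → E → F) : Prop where
  memLp : ∀ φ, MemLp φ 2 μ → MemLp (Pr φ) 2 μ
  le : ∀ φ, MemLp φ 2 μ → ∫ x, ‖Pr φ x‖ ^ 2 ∂μ ≤ ∫ x, ‖φ x‖ ^ 2 ∂μ
  sub : ∀ φ χ, MemLp φ 2 μ → MemLp χ 2 μ →
    Pr (fun x => φ x - χ x) =ᵐ[μ] fun x => Pr φ x - Pr χ x

/-- commutes with the indicator of `S` -/
def ComS (Pr : (E → F) → E → F) (S : Set E) : Prop :=
  ∀ φ, Pr (S.indicator φ) = S.indicator (Pr φ)

/-- the product of the projections over a list -/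
def lprod {P : Type*} (Pr : P → (E → F) → E → F) (l : List P) (φ : E → F) : E → F :=
  l.foldr (fun p χ => Pr p χ) φ

/-- the intersection of the regions over a list -/
def lset {P : Type*} (S : P → Set E) (l : List P) : Set E := {x | ∀ p ∈ l, x ∈ S p}

variable {P : Type*} {Pr : P → (E → F) → E → F} {S : P → Set E}

theorem lprod_nil (φ : E → F) : lprod Pr [] φ = φ := rfl

theorem lprod_cons (p : P) (l : List P) (φ : E → F) :
    lprod Pr (p :: l) φ = Pr p (lprod Pr l φ) := rfl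

theorem lset_cons (p : P) (l : List P) : lset S (p :: l) = S p ∩ lset S l := by
  ext x
  simp [lset]

theorem measurableSet_lset (l : List P) (hS : ∀ p ∈ l, MeasurableSet (S p)) :
    MeasurableSet (lset S l) := by
  induction l with
  | nil =>
    have : lset S ([] : List P) = Set.univ := by ext x; simp [lset]
    rw [this]
    exact MeasurableSet.univ
  | cons p l ih =>
    rw [lset_cons]
    exact (hS p List.mem_cons_self).inter (ih fun q hq => hS q (List.mem_cons_of_mem _ hq))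

theorem ComS.inter {Pr : (E → F) → E → F} {S S' : Set E} (h : ComS Pr S) (h' : ComS Pr S') :
    ComS Pr (S ∩ S') := by
  intro φ
  rw [← Set.indicator_indicator, h, h', Set.indicator_indicator]

theorem ComS.lset {Pr : (E → F) → E → F} (l : List P) (h : ∀ p ∈ l, ComS Pr (S p)) :
    ComS Pr (lset S l) := by
  induction l with
  | nil =>
    have : Prod494.lset S ([] : List P) = Set.univ := by ext x; simp [Prod494.lset]
    rw [this]
    intro φ
    simp
  | cons p l ih =>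
    rw [lset_cons]
    exact (h p List.mem_cons_self).inter (ih fun q hq => h q (List.mem_cons_of_mem _ hq))

theorem lprod_memLp (l : List P) (hPJ : ∀ p ∈ l, IsPJ μ (Pr p)) {φ : E → F}
    (hφ : MemLp φ 2 μ) : MemLp (lprod Pr l φ) 2 μ := by
  induction l with
  | nil => exact hφ
  | cons p l ih =>
    rw [lprod_cons]
    exact (hPJ p List.mem_cons_self).memLp _ (ih fun q hq => hPJ q (List.mem_cons_of_mem _ hq))

theorem lprod_contr (l : List P) (hPJ : ∀ p ∈ l, IsPJ μ (Pr p)) {φ : E → F}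
    (hφ : MemLp φ 2 μ) : ∫ x, ‖lprod Pr l φ x‖ ^ 2 ∂μ ≤ ∫ x, ‖φ x‖ ^ 2 ∂μ := by
  induction l with
  | nil => exact le_refl _
  | cons p l ih =>
    rw [lprod_cons]
    exact ((hPJ p List.mem_cons_self).le _ (lprod_memLp l
      (fun q hq => hPJ q (List.mem_cons_of_mem _ hq)) hφ)).trans
      (ih fun q hq => hPJ q (List.mem_cons_of_mem _ hq))

theorem setIntegral_indicator_norm {S : Set E} (hS : MeasurableSet S) (u : E → F) :
    ∫ x in S, ‖u x‖ ^ 2 ∂μ = ∫ x, ‖S.indicator u x‖ ^ 2 ∂μ := by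
  rw [← integral_indicator hS]
  refine integral_congr_ae (Eventually.of_forall fun x => ?_)
  by_cases hx : x ∈ S
  · simp [hx]
  · simp [hx]

/-- restricted contraction: a contraction commuting with the indicator of `S` -/
theorem IsPJ.le_on {Pr : (E → F) → E → F} (h : IsPJ μ Pr) {S : Set E} (hS : MeasurableSet S)
    (hc : ComS Pr S) {φ : E → F} (hφ : MemLp φ 2 μ) :
    ∫ x in S, ‖Pr φ x‖ ^ 2 ∂μ ≤ ∫ x in S, ‖φ x‖ ^ 2 ∂μ := by
  rw [setIntegral_indicator_norm hS, setIntegral_indicator_norm hS, ← hc]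
  exact h.le _ (hφ.indicator hS)

/-- **Product of projections, norms.** -/
theorem lprod_le (l : List P) (hl : l.Nodup) (hPJ : ∀ p ∈ l, IsPJ μ (Pr p))
    (hS : ∀ p ∈ l, MeasurableSet (S p))
    (hcom : ∀ p ∈ l, ∀ q ∈ l, p ≠ q → ComS (Pr p) (S q)) {φ : E → F} (hφ : MemLp φ 2 μ) :
    √(∫ x in lset S l, ‖φ x - lprod Pr l φ x‖ ^ 2 ∂μ) ≤
      (l.map fun p => √(∫ x in S p, ‖φ x - Pr p φ x‖ ^ 2 ∂μ)).sum := by
  induction l with
  | nil => simp [lprod_nil]
  | cons p l ih =>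
    have hPJ' : ∀ q ∈ l, IsPJ μ (Pr q) := fun q hq => hPJ q (List.mem_cons_of_mem _ hq)
    have hS' : ∀ q ∈ l, MeasurableSet (S q) := fun q hq => hS q (List.mem_cons_of_mem _ hq)
    have hnd := List.nodup_cons.1 hl
    have ih' := ih hnd.2 hPJ' hS' fun a ha q hq hne =>
      hcom a (List.mem_cons_of_mem _ ha) q (List.mem_cons_of_mem _ hq) hne
    have hp := hPJ p List.mem_cons_self
    have hm := lprod_memLp l hPJ' hφ
    have hSl := measurableSet_lset l hS'
    have hSp := hS p List.mem_cons_self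
    have hcl : ComS (Pr p) (lset S l) := ComS.lset l fun q hq =>
      hcom p List.mem_cons_self q (List.mem_cons_of_mem _ hq) fun h => hnd.1 (h ▸ hq)
    rw [List.map_cons, List.sum_cons, lprod_cons]
    have h1 : MemLp (fun x => φ x - Pr p φ x) 2 μ := hφ.sub (hp.memLp _ hφ)
    have h2 : MemLp (fun x => φ x - lprod Pr l φ x) 2 μ := hφ.sub hm
    have h3 : MemLp (Pr p (fun x => φ x - lprod Pr l φ x)) 2 μ := hp.memLp _ h2
    have e1 : ∫ x in lset S (p :: l), ‖φ x - Pr p (lprod Pr l φ) x‖ ^ 2 ∂μ =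
        ∫ x in lset S (p :: l), ‖(φ x - Pr p φ x) +
          Pr p (fun x => φ x - lprod Pr l φ x) x‖ ^ 2 ∂μ := by
      refine integral_congr_ae (ae_restrict_of_ae ?_)
      filter_upwards [hp.sub _ _ hφ hm] with x hx
      rw [hx]
      congr 2
      abel
    rw [e1]
    refine (sqrt_int_add_le (h1.restrict _) (h3.restrict _)).trans (add_le_add ?_ ?_)
    · refine Real.sqrt_le_sqrt ?_
      refine setIntegral_mono_set ?_ (Eventually.of_forall fun x => sq_nonneg _) ?_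
      · exact ((memLp_two_iff_integrable_sq_norm h1.1).1 h1).integrableOn
      · rw [lset_cons]
        exact Eventually.of_forall (Set.inter_subset_left)
    · refine le_trans (Real.sqrt_le_sqrt ?_) ih'
      refine le_trans ?_ (hp.le_on hSl hcl h2)
      refine setIntegral_mono_set ?_ (Eventually.of_forall fun x => sq_nonneg _) ?_
      · exact ((memLp_two_iff_integrable_sq_norm h3.1).1 h3).integrableOn
      · rw [lset_cons]
        exact Eventually.of_forall (Set.inter_subset_right)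

/-- **Product of projections, squares.** -/
theorem lprod_sq_le (l : List P) (hl : l.Nodup) (hPJ : ∀ p ∈ l, IsPJ μ (Pr p))
    (hS : ∀ p ∈ l, MeasurableSet (S p))
    (hcom : ∀ p ∈ l, ∀ q ∈ l, p ≠ q → ComS (Pr p) (S q)) {φ : E → F} (hφ : MemLp φ 2 μ) :
    ∫ x in lset S l, ‖φ x - lprod Pr l φ x‖ ^ 2 ∂μ ≤
      l.length * (l.map fun p => ∫ x in S p, ‖φ x - Pr p φ x‖ ^ 2 ∂μ).sum := by
  have h := lprod_le l hl hPJ hS hcom hφ
  have h0 : 0 ≤ ∫ x in lset S l, ‖φ x - lprod Pr l φ x‖ ^ 2 ∂μ :=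
    integral_nonneg fun x => sq_nonneg _
  have h1 : ∫ x in lset S l, ‖φ x - lprod Pr l φ x‖ ^ 2 ∂μ ≤
      (l.map fun p => √(∫ x in S p, ‖φ x - Pr p φ x‖ ^ 2 ∂μ)).sum ^ 2 := by
    calc _ = √(∫ x in lset S l, ‖φ x - lprod Pr l φ x‖ ^ 2 ∂μ) ^ 2 := (Real.sq_sqrt h0).symm
      _ ≤ _ := pow_le_pow_left₀ (Real.sqrt_nonneg _) h 2
  refine h1.trans ?_
  have h2 : ∀ (L : List P) (a : P → ℝ), (∀ p, 0 ≤ a p) →
      (L.map fun p => √(a p)).sum ^ 2 ≤ L.length * (L.map a).sum := by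
    intro L a ha
    induction L with
    | nil => simp
    | cons p L ih =>
      simp only [List.map_cons, List.sum_cons, List.length_cons, Nat.cast_add, Nat.cast_one]
      set s := (L.map fun p => √(a p)).sum with hs
      set t := (L.map a).sum with ht
      have hs0 : 0 ≤ s := List.sum_nonneg fun x hx => by
        obtain ⟨q, _, rfl⟩ := List.mem_map.1 hx
        exact Real.sqrt_nonneg _
      have ht0 : 0 ≤ t := List.sum_nonneg fun x hx => by
        obtain ⟨q, _, rfl⟩ := List.mem_map.1 hx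
        exact ha q
      have hr : √(a p) ^ 2 = a p := Real.sq_sqrt (ha p)
      have hr0 : 0 ≤ √(a p) := Real.sqrt_nonneg _
      have hn0 : (0 : ℝ) ≤ L.length := Nat.cast_nonneg _
      rcases Nat.eq_zero_or_pos L.length with hz | hpos
      · have hL : L = [] := List.length_eq_zero_iff.1 hz
        subst hL
        simp only [List.map_nil, List.sum_nil, List.length_nil] at hs ht
        rw [hs, ht]
        simp [hr]
      · have hn : (0 : ℝ) < L.length := by exact_mod_cast hpos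
        have key : 2 * √(a p) * s ≤ L.length * a p + t := by
          have h5 : 0 ≤ (L.length * √(a p) - s) ^ 2 := sq_nonneg _
          have h7 : (L.length * √(a p) - s) ^ 2 =
              L.length * (L.length * √(a p) ^ 2) - L.length * (2 * √(a p) * s) + s ^ 2 := by ring
          rw [h7, hr] at h5
          have h6 : L.length * (2 * √(a p) * s) ≤ L.length * (L.length * a p + t) := by
            rw [mul_add]
            linarith
          exact le_of_mul_le_mul_left h6 hn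
        have h8 : (√(a p) + s) ^ 2 = √(a p) ^ 2 + 2 * √(a p) * s + s ^ 2 := by ring
        rw [h8, hr]
        nlinarith [key, ih]
  exact h2 l (fun p => ∫ x in S p, ‖φ x - Pr p φ x‖ ^ 2 ∂μ)
    fun p => integral_nonneg fun x => sq_nonneg _

end prod

/-! ### The block projections -/

section blk

variable {N : ℕ} {F₁ F : Type*} [NormedAddCommGroup F₁] [InnerProductSpace ℂ F₁]
  [FiniteDimensional ℂ F₁] [NormedAddCommGroup F] [InnerProductSpace ℂ F] [FiniteDimensional ℂ F]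
  {ι : Type*} [Fintype ι] [DecidableEq ι]
  {M : FermionRep N F₁} {θ : Fin 16 → Fin (N ^ 2 - 1) → (F →ₗ[ℂ] F)}
  {E E' : Type*} [NormedAddCommGroup E] [InnerProductSpace ℝ E] [FiniteDimensional ℝ E]
  [MeasurableSpace E] [BorelSpace E] [NormedAddCommGroup E'] [InnerProductSpace ℝ E']
  [FiniteDimensional ℝ E'] [MeasurableSpace E'] [BorelSpace E']

theorem ae_fib_memLp (T : E ≃ₗᵢ[ℝ] WithLp 2 (Cfg N × E')) (L : Mult M θ ι) {φ : E → F}
    (hφ : MemLp φ 2 volume) :
    ∀ᵐ x' : E', ∀ w, MemLp (fun z => L.comp w (φ (pm T (x', z)))) 2 volume := by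
  refine ae_all_iff.2 fun w => ?_
  have h2 : MemLp (fun p : E' × Cfg N => φ (pm T p)) 2 (volume.prod volume) :=
    hφ.comp_measurePreserving (mp_pm T)
  have h3 : MemLp (fun p : E' × Cfg N => L.comp w (φ (pm T p))) 2 (volume.prod volume) :=
    (L.compL w).comp_memLp' h2
  filter_upwards [h3.1.prodMk_left, (integrable_comp_sq T L hφ w).prod_right_ae] with x' h4 h5
  exact (memLp_two_iff_integrable_sq_norm h4).2 h5

theorem cf_sub (T : E ≃ₗᵢ[ℝ] WithLp 2 (Cfg N × E')) (L : Mult M θ ι) {ψ : Cfg N → F₁}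
    (hψ : MemLp ψ 2 volume) {φ χ : E → F} (hφ : MemLp φ 2 volume) (hχ : MemLp χ 2 volume) :
    ∀ᵐ x' : E', ∀ w, cf T L ψ (fun x => φ x - χ x) w x' = cf T L ψ φ w x' - cf T L ψ χ w x' := by
  filter_upwards [ae_fib_memLp T L hφ, ae_fib_memLp T L hχ] with x' h1 h2 w
  unfold cf
  rw [← integral_sub]
  · refine integral_congr_ae (Eventually.of_forall fun z => ?_)
    simp only [fib]
    rw [map_sub, inner_sub_right]
  · exact integrable_inner_of_memLp hψ (h1 w)
  · exact integrable_inner_of_memLp hψ (h2 w)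

theorem isPJ_pproj (T : E ≃ₗᵢ[ℝ] WithLp 2 (Cfg N × E')) (L : Mult M θ ι) {ψ : Cfg N → F₁}
    (hψ : MemLp ψ 2 volume) (hψ1 : ∫ y, ‖ψ y‖ ^ 2 = 1) :
    IsPJ (volume : Measure E) (pproj T L ψ : (E → F) → E → F) where
  memLp φ hφ := memLp_pproj T L hψ hφ
  le φ hφ := integral_pproj_le T L hψ hψ1 hφ
  sub φ χ hφ hχ := by
    have h1 : ∀ᵐ p : E' × Cfg N ∂(volume.prod volume), ∀ w,
        cf T L ψ (fun x => φ x - χ x) w p.1 = cf T L ψ φ w p.1 - cf T L ψ χ w p.1 :=
      Measure.quasiMeasurePreserving_fst.ae (cf_sub T L hψ hφ hχ)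
    have h2 : ∀ᵐ p : E' × Cfg N ∂(volume.prod volume),
        pproj T L ψ (fun x => φ x - χ x) (pm T p) =
          pproj T L ψ φ (pm T p) - pproj T L ψ χ (pm T p) := by
      filter_upwards [h1] with p hp
      rw [pproj_pm, pproj_pm, pproj_pm, ← Finset.sum_sub_distrib]
      refine Finset.sum_congr rfl fun w _ => ?_
      rw [hp w, sub_smul, map_sub]
    have h3 := (mp_symm T).quasiMeasurePreserving.ae h2
    filter_upwards [h3] with x hx
    have e : pm T ((T x).snd, (T x).fst) = x := pt_T T x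
    rw [e] at hx
    exact hx

/-- the projection commutes with the indicator of a set in the other variables -/
theorem comS_pproj (T : E ≃ₗᵢ[ℝ] WithLp 2 (Cfg N × E')) (L : Mult M θ ι) (ψ : Cfg N → F₁)
    {S : Set E} (hS : ∀ y y' x', pt T y x' ∈ S ↔ pt T y' x' ∈ S) :
    ComS (pproj T L ψ : (E → F) → E → F) S := by
  intro φ
  funext x
  obtain ⟨y, x', rfl⟩ : ∃ y x', x = pt T y x' := ⟨_, _, (pt_T T x).symm⟩
  rw [pproj_pt]
  by_cases hx : pt T y x' ∈ S
  · rw [Set.indicator_of_mem hx, pproj_pt]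
    have e : fib T (S.indicator φ) x' = fib T φ x' := by
      funext z
      exact Set.indicator_of_mem ((hS y z x').1 hx) _
    rw [e]
  · rw [Set.indicator_of_notMem hx]
    have e : fib T (S.indicator φ) x' = fun _ => 0 := by
      funext z
      exact Set.indicator_of_notMem (fun h => hx ((hS y z x').2 h)) _
    rw [e]
    unfold proj1
    simp

end blk

/-! ### Perpendicular splittings and embeddings -/

section perp

variable {N N' : ℕ} {E E' E'' : Type*} [NormedAddCommGroup E] [InnerProductSpace ℝ E]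
  [FiniteDimensional ℝ E] [MeasurableSpace E] [BorelSpace E]
  [NormedAddCommGroup E'] [InnerProductSpace ℝ E']
  [FiniteDimensional ℝ E'] [MeasurableSpace E'] [BorelSpace E']
  [NormedAddCommGroup E''] [InnerProductSpace ℝ E'']
  [FiniteDimensional ℝ E''] [MeasurableSpace E''] [BorelSpace E'']

theorem Perp.fst_pt {T : E ≃ₗᵢ[ℝ] WithLp 2 (Cfg N × E')}
    {T' : E ≃ₗᵢ[ℝ] WithLp 2 (Cfg N' × E'')} (h : Perp T T') (y y' : Cfg N) (x' : E') :
    (T' (pt T y x')).fst = (T' (pt T y' x')).fst := by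
  have h1 : pt T y x' = pt T y' x' + emb T (y - y') := by
    rw [← pt_add_emb]
    congr 1
    abel
  rw [h1, map_add]
  change (T' (pt T y' x')).fst + (T' (emb T (y - y'))).fst = _
  rw [h.2, add_zero]

/-- the block variable of another block is a function of the other variables -/
theorem Perp.region {T : E ≃ₗᵢ[ℝ] WithLp 2 (Cfg N × E')}
    {T' : E ≃ₗᵢ[ℝ] WithLp 2 (Cfg N' × E'')} (h : Perp T T') (S : Set (Cfg N'))
    (y y' : Cfg N) (x' : E') :
    pt T y x' ∈ {x | (T' x).fst ∈ S} ↔ pt T y' x' ∈ {x | (T' x).fst ∈ S} := by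
  simp only [Set.mem_setOf_eq]
  rw [h.fst_pt y y' x']

end perp

section ofEmb

variable {N N' : ℕ} {E : Type*} [NormedAddCommGroup E] [InnerProductSpace ℝ E]
  [FiniteDimensional ℝ E]

/-- the splitting of `E` along a linear isometric embedding of `Cfg N` -/
def ofEmb (e : Cfg N →ₗᵢ[ℝ] E) :
    E ≃ₗᵢ[ℝ] WithLp 2 (Cfg N × (LinearMap.range e.toLinearMap)ᗮ) :=
  LinearIsometryEquiv.symm
  { toLinearEquiv := (WithLp.linearEquiv 2 ℝ (Cfg N × (LinearMap.range e.toLinearMap)ᗮ)).trans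
      (((LinearEquiv.ofInjective e.toLinearMap e.injective).prodCongr
        (LinearEquiv.refl ℝ _)).trans
        (Submodule.prodEquivOfIsCompl (LinearMap.range e.toLinearMap)
          (LinearMap.range e.toLinearMap)ᗮ (Submodule.isCompl_orthogonal _)))
    norm_map' := by
      intro x
      rw [← sq_eq_sq₀ (norm_nonneg _) (norm_nonneg _), WithLp.prod_norm_sq_eq_of_L2]
      have h1 : (((WithLp.linearEquiv 2 ℝ (Cfg N × (LinearMap.range e.toLinearMap)ᗮ)).trans
          (((LinearEquiv.ofInjective e.toLinearMap e.injective).prodCongr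
            (LinearEquiv.refl ℝ _)).trans
            (Submodule.prodEquivOfIsCompl (LinearMap.range e.toLinearMap)
              (LinearMap.range e.toLinearMap)ᗮ (Submodule.isCompl_orthogonal _)))) x) =
          e x.fst + (x.snd : E) := by
        simp
      rw [h1, norm_add_sq_real]
      have h2 : ⟪e x.fst, (x.snd : E)⟫_ℝ = 0 :=
        (Submodule.mem_orthogonal _ _).1 x.snd.2 _ ⟨x.fst, rfl⟩
      rw [h2, e.norm_map]
      simp }

theorem ofEmb_symm_apply (e : Cfg N →ₗᵢ[ℝ] E)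
    (x : WithLp 2 (Cfg N × (LinearMap.range e.toLinearMap)ᗮ)) :
    (ofEmb e).symm x = e x.fst + (x.snd : E) := by
  unfold ofEmb
  simp

theorem pt_ofEmb (e : Cfg N →ₗᵢ[ℝ] E) (y : Cfg N)
    (x' : ↥(LinearMap.range e.toLinearMap)ᗮ) : pt (ofEmb e) y x' = e y + (x' : E) :=
  ofEmb_symm_apply e _

theorem emb_ofEmb (e : Cfg N →ₗᵢ[ℝ] E) (y : Cfg N) : emb (ofEmb e) y = e y := by
  unfold emb
  rw [pt_ofEmb]
  simp

/-- the block variable is the adjoint of the embedding -/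
theorem inner_fst_ofEmb (e : Cfg N →ₗᵢ[ℝ] E) (x : E) (v : Cfg N) :
    ⟪((ofEmb e) x).fst, v⟫_ℝ = ⟪x, e v⟫_ℝ := by
  obtain ⟨p, rfl⟩ := (ofEmb e).symm.surjective x
  rw [LinearIsometryEquiv.apply_symm_apply, ofEmb_symm_apply, inner_add_left, e.inner_map_map]
  have h2 : ⟪(p.snd : E), e v⟫_ℝ = 0 := by
    rw [real_inner_comm]
    exact (Submodule.mem_orthogonal _ _).1 p.snd.2 _ ⟨v, rfl⟩
  rw [h2, add_zero]

theorem fst_ofEmb_eq (e : Cfg N →ₗᵢ[ℝ] E) {x : E} {y : Cfg N}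
    (h : ∀ v, ⟪x, e v⟫_ℝ = ⟪y, v⟫_ℝ) : ((ofEmb e) x).fst = y :=
  ext_inner_right ℝ fun v => by rw [inner_fst_ofEmb, h]

/-- perpendicular embeddings give perpendicular splittings -/
theorem perp_ofEmb {e : Cfg N →ₗᵢ[ℝ] E} {e' : Cfg N' →ₗᵢ[ℝ] E}
    (h : ∀ v v', ⟪e v, e' v'⟫_ℝ = 0) : Perp (ofEmb e) (ofEmb e') := by
  constructor
  · intro v'
    rw [emb_ofEmb]
    refine fst_ofEmb_eq e fun v => ?_
    rw [real_inner_comm, h, inner_zero_left]
  · intro v
    rw [emb_ofEmb]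
    refine fst_ofEmb_eq e' fun v' => ?_
    rw [h, inner_zero_left]

end ofEmb

/-! ### Families of perpendicular blocks -/

section family

variable {P : Type*} {k : P → ℕ} {F₁ : P → Type*} [∀ p, NormedAddCommGroup (F₁ p)]
  [∀ p, InnerProductSpace ℂ (F₁ p)] [∀ p, FiniteDimensional ℂ (F₁ p)]
  {F : Type*} [NormedAddCommGroup F] [InnerProductSpace ℂ F] [FiniteDimensional ℂ F]
  {ι : P → Type*} [∀ p, Fintype (ι p)] [∀ p, DecidableEq (ι p)]
  {E : Type*} [NormedAddCommGroup E] [InnerProductSpace ℝ E] [FiniteDimensional ℝ E]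
  [MeasurableSpace E] [BorelSpace E] {E' : P → Type*} [∀ p, NormedAddCommGroup (E' p)]
  [∀ p, InnerProductSpace ℝ (E' p)] [∀ p, FiniteDimensional ℝ (E' p)]
  [∀ p, MeasurableSpace (E' p)] [∀ p, BorelSpace (E' p)]
  {b : ∀ p, ColorBasis (k p)} {M : ∀ p, FermionRep (k p) (F₁ p)}
  {R : ∀ p, GaugeAction (b p) (M p)} {G : GammaNine} {g m : ℝ}
  {θ : ∀ p, Fin 16 → Fin (k p ^ 2 - 1) → (F →ₗ[ℂ] F)}

/-- the regions `‖y_p‖ ≤ δ` -/
def ballS (T : ∀ p, E ≃ₗᵢ[ℝ] WithLp 2 (Cfg (k p) × E' p)) (δ : ℝ) (p : P) : Set E :=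
  {x | ‖(T p x).fst‖ ≤ δ}

theorem measurableSet_ballS (T : ∀ p, E ≃ₗᵢ[ℝ] WithLp 2 (Cfg (k p) × E' p)) (δ : ℝ) (p : P) :
    MeasurableSet (ballS T δ p) :=
  measurableSet_le (measurable_fst (T p)).norm measurable_const

theorem comS_family (T : ∀ p, E ≃ₗᵢ[ℝ] WithLp 2 (Cfg (k p) × E' p))
    (hT : ∀ p q, p ≠ q → Perp (T p) (T q)) (L : ∀ p, Mult (M p) (θ p) (ι p))
    (ψ : ∀ p, Cfg (k p) → F₁ p) (δ : ℝ) {p q : P} (hpq : p ≠ q) :
    ComS (pproj (T p) (L p) (ψ p) : (E → F) → E → F) (ballS T δ q) :=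
  comS_pproj (T p) (L p) (ψ p) fun y y' x' =>
    (hT p q hpq).region {y | ‖y‖ ≤ δ} y y' x'

/-- **Capture for several blocks**: `∫_{∀ p, ‖y_p‖ ≤ δ} |φ - Πφ|²`. -/
theorem blocks_capture (T : ∀ p, E ≃ₗᵢ[ℝ] WithLp 2 (Cfg (k p) × E' p))
    (hT : ∀ p q, p ≠ q → Perp (T p) (T q)) (L : ∀ p, Mult (M p) (θ p) (ι p))
    {ψ : ∀ p, Cfg (k p) → F₁ p} (hψ : ∀ p, MemLp (ψ p) 2 volume)
    (hψ1 : ∀ p, ∫ y, ‖ψ p y‖ ^ 2 = 1) {c s : ℝ} (hc : 0 < c) (hs : 0 < s)
    (hlow : ∀ p, Low (b p) (M p) (R p) G g m c (hws s) (ψ p))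
    {φ : E → F} (hφ : ContDiff ℝ 1 φ) (hcs : HasCompactSupport φ)
    (hcore : ∀ p w x', IsCoreVec (b p) (R p) fun y => (L p).comp w (fib (T p) φ x' y))
    (l : List P) (hl : l.Nodup) (δ : ℝ) :
    ∫ x in {x | ∀ p ∈ l, ‖(T p x).fst‖ ≤ δ},
        ‖φ x - lprod (fun p => pproj (T p) (L p) (ψ p)) l φ x‖ ^ 2 ≤
      l.length * ((s + δ ^ 2) / c * ((1 / 16 : ℝ) * (l.map fun p =>
        ∑ α : Fin 16, ∫ x, ‖pcharge (T p) (b p) (θ p) G g m α φ x‖ ^ 2).sum)) := by
  have hφ2 : MemLp φ 2 volume := hφ.continuous.memLp_of_hasCompactSupport hcs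
  have h1 := lprod_sq_le (μ := (volume : Measure E)) (F := F)
    (Pr := fun p => pproj (T p) (L p) (ψ p)) (S := ballS T δ) l hl
    (fun p _ => isPJ_pproj (T p) (L p) (hψ p) (hψ1 p)) (fun p _ => measurableSet_ballS T δ p)
    (fun p _ q _ hpq => comS_family T hT L ψ δ hpq) hφ2
  refine h1.trans (mul_le_mul_of_nonneg_left ?_ (Nat.cast_nonneg _))
  have h2 : ∀ L' : List P, (L'.map fun p => ∫ x in ballS T δ p,
      ‖φ x - pproj (T p) (L p) (ψ p) φ x‖ ^ 2).sum ≤
      (s + δ ^ 2) / c * ((1 / 16 : ℝ) * (L'.map fun p =>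
        ∑ α : Fin 16, ∫ x, ‖pcharge (T p) (b p) (θ p) G g m α φ x‖ ^ 2).sum) := by
    intro L'
    induction L' with
    | nil => simp
    | cons p L' ih =>
      simp only [List.map_cons, List.sum_cons]
      have h3 := (hlow p).capture_ball hc hs (T p) (L p) (hψ p) hφ hcs (hcore p) δ
      have h4 : (s + δ ^ 2) / c * ((1 / 16 : ℝ) *
          ((∑ α : Fin 16, ∫ x, ‖pcharge (T p) (b p) (θ p) G g m α φ x‖ ^ 2) +
          (L'.map fun p => ∑ α : Fin 16, ∫ x, ‖pcharge (T p) (b p) (θ p) G g m α φ x‖ ^ 2).sum)) =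
          (s + δ ^ 2) / c * ((1 / 16 : ℝ) *
          ∑ α : Fin 16, ∫ x, ‖pcharge (T p) (b p) (θ p) G g m α φ x‖ ^ 2) +
          (s + δ ^ 2) / c * ((1 / 16 : ℝ) *
          (L'.map fun p => ∑ α : Fin 16, ∫ x, ‖pcharge (T p) (b p) (θ p) G g m α φ x‖ ^ 2).sum) := by
        ring
      rw [h4]
      exact add_le_add h3 ih
  exact h2 l

variable [Fintype P] [DecidableEq P]

/-- **No cross terms**: the total charge of the blocks and of an operator `D` without cross terms with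
them. -/
theorem blocks_charge (T : ∀ p, E ≃ₗᵢ[ℝ] WithLp 2 (Cfg (k p) × E' p))
    (hT : ∀ p q, p ≠ q → Perp (T p) (T q)) (hsym : ∀ p, SymT (θ p))
    (hanti : ∀ p q, p ≠ q → AntiT (θ p) (θ q)) (b : ∀ p, ColorBasis (k p)) (G : GammaNine)
    (g m : ℝ) {φ : E → F} (hφ : ContDiff ℝ 2 φ) (hcs : HasCompactSupport φ)
    {D : E → F} (hD : MemLp D 2 volume) (α : Fin 16)
    (hcr : ∀ p, (∫ x, ⟪D x, pcharge (T p) (b p) (θ p) G g m α φ x⟫_ℂ) +
      ∫ x, ⟪pcharge (T p) (b p) (θ p) G g m α φ x, D x⟫_ℂ = 0) :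
    (∑ p, ∫ x, ‖pcharge (T p) (b p) (θ p) G g m α φ x‖ ^ 2) + ∫ x, ‖D x‖ ^ 2 =
      ∫ x, ‖(∑ p, pcharge (T p) (b p) (θ p) G g m α φ x) + D x‖ ^ 2 := by
  have hm : ∀ p, MemLp (pcharge (T p) (b p) (θ p) G g m α φ) 2 volume := fun p =>
    (continuous_pcharge (T p) (hφ.of_le (by norm_num)) α).memLp_of_hasCompactSupport
      (hasCompactSupport_pcharge (T p) hcs α)
  have h1 := norm_sq_sum_of_cross (μ := (volume : Measure E)) (Finset.univ : Finset P)
    (u := fun p => pcharge (T p) (b p) (θ p) G g m α φ) (fun p _ => hm p)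
    (fun p _ q _ hpq => pcharge_cross (hT p q hpq) (b p) (b q) (hsym p) (hsym q)
      (hanti p q hpq) G g m α hφ hφ hcs hcs)
  have hsum : MemLp (fun x => ∑ p, pcharge (T p) (b p) (θ p) G g m α φ x) 2 volume :=
    memLp_finset_sum _ fun p _ => hm p
  rw [← h1, norm_sq_add_of_cross hsum hD]
  simp only [inner_sum, sum_inner]
  rw [integral_finset_sum _ fun p _ => integrable_inner_of_memLp (hm p) hD,
    integral_finset_sum _ fun p _ => integrable_inner_of_memLp hD (hm p),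
    ← Finset.sum_add_distrib]
  refine Finset.sum_eq_zero fun p _ => ?_
  rw [add_comm]
  exact hcr p

/-- **Capture for all blocks, in terms of the total charges** `A_α φ = ∑_p Q_α^{(p)} φ + D_α`. -/
theorem blocks_capture_total (T : ∀ p, E ≃ₗᵢ[ℝ] WithLp 2 (Cfg (k p) × E' p))
    (hT : ∀ p q, p ≠ q → Perp (T p) (T q)) (hanti : ∀ p q, p ≠ q → AntiT (θ p) (θ q))
    (L : ∀ p, Mult (M p) (θ p) (ι p))
    {ψ : ∀ p, Cfg (k p) → F₁ p} (hψ : ∀ p, MemLp (ψ p) 2 volume)
    (hψ1 : ∀ p, ∫ y, ‖ψ p y‖ ^ 2 = 1) {c s : ℝ} (hc : 0 < c) (hs : 0 < s)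
    (hlow : ∀ p, Low (b p) (M p) (R p) G g m c (hws s) (ψ p))
    {φ : E → F} (hφ : ContDiff ℝ 2 φ) (hcs : HasCompactSupport φ)
    (hcore : ∀ p w x', IsCoreVec (b p) (R p) fun y => (L p).comp w (fib (T p) φ x' y))
    {D : Fin 16 → E → F} (hD : ∀ α, MemLp (D α) 2 volume)
    (hcr : ∀ α p, (∫ x, ⟪D α x, pcharge (T p) (b p) (θ p) G g m α φ x⟫_ℂ) +
      ∫ x, ⟪pcharge (T p) (b p) (θ p) G g m α φ x, D α x⟫_ℂ = 0) (δ : ℝ) :
    ∫ x in {x | ∀ p, ‖(T p x).fst‖ ≤ δ},
        ‖φ x - lprod (fun p => pproj (T p) (L p) (ψ p)) Finset.univ.toList φ x‖ ^ 2 ≤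
      Fintype.card P * ((s + δ ^ 2) / c * ((1 / 16 : ℝ) * ∑ α : Fin 16,
        ∫ x, ‖(∑ p, pcharge (T p) (b p) (θ p) G g m α φ x) + D α x‖ ^ 2)) := by
  have h1 := blocks_capture T hT L hψ hψ1 hc hs hlow (hφ.of_le (by norm_num)) hcs hcore
    Finset.univ.toList (Finset.nodup_toList _) δ
  have e1 : {x : E | ∀ p ∈ (Finset.univ : Finset P).toList, ‖(T p x).fst‖ ≤ δ} =
      {x | ∀ p, ‖(T p x).fst‖ ≤ δ} := by
    ext x
    simp
  have e2 : ((Finset.univ : Finset P).toList.length : ℝ) = Fintype.card P := by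
    rw [Finset.length_toList, Finset.card_univ]
  rw [e1, e2] at h1
  refine h1.trans (mul_le_mul_of_nonneg_left (mul_le_mul_of_nonneg_left
    (mul_le_mul_of_nonneg_left ?_ (by norm_num)) ?_) (Nat.cast_nonneg _))
  · rw [Finset.sum_map_toList, Finset.sum_comm]
    refine Finset.sum_le_sum fun α _ => ?_
    rw [← blocks_charge T hT (fun p => (L p).symT) hanti b G g m hφ hcs (hD α) α (hcr α)]
    exact le_add_of_nonneg_right (integral_nonneg fun x => sq_nonneg _)
  · positivity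

end family

end Crest.Agent.R330.Prod494

end
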