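import Crest.Agent.R330.Decoup_924

/-!
# Row 330, S7 (CC) / S9 capture: parity decoupling, part 2 (helper924)

`decouple` : `Σ ‖A_α Φ‖² + ½ Σ ‖B_α Φ‖² ≤ Σ ‖(A_α + B_α) Φ‖² + 2 n² K² K₁ ‖Φ‖²` where the cross term
is controlled by the odd part of `Φ` with respect to a parity `Γ` which commutes with the
coefficients of the `A_α` and anticommutes with those of the `B_α`.
-/

set_option autoImplicit false
set_option linter.unusedSectionVars false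

noncomputable section

namespace Crest.Agent.R330.Decoup924

open MeasureTheory Filter Topology
open scoped ContDiff InnerProductSpace ENNReal
open Crest.Agent.R330.IBP837

variable {F : Type*} [NormedAddCommGroup F] [InnerProductSpace ℂ F]

/-! ### projections of a parity -/

/-- even projection -/
def Pe (Γ : F →L[ℝ] F) : F →L[ℝ] F := (1 / 2 : ℝ) • (ContinuousLinearMap.id ℝ F + Γ)

/-- odd projection -/
def Po (Γ : F →L[ℝ] F) : F →L[ℝ] F := (1 / 2 : ℝ) • (ContinuousLinearMap.id ℝ F - Γ)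

theorem Pe_apply (Γ : F →L[ℝ] F) (v : F) : Pe Γ v = (1 / 2 : ℝ) • (v + Γ v) := rfl

theorem Po_apply (Γ : F →L[ℝ] F) (v : F) : Po Γ v = (1 / 2 : ℝ) • (v - Γ v) := rfl

theorem Pe_add_Po (Γ : F →L[ℝ] F) (v : F) : Pe Γ v + Po Γ v = v := by
  rw [Pe_apply, Po_apply, ← smul_add]
  have : v + Γ v + (v - Γ v) = (2 : ℝ) • v := by rw [two_smul]; abel
  rw [this, smul_smul]
  norm_num

section par

variable {Γ : F →L[ℝ] F} (hΓ : ∀ v, Γ (Γ v) = v) (hs : Symm Γ)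

include hΓ in
theorem Γ_Pe (v : F) : Γ (Pe Γ v) = Pe Γ v := by
  rw [Pe_apply, map_smul, map_add, hΓ, add_comm]

include hΓ in
theorem Γ_Po (v : F) : Γ (Po Γ v) = -Po Γ v := by
  rw [Po_apply, map_smul, map_sub, hΓ, ← smul_neg, neg_sub]

include hs in
theorem inner_eo {u v : F} (hu : Γ u = u) (hv : Γ v = -v) : ⟪u, v⟫_ℂ = 0 := by
  have h1 : ⟪u, v⟫_ℂ = -⟪u, v⟫_ℂ := by
    calc ⟪u, v⟫_ℂ = ⟪Γ u, v⟫_ℂ := by rw [hu]
      _ = ⟪u, Γ v⟫_ℂ := hs _ _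
      _ = -⟪u, v⟫_ℂ := by rw [hv, inner_neg_right]
  have h2 : (2 : ℂ) * ⟪u, v⟫_ℂ = 0 := by
    rw [two_mul]; nth_rewrite 1 [h1]; ring
  simpa using h2

include hΓ hs in
theorem inner_split (u v : F) :
    ⟪u, v⟫_ℂ = ⟪Pe Γ u, Pe Γ v⟫_ℂ + ⟪Po Γ u, Po Γ v⟫_ℂ := by
  have h1 : ⟪Pe Γ u, Po Γ v⟫_ℂ = 0 := inner_eo hs (Γ_Pe hΓ u) (Γ_Po hΓ v)
  have h2 : ⟪Po Γ u, Pe Γ v⟫_ℂ = 0 := by
    rw [← inner_conj_symm, inner_eo hs (Γ_Pe hΓ v) (Γ_Po hΓ u), map_zero]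
  conv_lhs => rw [← Pe_add_Po Γ u, ← Pe_add_Po Γ v]
  rw [inner_add_left, inner_add_right, inner_add_right, h1, h2]
  ring

include hΓ hs in
theorem norm_split (v : F) : ‖v‖ ^ 2 = ‖Pe Γ v‖ ^ 2 + ‖Po Γ v‖ ^ 2 := by
  have h := inner_split hΓ hs v v
  simp only [inner_self_eq_norm_sq_to_K] at h
  exact_mod_cast h

include hΓ hs in
theorem norm_Pe_le (v : F) : ‖Pe Γ v‖ ^ 2 ≤ ‖v‖ ^ 2 := by
  rw [norm_split hΓ hs v]; nlinarith [sq_nonneg ‖Po Γ v‖]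

include hΓ hs in
theorem norm_Po_le (v : F) : ‖Po Γ v‖ ^ 2 ≤ ‖v‖ ^ 2 := by
  rw [norm_split hΓ hs v]; nlinarith [sq_nonneg ‖Pe Γ v‖]

theorem comm_Pe {T : F →L[ℝ] F} (h : ∀ v, T (Γ v) = Γ (T v)) (v : F) :
    T (Pe Γ v) = Pe Γ (T v) := by
  rw [Pe_apply, Pe_apply, map_smul, map_add, h]

theorem comm_Po {T : F →L[ℝ] F} (h : ∀ v, T (Γ v) = Γ (T v)) (v : F) :
    T (Po Γ v) = Po Γ (T v) := by
  rw [Po_apply, Po_apply, map_smul, map_sub, h]

theorem anti_Pe {T : F →L[ℝ] F} (h : Anti Γ T) (v : F) : T (Pe Γ v) = Po Γ (T v) := by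
  rw [Pe_apply, Po_apply, map_smul, map_add, h v, sub_neg_eq_add]

theorem anti_Po {T : F →L[ℝ] F} (h : Anti Γ T) (v : F) : T (Po Γ v) = Pe Γ (T v) := by
  rw [Pe_apply, Po_apply, map_smul, map_sub, h v, sub_eq_add_neg]

end par

/-! ### the decoupling inequality -/

section dec

variable {E : Type*} [NormedAddCommGroup E] [NormedSpace ℝ E]
  [FiniteDimensional ℝ E] [MeasurableSpace E] [BorelSpace E]
  {μ : Measure E} [μ.IsAddHaarMeasure]
  {κ ι A : Type*} [Fintype κ] [Fintype ι] [Fintype A]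

theorem integrable_sq_of_cont {f : E → F} (hf : Continuous f) (hc : HasCompactSupport f) :
    Integrable (fun x => ‖f x‖ ^ 2) μ := by
  refine (hf.norm.pow 2).integrable_of_hasCompactSupport ?_
  exact hc.mono' fun x hx => subset_tsupport _ (by intro h0; apply hx; simp [h0])

/-- Cauchy-Schwarz for real valued functions with integrable squares -/
theorem integral_mul_le_sqrt {f h : E → ℝ} (hf : Continuous f) (hh : Continuous h)
    (hcf : HasCompactSupport f) (hch : HasCompactSupport h) (hf0 : ∀ x, 0 ≤ f x)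
    (hh0 : ∀ x, 0 ≤ h x) :
    ∫ x, f x * h x ∂μ ≤ Real.sqrt (∫ x, f x ^ 2 ∂μ) * Real.sqrt (∫ x, h x ^ 2 ∂μ) := by
  have h1 : MemLp f (ENNReal.ofReal 2) μ := hf.memLp_of_hasCompactSupport hcf
  have h2 : MemLp h (ENNReal.ofReal 2) μ := hh.memLp_of_hasCompactSupport hch
  have := integral_mul_le_Lp_mul_Lq_of_nonneg (μ := μ) (p := 2) (q := 2)
    (by norm_num [Real.holderConjugate_iff]) (Eventually.of_forall hf0) (Eventually.of_forall hh0)
    h1 h2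
  simpa [Real.sqrt_eq_rpow] using this

/-- the square of the density controlling the cross term -/
def dd (v : ι → E) (ρ : E → ℝ) (h : E → F) (x : E) : ℝ :=
  ∑ i, ‖fderiv ℝ h x (v i)‖ ^ 2 + ρ x ^ 2 * ‖h x‖ ^ 2

theorem dd_nonneg (v : ι → E) (ρ : E → ℝ) (h : E → F) (x : E) : 0 ≤ dd v ρ h x := by
  unfold dd; positivity

theorem continuous_dd {v : ι → E} {ρ : E → ℝ} (hρ : Continuous ρ) {h : E → F}
    (hh : ContDiff ℝ 1 h) : Continuous (dd v ρ h) := by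
  unfold dd
  refine Continuous.add (continuous_finsetSum _ fun i _ => ?_) ?_
  · exact (fderiv_apply_continuous hh (v i)).norm.pow 2
  · exact (hρ.pow 2).mul (hh.continuous.norm.pow 2)

theorem hasCompactSupport_dd {v : ι → E} {ρ : E → ℝ} {h : E → F} (hh : HasCompactSupport h) :
    HasCompactSupport (dd v ρ h) := by
  refine hh.mono' fun x hx => ?_
  by_contra h0
  apply hx
  have h1 : h =ᶠ[𝓝 x] 0 := notMem_tsupport_iff_eventuallyEq.mp h0
  have h2 : fderiv ℝ h x = 0 := by rw [h1.fderiv_eq]; simp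
  have h3 : h x = 0 := h1.eq_of_nhds
  simp [dd, h2, h3]

/-- **Parity decoupling.** -/
theorem decouple {e : κ → E} {a : A → κ → F →L[ℝ] F} {w : A → E → F →L[ℝ] F}
    {v : ι → E} {β : A → ι → E → F →L[ℝ] F} {p : A → E → F →L[ℝ] F}
    (hw : ∀ α, ContDiff ℝ 1 (w α)) (hβ : ∀ α i, ContDiff ℝ 1 (β α i))
    (hp : ∀ α, ContDiff ℝ 1 (p α))
    (has : ∀ α k, Skew (a α k)) (hws : ∀ α x, Symm (w α x))
    (hβs : ∀ α i x, Skew (β α i x)) (hps : ∀ α x, Symm (p α x))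
    (hvβ : ∀ α i x, fderiv ℝ (β α i) x (v i) = 0) (hvw : ∀ α i x, fderiv ℝ (w α) x (v i) = 0)
    (haβ : ∀ α k i x, Anti (a α k) (β α i x)) (hap : ∀ α k x, Anti (a α k) (p α x))
    (hwβ : ∀ α i x, Anti (w α x) (β α i x)) (hwp : ∀ α x, Anti (w α x) (p α x))
    {Γ : F →L[ℝ] F} (hΓ : ∀ u, Γ (Γ u) = u) (hΓs : Symm Γ)
    (hΓa : ∀ α k u, a α k (Γ u) = Γ (a α k u)) (hΓw : ∀ α x u, w α x (Γ u) = Γ (w α x u))
    (hΓβ : ∀ α i x, Anti Γ (β α i x)) (hΓp : ∀ α x, Anti Γ (p α x))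
    {ρ : E → ℝ} (hρ : Continuous ρ) {Φ : E → F} (hΦ : ContDiff ℝ 2 Φ)
    (hcΦ : HasCompactSupport Φ) {K K₁ : ℝ} (hK : 0 ≤ K) (hK₁ : 0 ≤ K₁)
    (hX : ∀ α x, ‖∑ k, a α k (dop (e k) v (β α) (p α) (fun y => Po Γ (Φ y)) x)‖ ≤
      K * Real.sqrt (dd v ρ (fun y => Po Γ (Φ y)) x))
    (hodd : ∫ x, dd v ρ (fun y => Po Γ (Φ y)) x ∂μ ≤
      K₁ * ∑ α, ∫ x, ‖op v (β α) (p α) (fun y => Po Γ (Φ y)) x‖ ^ 2 ∂μ) :
    ∑ α, ∫ x, ‖op e (fun k _ => a α k) (w α) Φ x‖ ^ 2 ∂μ +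
      (1 / 2) * ∑ α, ∫ x, ‖op v (β α) (p α) Φ x‖ ^ 2 ∂μ ≤
    ∑ α, ∫ x, ‖op e (fun k _ => a α k) (w α) Φ x + op v (β α) (p α) Φ x‖ ^ 2 ∂μ +
      2 * (Fintype.card A : ℝ) ^ 2 * K ^ 2 * K₁ * ∫ x, ‖Φ x‖ ^ 2 ∂μ := by
  classical
  set f : E → F := fun y => Pe Γ (Φ y) with hf_def
  set h : E → F := fun y => Po Γ (Φ y) with hh_def
  have hf : ContDiff ℝ 2 f := (Pe Γ).contDiff.comp hΦ
  have hh : ContDiff ℝ 2 h := (Po Γ).contDiff.comp hΦ
  have hcf : HasCompactSupport f :=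
    hcΦ.mono' fun x hx => subset_tsupport _ (by intro h0; apply hx; simp [hf_def, h0])
  have hch : HasCompactSupport h :=
    hcΦ.mono' fun x hx => subset_tsupport _ (by intro h0; apply hx; simp [hh_def, h0])
  have hΦ1 := cd_one_of_two hΦ
  have dΦ : ∀ x, DifferentiableAt ℝ Φ x := fun x => hΦ.differentiable (by norm_num) x
  -- names
  let Aα : A → (E → F) → E → F := fun α u => op e (fun k _ => a α k) (w α) u
  let Bα : A → (E → F) → E → F := fun α u => op v (β α) (p α) u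
  have cA : ∀ α, Continuous (Aα α Φ) := fun α =>
    (contDiff_op (n := 2) (m := 1) (by norm_num) (fun _ => contDiff_const) (hw α) hΦ).continuous
  have cB : ∀ α, Continuous (Bα α Φ) := fun α =>
    (contDiff_op (n := 2) (m := 1) (by norm_num) (hβ α) (hp α) hΦ).continuous
  have sA : ∀ α, HasCompactSupport (Aα α Φ) := fun α => hasCompactSupport_op hcΦ
  have sB : ∀ α, HasCompactSupport (Bα α Φ) := fun α => hasCompactSupport_op hcΦ
  have Af : ∀ α x, Aα α f x = Pe Γ (Aα α Φ x) := fun α x =>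
    op_clm_comm (fun k u => comm_Pe (hΓa α k) u) (fun u => comm_Pe (hΓw α x) u) (dΦ x)
  have Ah : ∀ α x, Aα α h x = Po Γ (Aα α Φ x) := fun α x =>
    op_clm_comm (fun k u => comm_Po (hΓa α k) u) (fun u => comm_Po (hΓw α x) u) (dΦ x)
  have Bf : ∀ α x, Bα α f x = Po Γ (Bα α Φ x) := fun α x => by
    change op v (β α) (p α) (fun y => Pe Γ (Φ y)) x = _
    rw [op_clm _ (dΦ x)]
    simp only [Bα, op, map_add, map_sum, anti_Pe (hΓβ α _ x), anti_Pe (hΓp α x)]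
  have Bh : ∀ α x, Bα α h x = Pe Γ (Bα α Φ x) := fun α x => by
    change op v (β α) (p α) (fun y => Po Γ (Φ y)) x = _
    rw [op_clm _ (dΦ x)]
    simp only [Bα, op, map_add, map_sum, anti_Po (hΓβ α _ x), anti_Po (hΓp α x)]
  -- expansion of the square
  have hexp : ∀ α, ∫ x, ‖Aα α Φ x + Bα α Φ x‖ ^ 2 ∂μ = ∫ x, ‖Aα α Φ x‖ ^ 2 ∂μ +
      ∫ x, ‖Bα α Φ x‖ ^ 2 ∂μ + 2 * (∫ x, ⟪Aα α Φ x, Bα α Φ x⟫_ℂ ∂μ).re := by
    intro α
    have i1 := integrable_sq_of_cont (μ := μ) (cA α) (sA α)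
    have i2 := integrable_sq_of_cont (μ := μ) (cB α) (sB α)
    have i3 : Integrable (fun x => ⟪Aα α Φ x, Bα α Φ x⟫_ℂ) μ :=
      integrable_inner_of_cont (cA α) (cB α) (Or.inl (sA α))
    have e3 : (∫ x, ⟪Aα α Φ x, Bα α Φ x⟫_ℂ ∂μ).re = ∫ x, (⟪Aα α Φ x, Bα α Φ x⟫_ℂ).re ∂μ := by
      have := (integral_re i3).symm
      simpa using this
    have i12 : Integrable (fun x => ‖Aα α Φ x‖ ^ 2 + ‖Bα α Φ x‖ ^ 2) μ := i1.add i2
    have i3r : Integrable (fun x => 2 * (⟪Aα α Φ x, Bα α Φ x⟫_ℂ).re) μ := (i3.re).const_mul 2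
    rw [e3, ← integral_const_mul, ← integral_add i1 i2, ← integral_add i12 i3r]
    refine integral_congr_ae (Eventually.of_forall fun x => ?_)
    have := norm_add_sq (𝕜 := ℂ) (Aα α Φ x) (Bα α Φ x)
    simp only [RCLike.re_to_complex] at this
    simp only
    rw [this]
    ring
  -- the cross term
  have hcross : ∀ α, (∫ x, ⟪Aα α Φ x, Bα α Φ x⟫_ℂ ∂μ).re =
      (∫ x, ⟪f x, ∑ k, a α k (dop (e k) v (β α) (p α) h x)⟫_ℂ ∂μ).re := by
    intro α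
    have hid := cross_identity (μ := μ) (e := e) (hw α) (hβ α) (hp α) (has α) (hws α) (hβs α) (hps α)
      (hvβ α) (hvw α) (haβ α) (hap α) (hwβ α) (hwp α) hf hh hcf hch
    have j1 : Integrable (fun x => ⟪Aα α f x, Bα α h x⟫_ℂ) μ := by
      refine integrable_inner_of_cont ?_ ?_ (Or.inl (hasCompactSupport_op hcf))
      · exact (contDiff_op (n := 2) (m := 1) (by norm_num) (fun _ => contDiff_const) (hw α)
          hf).continuous
      · exact (contDiff_op (n := 2) (m := 1) (by norm_num) (hβ α) (hp α) hh).continuous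
    have j2 : Integrable (fun x => ⟪Bα α f x, Aα α h x⟫_ℂ) μ := by
      refine integrable_inner_of_cont ?_ ?_ (Or.inl (hasCompactSupport_op hcf))
      · exact (contDiff_op (n := 2) (m := 1) (by norm_num) (hβ α) (hp α) hf).continuous
      · exact (contDiff_op (n := 2) (m := 1) (by norm_num) (fun _ => contDiff_const) (hw α)
          hh).continuous
    have j3 : Integrable (fun x => ⟪Aα α Φ x, Bα α Φ x⟫_ℂ) μ :=
      integrable_inner_of_cont (cA α) (cB α) (Or.inl (sA α))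
    rw [← hid]
    rw [Complex.add_re]
    have r1 : (∫ x, ⟪Aα α f x, Bα α h x⟫_ℂ ∂μ).re = ∫ x, (⟪Aα α f x, Bα α h x⟫_ℂ).re ∂μ := by
      simpa using (integral_re j1).symm
    have r2 : (∫ x, ⟪Bα α f x, Aα α h x⟫_ℂ ∂μ).re = ∫ x, (⟪Bα α f x, Aα α h x⟫_ℂ).re ∂μ := by
      simpa using (integral_re j2).symm
    have r3 : (∫ x, ⟪Aα α Φ x, Bα α Φ x⟫_ℂ ∂μ).re = ∫ x, (⟪Aα α Φ x, Bα α Φ x⟫_ℂ).re ∂μ := by
      simpa using (integral_re j3).symm
    change _ = (∫ x, ⟪Aα α f x, Bα α h x⟫_ℂ ∂μ).re + (∫ x, ⟪Bα α f x, Aα α h x⟫_ℂ ∂μ).re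
    have j1r : Integrable (fun x => (⟪Aα α f x, Bα α h x⟫_ℂ).re) μ := j1.re
    have j2r : Integrable (fun x => (⟪Bα α f x, Aα α h x⟫_ℂ).re) μ := j2.re
    rw [r1, r2, r3, ← integral_add j1r j2r]
    refine integral_congr_ae (Eventually.of_forall fun x => ?_)
    simp only
    rw [inner_split hΓ hΓs (Aα α Φ x) (Bα α Φ x), Af, Bh, Bf, Ah, Complex.add_re]
    congr 1
    rw [← inner_conj_symm, Complex.conj_re]
  -- bound of the cross term
  have cdd : Continuous (fun x => Real.sqrt (dd v ρ h x)) :=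
    Real.continuous_sqrt.comp (continuous_dd hρ (cd_one_of_two hh))
  have sdd : HasCompactSupport (fun x => Real.sqrt (dd v ρ h x)) :=
    (hasCompactSupport_dd (v := v) (ρ := ρ) hch).comp_left Real.sqrt_zero
  have hbound : ∀ α, |(∫ x, ⟪f x, ∑ k, a α k (dop (e k) v (β α) (p α) h x)⟫_ℂ ∂μ).re| ≤
      K * (Real.sqrt (∫ x, ‖Φ x‖ ^ 2 ∂μ) * Real.sqrt (∫ x, dd v ρ h x ∂μ)) := by
    intro α
    calc |(∫ x, ⟪f x, ∑ k, a α k (dop (e k) v (β α) (p α) h x)⟫_ℂ ∂μ).re|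
        ≤ ‖∫ x, ⟪f x, ∑ k, a α k (dop (e k) v (β α) (p α) h x)⟫_ℂ ∂μ‖ := Complex.abs_re_le_norm _
      _ ≤ ∫ x, K * (‖f x‖ * Real.sqrt (dd v ρ h x)) ∂μ := by
          refine norm_integral_le_of_norm_le ?_ (Eventually.of_forall fun x => ?_)
          · refine Integrable.const_mul ?_ K
            refine (hf.continuous.norm.mul cdd).integrable_of_hasCompactSupport ?_
            exact sdd.mul_left
          · calc ‖⟪f x, ∑ k, a α k (dop (e k) v (β α) (p α) h x)⟫_ℂ‖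
                ≤ ‖f x‖ * ‖∑ k, a α k (dop (e k) v (β α) (p α) h x)‖ := norm_inner_le_norm _ _
              _ ≤ ‖f x‖ * (K * Real.sqrt (dd v ρ h x)) := by
                  gcongr
                  exact hX α x
              _ = K * (‖f x‖ * Real.sqrt (dd v ρ h x)) := by ring
      _ = K * ∫ x, ‖f x‖ * Real.sqrt (dd v ρ h x) ∂μ := integral_const_mul _ _
      _ ≤ K * (Real.sqrt (∫ x, ‖f x‖ ^ 2 ∂μ) * Real.sqrt (∫ x, Real.sqrt (dd v ρ h x) ^ 2 ∂μ)) := by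
          gcongr
          exact integral_mul_le_sqrt hf.continuous.norm cdd
            (hcf.norm) sdd (fun x => norm_nonneg _) (fun x => Real.sqrt_nonneg _)
      _ ≤ K * (Real.sqrt (∫ x, ‖Φ x‖ ^ 2 ∂μ) * Real.sqrt (∫ x, dd v ρ h x ∂μ)) := by
          have e1 : ∀ x, Real.sqrt (dd v ρ h x) ^ 2 = dd v ρ h x := fun x =>
            Real.sq_sqrt (dd_nonneg _ _ _ _)
          simp only [e1]
          have e2 : ∫ x, ‖f x‖ ^ 2 ∂μ ≤ ∫ x, ‖Φ x‖ ^ 2 ∂μ :=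
            integral_mono (integrable_sq_of_cont hf.continuous hcf)
              (integrable_sq_of_cont hΦ.continuous hcΦ) fun x => norm_Pe_le hΓ hΓs _
          gcongr
  have hBh : ∑ α, ∫ x, ‖Bα α h x‖ ^ 2 ∂μ ≤ ∑ α, ∫ x, ‖Bα α Φ x‖ ^ 2 ∂μ := by
    refine Finset.sum_le_sum fun α _ => ?_
    refine integral_mono_of_nonneg (Eventually.of_forall fun x => by positivity)
      (integrable_sq_of_cont (cB α) (sB α)) (Eventually.of_forall fun x => ?_)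
    simp only
    rw [Bh]
    exact norm_Pe_le hΓ hΓs _
  -- final computation
  set SA := ∑ α, ∫ x, ‖Aα α Φ x‖ ^ 2 ∂μ with hSA
  set SB := ∑ α, ∫ x, ‖Bα α Φ x‖ ^ 2 ∂μ with hSB
  set M := ∫ x, ‖Φ x‖ ^ 2 ∂μ with hM
  set D := ∫ x, dd v ρ h x ∂μ with hD
  have hM0 : 0 ≤ M := integral_nonneg fun x => by positivity
  have hD0 : 0 ≤ D := integral_nonneg fun x => dd_nonneg _ _ _ _
  have hSB0 : 0 ≤ SB := Finset.sum_nonneg fun α _ => integral_nonneg fun x => by positivity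
  have hDle : D ≤ K₁ * SB := hodd.trans (mul_le_mul_of_nonneg_left hBh hK₁)
  have htot : ∑ α, ∫ x, ‖Aα α Φ x + Bα α Φ x‖ ^ 2 ∂μ = SA + SB +
      ∑ α, 2 * (∫ x, ⟪Aα α Φ x, Bα α Φ x⟫_ℂ ∂μ).re := by
    rw [hSA, hSB, ← Finset.sum_add_distrib, ← Finset.sum_add_distrib]
    exact Finset.sum_congr rfl fun α _ => hexp α
  have hsum : -((Fintype.card A : ℝ) * (2 * (K * (Real.sqrt M * Real.sqrt D)))) ≤
      ∑ α, 2 * (∫ x, ⟪Aα α Φ x, Bα α Φ x⟫_ℂ ∂μ).re := by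
    have h1 : ∀ α ∈ (Finset.univ : Finset A), -(2 * (K * (Real.sqrt M * Real.sqrt D))) ≤
        2 * (∫ x, ⟪Aα α Φ x, Bα α Φ x⟫_ℂ ∂μ).re := by
      intro α _
      have h2 := (abs_le.1 (hbound α)).1
      rw [hcross α]
      linarith
    have h3 := Finset.sum_le_sum h1
    simp only [Finset.sum_const, Finset.card_univ, nsmul_eq_mul] at h3
    linarith
  have hn0 : (0 : ℝ) ≤ Fintype.card A := Nat.cast_nonneg _
  have hfin : (Fintype.card A : ℝ) * (2 * (K * (Real.sqrt M * Real.sqrt D))) ≤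
      (1 / 2) * SB + 2 * (Fintype.card A : ℝ) ^ 2 * K ^ 2 * K₁ * M := by
    have h4 : Real.sqrt D ≤ Real.sqrt (K₁ * SB) := Real.sqrt_le_sqrt hDle
    have h5 : Real.sqrt (K₁ * SB) = Real.sqrt K₁ * Real.sqrt SB := Real.sqrt_mul hK₁ _
    have h6 : Real.sqrt SB ^ 2 = SB := Real.sq_sqrt hSB0
    have h7 : Real.sqrt M ^ 2 = M := Real.sq_sqrt hM0
    have h8 : Real.sqrt K₁ ^ 2 = K₁ := Real.sq_sqrt hK₁
    calc (Fintype.card A : ℝ) * (2 * (K * (Real.sqrt M * Real.sqrt D)))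
        ≤ (Fintype.card A : ℝ) * (2 * (K * (Real.sqrt M * (Real.sqrt K₁ * Real.sqrt SB)))) := by
          rw [← h5]; gcongr
      _ = 2 * (((Fintype.card A : ℝ) * K * Real.sqrt K₁ * Real.sqrt M) * Real.sqrt SB) := by ring
      _ ≤ (1 / 2) * SB + 2 * ((Fintype.card A : ℝ) * K * Real.sqrt K₁ * Real.sqrt M) ^ 2 := by
          nlinarith [sq_nonneg (2 * ((Fintype.card A : ℝ) * K * Real.sqrt K₁ * Real.sqrt M) -
            Real.sqrt SB)]
      _ = (1 / 2) * SB + 2 * (Fintype.card A : ℝ) ^ 2 * K ^ 2 * K₁ * M := by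
          rw [mul_pow, mul_pow, mul_pow, h8, h7]; ring
  change SA + (1 / 2) * SB ≤ ∑ α, ∫ x, ‖Aα α Φ x + Bα α Φ x‖ ^ 2 ∂μ + _
  rw [htot]
  linarith

end dec

end Crest.Agent.R330.Decoup924
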