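import Crest.Agent.R330.Bind6b_839
import Crest.Agent.R330.Decoup2_924

/-!
# Row 330, S7-R (helper342): Lemma R on the fixed slice, part 1

Slice coordinates `(u, z) ∈ Uk b c × Zs b c`, `x = c + u + z`.

* `Aop`, `Bop` : light and heavy part of the charge in slice coordinates;
* `Bfib`, `Dfib` : heavy part and heavy energy density on a fibre;
* `lemR1` : decoupling, from the fibre inequality on the odd part.
-/

set_option autoImplicit false
set_option linter.unusedSectionVars false

open MeasureTheory Filter Topology Crest.MathPhysics.MatrixQM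
open Crest.Agent.R330.IBP837 Crest.Agent.R330.Defs478 Crest.Agent.R330.Frame839
open Crest.Agent.R330.LS839 Crest.Agent.R330.Clus839 Crest.Agent.R330.Bind6839
open Crest.Agent.R330.Decoup924
open scoped ContDiff InnerProductSpace ENNReal

noncomputable section

namespace Crest.Agent.R330.LemA342

/-- slice coordinates `(u, z)` -/
abbrev Sc {N : ℕ} (b : ColorBasis N) (c : Cfg N) := ↥(Uk b c) × ↥(Zs b c)

section defs

variable {N : ℕ} (b : ColorBasis N) (c : Cfg N)
  {F : Type*} [NormedAddCommGroup F] [InnerProductSpace ℂ F] [FiniteDimensional ℂ F]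
  (M : FermionRep N F) (G : GammaNine) (g m : ℝ) (α : Fin 16)
  {ι κ η : Type*} [Fintype ι] [Fintype κ] [Fintype η]

/-- light part of the charge in slice coordinates -/
def Aop (e : OrthonormalBasis ι ℝ (Uk b c)) (Φ : Sc b c → F) (x : Sc b c) : F :=
  (∑ s, aA M G α (e s) (fderiv ℝ Φ x (e s, 0))) + wA b M G g m α (c + x.1) (Φ x)

/-- heavy part of the charge in slice coordinates -/
def Bop (v : OrthonormalBasis κ ℝ (Zs b c)) (t : OrthonormalBasis η ℝ (Tn (actB b) c))
    (Φ : Sc b c → F) (x : Sc b c) : F :=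
  (∑ i, aB b c M G α t (c + x.1) (v i) (fderiv ℝ Φ x (0, v i))) +
    wB b M G g α (c + x.1) x.2 (Φ x)

/-- heavy part at `p` on a fibre -/
def Bfib (v : OrthonormalBasis κ ℝ (Zs b c)) (t : OrthonormalBasis η ℝ (Tn (actB b) c))
    (p : Cfg N) (f : Zs b c → F) (z : Zs b c) : F :=
  (∑ i, aB b c M G α t p (v i) (fderiv ℝ f z (v i))) + wB b M G g α p z (f z)

/-- heavy energy density on a fibre -/
def Dfib {b : ColorBasis N} {c : Cfg N} (g : ℝ) (v : OrthonormalBasis κ ℝ (Zs b c))
    (f : Zs b c → F) (z : Zs b c) : ℝ :=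
  ∑ i, ‖fderiv ℝ f z (v i)‖ ^ 2 + g ^ 2 * ‖z‖ ^ 2 * ‖f z‖ ^ 2

variable {b c M G g m α}

/-- restriction to a fibre: derivative -/
theorem fderiv_fibre {Φ : Sc b c → F} {x : Sc b c} (hΦ : DifferentiableAt ℝ Φ x) (w : Zs b c) :
    fderiv ℝ (fun z => Φ (x.1, z)) x.2 w = fderiv ℝ Φ x (0, w) := by
  have h1 : HasFDerivAt (fun z : Zs b c => ((x.1, z) : Sc b c))
      ((0 : Zs b c →L[ℝ] Uk b c).prod (ContinuousLinearMap.id ℝ (Zs b c))) x.2 :=
    (hasFDerivAt_const x.1 x.2).prodMk (hasFDerivAt_id x.2)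
  have h2 : HasFDerivAt Φ (fderiv ℝ Φ x) (x.1, x.2) := hΦ.hasFDerivAt
  have h3 := (h2.comp x.2 h1).fderiv
  simp only [Function.comp_def] at h3
  rw [h3]
  rfl

/-- the heavy part is fibrewise -/
theorem Bop_eq_Bfib (v : OrthonormalBasis κ ℝ (Zs b c))
    (t : OrthonormalBasis η ℝ (Tn (actB b) c)) {Φ : Sc b c → F} {x : Sc b c}
    (hΦ : DifferentiableAt ℝ Φ x) :
    Bop b c M G g α v t Φ x = Bfib b c M G g α v t (c + x.1) (fun z => Φ (x.1, z)) x.2 := by
  unfold Bop Bfib
  simp only [fderiv_fibre hΦ]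

end defs

section coeff

variable {N : ℕ} {b : ColorBasis N} {c : Cfg N}
  {F : Type*} [NormedAddCommGroup F] [InnerProductSpace ℂ F] [FiniteDimensional ℂ F]
  {M : FermionRep N F} {G : GammaNine} {g m : ℝ} {α : Fin 16}
  {ι κ η : Type*} [Fintype ι] [Fintype κ] [Fintype η]

/-- a complex linear map as a real continuous linear map -/
def toR (L : F →ₗ[ℂ] F) : F →L[ℝ] F := (LinearMap.toContinuousLinearMap L).restrictScalars ℝ

theorem toR_apply (L : F →ₗ[ℂ] F) (v : F) : toR L v = L v := rfl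

/-! ### potentials -/

variable (b M G α) in
/-- the bilinear potential -/
def Wq : Cfg N →L[ℝ] Cfg N →L[ℝ] (F →L[ℝ] F) :=
  haveI : FiniteDimensional ℝ F := FiniteDimensional.complexToReal F
  (LinearMap.mk₂ ℝ (fun x y => toR (vco M (fun β A => wb b G α β A x y)))
    (fun x x' y => by
      ext v
      simp only [toR_apply, _root_.add_apply, wb_add_left, LS839.vco_add])
    (fun r x y => by
      ext v
      simp only [toR_apply, _root_.smul_apply, vco_apply, Finset.smul_sum]
      refine Finset.sum_congr rfl fun A _ => Finset.sum_congr rfl fun β _ => ?_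
      have : wb b G α β A (r • x) y = r * wb b G α β A x y := by
        unfold wb
        simp only [Finset.mul_sum]
        refine Finset.sum_congr rfl fun B _ => Finset.sum_congr rfl fun C _ =>
          Finset.sum_congr rfl fun i _ => Finset.sum_congr rfl fun j _ => ?_
        have e : (r • x) (i, B) = r * x (i, B) := rfl
        rw [e]; ring
      rw [this, ← Complex.coe_smul, smul_smul]
      push_cast
      rfl)
    (fun x y y' => by
      ext v
      simp only [toR_apply, _root_.add_apply, wb_add_right, LS839.vco_add])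
    (fun r x y => by
      ext v
      simp only [toR_apply, _root_.smul_apply, vco_apply, Finset.smul_sum]
      refine Finset.sum_congr rfl fun A _ => Finset.sum_congr rfl fun β _ => ?_
      have : wb b G α β A x (r • y) = r * wb b G α β A x y := by
        unfold wb
        simp only [Finset.mul_sum]
        refine Finset.sum_congr rfl fun B _ => Finset.sum_congr rfl fun C _ =>
          Finset.sum_congr rfl fun i _ => Finset.sum_congr rfl fun j _ => ?_
        have e : (r • y) (j, C) = r * y (j, C) := rfl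
        rw [e]; ring
      rw [this, ← Complex.coe_smul, smul_smul]
      push_cast
      rfl)).toContinuousBilinearMap

theorem Wq_apply (x y : Cfg N) : Wq b M G α x y = toR (vco M (fun β A => wb b G α β A x y)) := rfl

variable (M G α) in
/-- the mass term -/
def Wl : Cfg N →L[ℝ] (F →L[ℝ] F) :=
  haveI : FiniteDimensional ℝ F := FiniteDimensional.complexToReal F
  LinearMap.toContinuousLinearMap
    { toFun := fun x => toR (vco M (fun β A => wl G α β A x))
      map_add' := fun x y => by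
        ext v
        simp only [toR_apply, _root_.add_apply, wl_add, LS839.vco_add]
      map_smul' := fun r x => by
        ext v
        simp only [toR_apply, _root_.smul_apply, vco_apply, Finset.smul_sum,
          RingHom.id_apply]
        refine Finset.sum_congr rfl fun A _ => Finset.sum_congr rfl fun β _ => ?_
        have : wl G α β A (r • x) = r * wl G α β A x := by
          unfold wl
          simp only [Finset.mul_sum]
          refine Finset.sum_congr rfl fun j _ => ?_
          have e : (r • x) (j, A) = r * x (j, A) := rfl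
          rw [e]; ring
        rw [this, ← Complex.coe_smul, smul_smul]
        push_cast
        rfl }

theorem Wl_apply (x : Cfg N) : Wl M G α x = toR (vco M (fun β A => wl G α β A x)) := rfl

theorem toR_wB (p z : Cfg N) : toR (wB b M G g α p z) = (2 * g) • Wq b M G α p z := by
  ext v
  rw [_root_.smul_apply, Wq_apply, toR_apply, toR_apply]
  unfold wB
  simp only [vco_apply, Finset.smul_sum]
  refine Finset.sum_congr rfl fun A _ => Finset.sum_congr rfl fun β _ => ?_
  rw [← Complex.coe_smul, smul_smul]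
  push_cast
  rfl

theorem toR_wA (p : Cfg N) :
    toR (wA b M G g m α p) = g • Wq b M G α p p - m • Wl M G α p := by
  ext v
  rw [_root_.sub_apply, _root_.smul_apply, _root_.smul_apply, Wq_apply,
    Wl_apply, toR_apply, toR_apply, toR_apply]
  unfold wA
  simp only [vco_apply, Finset.smul_sum, ← Finset.sum_sub_distrib, wpot_wb]
  refine Finset.sum_congr rfl fun A _ => Finset.sum_congr rfl fun β _ => ?_
  rw [← Complex.coe_smul, ← Complex.coe_smul, smul_smul, smul_smul, ← sub_smul]
  push_cast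
  rfl

/-! ### the cut-off coefficients of the heavy part -/

/-- the coefficient `⟪v_i, nn (c + u) t_a⟫`, cut off -/
def cfs (v : OrthonormalBasis κ ℝ (Zs b c)) (t : OrthonormalBasis η ℝ (Tn (actB b) c))
    (χ : Uk b c → ℝ) (i : κ) (a : η) (u : Uk b c) : ℝ :=
  χ u * ⟪((v i : Zs b c) : Cfg N), nn (actB b) c (c + u) (t a)⟫_ℝ

theorem contDiff_cfs {r B : ℝ} (hr0 : 0 < r) (hr : GapAt (actB b) c r)
    (hB : ActBound (actB b) B) (v : OrthonormalBasis κ ℝ (Zs b c))
    (t : OrthonormalBasis η ℝ (Tn (actB b) c)) {χ : Uk b c → ℝ} (hχ : ContDiff ℝ ∞ χ)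
    (hs : ∀ u ∈ tsupport χ, B * ‖u‖ ≤ r / 2) (i : κ) (a : η) :
    ContDiff ℝ ∞ (cfs v t χ i a) := by
  rw [contDiff_iff_contDiffAt]
  intro u
  by_cases hu : u ∈ tsupport χ
  · have hx : B * ‖c + (u : Cfg N) - c‖ ≤ r / 2 := by
      rw [add_sub_cancel_left]
      exact hs u hu
    have hlin : ContDiff ℝ ∞ (fun u : Uk b c => c + (u : Cfg N)) :=
      contDiff_const.add ((Uk b c).subtypeL).contDiff
    have h1 : ContDiffAt ℝ ∞ (fun u : Uk b c => om (actB b) c (c + (u : Cfg N))) u := by
      have h2 := contDiffAt_om (A := actB b) (c := c) hr0 hr hB hx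
      exact ContDiffAt.comp (g := fun x => om (actB b) c x) u h2 hlin.contDiffAt
    have h2 : ContDiffAt ℝ ∞ (fun u : Uk b c => nn (actB b) c (c + (u : Cfg N)) (t a)) u := by
      unfold nn
      refine ContDiffAt.sub ?_ contDiffAt_const
      have h3 : ContDiffAt ℝ ∞
          (fun u : Uk b c => (om (actB b) c (c + (u : Cfg N)) (t a) : Colg N)) u :=
        ((kc (actB b) c)ᗮ.subtypeL.contDiff).contDiffAt.comp u (h1.clm_apply contDiffAt_const)
      exact ((actB b).contDiff.contDiffAt.comp u h3).clm_apply hlin.contDiffAt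
    exact hχ.contDiffAt.mul (contDiffAt_const.inner ℝ h2)
  · have h0 : χ =ᶠ[𝓝 u] 0 := notMem_tsupport_iff_eventuallyEq.mp hu
    refine contDiffAt_const (c := (0 : ℝ)) |>.congr_of_eventuallyEq ?_
    filter_upwards [h0] with y hy
    simp [cfs, hy]

theorem hasCompactSupport_cfs (v : OrthonormalBasis κ ℝ (Zs b c))
    (t : OrthonormalBasis η ℝ (Tn (actB b) c)) {χ : Uk b c → ℝ} (hχ : HasCompactSupport χ)
    (i : κ) (a : η) : HasCompactSupport (cfs v t χ i a) := hχ.mul_right

variable (M G α) in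
/-- cut-off heavy coefficient, linear map -/
def aBx (v : OrthonormalBasis κ ℝ (Zs b c)) (t : OrthonormalBasis η ℝ (Tn (actB b) c))
    (χ : Uk b c → ℝ) (i : κ) (u : Uk b c) : F →ₗ[ℂ] F :=
  (-Complex.I) • (Theta M G α (v i : Zs b c) -
    ∑ a, ((cfs v t χ i a u : ℝ) : ℂ) • Theta M G α (t a))

theorem aBx_eq (v : OrthonormalBasis κ ℝ (Zs b c)) (t : OrthonormalBasis η ℝ (Tn (actB b) c))
    {χ : Uk b c → ℝ} (i : κ) {u : Uk b c} (hu : χ u = 1) :
    aBx M G α v t χ i u = aB b c M G α t (c + u) (v i) := by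
  unfold aBx aB cfs
  simp only [hu, one_mul]

theorem aBx_mem (v : OrthonormalBasis κ ℝ (Zs b c)) (t : OrthonormalBasis η ℝ (Tn (actB b) c))
    (χ : Uk b c → ℝ) (i : κ) (u : Uk b c) : aBx M G α v t χ i u ∈ Od M (kc (actB b) c)ᗮ :=
  Submodule.smul_mem _ _ (Submodule.sub_mem _ (Theta_mem M G α (v i).2.1)
    (Submodule.sum_mem _ fun a _ => Submodule.smul_mem _ _ (Theta_mem M G α (Tn_le_Mm (t a).2))))

theorem aBx_skew (v : OrthonormalBasis κ ℝ (Zs b c)) (t : OrthonormalBasis η ℝ (Tn (actB b) c))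
    (χ : Uk b c → ℝ) (i : κ) (u : Uk b c) (f h : F) :
    ⟪aBx M G α v t χ i u f, h⟫_ℂ = - ⟪f, aBx M G α v t χ i u h⟫_ℂ := by
  refine skew_of_symm ?_ f h
  refine LinearMap.IsSymmetric.sub (Theta_symm M G α _) ?_
  exact isSymmetric_sum _ fun a _ => isSymmetric_real_smul (Theta_symm M G α (t a)) _

variable (M G α) in
/-- cut-off heavy coefficient -/
def bet (v : OrthonormalBasis κ ℝ (Zs b c)) (t : OrthonormalBasis η ℝ (Tn (actB b) c))
    (χ : Uk b c → ℝ) (i : κ) (x : Sc b c) : F →L[ℝ] F := toR (aBx M G α v t χ i x.1)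

theorem bet_eq (v : OrthonormalBasis κ ℝ (Zs b c)) (t : OrthonormalBasis η ℝ (Tn (actB b) c))
    (χ : Uk b c → ℝ) (i : κ) (x : Sc b c) :
    bet M G α v t χ i x = toR ((-Complex.I) • Theta M G α (v i : Zs b c)) -
      ∑ a, cfs v t χ i a x.1 • toR ((-Complex.I) • Theta M G α (t a)) := by
  ext f
  unfold bet aBx
  simp only [toR_apply, LinearMap.smul_apply, LinearMap.sub_apply, LinearMap.sum_apply,
    _root_.sub_apply, _root_.sum_apply, _root_.smul_apply, smul_sub, Finset.smul_sum]
  congr 1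
  refine Finset.sum_congr rfl fun a _ => ?_
  rw [← Complex.coe_smul, smul_comm]

theorem contDiff_bet {v : OrthonormalBasis κ ℝ (Zs b c)}
    {t : OrthonormalBasis η ℝ (Tn (actB b) c)} {χ : Uk b c → ℝ}
    (h : ∀ i a, ContDiff ℝ ∞ (cfs v t χ i a)) (i : κ) :
    ContDiff ℝ ∞ (bet M G α v t χ i) := by
  have e : bet M G α v t χ i = fun x => toR ((-Complex.I) • Theta M G α (v i : Zs b c)) -
      ∑ a, cfs v t χ i a x.1 • toR ((-Complex.I) • Theta M G α (t a)) :=
    funext fun x => bet_eq v t χ i x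
  rw [e]
  refine contDiff_const.sub (ContDiff.sum fun a _ => ?_)
  exact ((h i a).comp contDiff_fst).smul contDiff_const

theorem fderiv_bet {v : OrthonormalBasis κ ℝ (Zs b c)}
    {t : OrthonormalBasis η ℝ (Tn (actB b) c)} {χ : Uk b c → ℝ}
    (h : ∀ i a, ContDiff ℝ ∞ (cfs v t χ i a)) (i : κ) (x w : Sc b c) :
    fderiv ℝ (bet M G α v t χ i) x w =
      -∑ a, fderiv ℝ (cfs v t χ i a) x.1 w.1 • toR ((-Complex.I) • Theta M G α (t a)) := by
  have e : bet M G α v t χ i = fun x => toR ((-Complex.I) • Theta M G α (v i : Zs b c)) -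
      ∑ a, cfs v t χ i a x.1 • toR ((-Complex.I) • Theta M G α (t a)) :=
    funext fun x => bet_eq v t χ i x
  have h1 : ∀ a, HasFDerivAt (fun x : Sc b c => cfs v t χ i a x.1)
      ((fderiv ℝ (cfs v t χ i a) x.1).comp (ContinuousLinearMap.fst ℝ (Uk b c) (Zs b c))) x :=
    fun a => (((h i a).differentiable (by simp)) x.1).hasFDerivAt.comp x hasFDerivAt_fst
  have h2 : HasFDerivAt (bet M G α v t χ i)
      (0 - ∑ a, ((fderiv ℝ (cfs v t χ i a) x.1).comp
        (ContinuousLinearMap.fst ℝ (Uk b c) (Zs b c))).smulRight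
          (toR ((-Complex.I) • Theta M G α (t a)))) x := by
    rw [e]
    refine (hasFDerivAt_const _ _).sub (HasFDerivAt.fun_sum fun a _ => ?_)
    exact (h1 a).smul_const (toR ((-Complex.I) • Theta M G α (t a)))
  rw [h2.fderiv]
  simp

/-! ### derivatives of the potentials -/

theorem contDiff_Wq : ContDiff ℝ ∞ (fun x : Cfg N => Wq b M G α x) := by
  fun_prop

theorem contDiff_wA : ContDiff ℝ ∞ (fun x : Sc b c => toR (wA b M G g m α (c + x.1))) := by
  have e : (fun x : Sc b c => toR (wA b M G g m α (c + x.1))) = fun x : Sc b c =>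
      g • Wq b M G α (c + x.1) (c + x.1) - m • Wl M G α (c + x.1) := funext fun x => toR_wA _
  rw [e]
  have h1 : ContDiff ℝ ∞ (fun x : Sc b c => c + (x.1 : Cfg N)) :=
    contDiff_const.add ((Uk b c).subtypeL.contDiff.comp contDiff_fst)
  have h2 : ContDiff ℝ ∞ (fun x : Sc b c => Wq b M G α (c + x.1)) := contDiff_Wq.comp h1
  exact ((h2.clm_apply h1).const_smul g).sub (((Wl M G α).contDiff.comp h1).const_smul m)

theorem fderiv_wA (x : Sc b c) (w : Zs b c) :
    fderiv ℝ (fun x : Sc b c => toR (wA b M G g m α (c + x.1))) x (0, w) = 0 := by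
  have h1 : Differentiable ℝ (fun u : Uk b c => toR (wA b M G g m α (c + u))) := by
    have h2 : Differentiable ℝ ((fun x : Sc b c => toR (wA b M G g m α (c + x.1))) ∘
        fun u : Uk b c => ((u, 0) : Sc b c)) :=
      (contDiff_wA.differentiable (by simp)).comp
        (differentiable_id.prodMk (differentiable_const _))
    exact h2
  have h3 : HasFDerivAt (fun x : Sc b c => toR (wA b M G g m α (c + x.1)))
      ((fderiv ℝ (fun u : Uk b c => toR (wA b M G g m α (c + u))) x.1).comp
        (ContinuousLinearMap.fst ℝ (Uk b c) (Zs b c))) x :=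
    HasFDerivAt.comp (g := fun u : Uk b c => toR (wA b M G g m α (c + u))) x
      (h1 x.1).hasFDerivAt hasFDerivAt_fst
  rw [h3.fderiv]
  simp

theorem hasFDerivAt_wB (x : Sc b c) :
    HasFDerivAt (fun x : Sc b c => toR (wB b M G g α (c + x.1) x.2))
      ((2 * g) • ((Wq b M G α (c + x.1)).comp
          ((Zs b c).subtypeL.comp (ContinuousLinearMap.snd ℝ (Uk b c) (Zs b c))) +
        ((Wq b M G α).comp
          ((Uk b c).subtypeL.comp (ContinuousLinearMap.fst ℝ (Uk b c) (Zs b c)))).flip x.2)) x := by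
  have e : (fun x : Sc b c => toR (wB b M G g α (c + x.1) x.2)) = fun x : Sc b c =>
      (2 * g) • Wq b M G α (c + x.1) x.2 := funext fun x => toR_wB _ _
  rw [e]
  have h1 : HasFDerivAt (fun x : Sc b c => c + (x.1 : Cfg N))
      ((Uk b c).subtypeL.comp (ContinuousLinearMap.fst ℝ (Uk b c) (Zs b c))) x :=
    (((Uk b c).subtypeL.comp
      (ContinuousLinearMap.fst ℝ (Uk b c) (Zs b c))).hasFDerivAt).const_add c
  have h2 : HasFDerivAt (fun x : Sc b c => ((x.2 : Zs b c) : Cfg N))
      ((Zs b c).subtypeL.comp (ContinuousLinearMap.snd ℝ (Uk b c) (Zs b c))) x :=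
    ((Zs b c).subtypeL.comp (ContinuousLinearMap.snd ℝ (Uk b c) (Zs b c))).hasFDerivAt
  have h3 : HasFDerivAt (fun x : Sc b c => Wq b M G α (c + x.1))
      ((Wq b M G α).comp
        ((Uk b c).subtypeL.comp (ContinuousLinearMap.fst ℝ (Uk b c) (Zs b c)))) x :=
    HasFDerivAt.comp (g := Wq b M G α) x (Wq b M G α).hasFDerivAt h1
  exact (h3.clm_apply h2).const_smul (2 * g)

theorem contDiff_wB : ContDiff ℝ ∞ (fun x : Sc b c => toR (wB b M G g α (c + x.1) x.2)) := by
  have e : (fun x : Sc b c => toR (wB b M G g α (c + x.1) x.2)) = fun x : Sc b c =>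
      (2 * g) • Wq b M G α (c + x.1) x.2 := funext fun x => toR_wB _ _
  rw [e]
  have h1 : ContDiff ℝ ∞ (fun x : Sc b c => c + (x.1 : Cfg N)) :=
    contDiff_const.add ((Uk b c).subtypeL.contDiff.comp contDiff_fst)
  have h2 : ContDiff ℝ ∞ (fun x : Sc b c => Wq b M G α (c + x.1)) := contDiff_Wq.comp h1
  exact (h2.clm_apply ((Zs b c).subtypeL.contDiff.comp contDiff_snd)).const_smul (2 * g)

theorem fderiv_wB (x : Sc b c) (w : Uk b c) :
    fderiv ℝ (fun x : Sc b c => toR (wB b M G g α (c + x.1) x.2)) x (w, 0) =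
      (2 * g) • Wq b M G α w x.2 := by
  rw [(hasFDerivAt_wB x).fderiv]
  simp

end coeff

/-! ## The parity -/

section par

variable {N : ℕ} (b : ColorBasis N) (c : Cfg N)
  {F : Type*} [NormedAddCommGroup F] [InnerProductSpace ℂ F] [FiniteDimensional ℂ F]
  (M : FermionRep N F)

/-- parity of the heavy fermions at `c` -/
structure IsPar (Γ : F →ₗ[ℂ] F) : Prop where
  comm : ∀ L ∈ Od M (kc (actB b) c), ∀ f, Γ (L f) = L (Γ f)
  anti : ∀ L ∈ Od M (kc (actB b) c)ᗮ, ∀ f, Γ (L f) = - L (Γ f)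
  inv : ∀ f, Γ (Γ f) = f
  symm : ∀ f f', ⟪Γ f, f'⟫_ℂ = ⟪f, Γ f'⟫_ℂ

theorem exists_isPar [Nontrivial F] : ∃ Γ : F →ₗ[ℂ] F, IsPar b c M Γ := by
  obtain ⟨Γ, h1, h2, h3, _, h5, _⟩ := Bind6b839.exists_par M (kc (actB b) c)
  exact ⟨Γ, h1, h2, h3, h5⟩

end par

end Crest.Agent.R330.LemA342

end
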