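import Crest.Agent.R330.BlkSplit_837
import Crest.Agent.R330.Prod6_494
import Crest.Agent.R330.Alg_962
import Crest.Agent.R330.LemA_342

/-!
# Row 330, doc 9.1 (f): L² norms of the light charges (helper837)

* `dirac_energy` : `∫ ‖Σ a_k ∂_{e_k} φ‖² = ½ Σ_k ∫ ‖∂_{e_k} φ‖²` for `{a_k, a_l} = δ_kl` (any Haar
  measure).
* `Theta_anti` : `{Θ_α(e), Θ_α(e')} = ⟪e, e'⟫`.
* `lightE`, `cenE`, `blkE` : light, centre and block charges for functions on any space `E` with
  directions `J : Tup K → E` and base point `c₀ + π x`; `lightE_eq`, **`light_norm`** :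
  `∫ ‖A_α f‖² = ∫ ‖centre‖² + Σ_q ∫ ‖block q‖²`, **`cen_energy`** : the derivatives along the centre.
* `TU`, `blkE_eq_pcharge` : on `E = Tup K` the block charges are `pcharge` of `Prod_494`.
-/

set_option autoImplicit false
set_option linter.unusedSectionVars false

noncomputable section

namespace Crest.Agent.R330.BlkNorm837

open MeasureTheory Filter Topology Crest.MathPhysics.MatrixQM
open Crest.Agent.R330.IBP837 Crest.Agent.R330.Defs478 Crest.Agent.R330.Frame839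
open Crest.Agent.R330.LS839 Crest.Agent.R330.Clus839 Crest.Agent.R330.Bind6839
open Crest.Agent.R330.Decoup924 Crest.Agent.R330.BlkSplit837 Crest.Agent.R330.Prod494
open Crest.Agent.R330.SlA314 (cm)
open scoped ContDiff InnerProductSpace ENNReal

/-! ## Dirac energy -/

section dirac

variable {E : Type*} [NormedAddCommGroup E] [NormedSpace ℝ E] [FiniteDimensional ℝ E]
  [MeasurableSpace E] [BorelSpace E] {μ : Measure E} [μ.IsAddHaarMeasure]
  {F : Type*} [NormedAddCommGroup F] [InnerProductSpace ℂ F] [FiniteDimensional ℂ F]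
  {ι : Type*} [Fintype ι]

theorem integral_swap {φ : E → F} (hφ : ContDiff ℝ 2 φ) (hc : HasCompactSupport φ)
    (T : F →L[ℝ] F) (u v : E) :
    ∫ x, ⟪fderiv ℝ φ x u, T (fderiv ℝ φ x v)⟫_ℂ ∂μ =
      ∫ x, ⟪fderiv ℝ φ x v, T (fderiv ℝ φ x u)⟫_ℂ ∂μ := by
  have h1 := cd_one_of_two hφ
  have hd : ∀ s, ContDiff ℝ 1 fun y => fderiv ℝ φ y s := fun s =>
    (hφ.fderiv_right (m := 1) (by norm_num)).clm_apply contDiff_const
  have hT : ∀ s, ContDiff ℝ 1 fun y => T (fderiv ℝ φ y s) := fun s => T.contDiff.comp (hd s)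
  have hsymm : ∀ x s t, fderiv ℝ (fderiv ℝ φ) x s t = fderiv ℝ (fderiv ℝ φ) x t s := by
    intro x s t
    have := (hφ.contDiffAt (x := x)).isSymmSndFDerivAt (by simp)
    exact this.eq s t
  have hD : ∀ s t x, fderiv ℝ (fun y => T (fderiv ℝ φ y s)) x t =
      T (fderiv ℝ (fderiv ℝ φ) x t s) := by
    intro s t x
    have e1 : HasFDerivAt (fderiv ℝ φ) (fderiv ℝ (fderiv ℝ φ) x) x :=
      ((hφ.fderiv_right (m := 1) (by norm_num)).differentiable (by norm_num) x).hasFDerivAt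
    have e2 : HasFDerivAt (fun y => fderiv ℝ φ y s)
        ((ContinuousLinearMap.apply ℝ F s).comp (fderiv ℝ (fderiv ℝ φ) x)) x :=
      (ContinuousLinearMap.apply ℝ F s).hasFDerivAt.comp x e1
    have e3 := (T.hasFDerivAt.comp x e2).fderiv
    simp only [Function.comp_def] at e3
    rw [e3]
    rfl
  rw [ibp h1 (hT v) (Or.inl hc) u, ibp h1 (hT u) (Or.inl hc) v]
  simp only [hD, hsymm _ u v]

/-- **Energy of a Dirac operator.** -/
theorem dirac_energy {e : ι → E} {a : ι → F →L[ℝ] F} [DecidableEq ι] (hs : ∀ k, Symm (a k))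
    (ha : ∀ k l v, a k (a l v) + a l (a k v) = if k = l then v else 0)
    {φ : E → F} (hφ : ContDiff ℝ 2 φ) (hc : HasCompactSupport φ) :
    ∫ x, ‖∑ k, a k (fderiv ℝ φ x (e k))‖ ^ 2 ∂μ =
      1 / 2 * ∑ k, ∫ x, ‖fderiv ℝ φ x (e k)‖ ^ 2 ∂μ := by
  have h1 := cd_one_of_two hφ
  have hdc : ∀ w : E, Continuous fun x => fderiv ℝ φ x w := fun w => fderiv_apply_continuous h1 w
  have hds : ∀ w : E, HasCompactSupport fun x => fderiv ℝ φ x w := fun w =>
    hasCompactSupport_fderiv_apply hc w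
  set X : ι → ι → ℂ := fun k l =>
    ∫ x, ⟪fderiv ℝ φ x (e k), a k (a l (fderiv ℝ φ x (e l)))⟫_ℂ ∂μ with hX
  have hint : ∀ (T : F →L[ℝ] F) (u v : E), Integrable (fun x =>
      ⟪fderiv ℝ φ x u, T (fderiv ℝ φ x v)⟫_ℂ) μ := fun T u v =>
    integrable_inner_of_cont (hdc u) (T.continuous.comp (hdc v)) (Or.inl (hds u))
  have hint2 : ∀ k l u v, Integrable (fun x =>
      ⟪fderiv ℝ φ x u, a k (a l (fderiv ℝ φ x v))⟫_ℂ) μ := fun k l u v =>
    hint ((a k).comp (a l)) u v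
  have e1 : ((∫ x, ‖∑ k, a k (fderiv ℝ φ x (e k))‖ ^ 2 ∂μ : ℝ) : ℂ) = ∑ k, ∑ l, X k l := by
    rw [integral_norm_sq_eq]
    have hpt : ∀ x, ⟪∑ k, a k (fderiv ℝ φ x (e k)), ∑ k, a k (fderiv ℝ φ x (e k))⟫_ℂ =
        ∑ k, ∑ l, ⟪fderiv ℝ φ x (e k), a k (a l (fderiv ℝ φ x (e l)))⟫_ℂ := by
      intro x
      rw [sum_inner]
      refine Finset.sum_congr rfl fun k _ => ?_
      rw [hs k, map_sum, inner_sum]
    simp only [hpt]
    rw [integral_finsetSum _ fun k _ => integrable_finsetSum _ fun l _ => hint2 k l _ _]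
    exact Finset.sum_congr rfl fun k _ => integral_finsetSum _ fun l _ => hint2 k l _ _
  have e2 : ∀ k l, X k l + X l k =
      if k = l then ∫ x, ⟪fderiv ℝ φ x (e k), fderiv ℝ φ x (e k)⟫_ℂ ∂μ else 0 := by
    intro k l
    have s1 : X l k = ∫ x, ⟪fderiv ℝ φ x (e k), a l (a k (fderiv ℝ φ x (e l)))⟫_ℂ ∂μ :=
      integral_swap hφ hc ((a l).comp (a k)) (e l) (e k)
    rw [s1, hX]
    simp only
    rw [← integral_add (hint2 k l _ _) (hint2 l k _ _)]
    have s2 : ∀ x, ⟪fderiv ℝ φ x (e k), a k (a l (fderiv ℝ φ x (e l)))⟫_ℂ +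
        ⟪fderiv ℝ φ x (e k), a l (a k (fderiv ℝ φ x (e l)))⟫_ℂ =
        ⟪fderiv ℝ φ x (e k), if k = l then fderiv ℝ φ x (e l) else 0⟫_ℂ := by
      intro x
      rw [← inner_add_right, ha]
    simp only [s2]
    split_ifs with h
    · subst h; rfl
    · simp
  have e3 : (2 : ℂ) * ∑ k, ∑ l, X k l = ∑ k, ((∫ x, ‖fderiv ℝ φ x (e k)‖ ^ 2 ∂μ : ℝ) : ℂ) := by
    calc (2 : ℂ) * ∑ k, ∑ l, X k l = ∑ k, ∑ l, X k l + ∑ k, ∑ l, X l k := by
          rw [two_mul]; congr 1; exact Finset.sum_comm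
      _ = ∑ k, ∑ l, (X k l + X l k) := by simp only [Finset.sum_add_distrib]
      _ = ∑ k, ∑ l, (if k = l then ∫ x, ⟪fderiv ℝ φ x (e k), fderiv ℝ φ x (e k)⟫_ℂ ∂μ
            else 0) := by simp only [e2]
      _ = _ := by
          simp only [Finset.sum_ite_eq, Finset.mem_univ, if_true]
          exact Finset.sum_congr rfl fun k _ => (integral_norm_sq_eq _).symm
  have e4 : (((2 : ℝ) * ∫ x, ‖∑ k, a k (fderiv ℝ φ x (e k))‖ ^ 2 ∂μ : ℝ) : ℂ) =
      ((∑ k, ∫ x, ‖fderiv ℝ φ x (e k)‖ ^ 2 ∂μ : ℝ) : ℂ) := by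
    rw [Complex.ofReal_mul, e1, Complex.ofReal_sum, ← e3]
    norm_num
  have e5 : (2 : ℝ) * ∫ x, ‖∑ k, a k (fderiv ℝ φ x (e k))‖ ^ 2 ∂μ =
      ∑ k, ∫ x, ‖fderiv ℝ φ x (e k)‖ ^ 2 ∂μ := by exact_mod_cast e4
  linarith

end dirac

variable {N : ℕ} {F : Type*} [NormedAddCommGroup F] [InnerProductSpace ℂ F]
  [FiniteDimensional ℂ F]

/-! ## Anticommutation of the light coefficients -/

theorem gamma_diag (G : GammaNine) (i j : Fin 9) (α : Fin 16) :
    (G.γ i * G.γ j) α α = if i = j then 1 else 0 := by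
  have h := G.clifford i j
  have ht : (G.γ j * G.γ i) α α = (G.γ i * G.γ j) α α := by
    rw [Matrix.mul_apply, Matrix.mul_apply]
    refine Finset.sum_congr rfl fun β _ => ?_
    have h1 : G.γ j α β = G.γ j β α := congrFun (congrFun (G.symm j) β) α
    have h2 : G.γ i β α = G.γ i α β := congrFun (congrFun (G.symm i) α) β
    rw [h1, h2, mul_comm]
  have h3 := congrFun (congrFun h α) α
  rw [Matrix.add_apply, ht] at h3
  split_ifs at h3 ⊢ with hij
  · have h4 : (2 : Matrix (Fin 16) (Fin 16) ℝ) α α = 2 := by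
      have : (2 : Matrix (Fin 16) (Fin 16) ℝ) = (2 : ℝ) • (1 : Matrix (Fin 16) (Fin 16) ℝ) := by
        ext a c
        simp [Matrix.ofNat_apply, Matrix.one_apply]
      rw [this]
      simp
    rw [h4] at h3
    linarith
  · rw [Matrix.zero_apply] at h3
    linarith

theorem Theta_anti (M : FermionRep N F) (G : GammaNine) (α : Fin 16) (e e' : Cfg N) (f : F) :
    Theta M G α e (Theta M G α e' f) + Theta M G α e' (Theta M G α e f) =
      ((⟪e, e'⟫_ℝ : ℝ) : ℂ) • f := by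
  unfold Theta
  simp only [LinearMap.sum_apply, LinearMap.smul_apply, map_sum, map_smul]
  have h1 : ∑ x, ((e' x : ℝ) : ℂ) • ∑ y, ((e y : ℝ) : ℂ) • dco M G α y (dco M G α x f) =
      ∑ y, ∑ x, (((e y : ℝ) : ℂ) * ((e' x : ℝ) : ℂ)) • dco M G α y (dco M G α x f) := by
    simp only [Finset.smul_sum, smul_smul]
    rw [Finset.sum_comm]
    exact Finset.sum_congr rfl fun y _ => Finset.sum_congr rfl fun x _ => by rw [mul_comm]
  have h2 : ∑ y, ((e y : ℝ) : ℂ) • ∑ x, ((e' x : ℝ) : ℂ) • dco M G α x (dco M G α y f) =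
      ∑ y, ∑ x, (((e y : ℝ) : ℂ) * ((e' x : ℝ) : ℂ)) • dco M G α x (dco M G α y f) := by
    simp only [Finset.smul_sum, smul_smul]
  rw [h1, h2, ← Finset.sum_add_distrib]
  have h3 : ∀ y, (∑ x, (((e y : ℝ) : ℂ) * ((e' x : ℝ) : ℂ)) • dco M G α y (dco M G α x f)) +
      ∑ x, (((e y : ℝ) : ℂ) * ((e' x : ℝ) : ℂ)) • dco M G α x (dco M G α y f) =
      (((e y : ℝ) : ℂ) * ((e' y : ℝ) : ℂ)) • f := by
    intro y
    rw [← Finset.sum_add_distrib]
    simp only [← smul_add, Alg962.dco_dco_anticomm, gamma_diag, smul_smul]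
    rw [Finset.sum_eq_single y]
    · simp
    · intro x _ hx
      have : (if x.2 = y.2 then (if y.1 = x.1 then (1 : ℝ) else 0) else 0) = 0 := by
        split_ifs with a1 a2
        · exact absurd (Prod.ext a2.symm a1) hx
        · rfl
        · rfl
      rw [this]
      simp
    · simp
  simp only [h3]
  rw [← Finset.sum_smul]
  congr 1
  rw [PiLp.inner_apply]
  push_cast
  refine Finset.sum_congr rfl fun y _ => ?_
  simp [mul_comm]

theorem thv_symm (M : FermionRep N F) (β : Fin 16) (u : Colg N) : (thv M β u).IsSymmetric :=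
  isSymmetric_sum _ fun A _ => isSymmetric_real_smul (M.selfAdjoint β A) _

theorem skew_rl_aA (M : FermionRep N F) (G : GammaNine) (α : Fin 16) (e : Cfg N) :
    Skew (rl (aA M G α e)) := fun v w => aA_skew M G α e v w

theorem symm_rl {L : F →ₗ[ℂ] F} (h : L.IsSymmetric) : Symm (rl L) := fun v w => h v w

theorem anti_rl (M : FermionRep N F) {K K' : Submodule ℝ (Colg N)}
    (hK : ∀ u ∈ K, ∀ v ∈ K', ⟪u, v⟫_ℝ = 0) {L L' : F →ₗ[ℂ] F} (hL : L ∈ Od M K)
    (hL' : L' ∈ Od M K') : Anti (rl L) (rl L') := fun v => Od_anti M hK hL hL' v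

/-! ## Light charges on a general space -/

section general

variable {Q : Type*} [Fintype Q] [DecidableEq Q] {k : Q → ℕ} {b : ColorBasis N}
  {K : Submodule ℝ (Colg N)} {bs : ∀ q, ColorBasis (k q)} (B : EmbFam b K bs)

/-- the range of a block -/
def rg (q : Q) : Submodule ℝ (Colg N) := LinearMap.range (B.eps q).toLinearMap

theorem rg_orth {q q' : Q} (h : q ≠ q') : ∀ u ∈ rg B q, ∀ v ∈ rg B q', ⟪u, v⟫_ℝ = 0 := by
  rintro _ ⟨u, rfl⟩ _ ⟨v, rfl⟩
  exact B.orth q q' h u v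

theorem cen_rg (q : Q) : ∀ u ∈ B.cenS, ∀ v ∈ rg B q, ⟪u, v⟫_ℝ = 0 := by
  rintro u hu _ ⟨v, rfl⟩
  exact hu.2 q v

theorem rg_cen (q : Q) : ∀ v ∈ rg B q, ∀ u ∈ B.cenS, ⟪v, u⟫_ℝ = 0 := fun v hv u hu => by
  rw [real_inner_comm]
  exact cen_rg B q u hu v hv

variable (M : FermionRep N F) (G : GammaNine) (g m : ℝ) (α : Fin 16)

theorem aA_emb_mem (q : Q) (y : Cfg (k q)) : aA M G α (B.emb q y) ∈ Od M (rg B q) :=
  Submodule.smul_mem _ _ (Theta_mem M G α fun i => ⟨comp y i, rfl⟩)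

theorem aA_cen_mem {x : Cfg N} (hx : x ∈ Tup B.cenS) : aA M G α x ∈ Od M B.cenS :=
  Submodule.smul_mem _ _ (Theta_mem M G α hx)

theorem wQ_mem (q : Q) (y : Cfg (k q)) : B.wQ M G g m α q y ∈ Od M (rg B q) :=
  Submodule.sum_mem _ fun _ _ => Submodule.sum_mem _ fun β _ =>
    Submodule.smul_mem _ _ (thv_mem M β ⟨_, rfl⟩)

theorem cvec_mem (β : Fin 16) {x : Cfg N} (hx : x ∈ Tup K) : B.cvec G m α β x ∈ B.cenS :=
  B.cenS.neg_mem (B.cenS.smul_mem _ (B.cenS.sum_mem fun j _ => B.cenS.smul_mem _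
    (B.cenp_mem hx j)))

theorem wC_mem {x : Cfg N} (hx : x ∈ Tup K) : B.wC M G m α x ∈ Od M B.cenS :=
  Submodule.sum_mem _ fun β _ => thv_mem M β (cvec_mem B G m α β hx)

theorem wQ_symm (q : Q) (y : Cfg (k q)) : (B.wQ M G g m α q y).IsSymmetric :=
  isSymmetric_sum _ fun _ _ => isSymmetric_sum _ fun β _ =>
    isSymmetric_real_smul (thv_symm M β _) _

theorem wC_symm (x : Cfg N) : (B.wC M G m α x).IsSymmetric :=
  isSymmetric_sum _ fun β _ => thv_symm M β _

theorem rl_wQ (q : Q) (y : Cfg (k q)) :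
    rl (B.wQ M G g m α q y) = Prod494.wco (bs q) (B.thq M q) G g m α y := by
  ext v
  rw [rl_apply]
  unfold EmbFam.wQ Prod494.wco
  simp only [LinearMap.sum_apply, LinearMap.smul_apply, _root_.sum_apply, _root_.smul_apply,
    rl_apply, Complex.coe_smul]

/-- the centre potential as a linear map -/
def wCL : Cfg N →L[ℝ] (F →L[ℝ] F) :=
  haveI : FiniteDimensional ℝ F := FiniteDimensional.complexToReal F
  LinearMap.toContinuousLinearMap
    { toFun := fun x => rl (B.wC M G m α x)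
      map_add' := fun x y => by
        ext v
        rw [_root_.add_apply, rl_apply, rl_apply, rl_apply]
        unfold EmbFam.wC
        simp only [LinearMap.sum_apply]
        rw [← Finset.sum_add_distrib]
        refine Finset.sum_congr rfl fun β _ => ?_
        rw [← LinearMap.add_apply, ← EmbFam.thv_add]
        congr 2
        unfold EmbFam.cvec
        rw [← neg_add, ← smul_add, ← Finset.sum_add_distrib]
        congr 2
        refine Finset.sum_congr rfl fun j _ => ?_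
        rw [← smul_add, ← comp_add]
        congr 2
        unfold EmbFam.cenp
        simp only [map_add, Finset.sum_add_distrib]
        abel
      map_smul' := fun r x => by
        ext v
        rw [_root_.smul_apply, rl_apply, rl_apply, RingHom.id_apply]
        unfold EmbFam.wC
        simp only [LinearMap.sum_apply]
        rw [Finset.smul_sum]
        refine Finset.sum_congr rfl fun β _ => ?_
        have h : B.cvec G m α β (r • x) = r • B.cvec G m α β x := by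
          unfold EmbFam.cvec
          have hcp : B.cenp (r • x) = r • B.cenp x := by
            unfold EmbFam.cenp
            simp only [map_smul, smul_sub, Finset.smul_sum]
          have hj : ∑ j, (cc j * (Gam G * G.γ j) α β) • comp (B.cenp (r • x)) j =
              r • ∑ j, (cc j * (Gam G * G.γ j) α β) • comp (B.cenp x) j := by
            rw [Finset.smul_sum, hcp]
            refine Finset.sum_congr rfl fun j _ => ?_
            rw [comp_smul, smul_comm]
          rw [hj, smul_neg, smul_comm r m]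
        rw [h, EmbFam.thv_smul, LinearMap.smul_apply, Complex.coe_smul] }

theorem wCL_apply (x : Cfg N) : wCL B M G m α x = rl (B.wC M G m α x) := rfl

variable {E : Type*} [NormedAddCommGroup E] [NormedSpace ℝ E]

/-- directional derivatives -/
def dL (J : Tup K →ₗ[ℝ] E) (f : E → F) (x : E) : Tup K →ₗ[ℝ] F :=
  (fderiv ℝ f x).toLinearMap ∘ₗ J

theorem dL_apply (J : Tup K →ₗ[ℝ] E) (f : E → F) (x : E) (e : Tup K) :
    dL J f x e = fderiv ℝ f x (J e) := rfl

/-- the light charge on a general space -/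
def lightE (b : ColorBasis N) {ι : Type*} [Fintype ι] (u : OrthonormalBasis ι ℝ (Tup K))
    (J : Tup K →ₗ[ℝ] E) (p : E → Cfg N) (f : E → F) (x : E) : F :=
  (∑ s, aA M G α (u s) (fderiv ℝ f x (J (u s)))) + wA b M G g m α (p x) (f x)

/-- the centre charge on a general space -/
def cenE {ρ : Type*} [Fintype ρ] (v : OrthonormalBasis ρ ℝ (Tup B.cenS)) (J : Tup K →ₗ[ℝ] E)
    (p : E → Cfg N) (f : E → F) (x : E) : F :=
  B.cenQ M G m α v (dL J f x) (p x) (f x)

/-- the block charge on a general space -/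
def blkE (q : Q) (J : Tup K →ₗ[ℝ] E) (p : E → Cfg N) (f : E → F) (x : E) : F :=
  B.blkQ M G g m α q (dL J f x) (B.pr q (p x)) (f x)

/-- **The light charge is the sum of its parts.** -/
theorem lightE_eq {ι ρ : Type*} [Fintype ι] [Fintype ρ] (u : OrthonormalBasis ι ℝ (Tup K))
    (v : OrthonormalBasis ρ ℝ (Tup B.cenS)) (J : Tup K →ₗ[ℝ] E) {p : E → Cfg N} {x : E}
    (hx : p x ∈ Tup K) (f : E → F) :
    lightE M G g m α b u J p f x =
      cenE B M G m α v J p f x + ∑ q, blkE B M G g m α q J p f x :=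
  B.light_split M G g m α u v (dL J f x) hx (f x)

theorem cenE_op {ρ : Type*} [Fintype ρ] (v : OrthonormalBasis ρ ℝ (Tup B.cenS))
    (J : Tup K →ₗ[ℝ] E) (p : E → Cfg N) (f : E → F) :
    cenE B M G m α v J p f = op (fun r => J (B.cenU (v r))) (fun r _ => rl (aA M G α (v r)))
      (fun x => wCL B M G m α (p x)) f := rfl

theorem blkE_op (q : Q) (J : Tup K →ₗ[ℝ] E) (p : E → Cfg N) (f : E → F) :
    blkE B M G g m α q J p f =
      op (fun i : Fin 9 × Fin (k q ^ 2 - 1) => J (B.embU q (EuclideanSpace.single i 1)))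
        (fun i _ => rl (aA M G α (B.emb q (EuclideanSpace.single i 1))))
        (fun x => Prod494.wco (bs q) (B.thq M q) G g m α (B.pr q (p x))) f := by
  funext x
  unfold blkE EmbFam.blkQ op
  rw [Fintype.sum_prod_type]
  simp only [rl_apply, B.aA_emb, dL_apply, ← rl_wQ]
  congr 1
  unfold EmbFam.wQ
  simp only [LinearMap.sum_apply, LinearMap.smul_apply]

section pot

variable {V : Type*} [NormedAddCommGroup V] [NormedSpace ℝ V]

theorem fderiv_pot_zero {G' : Type*} [NormedAddCommGroup G'] [NormedSpace ℝ G'] {W : V → G'}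
    (hW : ContDiff ℝ 1 W) (l : Cfg N →L[ℝ] V) (c₀ : Cfg N) (π : E →L[ℝ] Cfg N) (x v : E)
    (hv : l (π v) = 0) : fderiv ℝ (fun x => W (l (c₀ + π x))) x v = 0 := by
  have h1 : HasFDerivAt W (fderiv ℝ W (l (c₀ + π x))) (l (c₀ + π x)) :=
    (hW.differentiable (by norm_num) _).hasFDerivAt
  have h2 : HasFDerivAt (fun x => l (c₀ + π x)) (l.comp π) x :=
    l.hasFDerivAt.comp x (π.hasFDerivAt.const_add c₀)
  have h3 := (h1.comp x h2).fderiv
  simp only [Function.comp_def] at h3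
  rw [h3, ContinuousLinearMap.comp_apply, ContinuousLinearMap.comp_apply, hv, map_zero]

theorem contDiff_pot {G' : Type*} [NormedAddCommGroup G'] [NormedSpace ℝ G'] {W : V → G'}
    (hW : ContDiff ℝ 1 W) (l : Cfg N →L[ℝ] V) (c₀ : Cfg N) (π : E →L[ℝ] Cfg N) :
    ContDiff ℝ 1 fun x => W (l (c₀ + π x)) :=
  hW.comp (l.contDiff.comp (contDiff_const.add π.contDiff))

end pot

/-- `pr` as a continuous linear map -/
def prL (q : Q) : Cfg N →L[ℝ] Cfg (k q) := LinearMap.toContinuousLinearMap (B.pr q)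

theorem prL_apply (q : Q) (x : Cfg N) : prL B q x = B.pr q x := rfl

variable [FiniteDimensional ℝ E] [MeasurableSpace E] [BorelSpace E] {μ : Measure E}
  [μ.IsAddHaarMeasure]

theorem memLp_op {κ : Type*} [Fintype κ] {e : κ → E} {a : κ → F →L[ℝ] F} {w : E → F →L[ℝ] F}
    (hw : ContDiff ℝ 1 w) {f : E → F} (hf : ContDiff ℝ 2 f) (hc : HasCompactSupport f) :
    MemLp (op e (fun k _ => a k) w f) 2 μ :=
  (contDiff_op (n := 2) (m := 1) (by norm_num) (fun _ => contDiff_const) hw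
    hf).continuous.memLp_of_hasCompactSupport (hasCompactSupport_op hc)

/-- **The L² norm of the light charge.** -/
theorem light_norm {ι ρ : Type*} [Fintype ι] [Fintype ρ] (u : OrthonormalBasis ι ℝ (Tup K))
    (v : OrthonormalBasis ρ ℝ (Tup B.cenS)) (J : Tup K →ₗ[ℝ] E) (c₀ : Cfg N) (π : E →L[ℝ] Cfg N)
    (hJ : ∀ e, π (J e) = e) (hp : ∀ x, c₀ + π x ∈ Tup K) {f : E → F} (hf : ContDiff ℝ 2 f)
    (hc : HasCompactSupport f) :
    ∫ x, ‖lightE M G g m α b u J (fun x => c₀ + π x) f x‖ ^ 2 ∂μ =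
      ∫ x, ‖cenE B M G m α v J (fun x => c₀ + π x) f x‖ ^ 2 ∂μ +
        ∑ q, ∫ x, ‖blkE B M G g m α q J (fun x => c₀ + π x) f x‖ ^ 2 ∂μ := by
  set U : Option Q → E → F := fun o => match o with
    | none => cenE B M G m α v J (fun x => c₀ + π x) f
    | some q => blkE B M G g m α q J (fun x => c₀ + π x) f with hU
  have hwc : ContDiff ℝ 1 fun x => wCL B M G m α (c₀ + π x) :=
    (wCL B M G m α).contDiff.comp (contDiff_const.add π.contDiff)
  have hwq : ∀ q, ContDiff ℝ 1 fun x => Prod494.wco (bs q) (B.thq M q) G g m α (B.pr q (c₀ + π x)) :=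
    fun q => contDiff_pot (contDiff_wco (n := 1) (bs q) (B.thq M q) G g m α) (prL B q) c₀ π
  have hmem : ∀ o ∈ (Finset.univ : Finset (Option Q)), MemLp (U o) 2 μ := by
    rintro (_ | q) _
    · show MemLp (cenE B M G m α v J (fun x => c₀ + π x) f) 2 μ
      rw [cenE_op]
      exact memLp_op hwc hf hc
    · show MemLp (blkE B M G g m α q J (fun x => c₀ + π x) f) 2 μ
      rw [blkE_op]
      exact memLp_op (hwq q) hf hc
  have hs1 : ∀ q x, Symm (Prod494.wco (bs q) (B.thq M q) G g m α (B.pr q (c₀ + π x))) := fun q x => by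
    rw [← rl_wQ]
    exact symm_rl (wQ_symm B M G g m α q _)
  have hs0 : ∀ x, Symm (wCL B M G m α (c₀ + π x)) := fun x => symm_rl (wC_symm B M G m α _)
  have hcq : ∀ q, ∫ x, ⟪cenE B M G m α v J (fun x => c₀ + π x) f x,
      blkE B M G g m α q J (fun x => c₀ + π x) f x⟫_ℂ ∂μ +
      ∫ x, ⟪blkE B M G g m α q J (fun x => c₀ + π x) f x,
        cenE B M G m α v J (fun x => c₀ + π x) f x⟫_ℂ ∂μ = 0 := by
    intro q
    rw [cenE_op, blkE_op]
    refine cross_zero hwc (hwq q) (fun r => skew_rl_aA M G α _) hs0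
      (fun i => skew_rl_aA M G α _) (hs1 q) ?_ ?_ ?_ ?_ ?_ ?_ hf hf hc hc
    · intro i x
      have h := fderiv_pot_zero (W := fun T : F →L[ℝ] F => T) contDiff_id (wCL B M G m α) c₀ π x
        (J (B.embU q (EuclideanSpace.single i 1))) (by
          rw [hJ, B.embU_coe, wCL_apply]
          have h0 : B.cenp (B.emb q (EuclideanSpace.single i 1)) = 0 := by
            unfold EmbFam.cenp
            rw [Finset.sum_eq_single q, B.pr_emb, sub_self]
            · intro q' _ hq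
              rw [B.pr_emb_ne hq, map_zero]
            · simp
          have h1 : B.wC M G m α (B.emb q (EuclideanSpace.single i 1)) = 0 := by
            unfold EmbFam.wC EmbFam.cvec
            rw [h0]
            refine Finset.sum_eq_zero fun β _ => ?_
            simp only [comp_zero, smul_zero, Finset.sum_const_zero, neg_zero]
            rw [← EmbFam.thvL_apply, map_zero]
          rw [h1]
          rfl)
      exact h
    · intro r x
      exact fderiv_pot_zero (contDiff_wco (n := 1) (bs q) (B.thq M q) G g m α) (prL B q) c₀ π x _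
        (by rw [hJ, B.cenU_coe, prL_apply, B.pr_cen (v r).2])
    · intro r i
      exact anti_rl M (cen_rg B q) (aA_cen_mem B M G α (v r).2) (aA_emb_mem B M G α q _)
    · intro r x
      rw [← rl_wQ]
      exact anti_rl M (cen_rg B q) (aA_cen_mem B M G α (v r).2) (wQ_mem B M G g m α q _)
    · intro i x
      exact anti_rl M (cen_rg B q) (wC_mem B M G m α (hp x)) (aA_emb_mem B M G α q _)
    · intro x
      rw [← rl_wQ]
      exact anti_rl M (cen_rg B q) (wC_mem B M G m α (hp x)) (wQ_mem B M G g m α q _)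
  have hqq : ∀ q q', q ≠ q' → ∫ x, ⟪blkE B M G g m α q J (fun x => c₀ + π x) f x,
      blkE B M G g m α q' J (fun x => c₀ + π x) f x⟫_ℂ ∂μ +
      ∫ x, ⟪blkE B M G g m α q' J (fun x => c₀ + π x) f x,
        blkE B M G g m α q J (fun x => c₀ + π x) f x⟫_ℂ ∂μ = 0 := by
    intro q q' hq
    rw [blkE_op, blkE_op]
    refine cross_zero (hwq q) (hwq q') (fun r => skew_rl_aA M G α _) (hs1 q)
      (fun i => skew_rl_aA M G α _) (hs1 q') ?_ ?_ ?_ ?_ ?_ ?_ hf hf hc hc
    · intro i x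
      exact fderiv_pot_zero (contDiff_wco (n := 1) (bs q) (B.thq M q) G g m α) (prL B q) c₀ π x _
        (by rw [hJ, B.embU_coe, prL_apply, B.pr_emb_ne hq])
    · intro i x
      exact fderiv_pot_zero (contDiff_wco (n := 1) (bs q') (B.thq M q') G g m α) (prL B q') c₀ π
        x _ (by rw [hJ, B.embU_coe, prL_apply, B.pr_emb_ne hq.symm])
    · intro r i
      exact anti_rl M (rg_orth B hq) (aA_emb_mem B M G α q _) (aA_emb_mem B M G α q' _)
    · intro r x
      rw [← rl_wQ]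
      exact anti_rl M (rg_orth B hq) (aA_emb_mem B M G α q _) (wQ_mem B M G g m α q' _)
    · intro i x
      rw [← rl_wQ]
      exact anti_rl M (rg_orth B hq) (wQ_mem B M G g m α q _) (aA_emb_mem B M G α q' _)
    · intro x
      rw [← rl_wQ, ← rl_wQ]
      exact anti_rl M (rg_orth B hq) (wQ_mem B M G g m α q _) (wQ_mem B M G g m α q' _)
  have hsum := norm_sq_sum_of_cross (μ := μ) (Finset.univ : Finset (Option Q)) hmem (by
    rintro (_ | q) _ (_ | q') _ hne
    · exact absurd rfl hne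
    · exact hcq q'
    · have := hcq q
      rw [add_comm]
      exact this
    · exact hqq q q' fun h => hne (by rw [h]))
  simp only [Fintype.sum_option] at hsum
  rw [← hsum]
  refine integral_congr_ae (Eventually.of_forall fun x => ?_)
  simp only
  rw [lightE_eq B M G g m α u v J (hp x) f]

/-- **The derivatives along the centre.** -/
theorem cen_energy {ρ : Type*} [Fintype ρ] (v : OrthonormalBasis ρ ℝ (Tup B.cenS))
    (J : Tup K →ₗ[ℝ] E) (c₀ : Cfg N) (π : E →L[ℝ] Cfg N) {f : E → F} (hf : ContDiff ℝ 2 f)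
    (hc : HasCompactSupport f) :
    8 * ∑ r, ∫ x, ‖fderiv ℝ f x (J (B.cenU (v r)))‖ ^ 2 ∂μ ≤
      2 * ∑ α, ∫ x, ‖cenE B M G m α v J (fun x => c₀ + π x) f x‖ ^ 2 ∂μ +
        2 * ∑ α, ∫ x, ‖B.wC M G m α (c₀ + π x) (f x)‖ ^ 2 ∂μ := by
  classical
  have h1 := cd_one_of_two hf
  have key : ∀ α, 1 / 2 * ∑ r, ∫ x, ‖fderiv ℝ f x (J (B.cenU (v r)))‖ ^ 2 ∂μ ≤
      2 * ∫ x, ‖cenE B M G m α v J (fun x => c₀ + π x) f x‖ ^ 2 ∂μ +
        2 * ∫ x, ‖B.wC M G m α (c₀ + π x) (f x)‖ ^ 2 ∂μ := by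
    intro α
    have e1 := dirac_energy (μ := μ) (e := fun r => J (B.cenU (v r)))
      (a := fun r => rl (Theta M G α (v r : Tup B.cenS))) (fun r => symm_rl (Theta_symm M G α _))
      (fun r s f => by
        rw [rl_apply, rl_apply, rl_apply, rl_apply, Theta_anti]
        have h2 : ⟪((v r : Tup B.cenS) : Cfg N), ((v s : Tup B.cenS) : Cfg N)⟫_ℝ =
            if r = s then 1 else 0 := v.inner_eq_ite r s
        rw [h2]
        split_ifs <;> simp) hf hc
    rw [← e1]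
    have hwc : ContDiff ℝ 1 fun x => wCL B M G m α (c₀ + π x) :=
      (wCL B M G m α).contDiff.comp (contDiff_const.add π.contDiff)
    have i1 : Integrable (fun x => ‖cenE B M G m α v J (fun x => c₀ + π x) f x‖ ^ 2) μ := by
      have h3 : MemLp (cenE B M G m α v J (fun x => c₀ + π x) f) 2 μ := by
        rw [cenE_op]
        exact memLp_op hwc hf hc
      exact (memLp_two_iff_integrable_sq_norm h3.1).1 h3
    have i2 : Integrable (fun x => ‖B.wC M G m α (c₀ + π x) (f x)‖ ^ 2) μ := by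
      have h4 : Continuous fun x => wCL B M G m α (c₀ + π x) (f x) :=
        hwc.continuous.clm_apply hf.continuous
      have h5 : HasCompactSupport fun x => wCL B M G m α (c₀ + π x) (f x) :=
        hc.mono' fun x hx => subset_tsupport _ (by intro h0; apply hx; simp [h0])
      have h3 : MemLp (fun x => wCL B M G m α (c₀ + π x) (f x)) 2 μ :=
        h4.memLp_of_hasCompactSupport h5
      exact (memLp_two_iff_integrable_sq_norm h3.1).1 h3
    have i3 : Integrable (fun x => ‖∑ r, rl (Theta M G α (v r : Tup B.cenS))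
        (fderiv ℝ f x (J (B.cenU (v r))))‖ ^ 2) μ := by
      have h4 : Continuous fun x => ∑ r, rl (Theta M G α (v r : Tup B.cenS))
          (fderiv ℝ f x (J (B.cenU (v r)))) :=
        continuous_finsetSum _ fun r _ => (rl _).continuous.comp (fderiv_apply_continuous h1 _)
      have h5 : HasCompactSupport fun x => ∑ r, rl (Theta M G α (v r : Tup B.cenS))
          (fderiv ℝ f x (J (B.cenU (v r)))) := by
        refine hc.mono' fun x hx => ?_
        by_contra h0
        apply hx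
        have h6 : f =ᶠ[𝓝 x] 0 := notMem_tsupport_iff_eventuallyEq.mp h0
        have h7 : fderiv ℝ f x = 0 := by rw [h6.fderiv_eq]; simp
        simp [h7]
      have h3 := h4.memLp_of_hasCompactSupport (μ := μ) (p := 2) h5
      exact (memLp_two_iff_integrable_sq_norm h3.1).1 h3
    rw [← integral_const_mul, ← integral_const_mul, ← integral_add (i1.const_mul _)
      (i2.const_mul _)]
    refine integral_mono i3 ((i1.const_mul _).add (i2.const_mul _)) fun x => ?_
    have e2 : cenE B M G m α v J (fun x => c₀ + π x) f x =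
        (-Complex.I) • (∑ r, rl (Theta M G α (v r : Tup B.cenS))
          (fderiv ℝ f x (J (B.cenU (v r))))) + B.wC M G m α (c₀ + π x) (f x) := by
      unfold cenE EmbFam.cenQ aA
      simp only [LinearMap.smul_apply, Finset.smul_sum]
      rfl
    have e3 : (∑ r, rl (Theta M G α (v r : Tup B.cenS)) (fderiv ℝ f x (J (B.cenU (v r))))) =
        Complex.I • (cenE B M G m α v J (fun x => c₀ + π x) f x -
          B.wC M G m α (c₀ + π x) (f x)) := by
      rw [e2, add_sub_cancel_right, smul_smul]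
      simp
    show ‖∑ r, rl (Theta M G α (v r : Tup B.cenS)) (fderiv ℝ f x (J (B.cenU (v r))))‖ ^ 2 ≤
      2 * ‖cenE B M G m α v J (fun x => c₀ + π x) f x‖ ^ 2 +
        2 * ‖B.wC M G m α (c₀ + π x) (f x)‖ ^ 2
    rw [e3, norm_smul, Complex.norm_I, one_mul]
    have h8 := norm_sub_le (cenE B M G m α v J (fun x => c₀ + π x) f x)
      (B.wC M G m α (c₀ + π x) (f x))
    have h9 := pow_le_pow_left₀ (norm_nonneg _) h8 2
    nlinarith [sq_nonneg (‖cenE B M G m α v J (fun x => c₀ + π x) f x‖ -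
      ‖B.wC M G m α (c₀ + π x) (f x)‖)]
  have hsum := Finset.sum_le_sum fun α (_ : α ∈ (Finset.univ : Finset (Fin 16))) => key α
  simp only [Finset.sum_add_distrib, ← Finset.mul_sum, Finset.sum_const, Finset.card_univ,
    Fintype.card_fin, nsmul_eq_mul] at hsum
  push_cast at hsum
  linarith

/-- bound of the centre potential -/
theorem exists_wC_bound : ∃ C : ℝ, 0 ≤ C ∧ ∀ (m : ℝ) (α : Fin 16) (x : Cfg N) (f : F),
    ‖B.wC M G m α x f‖ ≤ C * |m| * ‖x‖ * ‖f‖ := by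
  have h1 : ∀ m α x, wCL B M G m α x = m • wCL B M G 1 α x := by
    intro m α x
    ext f
    rw [_root_.smul_apply, wCL_apply, wCL_apply, rl_apply, rl_apply]
    unfold EmbFam.wC
    simp only [LinearMap.sum_apply, Finset.smul_sum]
    refine Finset.sum_congr rfl fun β _ => ?_
    have h : B.cvec G m α β x = m • B.cvec G 1 α β x := by
      unfold EmbFam.cvec
      rw [one_smul, smul_neg]
    rw [h, EmbFam.thv_smul, LinearMap.smul_apply, Complex.coe_smul]
  refine ⟨∑ α, ‖wCL B M G 1 α‖, by positivity, fun m α x f => ?_⟩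
  have h2 : B.wC M G m α x f = m • wCL B M G 1 α x f := by
    rw [← _root_.smul_apply, ← h1]
    rfl
  rw [h2, norm_smul, Real.norm_eq_abs]
  have h3 : ‖wCL B M G 1 α x f‖ ≤ ‖wCL B M G 1 α‖ * ‖x‖ * ‖f‖ :=
    ((wCL B M G 1 α x).le_opNorm f).trans
      (mul_le_mul_of_nonneg_right ((wCL B M G 1 α).le_opNorm x) (norm_nonneg _))
  have h4 : ‖wCL B M G 1 α‖ ≤ ∑ α, ‖wCL B M G 1 α‖ :=
    Finset.single_le_sum (f := fun α => ‖wCL B M G 1 α‖) (fun _ _ => by positivity)
      (Finset.mem_univ α)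
  calc |m| * ‖wCL B M G 1 α x f‖ ≤ |m| * (‖wCL B M G 1 α‖ * ‖x‖ * ‖f‖) :=
        mul_le_mul_of_nonneg_left h3 (abs_nonneg _)
    _ ≤ |m| * ((∑ α, ‖wCL B M G 1 α‖) * ‖x‖ * ‖f‖) := by gcongr
    _ = _ := by ring

end general

/-! ### the shape of `Prod_494` -/

section pch

variable {Q : Type*} [Fintype Q] [DecidableEq Q] {k : Q → ℕ} {b : ColorBasis N}
  {K : Submodule ℝ (Colg N)} {bs : ∀ q, ColorBasis (k q)} (B : EmbFam b K bs)
  (M : FermionRep N F) (G : GammaNine) (g m : ℝ) (α : Fin 16)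

/-- the embedding of the block into `R⁹ ⊗ K` as an isometry -/
def embUi (q : Q) : Cfg (k q) →ₗᵢ[ℝ] Tup K where
  toLinearMap := B.embU q
  norm_map' y := (B.emb q).norm_map y

theorem embUi_apply (q : Q) (y : Cfg (k q)) : embUi B q y = B.embU q y := rfl

variable {E : Type*} [NormedAddCommGroup E] [InnerProductSpace ℝ E] [FiniteDimensional ℝ E]
  [MeasurableSpace E] [BorelSpace E] (J : Tup K →ₗᵢ[ℝ] E)

/-- the block as a subspace of `E` -/
def eE (q : Q) : Cfg (k q) →ₗᵢ[ℝ] E := J.comp (embUi B q)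

theorem eE_apply (q : Q) (y : Cfg (k q)) : eE B J q y = J (B.embU q y) := rfl

theorem inner_eE {q q' : Q} (h : q ≠ q') (y : Cfg (k q)) (y' : Cfg (k q')) :
    ⟪eE B J q y, eE B J q' y'⟫_ℝ = 0 := by
  rw [eE_apply, eE_apply, J.inner_map_map, Submodule.coe_inner]
  exact B.inner_emb_emb h y y'

theorem fst_eE (q : Q) {π : E →L[ℝ] Cfg N}
    (hπ : ∀ x (e : Tup K), ⟪π x, (e : Cfg N)⟫_ℝ = ⟪x, J e⟫_ℝ) (x : E) :
    (ofEmb (eE B J q) x).fst = B.pr q (π x) :=
  fst_ofEmb_eq _ fun v => by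
    rw [B.inner_pr, eE_apply, ← hπ]
    rfl

theorem perp_eE {q q' : Q} (h : q ≠ q') : Perp (ofEmb (eE B J q)) (ofEmb (eE B J q')) :=
  perp_ofEmb fun v v' => inner_eE B J h v v'

theorem symT_thq (q : Q) : SymT (B.thq M q) := fun β _ v w => thv_symm M β _ v w

/-- **The block charge is `pcharge` of `Prod_494`.** -/
theorem blkE_eq_pcharge (q : Q) {π : E →L[ℝ] Cfg N}
    (hπ : ∀ x (e : Tup K), ⟪π x, (e : Cfg N)⟫_ℝ = ⟪x, J e⟫_ℝ) {c₀ : Cfg N}
    (hc₀ : B.pr q c₀ = 0) (f : E → F) (x : E) :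
    blkE B M G g m α q J.toLinearMap (fun x => c₀ + π x) f x =
      pcharge (ofEmb (eE B J q)) (bs q) (B.thq M q) G g m α f x := by
  unfold blkE EmbFam.blkQ pcharge
  simp only [fst_eE B J q hπ, emb_ofEmb, dL_apply, map_add, hc₀, zero_add]
  rfl

/-- **L² norm of the light charge through `pcharge`.** -/
theorem light_norm_pcharge {ι ρ : Type*} [Fintype ι] [Fintype ρ]
    (u : OrthonormalBasis ι ℝ (Tup K)) (v : OrthonormalBasis ρ ℝ (Tup B.cenS))
    {π : E →L[ℝ] Cfg N} (hπ : ∀ x (e : Tup K), ⟪π x, (e : Cfg N)⟫_ℝ = ⟪x, J e⟫_ℝ)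
    (hJ : ∀ e, π (J e) = e) {c₀ : Cfg N} (hc₀ : c₀ ∈ Tup B.cenS)
    (hp : ∀ x, c₀ + π x ∈ Tup K) {f : E → F} (hf : ContDiff ℝ 2 f) (hc : HasCompactSupport f) :
    ∫ x, ‖lightE M G g m α b u J.toLinearMap (fun x => c₀ + π x) f x‖ ^ 2 =
      (∫ x, ‖cenE B M G m α v J.toLinearMap (fun x => c₀ + π x) f x‖ ^ 2) +
        ∑ q, ∫ x, ‖pcharge (ofEmb (eE B J q)) (bs q) (B.thq M q) G g m α f x‖ ^ 2 := by
  have h := light_norm B M G g m α (μ := (volume : Measure E)) u v J.toLinearMap c₀ π hJ hp hf hc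
  rw [h]
  congr 1
  refine Finset.sum_congr rfl fun q _ => ?_
  simp only [blkE_eq_pcharge B M G g m α J q hπ (B.pr_cen hc₀ q)]

/-- the block energies are bounded by the light energy -/
theorem sum_pcharge_le {ι : Type*} [Fintype ι] (u : OrthonormalBasis ι ℝ (Tup K))
    {π : E →L[ℝ] Cfg N} (hπ : ∀ x (e : Tup K), ⟪π x, (e : Cfg N)⟫_ℝ = ⟪x, J e⟫_ℝ)
    (hJ : ∀ e, π (J e) = e) {c₀ : Cfg N} (hc₀ : c₀ ∈ Tup B.cenS)
    (hp : ∀ x, c₀ + π x ∈ Tup K) {f : E → F} (hf : ContDiff ℝ 2 f) (hc : HasCompactSupport f) :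
    ∑ α, ∑ q, ∫ x, ‖pcharge (ofEmb (eE B J q)) (bs q) (B.thq M q) G g m α f x‖ ^ 2 ≤
      ∑ α, ∫ x, ‖lightE M G g m α b u J.toLinearMap (fun x => c₀ + π x) f x‖ ^ 2 := by
  refine Finset.sum_le_sum fun α _ => ?_
  rw [light_norm_pcharge B M G g m α J u (stdOrthonormalBasis ℝ (Tup B.cenS)) hπ hJ hc₀ hp hf hc]
  have : 0 ≤ ∫ x, ‖cenE B M G m α (stdOrthonormalBasis ℝ (Tup B.cenS)) J.toLinearMap
      (fun x => c₀ + π x) f x‖ ^ 2 := integral_nonneg fun _ => sq_nonneg _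
  linarith

/-- the gradient along the centre is bounded by the light energy -/
theorem cen_energy_le {ι ρ : Type*} [Fintype ι] [Fintype ρ]
    (u : OrthonormalBasis ι ℝ (Tup K)) (v : OrthonormalBasis ρ ℝ (Tup B.cenS))
    {π : E →L[ℝ] Cfg N} (hJ : ∀ e, π (J e) = e) {c₀ : Cfg N}
    (hp : ∀ x, c₀ + π x ∈ Tup K) {f : E → F} (hf : ContDiff ℝ 2 f) (hc : HasCompactSupport f) :
    8 * ∑ r, ∫ x, ‖fderiv ℝ f x (J (B.cenU (v r)))‖ ^ 2 ≤
      (2 * ∑ α, ∫ x, ‖lightE M G g m α b u J.toLinearMap (fun x => c₀ + π x) f x‖ ^ 2) +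
        2 * ∑ α, ∫ x, ‖B.wC M G m α (c₀ + π x) (f x)‖ ^ 2 := by
  have h1 := cen_energy B M G m (μ := (volume : Measure E)) v J.toLinearMap c₀ π hf hc
  have h2 : ∀ α, ∫ x, ‖cenE B M G m α v J.toLinearMap (fun x => c₀ + π x) f x‖ ^ 2 ≤
      ∫ x, ‖lightE M G g m α b u J.toLinearMap (fun x => c₀ + π x) f x‖ ^ 2 := fun α => by
    rw [light_norm B M G g m α (μ := (volume : Measure E)) u v J.toLinearMap c₀ π hJ hp hf hc]
    have : 0 ≤ ∑ q, ∫ x, ‖blkE B M G g m α q J.toLinearMap (fun x => c₀ + π x) f x‖ ^ 2 :=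
      Finset.sum_nonneg fun q _ => integral_nonneg fun _ => sq_nonneg _
    linarith
  have h3 := Finset.sum_le_sum fun α (_ : α ∈ (Finset.univ : Finset (Fin 16))) => h2 α
  have h4 : 8 * ∑ r, ∫ x, ‖fderiv ℝ f x (J.toLinearMap (B.cenU (v r)))‖ ^ 2 =
      8 * ∑ r, ∫ x, ‖fderiv ℝ f x (J (B.cenU (v r)))‖ ^ 2 := rfl
  rw [← h4]
  linarith

end pch

/-! ## Change of the subspace -/

/-- transport along an equality of subspaces -/
def castK {Q : Type*} [Fintype Q] [DecidableEq Q] {k : Q → ℕ} {b : ColorBasis N}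
    {K K' : Submodule ℝ (Colg N)} {bs : ∀ q, ColorBasis (k q)} (h : K = K')
    (B : EmbFam b K bs) : EmbFam b K' bs where
  eps := B.eps
  mem q u := h ▸ B.mem q u
  orth := B.orth
  brk := B.brk
  brk0 := B.brk0
  cen w hw h0 v hv := B.cen w (h ▸ hw) h0 v (h ▸ hv)

open Crest.Agent.R330.Blk317 in
/-- **The block family at a commuting configuration with separated clusters.** -/
def famAt {Q : Type*} [Fintype Q] [DecidableEq Q] {k : Q → ℕ} (D : Dec N k) (b : ColorBasis N)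
    (bs : ∀ q, ColorBasis (k q)) (hk : ∀ q, 0 < k q) {R : Fin 9 → Q → ℝ}
    (hR : ∀ i, ∑ p, (k p : ℝ) * R i p = 0) (hs : ∀ p q, p ≠ q → ∃ i, R i p ≠ R i q) :
    EmbFam b (kc (actB b) (D.cenCfg b R)) bs :=
  castK (D.kc_cenCfg b hR hs).symm (EmbFam.ofDec D b bs hk)

open Crest.Agent.R330.Blk317 in
theorem famAt_emb {Q : Type*} [Fintype Q] [DecidableEq Q] {k : Q → ℕ} (D : Dec N k)
    (b : ColorBasis N) (bs : ∀ q, ColorBasis (k q)) (hk : ∀ q, 0 < k q) {R : Fin 9 → Q → ℝ}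
    (hR : ∀ i, ∑ p, (k p : ℝ) * R i p = 0) (hs : ∀ p q, p ≠ q → ∃ i, R i p ≠ R i q) (q : Q)
    (y : Cfg (k q)) : (famAt D b bs hk hR hs).emb q y = D.embCfg b bs q y :=
  EmbFam.ofDec_emb D b bs hk q y

open Crest.Agent.R330.Blk317 in
/-- the base point is central -/
theorem cenCfg_mem {Q : Type*} [Fintype Q] [DecidableEq Q] {k : Q → ℕ} (D : Dec N k)
    (b : ColorBasis N) (bs : ∀ q, ColorBasis (k q)) (hk : ∀ q, 0 < k q) {R : Fin 9 → Q → ℝ}
    (hR : ∀ i, ∑ p, (k p : ℝ) * R i p = 0) (hs : ∀ p q, p ≠ q → ∃ i, R i p ≠ R i q)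
    {S : Fin 9 → Q → ℝ} (hS : ∀ i, ∑ p, (k p : ℝ) * S i p = 0) :
    D.cenCfg b S ∈ Tup (famAt D b bs hk hR hs).cenS := by
  have h1 : ∀ i, cm b (comp (D.cenCfg b S) i) = D.cenM (S i) := fun i => D.mat_cenCfg b hS i
  intro i
  refine ⟨?_, fun q u => ?_⟩
  · rw [D.kc_cenCfg b hR hs]
    show D.BD (cm b (comp (D.cenCfg b S) i))
    rw [h1]
    exact D.BD_cenM _
  · show ⟪comp (D.cenCfg b S) i, D.emb b bs q u⟫_ℝ = 0
    have h2 : ((⟪comp (D.cenCfg b S) i, D.emb b bs q u⟫_ℝ : ℝ) : ℂ) = ((0 : ℝ) : ℂ) := by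
      rw [inner_eq_trace b, h1, Dec.cm_emb, Dec.cenM_mul_embM, Matrix.trace_smul,
        Dec.trace_embM, SlA314.cm_trace, smul_zero, Complex.ofReal_zero]
    exact_mod_cast h2

/-! ## The fixed slice `Sc b c = Uk b c × Zs b c` -/

section slice

open Crest.Agent.R330.LemA342

variable {Q : Type*} [Fintype Q] [DecidableEq Q] {k : Q → ℕ} {b : ColorBasis N} {c : Cfg N}
  {bs : ∀ q, ColorBasis (k q)} (B : EmbFam b (kc (actB b) c) bs)
  (M : FermionRep N F) (G : GammaNine) (g m : ℝ) (α : Fin 16)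

/-- light directions of the slice -/
def Jsc : Tup (kc (actB b) c) →ₗ[ℝ] Sc b c := LinearMap.inl ℝ (Uk b c) (Zs b c)

/-- light component of a point of the slice -/
def πsc : Sc b c →L[ℝ] Cfg N :=
  (Uk b c).subtypeL.comp (ContinuousLinearMap.fst ℝ (Uk b c) (Zs b c))

theorem Aop_eq_lightE {ι : Type*} [Fintype ι] (e : OrthonormalBasis ι ℝ (Uk b c))
    (Φ : Sc b c → F) :
    Aop b c M G g m α e Φ = lightE M G g m α b e Jsc (fun x => c + πsc x) Φ := rfl

/-- **L² norm of the light part of the charge on the fixed slice.** -/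
theorem Aop_norm {μ : Measure (Sc b c)} [μ.IsAddHaarMeasure] (hc : c ∈ Uk b c)
    {ι ρ : Type*} [Fintype ι] [Fintype ρ] (e : OrthonormalBasis ι ℝ (Uk b c))
    (v : OrthonormalBasis ρ ℝ (Tup B.cenS)) {Φ : Sc b c → F} (hΦ : ContDiff ℝ 2 Φ)
    (hs : HasCompactSupport Φ) :
    ∫ x, ‖Aop b c M G g m α e Φ x‖ ^ 2 ∂μ =
      ∫ x, ‖cenE B M G m α v Jsc (fun x => c + πsc x) Φ x‖ ^ 2 ∂μ +
        ∑ q, ∫ x, ‖blkE B M G g m α q Jsc (fun x => c + πsc x) Φ x‖ ^ 2 ∂μ :=
  light_norm B M G g m α e v Jsc c πsc (fun _ => rfl) (fun x => (Uk b c).add_mem hc x.1.2) hΦ hs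

/-- **Gradient along the centre on the fixed slice.** -/
theorem Aop_cen {μ : Measure (Sc b c)} [μ.IsAddHaarMeasure] (hc : c ∈ Uk b c)
    {ι ρ : Type*} [Fintype ι] [Fintype ρ] (e : OrthonormalBasis ι ℝ (Uk b c))
    (v : OrthonormalBasis ρ ℝ (Tup B.cenS)) {Φ : Sc b c → F} (hΦ : ContDiff ℝ 2 Φ)
    (hs : HasCompactSupport Φ) :
    8 * ∑ r, ∫ x, ‖fderiv ℝ Φ x (Jsc (B.cenU (v r)))‖ ^ 2 ∂μ ≤
      2 * ∑ α, ∫ x, ‖Aop b c M G g m α e Φ x‖ ^ 2 ∂μ +
        2 * ∑ α, ∫ x, ‖B.wC M G m α (c + πsc x) (Φ x)‖ ^ 2 ∂μ := by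
  have h1 := cen_energy B M G m (μ := μ) v Jsc c πsc hΦ hs
  have h2 : ∀ α, ∫ x, ‖cenE B M G m α v Jsc (fun x => c + πsc x) Φ x‖ ^ 2 ∂μ ≤
      ∫ x, ‖Aop b c M G g m α e Φ x‖ ^ 2 ∂μ := fun α => by
    rw [Aop_norm B M G g m α hc e v hΦ hs]
    have : 0 ≤ ∑ q, ∫ x, ‖blkE B M G g m α q Jsc (fun x => c + πsc x) Φ x‖ ^ 2 ∂μ :=
      Finset.sum_nonneg fun q _ => integral_nonneg fun _ => sq_nonneg _
    linarith
  have h3 := Finset.sum_le_sum fun α (_ : α ∈ (Finset.univ : Finset (Fin 16))) => h2 α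
  linarith

end slice

end Crest.Agent.R330.BlkNorm837

end
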