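import Crest.Agent.R330.Decoup_924
import Crest.Agent.R330.Bind6_839
import Crest.Agent.R330.Prod_494
import Crest.Agent.R330.Blk3_317

/-!
# Row 330, doc 9.1 (f): the block split of the light charges (helper837)

* `parts_split` : a sum of first order operators ("parts") with mutually anticommuting coefficients,
  the potential of each part being constant in the directions of the others:
  `∫ ‖Σ_q P_q f‖² = Σ_q ∫ ‖P_q f‖²`.
* `EmbFam b K bs` : a family of orthogonal, commuting, bracket preserving embeddings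
  `eps q : Colg (k q) → Colg N` into `K`, the orthogonal complement in `K` being central in `K`.
* `emb`, `pr`, `cenS`, `cenp` : the corresponding decomposition of `R⁹ ⊗ K`.
* `thq` : the generators of the block.
* `wA_split`, `kin_split`, `light_split` : the light charges (`aA`, `wA` of `Bind6_839`) are the sum of
  the centre part and of the block charges (shape of `gcharge` of `Prod_494`).
-/

set_option autoImplicit false
set_option linter.unusedSectionVars false

noncomputable section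

namespace Crest.Agent.R330.BlkSplit837

open MeasureTheory Filter Topology Crest.MathPhysics.MatrixQM
open Crest.Agent.R330.IBP837 Crest.Agent.R330.Defs478 Crest.Agent.R330.Frame839
open Crest.Agent.R330.LS839 Crest.Agent.R330.Clus839 Crest.Agent.R330.Bind6839
open Crest.Agent.R330.Decoup924
open scoped ContDiff InnerProductSpace ENNReal

/-! ## Parts with anticommuting coefficients -/

section abs

variable {E : Type*} [NormedAddCommGroup E] [NormedSpace ℝ E] [FiniteDimensional ℝ E]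
  [MeasurableSpace E] [BorelSpace E] {μ : Measure E} [μ.IsAddHaarMeasure]
  {F : Type*} [NormedAddCommGroup F] [InnerProductSpace ℂ F] [FiniteDimensional ℂ F]
  {P : Type*} [Fintype P] [DecidableEq P] {κ : P → Type*} [∀ q, Fintype (κ q)]

theorem anti_symm {S T : F →L[ℝ] F} (h : Anti S T) : Anti T S := fun v => by
  rw [h v, neg_neg]

theorem integral_norm_sq_eq (f : E → F) :
    ((∫ x, ‖f x‖ ^ 2 ∂μ : ℝ) : ℂ) = ∫ x, ⟪f x, f x⟫_ℂ ∂μ := by
  rw [← integral_complex_ofReal]
  refine integral_congr_ae (Eventually.of_forall fun x => ?_)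
  simp only
  rw [inner_self_eq_norm_sq_to_K]
  simp

/-- **Parts.** -/
theorem parts_split {e : ∀ q, κ q → E} {a : ∀ q, κ q → F →L[ℝ] F} {w : P → E → F →L[ℝ] F}
    (hw : ∀ q, ContDiff ℝ 1 (w q)) (has : ∀ q k, Skew (a q k)) (hws : ∀ q x, Symm (w q x))
    (haa : ∀ q q', q ≠ q' → ∀ k l, Anti (a q k) (a q' l))
    (haw : ∀ q q', q ≠ q' → ∀ k x, Anti (a q k) (w q' x))
    (hww : ∀ q q', q ≠ q' → ∀ x, Anti (w q x) (w q' x))
    (hvw : ∀ q q', q ≠ q' → ∀ k x, fderiv ℝ (w q) x (e q' k) = 0)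
    {f : E → F} (hf : ContDiff ℝ 2 f) (hcf : HasCompactSupport f) :
    ∫ x, ‖∑ q, op (e q) (fun k _ => a q k) (w q) f x‖ ^ 2 ∂μ =
      ∑ q, ∫ x, ‖op (e q) (fun k _ => a q k) (w q) f x‖ ^ 2 ∂μ := by
  set A : P → E → F := fun q => op (e q) (fun k _ => a q k) (w q) f with hA
  have hAc : ∀ q, ContDiff ℝ 1 (A q) := fun q =>
    contDiff_op (n := 2) (m := 1) (by norm_num) (fun k => contDiff_const) (hw q) hf
  have hAs : ∀ q, HasCompactSupport (A q) := fun q => hasCompactSupport_op hcf
  set X : P → P → ℂ := fun q q' => ∫ x, ⟪A q x, A q' x⟫_ℂ ∂μ with hX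
  have hint : ∀ q q', Integrable (fun x => ⟪A q x, A q' x⟫_ℂ) μ := fun q q' =>
    integrable_inner_of_cont (hAc q).continuous (hAc q').continuous (Or.inl (hAs q))
  have hcross : ∀ q q', q ≠ q' → X q q' + X q' q = 0 := by
    intro q q' hqq
    have h := cross_identity (μ := μ) (e := e q) (a := a q) (w := w q) (v := e q')
      (β := fun k _ => a q' k) (p := w q') (hw q) (fun i => contDiff_const) (hw q') (has q)
      (hws q) (fun i x => has q' i) (hws q') (fun i x => by simp) (hvw q q' hqq)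
      (fun k i x => haa q q' hqq k i) (fun k x => haw q q' hqq k x)
      (fun i x => anti_symm (haw q' q hqq.symm i x)) (fun x => hww q q' hqq x) hf hf hcf hcf
    have h0 : ∀ x, ∑ k, a q k (dop (e q k) (e q') (fun k _ => a q' k) (w q') f x) = 0 := by
      intro x
      refine Finset.sum_eq_zero fun k _ => ?_
      have : dop (e q k) (e q') (fun k _ => a q' k) (w q') f x = 0 := by
        unfold dop
        rw [hvw q' q hqq.symm k x]
        simp
      rw [this, map_zero]
    simp only [h0, inner_zero_right, integral_zero] at h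
    exact h
  have e1 : ((∫ x, ‖∑ q, A q x‖ ^ 2 ∂μ : ℝ) : ℂ) = ∑ q, ∑ q', X q q' := by
    rw [integral_norm_sq_eq (fun x => ∑ q, A q x)]
    have h1 : ∀ x, ⟪∑ q, A q x, ∑ q, A q x⟫_ℂ = ∑ q, ∑ q', ⟪A q x, A q' x⟫_ℂ := by
      intro x
      rw [sum_inner]
      exact Finset.sum_congr rfl fun q _ => inner_sum _ _ _
    simp only [h1]
    rw [integral_finsetSum _ fun q _ => integrable_finsetSum _ fun q' _ => hint q q']
    exact Finset.sum_congr rfl fun q _ => integral_finsetSum _ fun q' _ => hint q q'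
  have e2 : ((∑ q, ∫ x, ‖A q x‖ ^ 2 ∂μ : ℝ) : ℂ) = ∑ q, X q q := by
    rw [Complex.ofReal_sum]
    exact Finset.sum_congr rfl fun q _ => integral_norm_sq_eq (A q)
  have e3 : ∑ q, ∑ q', X q q' = ∑ q, X q q := by
    have h1 : ∀ q q', X q q' + X q' q = if q = q' then 2 * X q q else 0 := by
      intro q q'
      split_ifs with h
      · subst h; ring
      · exact hcross q q' h
    have h2 : (2 : ℂ) * ∑ q, ∑ q', X q q' = 2 * ∑ q, X q q := by
      calc (2 : ℂ) * ∑ q, ∑ q', X q q' = ∑ q, ∑ q', X q q' + ∑ q, ∑ q', X q' q := by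
            rw [two_mul]; congr 1; exact Finset.sum_comm
        _ = ∑ q, ∑ q', (X q q' + X q' q) := by
            simp only [Finset.sum_add_distrib]
        _ = ∑ q, ∑ q', (if q = q' then 2 * X q q else 0) := by simp only [h1]
        _ = 2 * ∑ q, X q q := by
            simp only [Finset.sum_ite_eq, Finset.mem_univ, if_true, Finset.mul_sum]
    exact mul_left_cancel₀ two_ne_zero h2
  have : ((∫ x, ‖∑ q, A q x‖ ^ 2 ∂μ : ℝ) : ℂ) = ((∑ q, ∫ x, ‖A q x‖ ^ 2 ∂μ : ℝ) : ℂ) := by
    rw [e1, e2, e3]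
  exact_mod_cast this

end abs

/-! ## Families of embedded blocks -/

variable {N : ℕ} {Q : Type*} [Fintype Q] [DecidableEq Q] {k : Q → ℕ}

/-- Orthogonal commuting bracket preserving embeddings of colour algebras into `K`, the rest of `K`
being central in `K`. -/
structure EmbFam (b : ColorBasis N) (K : Submodule ℝ (Colg N)) (bs : ∀ q, ColorBasis (k q)) where
  /-- the embeddings -/
  eps : ∀ q, Colg (k q) →ₗᵢ[ℝ] Colg N
  mem : ∀ q u, eps q u ∈ K
  orth : ∀ q q', q ≠ q' → ∀ u v, ⟪eps q u, eps q' v⟫_ℝ = 0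
  brk : ∀ q u v, (colAlg b).br (eps q u) (eps q v) = eps q ((colAlg (bs q)).br u v)
  brk0 : ∀ q q', q ≠ q' → ∀ u v, (colAlg b).br (eps q u) (eps q' v) = 0
  cen : ∀ w ∈ K, (∀ q u, ⟪w, eps q u⟫_ℝ = 0) → ∀ v ∈ K, (colAlg b).br w v = 0

namespace EmbFam

variable {b : ColorBasis N} {K : Submodule ℝ (Colg N)} {bs : ∀ q, ColorBasis (k q)}
  (B : EmbFam b K bs)

/-- the embedding of configurations -/
def emb (q : Q) : Cfg (k q) →ₗᵢ[ℝ] Cfg N where
  toFun y := mkc fun i => B.eps q (comp y i)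
  map_add' y y' := ext_comp fun i => by
    simp only [comp_mkc, comp_add, map_add]
  map_smul' r y := ext_comp fun i => by
    simp only [comp_mkc, comp_smul, map_smul, RingHom.id_apply]
  norm_map' y := by
    have h : ‖mkc fun i => B.eps q (comp y i)‖ ^ 2 = ‖y‖ ^ 2 := by
      rw [norm_sq_comp, norm_sq_comp]
      refine Finset.sum_congr rfl fun i _ => ?_
      rw [comp_mkc, LinearIsometry.norm_map]
    exact (sq_eq_sq₀ (norm_nonneg _) (norm_nonneg _)).1 h

theorem comp_emb (q : Q) (y : Cfg (k q)) (i : Fin 9) : comp (B.emb q y) i = B.eps q (comp y i) :=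
  rfl

/-- the adjoint of `eps q` -/
def epa (q : Q) : Colg N →ₗ[ℝ] Colg (k q) := LinearMap.adjoint (B.eps q).toLinearMap

theorem inner_epa (q : Q) (w : Colg N) (u : Colg (k q)) : ⟪B.epa q w, u⟫_ℝ = ⟪w, B.eps q u⟫_ℝ := by
  unfold epa
  rw [LinearMap.adjoint_inner_left]
  rfl

theorem epa_eps (q : Q) (u : Colg (k q)) : B.epa q (B.eps q u) = u := by
  refine ext_inner_right ℝ fun v => ?_
  rw [B.inner_epa, LinearIsometry.inner_map_map]

theorem epa_eps_ne {q q' : Q} (h : q ≠ q') (u : Colg (k q')) : B.epa q (B.eps q' u) = 0 := by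
  refine ext_inner_right ℝ fun v => ?_
  rw [B.inner_epa, B.orth q' q h.symm, inner_zero_left]

/-- the block component of a configuration -/
def pr (q : Q) : Cfg N →ₗ[ℝ] Cfg (k q) where
  toFun x := mkc fun i => B.epa q (comp x i)
  map_add' x y := ext_comp fun i => by simp only [comp_mkc, comp_add, map_add]
  map_smul' r x := ext_comp fun i => by
    simp only [comp_mkc, comp_smul, map_smul, RingHom.id_apply]

theorem comp_pr (q : Q) (x : Cfg N) (i : Fin 9) : comp (B.pr q x) i = B.epa q (comp x i) := rfl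

theorem inner_pr (q : Q) (x : Cfg N) (y : Cfg (k q)) : ⟪B.pr q x, y⟫_ℝ = ⟪x, B.emb q y⟫_ℝ := by
  rw [inner_comp, inner_comp]
  refine Finset.sum_congr rfl fun i _ => ?_
  rw [B.comp_pr, B.comp_emb]
  exact B.inner_epa q _ _

theorem pr_emb (q : Q) (y : Cfg (k q)) : B.pr q (B.emb q y) = y :=
  ext_comp fun i => by rw [comp_pr, comp_emb, B.epa_eps]

theorem pr_emb_ne {q q' : Q} (h : q ≠ q') (y : Cfg (k q')) : B.pr q (B.emb q' y) = 0 :=
  ext_comp fun i => by rw [comp_pr, comp_emb, B.epa_eps_ne h]; rfl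

/-- the central part of `K` -/
def cenS : Submodule ℝ (Colg N) where
  carrier := {w | w ∈ K ∧ ∀ q u, ⟪w, B.eps q u⟫_ℝ = 0}
  add_mem' h h' := ⟨K.add_mem h.1 h'.1, fun q u => by rw [inner_add_left, h.2, h'.2, add_zero]⟩
  zero_mem' := ⟨K.zero_mem, fun q u => inner_zero_left _⟩
  smul_mem' r w h := ⟨K.smul_mem r h.1, fun q u => by
    rw [inner_smul_left, h.2, mul_zero]⟩

theorem mem_cenS {w : Colg N} : w ∈ B.cenS ↔ w ∈ K ∧ ∀ q u, ⟪w, B.eps q u⟫_ℝ = 0 := Iff.rfl

/-- the central component -/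
def cenp (x : Cfg N) : Cfg N := x - ∑ q, B.emb q (B.pr q x)

theorem comp_sum {ι : Type*} (s : Finset ι) (f : ι → Cfg N) (i : Fin 9) :
    comp (∑ j ∈ s, f j) i = ∑ j ∈ s, comp (f j) i := by
  classical
  induction s using Finset.induction_on with
  | empty => simp [comp_zero]
  | insert a s ha ih => rw [Finset.sum_insert ha, Finset.sum_insert ha, comp_add, ih]

theorem comp_cenp (x : Cfg N) (i : Fin 9) :
    comp (B.cenp x) i = comp x i - ∑ q, B.eps q (B.epa q (comp x i)) := by
  unfold cenp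
  rw [comp_sub, comp_sum]
  rfl

theorem cen_mem {w : Colg N} (hw : w ∈ K) : w - ∑ q, B.eps q (B.epa q w) ∈ B.cenS := by
  refine ⟨K.sub_mem hw (K.sum_mem fun q _ => B.mem q _), fun q u => ?_⟩
  rw [inner_sub_left, sum_inner, Finset.sum_eq_single q]
  · rw [LinearIsometry.inner_map_map, B.inner_epa, sub_self]
  · intro q' _ hq
    exact B.orth q' q hq _ _
  · simp

theorem cenp_mem {x : Cfg N} (hx : x ∈ Tup K) : B.cenp x ∈ Tup B.cenS := fun i => by
  rw [B.comp_cenp]
  exact B.cen_mem (hx i)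

theorem decomp (x : Cfg N) : x = B.cenp x + ∑ q, B.emb q (B.pr q x) := by
  unfold cenp
  abel

theorem emb_mem (q : Q) (y : Cfg (k q)) : B.emb q y ∈ Tup K := fun i => by
  rw [B.comp_emb]
  exact B.mem q _

theorem Tup_cenS_le : Tup B.cenS ≤ Tup K := fun _ hx i => (hx i).1

theorem inner_cen_emb {x : Cfg N} (hx : x ∈ Tup B.cenS) (q : Q) (y : Cfg (k q)) :
    ⟪x, B.emb q y⟫_ℝ = 0 := by
  rw [inner_comp]
  refine Finset.sum_eq_zero fun i _ => ?_
  rw [B.comp_emb]
  exact (hx i).2 q _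

theorem pr_cen {x : Cfg N} (hx : x ∈ Tup B.cenS) (q : Q) : B.pr q x = 0 := by
  refine ext_inner_right ℝ fun y => ?_
  rw [B.inner_pr, B.inner_cen_emb hx, inner_zero_left]

theorem inner_emb_emb {q q' : Q} (h : q ≠ q') (y : Cfg (k q)) (y' : Cfg (k q')) :
    ⟪B.emb q y, B.emb q' y'⟫_ℝ = 0 := by
  rw [inner_comp]
  refine Finset.sum_eq_zero fun i _ => ?_
  rw [B.comp_emb, B.comp_emb]
  exact B.orth q q' h _ _

/-- The bracket of two vectors of `K`. -/
theorem br_split {u v : Colg N} (hu : u ∈ K) (hv : v ∈ K) :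
    (colAlg b).br u v = ∑ q, B.eps q ((colAlg (bs q)).br (B.epa q u) (B.epa q v)) := by
  have hu' : u = (u - ∑ q, B.eps q (B.epa q u)) + ∑ q, B.eps q (B.epa q u) := by abel
  have hv' : v = (v - ∑ q, B.eps q (B.epa q v)) + ∑ q, B.eps q (B.epa q v) := by abel
  have h1 : (colAlg b).br u v = (colAlg b).br (∑ q, B.eps q (B.epa q u)) v := by
    conv_lhs => rw [hu', map_add, LinearMap.add_apply]
    rw [B.cen _ (B.cen_mem hu).1 (B.cen_mem hu).2 v hv, zero_add]
  have h2 : (colAlg b).br (∑ q, B.eps q (B.epa q u)) v =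
      (colAlg b).br (∑ q, B.eps q (B.epa q u)) (∑ q, B.eps q (B.epa q v)) := by
    conv_lhs => rw [hv', map_add]
    rw [(colAlg b).anti _ (v - ∑ q, B.eps q (B.epa q v)),
      B.cen _ (B.cen_mem hv).1 (B.cen_mem hv).2 _ (K.sum_mem fun q _ => B.mem q _), neg_zero,
      zero_add]
  rw [h1, h2]
  have h3 : ∀ w : Colg N, (colAlg b).br (∑ q, B.eps q (B.epa q u)) w =
      ∑ q, (colAlg b).br (B.eps q (B.epa q u)) w := fun w => by
    rw [map_sum, LinearMap.sum_apply]
  rw [h3]
  refine Finset.sum_congr rfl fun q _ => ?_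
  rw [map_sum, Finset.sum_eq_single q]
  · rw [B.brk]
  · intro q' _ hq
    exact B.brk0 q q' hq.symm _ _
  · simp

variable {F : Type*} [NormedAddCommGroup F] [InnerProductSpace ℂ F] [FiniteDimensional ℂ F]

/-- the generators of the block -/
def thq (M : FermionRep N F) (q : Q) (β : Fin 16) (A : Fin (k q ^ 2 - 1)) : F →ₗ[ℂ] F :=
  thv M β (B.eps q (EuclideanSpace.single A 1))

theorem thv_add (M : FermionRep N F) (β : Fin 16) (u v : Colg N) :
    thv M β (u + v) = thv M β u + thv M β v := by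
  unfold thv
  rw [← Finset.sum_add_distrib]
  refine Finset.sum_congr rfl fun A _ => ?_
  rw [PiLp.add_apply, Complex.ofReal_add, add_smul]

theorem thv_smul (M : FermionRep N F) (β : Fin 16) (r : ℝ) (u : Colg N) :
    thv M β (r • u) = (r : ℂ) • thv M β u := by
  unfold thv
  rw [Finset.smul_sum]
  refine Finset.sum_congr rfl fun A _ => ?_
  rw [PiLp.smul_apply, smul_eq_mul, Complex.ofReal_mul, smul_smul]

/-- `thv` as a real linear map -/
def thvL (M : FermionRep N F) (β : Fin 16) : Colg N →ₗ[ℝ] (F →ₗ[ℂ] F) where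
  toFun := thv M β
  map_add' := thv_add M β
  map_smul' r u := by rw [thv_smul, RingHom.id_apply, Complex.coe_smul]

theorem thvL_apply (M : FermionRep N F) (β : Fin 16) (u : Colg N) : thvL M β u = thv M β u := rfl

theorem sum_single (n : ℕ) (u : Colg n) :
    u = ∑ A, u A • (EuclideanSpace.single A (1 : ℝ) : Colg n) := by
  have h := (EuclideanSpace.basisFun (Fin (n ^ 2 - 1)) ℝ).sum_repr u
  simp only [EuclideanSpace.basisFun_apply, EuclideanSpace.basisFun_repr] at h
  exact h.symm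

theorem thv_eps (M : FermionRep N F) (q : Q) (β : Fin 16) (u : Colg (k q)) (f : F) :
    thv M β (B.eps q u) f = ∑ A, ((u A : ℝ) : ℂ) • B.thq M q β A f := by
  conv_lhs => rw [sum_single (k q) u, map_sum]
  rw [← thvL_apply, map_sum, LinearMap.sum_apply]
  refine Finset.sum_congr rfl fun A _ => ?_
  rw [map_smul, thvL_apply, thv_smul]
  rfl

/-! ### the potential -/

section pot

variable (M : FermionRep N F) (G : GammaNine) (g m : ℝ) (α : Fin 16)

/-- the colour vector of the potential -/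
def wvec (b : ColorBasis N) (G : GammaNine) (g m : ℝ) (α β : Fin 16) (x : Cfg N) : Colg N :=
  WithLp.toLp 2 fun A => wpot b G g m α β A x

theorem wvec_eq (b : ColorBasis N) (G : GammaNine) (g m : ℝ) (α β : Fin 16) (x : Cfg N) :
    wvec b G g m α β x =
      g • (∑ i, ∑ j, (1 / 2 * G.γ2 i j α β) • (colAlg b).br (comp x i) (comp x j)) -
      m • ∑ j, (cc j * (Gam G * G.γ j) α β) • comp x j := by
  rw [← wbv_eq, ← wlv_eq]
  unfold wvec
  ext A
  simp [wpot_wb]

theorem wA_eq_sum (x : Cfg N) (f : F) :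
    wA b M G g m α x f = ∑ β, thv M β (wvec b G g m α β x) f := by
  have h : vco M (fun β A => wpot b G g m α β A x) =
      ∑ β, thv M β (wvec b G g m α β x) := by
    unfold vco thv wvec
    rw [Finset.sum_comm]
  unfold wA
  rw [h, LinearMap.sum_apply]

/-- the mass vector of the centre -/
def cvec (G : GammaNine) (m : ℝ) (α β : Fin 16) (x : Cfg N) : Colg N :=
  -(m • ∑ j, (cc j * (Gam G * G.γ j) α β) • comp (B.cenp x) j)

theorem wvec_split (β : Fin 16) {x : Cfg N} (hx : x ∈ Tup K) :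
    wvec b G g m α β x = B.cvec G m α β x +
      ∑ q, B.eps q (wvec (bs q) G g m α β (B.pr q x)) := by
  have h1 : ∀ q, B.eps q (wvec (bs q) G g m α β (B.pr q x)) =
      g • (∑ i, ∑ j, (1 / 2 * G.γ2 i j α β) •
        B.eps q ((colAlg (bs q)).br (B.epa q (comp x i)) (B.epa q (comp x j)))) -
      m • ∑ j, (cc j * (Gam G * G.γ j) α β) • B.eps q (B.epa q (comp x j)) := by
    intro q
    rw [wvec_eq, map_sub, map_smul, map_smul, map_sum, map_sum]
    congr 2
    · refine Finset.sum_congr rfl fun i _ => ?_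
      rw [map_sum]
      refine Finset.sum_congr rfl fun j _ => ?_
      rw [map_smul, comp_pr, comp_pr]
    · refine Finset.sum_congr rfl fun j _ => ?_
      rw [map_smul, comp_pr]
  simp only [h1]
  rw [wvec_eq, Finset.sum_sub_distrib, ← Finset.smul_sum, ← Finset.smul_sum]
  have e1 : ∑ q, ∑ i, ∑ j, (1 / 2 * G.γ2 i j α β) •
        B.eps q ((colAlg (bs q)).br (B.epa q (comp x i)) (B.epa q (comp x j))) =
      ∑ i, ∑ j, (1 / 2 * G.γ2 i j α β) • (colAlg b).br (comp x i) (comp x j) := by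
    rw [Finset.sum_comm]
    refine Finset.sum_congr rfl fun i _ => ?_
    rw [Finset.sum_comm]
    refine Finset.sum_congr rfl fun j _ => ?_
    rw [← Finset.smul_sum, ← B.br_split (hx i) (hx j)]
  have e2 : ∑ q, ∑ j, (cc j * (Gam G * G.γ j) α β) • B.eps q (B.epa q (comp x j)) =
      ∑ j, (cc j * (Gam G * G.γ j) α β) • comp x j -
      ∑ j, (cc j * (Gam G * G.γ j) α β) • comp (B.cenp x) j := by
    rw [Finset.sum_comm, ← Finset.sum_sub_distrib]
    refine Finset.sum_congr rfl fun j _ => ?_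
    rw [← Finset.smul_sum, B.comp_cenp, ← smul_sub]
    congr 1
    abel
  rw [e1, e2]
  unfold cvec
  rw [smul_sub]
  abel

/-- potential of the centre -/
def wC (x : Cfg N) : F →ₗ[ℂ] F := ∑ β, thv M β (B.cvec G m α β x)

/-- potential of a block -/
def wQ (q : Q) (y : Cfg (k q)) : F →ₗ[ℂ] F :=
  ∑ A, ∑ β, ((wpot (bs q) G g m α β A y : ℝ) : ℂ) • B.thq M q β A

/-- **The potential.** -/
theorem wA_split {x : Cfg N} (hx : x ∈ Tup K) :
    wA b M G g m α x = B.wC M G m α x + ∑ q, B.wQ M G g m α q (B.pr q x) := by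
  apply LinearMap.ext
  intro f
  rw [wA_eq_sum, LinearMap.add_apply, LinearMap.sum_apply]
  unfold wC wQ
  simp only [LinearMap.sum_apply, LinearMap.smul_apply]
  have h : ∀ β, thv M β (wvec b G g m α β x) f = thv M β (B.cvec G m α β x) f +
      ∑ q, ∑ A, ((wpot (bs q) G g m α β A (B.pr q x) : ℝ) : ℂ) • B.thq M q β A f := by
    intro β
    rw [B.wvec_split G g m α β hx, thv_add, LinearMap.add_apply, ← thvL_apply, ← thvL_apply,
      map_sum, LinearMap.sum_apply]
    congr 1
    refine Finset.sum_congr rfl fun q _ => ?_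
    rw [thvL_apply, B.thv_eps]
    rfl
  simp only [h, Finset.sum_add_distrib]
  congr 1
  rw [Finset.sum_comm]
  refine Finset.sum_congr rfl fun q _ => ?_
  rw [Finset.sum_comm]

end pot

/-! ### the derivative part -/

/-- change of basis in a contraction -/
theorem trace_change {E G' : Type*} [NormedAddCommGroup E] [InnerProductSpace ℝ E]
    [AddCommGroup G'] [Module ℝ G'] {ι τ : Type*} [Fintype ι] [Fintype τ]
    (f : E →ₗ[ℝ] E →ₗ[ℝ] G') (u : OrthonormalBasis ι ℝ E) (V : τ → E)
    (h : ∀ x, x = ∑ t, ⟪V t, x⟫_ℝ • V t) : ∑ s, f (u s) (u s) = ∑ t, f (V t) (V t) := by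
  have h1 : ∀ s, f (u s) (u s) = ∑ t, ⟪V t, u s⟫_ℝ • f (V t) (u s) := by
    intro s
    have h2 : f (u s) = ∑ t, ⟪V t, u s⟫_ℝ • f (V t) := by
      conv_lhs => rw [h (u s)]
      rw [map_sum]
      exact Finset.sum_congr rfl fun t _ => by rw [map_smul]
    calc f (u s) (u s) = (∑ t, ⟪V t, u s⟫_ℝ • f (V t)) (u s) := by rw [← h2]
      _ = ∑ t, ⟪V t, u s⟫_ℝ • f (V t) (u s) := by
          rw [LinearMap.sum_apply]
          exact Finset.sum_congr rfl fun t _ => by rw [LinearMap.smul_apply]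
  simp only [h1]
  rw [Finset.sum_comm]
  refine Finset.sum_congr rfl fun t _ => ?_
  have h2 : V t = ∑ s, ⟪V t, u s⟫_ℝ • u s := by
    conv_lhs => rw [← u.sum_repr' (V t)]
    exact Finset.sum_congr rfl fun s _ => by rw [real_inner_comm]
  conv_rhs => rw [h2, map_sum, ← h2]
  exact Finset.sum_congr rfl fun s _ => by rw [map_smul]

/-- the embedding of the block as a map into `R⁹ ⊗ K` -/
def embU (q : Q) : Cfg (k q) →ₗ[ℝ] Tup K :=
  LinearMap.codRestrict (Tup K) (B.emb q).toLinearMap fun y => B.emb_mem q y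

theorem embU_coe (q : Q) (y : Cfg (k q)) : ((B.embU q y : Tup K) : Cfg N) = B.emb q y := rfl

/-- the centre as a map into `R⁹ ⊗ K` -/
def cenU : Tup B.cenS →ₗ[ℝ] Tup K :=
  LinearMap.codRestrict (Tup K) (Tup B.cenS).subtype fun y => B.Tup_cenS_le y.2

theorem cenU_coe (y : Tup B.cenS) : ((B.cenU y : Tup K) : Cfg N) = y := rfl

theorem sum_single_cfg (n : ℕ) (y : Cfg n) :
    y = ∑ i, ∑ A, y (i, A) • (EuclideanSpace.single (i, A) (1 : ℝ) : Cfg n) := by
  have h := (EuclideanSpace.basisFun (Fin 9 × Fin (n ^ 2 - 1)) ℝ).sum_repr y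
  simp only [EuclideanSpace.basisFun_apply, EuclideanSpace.basisFun_repr] at h
  rw [Fintype.sum_prod_type] at h
  exact h.symm

/-- **Resolution of the identity of `R⁹ ⊗ K`.** -/
theorem resol {ρ : Type*} [Fintype ρ] (v : OrthonormalBasis ρ ℝ (Tup B.cenS)) (x : Tup K) :
    x = (∑ r, ⟪B.cenU (v r), x⟫_ℝ • B.cenU (v r)) +
      ∑ q, ∑ i, ∑ A, ⟪B.embU q (EuclideanSpace.single (i, A) 1), x⟫_ℝ •
        B.embU q (EuclideanSpace.single (i, A) 1) := by
  apply Subtype.ext
  have h1 : ((∑ r, ⟪B.cenU (v r), x⟫_ℝ • B.cenU (v r) : Tup K) : Cfg N) = B.cenp x := by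
    rw [Submodule.coe_sum]
    have h2 := congrArg (fun w : Tup B.cenS => (w : Cfg N))
      (v.sum_repr' ⟨B.cenp x, B.cenp_mem x.2⟩)
    simp only [Submodule.coe_sum, Submodule.coe_smul] at h2
    rw [← h2]
    refine Finset.sum_congr rfl fun r _ => ?_
    rw [Submodule.coe_smul, B.cenU_coe]
    congr 1
    rw [Submodule.coe_inner, Submodule.coe_inner, B.cenU_coe]
    conv_lhs => rw [B.decomp (x : Cfg N), inner_add_right, inner_sum]
    rw [Finset.sum_eq_zero fun q _ => B.inner_cen_emb (v r).2 q _, add_zero]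
  have h3 : ∀ q, ((∑ i, ∑ A, ⟪B.embU q (EuclideanSpace.single (i, A) 1), x⟫_ℝ •
        B.embU q (EuclideanSpace.single (i, A) 1) : Tup K) : Cfg N) = B.emb q (B.pr q x) := by
    intro q
    conv_rhs => rw [sum_single_cfg (k q) (B.pr q x)]
    simp only [Submodule.coe_sum, Submodule.coe_smul, B.embU_coe, map_sum, map_smul]
    refine Finset.sum_congr rfl fun i _ => Finset.sum_congr rfl fun A _ => ?_
    congr 1
    rw [Submodule.coe_inner, B.embU_coe, real_inner_comm, ← B.inner_pr,
      EuclideanSpace.inner_single_right]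
    simp
  rw [Submodule.coe_add, h1, Submodule.coe_sum]
  simp only [h3]
  exact B.decomp _

/-- **Splitting of a contraction over `R⁹ ⊗ K`.** -/
theorem trace_split {G' : Type*} [AddCommGroup G'] [Module ℝ G'] {ι ρ : Type*} [Fintype ι]
    [Fintype ρ] (f : Tup K →ₗ[ℝ] Tup K →ₗ[ℝ] G') (u : OrthonormalBasis ι ℝ (Tup K))
    (v : OrthonormalBasis ρ ℝ (Tup B.cenS)) :
    ∑ s, f (u s) (u s) = (∑ r, f (B.cenU (v r)) (B.cenU (v r))) +
      ∑ q, ∑ i, ∑ A, f (B.embU q (EuclideanSpace.single (i, A) 1))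
        (B.embU q (EuclideanSpace.single (i, A) 1)) := by
  have h := trace_change f u (τ := ρ ⊕ (Σ q : Q, Fin 9 × Fin (k q ^ 2 - 1)))
    (Sum.elim (fun r => B.cenU (v r)) fun p => B.embU p.1 (EuclideanSpace.single p.2 1))
    (fun x => by
      conv_lhs => rw [B.resol v x]
      simp only [Fintype.sum_sum_type, Sum.elim_inl, Sum.elim_inr, Fintype.sum_sigma,
        Fintype.sum_prod_type])
  rw [h]
  simp only [Fintype.sum_sum_type, Sum.elim_inl, Sum.elim_inr, Fintype.sum_sigma,
    Fintype.sum_prod_type]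

section lit

variable (M : FermionRep N F) (G : GammaNine) (g m : ℝ) (α : Fin 16)

theorem Theta_eq_thv (e : Cfg N) :
    Theta M G α e = ∑ β, thv M β (∑ i, G.γ i α β • comp e i) := by
  rw [Theta_eq]
  have h : ∀ w : Fin 16 → Fin (N ^ 2 - 1) → ℝ,
      vco M w = ∑ β, thv M β (WithLp.toLp 2 (w β)) := fun w => by
    unfold vco thv
    rw [Finset.sum_comm]
  rw [h]
  refine Finset.sum_congr rfl fun β _ => ?_
  congr 1

theorem comp_single (n : ℕ) (i j : Fin 9) (A : Fin (n ^ 2 - 1)) :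
    comp (EuclideanSpace.single (i, A) (1 : ℝ) : Cfg n) j =
      if j = i then (EuclideanSpace.single A (1 : ℝ) : Colg n) else 0 := by
  ext C
  unfold comp
  simp only [PiLp.single_apply, Prod.mk.injEq]
  split_ifs <;> simp_all

theorem aA_emb (q : Q) (i : Fin 9) (A : Fin (k q ^ 2 - 1)) (f : F) :
    aA M G α (B.emb q (EuclideanSpace.single (i, A) 1)) f =
      ∑ β, (-Complex.I * (G.γ i α β : ℂ)) • B.thq M q β A f := by
  unfold aA
  rw [LinearMap.smul_apply, Theta_eq_thv, LinearMap.sum_apply, Finset.smul_sum]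
  refine Finset.sum_congr rfl fun β _ => ?_
  have h : ∑ j, G.γ j α β • comp (B.emb q (EuclideanSpace.single (i, A) 1)) j =
      G.γ i α β • B.eps q (EuclideanSpace.single A 1) := by
    rw [Finset.sum_eq_single i]
    · rw [B.comp_emb, comp_single, if_pos rfl]
    · intro j _ hj
      rw [B.comp_emb, comp_single, if_neg hj, map_zero, smul_zero]
    · simp
  rw [h, thv_smul, LinearMap.smul_apply, smul_smul]
  rfl

/-- the block charge: directional derivatives `L`, block variable `y`, value `f` -/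
def blkQ (q : Q) (L : Tup K →ₗ[ℝ] F) (y : Cfg (k q)) (f : F) : F :=
  (∑ i : Fin 9, ∑ A : Fin (k q ^ 2 - 1), ∑ β : Fin 16,
    (-Complex.I * (G.γ i α β : ℂ)) • B.thq M q β A (L (B.embU q (EuclideanSpace.single (i, A) 1)))) +
  ∑ A : Fin (k q ^ 2 - 1), ∑ β : Fin 16,
    ((wpot (bs q) G g m α β A y : ℝ) : ℂ) • B.thq M q β A f

/-- the centre charge -/
def cenQ {ρ : Type*} [Fintype ρ] (v : OrthonormalBasis ρ ℝ (Tup B.cenS)) (L : Tup K →ₗ[ℝ] F)
    (x : Cfg N) (f : F) : F :=
  (∑ r, aA M G α (v r) (L (B.cenU (v r)))) + B.wC M G m α x f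

/-- **The light charge is the sum of the centre charge and of the block charges.** -/
theorem light_split {ι ρ : Type*} [Fintype ι] [Fintype ρ] (u : OrthonormalBasis ι ℝ (Tup K))
    (v : OrthonormalBasis ρ ℝ (Tup B.cenS)) (L : Tup K →ₗ[ℝ] F) {x : Cfg N} (hx : x ∈ Tup K)
    (f : F) :
    (∑ s, aA M G α (u s) (L (u s))) + wA b M G g m α x f =
      B.cenQ M G m α v L x f + ∑ q, B.blkQ M G g m α q L (B.pr q x) f := by
  set T : Tup K →ₗ[ℝ] Tup K →ₗ[ℝ] F := LinearMap.mk₂ ℝ
    (fun e e' => aA M G α (e : Cfg N) (L e'))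
    (fun e₁ e₂ e' => by
      simp only [aA, Submodule.coe_add, Theta_add, LinearMap.smul_apply, LinearMap.add_apply,
        smul_add])
    (fun r e e' => by
      simp only [aA, Submodule.coe_smul, Theta_smul, LinearMap.smul_apply]
      rw [smul_comm, Complex.coe_smul])
    (fun e e₁ e₂ => by rw [map_add, map_add])
    (fun r e e' => by
      rw [map_smul, ← Complex.coe_smul, map_smul, Complex.coe_smul]) with hT
  have h := B.trace_split T u v
  have e1 : ∀ e e', T e e' = aA M G α (e : Cfg N) (L e') := fun _ _ => rfl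
  simp only [e1, B.cenU_coe, B.embU_coe, B.aA_emb] at h
  rw [h, B.wA_split M G g m α hx, LinearMap.add_apply, LinearMap.sum_apply]
  unfold cenQ blkQ wQ
  simp only [Finset.sum_add_distrib, LinearMap.sum_apply, LinearMap.smul_apply]
  abel_nf

end lit

/-! ### the instance of `Blk_317` -/

section dec

open Crest.Agent.R330.Blk317 Crest.Agent.R330.SlA314 Crest.Agent.R330.SlB314

/-- **The block family of a block decomposition.** -/
def ofDec (D : Dec N k) (b : ColorBasis N) (bs : ∀ q, ColorBasis (k q)) (hk : ∀ q, 0 < k q) :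
    EmbFam b (D.kkD b) bs where
  eps q := D.emb b bs q
  mem q u := D.emb_mem_kkD b bs q u
  orth q q' h u v := D.inner_emb_ne b bs h u v
  brk q u v := by
    have h := D.br_emb b bs q u v
    change WithLp.toLp 2 (br b (D.emb b bs q u).ofLp (D.emb b bs q v).ofLp) =
      D.emb b bs q (WithLp.toLp 2 (br (bs q) u.ofLp v.ofLp))
    rw [h]
  brk0 q q' hq u v := by
    have h := D.br_emb_ne b bs hq u v
    change WithLp.toLp 2 (br b (D.emb b bs q u).ofLp (D.emb b bs q' v).ofLp) = 0
    rw [h]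
    rfl
  cen w hw h0 v hv := by
    have h1 : ∀ q, D.embAdj b bs q w = 0 := by
      intro q
      refine ext_inner_left ℝ fun u => ?_
      rw [← D.inner_emb_left b bs q u w, real_inner_comm, h0, inner_zero_right]
    have h2 := D.decomp b bs hk (u := w) hw
    simp only [h1, map_zero, Finset.sum_const_zero, zero_add] at h2
    have h3 : cm b w = D.cenM fun p => D.tp b p w := by
      conv_lhs => rw [h2]
      exact D.cm_cenV b (D.sum_tp b hk w)
    have h4 : D.cenM (fun p => D.tp b p w) * cm b v = cm b v * D.cenM (fun p => D.tp b p w) := by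
      have h5 := (D.BD_iff_commute (cm b v)).1 hv
      unfold Dec.cenM
      rw [Finset.sum_mul, Finset.mul_sum]
      refine Finset.sum_congr rfl fun p _ => ?_
      rw [Matrix.smul_mul, Matrix.mul_smul, h5]
    change WithLp.toLp 2 (br b w.ofLp v.ofLp) = 0
    have h6 : br b w.ofLp v.ofLp = 0 := by
      apply cm_inj b
      rw [cm_br, h3, h4, sub_self, smul_zero]
      exact (Dec.cmE_zero b).symm
    rw [h6]
    rfl

theorem ofDec_emb (D : Dec N k) (b : ColorBasis N) (bs : ∀ q, ColorBasis (k q))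
    (hk : ∀ q, 0 < k q) (q : Q) (y : Cfg (k q)) :
    (ofDec D b bs hk).emb q y = D.embCfg b bs q y := by
  ext ⟨i, A⟩
  rw [D.embCfg_apply]
  exact D.emb_apply b bs q (comp y i) A

end dec

end EmbFam

end Crest.Agent.R330.BlkSplit837

end
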