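import Crest.Agent.R330.SlB_314

/-!
# Row 330 (helper317): block decompositions `N = Σ k_p` (S6-ADAPT, T4)

A block decomposition `D : Dec N k` is a family of isometries `V p : ℂ^{k p} → ℂ^N` with
orthogonal ranges and `Σ_p V_p V_p* = 1` (`Dec.ofEquiv` : from `e : (Σ p, Fin (k p)) ≃ Fin N`).

* `embM p X = V_p X V_p*`, `proj p = V_p V_p*` : block embedding of matrices.
* `vec b X` : colour vector of a matrix (`A ↦ Re Tr (T_A X)`), `cm_vec`.
* `iota p : SU(k p) →* SU(N)`.
* `emb p : ℝ^{k_p^2-1} →ₗᵢ ℝ^{N^2-1}` (colour), `embCfg p : Cfg (k p) →ₗᵢ Cfg N`.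
* brackets, adjoint action, orthogonality of the pieces.
-/

set_option autoImplicit false
set_option linter.unusedSectionVars false

noncomputable section

open Matrix
open Crest.MathPhysics.MatrixQM
open Crest.Agent.R330.SlA314 Crest.Agent.R330.SlB314
open scoped InnerProductSpace

namespace Crest.Agent.R330.Blk317

/-! ### 1. Colour vectors of matrices -/

section vec

variable {N : ℕ} (b : ColorBasis N)

/-- The colour vector of a matrix. -/
def vec (X : Matrix (Fin N) (Fin N) ℂ) : EuclideanSpace ℝ (Fin (N ^ 2 - 1)) :=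
  WithLp.toLp 2 fun A => (b.T A * X).trace.re

theorem vec_apply (X : Matrix (Fin N) (Fin N) ℂ) (A : Fin (N ^ 2 - 1)) :
    vec b X A = (b.T A * X).trace.re := rfl

theorem cm_vec {X : Matrix (Fin N) (Fin N) ℂ} (hX : X.IsHermitian) (h0 : X.trace = 0) :
    cm b (vec b X) = X := exists_cm b X hX h0

theorem vec_add (X Y : Matrix (Fin N) (Fin N) ℂ) : vec b (X + Y) = vec b X + vec b Y := by
  ext A
  simp [vec_apply, Matrix.mul_add]

theorem vec_sub (X Y : Matrix (Fin N) (Fin N) ℂ) : vec b (X - Y) = vec b X - vec b Y := by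
  ext A
  simp [vec_apply, Matrix.mul_sub]

theorem vec_smul (t : ℝ) (X : Matrix (Fin N) (Fin N) ℂ) :
    vec b ((t : ℂ) • X) = t • vec b X := by
  ext A
  simp [vec_apply]

theorem vec_zero : vec b 0 = 0 := by
  ext A
  simp [vec_apply]

theorem vec_sum {ι : Type*} (s : Finset ι) (X : ι → Matrix (Fin N) (Fin N) ℂ) :
    vec b (∑ p ∈ s, X p) = ∑ p ∈ s, vec b (X p) := by
  classical
  induction s using Finset.induction_on with
  | empty => simp [vec_zero]
  | insert a s ha ih => rw [Finset.sum_insert ha, Finset.sum_insert ha, vec_add, ih]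

theorem vec_cm (u : EuclideanSpace ℝ (Fin (N ^ 2 - 1))) : vec b (cm b u) = u := by
  ext A
  rw [vec_apply, T_mul_cm_trace]
  simp

theorem inner_eq_trace (u v : EuclideanSpace ℝ (Fin (N ^ 2 - 1))) :
    ((⟪u, v⟫_ℝ : ℝ) : ℂ) = (cm b u * cm b v).trace := by
  rw [trace_cm_mul, PiLp.inner_apply]
  push_cast
  refine Finset.sum_congr rfl fun A _ => ?_
  simp [mul_comm]

theorem inner_vec {X Y : Matrix (Fin N) (Fin N) ℂ} (hX : X.IsHermitian) (h0 : X.trace = 0)
    (hY : Y.IsHermitian) (h0' : Y.trace = 0) : ((⟪vec b X, vec b Y⟫_ℝ : ℝ) : ℂ) = (X * Y).trace := by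
  rw [inner_eq_trace b, cm_vec b hX h0, cm_vec b hY h0']

theorem cm_eq_iff {u v : EuclideanSpace ℝ (Fin (N ^ 2 - 1))} : cm b u = cm b v ↔ u = v := by
  refine ⟨fun h => ?_, fun h => by rw [h]⟩
  rw [← vec_cm b u, h, vec_cm]

theorem cm_adjVec (g : specialUnitaryGroup (Fin N) ℂ) (u : Fin (N ^ 2 - 1) → ℝ) :
    cm b (fun A => ∑ B, b.adjMat g A B * u B) =
      (g : Matrix (Fin N) (Fin N) ℂ) * cm b u * star (g : Matrix (Fin N) (Fin N) ℂ) :=
  cm_adj b g u

end vec

/-! ### 2. Block decompositions -/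

/-- A block decomposition of `ℂ^N` with blocks of size `k p`. -/
structure Dec (N : ℕ) {ι : Type*} [Fintype ι] (k : ι → ℕ) where
  /-- the isometries -/
  V : ∀ p, Matrix (Fin N) (Fin (k p)) ℂ
  iso : ∀ p, (V p)ᴴ * V p = 1
  ortho : ∀ p q, p ≠ q → (V p)ᴴ * V q = 0
  compl : ∑ p, V p * (V p)ᴴ = 1

namespace Dec

variable {N : ℕ} {ι : Type*} [Fintype ι] {k : ι → ℕ}

/-- The block decomposition of an index bijection. -/
def ofEquiv (e : (Σ p, Fin (k p)) ≃ Fin N) : Dec N k where
  V p := Matrix.of fun a i => if a = e ⟨p, i⟩ then 1 else 0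
  iso p := by
    ext i j
    rw [Matrix.mul_apply]
    simp only [Matrix.conjTranspose_apply, Matrix.of_apply, apply_ite star, star_one, star_zero,
      mul_ite, mul_one, mul_zero, Finset.sum_ite_eq', Finset.mem_univ, if_true]
    rw [Matrix.one_apply]
    refine if_congr ?_ rfl rfl
    rw [EmbeddingLike.apply_eq_iff_eq, Sigma.mk.injEq]
    simp [eq_comm]
  ortho p q h := by
    ext i j
    rw [Matrix.mul_apply]
    simp only [Matrix.conjTranspose_apply, Matrix.of_apply, apply_ite star, star_one, star_zero,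
      mul_ite, mul_one, mul_zero, Finset.sum_ite_eq', Finset.mem_univ, if_true]
    rw [Matrix.zero_apply, if_neg]
    intro h1
    have h2 := e.injective h1
    rw [Sigma.mk.injEq] at h2
    exact h h2.1.symm
  compl := by
    ext a c
    rw [Matrix.sum_apply]
    simp only [Matrix.mul_apply, Matrix.conjTranspose_apply, Matrix.of_apply]
    have h1 : ∀ f : (Σ p, Fin (k p)) → ℂ, ∑ x, ∑ y, f ⟨x, y⟩ = ∑ s, f s := fun f =>
      (Fintype.sum_sigma f).symm
    rw [h1 fun s => (if a = e s then 1 else 0) * star (if c = e s then 1 else 0),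
      e.sum_comp fun d => (if a = d then (1 : ℂ) else 0) * star (if c = d then (1 : ℂ) else 0)]
    simp only [ite_mul, one_mul, zero_mul, Finset.sum_ite_eq, Finset.mem_univ, if_true,
      apply_ite star, star_one, star_zero, Matrix.one_apply, eq_comm]

variable (D : Dec N k)

/-- Block embedding of matrices. -/
def embM (p : ι) (X : Matrix (Fin (k p)) (Fin (k p)) ℂ) : Matrix (Fin N) (Fin N) ℂ :=
  D.V p * X * (D.V p)ᴴ

/-- The projection on the block. -/
def proj (p : ι) : Matrix (Fin N) (Fin N) ℂ := D.V p * (D.V p)ᴴ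

/-- The compression to the block. -/
def cut (p : ι) (X : Matrix (Fin N) (Fin N) ℂ) : Matrix (Fin (k p)) (Fin (k p)) ℂ :=
  (D.V p)ᴴ * X * D.V p

theorem embM_one (p : ι) : D.embM p 1 = D.proj p := by
  unfold embM proj
  rw [Matrix.mul_one]

theorem embM_add (p : ι) (X Y : Matrix (Fin (k p)) (Fin (k p)) ℂ) :
    D.embM p (X + Y) = D.embM p X + D.embM p Y := by
  unfold embM
  rw [Matrix.mul_add, Matrix.add_mul]

theorem embM_sub (p : ι) (X Y : Matrix (Fin (k p)) (Fin (k p)) ℂ) :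
    D.embM p (X - Y) = D.embM p X - D.embM p Y := by
  unfold embM
  rw [Matrix.mul_sub, Matrix.sub_mul]

theorem embM_smul (p : ι) (c : ℂ) (X : Matrix (Fin (k p)) (Fin (k p)) ℂ) :
    D.embM p (c • X) = c • D.embM p X := by
  unfold embM
  rw [Matrix.mul_smul, Matrix.smul_mul]

theorem embM_zero (p : ι) : D.embM p 0 = 0 := by
  unfold embM
  rw [Matrix.mul_zero, Matrix.zero_mul]

theorem embM_mul (p : ι) (X Y : Matrix (Fin (k p)) (Fin (k p)) ℂ) :
    D.embM p X * D.embM p Y = D.embM p (X * Y) := by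
  unfold embM
  calc D.V p * X * (D.V p)ᴴ * (D.V p * Y * (D.V p)ᴴ)
      = D.V p * X * ((D.V p)ᴴ * D.V p) * Y * (D.V p)ᴴ := by simp only [Matrix.mul_assoc]
    _ = D.V p * (X * Y) * (D.V p)ᴴ := by
      rw [D.iso]
      simp only [Matrix.mul_assoc, Matrix.mul_one]

theorem embM_mul_ne {p q : ι} (h : p ≠ q) (X : Matrix (Fin (k p)) (Fin (k p)) ℂ)
    (Y : Matrix (Fin (k q)) (Fin (k q)) ℂ) : D.embM p X * D.embM q Y = 0 := by
  unfold embM
  calc D.V p * X * (D.V p)ᴴ * (D.V q * Y * (D.V q)ᴴ)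
      = D.V p * X * ((D.V p)ᴴ * D.V q) * Y * (D.V q)ᴴ := by simp only [Matrix.mul_assoc]
    _ = 0 := by rw [D.ortho p q h]; simp

theorem embM_conjTranspose (p : ι) (X : Matrix (Fin (k p)) (Fin (k p)) ℂ) :
    (D.embM p X)ᴴ = D.embM p Xᴴ := by
  unfold embM
  simp only [Matrix.conjTranspose_mul, Matrix.conjTranspose_conjTranspose, Matrix.mul_assoc]

theorem embM_herm (p : ι) {X : Matrix (Fin (k p)) (Fin (k p)) ℂ} (hX : X.IsHermitian) :
    (D.embM p X).IsHermitian := by
  unfold Matrix.IsHermitian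
  rw [embM_conjTranspose, hX.eq]

theorem trace_embM (p : ι) (X : Matrix (Fin (k p)) (Fin (k p)) ℂ) :
    (D.embM p X).trace = X.trace := by
  unfold embM
  rw [Matrix.trace_mul_comm, ← Matrix.mul_assoc, D.iso, Matrix.one_mul]

theorem embM_mul_proj (p : ι) (X : Matrix (Fin (k p)) (Fin (k p)) ℂ) :
    D.embM p X * D.proj p = D.embM p X := by
  rw [← embM_one, embM_mul, Matrix.mul_one]

theorem proj_mul_embM (p : ι) (X : Matrix (Fin (k p)) (Fin (k p)) ℂ) :
    D.proj p * D.embM p X = D.embM p X := by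
  rw [← embM_one, embM_mul, Matrix.one_mul]

theorem embM_mul_proj_ne {p q : ι} (h : p ≠ q) (X : Matrix (Fin (k p)) (Fin (k p)) ℂ) :
    D.embM p X * D.proj q = 0 := by
  rw [← embM_one, D.embM_mul_ne h]

theorem proj_mul_embM_ne {p q : ι} (h : p ≠ q) (X : Matrix (Fin (k q)) (Fin (k q)) ℂ) :
    D.proj p * D.embM q X = 0 := by
  rw [← embM_one, D.embM_mul_ne h]

theorem sum_proj : ∑ p, D.proj p = 1 := D.compl

theorem proj_mul_self (p : ι) : D.proj p * D.proj p = D.proj p := by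
  rw [← embM_one, embM_mul, Matrix.one_mul]

theorem proj_mul_ne {p q : ι} (h : p ≠ q) : D.proj p * D.proj q = 0 := by
  rw [← embM_one, ← embM_one, D.embM_mul_ne h]

theorem proj_herm (p : ι) : (D.proj p).IsHermitian := by
  rw [← embM_one]
  exact D.embM_herm p Matrix.isHermitian_one

theorem trace_proj (p : ι) : (D.proj p).trace = (k p : ℂ) := by
  rw [← embM_one, trace_embM, Matrix.trace_one, Fintype.card_fin]

theorem cut_embM (p : ι) (X : Matrix (Fin (k p)) (Fin (k p)) ℂ) : D.cut p (D.embM p X) = X := by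
  unfold cut embM
  calc (D.V p)ᴴ * (D.V p * X * (D.V p)ᴴ) * D.V p
      = ((D.V p)ᴴ * D.V p) * X * ((D.V p)ᴴ * D.V p) := by simp only [Matrix.mul_assoc]
    _ = X := by rw [D.iso, Matrix.one_mul, Matrix.mul_one]

theorem cut_embM_ne {p q : ι} (h : p ≠ q) (X : Matrix (Fin (k q)) (Fin (k q)) ℂ) :
    D.cut p (D.embM q X) = 0 := by
  unfold cut embM
  calc (D.V p)ᴴ * (D.V q * X * (D.V q)ᴴ) * D.V p
      = ((D.V p)ᴴ * D.V q) * X * ((D.V q)ᴴ * D.V p) := by simp only [Matrix.mul_assoc]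
    _ = 0 := by rw [D.ortho p q h, Matrix.zero_mul, Matrix.zero_mul]

theorem cut_add (p : ι) (X Y : Matrix (Fin N) (Fin N) ℂ) :
    D.cut p (X + Y) = D.cut p X + D.cut p Y := by
  unfold cut
  rw [Matrix.mul_add, Matrix.add_mul]

theorem cut_sub (p : ι) (X Y : Matrix (Fin N) (Fin N) ℂ) :
    D.cut p (X - Y) = D.cut p X - D.cut p Y := by
  unfold cut
  rw [Matrix.mul_sub, Matrix.sub_mul]

theorem cut_smul (p : ι) (c : ℂ) (X : Matrix (Fin N) (Fin N) ℂ) :
    D.cut p (c • X) = c • D.cut p X := by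
  unfold cut
  rw [Matrix.mul_smul, Matrix.smul_mul]

theorem cut_zero (p : ι) : D.cut p 0 = 0 := by
  unfold cut
  rw [Matrix.mul_zero, Matrix.zero_mul]

theorem cut_herm (p : ι) {X : Matrix (Fin N) (Fin N) ℂ} (hX : X.IsHermitian) :
    (D.cut p X).IsHermitian := by
  unfold Matrix.IsHermitian cut
  simp only [Matrix.conjTranspose_mul, Matrix.conjTranspose_conjTranspose, hX.eq,
    Matrix.mul_assoc]

theorem embM_cut (p : ι) (X : Matrix (Fin N) (Fin N) ℂ) :
    D.embM p (D.cut p X) = D.proj p * X * D.proj p := by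
  unfold embM cut proj
  simp only [Matrix.mul_assoc]

theorem embM_trace_mul (p : ι) (X : Matrix (Fin (k p)) (Fin (k p)) ℂ)
    (Y : Matrix (Fin N) (Fin N) ℂ) : (D.embM p X * Y).trace = (X * D.cut p Y).trace := by
  unfold embM cut
  rw [Matrix.mul_assoc, Matrix.mul_assoc, Matrix.trace_mul_comm]
  simp only [Matrix.mul_assoc]

theorem sum_trace_cut (X : Matrix (Fin N) (Fin N) ℂ) : ∑ p, (D.cut p X).trace = X.trace := by
  have h : ∀ p, (D.cut p X).trace = (D.proj p * X).trace := fun p => by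
    rw [← embM_one, embM_trace_mul, Matrix.one_mul]
  simp only [h]
  rw [← Matrix.trace_sum, ← Finset.sum_mul, D.sum_proj, Matrix.one_mul]

/-! ### 3. The groups -/

theorem coe_mul_star (g : specialUnitaryGroup (Fin N) ℂ) :
    (g : Matrix (Fin N) (Fin N) ℂ) * (g : Matrix (Fin N) (Fin N) ℂ)ᴴ = 1 := mul_star_self' g

/-- The matrix `V_p h V_p* + (1 - V_p V_p*)`. -/
def iotaM (p : ι) (h : Matrix (Fin (k p)) (Fin (k p)) ℂ) : Matrix (Fin N) (Fin N) ℂ :=
  D.embM p h + (1 - D.proj p)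

theorem iotaM_mul (p : ι) (h h' : Matrix (Fin (k p)) (Fin (k p)) ℂ) :
    D.iotaM p h * D.iotaM p h' = D.iotaM p (h * h') := by
  unfold iotaM
  rw [Matrix.add_mul, Matrix.mul_add, Matrix.mul_add, embM_mul, Matrix.mul_sub, Matrix.mul_one,
    embM_mul_proj, sub_self, add_zero, Matrix.sub_mul, Matrix.one_mul, proj_mul_embM, sub_self,
    zero_add, Matrix.sub_mul, Matrix.one_mul, Matrix.mul_sub, Matrix.mul_one, proj_mul_self,
    sub_self, sub_zero]

theorem iotaM_one (p : ι) : D.iotaM p 1 = 1 := by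
  unfold iotaM
  rw [embM_one]
  abel

theorem iotaM_star (p : ι) (h : Matrix (Fin (k p)) (Fin (k p)) ℂ) :
    (D.iotaM p h)ᴴ = D.iotaM p hᴴ := by
  unfold iotaM
  rw [Matrix.conjTranspose_add, embM_conjTranspose, Matrix.conjTranspose_sub,
    Matrix.conjTranspose_one, (D.proj_herm p).eq]

theorem det_iotaM (p : ι) (h : Matrix (Fin (k p)) (Fin (k p)) ℂ) :
    (D.iotaM p h).det = h.det := by
  have h1 : D.iotaM p h = 1 + D.V p * ((h - 1) * (D.V p)ᴴ) := by
    unfold iotaM embM proj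
    rw [Matrix.sub_mul, Matrix.one_mul, Matrix.mul_sub, Matrix.mul_assoc]
    abel
  rw [h1, Matrix.det_one_add_mul_comm, Matrix.mul_assoc, D.iso, Matrix.mul_one]
  congr 1
  abel

/-- The embedding `SU(k_p) → SU(N)`. -/
def iota (p : ι) : specialUnitaryGroup (Fin (k p)) ℂ →* specialUnitaryGroup (Fin N) ℂ where
  toFun h := ⟨D.iotaM p h, by
    rw [Matrix.mem_specialUnitaryGroup_iff, Matrix.mem_unitaryGroup_iff]
    refine ⟨?_, ?_⟩
    · rw [Matrix.star_eq_conjTranspose, iotaM_star, iotaM_mul, ← Matrix.star_eq_conjTranspose,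
        mul_star_self', iotaM_one]
    · rw [det_iotaM]
      exact (Matrix.mem_specialUnitaryGroup_iff.1 h.2).2⟩
  map_one' := Subtype.ext (D.iotaM_one p)
  map_mul' h h' := Subtype.ext (D.iotaM_mul p h h').symm

theorem iota_coe (p : ι) (h : specialUnitaryGroup (Fin (k p)) ℂ) :
    ((D.iota p h : specialUnitaryGroup (Fin N) ℂ) : Matrix (Fin N) (Fin N) ℂ) =
      D.iotaM p (h : Matrix (Fin (k p)) (Fin (k p)) ℂ) := rfl

theorem continuous_iota (p : ι) : Continuous (D.iota p) := by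
  refine Continuous.subtype_mk ?_ _
  unfold iotaM embM
  exact ((continuous_const.matrix_mul continuous_subtype_val).matrix_mul
    continuous_const).add continuous_const

/-- Conjugation by `iota p h` of the same block. -/
theorem iota_conj_embM (p : ι) (h : specialUnitaryGroup (Fin (k p)) ℂ)
    (X : Matrix (Fin (k p)) (Fin (k p)) ℂ) :
    (D.iota p h : Matrix (Fin N) (Fin N) ℂ) * D.embM p X *
        star (D.iota p h : Matrix (Fin N) (Fin N) ℂ) =
      D.embM p ((h : Matrix (Fin (k p)) (Fin (k p)) ℂ) * X *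
        star (h : Matrix (Fin (k p)) (Fin (k p)) ℂ)) := by
  rw [iota_coe, Matrix.star_eq_conjTranspose, iotaM_star, Matrix.star_eq_conjTranspose]
  unfold iotaM
  rw [Matrix.add_mul, embM_mul, Matrix.sub_mul, Matrix.one_mul, proj_mul_embM, sub_self,
    add_zero, Matrix.mul_add, embM_mul, Matrix.mul_sub, Matrix.mul_one, embM_mul_proj, sub_self,
    add_zero]

/-- Conjugation by `iota p h` of another block. -/
theorem iota_conj_embM_ne {p q : ι} (hpq : p ≠ q) (h : specialUnitaryGroup (Fin (k p)) ℂ)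
    (X : Matrix (Fin (k q)) (Fin (k q)) ℂ) :
    (D.iota p h : Matrix (Fin N) (Fin N) ℂ) * D.embM q X *
        star (D.iota p h : Matrix (Fin N) (Fin N) ℂ) = D.embM q X := by
  rw [iota_coe, Matrix.star_eq_conjTranspose, iotaM_star]
  unfold iotaM
  rw [Matrix.add_mul, D.embM_mul_ne hpq, zero_add, Matrix.sub_mul, Matrix.one_mul,
    D.proj_mul_embM_ne hpq, sub_zero, Matrix.mul_add, D.embM_mul_ne hpq.symm, zero_add,
    Matrix.mul_sub, Matrix.mul_one, D.embM_mul_proj_ne hpq.symm, sub_zero]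

/-- Conjugation by `iota p h` of the centre. -/
theorem iota_conj_proj (p q : ι) (h : specialUnitaryGroup (Fin (k p)) ℂ) :
    (D.iota p h : Matrix (Fin N) (Fin N) ℂ) * D.proj q *
        star (D.iota p h : Matrix (Fin N) (Fin N) ℂ) = D.proj q := by
  by_cases hpq : p = q
  · subst hpq
    rw [← embM_one, iota_conj_embM, Matrix.mul_one, mul_star_self']
  · rw [← embM_one, D.iota_conj_embM_ne hpq]

theorem iota_commute {p q : ι} (hpq : p ≠ q) (h : specialUnitaryGroup (Fin (k p)) ℂ)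
    (h' : specialUnitaryGroup (Fin (k q)) ℂ) : D.iota p h * D.iota q h' =
      D.iota q h' * D.iota p h := by
  apply Subtype.ext
  show D.iotaM p h * D.iotaM q h' = D.iotaM q h' * D.iotaM p h
  unfold iotaM
  simp only [Matrix.add_mul, Matrix.mul_add, D.embM_mul_ne hpq, D.embM_mul_ne hpq.symm,
    Matrix.mul_sub, Matrix.sub_mul, Matrix.mul_one, Matrix.one_mul, D.embM_mul_proj_ne hpq,
    D.proj_mul_embM_ne hpq, D.embM_mul_proj_ne hpq.symm, D.proj_mul_embM_ne hpq.symm,
    D.proj_mul_ne hpq, D.proj_mul_ne hpq.symm]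
  abel

end Dec

end Crest.Agent.R330.Blk317

end
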