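import Crest.Agent.R330.Bind6_839

/-!
# Row 330 (helper149): orthogonal splittings and Fubini

`OSplit i k` : `i : U →ₗᵢ E`, `k : Z →ₗᵢ E` with orthogonal ranges spanning `E`.

* `OSplit.equiv : WithLp 2 (U × Z) ≃ₗᵢ[ℝ] E`, `(u, z) ↦ i u + k z`, measure preserving.
* `OSplit.integral_eq`, `OSplit.lintegral_eq` : Fubini.
* `OSplit.integral_mono` : fibrewise inequalities integrate.
* `OSplit.orthonormalBasis` : orthonormal basis from bases of `U` and `Z`.
* `norSplit` : the slice `Nor c = (R⁹ ⊗ k) ⊕ Z_c`.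
-/

set_option autoImplicit false
set_option linter.unusedSectionVars false

open MeasureTheory Filter Topology Crest.MathPhysics.MatrixQM
open scoped ContDiff InnerProductSpace ENNReal

noncomputable section

namespace Crest.Agent.R330.Split149

variable {U Z E : Type*} [NormedAddCommGroup U] [InnerProductSpace ℝ U]
  [NormedAddCommGroup Z] [InnerProductSpace ℝ Z] [NormedAddCommGroup E] [InnerProductSpace ℝ E]

/-- An orthogonal splitting of `E`. -/
structure OSplit (i : U →ₗᵢ[ℝ] E) (k : Z →ₗᵢ[ℝ] E) : Prop where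
  orth : ∀ u z, ⟪i u, k z⟫_ℝ = 0
  span : ∀ x, ∃ u z, x = i u + k z

variable {i : U →ₗᵢ[ℝ] E} {k : Z →ₗᵢ[ℝ] E}

namespace OSplit

theorem norm_sq (h : OSplit i k) (u : U) (z : Z) : ‖i u + k z‖ ^ 2 = ‖u‖ ^ 2 + ‖z‖ ^ 2 := by
  rw [norm_add_sq_real, h.orth, i.norm_map, k.norm_map]
  ring

theorem norm_left_le (h : OSplit i k) (u : U) (z : Z) : ‖u‖ ≤ ‖i u + k z‖ := by
  have := h.norm_sq u z
  nlinarith [norm_nonneg u, norm_nonneg z, norm_nonneg (i u + k z), sq_nonneg ‖z‖]

theorem norm_right_le (h : OSplit i k) (u : U) (z : Z) : ‖z‖ ≤ ‖i u + k z‖ := by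
  have := h.norm_sq u z
  nlinarith [norm_nonneg u, norm_nonneg z, norm_nonneg (i u + k z), sq_nonneg ‖u‖]

/-- The isometric splitting. -/
def equiv (h : OSplit i k) : WithLp 2 (U × Z) ≃ₗᵢ[ℝ] E :=
  LinearIsometryEquiv.ofSurjective
    { toFun := fun p => i p.fst + k p.snd
      map_add' := fun p q => by
        simp only [WithLp.add_fst, WithLp.add_snd, map_add]
        abel
      map_smul' := fun c p => by
        simp only [WithLp.smul_fst, WithLp.smul_snd, map_smul, smul_add, RingHom.id_apply]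
      norm_map' := fun p => by
        have h1 : ‖i p.fst + k p.snd‖ ^ 2 = ‖p‖ ^ 2 := by
          rw [h.norm_sq, WithLp.prod_norm_sq_eq_of_L2]
        exact (sq_eq_sq₀ (norm_nonneg _) (norm_nonneg _)).1 h1 }
    (fun x => by
      obtain ⟨u, z, hx⟩ := h.span x
      exact ⟨WithLp.toLp 2 (u, z), hx.symm⟩)

theorem equiv_apply (h : OSplit i k) (u : U) (z : Z) :
    h.equiv (WithLp.toLp 2 (u, z)) = i u + k z := rfl

/-- Orthonormal basis of `E` from bases of the two summands. -/
theorem ob_orthonormal (h : OSplit i k) {ι κ : Type*} [Fintype ι] [Fintype κ]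
    (a : OrthonormalBasis ι ℝ U) (c : OrthonormalBasis κ ℝ Z) :
    Orthonormal ℝ (Sum.elim (fun s => i (a s)) (fun s => k (c s))) := by
  classical
  rw [orthonormal_iff_ite]
  rintro (s | s) (t | t)
  · have := a.inner_eq_ite s t
    simpa using this
  · simpa using h.orth (a s) (c t)
  · simpa [real_inner_comm] using h.orth (a t) (c s)
  · have := c.inner_eq_ite s t
    simpa using this

variable [FiniteDimensional ℝ U] [FiniteDimensional ℝ Z] [FiniteDimensional ℝ E]
  [MeasurableSpace U] [BorelSpace U] [MeasurableSpace Z] [BorelSpace Z]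
  [MeasurableSpace E] [BorelSpace E]

theorem mp (h : OSplit i k) :
    MeasurePreserving (fun p : U × Z => i p.1 + k p.2) (volume : Measure (U × Z))
      (volume : Measure E) :=
  h.equiv.measurePreserving.comp (WithLp.volume_preserving_toLp U Z)

theorem me (h : OSplit i k) : MeasurableEmbedding (fun p : U × Z => i p.1 + k p.2) :=
  (h.equiv.toHomeomorph.measurableEmbedding).comp
    (MeasurableEquiv.toLp 2 (U × Z)).measurableEmbedding

/-- **Fubini** for nonnegative functions. -/
theorem lintegral_eq (h : OSplit i k) {f : E → ℝ≥0∞} (hf : Measurable f) :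
    ∫⁻ x, f x = ∫⁻ u : U, ∫⁻ z : Z, f (i u + k z) := by
  rw [← h.mp.lintegral_comp_emb h.me, Measure.volume_eq_prod]
  exact lintegral_prod (fun p : U × Z => f (i p.1 + k p.2)) (hf.comp h.me.measurable).aemeasurable

/-- **Fubini.** -/
theorem integral_eq (h : OSplit i k) {G : Type*} [NormedAddCommGroup G] [NormedSpace ℝ G]
    {f : E → G} (hf : Integrable f) :
    ∫ x, f x = ∫ u : U, ∫ z : Z, f (i u + k z) := by
  rw [← h.mp.integral_comp h.me]
  have h1 : Integrable (fun p : U × Z => f (i p.1 + k p.2)) (volume.prod volume) :=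
    (h.mp.integrable_comp_emb h.me).2 hf
  exact integral_prod _ h1

theorem integrable_fib (h : OSplit i k) {G : Type*} [NormedAddCommGroup G] [NormedSpace ℝ G]
    {f : E → G} (hf : Integrable f) : Integrable (fun u : U => ∫ z : Z, f (i u + k z)) := by
  have h1 : Integrable (fun p : U × Z => f (i p.1 + k p.2)) (volume.prod volume) :=
    (h.mp.integrable_comp_emb h.me).2 hf
  exact h1.integral_prod_left

/-- Fibrewise inequalities integrate. -/
theorem integral_mono (h : OSplit i k) {f g : E → ℝ} (hf : Integrable f) (hg : Integrable g)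
    (hfg : ∀ u, ∫ z, f (i u + k z) ≤ ∫ z, g (i u + k z)) : ∫ x, f x ≤ ∫ x, g x := by
  rw [h.integral_eq hf, h.integral_eq hg]
  exact MeasureTheory.integral_mono (h.integrable_fib hf) (h.integrable_fib hg) hfg

/-- Fibrewise inequalities integrate, continuous compactly supported integrands. -/
theorem integral_mono_cont (h : OSplit i k) {f g : E → ℝ} (hf : Continuous f)
    (hfc : HasCompactSupport f) (hg : Continuous g) (hgc : HasCompactSupport g)
    (hfg : ∀ u, ∫ z, f (i u + k z) ≤ ∫ z, g (i u + k z)) : ∫ x, f x ≤ ∫ x, g x :=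
  h.integral_mono (hf.integrable_of_hasCompactSupport hfc)
    (hg.integrable_of_hasCompactSupport hgc) hfg

/-- Restriction to a fibre. -/
theorem fib_contDiff (_h : OSplit i k) {G : Type*} [NormedAddCommGroup G] [NormedSpace ℝ G]
    {n : WithTop ℕ∞} {φ : E → G} (hφ : ContDiff ℝ n φ) (u : U) :
    ContDiff ℝ n (fun z => φ (i u + k z)) :=
  hφ.comp (contDiff_const.add k.toContinuousLinearMap.contDiff)

theorem fib_hasCompactSupport (_h : OSplit i k) {G : Type*} [NormedAddCommGroup G]
    {φ : E → G} (hφ : HasCompactSupport φ) (u : U) :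
    HasCompactSupport (fun z => φ (i u + k z)) := by
  refine hφ.comp_isClosedEmbedding (g := fun z => i u + k z) ?_
  exact (Homeomorph.addLeft (i u)).isClosedEmbedding.comp k.isometry.isClosedEmbedding

theorem fib_fderiv (_h : OSplit i k) {G : Type*} [NormedAddCommGroup G] [NormedSpace ℝ G]
    {φ : E → G} (u : U) (z v : Z) (hφ : DifferentiableAt ℝ φ (i u + k z)) :
    fderiv ℝ (fun z => φ (i u + k z)) z v = fderiv ℝ φ (i u + k z) (k v) := by
  have h1 : HasFDerivAt (fun z : Z => i u + k z) (k.toContinuousLinearMap) z :=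
    (k.toContinuousLinearMap.hasFDerivAt).const_add (i u)
  have h2 := (hφ.hasFDerivAt.comp z h1).fderiv
  have h3 : fderiv ℝ (fun z => φ (i u + k z)) z = _ := h2
  rw [h3]
  rfl

end OSplit

/-! ## The slice -/

section slice

open Crest.Agent.R330.Frame839 Crest.Agent.R330.LS839 Crest.Agent.R330.Bind6839

variable {N : ℕ} {b : ColorBasis N} {c : Cfg N}

/-- Inclusion of `R⁹ ⊗ k` in the slice. -/
def iU (b : ColorBasis N) (c : Cfg N) : Uk b c →ₗᵢ[ℝ] (Tn (actB b) c)ᗮ where
  toFun x := ⟨x, Uk_le_Nor x.2⟩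
  map_add' _ _ := rfl
  map_smul' _ _ := rfl
  norm_map' _ := rfl

/-- Inclusion of `Z_c` in the slice. -/
def iZ (b : ColorBasis N) (c : Cfg N) : Zs b c →ₗᵢ[ℝ] (Tn (actB b) c)ᗮ where
  toFun x := ⟨x, x.2.2⟩
  map_add' _ _ := rfl
  map_smul' _ _ := rfl
  norm_map' _ := rfl

theorem iU_coe (x : Uk b c) : ((iU b c x : (Tn (actB b) c)ᗮ) : Cfg N) = x := rfl

theorem iZ_coe (x : Zs b c) : ((iZ b c x : (Tn (actB b) c)ᗮ) : Cfg N) = x := rfl

/-- **`Nor c = (R⁹ ⊗ k) ⊕ Z_c`.** -/
theorem norSplit : OSplit (iU b c) (iZ b c) where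
  orth u z := Zs_perp_Uk u.2 z.2
  span x := by
    obtain ⟨y, hy, z, hz, hxyz⟩ := nor_decomp x.2
    exact ⟨⟨y, hy⟩, ⟨z, hz⟩, Subtype.ext hxyz⟩

end slice

end Crest.Agent.R330.Split149

end
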