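import Crest.Agent.R330.SlInt_658
import Crest.Agent.R330.PairB_547
import Crest.Agent.R330.Split_149

/-!
# Row 330, S8 (T5): the slice measure in product coordinates (helper726)

For `h : Dec (actB b) c L Z` (547): `(x, z) ↦ x + z : L × Z → Nor b c` is measure preserving and a
measurable embedding; integrals over a ball of the slice.
-/

set_option autoImplicit false
set_option linter.unusedSectionVars false

open MeasureTheory Filter Topology Crest.MathPhysics.MatrixQM
open scoped ContDiff InnerProductSpace ENNReal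

noncomputable section

namespace Crest.Agent.R330.BrM726

open Crest.Agent.R330.Defs478 Crest.Agent.R330.LS839 Crest.Agent.R330.Frame839
  Crest.Agent.R330.Bind6839 Crest.Agent.R330.PairB547 Crest.Agent.R330.Split149
open Crest.Agent.R330.SlB314 (Nor)

variable {N : ℕ} {b : ColorBasis N} {c : Cfg N} {L Z : Submodule ℝ (Cfg N)}

theorem mem_nor (h : Dec (actB b) c L Z) (x : L × Z) : (x.1 : Cfg N) + x.2 ∈ Nor b c := by
  rw [← Nor_eq]
  exact Submodule.add_mem _ (h.L_le x.1.2) (h.Z_le x.2.2)

/-- The sum map into the slice. -/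
def sm (h : Dec (actB b) c L Z) (x : L × Z) : Nor b c := ⟨(x.1 : Cfg N) + x.2, mem_nor h x⟩

theorem sm_coe (h : Dec (actB b) c L Z) (x : L × Z) : (sm h x : Cfg N) = x.1 + x.2 := rfl

/-- Inclusion of `L`. -/
def iL (h : Dec (actB b) c L Z) : L →ₗᵢ[ℝ] Nor b c where
  toFun x := ⟨x, by rw [← Nor_eq]; exact h.L_le x.2⟩
  map_add' _ _ := rfl
  map_smul' _ _ := rfl
  norm_map' _ := rfl

/-- Inclusion of `Z`. -/
def iZ' (h : Dec (actB b) c L Z) : Z →ₗᵢ[ℝ] Nor b c where
  toFun x := ⟨x, by rw [← Nor_eq]; exact h.Z_le x.2⟩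
  map_add' _ _ := rfl
  map_smul' _ _ := rfl
  norm_map' _ := rfl

theorem osplit (h : Dec (actB b) c L Z) : OSplit (iL h) (iZ' h) where
  orth u z := h.orth u u.2 z z.2
  span x := by
    obtain ⟨y, hy, z, hz, hu⟩ := h.dec x (by rw [Nor_eq]; exact x.2)
    exact ⟨⟨y, hy⟩, ⟨z, hz⟩, Subtype.ext hu⟩

/-- **(m1)** The sum map preserves the measure. -/
theorem mp_sm (h : Dec (actB b) c L Z) :
    MeasurePreserving (sm h) ((volume : Measure L).prod (volume : Measure Z))
      (volume : Measure (Nor b c)) :=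
  (osplit h).mp

theorem me_sm (h : Dec (actB b) c L Z) : MeasurableEmbedding (sm h) := (osplit h).me

theorem sm_preimage_ball (h : Dec (actB b) c L Z) (r : ℝ) :
    sm h ⁻¹' Metric.ball (0 : Nor b c) r = {x : L × Z | ‖(x.1 : Cfg N) + x.2‖ < r} := by
  ext x
  rw [Set.mem_preimage, Metric.mem_ball, dist_zero_right]
  rfl

/-- **(m2)** Integrals over the ball of the slice, Bochner form. -/
theorem integral_ball (h : Dec (actB b) c L Z) (r : ℝ) {V : Type*} [NormedAddCommGroup V]
    [NormedSpace ℝ V] (f : Cfg N → V) :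
    ∫ y in Metric.ball (0 : Nor b c) r, f (y : Cfg N) =
      ∫ x in {x : L × Z | ‖(x.1 : Cfg N) + x.2‖ < r}, f ((x.1 : Cfg N) + x.2)
        ∂((volume : Measure L).prod (volume : Measure Z)) := by
  rw [← sm_preimage_ball h r]
  exact ((mp_sm h).setIntegral_preimage_emb (me_sm h) (fun y : Nor b c => f (y : Cfg N)) _).symm

/-- **(m2)** Integrals over the ball of the slice, `∫⁻` form. -/
theorem lintegral_ball (h : Dec (actB b) c L Z) (r : ℝ) (f : Cfg N → ℝ≥0∞) :
    ∫⁻ y in Metric.ball (0 : Nor b c) r, f (y : Cfg N) =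
      ∫⁻ x in {x : L × Z | ‖(x.1 : Cfg N) + x.2‖ < r}, f ((x.1 : Cfg N) + x.2)
        ∂((volume : Measure L).prod (volume : Measure Z)) := by
  rw [← sm_preimage_ball h r]
  exact ((mp_sm h).setLIntegral_comp_preimage_emb (me_sm h) (fun y : Nor b c => f (y : Cfg N))
    _).symm

/-- Integrals over the slice, Bochner form. -/
theorem integral_nor (h : Dec (actB b) c L Z) {V : Type*} [NormedAddCommGroup V]
    [NormedSpace ℝ V] (f : Cfg N → V) :
    ∫ y : Nor b c, f (y : Cfg N) =
      ∫ x : L × Z, f ((x.1 : Cfg N) + x.2) ∂((volume : Measure L).prod (volume : Measure Z)) :=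
  ((mp_sm h).integral_comp (me_sm h) (fun y : Nor b c => f (y : Cfg N))).symm

theorem integrable_iff (h : Dec (actB b) c L Z) {V : Type*} [NormedAddCommGroup V]
    [NormedSpace ℝ V] (f : Cfg N → V) :
    Integrable (fun y : Nor b c => f (y : Cfg N)) ↔
      Integrable (fun x : L × Z => f ((x.1 : Cfg N) + x.2))
        ((volume : Measure L).prod (volume : Measure Z)) :=
  ((mp_sm h).integrable_comp_emb (me_sm h) (g := fun y : Nor b c => f (y : Cfg N))).symm

/-- A function vanishing off the ball: the ball integral is the full product integral. -/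
theorem integral_ball_full (h : Dec (actB b) c L Z) (r : ℝ) {V : Type*} [NormedAddCommGroup V]
    [NormedSpace ℝ V] (f : Cfg N → V) (hf : ∀ x : L × Z, r ≤ ‖(x.1 : Cfg N) + x.2‖ →
      f ((x.1 : Cfg N) + x.2) = 0) :
    ∫ y in Metric.ball (0 : Nor b c) r, f (y : Cfg N) =
      ∫ x : L × Z, f ((x.1 : Cfg N) + x.2) ∂((volume : Measure L).prod (volume : Measure Z)) := by
  rw [integral_ball h r f]
  refine setIntegral_eq_integral_of_forall_compl_eq_zero fun x hx => ?_
  simp only [Set.mem_ofPred_eq, not_lt] at hx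
  exact hf x hx

end Crest.Agent.R330.BrM726

end
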