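import Crest.Agent.R330.RhoB_406

/-!
# The exponential element `expSU b ω = exp(-i Σ ω_A T_A) ∈ SU(N)` and smoothness in `ω`
-/

set_option autoImplicit false
set_option linter.unusedSectionVars false
set_option linter.style.haveILetI false

open MeasureTheory Filter Topology Crest.MathPhysics.MatrixQM
open NormedSpace (exp)
open scoped InnerProductSpace ContDiff

noncomputable section

namespace Crest.Agent.R330.Lift406

variable {N : ℕ} {F : Type*} [NormedAddCommGroup F] [InnerProductSpace ℂ F] [FiniteDimensional ℂ F]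

/-- colour vectors (with the sup norm) -/
abbrev Col (N : ℕ) := Fin (N ^ 2 - 1) → ℝ

/-- `exp(-i Σ ω_A T_A)` -/
def expSU (b : ColorBasis N) (om : Col N) : Matrix.specialUnitaryGroup (Fin N) ℂ := gSU b om 1

theorem Xm_smul (b : ColorBasis N) (t : ℝ) (om : Col N) : Xm b (t • om) = t • Xm b om := by
  rw [Xm, Xm, map_smul, smul_comm]

theorem Xm_add (b : ColorBasis N) (u v : Col N) : Xm b (u + v) = Xm b u + Xm b v := by
  rw [Xm, Xm, Xm, map_add, smul_add]

theorem expSU_coe (b : ColorBasis N) (om : Col N) :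
    (expSU b om : Matrix (Fin N) (Fin N) ℂ) = exp (Xm b om) := by
  rw [expSU, gSU_coe, one_smul]

theorem gSU_eq_expSU (b : ColorBasis N) (om : Col N) (t : ℝ) :
    gSU b om t = expSU b (t • om) := by
  apply Subtype.ext
  rw [gSU_coe, expSU_coe, Xm_smul]

theorem expSU_zero (b : ColorBasis N) : expSU b 0 = 1 := by
  have := gSU_eq_expSU b 0 0
  rw [smul_zero] at this
  rw [← this, gSU_zero]

/-- `g_{s+t} = g_s g_t` -/
theorem gSU_add (b : ColorBasis N) (om : Col N) (s t : ℝ) :
    gSU b om (s + t) = gSU b om s * gSU b om t := by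
  apply Subtype.ext
  rw [gSU_coe, Submonoid.coe_mul, gSU_coe, gSU_coe, add_smul]
  exact Matrix.exp_add_of_commute _ _ (((Commute.refl (Xm b om)).smul_left s).smul_right t)

theorem gSU_neg (b : ColorBasis N) (om : Col N) (t : ℝ) : gSU b om (-t) = (gSU b om t)⁻¹ := by
  rw [eq_inv_iff_mul_eq_one, ← gSU_add, neg_add_cancel, gSU_zero]

theorem expSU_neg (b : ColorBasis N) (om : Col N) : expSU b (-om) = (expSU b om)⁻¹ := by
  have h := gSU_neg b om 1
  rw [gSU_eq_expSU, gSU_eq_expSU, neg_one_smul, one_smul] at h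
  exact h

/-- `ad ω` linear in `ω` -/
def adLL (b : ColorBasis N) : Col N →ₗ[ℝ] (Col N →L[ℝ] Col N) where
  toFun om := adL b om
  map_add' u v := by
    ext w C
    simp only [adL_apply, _root_.add_apply, Pi.add_apply, ← Finset.sum_add_distrib]
    refine Finset.sum_congr rfl fun A _ => Finset.sum_congr rfl fun B _ => ?_
    ring
  map_smul' r v := by
    ext w C
    simp only [adL_apply, _root_.smul_apply, Pi.smul_apply, RingHom.id_apply, smul_eq_mul,
      Finset.mul_sum]
    refine Finset.sum_congr rfl fun A _ => Finset.sum_congr rfl fun B _ => ?_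
    ring

theorem adLL_apply (b : ColorBasis N) (om : Col N) : adLL b om = adL b om := rfl

/-- `B(ω)` linear in `ω` -/
def BopL (b : ColorBasis N) (M : FermionRep N F) : Col N →ₗ[ℝ] (F →L[ℂ] F) where
  toFun om := Bop b M om
  map_add' u v := by
    have h : ∀ p q, gm b (u + v) p q = gm b u p q + gm b v p q := by
      intro p q
      simp only [gm, Pi.add_apply]
      split_ifs
      · rw [← Finset.sum_add_distrib]
        exact Finset.sum_congr rfl fun B _ => by ring
      · simp
    simp only [Bop, spin, h, Complex.ofReal_add, add_smul, Finset.sum_add_distrib, smul_add]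
  map_smul' r v := by
    have h : ∀ p q, gm b (r • v) p q = r * gm b v p q := by
      intro p q
      simp only [gm, Pi.smul_apply, smul_eq_mul]
      split_ifs
      · rw [Finset.mul_sum]
        exact Finset.sum_congr rfl fun B _ => by ring
      · simp
    have h2 : ∀ (T : F →L[ℂ] F), r • T = (r : ℂ) • T := fun T => by ext w; simp
    simp only [Bop, spin, h, Complex.ofReal_mul, mul_smul, RingHom.id_apply]
    rw [h2, smul_comm (r : ℂ), Finset.smul_sum]
    simp only [Finset.smul_sum]

theorem BopL_apply (b : ColorBasis N) (M : FermionRep N F) (om : Col N) :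
    BopL b M om = Bop b M om := rfl

theorem Bop_smul (b : ColorBasis N) (M : FermionRep N F) (r : ℝ) (om : Col N) :
    Bop b M (r • om) = r • Bop b M om := (BopL b M).map_smul r om

theorem Bop_add (b : ColorBasis N) (M : FermionRep N F) (u v : Col N) :
    Bop b M (u + v) = Bop b M u + Bop b M v := (BopL b M).map_add u v

theorem contDiff_exp_banach {𝔸 : Type*} [NormedRing 𝔸] [NormedAlgebra ℝ 𝔸] [CompleteSpace 𝔸]
    {n : WithTop ℕ∞} : ContDiff ℝ n (fun x : 𝔸 => exp x) := by
  rw [contDiff_iff_contDiffAt]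
  intro x
  exact (NormedSpace.exp_analytic (𝕂 := ℝ) x).contDiffAt

theorem act_expSU (b : ColorBasis N) (om : Col N) (x : Cfg N) :
    b.act (expSU b om) x =
      WithLp.toLp 2 (fun p => exp (adL b om) (fun B => x (p.1, B)) p.2) := by
  rw [expSU, act_gSU]; simp only [one_smul]

theorem contDiff_expAd (b : ColorBasis N) {n : WithTop ℕ∞} :
    ContDiff ℝ n (fun om : Col N => (exp (adL b om) : Col N →L[ℝ] Col N)) := by
  have h1 : ContDiff ℝ n (fun om : Col N => (adLL b).toContinuousLinearMap om) :=
    ContinuousLinearMap.contDiff _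
  exact contDiff_exp_banach.comp h1

/-- smoothness of `(ω, x) ↦ exp(ω) x` -/
theorem contDiff_act_expSU (b : ColorBasis N) {n : WithTop ℕ∞} :
    ContDiff ℝ n (fun p : Col N × Cfg N => b.act (expSU b p.1) p.2) := by
  simp only [act_expSU]
  rw [contDiff_euclidean]
  intro q
  have h1 : ContDiff ℝ n (fun p : Col N × Cfg N => (exp (adL b p.1) : Col N →L[ℝ] Col N)) :=
    (contDiff_expAd b).comp contDiff_fst
  have h2 : ContDiff ℝ n (fun p : Col N × Cfg N => (fun B => p.2 (q.1, B) : Col N)) := by
    rw [contDiff_pi]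
    intro B
    have h3 : ContDiff ℝ n (fun x : Cfg N => x (q.1, B)) :=
      (contDiff_euclidean.mp contDiff_id) (q.1, B)
    exact h3.comp contDiff_snd
  exact (contDiff_pi.mp (h1.clm_apply h2)) q.2

theorem contDiff_act_expSU_left (b : ColorBasis N) (x : Cfg N) {n : WithTop ℕ∞} :
    ContDiff ℝ n (fun om : Col N => b.act (expSU b om) x) := by
  simp only [act_expSU]
  rw [contDiff_euclidean]
  intro q
  have h1 : ContDiff ℝ n (fun om : Col N => (exp (adL b om) : Col N →L[ℝ] Col N)) :=
    contDiff_expAd b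
  have h2 : ContDiff ℝ n (fun _ : Col N => (fun B => x (q.1, B) : Col N)) := contDiff_const
  exact (contDiff_pi.mp (h1.clm_apply h2)) q.2

theorem rhoC_expSU [Nontrivial F] {b : ColorBasis N} {M : FermionRep N F} (R : GaugeAction b M)
    (om : Col N) : rhoC R (expSU b om) = exp (Bop b M om) := by
  rw [expSU, rhoC_gSU, one_smul]

/-- smoothness of `ω ↦ ρ(exp ω)` -/
theorem contDiff_rhoC_expSU [Nontrivial F] {b : ColorBasis N} {M : FermionRep N F}
    (R : GaugeAction b M) {n : WithTop ℕ∞} :
    ContDiff ℝ n (fun om : Col N => rhoC R (expSU b om)) := by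
  have h0 : (fun om : Col N => rhoC R (expSU b om)) =
      fun om : Col N => exp ((BopL b M).toContinuousLinearMap om) := by
    funext om
    rw [rhoC_expSU]; rfl
  have h1 : ContDiff ℝ n (fun om : Col N => (BopL b M).toContinuousLinearMap om) :=
    ContinuousLinearMap.contDiff _
  have h2 : ContDiff ℝ n (fun x : F →L[ℂ] F => exp x) := contDiff_exp_banach
  rw [h0]
  exact h2.comp h1

/-- `ω ↦ [ω,x]` as a linear map -/
def brL (b : ColorBasis N) (x : Cfg N) : Col N →ₗ[ℝ] Cfg N where
  toFun om := brC b om x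
  map_add' u v := by
    ext p
    change adLL b (u + v) _ p.2 = adLL b u _ p.2 + adLL b v _ p.2
    rw [map_add]; rfl
  map_smul' r v := by
    ext p
    change adLL b (r • v) _ p.2 = r * adLL b v _ p.2
    rw [map_smul]; rfl

theorem brL_apply (b : ColorBasis N) (x : Cfg N) (om : Col N) : brL b x om = brC b om x := rfl

/-- the derivative of `ω ↦ exp(ω) x` at `0` is `ω ↦ [ω,x]` -/
theorem hasFDerivAt_act_expSU_zero (b : ColorBasis N) (x : Cfg N) :
    HasFDerivAt (fun om : Col N => b.act (expSU b om) x) (brL b x).toContinuousLinearMap 0 := by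
  have hd : DifferentiableAt ℝ (fun om : Col N => b.act (expSU b om) x) 0 :=
    ((contDiff_act_expSU_left b x (n := 1)).differentiable one_ne_zero) 0
  have h := hd.hasFDerivAt
  have heq : fderiv ℝ (fun om : Col N => b.act (expSU b om) x) 0 =
      (brL b x).toContinuousLinearMap := by
    ext1 om
    have h1 : HasDerivAt (fun t : ℝ => b.act (expSU b (t • om)) x)
        (fderiv ℝ (fun om : Col N => b.act (expSU b om) x) 0 om) 0 := by
      have h2 : HasDerivAt (fun t : ℝ => t • om) om 0 := by
        simpa using (hasDerivAt_id (0:ℝ)).smul_const om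
      have h3 : HasFDerivAt (fun om : Col N => b.act (expSU b om) x)
          (fderiv ℝ (fun om : Col N => b.act (expSU b om) x) 0) ((0:ℝ) • om) := by
        rw [zero_smul]; exact h
      exact h3.comp_hasDerivAt (0:ℝ) h2
    have h4 := hasDerivAt_act_gSU b om x
    simp only [gSU_eq_expSU] at h4
    exact h1.unique h4
  rwa [heq] at h

/-- the gauge action at a configuration composed with a fixed group element:
`act g` is linear, and `act (g h) = act g ∘ act h` on the exponential elements. -/
theorem adMat_mul_aux (b : ColorBasis N) (g : Matrix.specialUnitaryGroup (Fin N) ℂ)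
    (v : Col N) :
    (g : Matrix (Fin N) (Fin N) ℂ) * Tm b v * star (g : Matrix (Fin N) (Fin N) ℂ) =
      Tm b (fun A => ∑ B, b.adjMat g A B * v B) := by
  have hg : star (g : Matrix (Fin N) (Fin N) ℂ) * (g : Matrix (Fin N) (Fin N) ℂ) = 1 :=
    Matrix.mem_unitaryGroup_iff'.mp (Matrix.specialUnitaryGroup_le_unitaryGroup g.2)
  set X := (g : Matrix (Fin N) (Fin N) ℂ) * Tm b v * star (g : Matrix (Fin N) (Fin N) ℂ) with hX
  have htr : X.trace = 0 := by
    rw [hX, Matrix.trace_mul_comm, ← mul_assoc, hg, one_mul, Tm_trace]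
  have hherm : X.IsHermitian := by
    rw [hX, Matrix.IsHermitian, ← Matrix.star_eq_conjTranspose, star_mul, star_mul, star_star,
      Matrix.star_eq_conjTranspose (Tm b v), (Tm_herm b v), mul_assoc]
  rw [complete b X htr, Tm_apply]
  refine Finset.sum_congr rfl fun A _ => ?_
  congr 1
  have hreal : ∀ Y Z : Matrix (Fin N) (Fin N) ℂ, Y.IsHermitian → Z.IsHermitian →
      (((Y * Z).trace.re : ℝ) : ℂ) = (Y * Z).trace := by
    intro Y Z hY hZ
    have h1 : (starRingEnd ℂ) (Y * Z).trace = (Y * Z).trace := by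
      have h2 : (starRingEnd ℂ) (Y * Z).trace = ((Y * Z).conjTranspose).trace := by
        rw [Matrix.trace_conjTranspose]; rfl
      rw [h2, Matrix.conjTranspose_mul, hY, hZ, Matrix.trace_mul_comm]
    exact (Complex.conj_eq_iff_re.mp h1)
  have h1 : (b.T A * X).trace =
      ∑ B, (v B : ℂ) * (b.T A * (g : Matrix (Fin N) (Fin N) ℂ) * b.T B *
        star (g : Matrix (Fin N) (Fin N) ℂ)).trace := by
    rw [hX, Tm_apply, Finset.mul_sum, Finset.sum_mul, Finset.mul_sum, Matrix.trace_sum]
    refine Finset.sum_congr rfl fun B _ => ?_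
    rw [mul_smul_comm, smul_mul_assoc, mul_smul_comm, Matrix.trace_smul, smul_eq_mul]
    congr 2
    simp only [mul_assoc]
  rw [h1]
  push_cast
  refine Finset.sum_congr rfl fun B _ => ?_
  rw [mul_comm]
  congr 1
  rw [ColorBasis.adjMat]
  have h2 : b.T A * (g : Matrix (Fin N) (Fin N) ℂ) * b.T B *
      star (g : Matrix (Fin N) (Fin N) ℂ) = b.T A * ((g : Matrix (Fin N) (Fin N) ℂ) * b.T B *
      star (g : Matrix (Fin N) (Fin N) ℂ)) := by simp only [mul_assoc]
  rw [h2]
  refine (hreal _ _ (b.herm A) ?_).symm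
  rw [Matrix.IsHermitian, ← Matrix.star_eq_conjTranspose, star_mul, star_mul, star_star,
    Matrix.star_eq_conjTranspose (b.T B), (b.herm B), mul_assoc]

end Crest.Agent.R330.Lift406
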