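import Mathlib
import Crest.Prelude.Def_MatrixModel
import Crest.Agent.R330.IBP_837

/-!
Row 330 (helper837): colour algebra needed for gauge covariance, the adjoint action as an isometric
group action, gauge covariance of all charges.
-/

set_option autoImplicit false
set_option linter.unusedSectionVars false
set_option linter.deprecated false

noncomputable section

namespace Crest.Agent.R330.Cov837

open MeasureTheory Filter Topology Crest.MathPhysics.MatrixQM
open scoped ContDiff InnerProductSpace ENNReal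
open Crest.Agent.R330.IBP837

variable {N : ℕ}

/-! ### 1. Colour algebra -/

section Colour

variable (b : ColorBasis N)

theorem T_linInd : LinearIndependent ℂ b.T := by
  rw [Fintype.linearIndependent_iff]
  intro c hc B
  have h : (b.T B * ∑ A, c A • b.T A).trace = c B := by
    rw [Finset.mul_sum, Matrix.trace_sum]
    simp only [Matrix.mul_smul, Matrix.trace_smul, b.orthonormal, smul_eq_mul, mul_ite, mul_one,
      mul_zero]
    simp
  rw [hc] at h
  simpa using h.symm

theorem finrank_ker_trace (hN : 1 ≤ N) :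
    Module.finrank ℂ (LinearMap.ker (Matrix.traceLinearMap (Fin N) ℂ ℂ)) = N ^ 2 - 1 := by
  have h := LinearMap.finrank_range_add_finrank_ker (Matrix.traceLinearMap (Fin N) ℂ ℂ)
  have hr : LinearMap.range (Matrix.traceLinearMap (Fin N) ℂ ℂ) = ⊤ := by
    rw [LinearMap.range_eq_top]
    intro z
    have hn : (N : ℂ) ≠ 0 := by exact_mod_cast (by omega : N ≠ 0)
    refine ⟨(z / N) • (1 : Matrix (Fin N) (Fin N) ℂ), ?_⟩
    simp [Matrix.trace_one]
    field_simp
  rw [hr, finrank_top, Module.finrank_self, Module.finrank_matrix] at h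
  simp only [Fintype.card_fin, Module.finrank_self, mul_one] at h
  have : N * N = N ^ 2 := by ring
  omega

theorem span_T (hN : 1 ≤ N) :
    Submodule.span ℂ (Set.range b.T) = LinearMap.ker (Matrix.traceLinearMap (Fin N) ℂ ℂ) := by
  apply Submodule.eq_of_le_of_finrank_eq
  · rw [Submodule.span_le]
    rintro _ ⟨A, rfl⟩
    simpa using b.traceless A
  · rw [finrank_span_eq_card (T_linInd b), finrank_ker_trace hN, Fintype.card_fin]

/-- completeness of the colour basis -/
theorem complete {X : Matrix (Fin N) (Fin N) ℂ} (hX : X.trace = 0) :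
    X = ∑ A, (b.T A * X).trace • b.T A := by
  rcases Nat.eq_zero_or_pos N with h0 | hN
  · subst h0
    exact Subsingleton.elim _ _
  · have hm : X ∈ Submodule.span ℂ (Set.range b.T) := by
      rw [span_T b hN]
      simpa using hX
    obtain ⟨c, hc⟩ := (Submodule.mem_span_range_iff_exists_fun ℂ).mp hm
    have hcB : ∀ B, (b.T B * X).trace = c B := by
      intro B
      rw [← hc, Finset.mul_sum, Matrix.trace_sum]
      simp only [Matrix.mul_smul, Matrix.trace_smul, b.orthonormal, smul_eq_mul, mul_ite, mul_one,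
        mul_zero]
      simp
    simp only [hcB]
    exact hc.symm

theorem trace_real {X Y : Matrix (Fin N) (Fin N) ℂ} (hX : X.IsHermitian) (hY : Y.IsHermitian) :
    (((X * Y).trace.re : ℝ) : ℂ) = (X * Y).trace := by
  rw [← Complex.conj_eq_iff_re]
  have h : (X * Y).conjTranspose.trace = starRingEnd ℂ ((X * Y).trace) :=
    Matrix.trace_conjTranspose _
  rw [← h, Matrix.conjTranspose_mul, hX.eq, hY.eq, Matrix.trace_mul_comm]

variable (g h : Matrix.specialUnitaryGroup (Fin N) ℂ)

theorem star_mul_self_su : star (g : Matrix (Fin N) (Fin N) ℂ) * (g : Matrix (Fin N) (Fin N) ℂ) = 1 :=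
  (Matrix.mem_unitaryGroup_iff'.mp (Matrix.mem_specialUnitaryGroup_iff.mp g.2).1)

theorem mul_star_self_su : (g : Matrix (Fin N) (Fin N) ℂ) * star (g : Matrix (Fin N) (Fin N) ℂ) = 1 :=
  (Matrix.mem_unitaryGroup_iff.mp (Matrix.mem_specialUnitaryGroup_iff.mp g.2).1)

theorem coe_inv_su : ((g⁻¹ : Matrix.specialUnitaryGroup (Fin N) ℂ) : Matrix (Fin N) (Fin N) ℂ) =
    star (g : Matrix (Fin N) (Fin N) ℂ) := rfl

theorem herm_conj (B : Fin (N ^ 2 - 1)) :
    ((g : Matrix (Fin N) (Fin N) ℂ) * b.T B * star (g : Matrix (Fin N) (Fin N) ℂ)).IsHermitian := by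
  unfold Matrix.IsHermitian
  rw [Matrix.conjTranspose_mul, Matrix.conjTranspose_mul, (b.herm B).eq]
  simp only [Matrix.star_eq_conjTranspose, Matrix.conjTranspose_conjTranspose, Matrix.mul_assoc]

theorem adj_eq (A B : Fin (N ^ 2 - 1)) : ((b.adjMat g A B : ℝ) : ℂ) =
    (b.T A * ((g : Matrix (Fin N) (Fin N) ℂ) * b.T B *
      star (g : Matrix (Fin N) (Fin N) ℂ))).trace := by
  rw [← trace_real (b.herm A) (herm_conj b g B)]
  unfold ColorBasis.adjMat
  simp only [Matrix.mul_assoc]

/-- `g T_B g* = Σ_A R_AB T_A` -/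
theorem conj_T (B : Fin (N ^ 2 - 1)) :
    (g : Matrix (Fin N) (Fin N) ℂ) * b.T B * star (g : Matrix (Fin N) (Fin N) ℂ) =
      ∑ A, (b.adjMat g A B : ℂ) • b.T A := by
  simp only [adj_eq]
  apply complete
  rw [Matrix.trace_mul_comm, ← Matrix.mul_assoc, star_mul_self_su, Matrix.one_mul]
  exact b.traceless B

/-- `R(g⁻¹)_AB = R(g)_BA` -/
theorem adj_inv (A B : Fin (N ^ 2 - 1)) : b.adjMat g⁻¹ A B = b.adjMat g B A := by
  have : ((b.adjMat g⁻¹ A B : ℝ) : ℂ) = ((b.adjMat g B A : ℝ) : ℂ) := by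
    rw [adj_eq, adj_eq, coe_inv_su, star_star, Matrix.trace_mul_comm]
    rw [Matrix.mul_assoc (star _), Matrix.mul_assoc (star _), Matrix.trace_mul_comm]
    simp only [Matrix.mul_assoc]
  exact_mod_cast this

/-- `g* T_A g = Σ_D R_AD T_D` -/
theorem conj_T' (A : Fin (N ^ 2 - 1)) :
    star (g : Matrix (Fin N) (Fin N) ℂ) * b.T A * (g : Matrix (Fin N) (Fin N) ℂ) =
      ∑ D, (b.adjMat g A D : ℂ) • b.T D := by
  have := conj_T b g⁻¹ A
  rw [coe_inv_su, star_star] at this
  rw [this]
  simp only [adj_inv]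

/-- orthogonality (columns) -/
theorem adj_orth (B C : Fin (N ^ 2 - 1)) :
    ∑ A, b.adjMat g A B * b.adjMat g A C = if B = C then 1 else 0 := by
  have h : (((∑ A, b.adjMat g A B * b.adjMat g A C : ℝ)) : ℂ) = ((if B = C then 1 else 0 : ℝ) : ℂ) := by
    have e1 : (((g : Matrix (Fin N) (Fin N) ℂ) * b.T B * star (g : Matrix (Fin N) (Fin N) ℂ)) *
        ((g : Matrix (Fin N) (Fin N) ℂ) * b.T C * star (g : Matrix (Fin N) (Fin N) ℂ))).trace =
        if B = C then 1 else 0 := by
      rw [← b.orthonormal B C]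
      have : ((g : Matrix (Fin N) (Fin N) ℂ) * b.T B * star (g : Matrix (Fin N) (Fin N) ℂ)) *
        ((g : Matrix (Fin N) (Fin N) ℂ) * b.T C * star (g : Matrix (Fin N) (Fin N) ℂ)) =
        (g : Matrix (Fin N) (Fin N) ℂ) * (b.T B * (star (g : Matrix (Fin N) (Fin N) ℂ) *
          (g : Matrix (Fin N) (Fin N) ℂ)) * b.T C * star (g : Matrix (Fin N) (Fin N) ℂ)) := by
        simp only [Matrix.mul_assoc]
      rw [this, star_mul_self_su, Matrix.mul_one, Matrix.trace_mul_comm, Matrix.mul_assoc,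
        star_mul_self_su, Matrix.mul_one]
    rw [conj_T b g B, conj_T b g C, Finset.sum_mul_sum, Matrix.trace_sum] at e1
    simp only [Matrix.trace_sum, Matrix.smul_mul, Matrix.mul_smul, Matrix.trace_smul,
      b.orthonormal, smul_eq_mul, mul_ite, mul_one, mul_zero] at e1
    simp only [Finset.sum_ite_eq, Finset.mem_univ, if_true] at e1
    rw [Complex.ofReal_sum]
    simp only [Complex.ofReal_mul]
    refine (Finset.sum_congr rfl fun x _ => mul_comm _ _).trans (e1.trans ?_)
    split_ifs <;> simp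
  exact_mod_cast h

/-- the adjoint matrix -/
def adjM : Matrix (Fin (N ^ 2 - 1)) (Fin (N ^ 2 - 1)) ℝ := Matrix.of fun A B => b.adjMat g A B

theorem adjM_transpose_mul : (adjM b g).transpose * adjM b g = 1 := by
  ext B C
  rw [Matrix.mul_apply, Matrix.one_apply]
  simpa [adjM] using adj_orth b g B C

theorem adjM_mul_transpose : adjM b g * (adjM b g).transpose = 1 :=
  mul_eq_one_comm.mp (adjM_transpose_mul b g)

/-- orthogonality (rows) -/
theorem adj_orth' (B C : Fin (N ^ 2 - 1)) :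
    ∑ A, b.adjMat g B A * b.adjMat g C A = if B = C then 1 else 0 := by
  have h := congrFun (congrFun (adjM_mul_transpose b g) B) C
  rw [Matrix.mul_apply, Matrix.one_apply] at h
  simpa [adjM] using h

/-- homomorphism -/
theorem adj_mul (A B : Fin (N ^ 2 - 1)) :
    b.adjMat (g * h) A B = ∑ C, b.adjMat g A C * b.adjMat h C B := by
  have e : ((b.adjMat (g * h) A B : ℝ) : ℂ) = ((∑ C, b.adjMat g A C * b.adjMat h C B : ℝ) : ℂ) := by
    rw [adj_eq]
    have h1 : (((g * h : Matrix.specialUnitaryGroup (Fin N) ℂ) : Matrix (Fin N) (Fin N) ℂ)) =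
      (g : Matrix (Fin N) (Fin N) ℂ) * (h : Matrix (Fin N) (Fin N) ℂ) := rfl
    rw [h1, star_mul]
    have h2 : b.T A * ((g : Matrix (Fin N) (Fin N) ℂ) * (h : Matrix (Fin N) (Fin N) ℂ) * b.T B *
        (star (h : Matrix (Fin N) (Fin N) ℂ) * star (g : Matrix (Fin N) (Fin N) ℂ))) =
        b.T A * ((g : Matrix (Fin N) (Fin N) ℂ) * ((h : Matrix (Fin N) (Fin N) ℂ) * b.T B *
        star (h : Matrix (Fin N) (Fin N) ℂ)) * star (g : Matrix (Fin N) (Fin N) ℂ)) := by
      simp only [Matrix.mul_assoc]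
    rw [h2, conj_T b h B, Finset.mul_sum, Finset.sum_mul, Finset.mul_sum, Matrix.trace_sum]
    push_cast
    refine Finset.sum_congr rfl fun C _ => ?_
    rw [Matrix.mul_smul, Matrix.smul_mul, Matrix.mul_smul, Matrix.trace_smul, ← adj_eq,
      smul_eq_mul, mul_comm]
  exact_mod_cast e

theorem adj_one (A B : Fin (N ^ 2 - 1)) :
    b.adjMat 1 A B = if A = B then 1 else 0 := by
  have e : ((b.adjMat 1 A B : ℝ) : ℂ) = ((if A = B then 1 else 0 : ℝ) : ℂ) := by
    rw [adj_eq]
    have h1 : (((1 : Matrix.specialUnitaryGroup (Fin N) ℂ) : Matrix (Fin N) (Fin N) ℂ)) = 1 := rfl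
    rw [h1, star_one, Matrix.one_mul, Matrix.mul_one, b.orthonormal]
    split_ifs <;> simp
  exact_mod_cast e

/-- structure constants as complex traces -/
theorem struct_eq (A B C : Fin (N ^ 2 - 1)) : ((b.structConst A B C : ℝ) : ℂ) =
    -Complex.I * ((b.T A * b.T B - b.T B * b.T A) * b.T C).trace := by
  unfold ColorBasis.structConst
  rw [← Complex.conj_eq_iff_re]
  have h : ((b.T A * b.T B - b.T B * b.T A) * b.T C).conjTranspose.trace =
      starRingEnd ℂ (((b.T A * b.T B - b.T B * b.T A) * b.T C).trace) :=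
    Matrix.trace_conjTranspose _
  rw [map_mul, ← h, Matrix.conjTranspose_mul, Matrix.conjTranspose_sub, Matrix.conjTranspose_mul,
    Matrix.conjTranspose_mul, (b.herm A).eq, (b.herm B).eq, (b.herm C).eq,
    Matrix.trace_mul_comm (b.T C)]
  have : b.T B * b.T A - b.T A * b.T B = -(b.T A * b.T B - b.T B * b.T A) := by abel
  rw [this, Matrix.neg_mul, Matrix.trace_neg]
  simp

theorem struct_eq' (A B C : Fin (N ^ 2 - 1)) : ((b.structConst A B C : ℝ) : ℂ) =
    -Complex.I * (b.T A * (b.T B * b.T C - b.T C * b.T B)).trace := by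
  rw [struct_eq]
  congr 1
  rw [Matrix.sub_mul, Matrix.mul_sub, Matrix.trace_sub, Matrix.trace_sub]
  congr 1
  · rw [Matrix.mul_assoc]
  · rw [Matrix.mul_assoc, Matrix.trace_mul_comm, Matrix.mul_assoc]

/-- invariance of the structure constants: `Σ_BC f_ABC R_BE R_CF = Σ_D R_AD f_DEF` -/
theorem struct_cov (A E' F' : Fin (N ^ 2 - 1)) :
    ∑ B, ∑ C, b.structConst A B C * b.adjMat g B E' * b.adjMat g C F' =
      ∑ D, b.adjMat g A D * b.structConst D E' F' := by
  have e : ((∑ B, ∑ C, b.structConst A B C * b.adjMat g B E' * b.adjMat g C F' : ℝ) : ℂ) =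
      ((∑ D, b.adjMat g A D * b.structConst D E' F' : ℝ) : ℂ) := by
    have hL : ((∑ B, ∑ C, b.structConst A B C * b.adjMat g B E' * b.adjMat g C F' : ℝ) : ℂ) =
        -Complex.I * (b.T A * ((∑ B, (b.adjMat g B E' : ℂ) • b.T B) *
          (∑ C, (b.adjMat g C F' : ℂ) • b.T C) - (∑ C, (b.adjMat g C F' : ℂ) • b.T C) *
          (∑ B, (b.adjMat g B E' : ℂ) • b.T B))).trace := by
      rw [Finset.sum_mul_sum, Finset.sum_mul_sum, Finset.sum_comm (γ := Fin (N ^ 2 - 1))
        (s := Finset.univ) (t := Finset.univ) (f := fun i j => ((b.adjMat g i F' : ℂ) • b.T i) *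
          ((b.adjMat g j E' : ℂ) • b.T j))]
      rw [← Finset.sum_sub_distrib]
      simp only [← Finset.sum_sub_distrib]
      rw [Finset.mul_sum, Matrix.trace_sum, Finset.mul_sum]
      push_cast
      refine Finset.sum_congr rfl fun B _ => ?_
      rw [Finset.mul_sum, Matrix.trace_sum, Finset.mul_sum]
      refine Finset.sum_congr rfl fun C _ => ?_
      rw [struct_eq']
      have : b.T A * ((b.adjMat g B E' : ℂ) • b.T B * (b.adjMat g C F' : ℂ) • b.T C -
          (b.adjMat g C F' : ℂ) • b.T C * (b.adjMat g B E' : ℂ) • b.T B) =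
          ((b.adjMat g B E' : ℂ) * (b.adjMat g C F' : ℂ)) •
            (b.T A * (b.T B * b.T C - b.T C * b.T B)) := by
        simp only [Matrix.smul_mul, Matrix.mul_smul, smul_smul, Matrix.mul_sub, smul_sub]
        rw [mul_comm (b.adjMat g C F' : ℂ)]
      rw [this, Matrix.trace_smul, smul_eq_mul]
      ring
    rw [hL, ← conj_T, ← conj_T]
    have hm : b.T A * ((g : Matrix (Fin N) (Fin N) ℂ) * b.T E' * star (g : Matrix (Fin N) (Fin N) ℂ) *
        ((g : Matrix (Fin N) (Fin N) ℂ) * b.T F' * star (g : Matrix (Fin N) (Fin N) ℂ)) -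
        (g : Matrix (Fin N) (Fin N) ℂ) * b.T F' * star (g : Matrix (Fin N) (Fin N) ℂ) *
        ((g : Matrix (Fin N) (Fin N) ℂ) * b.T E' * star (g : Matrix (Fin N) (Fin N) ℂ))) =
        (b.T A * (g : Matrix (Fin N) (Fin N) ℂ)) * ((b.T E' * b.T F' - b.T F' * b.T E') *
          star (g : Matrix (Fin N) (Fin N) ℂ)) := by
      have h1 : ∀ X Y : Matrix (Fin N) (Fin N) ℂ,
          (g : Matrix (Fin N) (Fin N) ℂ) * X * star (g : Matrix (Fin N) (Fin N) ℂ) *
          ((g : Matrix (Fin N) (Fin N) ℂ) * Y * star (g : Matrix (Fin N) (Fin N) ℂ)) =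
          (g : Matrix (Fin N) (Fin N) ℂ) * (X * Y * star (g : Matrix (Fin N) (Fin N) ℂ)) := by
        intro X Y
        have : (g : Matrix (Fin N) (Fin N) ℂ) * X * star (g : Matrix (Fin N) (Fin N) ℂ) *
          ((g : Matrix (Fin N) (Fin N) ℂ) * Y * star (g : Matrix (Fin N) (Fin N) ℂ)) =
          (g : Matrix (Fin N) (Fin N) ℂ) * (X * (star (g : Matrix (Fin N) (Fin N) ℂ) *
            (g : Matrix (Fin N) (Fin N) ℂ)) * Y * star (g : Matrix (Fin N) (Fin N) ℂ)) := by
          simp only [Matrix.mul_assoc]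
        rw [this, star_mul_self_su, Matrix.mul_one]
      rw [h1, h1, ← Matrix.mul_sub, ← Matrix.sub_mul, Matrix.mul_assoc]
    rw [hm, Matrix.trace_mul_comm, Matrix.mul_assoc, ← Matrix.mul_assoc (star _), conj_T',
      Finset.mul_sum, Matrix.trace_sum, Finset.mul_sum]
    push_cast
    refine Finset.sum_congr rfl fun D _ => ?_
    rw [struct_eq', Matrix.mul_smul, Matrix.trace_smul, Matrix.trace_mul_comm, smul_eq_mul]
    ring
  exact_mod_cast e

end Colour

/-! ### 2. The adjoint action on configurations -/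

section Act

variable (b : ColorBasis N) (g h : Matrix.specialUnitaryGroup (Fin N) ℂ)

theorem act_apply (x : Cfg N) (k : Fin 9 × Fin (N ^ 2 - 1)) :
    b.act g x k = ∑ B, b.adjMat g k.2 B * x (k.1, B) := rfl

theorem act_mul (x : Cfg N) : b.act (g * h) x = b.act g (b.act h x) := by
  ext k
  simp only [act_apply, adj_mul, Finset.sum_mul, Finset.mul_sum]
  rw [Finset.sum_comm]
  refine Finset.sum_congr rfl fun C _ => Finset.sum_congr rfl fun B _ => ?_
  ring

theorem act_one (x : Cfg N) : b.act 1 x = x := by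
  ext k
  simp only [act_apply, adj_one, ite_mul, one_mul, zero_mul]
  simp

theorem act_add (x y : Cfg N) : b.act g (x + y) = b.act g x + b.act g y := by
  ext k
  simp only [act_apply, PiLp.add_apply, mul_add, Finset.sum_add_distrib]

theorem act_smul (c : ℝ) (x : Cfg N) : b.act g (c • x) = c • b.act g x := by
  ext k
  simp only [act_apply, PiLp.smul_apply, smul_eq_mul, Finset.mul_sum]
  refine Finset.sum_congr rfl fun C _ => ?_
  ring

theorem act_inv_act (x : Cfg N) : b.act g⁻¹ (b.act g x) = x := by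
  rw [← act_mul, inv_mul_cancel, act_one]

theorem act_act_inv (x : Cfg N) : b.act g (b.act g⁻¹ x) = x := by
  rw [← act_mul, mul_inv_cancel, act_one]

theorem sum_sq_act (x : Cfg N) : ∑ k, (b.act g x k) ^ 2 = ∑ k, (x k) ^ 2 := by
  rw [Fintype.sum_prod_type, Fintype.sum_prod_type]
  refine Finset.sum_congr rfl fun i _ => ?_
  simp only [act_apply, sq]
  calc ∑ A, (∑ B, b.adjMat g A B * x (i, B)) * ∑ B, b.adjMat g A B * x (i, B)
      = ∑ A, ∑ B, ∑ C, (b.adjMat g A B * b.adjMat g A C) * (x (i, B) * x (i, C)) := by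
        refine Finset.sum_congr rfl fun A _ => ?_
        rw [Finset.sum_mul_sum]
        refine Finset.sum_congr rfl fun B _ => Finset.sum_congr rfl fun C _ => ?_
        ring
    _ = ∑ B, ∑ C, (∑ A, b.adjMat g A B * b.adjMat g A C) * (x (i, B) * x (i, C)) := by
        rw [Finset.sum_comm]
        refine Finset.sum_congr rfl fun B _ => ?_
        rw [Finset.sum_comm]
        refine Finset.sum_congr rfl fun C _ => ?_
        rw [Finset.sum_mul]
    _ = ∑ B, x (i, B) * x (i, B) := by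
        simp only [adj_orth, ite_mul, one_mul, zero_mul]
        simp

theorem norm_act (x : Cfg N) : ‖b.act g x‖ = ‖x‖ := by
  rw [EuclideanSpace.norm_eq, EuclideanSpace.norm_eq]
  simp only [Real.norm_eq_abs, sq_abs, sum_sq_act]

/-- the adjoint action as a linear isometry equivalence -/
def actL : Cfg N ≃ₗᵢ[ℝ] Cfg N where
  toFun := b.act g
  invFun := b.act g⁻¹
  left_inv := act_inv_act b g
  right_inv := act_act_inv b g
  map_add' := act_add b g
  map_smul' := act_smul b g
  norm_map' := norm_act b g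

@[simp] theorem actL_apply (x : Cfg N) : actL b g x = b.act g x := rfl

theorem actL_symm_apply (x : Cfg N) : (actL b g).symm x = b.act g⁻¹ x := rfl

theorem inner_act (x y : Cfg N) : ⟪b.act g x, b.act g y⟫_ℝ = ⟪x, y⟫_ℝ :=
  (actL b g).inner_map_map x y

theorem act_measurePreserving : MeasurePreserving (b.act g) (volume : Measure (Cfg N)) volume :=
  (actL b g).measurePreserving

theorem act_contDiff {n : WithTop ℕ∞} : ContDiff ℝ n (b.act g) := (actL b g).contDiff

theorem act_continuous : Continuous (b.act g) := (actL b g).continuous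

theorem adj_continuous (A B : Fin (N ^ 2 - 1)) : Continuous fun g => b.adjMat g A B := by
  unfold ColorBasis.adjMat
  have h1 : Continuous fun g : Matrix.specialUnitaryGroup (Fin N) ℂ =>
      (g : Matrix (Fin N) (Fin N) ℂ) := continuous_subtype_val
  have h2 : Continuous fun g : Matrix.specialUnitaryGroup (Fin N) ℂ =>
      star (g : Matrix (Fin N) (Fin N) ℂ) := h1.star
  exact Complex.continuous_re.comp
    ((((continuous_const.matrix_mul h1).matrix_mul continuous_const).matrix_mul h2).matrix_trace)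

/-- joint continuity of the action -/
theorem act_continuous₂ : Continuous fun p : Matrix.specialUnitaryGroup (Fin N) ℂ × Cfg N =>
    b.act p.1 p.2 := by
  have : (fun p : Matrix.specialUnitaryGroup (Fin N) ℂ × Cfg N => b.act p.1 p.2) =
      fun p => WithLp.toLp 2 (fun iA : Fin 9 × Fin (N ^ 2 - 1) =>
        ∑ B, b.adjMat p.1 iA.2 B * p.2 (iA.1, B)) := rfl
  rw [this]
  refine (PiLp.continuous_toLp 2 _).comp (continuous_pi fun k => ?_)
  refine continuous_finsetSum _ fun B _ => ?_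
  exact ((adj_continuous b k.2 B).comp continuous_fst).mul
    ((EuclideanSpace.proj (k.1, B) : Cfg N →L[ℝ] ℝ).continuous.comp continuous_snd)

theorem act_single (i : Fin 9) (A : Fin (N ^ 2 - 1)) :
    b.act g (EuclideanSpace.single (i, A) (1 : ℝ)) =
      ∑ B, b.adjMat g B A • EuclideanSpace.single (i, B) (1 : ℝ) := by
  ext k
  obtain ⟨j, C⟩ := k
  rw [act_apply]
  rw [WithLp.ofLp_sum, Finset.sum_apply]
  simp only [PiLp.smul_apply, EuclideanSpace.single_apply, Prod.mk.injEq, smul_eq_mul, mul_ite,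
    mul_one, mul_zero]
  by_cases hij : j = i
  · subst hij
    simp
  · simp [hij]

end Act

/-! ### 3. Gauge translates -/

section Tg

variable {F : Type*} [NormedAddCommGroup F] [InnerProductSpace ℂ F] [FiniteDimensional ℂ F]
  {b : ColorBasis N} {M : FermionRep N F} (R : GaugeAction b M)
  (g h : Matrix.specialUnitaryGroup (Fin N) ℂ)

theorem rho_inv_apply (v : F) : R.ρ g⁻¹ (R.ρ g v) = v := by
  have : (R.ρ g⁻¹ * R.ρ g) v = v := by
    rw [← map_mul, inv_mul_cancel, map_one]; rfl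
  exact this

theorem rho_apply_inv (v : F) : R.ρ g (R.ρ g⁻¹ v) = v := by
  have : (R.ρ g * R.ρ g⁻¹) v = v := by
    rw [← map_mul, mul_inv_cancel, map_one]; rfl
  exact this

theorem norm_rho (v : F) : ‖R.ρ g v‖ = ‖v‖ := by
  have h1 := R.unitary g v v
  rw [inner_self_eq_norm_sq_to_K, inner_self_eq_norm_sq_to_K] at h1
  have h2 : ‖R.ρ g v‖ ^ 2 = ‖v‖ ^ 2 := by exact_mod_cast h1
  exact (pow_left_inj₀ (norm_nonneg _) (norm_nonneg _) (by norm_num)).mp h2

theorem rho_adjoint (v w : F) : ⟪R.ρ g⁻¹ v, w⟫_ℂ = ⟪v, R.ρ g w⟫_ℂ := by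
  rw [← R.unitary g (R.ρ g⁻¹ v) w, rho_apply_inv]

/-- `θ_β^A ρ(g)⁻¹ = ρ(g)⁻¹ Σ_B R_BA θ_β^B` -/
theorem theta_rho_inv (β : Fin 16) (A : Fin (N ^ 2 - 1)) (v : F) :
    M.θ β A (R.ρ g⁻¹ v) = R.ρ g⁻¹ (∑ B, (b.adjMat g B A : ℂ) • M.θ β B v) := by
  have h1 := LinearMap.congr_fun (R.intertwine g β A) (R.ρ g⁻¹ v)
  simp only [LinearMap.comp_apply, rho_apply_inv, LinearMap.sum_apply, LinearMap.smul_apply] at h1
  rw [← h1, rho_inv_apply]

/-- the gauge translate of a wave function; the core vectors are its fixed points -/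
def tg (φ : Cfg N → F) (x : Cfg N) : F := R.ρ g⁻¹ (φ (b.act g x))

theorem tg_eq_self_iff (φ : Cfg N → F) :
    (∀ g, tg R g φ = φ) ↔ ∀ g x, φ (b.act g x) = R.ρ g (φ x) := by
  constructor
  · intro H g x
    have := congrFun (H g) x
    unfold tg at this
    rw [← this, rho_apply_inv]
  · intro H g
    funext x
    unfold tg
    rw [H, rho_inv_apply]

theorem isCoreVec_iff (φ : Cfg N → F) :
    IsCoreVec b R φ ↔ ContDiff ℝ ∞ φ ∧ HasCompactSupport φ ∧ ∀ g, tg R g φ = φ := by
  unfold IsCoreVec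
  rw [tg_eq_self_iff]

theorem tg_mul (φ : Cfg N → F) : tg R (g * h) φ = tg R h (tg R g φ) := by
  funext x
  unfold tg
  rw [mul_inv_rev, map_mul, act_mul]
  rfl

theorem tg_one (φ : Cfg N → F) : tg R 1 φ = φ := by
  funext x
  unfold tg
  rw [inv_one, map_one, act_one]
  rfl

theorem tg_add (φ ψ : Cfg N → F) : tg R g (φ + ψ) = tg R g φ + tg R g ψ := by
  funext x
  simp [tg]

theorem tg_smul (c : ℂ) (φ : Cfg N → F) : tg R g (c • φ) = c • tg R g φ := by
  funext x
  simp [tg]

theorem contDiff_tg {n : WithTop ℕ∞} {φ : Cfg N → F} (hφ : ContDiff ℝ n φ) :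
    ContDiff ℝ n (tg R g φ) :=
  contDiff_linMap_apply (R.ρ g⁻¹) (hφ.comp (act_contDiff b g))

theorem hasCompactSupport_tg {φ : Cfg N → F} (hφ : HasCompactSupport φ) :
    HasCompactSupport (tg R g φ) := by
  have h1 : HasCompactSupport (φ ∘ (actL b g).toHomeomorph) := hφ.comp_homeomorph _
  exact h1.mono' (fun x hx => subset_tsupport _ (by
    intro h0; apply hx; unfold tg; 
    have : φ (b.act g x) = 0 := h0
    rw [this, map_zero]))

theorem norm_tg (φ : Cfg N → F) (x : Cfg N) : ‖tg R g φ x‖ = ‖φ (b.act g x)‖ := norm_rho R _ _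

theorem inner_tg (φ ψ : Cfg N → F) (x : Cfg N) :
    ⟪tg R g φ x, tg R g ψ x⟫_ℂ = ⟪φ (b.act g x), ψ (b.act g x)⟫_ℂ := R.unitary _ _ _

theorem memLp_tg {p : ℝ≥0∞} {φ : Cfg N → F} (hφ : MemLp φ p volume) :
    MemLp (tg R g φ) p volume := by
  have h1 : MemLp (φ ∘ b.act g) p volume := hφ.comp_measurePreserving (act_measurePreserving b g)
  exact (LinearMap.toContinuousLinearMap (R.ρ g⁻¹)).comp_memLp' h1

theorem eLpNorm_tg {p : ℝ≥0∞} {φ : Cfg N → F} (hφ : AEStronglyMeasurable φ volume) :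
    eLpNorm (tg R g φ) p volume = eLpNorm φ p volume := by
  have h1 : eLpNorm (φ ∘ b.act g) p volume = eLpNorm φ p volume :=
    eLpNorm_comp_measurePreserving hφ (act_measurePreserving b g)
  rw [← h1]
  exact eLpNorm_congr_norm_ae (Eventually.of_forall fun x => norm_tg R g φ x)

theorem integral_inner_tg (φ ψ : Cfg N → F) :
    ∫ x, ⟪tg R g φ x, tg R g ψ x⟫_ℂ = ∫ x, ⟪φ x, ψ x⟫_ℂ := by
  simp only [inner_tg]
  exact (act_measurePreserving b g).integral_comp
    (actL b g).toHomeomorph.measurableEmbedding (fun y => ⟪φ y, ψ y⟫_ℂ)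

/-! ### 4. Covariance of the charges -/

/-- covariant potential coefficients -/
def IsCov (b : ColorBasis N) (W : Fin 16 → Fin 16 → Fin (N ^ 2 - 1) → Cfg N → ℝ) : Prop :=
  ∀ g x α β A, W α β A (b.act g x) = ∑ B, b.adjMat g A B * W α β B x

theorem fderiv_tg {φ : Cfg N → F} {x : Cfg N} (hφ : DifferentiableAt ℝ φ (b.act g x))
    (v : Cfg N) : fderiv ℝ (tg R g φ) x v = R.ρ g⁻¹ (fderiv ℝ φ (b.act g x) (b.act g v)) := by
  have h1 : HasFDerivAt (fun y => b.act g y) ((actL b g : Cfg N ≃L[ℝ] Cfg N) : Cfg N →L[ℝ] Cfg N)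
      x := ((actL b g : Cfg N ≃L[ℝ] Cfg N) : Cfg N →L[ℝ] Cfg N).hasFDerivAt
  have h2 := ((LinearMap.toContinuousLinearMap (R.ρ g⁻¹)).restrictScalars ℝ).hasFDerivAt.comp x
    (hφ.hasFDerivAt.comp x h1)
  have h3 : fderiv ℝ (tg R g φ) x = _ := h2.fderiv
  rw [h3]
  rfl

theorem fderiv_act_single {φ : Cfg N → F} (x : Cfg N) (i : Fin 9) (A : Fin (N ^ 2 - 1)) :
    fderiv ℝ φ x (b.act g (EuclideanSpace.single (i, A) (1 : ℝ))) =
      ∑ C, (b.adjMat g C A : ℂ) • fderiv ℝ φ x (EuclideanSpace.single (i, C) (1 : ℝ)) := by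
  rw [act_single, map_sum]
  refine Finset.sum_congr rfl fun C _ => ?_
  rw [map_smul, Complex.coe_smul]

theorem sum_adj_adj (u : Fin (N ^ 2 - 1) → Fin (N ^ 2 - 1) → F) :
    ∑ A, ∑ C, ∑ B, ((b.adjMat g C A : ℂ) * (b.adjMat g B A : ℂ)) • u C B = ∑ B, u B B := by
  have h1 : ∑ A, ∑ C, ∑ B, ((b.adjMat g C A : ℂ) * (b.adjMat g B A : ℂ)) • u C B =
      ∑ C, ∑ B, ((∑ A, b.adjMat g C A * b.adjMat g B A : ℝ) : ℂ) • u C B := by
    rw [Finset.sum_comm]
    refine Finset.sum_congr rfl fun C _ => ?_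
    rw [Finset.sum_comm]
    refine Finset.sum_congr rfl fun B _ => ?_
    rw [Complex.ofReal_sum, Finset.sum_smul]
    refine Finset.sum_congr rfl fun A _ => ?_
    rw [Complex.ofReal_mul]
  rw [h1]
  simp only [adj_orth']
  refine Finset.sum_congr rfl fun C _ => ?_
  rw [Finset.sum_eq_single C]
  · simp
  · intro B _ hB
    rw [if_neg (fun e => hB e.symm)]
    simp
  · simp

theorem dco_rho_inv (G : GammaNine) (α : Fin 16) (i : Fin 9) (A : Fin (N ^ 2 - 1)) (v : F) :
    dco M G α (i, A) (R.ρ g⁻¹ v) =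
      R.ρ g⁻¹ (∑ B, (b.adjMat g B A : ℂ) • dco M G α (i, B) v) := by
  simp only [dco_apply, theta_rho_inv, map_sum, map_smul, Finset.smul_sum]
  rw [Finset.sum_comm]
  refine Finset.sum_congr rfl fun B _ => Finset.sum_congr rfl fun β _ => ?_
  rw [smul_comm]

theorem vco_rho_inv (c : Fin 16 → Fin (N ^ 2 - 1) → ℝ) (v : F) :
    vco M c (R.ρ g⁻¹ v) = R.ρ g⁻¹ (vco M (fun β B => ∑ A, b.adjMat g B A * c β A) v) := by
  simp only [vco_apply, theta_rho_inv, map_sum, map_smul]
  have h1 : ∀ B : Fin (N ^ 2 - 1), ∑ β : Fin 16, (((∑ A, b.adjMat g B A * c β A : ℝ)) : ℂ) •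
      R.ρ g⁻¹ (M.θ β B v) =
      ∑ A, ∑ β : Fin 16, ((c β A : ℂ) * (b.adjMat g B A : ℂ)) • R.ρ g⁻¹ (M.θ β B v) := by
    intro B
    rw [Finset.sum_comm]
    refine Finset.sum_congr rfl fun β _ => ?_
    rw [Complex.ofReal_sum, Finset.sum_smul]
    refine Finset.sum_congr rfl fun A _ => ?_
    rw [Complex.ofReal_mul, mul_comm]
  simp only [h1, Finset.smul_sum, smul_smul]
  rw [Finset.sum_comm (s := Finset.univ (α := Fin (N ^ 2 - 1)))
    (t := Finset.univ (α := Fin (N ^ 2 - 1)))
    (f := fun B A => ∑ β : Fin 16, ((c β A : ℂ) * (b.adjMat g B A : ℂ)) • R.ρ g⁻¹ (M.θ β B v))]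
  refine Finset.sum_congr rfl fun A _ => ?_
  rw [Finset.sum_comm]

/-- **gauge covariance**: `Q_α^W (tg g φ) = tg g (Q_α^W φ)` -/
theorem chargeW_tg {G : GammaNine} {W : Fin 16 → Fin 16 → Fin (N ^ 2 - 1) → Cfg N → ℝ}
    (hW : IsCov b W) (α : Fin 16) {φ : Cfg N → F} (hφ : Differentiable ℝ φ) :
    chargeW M G W α (tg R g φ) = tg R g (chargeW M G W α φ) := by
  funext x
  have hR : tg R g (chargeW M G W α φ) x = R.ρ g⁻¹ (chargeW M G W α φ (b.act g x)) := rfl
  rw [hR, chargeW_apply, chargeW_apply, map_add]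
  congr 1
  · -- kinetic part
    rw [Fintype.sum_prod_type, Fintype.sum_prod_type, map_sum]
    refine Finset.sum_congr rfl fun i _ => ?_
    have e1 : ∀ A, (-Complex.I) • dco M G α (i, A)
        (fderiv ℝ (tg R g φ) x (EuclideanSpace.single (i, A) 1)) =
        R.ρ g⁻¹ (∑ C, ∑ B, ((b.adjMat g C A : ℂ) * (b.adjMat g B A : ℂ)) •
          (-Complex.I) • dco M G α (i, B)
            (fderiv ℝ φ (b.act g x) (EuclideanSpace.single (i, C) 1))) := by
      intro A
      rw [fderiv_tg R g (hφ _), fderiv_act_single, dco_rho_inv, ← map_smul]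
      congr 1
      simp only [map_sum, map_smul, Finset.smul_sum, smul_smul]
      rw [Finset.sum_comm]
      refine Finset.sum_congr rfl fun C _ => Finset.sum_congr rfl fun B _ => ?_
      congr 1
      ring
    simp only [e1]
    rw [← map_sum, sum_adj_adj]
  · -- potential
    show vco M (fun β A => W α β A x) (R.ρ g⁻¹ (φ (b.act g x))) = _
    rw [vco_rho_inv]
    simp only [hW g x]

/-- a covariant charge maps core vectors to core vectors -/
theorem core_chargeW {R : GaugeAction b M} {G : GammaNine}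
    {W : Fin 16 → Fin 16 → Fin (N ^ 2 - 1) → Cfg N → ℝ}
    (hW : IsCov b W) (α : Fin 16) (hWs : ∀ β A, ContDiff ℝ ∞ (W α β A)) {φ : Cfg N → F}
    (hφ : IsCoreVec b R φ) : IsCoreVec b R (chargeW M G W α φ) := by
  rw [isCoreVec_iff] at hφ ⊢
  refine ⟨contDiff_chargeW hWs hφ.1, hasCompactSupport_chargeW hφ.2.1, fun g => ?_⟩
  rw [← chargeW_tg R g hW α (hφ.1.differentiable (by simp)), hφ.2.2 g]

theorem isCov_add {W W' : Fin 16 → Fin 16 → Fin (N ^ 2 - 1) → Cfg N → ℝ}
    (h : IsCov b W) (h' : IsCov b W') : IsCov b (fun α β A x => W α β A x + W' α β A x) := by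
  intro g x α β A
  simp only [h g x, h' g x, mul_add, Finset.sum_add_distrib]

theorem isCov_smul {W : Fin 16 → Fin 16 → Fin (N ^ 2 - 1) → Cfg N → ℝ} (h : IsCov b W)
    {χ : Cfg N → ℝ} (hχ : ∀ g x, χ (b.act g x) = χ x) :
    IsCov b (fun α β A x => χ x * W α β A x) := by
  intro g x α β A
  simp only [h g x, hχ g x, Finset.mul_sum]
  refine Finset.sum_congr rfl fun B _ => ?_
  ring

theorem isCov_const_mul {W : Fin 16 → Fin 16 → Fin (N ^ 2 - 1) → Cfg N → ℝ} (h : IsCov b W)
    (c : ℝ) : IsCov b (fun α β A x => c * W α β A x) :=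
  isCov_smul h (χ := fun _ => c) (fun _ _ => rfl)

/-- linear potentials are covariant -/
theorem isCov_lin (K : Fin 16 → Fin 16 → Fin 9 → ℝ) :
    IsCov b (fun α β A x => ∑ j, K α β j * x (j, A)) := by
  intro g x α β A
  simp only [act_apply, Finset.mul_sum]
  rw [Finset.sum_comm]
  refine Finset.sum_congr rfl fun B _ => Finset.sum_congr rfl fun j _ => ?_
  ring

/-- `Σ_BC f_ABC (R y)_B (R z)_C = Σ_D R_AD Σ_EF f_DEF y_E z_F` -/
theorem struct_cov_vec (b : ColorBasis N) (g : Matrix.specialUnitaryGroup (Fin N) ℂ)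
    (A : Fin (N ^ 2 - 1)) (y z : Fin (N ^ 2 - 1) → ℝ) :
    ∑ B, ∑ C, b.structConst A B C * (∑ E', b.adjMat g B E' * y E') *
      (∑ F', b.adjMat g C F' * z F') =
      ∑ D, b.adjMat g A D * ∑ E', ∑ F', b.structConst D E' F' * y E' * z F' := by
  have h1 : ∀ B C, b.structConst A B C * (∑ E', b.adjMat g B E' * y E') *
      (∑ F', b.adjMat g C F' * z F') = ∑ E', ∑ F',
        (b.structConst A B C * b.adjMat g B E' * b.adjMat g C F') * (y E' * z F') := by
    intro B C
    rw [mul_assoc, Finset.sum_mul_sum, Finset.mul_sum]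
    refine Finset.sum_congr rfl fun E' _ => ?_
    rw [Finset.mul_sum]
    refine Finset.sum_congr rfl fun F' _ => ?_
    ring
  simp only [h1]
  have h2 : ∑ B, ∑ C, ∑ E', ∑ F',
        (b.structConst A B C * b.adjMat g B E' * b.adjMat g C F') * (y E' * z F') =
      ∑ E', ∑ F', (∑ B, ∑ C, b.structConst A B C * b.adjMat g B E' * b.adjMat g C F') *
        (y E' * z F') := by
    have a1 : ∀ B, ∑ C, ∑ E', ∑ F',
        (b.structConst A B C * b.adjMat g B E' * b.adjMat g C F') * (y E' * z F') =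
        ∑ E', ∑ F', (∑ C, b.structConst A B C * b.adjMat g B E' * b.adjMat g C F') *
          (y E' * z F') := by
      intro B
      rw [Finset.sum_comm]
      refine Finset.sum_congr rfl fun E' _ => ?_
      rw [Finset.sum_comm]
      refine Finset.sum_congr rfl fun F' _ => ?_
      rw [Finset.sum_mul]
    simp only [a1]
    rw [Finset.sum_comm]
    refine Finset.sum_congr rfl fun E' _ => ?_
    rw [Finset.sum_comm]
    refine Finset.sum_congr rfl fun F' _ => ?_
    rw [Finset.sum_mul]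
  rw [h2]
  simp only [struct_cov, Finset.sum_mul, Finset.mul_sum]
  have h3 : ∀ E', ∑ F', ∑ D, b.adjMat g A D * b.structConst D E' F' * (y E' * z F') =
      ∑ D, ∑ F', b.adjMat g A D * b.structConst D E' F' * (y E' * z F') :=
    fun E' => Finset.sum_comm
  simp only [h3]
  rw [Finset.sum_comm]
  refine Finset.sum_congr rfl fun D _ => Finset.sum_congr rfl fun E' _ =>
    Finset.sum_congr rfl fun F' _ => ?_
  ring

/-- the quartic potential coefficients are covariant -/
theorem isCov_wco (G : GammaNine) : IsCov b (wco b G) := by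
  intro g x α β A
  have h1 : ∀ y : Cfg N, ∀ A, wco b G α β A y = ∑ i, ∑ j, (1 / 2 * G.γ2 i j α β) *
      ∑ B, ∑ C, b.structConst A B C * y (i, B) * y (j, C) := by
    intro y A
    unfold wco
    simp only [Finset.mul_sum]
    have c1 : ∀ B, ∑ C, ∑ i, ∑ j,
        1 / 2 * b.structConst A B C * y (i, B) * y (j, C) * G.γ2 i j α β =
        ∑ i, ∑ j, ∑ C, 1 / 2 * b.structConst A B C * y (i, B) * y (j, C) * G.γ2 i j α β := by
      intro B
      rw [Finset.sum_comm]
      refine Finset.sum_congr rfl fun i _ => ?_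
      rw [Finset.sum_comm]
    simp only [c1]
    rw [Finset.sum_comm]
    refine Finset.sum_congr rfl fun i _ => ?_
    rw [Finset.sum_comm]
    refine Finset.sum_congr rfl fun j _ => Finset.sum_congr rfl fun B _ =>
      Finset.sum_congr rfl fun C _ => ?_
    ring
  simp only [h1]
  simp only [act_apply]
  have h2 : ∀ i j, ∑ B, ∑ C, b.structConst A B C * (∑ E', b.adjMat g B E' * x (i, E')) *
      (∑ F', b.adjMat g C F' * x (j, F')) =
      ∑ D, b.adjMat g A D * ∑ E', ∑ F', b.structConst D E' F' * x (i, E') * x (j, F') :=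
    fun i j => struct_cov_vec b g A (fun E' => x (i, E')) (fun F' => x (j, F'))
  simp only [h2]
  have h3 : ∀ i j, 1 / 2 * G.γ2 i j α β * ∑ D, b.adjMat g A D *
      ∑ E', ∑ F', b.structConst D E' F' * x (i, E') * x (j, F') =
      ∑ D, b.adjMat g A D * (1 / 2 * G.γ2 i j α β *
        ∑ E', ∑ F', b.structConst D E' F' * x (i, E') * x (j, F')) := by
    intro i j
    rw [Finset.mul_sum]
    refine Finset.sum_congr rfl fun D _ => ?_
    ring
  simp only [h3]
  have h4 : ∀ i, ∑ j, ∑ D, b.adjMat g A D * (1 / 2 * G.γ2 i j α β *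
        ∑ E', ∑ F', b.structConst D E' F' * x (i, E') * x (j, F')) =
      ∑ D, ∑ j, b.adjMat g A D * (1 / 2 * G.γ2 i j α β *
        ∑ E', ∑ F', b.structConst D E' F' * x (i, E') * x (j, F')) := fun i => Finset.sum_comm
  simp only [h4]
  rw [Finset.sum_comm]
  refine Finset.sum_congr rfl fun D _ => ?_
  rw [Finset.mul_sum]
  refine Finset.sum_congr rfl fun i _ => ?_
  rw [Finset.mul_sum]

theorem supercharge_tg {G : GammaNine} (α : Fin 16) {φ : Cfg N → F} (hφ : Differentiable ℝ φ) :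
    supercharge b M G α (tg R g φ) = tg R g (supercharge b M G α φ) := by
  rw [supercharge_eq, supercharge_eq]
  exact chargeW_tg R g (isCov_wco G) α hφ

/-- (I5) the supercharge maps core vectors to core vectors -/
theorem core_supercharge {R : GaugeAction b M} {G : GammaNine} (α : Fin 16) {φ : Cfg N → F}
    (hφ : IsCoreVec b R φ) : IsCoreVec b R (supercharge b M G α φ) := by
  rw [supercharge_eq]
  exact core_chargeW (isCov_wco G) α (fun β A => wco_contDiff b G α β A) hφ

end Tg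

end Crest.Agent.R330.Cov837
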