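import Crest.Agent.R330.TDef_414

/-!
# Row 330, S8: Bochner form of the slice formula of a chart (helper658)

For a slice chart `σ : Sl C` (`TDef_414`), `c = C.cf σ.X0`, density `j`:

* `integral_tube` : `∫_tube h = ∫_{y ∈ Nor, ‖y‖ < r} j y • h (c + y)` for invariant `h` with values
  in a Banach space; `integrableOn_tube` : integrability of the two sides is equivalent.
* `integral_pair` : `∫ ⟪φ, ext (j⁻¹ t)⟫ = ∫_{y ∈ Nor, ‖y‖ < r} ⟪φ (c + y), t y⟫`.
* `integral_gram` : `∫ ⟪ext (j⁻¹ t), ext (j⁻¹ t')⟫ = ∫_{y ∈ Nor, ‖y‖ < r} j⁻¹ ⟪t y, t' y⟫`.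
-/

set_option autoImplicit false
set_option linter.unusedSectionVars false

open MeasureTheory Filter Topology Crest.MathPhysics.MatrixQM
open scoped ContDiff InnerProductSpace ENNReal

noncomputable section

namespace Crest.Agent.R330.SlInt658

open Crest.Agent.R330.TDef414 Crest.Agent.R330.SlG944 Crest.Agent.R330.Cov837
open Crest.Agent.R330.SlB314 (Nor Tan)
open Crest.Agent.R330.SlD314 (tube mem_tube_iff act_mem_tube isOpen_tube)

variable {N p : ℕ} {b : ColorBasis N}

/-- The σ-algebra of the invariant Borel sets. -/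
@[instance_reducible]
def invM (b : ColorBasis N) : MeasurableSpace (Cfg N) where
  MeasurableSet' s := MeasurableSet s ∧
    ∀ k : Matrix.specialUnitaryGroup (Fin N) ℂ, b.act k ⁻¹' s = s
  measurableSet_empty := ⟨MeasurableSet.empty, fun k => rfl⟩
  measurableSet_compl s hs := ⟨hs.1.compl, fun k => by rw [Set.preimage_compl, hs.2]⟩
  measurableSet_iUnion f hf := ⟨MeasurableSet.iUnion fun i => (hf i).1, fun k => by
    rw [Set.preimage_iUnion]
    exact Set.iUnion_congr fun i => (hf i).2 k⟩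

theorem invM_le (b : ColorBasis N) : invM b ≤ (inferInstance : MeasurableSpace (Cfg N)) :=
  fun _ hs => hs.1

theorem measurableSet_invM {s : Set (Cfg N)} (hs : MeasurableSet s)
    (hi : ∀ k : Matrix.specialUnitaryGroup (Fin N) ℂ, b.act k ⁻¹' s = s) :
    @MeasurableSet _ (invM b) s := ⟨hs, hi⟩

/-- An invariant strongly measurable function is strongly measurable for the invariant sets. -/
theorem stronglyMeasurable_invM {E : Type*} [NormedAddCommGroup E] {h : Cfg N → E}
    (hs : StronglyMeasurable h)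
    (hi : ∀ (k : Matrix.specialUnitaryGroup (Fin N) ℂ) x, h (b.act k x) = h x) :
    StronglyMeasurable[invM b] h := by
  borelize E
  rw [stronglyMeasurable_iff_measurable_separable] at hs ⊢
  refine ⟨fun s hsm => ⟨hs.1 hsm, fun k => ?_⟩, hs.2⟩
  ext x
  simp only [Set.mem_preimage, hi]

section chart

variable {S : Type} [Group S] [Fintype S] {C : Chn b p S} (σ : Sl C)

/-- The measure `j dy` on the ball of the slice. -/
def nu : Measure (Nor b (C.cf σ.X0)) :=
  (volume.restrict (Metric.ball (0 : Nor b (C.cf σ.X0)) σ.r)).withDensity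
    fun y => ENNReal.ofReal (σ.j y)

/-- The slice map. -/
def sm (y : Nor b (C.cf σ.X0)) : Cfg N := C.cf σ.X0 + y

theorem continuous_sm : Continuous (sm σ) := continuous_const.add continuous_subtype_val

theorem continuousOn_j :
    ContinuousOn (fun y : Nor b (C.cf σ.X0) => σ.j y) (Metric.ball 0 σ.r) := by
  intro y hy
  have h1 : ‖y‖ < σ.r := by simpa using hy
  have h2 := (σ.smooth y y.2 h1).continuousAt
  exact (ContinuousAt.comp (f := fun y : Nor b (C.cf σ.X0) => (y : Cfg N)) (g := σ.j) h2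
    continuous_subtype_val.continuousAt).continuousWithinAt

theorem aemeasurable_j : AEMeasurable (fun y : Nor b (C.cf σ.X0) => σ.j y)
    (volume.restrict (Metric.ball (0 : Nor b (C.cf σ.X0)) σ.r)) :=
  ((continuousOn_j σ).aestronglyMeasurable Metric.isOpen_ball.measurableSet).aemeasurable

theorem aemeasurable_ofReal_j : AEMeasurable (fun y : Nor b (C.cf σ.X0) => ENNReal.ofReal (σ.j y))
    (volume.restrict (Metric.ball (0 : Nor b (C.cf σ.X0)) σ.r)) :=
  (aemeasurable_j σ).ennreal_ofReal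

/-- The lintegral formula through the image measure. -/
theorem lint {h : Cfg N → ℝ≥0∞} (hm : Measurable h)
    (hi : ∀ (k : Matrix.specialUnitaryGroup (Fin N) ℂ) x, h (b.act k x) = h x) :
    ∫⁻ x in tube b (C.cf σ.X0) σ.r, h x = ∫⁻ x, h x ∂((nu σ).map (sm σ)) := by
  rw [σ.int h hm hi, lintegral_map hm (continuous_sm σ).measurable]
  exact (lintegral_withDensity_eq_lintegral_mul₀ (aemeasurable_ofReal_j σ)
    (hm.comp (continuous_sm σ).measurable).aemeasurable).symm

theorem trim_eq : (volume.restrict (tube b (C.cf σ.X0) σ.r)).trim (invM_le b) =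
    ((nu σ).map (sm σ)).trim (invM_le b) := by
  refine @Measure.ext _ (invM b) _ _ fun s hs => ?_
  rw [trim_measurableSet_eq _ hs, trim_measurableSet_eq _ hs]
  have hs1 : MeasurableSet s := hs.1
  have h1 := lint σ (h := s.indicator 1) (measurable_one.indicator hs1) (fun k x => by
    have h2 := hs.2 k
    by_cases hx : x ∈ s
    · have h3 : b.act k x ∈ s := by
        have h4 : x ∈ b.act k ⁻¹' s := by rw [h2]; exact hx
        exact h4
      rw [Set.indicator_of_mem h3, Set.indicator_of_mem hx]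
      rfl
    · have h3 : b.act k x ∉ s := fun h4 => hx (by rw [← h2]; exact h4)
      rw [Set.indicator_of_notMem h3, Set.indicator_of_notMem hx])
  rw [lintegral_indicator_one hs1, lintegral_indicator_one hs1] at h1
  exact h1

/-- **Bochner form of the slice formula.** -/
theorem integral_tube {E : Type*} [NormedAddCommGroup E] [NormedSpace ℝ E] {h : Cfg N → E}
    (hs : StronglyMeasurable h)
    (hi : ∀ (k : Matrix.specialUnitaryGroup (Fin N) ℂ) x, h (b.act k x) = h x) :
    ∫ x in tube b (C.cf σ.X0) σ.r, h x =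
      ∫ y in Metric.ball (0 : Nor b (C.cf σ.X0)) σ.r, σ.j y • h (C.cf σ.X0 + y) := by
  have h1 := stronglyMeasurable_invM hs hi
  rw [integral_trim (invM_le b) h1, trim_eq, ← integral_trim (invM_le b) h1,
    integral_map (continuous_sm σ).aemeasurable hs.aestronglyMeasurable]
  unfold nu
  rw [integral_withDensity_eq_integral_toReal_smul₀ (aemeasurable_ofReal_j σ)
    (Eventually.of_forall fun _ => ENNReal.ofReal_lt_top)]
  refine setIntegral_congr_fun Metric.isOpen_ball.measurableSet fun y hy => ?_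
  have h2 : ‖y‖ < σ.r := by simpa using hy
  change (ENNReal.ofReal (σ.j y)).toReal • h (sm σ y) = _
  rw [ENNReal.toReal_ofReal (σ.jpos y y.2 h2).le]
  rfl

theorem integrableOn_tube {E : Type*} [NormedAddCommGroup E] [NormedSpace ℝ E] {h : Cfg N → E}
    (hs : StronglyMeasurable h)
    (hi : ∀ (k : Matrix.specialUnitaryGroup (Fin N) ℂ) x, h (b.act k x) = h x) :
    IntegrableOn h (tube b (C.cf σ.X0) σ.r) ↔
      IntegrableOn (fun y : Nor b (C.cf σ.X0) => σ.j y • h (C.cf σ.X0 + y))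
        (Metric.ball (0 : Nor b (C.cf σ.X0)) σ.r) := by
  have h1 : Integrable h (volume.restrict (tube b (C.cf σ.X0) σ.r)) ↔
      Integrable h ((nu σ).map (sm σ)) := by
    unfold Integrable
    refine and_congr ⟨fun _ => hs.aestronglyMeasurable, fun _ => hs.aestronglyMeasurable⟩ ?_
    unfold HasFiniteIntegral
    rw [lint σ hs.enorm fun k x => by rw [hi]]
  unfold IntegrableOn
  rw [h1, integrable_map_measure hs.aestronglyMeasurable (continuous_sm σ).aemeasurable]
  unfold nu
  rw [integrable_withDensity_iff_integrable_smul₀' (aemeasurable_ofReal_j σ)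
    (Eventually.of_forall fun _ => ENNReal.ofReal_lt_top)]
  refine integrable_congr ?_
  filter_upwards [ae_restrict_mem Metric.isOpen_ball.measurableSet] with y hy
  have h2 : ‖y‖ < σ.r := by simpa using hy
  change (ENNReal.ofReal (σ.j y)).toReal • h (sm σ y) = _
  rw [ENNReal.toReal_ofReal (σ.jpos y y.2 h2).le]
  rfl

variable {F : Type*} [NormedAddCommGroup F] [InnerProductSpace ℂ F] [FiniteDimensional ℂ F]
  {M : FermionRep N F} (R : GaugeAction b M)

/-- `j⁻¹ t` is a slice function if `t` is. -/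
theorem isSliceFun_inv {t : Cfg N → F} (ht : IsSliceFun R (C.cf σ.X0) σ.r t) :
    IsSliceFun R (C.cf σ.X0) σ.r fun u => (((σ.j u)⁻¹ : ℝ) : ℂ) • t u := by
  intro k y hk hy hr
  simp only
  rw [ht k y hk hy hr, σ.inv k hk y hy hr, map_smul]

/-- **Pairing with an extension.** -/
theorem integral_pair {φ : Cfg N → F} {t : Cfg N → F}
    (hφ : ∀ g x, φ (b.act g x) = R.ρ g (φ x)) (hφc : StronglyMeasurable φ)
    (ht : IsSliceFun R (C.cf σ.X0) σ.r t)
    (htc : StronglyMeasurable (ext R (C.cf σ.X0) σ.r fun u => (((σ.j u)⁻¹ : ℝ) : ℂ) • t u)) :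
    ∫ x, ⟪φ x, ext R (C.cf σ.X0) σ.r (fun u => (((σ.j u)⁻¹ : ℝ) : ℂ) • t u) x⟫_ℂ =
      ∫ y in Metric.ball (0 : Nor b (C.cf σ.X0)) σ.r, ⟪φ (C.cf σ.X0 + y), t y⟫_ℂ := by
  have hT := isSliceFun_inv σ R ht
  have h1 : ∫ x, ⟪φ x, ext R (C.cf σ.X0) σ.r (fun u => (((σ.j u)⁻¹ : ℝ) : ℂ) • t u) x⟫_ℂ =
      ∫ x in tube b (C.cf σ.X0) σ.r,
        ⟪φ x, ext R (C.cf σ.X0) σ.r (fun u => (((σ.j u)⁻¹ : ℝ) : ℂ) • t u) x⟫_ℂ := by
    symm
    refine setIntegral_eq_integral_of_forall_compl_eq_zero fun x hx => ?_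
    rw [ext_off R _ hx, inner_zero_right]
  rw [h1, integral_tube σ (hφc.inner htc) fun k x => by
    rw [hφ, ext_equivariant R σ.good hT, R.unitary]]
  refine setIntegral_congr_fun Metric.isOpen_ball.measurableSet fun y hy => ?_
  have h2 : ‖y‖ < σ.r := by simpa using hy
  have h3 : ‖(y : Cfg N)‖ < σ.r := h2
  rw [ext_slice R σ.good hT y.2 h3, inner_smul_right]
  rw [show (σ.j y : ℝ) • ((((σ.j y)⁻¹ : ℝ) : ℂ) * ⟪φ (C.cf σ.X0 + y), t y⟫_ℂ) =
    ((σ.j y : ℝ) : ℂ) * ((((σ.j y)⁻¹ : ℝ) : ℂ) * ⟪φ (C.cf σ.X0 + y), t y⟫_ℂ) from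
      Complex.real_smul, ← mul_assoc, ← Complex.ofReal_mul,
    mul_inv_cancel₀ (σ.jpos y y.2 h3).ne', Complex.ofReal_one, one_mul]

/-- **Gram pairing of two extensions from the same chart.** -/
theorem integral_gram {t t' : Cfg N → F}
    (ht : IsSliceFun R (C.cf σ.X0) σ.r t) (ht' : IsSliceFun R (C.cf σ.X0) σ.r t')
    (htc : StronglyMeasurable (ext R (C.cf σ.X0) σ.r fun u => (((σ.j u)⁻¹ : ℝ) : ℂ) • t u))
    (htc' : StronglyMeasurable (ext R (C.cf σ.X0) σ.r fun u => (((σ.j u)⁻¹ : ℝ) : ℂ) • t' u)) :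
    ∫ x, ⟪ext R (C.cf σ.X0) σ.r (fun u => (((σ.j u)⁻¹ : ℝ) : ℂ) • t u) x,
        ext R (C.cf σ.X0) σ.r (fun u => (((σ.j u)⁻¹ : ℝ) : ℂ) • t' u) x⟫_ℂ =
      ∫ y in Metric.ball (0 : Nor b (C.cf σ.X0)) σ.r, (σ.j y)⁻¹ • ⟪t y, t' y⟫_ℂ := by
  have hT := isSliceFun_inv σ R ht
  rw [integral_pair σ R (fun g x => ext_equivariant R σ.good hT g x) htc ht' htc']
  refine setIntegral_congr_fun Metric.isOpen_ball.measurableSet fun y hy => ?_
  have h2 : ‖y‖ < σ.r := by simpa using hy
  have h3 : ‖(y : Cfg N)‖ < σ.r := h2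
  rw [ext_slice R σ.good hT y.2 h3, inner_smul_left, Complex.conj_ofReal]
  exact Complex.real_smul.symm

end chart

end Crest.Agent.R330.SlInt658

end
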