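import Mathlib

/-!
Smooth dependence of positive square roots, polar signs and complex structures on parameters, for
operators of a finite-dimensional real inner product space.
-/

set_option autoImplicit false
set_option linter.unusedSectionVars false
set_option linter.deprecated false

namespace Crest.Agent.R330.SqrtPD984

open Topology Filter
open scoped InnerProductSpace ContDiff

variable {Z : Type*} [NormedAddCommGroup Z] [InnerProductSpace ℝ Z] [FiniteDimensional ℝ Z]

/-- symmetric operator -/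
def Sy (T : Z →L[ℝ] Z) : Prop := ∀ v w, ⟪T v, w⟫_ℝ = ⟪v, T w⟫_ℝ

/-- positive definite symmetric operator -/
def PD (T : Z →L[ℝ] Z) : Prop := Sy T ∧ ∀ v, v ≠ 0 → 0 < ⟪T v, v⟫_ℝ

/-- positive semidefinite symmetric operator -/
def PS (T : Z →L[ℝ] Z) : Prop := Sy T ∧ ∀ v, 0 ≤ ⟪T v, v⟫_ℝ

theorem PD.ps {T : Z →L[ℝ] Z} (h : PD T) : PS T := by
  refine ⟨h.1, fun v => ?_⟩
  by_cases hv : v = 0
  · simp [hv]
  · exact (h.2 v hv).le

theorem Sy.isSymm {T : Z →L[ℝ] Z} (h : Sy T) : (T : Z →ₗ[ℝ] Z).IsSymmetric := fun v w => h v w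

/-- the eigenvector expansion of a symmetric operator -/
theorem Sy.exists_basis {T : Z →L[ℝ] Z} (h : Sy T) :
    ∃ (n : ℕ) (e : OrthonormalBasis (Fin n) ℝ Z) (l : Fin n → ℝ), ∀ i, T (e i) = l i • e i := by
  refine ⟨Module.finrank ℝ Z, h.isSymm.eigenvectorBasis rfl, h.isSymm.eigenvalues rfl, fun i => ?_⟩
  exact h.isSymm.apply_eigenvectorBasis rfl i

/-- if `S` is positive definite and `T` is positive semidefinite then `S D + D T = 0` only for
`D = 0` -/
theorem sylvester_inj {S T : Z →L[ℝ] Z} (hS : PD S) (hT : PS T) {D : Z →L[ℝ] Z}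
    (h : ∀ v, S (D v) + D (T v) = 0) : D = 0 := by
  obtain ⟨n, e, l, hl⟩ := hT.1.exists_basis
  have h0 : ∀ i, D (e i) = 0 := by
    intro i
    by_contra hne
    have h1 := hS.2 (D (e i)) hne
    have h2 := h (e i)
    rw [hl i, map_smul] at h2
    have h3 : S (D (e i)) = -(l i • D (e i)) := eq_neg_of_add_eq_zero_left h2
    rw [h3, inner_neg_left, real_inner_smul_left] at h1
    have h4 : 0 ≤ l i := by
      have := hT.2 (e i)
      rw [hl i, real_inner_smul_left, real_inner_self_eq_norm_sq] at this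
      have h5 : ‖e i‖ = 1 := e.norm_eq_one i
      rw [h5] at this; linarith
    have h6 : 0 ≤ ⟪D (e i), D (e i)⟫_ℝ := real_inner_self_nonneg
    nlinarith
  have h1 : (D : Z →ₗ[ℝ] Z) = 0 := by
    apply e.toBasis.ext
    intro i
    simpa using h0 i
  ext v
  have := congrArg (fun f : Z →ₗ[ℝ] Z => f v) h1
  simpa using this

/-- uniqueness of positive square roots (one of them positive definite) -/
theorem sqrt_unique {S T : Z →L[ℝ] Z} (hS : PD S) (hT : PS T) (h : S * S = T * T) : S = T := by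
  have h1 : S - T = 0 := by
    apply sylvester_inj hS hT
    intro v
    have h2 : (S * S) v = (T * T) v := by rw [h]
    simp only [ContinuousLinearMap.mul_apply] at h2
    simp only [ContinuousLinearMap.sub_apply, map_sub]
    rw [h2]; abel
  exact sub_eq_zero.mp h1

open Classical in
/-- the positive square root of a positive semidefinite operator (junk `0` otherwise) -/
noncomputable def psq (T : Z →L[ℝ] Z) : Z →L[ℝ] Z :=
  if h : ∃ S : Z →L[ℝ] Z, PS S ∧ S * S = T then h.choose else 0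

theorem exists_sqrt {T : Z →L[ℝ] Z} (hT : PS T) : ∃ S : Z →L[ℝ] Z, PS S ∧ S * S = T := by
  obtain ⟨n, e, l, hl⟩ := hT.1.exists_basis
  have hl0 : ∀ i, 0 ≤ l i := by
    intro i
    have := hT.2 (e i)
    rw [hl i, real_inner_smul_left, real_inner_self_eq_norm_sq] at this
    have h5 : ‖e i‖ = 1 := e.norm_eq_one i
    rw [h5] at this; linarith
  set S : Z →L[ℝ] Z := ∑ i, (Real.sqrt (l i)) • (innerSL ℝ (e i)).smulRight (e i) with hSdef
  have hSv : ∀ v, S v = ∑ i, (Real.sqrt (l i) * ⟪e i, v⟫_ℝ) • e i := by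
    intro v
    simp [hSdef, ContinuousLinearMap.sum_apply, smul_smul]
  have hSe : ∀ i, S (e i) = Real.sqrt (l i) • e i := by
    intro i
    rw [hSv]
    rw [Finset.sum_eq_single i]
    · rw [real_inner_self_eq_norm_sq, e.norm_eq_one i]; simp
    · intro j _ hj
      have : ⟪e j, e i⟫_ℝ = 0 := e.orthonormal.2 hj
      rw [this]; simp
    · intro h; exact absurd (Finset.mem_univ i) h
  refine ⟨S, ⟨?_, ?_⟩, ?_⟩
  · intro v w
    rw [hSv v, hSv w, sum_inner, inner_sum]
    refine Finset.sum_congr rfl fun i _ => ?_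
    rw [real_inner_smul_left, real_inner_smul_right, real_inner_comm v (e i)]; ring
  · intro v
    rw [hSv v, sum_inner]
    refine Finset.sum_nonneg fun i _ => ?_
    rw [real_inner_smul_left]
    have := mul_nonneg (Real.sqrt_nonneg (l i)) (mul_self_nonneg ⟪e i, v⟫_ℝ)
    linarith [mul_assoc (Real.sqrt (l i)) ⟪e i, v⟫_ℝ ⟪e i, v⟫_ℝ]
  · have h1 : ((S * S : Z →L[ℝ] Z) : Z →ₗ[ℝ] Z) = (T : Z →ₗ[ℝ] Z) := by
      apply e.toBasis.ext
      intro i
      simp only [OrthonormalBasis.coe_toBasis, ContinuousLinearMap.coe_coe,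
        ContinuousLinearMap.mul_apply]
      rw [hSe i, map_smul, hSe i, smul_smul, Real.mul_self_sqrt (hl0 i), hl i]
    ext v
    have := congrArg (fun f : Z →ₗ[ℝ] Z => f v) h1
    simpa using this

theorem psq_ps {T : Z →L[ℝ] Z} (hT : PS T) : PS (psq T) := by
  have h := exists_sqrt hT
  rw [psq, dif_pos h]; exact h.choose_spec.1

theorem psq_mul_self {T : Z →L[ℝ] Z} (hT : PS T) : psq T * psq T = T := by
  have h := exists_sqrt hT
  rw [psq, dif_pos h]; exact h.choose_spec.2

theorem psq_apply_apply {T : Z →L[ℝ] Z} (hT : PS T) (v : Z) : psq T (psq T v) = T v := by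
  have := psq_mul_self hT
  calc psq T (psq T v) = (psq T * psq T) v := rfl
    _ = T v := by rw [this]

theorem norm_psq_sq {T : Z →L[ℝ] Z} (hT : PS T) (v : Z) : ‖psq T v‖ ^ 2 = ⟪T v, v⟫_ℝ := by
  rw [← real_inner_self_eq_norm_sq, (psq_ps hT).1, psq_apply_apply hT, real_inner_comm]

theorem psq_pd {T : Z →L[ℝ] Z} (hT : PD T) : PD (psq T) := by
  refine ⟨(psq_ps hT.ps).1, fun v hv => ?_⟩
  -- the square root has trivial kernel and is positive semidefinite
  have hSps := psq_ps hT.ps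
  generalize hS : psq T = S at hSps ⊢
  rcases (hSps.2 v).lt_or_eq with h | h
  · exact h
  · exfalso
    -- `⟪S v, v⟫ = 0` forces `S v = 0`
    obtain ⟨R, hR, hRR⟩ := exists_sqrt hSps
    have h1 : ‖R v‖ ^ 2 = 0 := by
      have : ⟪S v, v⟫_ℝ = ‖R v‖ ^ 2 := by
        rw [← real_inner_self_eq_norm_sq, ← hRR]
        show ⟪R (R v), v⟫_ℝ = ⟪R v, R v⟫_ℝ
        rw [hR.1]
      rw [← this]; exact h.symm
    have h2 : R v = 0 := by
      have := pow_eq_zero_iff (n := 2) (by norm_num) |>.mp h1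
      exact norm_eq_zero.mp this
    have h3 : S v = 0 := by
      rw [← hRR]; show R (R v) = 0; rw [h2, map_zero]
    have h4 : T v = 0 := by
      rw [← psq_apply_apply hT.ps v, hS, h3, map_zero]
    have h5 := hT.2 v hv
    rw [h4, inner_zero_left] at h5
    exact lt_irrefl _ h5

theorem psq_eq {S T : Z →L[ℝ] Z} (hS : PD S) (h : S * S = T) (hT : PS T) : psq T = S := by
  symm
  apply sqrt_unique hS (psq_ps hT)
  rw [h, psq_mul_self hT]

/-! ### smoothness -/

/-- the Sylvester operator `X ↦ S X + X S` -/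
noncomputable def syl (S : Z →L[ℝ] Z) : (Z →L[ℝ] Z) →L[ℝ] (Z →L[ℝ] Z) :=
  ContinuousLinearMap.mul ℝ (Z →L[ℝ] Z) S + (ContinuousLinearMap.mul ℝ (Z →L[ℝ] Z)).flip S

theorem syl_apply (S X : Z →L[ℝ] Z) : syl S X = S * X + X * S := rfl

theorem syl_injective {S : Z →L[ℝ] Z} (hS : PD S) : Function.Injective (syl S) := by
  rw [injective_iff_map_eq_zero]
  intro X hX
  apply sylvester_inj hS hS.ps
  intro v
  have := congrArg (fun f : Z →L[ℝ] Z => f v) hX
  simpa [syl_apply] using this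

/-- the Sylvester operator as an equivalence -/
noncomputable def sylE {S : Z →L[ℝ] Z} (hS : PD S) : (Z →L[ℝ] Z) ≃L[ℝ] (Z →L[ℝ] Z) :=
  (LinearEquiv.ofInjectiveEndo (syl S : (Z →L[ℝ] Z) →ₗ[ℝ] (Z →L[ℝ] Z))
    (syl_injective hS)).toContinuousLinearEquiv

theorem sylE_apply {S : Z →L[ℝ] Z} (hS : PD S) (X : Z →L[ℝ] Z) : sylE hS X = S * X + X * S := rfl

theorem hasFDerivAt_sq (S : Z →L[ℝ] Z) : HasFDerivAt (fun X : Z →L[ℝ] Z => X * X) (syl S) S := by
  have h := (hasFDerivAt_id (𝕜 := ℝ) S).mul' (hasFDerivAt_id (𝕜 := ℝ) S)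
  refine h.congr_fderiv ?_
  ext X v
  simp [syl_apply]

/-- positivity is stable: near a positive definite symmetric operator, symmetric operators are
positive definite -/
theorem PD.eventually {S : Z →L[ℝ] Z} (hS : PD S) : ∀ᶠ X in 𝓝 S, Sy X → PD X := by
  obtain ⟨n, e, l, hl⟩ := hS.1.exists_basis
  have hlp : ∀ i, 0 < l i := by
    intro i
    have hne : e i ≠ 0 := by
      intro h; have := e.norm_eq_one i; rw [h] at this; simp at this
    have := hS.2 (e i) hne
    rw [hl i, real_inner_smul_left, real_inner_self_eq_norm_sq, e.norm_eq_one i] at this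
    linarith
  obtain ⟨c, hc, hcl⟩ : ∃ c : ℝ, 0 < c ∧ ∀ i, c ≤ l i := by
    rcases isEmpty_or_nonempty (Fin n) with hn | hn
    · exact ⟨1, one_pos, fun i => (hn.false i).elim⟩
    · obtain ⟨i0, hi0⟩ := Finite.exists_min l
      exact ⟨l i0, hlp i0, hi0⟩
  have hlow : ∀ v, c * ‖v‖ ^ 2 ≤ ⟪S v, v⟫_ℝ := by
    intro v
    have h1 : ⟪S v, v⟫_ℝ = ∑ i, l i * ⟪e i, v⟫_ℝ ^ 2 := by
      rw [← e.sum_inner_mul_inner (S v) v]
      refine Finset.sum_congr rfl fun i _ => ?_
      rw [hS.1, hl i, real_inner_smul_right, real_inner_comm v (e i)]; ring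
    rw [h1, ← e.sum_sq_norm_inner_right v, Finset.mul_sum]
    refine Finset.sum_le_sum fun i _ => ?_
    rw [Real.norm_eq_abs, sq_abs]
    exact mul_le_mul_of_nonneg_right (hcl i) (sq_nonneg _)
  filter_upwards [Metric.ball_mem_nhds S hc] with X hX hXs
  refine ⟨hXs, fun v hv => ?_⟩
  have h1 : ‖X - S‖ < c := by simpa [dist_eq_norm] using hX
  have h2 : ⟪X v, v⟫_ℝ = ⟪S v, v⟫_ℝ + ⟪(X - S) v, v⟫_ℝ := by
    rw [ContinuousLinearMap.sub_apply, inner_sub_left]; ring
  have h3 : |⟪(X - S) v, v⟫_ℝ| ≤ ‖X - S‖ * ‖v‖ ^ 2 := by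
    calc |⟪(X - S) v, v⟫_ℝ| ≤ ‖(X - S) v‖ * ‖v‖ := abs_real_inner_le_norm _ _
      _ ≤ (‖X - S‖ * ‖v‖) * ‖v‖ := by gcongr; exact (X - S).le_opNorm v
      _ = ‖X - S‖ * ‖v‖ ^ 2 := by ring
  have h4 : 0 < ‖v‖ ^ 2 := by positivity
  have h5 := abs_le.mp h3
  have h6 := hlow v
  nlinarith

theorem adj_mul_self_eq {X : Z →L[ℝ] Z} :
    ContinuousLinearMap.adjoint (X * X) = ContinuousLinearMap.adjoint X * ContinuousLinearMap.adjoint X :=
  ContinuousLinearMap.adjoint_comp X X

theorem sy_iff {X : Z →L[ℝ] Z} : Sy X ↔ ContinuousLinearMap.adjoint X = X := by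
  constructor
  · intro h
    refine (ContinuousLinearMap.eq_adjoint_iff X X).mpr ?_ |>.symm
    intro v w; exact h v w
  · intro h v w
    conv_rhs => rw [← h]
    rw [ContinuousLinearMap.adjoint_inner_right]

/-- smooth local square root -/
theorem exists_local_sqrt {m : WithTop ℕ∞} (hm : m ≠ 0) {T : Z →L[ℝ] Z} (hT : PD T) :
    ∃ r : (Z →L[ℝ] Z) → (Z →L[ℝ] Z), ContDiffAt ℝ m r T ∧
      ∀ᶠ X in 𝓝 T, Sy X → PD X ∧ r X = psq X := by
  have hS := psq_pd hT
  set S := psq T with hSdef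
  have hSS : S * S = T := psq_mul_self hT.ps
  set f : (Z →L[ℝ] Z) → (Z →L[ℝ] Z) := fun X => X * X with hf
  have hcd : ContDiffAt ℝ m f S := contDiffAt_id.mul contDiffAt_id
  have hder : HasFDerivAt f (sylE hS : (Z →L[ℝ] Z) →L[ℝ] (Z →L[ℝ] Z)) S := by
    have := hasFDerivAt_sq S
    refine this.congr_fderiv ?_
    ext X v; rfl
  refine ⟨hcd.localInverse hder hm, ?_, ?_⟩
  · have := hcd.to_localInverse hder hm
    rwa [show f S = T from hSS] at this
  · have hst : HasStrictFDerivAt f (sylE hS : (Z →L[ℝ] Z) →L[ℝ] (Z →L[ℝ] Z)) S :=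
      hcd.hasStrictFDerivAt' hder hm
    have hr0 : hcd.localInverse hder hm T = S := by
      have := hcd.localInverse_apply_image hder hm
      rwa [show f S = T from hSS] at this
    have hrc : ContinuousAt (hcd.localInverse hder hm) T := by
      have := (hcd.to_localInverse hder hm).continuousAt
      rwa [show f S = T from hSS] at this
    have hright : ∀ᶠ X in 𝓝 T, f (hcd.localInverse hder hm X) = X := by
      have := hst.eventually_right_inverse
      rwa [show f S = T from hSS] at this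
    have hleft : ∀ᶠ Y in 𝓝 S, hcd.localInverse hder hm (f Y) = Y :=
      hst.eventually_left_inverse
    -- adjoint of the root is near `S`
    have hadj : Tendsto (fun X => ContinuousLinearMap.adjoint (hcd.localInverse hder hm X))
        (𝓝 T) (𝓝 S) := by
      have h1 : Tendsto (fun Y : Z →L[ℝ] Z => ContinuousLinearMap.adjoint Y) (𝓝 S)
          (𝓝 (ContinuousLinearMap.adjoint S)) :=
        (ContinuousLinearMap.adjoint (𝕜 := ℝ) (E := Z) (F := Z)).continuous.continuousAt
      rw [sy_iff.mp hS.1] at h1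
      have h2 : Tendsto (hcd.localInverse hder hm) (𝓝 T) (𝓝 S) := by
        have := hrc.tendsto; rwa [hr0] at this
      exact h1.comp h2
    have hrT : Tendsto (hcd.localInverse hder hm) (𝓝 T) (𝓝 S) := by
      have := hrc.tendsto; rwa [hr0] at this
    filter_upwards [hT.eventually, hright, hadj.eventually hleft, hrT.eventually hleft,
      hrT.eventually hS.eventually] with X h1 h2 h3 h4 h5 hX
    have hPD := h1 hX
    refine ⟨hPD, ?_⟩
    have h6 : f (ContinuousLinearMap.adjoint (hcd.localInverse hder hm X)) = X := by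
      show _ * _ = X
      rw [← adj_mul_self_eq]
      have : hcd.localInverse hder hm X * hcd.localInverse hder hm X = X := h2
      rw [this, sy_iff.mp hX]
    have h7 : ContinuousLinearMap.adjoint (hcd.localInverse hder hm X) =
        hcd.localInverse hder hm X := by
      rw [← h3, h6]
    have h8 : PD (hcd.localInverse hder hm X) := h5 (sy_iff.mpr h7)
    exact (psq_eq h8 h2 hPD.ps).symm

/-- the positive square root depends smoothly on parameters -/
theorem contDiffAt_psq {P : Type*} [NormedAddCommGroup P] [NormedSpace ℝ P] {m : WithTop ℕ∞}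
    (hm : m ≠ 0) {K : P → (Z →L[ℝ] Z)} {b : P} (hK : ContDiffAt ℝ m K b)
    (hs : ∀ᶠ b' in 𝓝 b, Sy (K b')) (hp : PD (K b)) : ContDiffAt ℝ m (fun b' => psq (K b')) b := by
  obtain ⟨r, hr, hr2⟩ := exists_local_sqrt hm hp
  have h1 : ContDiffAt ℝ m (fun b' => r (K b')) b := hr.comp b hK
  refine h1.congr_of_eventuallyEq ?_
  filter_upwards [hK.continuousAt.eventually hr2, hs] with b' h2 h3
  exact (h2 h3).2.symm

end Crest.Agent.R330.SqrtPD984
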