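import Mathlib
import Crest.Agent.R330.SqrtPD_984

/-!
Parameter dependent Gaussian `G g A z = (g/π)^(d/4) |det A^(1/2)|^(1/2) exp(-(g/2)⟨A z, z⟩)` on a
finite-dimensional real inner product space `Z` (the bosonic factor of the heavy vacuum): it is
normalised in `L²(dz)`, smooth in the parameter, with moments, tails and derivative bounds.
-/

set_option autoImplicit false
set_option linter.unusedSectionVars false
set_option linter.deprecated false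

namespace Crest.Agent.R330.GPar984

open Topology Filter MeasureTheory
open scoped InnerProductSpace ContDiff Real
open Crest.Agent.R330.SqrtPD984

section basic

variable {Z : Type*} [NormedAddCommGroup Z] [InnerProductSpace ℝ Z] [FiniteDimensional ℝ Z]

/-- determinant of an operator -/
noncomputable def dt (T : Z →L[ℝ] Z) : ℝ := LinearMap.det (T : Z →ₗ[ℝ] Z)

theorem contDiff_dt {m : WithTop ℕ∞} : ContDiff ℝ m (dt : (Z →L[ℝ] Z) → ℝ) := by
  classical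
  set e := (stdOrthonormalBasis ℝ Z).toBasis with he
  have h1 : (dt : (Z →L[ℝ] Z) → ℝ) = fun T =>
      ∑ σ : Equiv.Perm (Fin (Module.finrank ℝ Z)), ((Equiv.Perm.sign σ : ℤ) : ℝ) *
        ∏ i, e.repr (T (e i)) (σ i) := by
    funext T
    rw [dt, ← LinearMap.det_toMatrix e, Matrix.det_apply]
    refine Finset.sum_congr rfl fun σ _ => ?_
    rw [Units.smul_def, zsmul_eq_mul]
    congr 1
    refine Finset.prod_congr rfl fun i _ => ?_
    rw [LinearMap.toMatrix_apply]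
    rfl
  rw [h1]
  refine ContDiff.sum fun σ _ => contDiff_const.mul (contDiff_prod fun i _ => ?_)
  have h2 : (fun T : Z →L[ℝ] Z => e.repr (T (e i)) (σ i)) =
      ((LinearMap.toContinuousLinearMap
        ({ toFun := fun T : Z →L[ℝ] Z => e.repr (T (e i)) (σ i)
           map_add' := by intro a b; simp
           map_smul' := by intro a b; simp } : (Z →L[ℝ] Z) →ₗ[ℝ] ℝ) : (Z →L[ℝ] Z) →L[ℝ] ℝ) :
          (Z →L[ℝ] Z) → ℝ) := rfl
  rw [h2]
  exact ContinuousLinearMap.contDiff _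

theorem dt_ne_zero {S : Z →L[ℝ] Z} (hS : PD S) : dt S ≠ 0 := by
  have hinj : Function.Injective (S : Z →ₗ[ℝ] Z) := by
    rw [injective_iff_map_eq_zero]
    intro v hv
    by_contra hne
    have h1 := hS.2 v hne
    have h2 : S v = 0 := hv
    rw [h2, inner_zero_left] at h1
    exact lt_irrefl _ h1
  have h2 : IsUnit (S : Z →ₗ[ℝ] Z) := by
    rw [Module.End.isUnit_iff]
    exact ⟨hinj, (LinearMap.injective_iff_surjective).mp hinj⟩
  exact (h2.map LinearMap.det).ne_zero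

/-- uniform lower bound of a positive definite operator -/
theorem PD.exists_low {A : Z →L[ℝ] Z} (hA : PD A) :
    ∃ a : ℝ, 0 < a ∧ ∀ v, a * ‖v‖ ^ 2 ≤ ⟪A v, v⟫_ℝ := by
  obtain ⟨n, e, l, hl⟩ := hA.1.exists_basis
  have hlp : ∀ i, 0 < l i := by
    intro i
    have hne : e i ≠ 0 := by
      intro h; have := e.norm_eq_one i; rw [h] at this; simp at this
    have := hA.2 (e i) hne
    rw [hl i, real_inner_smul_left, real_inner_self_eq_norm_sq, e.norm_eq_one i] at this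
    linarith
  obtain ⟨c, hc, hcl⟩ : ∃ c : ℝ, 0 < c ∧ ∀ i, c ≤ l i := by
    rcases isEmpty_or_nonempty (Fin n) with hn | hn
    · exact ⟨1, one_pos, fun i => (hn.false i).elim⟩
    · obtain ⟨i0, hi0⟩ := Finite.exists_min l
      exact ⟨l i0, hlp i0, hi0⟩
  refine ⟨c, hc, fun v => ?_⟩
  have h1 : ⟪A v, v⟫_ℝ = ∑ i, l i * ⟪e i, v⟫_ℝ ^ 2 := by
    rw [← e.sum_inner_mul_inner (A v) v]
    refine Finset.sum_congr rfl fun i _ => ?_
    rw [hA.1, hl i, real_inner_smul_right, real_inner_comm v (e i)]; ring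
  rw [h1, ← e.sum_sq_norm_inner_right v, Finset.mul_sum]
  refine Finset.sum_le_sum fun i _ => ?_
  rw [Real.norm_eq_abs, sq_abs]
  exact mul_le_mul_of_nonneg_right (hcl i) (sq_nonneg _)

theorem quad_sub_le (A B : Z →L[ℝ] Z) (v : Z) :
    |⟪A v, v⟫_ℝ - ⟪B v, v⟫_ℝ| ≤ ‖A - B‖ * ‖v‖ ^ 2 := by
  have h2 : ⟪A v, v⟫_ℝ - ⟪B v, v⟫_ℝ = ⟪(A - B) v, v⟫_ℝ := by
    rw [ContinuousLinearMap.sub_apply, inner_sub_left]
  rw [h2]
  calc |⟪(A - B) v, v⟫_ℝ| ≤ ‖(A - B) v‖ * ‖v‖ := abs_real_inner_le_norm _ _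
    _ ≤ (‖A - B‖ * ‖v‖) * ‖v‖ := by gcongr; exact (A - B).le_opNorm v
    _ = ‖A - B‖ * ‖v‖ ^ 2 := by ring

/-- the lower bound is locally uniform -/
theorem PD.eventually_low {A : Z →L[ℝ] Z} (hA : PD A) :
    ∃ a : ℝ, 0 < a ∧ ∀ᶠ B in 𝓝 A, ∀ v, a * ‖v‖ ^ 2 ≤ ⟪B v, v⟫_ℝ := by
  obtain ⟨a, ha, h⟩ := PD.exists_low hA
  refine ⟨a / 2, by positivity, ?_⟩
  filter_upwards [Metric.ball_mem_nhds A (half_pos ha)] with B hB v
  have h1 : ‖B - A‖ < a / 2 := by simpa [dist_eq_norm] using hB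
  have h2 := abs_le.mp (quad_sub_le B A v)
  have h3 := h v
  have h4 : ‖B - A‖ * ‖v‖ ^ 2 ≤ a / 2 * ‖v‖ ^ 2 := by gcongr
  nlinarith [h2.1]

theorem quad_le (A : Z →L[ℝ] Z) (v : Z) : |⟪A v, v⟫_ℝ| ≤ ‖A‖ * ‖v‖ ^ 2 := by
  have := quad_sub_le A 0 v
  simpa using this

end basic

section gauss

variable {Z : Type*} [NormedAddCommGroup Z] [InnerProductSpace ℝ Z] [FiniteDimensional ℝ Z]
  [MeasurableSpace Z] [BorelSpace Z]

theorem integrable_gauss {c : ℝ} (hc : 0 < c) : Integrable (fun z : Z => Real.exp (-c * ‖z‖ ^ 2)) := by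
  have h := (GaussianFourier.integrable_cexp_neg_mul_sq_norm_add (V := Z) (b := (c : ℂ))
    (by simpa using hc) 0 (0 : Z)).norm
  refine h.congr (ae_of_all _ fun z => ?_)
  show ‖Complex.exp _‖ = _
  rw [Complex.norm_exp]
  congr 1
  simp [← Complex.ofReal_pow]

theorem pow_mul_exp_le (k : ℕ) {c : ℝ} (hc : 0 < c) :
    ∃ C : ℝ, 0 ≤ C ∧ ∀ t : ℝ, 0 ≤ t → t ^ k * Real.exp (-c * t) ≤ C := by
  refine ⟨(k.factorial : ℝ) / c ^ k, by positivity, fun t ht => ?_⟩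
  have h1 : (c * t) ^ k / (k.factorial : ℝ) ≤ Real.exp (c * t) :=
    Real.pow_div_factorial_le_exp (c * t) (by positivity) k
  have h2 : t ^ k ≤ (k.factorial : ℝ) / c ^ k * Real.exp (c * t) := by
    have h3 : 0 < c ^ k := by positivity
    have h4 : 0 < (k.factorial : ℝ) := by positivity
    rw [mul_pow] at h1
    rw [div_le_iff₀ h4] at h1
    rw [div_mul_eq_mul_div, le_div_iff₀ h3]
    nlinarith
  calc t ^ k * Real.exp (-c * t) ≤ ((k.factorial : ℝ) / c ^ k * Real.exp (c * t)) *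
        Real.exp (-c * t) := by gcongr
    _ = (k.factorial : ℝ) / c ^ k := by
        rw [mul_assoc, ← Real.exp_add]; simp

/-- a function with polynomial growth is integrable against a Gaussian -/
theorem integrable_poly_gauss (k : ℕ) {c : ℝ} (hc : 0 < c) :
    Integrable (fun z : Z => ‖z‖ ^ k * Real.exp (-c * ‖z‖ ^ 2)) := by
  obtain ⟨C, hC0, hC⟩ := pow_mul_exp_le k (c := c / 2) (by positivity)
  have hb : ∀ z : Z, ‖z‖ ^ k * Real.exp (-c * ‖z‖ ^ 2) ≤ (C + 1) * Real.exp (-(c / 2) * ‖z‖ ^ 2) := by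
    intro z
    have h1 : Real.exp (-c * ‖z‖ ^ 2) =
        Real.exp (-(c / 2) * ‖z‖ ^ 2) * Real.exp (-(c / 2) * ‖z‖ ^ 2) := by
      rw [← Real.exp_add]; ring_nf
    rw [h1, ← mul_assoc]
    refine mul_le_mul_of_nonneg_right ?_ (Real.exp_pos _).le
    by_cases hz : ‖z‖ ≤ 1
    · have h2 : ‖z‖ ^ k ≤ 1 := pow_le_one₀ (norm_nonneg _) hz
      have h3 : Real.exp (-(c / 2) * ‖z‖ ^ 2) ≤ 1 := by
        rw [Real.exp_le_one_iff]
        have : 0 ≤ c / 2 * ‖z‖ ^ 2 := by positivity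
        linarith
      have : ‖z‖ ^ k * Real.exp (-(c / 2) * ‖z‖ ^ 2) ≤ 1 * 1 :=
        mul_le_mul h2 h3 (Real.exp_pos _).le zero_le_one
      linarith
    · push Not at hz
      have h2 : ‖z‖ ^ k ≤ (‖z‖ ^ 2) ^ k := by
        rw [← pow_mul]
        exact pow_le_pow_right₀ hz.le (by omega)
      have h3 := hC (‖z‖ ^ 2) (by positivity)
      calc ‖z‖ ^ k * Real.exp (-(c / 2) * ‖z‖ ^ 2) ≤ (‖z‖ ^ 2) ^ k *
            Real.exp (-(c / 2) * ‖z‖ ^ 2) := by gcongr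
        _ ≤ C := h3
        _ ≤ C + 1 := by linarith
  refine Integrable.mono' ((integrable_gauss (Z := Z) (c := c / 2) (by positivity)).const_mul (C + 1))
    ?_ (ae_of_all _ fun z => ?_)
  · exact (by fun_prop : Continuous fun z : Z => ‖z‖ ^ k * Real.exp (-c * ‖z‖ ^ 2)).aestronglyMeasurable
  · rw [Real.norm_of_nonneg (by positivity)]
    exact hb z

/-- the Gaussian integral of a quadratic form -/
theorem integral_exp_quad {A : Z →L[ℝ] Z} (hA : PD A) {c : ℝ} (hc : 0 < c) :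
    ∫ z : Z, Real.exp (-c * ⟪A z, z⟫_ℝ) =
      (π / c) ^ (Module.finrank ℝ Z / 2 : ℝ) / |dt (psq A)| := by
  have hS := psq_pd hA
  have hdet : LinearMap.det ((psq A : Z →L[ℝ] Z) : Z →ₗ[ℝ] Z) ≠ 0 := dt_ne_zero hS
  have h1 : (fun z : Z => Real.exp (-c * ⟪A z, z⟫_ℝ)) =
      fun z => Real.exp (-c * ‖((psq A : Z →L[ℝ] Z) : Z →ₗ[ℝ] Z) z‖ ^ 2) := by
    funext z
    show _ = Real.exp (-c * ‖psq A z‖ ^ 2)
    rw [norm_psq_sq hA.ps]
  rw [h1]
  have h2 : ∫ z : Z, Real.exp (-c * ‖((psq A : Z →L[ℝ] Z) : Z →ₗ[ℝ] Z) z‖ ^ 2) =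
      ∫ y, Real.exp (-c * ‖y‖ ^ 2)
        ∂(Measure.map ((psq A : Z →L[ℝ] Z) : Z →ₗ[ℝ] Z) (volume : Measure Z)) := by
    rw [integral_map]
    · exact (psq A).continuous.measurable.aemeasurable
    · exact (by fun_prop : Continuous fun y : Z => Real.exp (-c * ‖y‖ ^ 2)).aestronglyMeasurable
  rw [h2, Measure.map_linearMap_addHaar_eq_smul_addHaar _ hdet, integral_smul_measure,
    GaussianFourier.integral_rexp_neg_mul_sq_norm hc, ENNReal.toReal_ofReal (abs_nonneg _), abs_inv,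
    smul_eq_mul, inv_mul_eq_div]
  rfl

/-- the parameter dependent Gaussian -/
noncomputable def G (g : ℝ) (A : Z →L[ℝ] Z) (z : Z) : ℝ :=
  (g / π) ^ (Module.finrank ℝ Z / 4 : ℝ) * Real.sqrt |dt (psq A)| *
    Real.exp (-(g / 2) * ⟪A z, z⟫_ℝ)

theorem G_pos {g : ℝ} (hg : 0 < g) {A : Z →L[ℝ] Z} (hA : PD A) (z : Z) : 0 < G g A z := by
  have h1 : 0 < |dt (psq A)| := abs_pos.mpr (dt_ne_zero (psq_pd hA))
  unfold G
  positivity

theorem G_sq {g : ℝ} (hg : 0 < g) (A : Z →L[ℝ] Z) (z : Z) :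
    G g A z ^ 2 = (g / π) ^ (Module.finrank ℝ Z / 2 : ℝ) * |dt (psq A)| *
      Real.exp (-g * ⟪A z, z⟫_ℝ) := by
  have hgp : 0 < g / π := by positivity
  unfold G
  rw [mul_pow, mul_pow, Real.sq_sqrt (abs_nonneg _), ← Real.exp_nat_mul, ← Real.rpow_natCast,
    ← Real.rpow_mul hgp.le]
  congr 2
  · congr 1
    push_cast; ring
  · push_cast; ring

theorem continuous_G (g : ℝ) (A : Z →L[ℝ] Z) : Continuous (G g A) := by
  unfold G
  fun_prop

/-- normalisation -/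
theorem integral_G_sq {g : ℝ} (hg : 0 < g) {A : Z →L[ℝ] Z} (hA : PD A) :
    ∫ z : Z, G g A z ^ 2 = 1 := by
  have hd : |dt (psq A)| ≠ 0 := (abs_pos.mpr (dt_ne_zero (psq_pd hA))).ne'
  simp_rw [G_sq hg]
  rw [integral_const_mul, integral_exp_quad hA hg]
  have h1 : (g / π) ^ (Module.finrank ℝ Z / 2 : ℝ) * (π / g) ^ (Module.finrank ℝ Z / 2 : ℝ) = 1 := by
    rw [← Real.mul_rpow (by positivity) (by positivity)]
    have : g / π * (π / g) = 1 := by field_simp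
    rw [this, Real.one_rpow]
  calc _ = ((g / π) ^ (Module.finrank ℝ Z / 2 : ℝ) * (π / g) ^ (Module.finrank ℝ Z / 2 : ℝ)) *
        (|dt (psq A)| / |dt (psq A)|) := by ring
    _ = 1 := by rw [h1, div_self hd, one_mul]

/-! ### uniform bounds: `a ‖z‖² ≤ ⟪A z, z⟫`, `|dt (psq A)| ≤ K` -/

/-- uniform bound class -/
def UB (a K : ℝ) (A : Z →L[ℝ] Z) : Prop :=
  PD A ∧ (∀ v, a * ‖v‖ ^ 2 ≤ ⟪A v, v⟫_ℝ) ∧ |dt (psq A)| ≤ K

theorem UB.sq_le {a K g : ℝ} (hg : 0 < g) {A : Z →L[ℝ] Z} (h : UB a K A) (z : Z) :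
    G g A z ^ 2 ≤ (g / π) ^ (Module.finrank ℝ Z / 2 : ℝ) * K * Real.exp (-(g * a) * ‖z‖ ^ 2) := by
  rw [G_sq hg]
  have h1 : Real.exp (-g * ⟪A z, z⟫_ℝ) ≤ Real.exp (-(g * a) * ‖z‖ ^ 2) := by
    apply Real.exp_le_exp.mpr
    have := mul_le_mul_of_nonneg_left (h.2.1 z) hg.le
    linarith
  have h2 : 0 ≤ (g / π) ^ (Module.finrank ℝ Z / 2 : ℝ) := by positivity
  calc _ ≤ (g / π) ^ (Module.finrank ℝ Z / 2 : ℝ) * K * Real.exp (-g * ⟪A z, z⟫_ℝ) := by
        have := mul_le_mul_of_nonneg_left h.2.2 h2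
        exact mul_le_mul_of_nonneg_right this (Real.exp_pos _).le
    _ ≤ _ := by
        have hK : 0 ≤ K := (abs_nonneg _).trans h.2.2
        exact mul_le_mul_of_nonneg_left h1 (mul_nonneg h2 hK)

theorem integrable_mul_G_sq {a K g : ℝ} (ha : 0 < a) (hg : 0 < g) {A : Z →L[ℝ] Z} (h : UB a K A)
    (k : ℕ) : Integrable (fun z : Z => (g * ‖z‖ ^ 2) ^ k * G g A z ^ 2) := by
  have h1 := (integrable_poly_gauss (Z := Z) (2 * k) (c := g * a) (by positivity)).const_mul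
    (g ^ k * ((g / π) ^ (Module.finrank ℝ Z / 2 : ℝ) * K))
  refine Integrable.mono' h1 ?_ (ae_of_all _ fun z => ?_)
  · have := continuous_G g A
    exact (by fun_prop : Continuous fun z : Z => (g * ‖z‖ ^ 2) ^ k * G g A z ^ 2).aestronglyMeasurable
  · rw [Real.norm_of_nonneg (by positivity)]
    have h2 := h.sq_le hg z
    have h3 : 0 ≤ (g * ‖z‖ ^ 2) ^ k := by positivity
    calc (g * ‖z‖ ^ 2) ^ k * G g A z ^ 2 ≤ (g * ‖z‖ ^ 2) ^ k *
          ((g / π) ^ (Module.finrank ℝ Z / 2 : ℝ) * K * Real.exp (-(g * a) * ‖z‖ ^ 2)) :=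
          mul_le_mul_of_nonneg_left h2 h3
      _ = _ := by rw [mul_pow, ← pow_mul]; ring

/-- all moments are bounded, uniformly in `g > 0` and in the class `UB a K` -/
theorem moment_le (a K : ℝ) (ha : 0 < a) (k : ℕ) :
    ∃ C : ℝ, 0 ≤ C ∧ ∀ g : ℝ, 0 < g → ∀ A : Z →L[ℝ] Z, UB a K A →
      ∫ z : Z, (g * ‖z‖ ^ 2) ^ k * G g A z ^ 2 ≤ C := by
  set I : ℝ := ∫ w : Z, (‖w‖ ^ 2) ^ k * Real.exp (-a * ‖w‖ ^ 2) with hI
  have hI0 : 0 ≤ I := integral_nonneg fun w => by positivity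
  refine ⟨(1 / π) ^ (Module.finrank ℝ Z / 2 : ℝ) * |K| * I, by positivity, fun g hg A hA => ?_⟩
  set R : ℝ := Real.sqrt g with hR
  have hRR : R ^ 2 = g := Real.sq_sqrt hg.le
  have hRp : 0 < R := Real.sqrt_pos.mpr hg
  have hsc : ∫ z : Z, (‖R • z‖ ^ 2) ^ k * Real.exp (-a * ‖R • z‖ ^ 2) =
      |(R ^ Module.finrank ℝ Z)⁻¹| • I :=
    Measure.integral_comp_smul (volume : Measure Z)
      (fun w : Z => (‖w‖ ^ 2) ^ k * Real.exp (-a * ‖w‖ ^ 2)) R
  have hnorm : ∀ z : Z, ‖R • z‖ ^ 2 = g * ‖z‖ ^ 2 := by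
    intro z
    rw [norm_smul, mul_pow, Real.norm_eq_abs, sq_abs, hRR]
  simp_rw [hnorm] at hsc
  have hK : 0 ≤ K := (abs_nonneg _).trans hA.2.2
  have hR2 : R ^ Module.finrank ℝ Z = g ^ (Module.finrank ℝ Z / 2 : ℝ) := by
    rw [← Real.rpow_natCast, hR, Real.sqrt_eq_rpow, ← Real.rpow_mul hg.le]
    congr 1; ring
  have hint : Integrable (fun z : Z => (g / π) ^ (Module.finrank ℝ Z / 2 : ℝ) * K *
      ((g * ‖z‖ ^ 2) ^ k * Real.exp (-a * (g * ‖z‖ ^ 2)))) := by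
    have h1 := (integrable_poly_gauss (Z := Z) (2 * k) (c := g * a) (by positivity)).const_mul
      (g ^ k)
    refine (h1.const_mul ((g / π) ^ (Module.finrank ℝ Z / 2 : ℝ) * K)).congr
      (ae_of_all _ fun z => ?_)
    simp only
    rw [mul_pow, ← pow_mul]
    ring_nf
  calc ∫ z : Z, (g * ‖z‖ ^ 2) ^ k * G g A z ^ 2
      ≤ ∫ z : Z, (g / π) ^ (Module.finrank ℝ Z / 2 : ℝ) * K *
          ((g * ‖z‖ ^ 2) ^ k * Real.exp (-a * (g * ‖z‖ ^ 2))) := by
        refine integral_mono (integrable_mul_G_sq ha hg hA k) hint fun z => ?_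
        have h2 := hA.sq_le hg z
        have h3 : 0 ≤ (g * ‖z‖ ^ 2) ^ k := by positivity
        have h4 : Real.exp (-(g * a) * ‖z‖ ^ 2) = Real.exp (-a * (g * ‖z‖ ^ 2)) := by ring_nf
        rw [h4] at h2
        calc (g * ‖z‖ ^ 2) ^ k * G g A z ^ 2 ≤ (g * ‖z‖ ^ 2) ^ k *
              ((g / π) ^ (Module.finrank ℝ Z / 2 : ℝ) * K * Real.exp (-a * (g * ‖z‖ ^ 2))) :=
              mul_le_mul_of_nonneg_left h2 h3
          _ = _ := by ring
    _ = (g / π) ^ (Module.finrank ℝ Z / 2 : ℝ) * K * (|(R ^ Module.finrank ℝ Z)⁻¹| * I) := by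
        rw [integral_const_mul, hsc, smul_eq_mul]
    _ = (1 / π) ^ (Module.finrank ℝ Z / 2 : ℝ) * K * I := by
        rw [hR2, abs_of_pos (by positivity)]
        have h5 : (g / π) ^ (Module.finrank ℝ Z / 2 : ℝ) =
            g ^ (Module.finrank ℝ Z / 2 : ℝ) * (1 / π) ^ (Module.finrank ℝ Z / 2 : ℝ) := by
          rw [← Real.mul_rpow (by positivity) (by positivity)]
          congr 1; ring
        rw [h5]
        have h6 : 0 < g ^ (Module.finrank ℝ Z / 2 : ℝ) := by positivity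
        field_simp
    _ ≤ _ := by
        rw [abs_of_nonneg hK]

/-- tails: arbitrary powers of `1/(g δ²)` -/
theorem tail_le (a K : ℝ) (ha : 0 < a) (k l : ℕ) :
    ∃ C : ℝ, 0 ≤ C ∧ ∀ g : ℝ, 0 < g → ∀ δ : ℝ, 0 < δ → ∀ A : Z →L[ℝ] Z, UB a K A →
      ∫ z in {z : Z | δ ≤ ‖z‖}, (g * ‖z‖ ^ 2) ^ k * G g A z ^ 2 ≤ C * (g * δ ^ 2)⁻¹ ^ l := by
  obtain ⟨C, hC0, hC⟩ := moment_le (Z := Z) a K ha (k + l)
  refine ⟨C, hC0, fun g hg δ hδ A hA => ?_⟩
  have hmeas : MeasurableSet {z : Z | δ ≤ ‖z‖} := measurableSet_le measurable_const measurable_norm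
  have hi := integrable_mul_G_sq ha hg hA (k + l)
  calc ∫ z in {z : Z | δ ≤ ‖z‖}, (g * ‖z‖ ^ 2) ^ k * G g A z ^ 2
      ≤ ∫ z in {z : Z | δ ≤ ‖z‖}, ((g * ‖z‖ ^ 2) ^ (k + l) * G g A z ^ 2) * (g * δ ^ 2)⁻¹ ^ l := by
        refine setIntegral_mono_on (integrable_mul_G_sq ha hg hA k).integrableOn
          (hi.mul_const _).integrableOn hmeas fun z hz => ?_
        have hz' : δ ≤ ‖z‖ := hz
        have h1 : 1 ≤ (g * ‖z‖ ^ 2) * (g * δ ^ 2)⁻¹ := by
          rw [← div_eq_mul_inv, le_div_iff₀ (by positivity), one_mul]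
          gcongr
        have h2 : 1 ≤ ((g * ‖z‖ ^ 2) * (g * δ ^ 2)⁻¹) ^ l := one_le_pow₀ h1
        have h3 : 0 ≤ (g * ‖z‖ ^ 2) ^ k * G g A z ^ 2 := by positivity
        calc (g * ‖z‖ ^ 2) ^ k * G g A z ^ 2
            ≤ ((g * ‖z‖ ^ 2) ^ k * G g A z ^ 2) * ((g * ‖z‖ ^ 2) * (g * δ ^ 2)⁻¹) ^ l :=
              le_mul_of_one_le_right h3 h2
          _ = _ := by rw [mul_pow, pow_add]; ring
    _ ≤ ∫ z : Z, ((g * ‖z‖ ^ 2) ^ (k + l) * G g A z ^ 2) * (g * δ ^ 2)⁻¹ ^ l := by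
        refine setIntegral_le_integral (hi.mul_const _) (ae_of_all _ fun z => ?_)
        show (0 : ℝ) ≤ _
        positivity
    _ = (∫ z : Z, (g * ‖z‖ ^ 2) ^ (k + l) * G g A z ^ 2) * (g * δ ^ 2)⁻¹ ^ l := by
        rw [integral_mul_const]
    _ ≤ C * (g * δ ^ 2)⁻¹ ^ l := by
        have := hC g hg A hA
        gcongr

/-! ### derivatives in `z` -/

theorem hasFDerivAt_quad {A : Z →L[ℝ] Z} (hA : Sy A) (z : Z) :
    HasFDerivAt (fun z : Z => ⟪A z, z⟫_ℝ) ((2 : ℝ) • innerSL ℝ (A z)) z := by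
  have h := (A.hasFDerivAt (x := z)).inner ℝ (hasFDerivAt_id z)
  refine h.congr_fderiv ?_
  ext v
  simp only [ContinuousLinearMap.smul_apply, innerSL_apply_apply, smul_eq_mul]
  show ⟪A z, v⟫_ℝ + ⟪A v, z⟫_ℝ = 2 * ⟪A z, v⟫_ℝ
  rw [hA v z, real_inner_comm (A z) v]; ring

theorem hasFDerivAt_G (g : ℝ) {A : Z →L[ℝ] Z} (hA : Sy A) (z : Z) :
    HasFDerivAt (G g A) ((-(g * G g A z)) • innerSL ℝ (A z)) z := by
  have h := ((hasFDerivAt_quad hA z).const_mul (-(g / 2))).exp.const_mul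
    ((g / π) ^ (Module.finrank ℝ Z / 4 : ℝ) * Real.sqrt |dt (psq A)|)
  refine h.congr_fderiv ?_
  ext v
  simp only [ContinuousLinearMap.smul_apply, innerSL_apply_apply, smul_eq_mul, G]
  ring

/-- second moments: `2 g ∫ ⟪u, z⟫ ⟪A z, v⟫ G² = ⟪u, v⟫` -/
theorem second_moment {g : ℝ} (hg : 0 < g) {A : Z →L[ℝ] Z} (hA : PD A) (u v : Z) :
    ∫ z : Z, ⟪u, z⟫_ℝ * ⟪A z, v⟫_ℝ * G g A z ^ 2 = ⟪u, v⟫_ℝ / (2 * g) := by
  obtain ⟨a, ha, hlow⟩ := PD.exists_low hA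
  have hUB : UB a |dt (psq A)| A := ⟨hA, hlow, le_rfl⟩
  have hcG := continuous_G g A
  have hi0 := integrable_mul_G_sq ha hg hUB 0
  have hi1 := integrable_mul_G_sq ha hg hUB 1
  have hbd : ∀ (B : Z → ℝ), Continuous B → (∀ z, |B z| ≤ (‖u‖ * ‖v‖ + ‖u‖ * ‖A‖ * ‖v‖ + ‖u‖) *
      (1 + ‖z‖ ^ 2)) → Integrable (fun z => B z * G g A z ^ 2) := by
    intro B hB hle
    have h1 : Integrable (fun z : Z => (‖u‖ * ‖v‖ + ‖u‖ * ‖A‖ * ‖v‖ + ‖u‖) *
        ((g * ‖z‖ ^ 2) ^ 0 * G g A z ^ 2 + g⁻¹ * ((g * ‖z‖ ^ 2) ^ 1 * G g A z ^ 2))) :=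
      (hi0.add (hi1.const_mul _)).const_mul _
    refine h1.mono' (hB.mul (hcG.pow 2)).aestronglyMeasurable (ae_of_all _ fun z => ?_)
    rw [norm_mul, Real.norm_eq_abs, Real.norm_of_nonneg (sq_nonneg (G g A z))]
    calc |B z| * G g A z ^ 2 ≤ ((‖u‖ * ‖v‖ + ‖u‖ * ‖A‖ * ‖v‖ + ‖u‖) * (1 + ‖z‖ ^ 2)) *
          G g A z ^ 2 := mul_le_mul_of_nonneg_right (hle z) (sq_nonneg _)
      _ = _ := by field_simp
  have hder : ∀ z : Z, HasFDerivAt (fun z => G g A z ^ 2)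
      ((-(2 * g * G g A z ^ 2)) • innerSL ℝ (A z)) z := by
    intro z
    have h := (hasFDerivAt_G g hA.1 z).pow 2
    refine h.congr_fderiv ?_
    ext w
    simp only [ContinuousLinearMap.smul_apply, innerSL_apply_apply, smul_eq_mul]
    push_cast
    ring
  have hu : ∀ z : Z, HasFDerivAt (fun z : Z => ⟪u, z⟫_ℝ) (innerSL ℝ u) z := fun z =>
    (innerSL ℝ u).hasFDerivAt
  have key := integral_bilinear_hasFDerivAt_right_eq_neg_left_of_integrable
    (μ := (volume : Measure Z)) (B := ContinuousLinearMap.mul ℝ ℝ) (v := v)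
    (f := fun z : Z => ⟪u, z⟫_ℝ) (f' := fun _ => innerSL ℝ u)
    (g := fun z => G g A z ^ 2) (g' := fun z => (-(2 * g * G g A z ^ 2)) • innerSL ℝ (A z))
    ?_ ?_ ?_ (fun z _ => hu z) (fun z _ => hder z)
  · simp only [ContinuousLinearMap.mul_apply', ContinuousLinearMap.smul_apply, innerSL_apply_apply,
      smul_eq_mul] at key
    have h1 : ∫ z : Z, ⟪u, z⟫_ℝ * (-(2 * g * G g A z ^ 2) * ⟪A z, v⟫_ℝ) =
        -(2 * g) * ∫ z : Z, ⟪u, z⟫_ℝ * ⟪A z, v⟫_ℝ * G g A z ^ 2 := by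
      rw [← integral_const_mul]
      congr 1; funext z; ring
    rw [h1, integral_const_mul, integral_G_sq hg hA] at key
    have h2 : (2 * g) ≠ 0 := by positivity
    rw [eq_div_iff h2]
    linarith
  · simp only [ContinuousLinearMap.mul_apply', innerSL_apply_apply]
    refine hbd (fun _ => ⟪u, v⟫_ℝ) continuous_const fun z => ?_
    have h1 := abs_real_inner_le_norm u v
    have h2 : 0 ≤ ‖u‖ * ‖A‖ * ‖v‖ + ‖u‖ := by positivity
    have h3 : 0 ≤ ‖z‖ ^ 2 := by positivity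
    nlinarith [mul_nonneg (norm_nonneg u) (norm_nonneg v)]
  · simp only [ContinuousLinearMap.mul_apply', ContinuousLinearMap.smul_apply, innerSL_apply_apply,
      smul_eq_mul]
    have h1 : Integrable (fun z => (⟪u, z⟫_ℝ * ⟪A z, v⟫_ℝ) * G g A z ^ 2) := by
      refine hbd (fun z => ⟪u, z⟫_ℝ * ⟪A z, v⟫_ℝ) (by fun_prop) fun z => ?_
      rw [abs_mul]
      have h1 := abs_real_inner_le_norm u z
      have h2 := abs_real_inner_le_norm (A z) v
      have h3 := A.le_opNorm z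
      have h4 : |⟪u, z⟫_ℝ| * |⟪A z, v⟫_ℝ| ≤ (‖u‖ * ‖z‖) * ((‖A‖ * ‖z‖) * ‖v‖) := by
        gcongr
        exact h2.trans (by gcongr)
      have h5 : (‖u‖ * ‖z‖) * ((‖A‖ * ‖z‖) * ‖v‖) = (‖u‖ * ‖A‖ * ‖v‖) * ‖z‖ ^ 2 := by ring
      have h6 : 0 ≤ ‖u‖ * ‖A‖ * ‖v‖ := by positivity
      have h7 : 0 ≤ ‖u‖ * ‖v‖ := by positivity
      have h8 : 0 ≤ ‖z‖ ^ 2 := by positivity
      nlinarith [norm_nonneg u, mul_nonneg h7 h8, mul_nonneg (norm_nonneg u) h8]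
    refine (h1.const_mul (-(2 * g))).congr (ae_of_all _ fun z => ?_)
    simp only; ring
  · simp only [ContinuousLinearMap.mul_apply']
    refine hbd (fun z => ⟪u, z⟫_ℝ) (by fun_prop) fun z => ?_
    have h1 := abs_real_inner_le_norm u z
    have h2 : ‖z‖ ≤ 1 + ‖z‖ ^ 2 := by nlinarith [sq_nonneg (‖z‖ - 1), norm_nonneg z]
    have h3 : ‖u‖ * ‖z‖ ≤ ‖u‖ * (1 + ‖z‖ ^ 2) := by gcongr
    have h4 : 0 ≤ (‖u‖ * ‖v‖ + ‖u‖ * ‖A‖ * ‖v‖) * (1 + ‖z‖ ^ 2) := by positivity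
    nlinarith


/-! ### the parameter -/

section param

variable {P : Type*} [NormedAddCommGroup P] [NormedSpace ℝ P]

/-- smoothness of the normalisation constant -/
theorem contDiffAt_nrm {m : WithTop ℕ∞} (hm : m ≠ 0) {A : P → (Z →L[ℝ] Z)} {b : P}
    (hA : ContDiffAt ℝ m A b) (hs : ∀ᶠ b' in 𝓝 b, Sy (A b')) (hp : PD (A b)) :
    ContDiffAt ℝ m (fun b' => Real.sqrt |dt (psq (A b'))|) b := by
  have h1 : ContDiffAt ℝ m (fun b' => dt (psq (A b'))) b :=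
    (contDiff_dt.contDiffAt).comp b (contDiffAt_psq hm hA hs hp)
  have h2 : dt (psq (A b)) ≠ 0 := dt_ne_zero (psq_pd hp)
  have h3 : ContDiffAt ℝ m (fun b' => |dt (psq (A b'))|) b := by
    rcases lt_or_gt_of_ne h2 with h | h
    · refine h1.neg.congr_of_eventuallyEq ?_
      filter_upwards [h1.continuousAt.eventually (gt_mem_nhds h)] with b' hb'
      exact abs_of_neg hb'
    · refine h1.congr_of_eventuallyEq ?_
      filter_upwards [h1.continuousAt.eventually (lt_mem_nhds h)] with b' hb'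
      exact abs_of_pos hb'
  exact (Real.contDiffAt_sqrt (abs_pos.mpr h2).ne').comp b h3

/-- joint smoothness in the parameter and in the variable -/
theorem contDiffAt_G {m : WithTop ℕ∞} (hm : m ≠ 0) (g : ℝ) {A : P → (Z →L[ℝ] Z)} {b : P} {z : Z}
    (hA : ContDiffAt ℝ m A b) (hs : ∀ᶠ b' in 𝓝 b, Sy (A b')) (hp : PD (A b)) :
    ContDiffAt ℝ m (fun q : P × Z => G g (A q.1) q.2) (b, z) := by
  have h1 : ContDiffAt ℝ m (fun q : P × Z => Real.sqrt |dt (psq (A q.1))|) (b, z) :=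
    ContDiffAt.comp (b, z) (g := fun b' => Real.sqrt |dt (psq (A b'))|) (f := Prod.fst)
      (contDiffAt_nrm hm hA hs hp) contDiffAt_fst
  have h2 : ContDiffAt ℝ m (fun q : P × Z => A q.1) (b, z) :=
    ContDiffAt.comp (b, z) (g := A) (f := Prod.fst) hA contDiffAt_fst
  have h3 : ContDiffAt ℝ m (fun q : P × Z => ⟪A q.1 q.2, q.2⟫_ℝ) (b, z) :=
    (h2.clm_apply contDiffAt_snd).inner ℝ contDiffAt_snd
  have h4 : ContDiffAt ℝ m (fun q : P × Z => Real.exp (-(g / 2) * ⟪A q.1 q.2, q.2⟫_ℝ)) (b, z) :=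
    (contDiffAt_const.mul h3).exp
  exact (contDiffAt_const.mul h1).mul h4

/-- derivative in the parameter -/
theorem hasFDerivAt_G_param (g : ℝ) {A : P → (Z →L[ℝ] Z)} {A' : P →L[ℝ] (Z →L[ℝ] Z)} {b : P}
    (hA : HasFDerivAt A A' b) {n' : P →L[ℝ] ℝ}
    (hn : HasFDerivAt (fun b' => Real.sqrt |dt (psq (A b'))|) n' b)
    (hp : PD (A b)) (z : Z) :
    HasFDerivAt (fun b' => G g (A b') z)
      ((G g (A b) z) • ((Real.sqrt |dt (psq (A b))|)⁻¹ • n' -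
        (g / 2) • ((innerSL ℝ z).comp ((ContinuousLinearMap.apply ℝ Z z).comp A')))) b := by
  have h1 : HasFDerivAt (fun b' => ⟪z, A b' z⟫_ℝ)
      ((innerSL ℝ z).comp ((ContinuousLinearMap.apply ℝ Z z).comp A')) b :=
    (innerSL ℝ z).hasFDerivAt.comp b
      ((ContinuousLinearMap.apply ℝ Z z).hasFDerivAt.comp b hA)
  have h1' : HasFDerivAt (fun b' => ⟪A b' z, z⟫_ℝ)
      ((innerSL ℝ z).comp ((ContinuousLinearMap.apply ℝ Z z).comp A')) b := by
    refine h1.congr_of_eventuallyEq (Eventually.of_forall fun b' => ?_)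
    exact real_inner_comm _ _
  have h2 := (h1'.const_mul (-(g / 2))).exp
  have h3 := (hn.const_mul ((g / π) ^ (Module.finrank ℝ Z / 4 : ℝ))).mul h2
  have hd : Real.sqrt |dt (psq (A b))| ≠ 0 :=
    (Real.sqrt_pos.mpr (abs_pos.mpr (dt_ne_zero (psq_pd hp)))).ne'
  refine h3.congr_fderiv ?_
  ext v
  simp only [ContinuousLinearMap.add_apply, ContinuousLinearMap.sub_apply,
    ContinuousLinearMap.smul_apply, smul_eq_mul, G]
  field_simp
  ring

/-- the class of parameter families near `b`: smooth, symmetric, positive definite; output: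
uniform bounds on a neighbourhood for `A`, its derivative and the logarithmic derivative of the
normalisation, and the formula for the derivative of `G`, with the orthogonality
`∫ G ∂_b G = 0`. -/
theorem exists_param_bounds {A : P → (Z →L[ℝ] Z)} {b : P} {m : WithTop ℕ∞} (hm : m ≠ 0)
    (hA : ContDiffAt ℝ m A b) (hs : ∀ᶠ b' in 𝓝 b, Sy (A b')) (hp : PD (A b)) :
    ∃ (a K M : ℝ) (l : P → (P →L[ℝ] ℝ)), 0 < a ∧ 0 ≤ M ∧ ∀ᶠ b' in 𝓝 b,
      UB a K (A b') ∧ ‖fderiv ℝ A b'‖ ≤ M ∧ ‖l b'‖ ≤ M ∧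
      (∀ (g : ℝ) (z : Z), HasFDerivAt (fun c => G g (A c) z) ((G g (A b') z) • (l b' -
        (g / 2) • ((innerSL ℝ z).comp ((ContinuousLinearMap.apply ℝ Z z).comp
          (fderiv ℝ A b'))))) b') := by
  have h1m : (1 : WithTop ℕ∞) ≤ m := by
    exact ENat.one_le_iff_ne_zero_withTop.mpr hm
  set nf : P → ℝ := fun b' => Real.sqrt |dt (psq (A b'))| with hnf
  have hn : ContDiffAt ℝ m nf b := contDiffAt_nrm hm hA hs hp
  have hn1 : ContDiffAt ℝ 1 nf b := hn.of_le h1m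
  have hA1 : ContDiffAt ℝ 1 A b := hA.of_le h1m
  obtain ⟨a, ha, hlow⟩ := PD.eventually_low hp
  have hdA : ContinuousAt (fderiv ℝ A) b :=
    (hA1.fderiv_right (m := 0) (by norm_num)).continuousAt
  have hdA' : Tendsto (fun b' => ‖fderiv ℝ A b'‖) (𝓝 b) (𝓝 ‖fderiv ℝ A b‖) :=
    (continuous_norm (E := P →L[ℝ] (Z →L[ℝ] Z))).continuousAt.tendsto.comp hdA
  have hdn : ContinuousAt (fderiv ℝ nf) b :=
    (hn1.fderiv_right (m := 0) (by norm_num)).continuousAt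
  have hnc : ContinuousAt nf b := hn1.continuousAt
  have hn0 : 0 < nf b := Real.sqrt_pos.mpr (abs_pos.mpr (dt_ne_zero (psq_pd hp)))
  set l : P → (P →L[ℝ] ℝ) := fun b' => (nf b')⁻¹ • fderiv ℝ nf b' with hl
  have hlc : ContinuousAt l b := (hnc.inv₀ hn0.ne').smul hdn
  set K : ℝ := nf b ^ 2 + 1 with hK
  set M : ℝ := ‖fderiv ℝ A b‖ + ‖l b‖ + 1 with hM
  have e1 : ∀ᶠ b' in 𝓝 b, nf b' ^ 2 < K :=
    (hnc.pow 2).eventually (gt_mem_nhds (by show nf b ^ 2 < K; rw [hK]; linarith))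
  have e2 : ∀ᶠ b' in 𝓝 b, ‖fderiv ℝ A b'‖ < M :=
    Filter.Tendsto.eventually_lt_const (v := ‖fderiv ℝ A b‖)
      (by rw [hM]; linarith [norm_nonneg (l b)]) hdA'
  have e3 : ∀ᶠ b' in 𝓝 b, ‖l b'‖ < M :=
    Filter.Tendsto.eventually_lt_const (v := ‖l b‖)
      (by rw [hM]; linarith [norm_nonneg (fderiv ℝ A b)]) hlc.norm
  have e4 : ∀ᶠ b' in 𝓝 b, Sy (A b') → PD (A b') := hA.continuousAt.eventually hp.eventually
  have e5 : ∀ᶠ b' in 𝓝 b, ∀ v, a * ‖v‖ ^ 2 ≤ ⟪A b' v, v⟫_ℝ := hA.continuousAt.eventually hlow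
  have e6 : ∀ᶠ b' in 𝓝 b, DifferentiableAt ℝ A b' :=
    (hA1.eventually (by simp)).mono fun b' h => h.differentiableAt (by norm_num)
  have e7 : ∀ᶠ b' in 𝓝 b, DifferentiableAt ℝ nf b' :=
    (hn1.eventually (by simp)).mono fun b' h => h.differentiableAt (by norm_num)
  refine ⟨a, K, M, l, ha, by positivity, ?_⟩
  filter_upwards [e1, e2, e3, e4, e5, e6, e7, hs] with b' h1 h2 h3 h4 h5 h6 h7 h8
  have hPD := h4 h8
  refine ⟨⟨hPD, h5, ?_⟩, h2.le, h3.le, fun g z => ?_⟩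
  · have h9 : nf b' ^ 2 = |dt (psq (A b'))| := Real.sq_sqrt (abs_nonneg _)
    rw [← h9]; exact h1.le
  · exact hasFDerivAt_G_param g h6.hasFDerivAt h7.hasFDerivAt hPD z

theorem norm_L_le (g : ℝ) (hg : 0 < g) {M : ℝ} (hM : 0 ≤ M) {l : P →L[ℝ] ℝ} (hl : ‖l‖ ≤ M)
    {A' : P →L[ℝ] (Z →L[ℝ] Z)} (hA' : ‖A'‖ ≤ M) (z : Z) :
    ‖l - (g / 2) • ((innerSL ℝ z).comp ((ContinuousLinearMap.apply ℝ Z z).comp A'))‖ ≤
      M * (1 + g * ‖z‖ ^ 2) := by
  have h1 : ‖(innerSL ℝ z).comp ((ContinuousLinearMap.apply ℝ Z z).comp A')‖ ≤ M * ‖z‖ ^ 2 := by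
    refine ContinuousLinearMap.opNorm_le_bound _ (by positivity) fun v => ?_
    simp only [ContinuousLinearMap.comp_apply, ContinuousLinearMap.apply_apply,
      innerSL_apply_apply]
    have h2 : ‖(A' v) z‖ ≤ M * ‖v‖ * ‖z‖ := by
      calc ‖(A' v) z‖ ≤ ‖A' v‖ * ‖z‖ := (A' v).le_opNorm z
        _ ≤ (‖A'‖ * ‖v‖) * ‖z‖ := by gcongr; exact A'.le_opNorm v
        _ ≤ M * ‖v‖ * ‖z‖ := by gcongr
    calc ‖⟪z, (A' v) z⟫_ℝ‖ ≤ ‖z‖ * ‖(A' v) z‖ := norm_inner_le_norm _ _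
      _ ≤ ‖z‖ * (M * ‖v‖ * ‖z‖) := by gcongr
      _ = M * ‖z‖ ^ 2 * ‖v‖ := by ring
  calc _ ≤ ‖l‖ + ‖(g / 2) • ((innerSL ℝ z).comp ((ContinuousLinearMap.apply ℝ Z z).comp A'))‖ :=
        norm_sub_le _ _
    _ ≤ M + (g / 2) * (M * ‖z‖ ^ 2) := by
        rw [norm_smul, Real.norm_of_nonneg (by positivity)]
        gcongr
    _ ≤ M * (1 + g * ‖z‖ ^ 2) := by
        have : 0 ≤ g * (M * ‖z‖ ^ 2) := by positivity
        nlinarith

/-- orthogonality `∫ G ∂_b G = 0` -/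
theorem param_orth {A : P → (Z →L[ℝ] Z)} {b : P} {a K M : ℝ} {l : P → (P →L[ℝ] ℝ)}
    (ha : 0 < a) (hM : 0 ≤ M)
    (h : ∀ᶠ b' in 𝓝 b, UB a K (A b') ∧ ‖fderiv ℝ A b'‖ ≤ M ∧ ‖l b'‖ ≤ M ∧
      (∀ (g : ℝ) (z : Z), HasFDerivAt (fun c => G g (A c) z) ((G g (A b') z) • (l b' -
        (g / 2) • ((innerSL ℝ z).comp ((ContinuousLinearMap.apply ℝ Z z).comp
          (fderiv ℝ A b'))))) b'))
    (g : ℝ) (hg : 0 < g) (v : P) :
    ∫ z : Z, G g (A b) z ^ 2 * (l b v - (g / 2) * ⟪z, (fderiv ℝ A b v) z⟫_ℝ) = 0 := by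
  obtain ⟨s, hs, hsP⟩ := h.exists_mem
  have hb := h.self_of_nhds
  have : ProperSpace Z := FiniteDimensional.proper ℝ Z
  have : SecondCountableTopology Z := inferInstance
  have : SecondCountableTopologyEither Z (P →L[ℝ] ℝ) := secondCountableTopologyEither_of_left _ _
  set L : P → Z → (P →L[ℝ] ℝ) := fun b' z => l b' - (g / 2) •
    ((innerSL ℝ z).comp ((ContinuousLinearMap.apply ℝ Z z).comp (fderiv ℝ A b'))) with hL
  set F' : P → Z → (P →L[ℝ] ℝ) := fun b' z => (2 * G g (A b') z ^ 2) • L b' z with hF'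
  set bd : Z → ℝ := fun z => 2 * ((g / π) ^ (Module.finrank ℝ Z / 2 : ℝ) * K *
    Real.exp (-(g * a) * ‖z‖ ^ 2)) * (M * (1 + g * ‖z‖ ^ 2)) with hbd
  have hLn : ∀ b' ∈ s, ∀ z, ‖L b' z‖ ≤ M * (1 + g * ‖z‖ ^ 2) := fun b' hb' z =>
    norm_L_le g hg hM (hsP b' hb').2.2.1 (hsP b' hb').2.1 z
  have hLcont : ∀ b', Continuous (L b') := by
    intro b'
    rw [hL]
    have h1 : Continuous fun z : Z => innerSL ℝ z := (innerSL ℝ).continuous
    have h2 : Continuous fun z : Z => (ContinuousLinearMap.apply ℝ Z z : (Z →L[ℝ] Z) →L[ℝ] Z) :=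
      (ContinuousLinearMap.apply ℝ Z : Z →L[ℝ] (Z →L[ℝ] Z) →L[ℝ] Z).continuous
    fun_prop
  have hbdi : Integrable bd := by
    have h0 := integrable_poly_gauss (Z := Z) 0 (c := g * a) (by positivity)
    have h2 := integrable_poly_gauss (Z := Z) 2 (c := g * a) (by positivity)
    refine ((h0.const_mul (2 * ((g / π) ^ (Module.finrank ℝ Z / 2 : ℝ) * K) * M)).add
      (h2.const_mul (2 * ((g / π) ^ (Module.finrank ℝ Z / 2 : ℝ) * K) * M * g))).congr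
      (ae_of_all _ fun z => ?_)
    simp only [Pi.add_apply, hbd]
    ring
  have hder : HasFDerivAt (fun b' => ∫ z : Z, G g (A b') z ^ 2) (∫ z, F' b z) b := by
    refine hasFDerivAt_integral_of_dominated_of_fderiv_le (bound := bd) hs ?_ ?_ ?_ ?_ hbdi ?_
    · exact Eventually.of_forall fun b' => ((continuous_G g (A b')).pow 2).aestronglyMeasurable
    · have := integrable_mul_G_sq ha hg hb.1 0
      simpa using this
    · refine Continuous.aestronglyMeasurable ?_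
      rw [hF']
      exact (continuous_const.mul ((continuous_G g (A b)).pow 2)).smul (hLcont b)
    · refine ae_of_all _ fun z b' hb' => ?_
      simp only [hF', hbd]
      rw [norm_smul, Real.norm_of_nonneg (by positivity)]
      have h1 := (hsP b' hb').1.sq_le hg z
      have h2 := hLn b' hb' z
      have h3 : 0 ≤ G g (A b') z ^ 2 := sq_nonneg _
      have h4 : 0 ≤ (g / π) ^ (Module.finrank ℝ Z / 2 : ℝ) * K * Real.exp (-(g * a) * ‖z‖ ^ 2) :=
        h3.trans h1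
      gcongr
    · refine ae_of_all _ fun z b' hb' => ?_
      have h1 := ((hsP b' hb').2.2.2 g z).pow 2
      refine h1.congr_fderiv ?_
      simp only [hF', hL]
      rw [smul_smul]
      congr 1
      push_cast
      ring
  have hconst : (fun b' => ∫ z : Z, G g (A b') z ^ 2) =ᶠ[𝓝 b] fun _ => (1 : ℝ) := by
    filter_upwards [hs] with b' hb'
    exact integral_G_sq hg (hsP b' hb').1.1
  have h0 : (∫ z, F' b z) = 0 := by
    have h1 := hder.congr_of_eventuallyEq hconst.symm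
    exact h1.unique (hasFDerivAt_const (1 : ℝ) b)
  have hFi : Integrable (F' b) := by
    refine hbdi.mono' ?_ (ae_of_all _ fun z => ?_)
    · refine Continuous.aestronglyMeasurable ?_
      rw [hF']
      exact (continuous_const.mul ((continuous_G g (A b)).pow 2)).smul (hLcont b)
    · simp only [hF', hbd]
      rw [norm_smul, Real.norm_of_nonneg (by positivity)]
      have hbs : b ∈ s := mem_of_mem_nhds hs
      have h1 := (hsP b hbs).1.sq_le hg z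
      have h2 := hLn b hbs z
      have h3 : 0 ≤ G g (A b) z ^ 2 := sq_nonneg _
      have h4 : 0 ≤ (g / π) ^ (Module.finrank ℝ Z / 2 : ℝ) * K * Real.exp (-(g * a) * ‖z‖ ^ 2) :=
        h3.trans h1
      gcongr
  have h1 : (∫ z, F' b z) v = ∫ z, (F' b z) v := by
    exact ContinuousLinearMap.integral_apply hFi v
  rw [h0] at h1
  have h2 : ∫ z, (F' b z) v = 2 * ∫ z : Z, G g (A b) z ^ 2 *
      (l b v - (g / 2) * ⟪z, (fderiv ℝ A b v) z⟫_ℝ) := by
    rw [← integral_const_mul]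
    congr 1; funext z
    simp only [hF', hL, ContinuousLinearMap.smul_apply, ContinuousLinearMap.sub_apply,
      ContinuousLinearMap.comp_apply, ContinuousLinearMap.apply_apply, innerSL_apply_apply,
      smul_eq_mul]
    ring
  rw [h2] at h1
  simpa using h1.symm

end param

end gauss

end Crest.Agent.R330.GPar984
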