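import Crest.Agent.R330.BrT5b_658
import Crest.Agent.R330.TCore_383

/-!
# Row 330, S8-T5: the bridge for the trial states (helper658)

* `contDiff_tau`, `hcs_tau`, `tau_small` : `tau` is smooth on all of `Cfg N`; as a function on
  `Tup kk × Zt X0` it has compact support in `‖x.1 + x.2‖ ≤ 3 r / 4`.
* `isSlice_tau`   : `tau` is a slice function.
* `bridge_gen`    : for `g` large, for every core vector `φ`, every `m`, `α`:
  `∫ ⟪φ, dcharge (Tgen P σ g χ) - Tgen P σ g χ'⟫ =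
   ∫ x : Tup kk × Zt X0, ⟪φ (c + x.1 + x.2), QdP τ x - τ' x⟫`.
-/

set_option autoImplicit false
set_option linter.unusedSectionVars false

open MeasureTheory Filter Topology Crest.MathPhysics.MatrixQM
open scoped ContDiff InnerProductSpace ENNReal

noncomputable section

namespace Crest.Agent.R330.BrT5c658

open Crest.Agent.R330.Defs478 Crest.Agent.R330.LS839 Crest.Agent.R330.Frame839
  Crest.Agent.R330.Clus839 Crest.Agent.R330.Bind6839 Crest.Agent.R330.TDef414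
  Crest.Agent.R330.SlG944 Crest.Agent.R330.IBP837 Crest.Agent.R330.PairA547
  Crest.Agent.R330.PairB547 Crest.Agent.R330.PairE547 Crest.Agent.R330.PairL_862
  Crest.Agent.R330.BrT5658 Crest.Agent.R330.BrT5b658
open Crest.Agent.R330.SlB314 (Nor Tan)
open Crest.Agent.R330.SlD314 (tube)

variable {N p : ℕ} {b : ColorBasis N} {S : Type} [Group S] [Fintype S] {C : Chn b p S}
  {F : Type*} [NormedAddCommGroup F] [InnerProductSpace ℂ F] [FiniteDimensional ℂ F]
  {M : FermionRep N F} {R : GaugeAction b M} {G : GammaNine}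

theorem contDiff_tau (P : TPack C M R G) (σ : Sl C) {g : ℝ} (hg : 0 < g)
    (hΨ : ContDiff ℝ ∞ (P.Psi g)) (χ : Amp M G σ) : ContDiff ℝ ∞ (tau P σ g χ.fn) := by
  rw [contDiff_iff_contDiffAt]
  intro y
  by_cases hy : ‖σ.X0 + C.cfT y - σ.X0‖ < σ.r
  · exact TCore383.contDiffAt_tau P σ hg hΨ χ hy
  · have h1 : σ.X0 + C.cfT y ∉ tsupport χ.fn := by
      intro h
      have h2 := χ.supp h
      rw [Metric.mem_ball, dist_eq_norm] at h2
      have := σ.pos
      linarith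
    have h2 : tau P σ g χ.fn =ᶠ[𝓝 y] fun _ => 0 := by
      filter_upwards [TCore383.wT_eventually P σ g χ.fn h1] with u hu
      rw [TCore383.tau_eq, hu, smul_zero]
    exact contDiffAt_const.congr_of_eventuallyEq h2

theorem tau_norm (P : TPack C M R G) (σ : Sl C) {g : ℝ} (hs : P.s g < σ.r / 4)
    (χ : Amp M G σ) {y : Cfg N} (h : tau P σ g χ.fn y ≠ 0) : ‖y‖ < 3 * σ.r / 4 := by
  obtain ⟨-, h5, h6, h7⟩ := TCore383.tau_ne P σ g χ h
  have h8 := TCore383.norm_le_sum (C := C) y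
  linarith

theorem isSlice_tau (P : TPack C M R G) (σ : Sl C) (g : ℝ) (χ : Amp M G σ) :
    IsSliceFun R (C.cf σ.X0) σ.r (tau P σ g χ.fn) := by
  intro k y hk hy hr
  exact TCore383.tau_act P σ g χ hk (TCore383.cfT_ball σ hr)

theorem tsupport_tau (P : TPack C M R G) (σ : Sl C) {g : ℝ} (hs : P.s g < σ.r / 4)
    (χ : Amp M G σ) {L Z : Submodule ℝ (Cfg N)} :
    tsupport (fun x : L × Z => tau P σ g χ.fn ((x.1 : Cfg N) + x.2)) ⊆
      {x | ‖(x.1 : Cfg N) + x.2‖ ≤ 3 * σ.r / 4} := by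
  refine closure_minimal (fun x hx => (tau_norm P σ hs χ hx).le) ?_
  exact isClosed_le ((continuous_subtype_val.comp continuous_fst).add
    (continuous_subtype_val.comp continuous_snd)).norm continuous_const

theorem hcs_tau (P : TPack C M R G) (σ : Sl C) {g : ℝ} (hs : P.s g < σ.r / 4)
    (χ : Amp M G σ) {L Z : Submodule ℝ (Cfg N)} (h : Dec (actB b) (C.cf σ.X0) L Z) :
    HasCompactSupport (fun x : L × Z => tau P σ g χ.fn ((x.1 : Cfg N) + x.2)) := by
  refine (isCompact_closedBall (0 : L × Z) σ.r).of_isClosed_subset (isClosed_tsupport _) ?_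
  intro x hx
  have h1 : ‖(x.1 : Cfg N) + x.2‖ ≤ 3 * σ.r / 4 := tsupport_tau P σ hs χ hx
  have h2 := norm_sq_sum h x.1 x.2
  have h3 := σ.pos
  have h4 : ‖(x.1 : Cfg N) + x.2‖ ^ 2 ≤ σ.r ^ 2 :=
    pow_le_pow_left₀ (norm_nonneg _) (by linarith) 2
  rw [mem_closedBall_zero_iff, Prod.norm_def, max_le_iff]
  constructor
  · exact (abs_le_of_sq_le_sq' (by nlinarith [sq_nonneg ‖x.2‖]) h3.le).2
  · exact (abs_le_of_sq_le_sq' (by nlinarith [sq_nonneg ‖x.1‖]) h3.le).2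

/-- **The bridge for the trial states.** -/
theorem bridge_gen [Nontrivial F] (P : TPack C M R G) (σ : Sl C) (χ χ' : Amp M G σ)
    {L Z : Submodule ℝ (Cfg N)} (h : Dec (actB b) (C.cf σ.X0) L Z)
    {ι κ η : Type*} [Fintype ι] [Fintype κ] [Fintype η]
    (eT : OrthonormalBasis η ℝ (Tn (actB b) (C.cf σ.X0))) (u : OrthonormalBasis ι ℝ L)
    (v : OrthonormalBasis κ ℝ Z) :
    ∀ᶠ g in atTop, ∀ (m : ℝ) (α : Fin 16) (φ : Cfg N → F), IsCoreVec b R φ →
      ∫ x, ⟪φ x, dcharge b M G g m α (Tgen P σ g χ.fn) x - Tgen P σ g χ'.fn x⟫_ℂ =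
        ∫ x : L × Z, ⟪φ (C.cf σ.X0 + x.1 + x.2),
          QdP h (ThL M G α) (Wp (WqL b M G α) (WlL M G α) g m) (BfL b M) eT u v
            (fun x : L × Z => tau P σ g χ.fn ((x.1 : Cfg N) + x.2)) x -
          tau P σ g χ'.fn ((x.1 : Cfg N) + x.2)⟫_ℂ := by
  obtain ⟨r₀, B, hr0, hB0, hB, hgap, hBr⟩ := σ.gap
  have hs : ∀ᶠ g in atTop, P.s g < σ.r / 4 :=
    P.s_lim.eventually (isOpen_Iio.mem_nhds (by have := σ.pos; simp only [Set.mem_Iio]; linarith))
  filter_upwards [P.Psi_smooth, hs, eventually_gt_atTop 0, TCore383.core P σ χ,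
    TCore383.core P σ χ'] with g hΨ hsg hg hT hT' m α φ hφ
  have hadd : ContDiff ℝ ∞ fun x : L × Z => (x.1 : Cfg N) + x.2 :=
    (L.subtypeL.contDiff.comp contDiff_fst).add (Z.subtypeL.contDiff.comp contDiff_snd)
  have hτ : ContDiff ℝ ∞ fun x : L × Z => tau P σ g χ.fn ((x.1 : Cfg N) + x.2) :=
    (contDiff_tau P σ hg hΨ χ).comp hadd
  have hτ' : ContDiff ℝ ∞ fun x : L × Z => tau P σ g χ'.fn ((x.1 : Cfg N) + x.2) :=
    (contDiff_tau P σ hg hΨ χ').comp hadd
  have hpos := σ.pos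
  refine bridge σ h hr0 hgap hB eT u v (isSlice_tau P σ g χ) (isSlice_tau P σ g χ') hT hT'
    (hτ.of_le (by norm_num)) (hcs_tau P σ hsg χ h) (fun x hx => ?_) hτ'.continuous
    (hcs_tau P σ hsg χ' h) (fun x hx => ?_) g m α hφ
  · have h1 : ‖(x.1 : Cfg N) + x.2‖ ≤ 3 * σ.r / 4 := tsupport_tau P σ hsg χ hx
    refine ⟨by linarith, le_trans ?_ hBr⟩
    exact mul_le_mul_of_nonneg_left (by linarith) hB0
  · have h1 := tau_norm P σ hsg χ' hx
    linarith

end Crest.Agent.R330.BrT5c658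

end
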