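import Crest.Agent.R330.Cliff7_442

/-!
# Row 330 (helper442): the section of the heavy vacuum by projection

`M` irreducible, `J₀` a partial complex structure (reference), `Ω` a unit vector of `vacJ J₀`,
`J` a partial complex structure with `J₀ x = 0 → J x = 0`, `proj J Ω ≠ 0`:

`U M J Ω f = ‖proj J Ω‖⁻¹ • proj J f` on `vacJ J₀`: isometric, commutes with the light generators,
onto `vacJ J` if the kernels agree, covariant, even, smooth in parameters, and without connection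
if `⟪proj J Ω, proj J' Ω⟫` is real.
-/

set_option autoImplicit false
set_option linter.unusedSectionVars false

open scoped InnerProductSpace

noncomputable section

namespace Crest.Agent.R330.Cliff442

variable {V F : Type*} [NormedAddCommGroup V] [InnerProductSpace ℝ V]
  [NormedAddCommGroup F] [InnerProductSpace ℂ F]

namespace CRep

variable (M : CRep V F)

variable {M} in
/-- **Schur.** -/
theorem IrrOn.schur [FiniteDimensional ℂ F] {K : Submodule ℝ V} {W : Submodule ℂ F}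
    (h : M.IrrOn K W) (T : F →ₗ[ℂ] F) (hT : ∀ f ∈ W, T f ∈ W)
    (hc : ∀ x ∈ K, ∀ f ∈ W, T (M.θ x f) = M.θ x (T f)) : ∃ c : ℂ, ∀ f ∈ W, T f = c • f := by
  by_cases hW : W = ⊥
  · refine ⟨0, fun f hf => ?_⟩
    rw [hW, Submodule.mem_bot] at hf
    rw [hf, map_zero, smul_zero]
  have : Nontrivial W := (Submodule.nontrivial_iff_ne_bot).2 hW
  set S : W →ₗ[ℂ] W := T.restrict hT with hS
  obtain ⟨c, hc1⟩ := Module.End.exists_eigenvalue S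
  obtain ⟨w, hw⟩ := hc1.exists_hasEigenvector
  refine ⟨c, ?_⟩
  set W' : Submodule ℂ F := W ⊓ LinearMap.ker (T - c • LinearMap.id) with hW'
  have hmem : ∀ f, f ∈ W' ↔ f ∈ W ∧ T f = c • f := by
    intro f
    rw [hW', Submodule.mem_inf, LinearMap.mem_ker, LinearMap.sub_apply, LinearMap.smul_apply,
      LinearMap.id_apply, sub_eq_zero]
  have hinv : M.InvOn K W' := by
    intro x hx f hf
    obtain ⟨h1, h2⟩ := (hmem f).1 hf
    refine (hmem _).2 ⟨h.1 x hx f h1, ?_⟩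
    rw [hc x hx f h1, h2, map_smul]
  rcases h.2 W' inf_le_left hinv with hb | ht
  · exfalso
    have h1 : S w = c • w := hw.apply_eq_smul
    have h2 : T (w : F) = c • (w : F) := congrArg (fun y : W => (y : F)) h1
    have h3 : (w : F) ∈ W' := (hmem _).2 ⟨w.2, h2⟩
    rw [hb, Submodule.mem_bot] at h3
    exact hw.2 (Subtype.ext h3)
  · intro f hf
    rw [← ht] at hf
    exact ((hmem f).1 hf).2

/-- The light subspace. -/
def light (J : V →ₗ[ℝ] V) : Submodule ℝ V := LinearMap.ker J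

theorem mem_light {J : V →ₗ[ℝ] V} {x : V} : x ∈ light J ↔ J x = 0 := LinearMap.mem_ker

variable [FiniteDimensional ℝ V]

variable {M} in
/-- The vacuum space is irreducible for the light generators. -/
theorem Irr.vacJ (hI : M.Irr) {J : V →ₗ[ℝ] V} (hJ : PCS J) : M.IrrOn (light J) (M.vacJ J) := by
  obtain ⟨m, u, v, lam, hn⟩ := hJ.skew.exists_NF
  have h1 : light J = perpS ⊤ u v (Finset.range m) := by
    ext x
    rw [mem_light, mem_perpS]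
    constructor
    · intro hx
      refine ⟨trivial, fun k hk => ?_⟩
      have hl := hJ.lam_one hn k hk
      have hu : u k = J (v k) := by rw [hn.av k hk, hl, one_smul]
      have hv : v k = -J (u k) := by rw [hn.au k hk, hl]; simp
      constructor
      · have e := hJ.skew x (v k)
        rw [hx, inner_zero_left] at e
        rw [hu]
        linarith
      · have e := hJ.skew x (u k)
        rw [hx, inner_zero_left] at e
        rw [hv, inner_neg_right]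
        linarith
    · rintro ⟨-, hx⟩
      exact hn.ker x hx
  rw [h1, M.vacJ_eq hJ hn]
  exact IrrOn.vacS hI hn.prs (fun _ _ => ⟨trivial, trivial⟩)

variable {M} in
theorem vacJ_ne_bot [Nontrivial F] {J : V →ₗ[ℝ] V} (hJ : PCS J) : M.vacJ J ≠ ⊥ := by
  obtain ⟨m, u, v, lam, hn⟩ := hJ.skew.exists_NF
  rw [M.vacJ_eq hJ hn]
  exact vacS_ne_bot (K := ⊤) (W := ⊤) (fun _ _ _ _ => trivial) hn.prs
    (fun _ _ => ⟨trivial, trivial⟩) (by simp)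

variable {M} in
/-- **Operators commuting with the light generators are scalar on the vacuum space.** -/
theorem Irr.scalar [FiniteDimensional ℂ F] (hI : M.Irr) {J₀ : V →ₗ[ℝ] V} (h0 : PCS J₀)
    (A : F →ₗ[ℂ] F) (hA : ∀ x, J₀ x = 0 → ∀ f, A (M.θ x f) = M.θ x (A f)) {Ω : F}
    (hΩ : Ω ∈ M.vacJ J₀) (hΩ1 : ‖Ω‖ = 1) {f g : F} (hf : f ∈ M.vacJ J₀) (hg : g ∈ M.vacJ J₀) :
    ⟪f, A g⟫_ℂ = ⟪Ω, A Ω⟫_ℂ * ⟪f, g⟫_ℂ := by
  obtain ⟨c, hc⟩ := (hI.vacJ h0).schur (M.proj J₀ ∘ₗ A) (fun f _ => proj_mem h0 _)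
    (fun x hx f _ => by
      rw [LinearMap.comp_apply, LinearMap.comp_apply, hA x (mem_light.1 hx),
        M.proj_comm_th h0.skew (mem_light.1 hx)])
  have key : ∀ f ∈ M.vacJ J₀, ∀ g ∈ M.vacJ J₀, ⟪f, A g⟫_ℂ = c * ⟪f, g⟫_ℂ := by
    intro f hf g hg
    have e := hc g hg
    rw [LinearMap.comp_apply] at e
    conv_lhs => rw [← M.proj_of_mem h0 hf]
    rw [M.proj_symm h0, e, inner_smul_right]
  have h1 := key Ω hΩ Ω hΩ
  rw [inner_self_c, hΩ1] at h1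
  rw [key f hf g hg, h1]
  simp

/-- **The section.** -/
def U (J : V →ₗ[ℝ] V) (Ω : F) : F →ₗ[ℂ] F := ((‖M.proj J Ω‖⁻¹ : ℝ) : ℂ) • M.proj J

theorem U_apply (J : V →ₗ[ℝ] V) (Ω f : F) :
    M.U J Ω f = ((‖M.proj J Ω‖⁻¹ : ℝ) : ℂ) • M.proj J f := rfl

theorem U_mem {J : V →ₗ[ℝ] V} (hJ : PCS J) (Ω f : F) : M.U J Ω f ∈ M.vacJ J :=
  Submodule.smul_mem _ _ (proj_mem hJ f)

theorem U_light {J : V →ₗ[ℝ] V} (hJ : PCS J) (Ω : F) {x : V} (hx : J x = 0) (f : F) :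
    M.U J Ω (M.θ x f) = M.θ x (M.U J Ω f) := by
  rw [U_apply, U_apply, map_smul, M.proj_comm_th hJ.skew hx]

theorem norm_U_self {J : V →ₗ[ℝ] V} {Ω : F} (h : M.proj J Ω ≠ 0) : ‖M.U J Ω Ω‖ = 1 := by
  rw [U_apply, norm_smul, Complex.norm_real, norm_inv, norm_norm,
    inv_mul_cancel₀ (norm_ne_zero_iff.2 h)]

variable {M} in
/-- **Cross formula**: `⟪U J f, U J' g⟫ = r(J, J') ⟪f, g⟫` on the reference space. -/
theorem Irr.inner_U_U [FiniteDimensional ℂ F] (hI : M.Irr) {J₀ J J' : V →ₗ[ℝ] V} (h0 : PCS J₀)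
    (hJ : PCS J) (hJ' : PCS J') (hl : ∀ x, J₀ x = 0 → J x = 0) (hl' : ∀ x, J₀ x = 0 → J' x = 0)
    {Ω : F} (hΩ : Ω ∈ M.vacJ J₀) (hΩ1 : ‖Ω‖ = 1) {f g : F} (hf : f ∈ M.vacJ J₀)
    (hg : g ∈ M.vacJ J₀) :
    ⟪M.U J Ω f, M.U J' Ω g⟫_ℂ = ⟪M.U J Ω Ω, M.U J' Ω Ω⟫_ℂ * ⟪f, g⟫_ℂ := by
  have h1 := hI.scalar h0 (M.proj J ∘ₗ M.proj J')
    (fun x hx k => by
      rw [LinearMap.comp_apply, LinearMap.comp_apply, ← M.proj_comm_th hJ'.skew (hl' x hx),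
        ← M.proj_comm_th hJ.skew (hl x hx)]) hΩ hΩ1 hf hg
  rw [LinearMap.comp_apply, LinearMap.comp_apply, ← M.proj_symm hJ, ← M.proj_symm hJ] at h1
  rw [U_apply, U_apply, U_apply, U_apply, inner_smul_left, inner_smul_right, inner_smul_left,
    inner_smul_right, h1]
  ring

variable {M} in
/-- **Isometry on the reference space.** -/
theorem Irr.inner_U [FiniteDimensional ℂ F] (hI : M.Irr) {J₀ J : V →ₗ[ℝ] V} (h0 : PCS J₀)
    (hJ : PCS J) (hl : ∀ x, J₀ x = 0 → J x = 0) {Ω : F} (hΩ : Ω ∈ M.vacJ J₀) (hΩ1 : ‖Ω‖ = 1)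
    (hne : M.proj J Ω ≠ 0) {f g : F} (hf : f ∈ M.vacJ J₀) (hg : g ∈ M.vacJ J₀) :
    ⟪M.U J Ω f, M.U J Ω g⟫_ℂ = ⟪f, g⟫_ℂ := by
  rw [hI.inner_U_U h0 hJ hJ hl hl hΩ hΩ1 hf hg, inner_self_c, M.norm_U_self hne]
  simp

variable {M} in
theorem Irr.norm_U [FiniteDimensional ℂ F] (hI : M.Irr) {J₀ J : V →ₗ[ℝ] V} (h0 : PCS J₀)
    (hJ : PCS J) (hl : ∀ x, J₀ x = 0 → J x = 0) {Ω : F} (hΩ : Ω ∈ M.vacJ J₀) (hΩ1 : ‖Ω‖ = 1)
    (hne : M.proj J Ω ≠ 0) {f : F} (hf : f ∈ M.vacJ J₀) : ‖M.U J Ω f‖ = ‖f‖ := by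
  have h1 := hI.inner_U h0 hJ hl hΩ hΩ1 hne hf hf
  rw [inner_self_c, inner_self_c] at h1
  have h2 : ‖M.U J Ω f‖ ^ 2 = ‖f‖ ^ 2 := by exact_mod_cast h1
  exact (sq_eq_sq₀ (norm_nonneg _) (norm_nonneg _)).1 h2

variable {M} in
/-- **Onto** the vacuum space of `J` if the light spaces agree. -/
theorem Irr.U_surj [FiniteDimensional ℂ F] (hI : M.Irr) {J₀ J : V →ₗ[ℝ] V} (h0 : PCS J₀)
    (hJ : PCS J) (hl' : ∀ x, J x = 0 → J₀ x = 0) {Ω : F}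
    (hΩ : Ω ∈ M.vacJ J₀) (hne : M.proj J Ω ≠ 0) {g : F} (hg : g ∈ M.vacJ J) :
    ∃ f ∈ M.vacJ J₀, M.U J Ω f = g := by
  set W' : Submodule ℂ F := (M.vacJ J₀).map (M.U J Ω) with hW'
  have hle : W' ≤ M.vacJ J := by
    rintro _ ⟨f, -, rfl⟩
    exact M.U_mem hJ Ω f
  have hinv : M.InvOn (light J) W' := by
    rintro x hx _ ⟨f, hf, rfl⟩
    have hx' := mem_light.1 hx
    refine ⟨M.θ x f, M.light_mem h0 (hl' x hx') hf, ?_⟩
    exact M.U_light hJ Ω hx' f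
  rcases (hI.vacJ hJ).2 W' hle hinv with hb | ht
  · exfalso
    have h1 : M.U J Ω Ω ∈ W' := ⟨Ω, hΩ, rfl⟩
    rw [hb, Submodule.mem_bot] at h1
    have h2 := M.norm_U_self hne
    rw [h1, norm_zero] at h2
    exact zero_ne_one h2
  · rw [← ht] at hg
    obtain ⟨f, hf, e⟩ := hg
    exact ⟨f, hf, e⟩

/-- **Covariance** for complex linear isometric lifts fixing `Ω`. -/
theorem U_cov {J : V →ₗ[ℝ] V} (hJ : Skew J) (R : V ≃ₗᵢ[ℝ] V) (ρ : F →ₗ[ℂ] F)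
    (hiso : ∀ f, ‖ρ f‖ = ‖f‖) (h : ∀ x f, ρ (M.θ x f) = M.θ (R x) (ρ f)) {Ω : F} (hΩ : ρ Ω = Ω)
    (f : F) : ρ (M.U J Ω f) = M.U (conjJ R J) Ω (ρ f) := by
  have key : ∀ f, ρ (M.proj J f) = M.proj (conjJ R J) (ρ f) := fun f =>
    M.proj_cov M hJ R ρ (fun _ _ => map_add _ _ _) (fun _ _ => map_smul _ _ _) h (conjJ R J)
      (Or.inl ⟨rfl, fun _ => map_smul _ _ _⟩) f
  have h1 : ‖M.proj (conjJ R J) Ω‖ = ‖M.proj J Ω‖ := by
    have := key Ω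
    rw [hΩ] at this
    rw [← this, hiso]
  rw [U_apply, U_apply, map_smul, key, h1]

/-- Parity. -/
theorem U_even (J : V →ₗ[ℝ] V) (Γ : F →ₗ[ℂ] F) (h : ∀ x f, Γ (M.θ x f) = -M.θ x (Γ f)) (Ω f : F) :
    Γ (M.U J Ω f) = M.U J Ω (Γ f) := by
  rw [U_apply, U_apply, map_smul, M.proj_even Γ (fun _ _ => map_add _ _ _)
    (fun _ _ => map_smul _ _ _) h]

/-- Overlap criterion. -/
theorem proj_ne_zero_of {J : V →ₗ[ℝ] V} (hJ : PCS J) {Ω Ω' : F} (h : Ω' ∈ M.vacJ J)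
    (hne : ⟪Ω', Ω⟫_ℂ ≠ 0) : M.proj J Ω ≠ 0 := by
  intro e
  apply hne
  have h1 := M.proj_orth hJ h Ω
  rwa [e, sub_zero] at h1

section smooth

variable [FiniteDimensional ℂ F] {E : Type*} [NormedAddCommGroup E] [NormedSpace ℝ E]

/-- **Smoothness of the section.** -/
theorem contDiffAt_U {n : WithTop ℕ∞} {J : E → V →ₗ[ℝ] V} {f : E → F} {x : E} {Ω : F}
    (hJ : ∀ y, ContDiffAt ℝ n (fun t => J t y) x) (hf : ContDiffAt ℝ n f x)
    (hne : M.proj (J x) Ω ≠ 0) : ContDiffAt ℝ n (fun t => M.U (J t) Ω (f t)) x := by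
  have h1 : ContDiffAt ℝ n (fun t => M.proj (J t) Ω) x := M.contDiffAt_proj hJ contDiffAt_const
  have h2 : ContDiffAt ℝ n (fun t => ‖M.proj (J t) Ω‖⁻¹) x :=
    (h1.norm ℂ hne).inv (norm_ne_zero_iff.2 hne)
  have h3 : ContDiffAt ℝ n (fun t => ((‖M.proj (J t) Ω‖⁻¹ : ℝ) : ℂ)) x :=
    Complex.ofRealCLM.contDiff.contDiffAt.comp x h2
  exact h3.smul (M.contDiffAt_proj hJ hf)

end smooth

variable {M} in
/-- **No connection.** If the overlaps `⟪proj (J t) Ω, proj (J x) Ω⟫` are real near `x` then the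
derivative of the section is orthogonal to the vacuum space. -/
theorem Irr.U_flat [FiniteDimensional ℂ F] {E : Type*} [NormedAddCommGroup E] [NormedSpace ℝ E]
    (hI : M.Irr) {J₀ : V →ₗ[ℝ] V} (h0 : PCS J₀) {J : E → V →ₗ[ℝ] V} {x : E}
    (hJ : ∀ t, PCS (J t)) (hl : ∀ t y, J₀ y = 0 → J t y = 0) {Ω : F}
    (hΩ : Ω ∈ M.vacJ J₀) (hΩ1 : ‖Ω‖ = 1) (hne : ∀ᶠ t in nhds x, M.proj (J t) Ω ≠ 0)
    (hreal : ∀ᶠ t in nhds x, (⟪M.proj (J x) Ω, M.proj (J t) Ω⟫_ℂ).im = 0)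
    {f g : F} (hf : f ∈ M.vacJ J₀) (hg : g ∈ M.vacJ J₀) {D : E →L[ℝ] F}
    (hD : HasFDerivAt (fun t => M.U (J t) Ω g) D x)
    {D₀ : E →L[ℝ] F} (hD₀ : HasFDerivAt (fun t => M.U (J t) Ω Ω) D₀ x) (e : E) :
    ⟪M.U (J x) Ω f, D e⟫_ℂ = 0 := by
  -- the scalar case
  have hr : ⟪M.U (J x) Ω Ω, D₀ e⟫_ℂ = 0 := by
    -- `φ t = ⟪U x Ω, U t Ω⟫` is real near `x` and `≤ 1`
    have hφ : HasFDerivAt (fun t => ⟪M.U (J x) Ω Ω, M.U (J t) Ω Ω⟫_ℂ)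
        (((innerSL ℂ (M.U (J x) Ω Ω)).restrictScalars ℝ).comp D₀) x :=
      ((innerSL ℂ (M.U (J x) Ω Ω)).restrictScalars ℝ).hasFDerivAt.comp x hD₀
    have him : ∀ᶠ t in nhds x, (⟪M.U (J x) Ω Ω, M.U (J t) Ω Ω⟫_ℂ).im = 0 := by
      filter_upwards [hreal] with t ht
      rw [U_apply, U_apply, inner_smul_left, inner_smul_right, Complex.conj_ofReal, ← mul_assoc,
        ← Complex.ofReal_mul, Complex.im_ofReal_mul, ht, mul_zero]
    -- imaginary part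
    have h1 : (⟪M.U (J x) Ω Ω, D₀ e⟫_ℂ).im = 0 := by
      have h2 : HasFDerivAt (fun t => (⟪M.U (J x) Ω Ω, M.U (J t) Ω Ω⟫_ℂ).im)
          (Complex.imCLM.comp (((innerSL ℂ (M.U (J x) Ω Ω)).restrictScalars ℝ).comp D₀)) x :=
        Complex.imCLM.hasFDerivAt.comp x hφ
      have h3 : HasFDerivAt (fun t => (⟪M.U (J x) Ω Ω, M.U (J t) Ω Ω⟫_ℂ).im) (0 : E →L[ℝ] ℝ) x :=
        (hasFDerivAt_const (0 : ℝ) x).congr_of_eventuallyEq him
      have h4 := h2.unique h3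
      have h5 := congrArg (fun L : E →L[ℝ] ℝ => L e) h4
      simpa using h5
    -- real part: maximum
    have h2 : (⟪M.U (J x) Ω Ω, D₀ e⟫_ℂ).re = 0 := by
      have h3 : HasFDerivAt (fun t => (⟪M.U (J x) Ω Ω, M.U (J t) Ω Ω⟫_ℂ).re)
          (Complex.reCLM.comp (((innerSL ℂ (M.U (J x) Ω Ω)).restrictScalars ℝ).comp D₀)) x :=
        Complex.reCLM.hasFDerivAt.comp x hφ
      have hmax : IsLocalMax (fun t => (⟪M.U (J x) Ω Ω, M.U (J t) Ω Ω⟫_ℂ).re) x := by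
        filter_upwards [hne] with t ht
        have hx1 : ‖M.U (J x) Ω Ω‖ = 1 := M.norm_U_self hne.self_of_nhds
        have ht1 : ‖M.U (J t) Ω Ω‖ = 1 := M.norm_U_self ht
        have e1 : (⟪M.U (J x) Ω Ω, M.U (J x) Ω Ω⟫_ℂ).re = 1 := by
          rw [inner_self_c, hx1]; simp
        rw [e1]
        calc (⟪M.U (J x) Ω Ω, M.U (J t) Ω Ω⟫_ℂ).re ≤ ‖⟪M.U (J x) Ω Ω, M.U (J t) Ω Ω⟫_ℂ‖ :=
              Complex.re_le_norm _
          _ ≤ ‖M.U (J x) Ω Ω‖ * ‖M.U (J t) Ω Ω‖ := norm_inner_le_norm _ _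
          _ = 1 := by rw [hx1, ht1, one_mul]
      have h4 := hmax.hasFDerivAt_eq_zero h3
      have h5 := congrArg (fun L : E →L[ℝ] ℝ => L e) h4
      simpa using h5
    exact Complex.ext h2 h1
  -- the general case
  have h1 : ∀ t, ⟪M.U (J x) Ω f, M.U (J t) Ω g⟫_ℂ =
      ⟪M.U (J x) Ω Ω, M.U (J t) Ω Ω⟫_ℂ * ⟪f, g⟫_ℂ := fun t =>
    hI.inner_U_U h0 (hJ x) (hJ t) (hl x) (hl t) hΩ hΩ1 hf hg
  have h2 : HasFDerivAt (fun t => ⟪M.U (J x) Ω f, M.U (J t) Ω g⟫_ℂ)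
      (((innerSL ℂ (M.U (J x) Ω f)).restrictScalars ℝ).comp D) x :=
    ((innerSL ℂ (M.U (J x) Ω f)).restrictScalars ℝ).hasFDerivAt.comp x hD
  have h3 : HasFDerivAt (fun t => ⟪M.U (J x) Ω Ω, M.U (J t) Ω Ω⟫_ℂ)
      (((innerSL ℂ (M.U (J x) Ω Ω)).restrictScalars ℝ).comp D₀) x :=
    ((innerSL ℂ (M.U (J x) Ω Ω)).restrictScalars ℝ).hasFDerivAt.comp x hD₀
  have h4 : HasFDerivAt (fun t => ⟪M.U (J x) Ω f, M.U (J t) Ω g⟫_ℂ)
      (⟪f, g⟫_ℂ • (((innerSL ℂ (M.U (J x) Ω Ω)).restrictScalars ℝ).comp D₀)) x := by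
    have h7 := h3.const_mul ⟪f, g⟫_ℂ
    refine h7.congr_of_eventuallyEq (Filter.Eventually.of_forall fun t => ?_)
    change _ = ⟪f, g⟫_ℂ * ⟪M.U (J x) Ω Ω, M.U (J t) Ω Ω⟫_ℂ
    rw [← mul_comm]
    exact h1 t
  have h5 := congrArg (fun L : E →L[ℝ] ℂ => L e) (h2.unique h4)
  have h6 : ⟪M.U (J x) Ω f, D e⟫_ℂ = ⟪f, g⟫_ℂ * ⟪M.U (J x) Ω Ω, D₀ e⟫_ℂ := h5
  rw [h6, hr, mul_zero]

end CRep

end Crest.Agent.R330.Cliff442

end
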