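import Crest.Agent.R330.Fact2_161
import Crest.Agent.R330.HvDef_442

/-!
# Row 330, S9-C9 (helper370), part 1: the gauge action of one block on the light module

Abstract form over 161's factorisation. `h : Pol M₁ u v s Ω`, `e : V₁ →ₗᵢ V` a block, `U₁` a lift of
`O` to `F₁` with `U₁ Ω = Ω`, `U` a lift of `O` on the block to `F`.

* `tl h M e U₁` : the operator `U₁ ⊗ 1` on `F`: `tl_Op`, `tl_th`, `tl_perp`, `tl_fix`, `comp_tl`.
* `eq_tl` : if `U` fixes one nonzero vector of an irreducible submodule `W` (for `K`) in the vacuum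
  space of the block and commutes with the `θ y`, `y ∈ K` orthogonal to the block, then `U = U₁ ⊗ 1`
  on `W`; hence `comp_U` : `(Op w)^* (U f) = U₁ ((Op w)^* f)` for `f ∈ W`.
* `pr_upd` : `U (pr l f w) = pr l (update f q (U₁ (f q))) w`.
-/

set_option autoImplicit false
set_option linter.unusedSectionVars false

open scoped InnerProductSpace

noncomputable section

namespace Crest.Agent.R330.C9370

open Crest.Agent.R330.Cliff442 Crest.Agent.R330.Cliff442.CRep Crest.Agent.R330.Fact161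

section one

variable {V V₁ F F₁ ι : Type*} [NormedAddCommGroup V] [InnerProductSpace ℝ V]
  [NormedAddCommGroup V₁] [InnerProductSpace ℝ V₁]
  [NormedAddCommGroup F] [InnerProductSpace ℂ F] [NormedAddCommGroup F₁] [InnerProductSpace ℂ F₁]
  [FiniteDimensional ℂ F] [FiniteDimensional ℂ F₁]
  {M₁ : CRep V₁ F₁} {u v : ι → V₁} {s : Finset ι} {Ω : F₁} (h : Pol M₁ u v s Ω)
  (M : CRep V F) (e : V₁ →ₗᵢ[ℝ] V) {O : V₁ → V₁} {U : F →ₗ[ℂ] F} {U₁ : F₁ →ₗ[ℂ] F₁}

/-- Lifts which fix the vacuum commute with the parity. -/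
theorem par_comm (h1 : ∀ x f, U₁ (M₁.θ x f) = M₁.θ (O x) (U₁ f)) (h0 : U₁ Ω = Ω) (f : F₁) :
    par h (U₁ f) = U₁ (par h f) := by
  have h3 : par h ∘ₗ U₁ = U₁ ∘ₗ par h := by
    refine h.ext (T := fun x => -M₁.θ (O x)) (fun x f => ?_) (fun x f => ?_) ?_
    · rw [LinearMap.comp_apply, LinearMap.comp_apply, h1, par_th]
      rfl
    · rw [LinearMap.comp_apply, LinearMap.comp_apply, par_th, map_neg, h1]
      rfl
    · rw [LinearMap.comp_apply, LinearMap.comp_apply, h0, par_vac, h0]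
  exact LinearMap.congr_fun h3 f

/-- `U₁ ⊗ 1`. -/
def tl (U₁ : F₁ →ₗ[ℂ] F₁) : F →ₗ[ℂ] F :=
  ∑ i, Op h M e (stdOrthonormalBasis ℂ (vacE M e u v s) i) ∘ₗ U₁ ∘ₗ
    (Op h M e (stdOrthonormalBasis ℂ (vacE M e u v s) i)).adjoint

theorem tl_Op (U₁ : F₁ →ₗ[ℂ] F₁) (w : vacE M e u v s) (f : F₁) :
    tl h M e U₁ (Op h M e w f) = Op h M e w (U₁ f) := by
  unfold tl
  rw [LinearMap.sum_apply]
  simp only [LinearMap.comp_apply, J_adj_apply, map_smul]
  conv_rhs => rw [← (stdOrthonormalBasis ℂ (vacE M e u v s)).sum_repr' w]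
  rw [map_sum, LinearMap.sum_apply]
  refine Finset.sum_congr rfl fun i _ => ?_
  rw [map_smul, LinearMap.smul_apply]
  rfl

/-- the components of `(U₁ ⊗ 1) f` -/
theorem comp_tl (U₁ : F₁ →ₗ[ℂ] F₁) (w : vacE M e u v s) (f : F) :
    (Op h M e w).adjoint (tl h M e U₁ f) = U₁ ((Op h M e w).adjoint f) := by
  have h3 : (Op h M e w).adjoint ∘ₗ tl h M e U₁ = U₁ ∘ₗ (Op h M e w).adjoint := by
    refine ext_Op h M e fun w' g => ?_
    rw [LinearMap.comp_apply, LinearMap.comp_apply, tl_Op, J_adj_apply, J_adj_apply, map_smul]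
  exact LinearMap.congr_fun h3 f

theorem tl_th (h1 : ∀ x f, U₁ (M₁.θ x f) = M₁.θ (O x) (U₁ f)) (x : V₁) (f : F) :
    tl h M e U₁ (M.θ (e x) f) = M.θ (e (O x)) (tl h M e U₁ f) := by
  have h3 : tl h M e U₁ ∘ₗ M.θ (e x) = M.θ (e (O x)) ∘ₗ tl h M e U₁ := by
    refine ext_Op h M e fun w' g => ?_
    rw [LinearMap.comp_apply, LinearMap.comp_apply, tl_Op, th_Op, th_Op, tl_Op, h1]
  exact LinearMap.congr_fun h3 f

theorem tl_perp (h1 : ∀ x f, U₁ (M₁.θ x f) = M₁.θ (O x) (U₁ f)) (h0 : U₁ Ω = Ω) {y : V}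
    (hy : ∀ z, ⟪y, e z⟫_ℝ = 0) (f : F) :
    tl h M e U₁ (M.θ y f) = M.θ y (tl h M e U₁ f) := by
  have h3 : tl h M e U₁ ∘ₗ M.θ y = M.θ y ∘ₗ tl h M e U₁ := by
    refine ext_Op h M e fun w' g => ?_
    rw [LinearMap.comp_apply, LinearMap.comp_apply, tl_Op, th_perp_Op h M hy,
      th_perp_Op h M hy, tl_Op, par_comm h h1 h0]
  exact LinearMap.congr_fun h3 f

theorem tl_fix (h0 : U₁ Ω = Ω) {w : F} (hw : w ∈ vacE M e u v s) : tl h M e U₁ w = w := by
  have h3 := tl_Op h M e U₁ ⟨w, hw⟩ Ω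
  rw [Op_vac, h0, Op_vac] at h3
  exact h3

/-- **`U = U₁ ⊗ 1` on the light module.** -/
theorem eq_tl (h1 : ∀ x f, U₁ (M₁.θ x f) = M₁.θ (O x) (U₁ f)) (h0 : U₁ Ω = Ω)
    (hU : ∀ x f, U (M.θ (e x) f) = M.θ (e (O x)) (U f)) {K : Submodule ℝ V} {W : Submodule ℂ F}
    (hI : M.IrrOn K W)
    (hK : ∀ x ∈ K, ∃ x₁ y, x = e x₁ + y ∧ (∀ z, ⟪y, e z⟫_ℝ = 0) ∧
      ∀ f, U (M.θ y f) = M.θ y (U f))
    {w : F} (hw : w ∈ W) (hw0 : w ≠ 0) (hwe : w ∈ vacE M e u v s) (hUw : U w = w) {f : F}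
    (hf : f ∈ W) : U f = tl h M e U₁ f := by
  have hS : W ⊓ LinearMap.eqLocus U (tl h M e U₁) = W := by
    refine (hI.2 _ inf_le_left ?_).resolve_left ?_
    · intro x hx g hg
      obtain ⟨hg1, hg2⟩ := Submodule.mem_inf.1 hg
      rw [LinearMap.mem_eqLocus] at hg2
      refine Submodule.mem_inf.2 ⟨hI.1 x hx g hg1, ?_⟩
      obtain ⟨x₁, y, rfl, hy, hUy⟩ := hK x hx
      rw [LinearMap.mem_eqLocus, M.add, LinearMap.add_apply, map_add, map_add, hU, hUy,
        tl_th h M e h1, tl_perp h M e h1 h0 hy, hg2]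
    · intro hb
      have h3 : w ∈ W ⊓ LinearMap.eqLocus U (tl h M e U₁) := by
        refine Submodule.mem_inf.2 ⟨hw, ?_⟩
        rw [LinearMap.mem_eqLocus, hUw, tl_fix h M e h0 hwe]
      rw [hb, Submodule.mem_bot] at h3
      exact hw0 h3
  have h4 : f ∈ W ⊓ LinearMap.eqLocus U (tl h M e U₁) := hS.symm ▸ hf
  exact (Submodule.mem_inf.1 h4).2

/-- **Components of `U f`.** -/
theorem comp_U (h1 : ∀ x f, U₁ (M₁.θ x f) = M₁.θ (O x) (U₁ f)) (h0 : U₁ Ω = Ω)
    (hU : ∀ x f, U (M.θ (e x) f) = M.θ (e (O x)) (U f)) {K : Submodule ℝ V} {W : Submodule ℂ F}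
    (hI : M.IrrOn K W)
    (hK : ∀ x ∈ K, ∃ x₁ y, x = e x₁ + y ∧ (∀ z, ⟪y, e z⟫_ℝ = 0) ∧
      ∀ f, U (M.θ y f) = M.θ y (U f))
    {w : F} (hw : w ∈ W) (hw0 : w ≠ 0) (hwe : w ∈ vacE M e u v s) (hUw : U w = w) {f : F}
    (hf : f ∈ W) (w' : vacE M e u v s) :
    (Op h M e w').adjoint (U f) = U₁ ((Op h M e w').adjoint f) := by
  rw [eq_tl h M e h1 h0 hU hI hK hw hw0 hwe hUw hf, comp_tl]

end one

section fam

variable {V F : Type*} [NormedAddCommGroup V] [InnerProductSpace ℝ V]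
  [NormedAddCommGroup F] [InnerProductSpace ℂ F]
  [FiniteDimensional ℂ F] {κ : Type*} [DecidableEq κ] {Vf Ff ιf : κ → Type*}
  [∀ p, NormedAddCommGroup (Vf p)] [∀ p, InnerProductSpace ℝ (Vf p)]
  [∀ p, NormedAddCommGroup (Ff p)] [∀ p, InnerProductSpace ℂ (Ff p)]
  {M₁ : ∀ p, CRep (Vf p) (Ff p)} {u v : ∀ p, ιf p → Vf p} {s : ∀ p, Finset (ιf p)}
  {Ω : ∀ p, Ff p} (h : ∀ p, Pol (M₁ p) (u p) (v p) (s p) (Ω p)) (M : CRep V F)
  {e : ∀ p, Vf p →ₗᵢ[ℝ] V}

/-- **The gauge action of one block on words.** -/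
theorem pr_upd {U : F →ₗ[ℂ] F} {q : κ} {O : Vf q → Vf q} {U₁ : Ff q →ₗ[ℂ] Ff q}
    (ho : ∀ p q, p ≠ q → ∀ x y, ⟪e p x, e q y⟫_ℝ = 0)
    (hO : Function.Surjective O) (hi : Function.Injective U₁)
    (hU : ∀ x f, U (M.θ (e q x) f) = M.θ (e q (O x)) (U f))
    (hU' : ∀ p, p ≠ q → ∀ x f, U (M.θ (e p x) f) = M.θ (e p x) (U f))
    (h1 : ∀ x f, U₁ ((M₁ q).θ x f) = (M₁ q).θ (O x) (U₁ f)) (h0 : U₁ (Ω q) = Ω q)
    {l : List κ} (hl : l.Nodup) (f : ∀ p, Ff p) {w : F} (hw : w ∈ vacA M e u v s) :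
    U (pr h M e l f w) = pr h M e l (Function.update f q (U₁ (f q))) (U w) := by
  have h3 := pr_lift (σ := id) (O := Function.update (fun p => (id : Vf p → Vf p)) q O)
    (Up := Function.update (fun p => (LinearMap.id : Ff p →ₗ[ℂ] Ff p)) q U₁) (U := U) h M ho
    (fun p => by
      by_cases hp : p = q
      · subst hp
        rw [Function.update_self]
        exact hO
      · rw [Function.update_of_ne hp]
        exact Function.surjective_id)
    (fun p => by
      by_cases hp : p = q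
      · subst hp
        rw [Function.update_self]
        exact hi
      · rw [Function.update_of_ne hp]
        exact Function.injective_id)
    (fun p x f => by
      by_cases hp : p = q
      · subst hp
        rw [Function.update_self]
        exact hU x f
      · rw [Function.update_of_ne hp]
        exact hU' p hp x f)
    (fun p x f => by
      by_cases hp : p = q
      · subst hp
        rw [Function.update_self, Function.update_self]
        exact h1 x f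
      · rw [Function.update_of_ne hp, Function.update_of_ne hp]
        rfl)
    (fun p => by
      by_cases hp : p = q
      · subst hp
        rw [Function.update_self]
        exact h0
      · rw [Function.update_of_ne hp]
        rfl)
    hl (f := f) (g := Function.update f q (U₁ (f q)))
    (fun p _ => by
      by_cases hp : p = q
      · subst hp
        simp only [id, Function.update_self]
      · simp only [id]
        rw [Function.update_of_ne hp, Function.update_of_ne hp]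
        rfl)
    hw
  rw [List.map_id] at h3
  exact h3

end fam

end Crest.Agent.R330.C9370

end
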