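import Crest.Agent.R330.DirG_837

/-!
# R330/CC_342 (leaf S7-CC) : crude coercivity / parity decoupling

`A_α = Σ_k (-i) a_αk ∂_{e_k} + V^A_α(x)` (light part, `a` constant, all coefficients even),
`B_α = Σ_l (-i) b_αl(x) ∂_{f_l} + V^B_α(x)` (heavy part, all coefficients odd), where every
coefficient of `A` anticommutes with every coefficient of `B`, `∂_{f_l} b_αl = 0`,
`∂_{f_l} V^A_α = 0`.
* `anti_comm`  : `A_α B_α φ + B_α A_α φ = X_α φ` (first order in `f_l`, odd);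
* `cross_eq`   : `2 Re ∫⟪A φ, B φ⟫ = Re ∫⟪φ, X φ⟫`;
* `cross_le`   : `|2 Re ∫⟪A φ, B φ⟫| ≤ 2 ‖φ₋‖ ‖X φ₊‖`;
* `cc`         : `Σ‖A φ‖² + 1/2 Σ‖B φ‖² ≤ Σ‖(A+B) φ‖² + 2 M ‖φ‖²`.
-/

set_option autoImplicit false
set_option linter.unusedSectionVars false
set_option linter.deprecated false

noncomputable section

namespace Crest.Agent.R330.CC342

open MeasureTheory Filter Topology
open scoped ContDiff InnerProductSpace ENNReal
open Crest.Agent.R330.IBP837 Crest.Agent.R330.DirG837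

variable {E : Type*} [NormedAddCommGroup E] [NormedSpace ℝ E]
  {κ : Type*} [Fintype κ] {ι : Type*} [Fintype ι]
  {F : Type*} [NormedAddCommGroup F] [InnerProductSpace ℂ F] [FiniteDimensional ℂ F]

/-! ### 1. The anticommutator -/

/-- The anticommutator of the light and the heavy charge. -/
def xop (e : κ → E) (a : κ → F →ₗ[ℂ] F) (f : ι → E) (b : ι → E → F →ₗ[ℂ] F)
    (V : E → F →ₗ[ℂ] F) (φ : E → F) (x : E) : F :=
  (∑ l, ∑ k, (-Complex.I) • (-Complex.I) •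
    a k (fderiv ℝ (fun y => b l y (fderiv ℝ φ x (f l))) x (e k))) +
  ∑ k, (-Complex.I) • a k (fderiv ℝ (fun y => V y (φ x)) x (e k))

section Anti

variable {e : κ → E} {a : κ → F →ₗ[ℂ] F} {VA : E → F →ₗ[ℂ] F}
  {f : ι → E} {b : ι → E → F →ₗ[ℂ] F} {VB : E → F →ₗ[ℂ] F}

theorem contDiff_const_lin (L : F →ₗ[ℂ] F) {n : WithTop ℕ∞} (v : F) :
    ContDiff ℝ n (fun _ : E => L v) := contDiff_const

theorem fderiv_const_lin {ψ : E → F} (hψ : ContDiff ℝ 1 ψ) (L : F →ₗ[ℂ] F) (x v : E) :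
    fderiv ℝ (fun y => L (ψ y)) x v = L (fderiv ℝ ψ x v) := by
  have h := fderiv_lin (E := E) (B := fun _ : E => L) (ψ := ψ)
    (fun v => contDiff_const) hψ x v
  rw [h]
  simp

/-- derivative of `dirG` -/
theorem fderiv_dirG {ι' : Type*} [Fintype ι'] {e' : ι' → E} {a' : ι' → E → F →ₗ[ℂ] F}
    {V' : E → F →ₗ[ℂ] F} {φ : E → F}
    (ha : ∀ k v, ContDiff ℝ 1 (fun x => a' k x v)) (hV : ∀ v, ContDiff ℝ 1 (fun x => V' x v))
    (hφ : ContDiff ℝ 2 φ) (x v : E) :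
    fderiv ℝ (dirG e' a' V' φ) x v =
      (∑ k, (-Complex.I) • (a' k x (fderiv ℝ (fun y => fderiv ℝ φ y (e' k)) x v) +
        fderiv ℝ (fun y => a' k y (fderiv ℝ φ x (e' k))) x v)) +
      (V' x (fderiv ℝ φ x v) + fderiv ℝ (fun y => V' y (φ x)) x v) := by
  have hd : ∀ k, ContDiff ℝ 1 (fun y => fderiv ℝ φ y (e' k)) := fun k =>
    (hφ.fderiv_right (m := 1) (by norm_num)).clm_apply contDiff_const
  have hφ1 : ContDiff ℝ 1 φ := hφ.of_le (by norm_num)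
  have h1 : ∀ k, ContDiff ℝ 1 (fun y => a' k y (fderiv ℝ φ y (e' k))) := fun k =>
    contDiff_lin (ha k) (hd k)
  have h2 : ContDiff ℝ 1 (fun y => V' y (φ y)) := contDiff_lin hV hφ1
  have e1 : fderiv ℝ (dirG e' a' V' φ) x =
      (∑ k, (-Complex.I) • fderiv ℝ (fun y => a' k y (fderiv ℝ φ y (e' k))) x) +
        fderiv ℝ (fun y => V' y (φ y)) x := by
    unfold dirG
    rw [fderiv_fun_add (f := fun y => ∑ k, (-Complex.I) • a' k y (fderiv ℝ φ y (e' k)))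
      (g := fun y => V' y (φ y))]
    · congr 1
      have hs := HasFDerivAt.fun_sum (u := (Finset.univ : Finset ι')) fun k _ =>
        ((h1 k).differentiable (by norm_num) x).hasFDerivAt.const_smul (-Complex.I)
      exact hs.fderiv
    · exact (DifferentiableAt.fun_sum fun k _ =>
        ((h1 k).differentiable (by norm_num) x).const_smul (-Complex.I))
    · exact h2.differentiable (by norm_num) x
  rw [e1, ContinuousLinearMap.add_apply, ContinuousLinearMap.sum_apply, fderiv_lin hV hφ1]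
  congr 1
  refine Finset.sum_congr rfl fun k _ => ?_
  rw [ContinuousLinearMap.smul_apply, fderiv_lin (ha k) (hd k)]

theorem fderiv_swap {φ : E → F} (hφ : ContDiff ℝ 2 φ) (x u v : E) :
    fderiv ℝ (fun y => fderiv ℝ φ y u) x v = fderiv ℝ (fun y => fderiv ℝ φ y v) x u := by
  have h1 : ContDiff ℝ 1 (fderiv ℝ φ) := hφ.fderiv_right (m := 1) (by norm_num)
  have h2 : DifferentiableAt ℝ (fderiv ℝ φ) x := h1.differentiable (by norm_num) x
  have e1 : ∀ w z : E, fderiv ℝ (fun y => fderiv ℝ φ y w) x z =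
      fderiv ℝ (fderiv ℝ φ) x z w := by
    intro w z
    have h3 := (h2.hasFDerivAt.clm_apply (hasFDerivAt_const w x)).fderiv
    have h4 : fderiv ℝ (fun y => fderiv ℝ φ y w) x = _ := h3
    rw [h4]
    simp
  rw [e1, e1]
  have hs : IsSymmSndFDerivAt ℝ φ x := by
    apply ContDiffAt.isSymmSndFDerivAt hφ.contDiffAt
    simp
  exact hs v u

theorem anti_comm (hab : ∀ k l x v, a k (b l x v) = -(b l x (a k v)))
    (haV : ∀ k x v, a k (VB x v) = -(VB x (a k v)))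
    (hVb : ∀ l x v, VA x (b l x v) = -(b l x (VA x v)))
    (hVV : ∀ x v, VA x (VB x v) = -(VB x (VA x v)))
    (hVA : ∀ v, ContDiff ℝ 1 (fun x => VA x v))
    (hb : ∀ l v, ContDiff ℝ 1 (fun x => b l x v)) (hVB : ∀ v, ContDiff ℝ 1 (fun x => VB x v))
    (hdA : ∀ l x v, fderiv ℝ (fun y => VA y v) x (f l) = 0)
    {φ : E → F} (hφ : ContDiff ℝ 2 φ) (x : E) :
    dirG e (fun k _ => a k) VA (dirG f b VB φ) x + dirG f b VB (dirG e (fun k _ => a k) VA φ) x =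
      xop e a f b VB φ x := by
  have h1 : dirG e (fun k _ => a k) VA (dirG f b VB φ) x =
      (∑ k, (-Complex.I) • a k ((∑ l, (-Complex.I) •
          (b l x (fderiv ℝ (fun y => fderiv ℝ φ y (f l)) x (e k)) +
            fderiv ℝ (fun y => b l y (fderiv ℝ φ x (f l))) x (e k))) +
          (VB x (fderiv ℝ φ x (e k)) + fderiv ℝ (fun y => VB y (φ x)) x (e k)))) +
        VA x (dirG f b VB φ x) := by
    conv_lhs => unfold dirG
    congr 1
    refine Finset.sum_congr rfl fun k _ => ?_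
    have := fderiv_dirG (e' := f) (a' := b) (V' := VB) hb hVB hφ x (e k)
    unfold dirG at this
    rw [this]
  have h2 : dirG f b VB (dirG e (fun k _ => a k) VA φ) x =
      (∑ l, (-Complex.I) • b l x ((∑ k, (-Complex.I) •
          a k (fderiv ℝ (fun y => fderiv ℝ φ y (e k)) x (f l))) + VA x (fderiv ℝ φ x (f l)))) +
        VB x (dirG e (fun k _ => a k) VA φ x) := by
    conv_lhs => unfold dirG
    congr 1
    refine Finset.sum_congr rfl fun l _ => ?_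
    have h3 := fderiv_dirG (e' := e) (a' := fun k _ => a k) (V' := VA)
      (fun k v => contDiff_const) hVA hφ x (f l)
    unfold dirG at h3
    rw [h3, hdA l x (φ x), add_zero]
    congr 3
    refine Finset.sum_congr rfl fun k _ => ?_
    congr 1
    simp
  rw [h1, h2]
  have h4 : dirG f b VB φ x = (∑ l, (-Complex.I) • b l x (fderiv ℝ φ x (f l))) + VB x (φ x) := rfl
  have h5 : dirG e (fun k _ => a k) VA φ x =
      (∑ k, (-Complex.I) • a k (fderiv ℝ φ x (e k))) + VA x (φ x) := rfl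
  rw [h4, h5]
  unfold xop
  simp only [map_add, map_sum, map_smul, smul_add, Finset.smul_sum, Finset.sum_add_distrib]
  have s1 : (∑ k, ∑ l, (-Complex.I) • (-Complex.I) •
        a k (b l x (fderiv ℝ (fun y => fderiv ℝ φ y (f l)) x (e k)))) +
      (∑ l, ∑ k, (-Complex.I) • (-Complex.I) •
        b l x (a k (fderiv ℝ (fun y => fderiv ℝ φ y (e k)) x (f l)))) = 0 := by
    rw [Finset.sum_comm, ← Finset.sum_add_distrib]
    refine Finset.sum_eq_zero fun l _ => ?_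
    rw [← Finset.sum_add_distrib]
    refine Finset.sum_eq_zero fun k _ => ?_
    rw [hab, fderiv_swap hφ x (f l) (e k), smul_neg, smul_neg, neg_add_cancel]
  have s2 : (∑ k, (-Complex.I) • a k (VB x (fderiv ℝ φ x (e k)))) +
      ∑ k, (-Complex.I) • VB x (a k (fderiv ℝ φ x (e k))) = 0 := by
    rw [← Finset.sum_add_distrib]
    refine Finset.sum_eq_zero fun k _ => ?_
    rw [haV, smul_neg, neg_add_cancel]
  have s3 : (∑ l, (-Complex.I) • VA x (b l x (fderiv ℝ φ x (f l)))) +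
      ∑ l, (-Complex.I) • b l x (VA x (fderiv ℝ φ x (f l))) = 0 := by
    rw [← Finset.sum_add_distrib]
    refine Finset.sum_eq_zero fun l _ => ?_
    rw [hVb, smul_neg, neg_add_cancel]
  have s4 : VA x (VB x (φ x)) + VB x (VA x (φ x)) = 0 := by rw [hVV, neg_add_cancel]
  have s5 : (∑ k, ∑ l, (-Complex.I) • (-Complex.I) •
        a k (fderiv ℝ (fun y => b l y (fderiv ℝ φ x (f l))) x (e k))) =
      ∑ l, ∑ k, (-Complex.I) • (-Complex.I) •
        a k (fderiv ℝ (fun y => b l y (fderiv ℝ φ x (f l))) x (e k)) := Finset.sum_comm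
  rw [s5]
  generalize (∑ k, ∑ l, (-Complex.I) • (-Complex.I) •
        a k (b l x (fderiv ℝ (fun y => fderiv ℝ φ y (f l)) x (e k)))) = t1 at *
  generalize (∑ l, ∑ k, (-Complex.I) • (-Complex.I) •
        b l x (a k (fderiv ℝ (fun y => fderiv ℝ φ y (e k)) x (f l)))) = t2 at *
  generalize (∑ k, (-Complex.I) • a k (VB x (fderiv ℝ φ x (e k)))) = t3 at *
  generalize (∑ k, (-Complex.I) • VB x (a k (fderiv ℝ φ x (e k)))) = t4 at *
  generalize (∑ l, (-Complex.I) • VA x (b l x (fderiv ℝ φ x (f l)))) = t5 at *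
  generalize (∑ l, (-Complex.I) • b l x (VA x (fderiv ℝ φ x (f l)))) = t6 at *
  generalize VA x (VB x (φ x)) = t7 at *
  generalize VB x (VA x (φ x)) = t8 at *
  have r2 : t2 = -t1 := (neg_eq_of_add_eq_zero_right s1).symm
  have r4 : t4 = -t3 := (neg_eq_of_add_eq_zero_right s2).symm
  have r6 : t6 = -t5 := (neg_eq_of_add_eq_zero_right s3).symm
  have r8 : t8 = -t7 := (neg_eq_of_add_eq_zero_right s4).symm
  rw [r2, r4, r6, r8]
  abel

end Anti

/-! ### 2. Parity -/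

/-- even part -/
def pp (Γ : F →ₗ[ℂ] F) (v : F) : F := (1 / 2 : ℂ) • (v + Γ v)

/-- odd part -/
def pm (Γ : F →ₗ[ℂ] F) (v : F) : F := (1 / 2 : ℂ) • (v - Γ v)

section Parity

variable {Γ : F →ₗ[ℂ] F}

theorem pp_add_pm (v : F) : pp Γ v + pm Γ v = v := by
  unfold pp pm
  rw [← smul_add, add_add_sub_cancel, ← two_smul ℂ v, smul_smul]
  norm_num

/-- linear form of the even part -/
def ppL (Γ : F →ₗ[ℂ] F) : F →ₗ[ℂ] F := (1 / 2 : ℂ) • (LinearMap.id + Γ)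

/-- linear form of the odd part -/
def pmL (Γ : F →ₗ[ℂ] F) : F →ₗ[ℂ] F := (1 / 2 : ℂ) • (LinearMap.id - Γ)

theorem ppL_apply (v : F) : ppL Γ v = pp Γ v := rfl

theorem pmL_apply (v : F) : pmL Γ v = pm Γ v := rfl

theorem inner_pp_pm (hΓs : Γ.IsSymmetric) (hΓ : ∀ v, Γ (Γ v) = v) (v w : F) :
    ⟪pp Γ v, pm Γ w⟫_ℂ = 0 := by
  unfold pp pm
  rw [inner_smul_left, inner_smul_right, inner_add_left, inner_sub_right, inner_sub_right,
    hΓs v w, hΓs v (Γ w), hΓ]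
  ring

theorem inner_pm_pp (hΓs : Γ.IsSymmetric) (hΓ : ∀ v, Γ (Γ v) = v) (v w : F) :
    ⟪pm Γ v, pp Γ w⟫_ℂ = 0 := by
  rw [← inner_conj_symm, inner_pp_pm hΓs hΓ, map_zero]

theorem norm_sq_parity (hΓs : Γ.IsSymmetric) (hΓ : ∀ v, Γ (Γ v) = v) (v : F) :
    ‖v‖ ^ 2 = ‖pp Γ v‖ ^ 2 + ‖pm Γ v‖ ^ 2 := by
  conv_lhs => rw [← pp_add_pm (Γ := Γ) v]
  rw [@norm_add_sq ℂ, inner_pp_pm hΓs hΓ]
  simp

theorem even_pp {L : F →ₗ[ℂ] F} (h : ∀ v, Γ (L v) = L (Γ v)) (v : F) :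
    L (pp Γ v) = pp Γ (L v) := by
  unfold pp; rw [map_smul, map_add, h]

theorem even_pm {L : F →ₗ[ℂ] F} (h : ∀ v, Γ (L v) = L (Γ v)) (v : F) :
    L (pm Γ v) = pm Γ (L v) := by
  unfold pm; rw [map_smul, map_sub, h]

theorem odd_pp {L : F →ₗ[ℂ] F} (h : ∀ v, Γ (L v) = -(L (Γ v))) (v : F) :
    L (pp Γ v) = pm Γ (L v) := by
  unfold pp pm; rw [map_smul, map_add, h, sub_neg_eq_add]

theorem odd_pm {L : F →ₗ[ℂ] F} (h : ∀ v, Γ (L v) = -(L (Γ v))) (v : F) :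
    L (pm Γ v) = pp Γ (L v) := by
  unfold pp pm; rw [map_smul, map_sub, h, sub_eq_add_neg]

theorem pp_sum {τ : Type*} (s : Finset τ) (g : τ → F) :
    pp Γ (∑ i ∈ s, g i) = ∑ i ∈ s, pp Γ (g i) := map_sum (ppL Γ) g s

theorem pm_sum {τ : Type*} (s : Finset τ) (g : τ → F) :
    pm Γ (∑ i ∈ s, g i) = ∑ i ∈ s, pm Γ (g i) := map_sum (pmL Γ) g s

theorem pp_smul (c : ℂ) (v : F) : pp Γ (c • v) = c • pp Γ v := (ppL Γ).map_smul c v

theorem pm_smul (c : ℂ) (v : F) : pm Γ (c • v) = c • pm Γ v := (pmL Γ).map_smul c v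

theorem pp_add (v w : F) : pp Γ (v + w) = pp Γ v + pp Γ w := (ppL Γ).map_add v w

theorem pm_add (v w : F) : pm Γ (v + w) = pm Γ v + pm Γ w := (pmL Γ).map_add v w

theorem fderiv_pp {φ : E → F} (hφ : ContDiff ℝ 1 φ) (x v : E) :
    fderiv ℝ (fun y => pp Γ (φ y)) x v = pp Γ (fderiv ℝ φ x v) :=
  fderiv_const_lin hφ (ppL Γ) x v

theorem fderiv_pm {φ : E → F} (hφ : ContDiff ℝ 1 φ) (x v : E) :
    fderiv ℝ (fun y => pm Γ (φ y)) x v = pm Γ (fderiv ℝ φ x v) :=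
  fderiv_const_lin hφ (pmL Γ) x v

theorem contDiff_pp {n : WithTop ℕ∞} {φ : E → F} (hφ : ContDiff ℝ n φ) :
    ContDiff ℝ n (fun y => pp Γ (φ y)) :=
  contDiff_lin (B := fun _ : E => ppL Γ) (fun _ => contDiff_const) hφ

theorem contDiff_pm {n : WithTop ℕ∞} {φ : E → F} (hφ : ContDiff ℝ n φ) :
    ContDiff ℝ n (fun y => pm Γ (φ y)) :=
  contDiff_lin (B := fun _ : E => pmL Γ) (fun _ => contDiff_const) hφ

theorem hcs_pp {φ : E → F} (hφ : HasCompactSupport φ) : HasCompactSupport fun y => pp Γ (φ y) :=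
  hφ.mono' (fun x hx => subset_tsupport _ (by intro h0; apply hx; simp [pp, h0]))

theorem hcs_pm {φ : E → F} (hφ : HasCompactSupport φ) : HasCompactSupport fun y => pm Γ (φ y) :=
  hφ.mono' (fun x hx => subset_tsupport _ (by intro h0; apply hx; simp [pm, h0]))

variable {ι' : Type*} [Fintype ι'] {e' : ι' → E} {a' : ι' → E → F →ₗ[ℂ] F}
    {V' : E → F →ₗ[ℂ] F} {φ : E → F}

theorem dirG_even_pp (ha : ∀ k x v, Γ (a' k x v) = a' k x (Γ v))
    (hV : ∀ x v, Γ (V' x v) = V' x (Γ v)) (hφ : ContDiff ℝ 1 φ) (x : E) :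
    dirG e' a' V' (fun y => pp Γ (φ y)) x = pp Γ (dirG e' a' V' φ x) := by
  unfold dirG
  rw [pp_add, pp_sum, even_pp (hV x)]
  congr 1
  refine Finset.sum_congr rfl fun k _ => ?_
  rw [fderiv_pp hφ, even_pp (ha k x), pp_smul]

theorem dirG_even_pm (ha : ∀ k x v, Γ (a' k x v) = a' k x (Γ v))
    (hV : ∀ x v, Γ (V' x v) = V' x (Γ v)) (hφ : ContDiff ℝ 1 φ) (x : E) :
    dirG e' a' V' (fun y => pm Γ (φ y)) x = pm Γ (dirG e' a' V' φ x) := by
  unfold dirG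
  rw [pm_add, pm_sum, even_pm (hV x)]
  congr 1
  refine Finset.sum_congr rfl fun k _ => ?_
  rw [fderiv_pm hφ, even_pm (ha k x), pm_smul]

theorem dirG_odd_pp (ha : ∀ k x v, Γ (a' k x v) = -(a' k x (Γ v)))
    (hV : ∀ x v, Γ (V' x v) = -(V' x (Γ v))) (hφ : ContDiff ℝ 1 φ) (x : E) :
    dirG e' a' V' (fun y => pp Γ (φ y)) x = pm Γ (dirG e' a' V' φ x) := by
  unfold dirG
  rw [pm_add, pm_sum, odd_pp (hV x)]
  congr 1
  refine Finset.sum_congr rfl fun k _ => ?_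
  rw [fderiv_pp hφ, odd_pp (ha k x), pm_smul]

theorem dirG_odd_pm (ha : ∀ k x v, Γ (a' k x v) = -(a' k x (Γ v)))
    (hV : ∀ x v, Γ (V' x v) = -(V' x (Γ v))) (hφ : ContDiff ℝ 1 φ) (x : E) :
    dirG e' a' V' (fun y => pm Γ (φ y)) x = pp Γ (dirG e' a' V' φ x) := by
  unfold dirG
  rw [pp_add, pp_sum, odd_pm (hV x)]
  congr 1
  refine Finset.sum_congr rfl fun k _ => ?_
  rw [fderiv_pm hφ, odd_pm (ha k x), pp_smul]

end Parity

/-! ### 3. Integrated cross term -/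

section Cross

variable [FiniteDimensional ℝ E] [MeasurableSpace E] [BorelSpace E] {μ : Measure E}
  [μ.IsAddHaarMeasure]

/-- The structural hypotheses on one pair of charges. -/
structure Pair (Γ : F →ₗ[ℂ] F) (e : κ → E) (a : κ → F →ₗ[ℂ] F) (VA : E → F →ₗ[ℂ] F)
    (f : ι → E) (b : ι → E → F →ₗ[ℂ] F) (VB : E → F →ₗ[ℂ] F) : Prop where
  as : ∀ k, (a k).IsSymmetric
  VAs : ∀ x, (VA x).IsSymmetric
  bs : ∀ l x, (b l x).IsSymmetric
  VBs : ∀ x, (VB x).IsSymmetric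
  aΓ : ∀ k v, Γ (a k v) = a k (Γ v)
  VAΓ : ∀ x v, Γ (VA x v) = VA x (Γ v)
  bΓ : ∀ l x v, Γ (b l x v) = -(b l x (Γ v))
  VBΓ : ∀ x v, Γ (VB x v) = -(VB x (Γ v))
  ab : ∀ k l x v, a k (b l x v) = -(b l x (a k v))
  aV : ∀ k x v, a k (VB x v) = -(VB x (a k v))
  Vb : ∀ l x v, VA x (b l x v) = -(b l x (VA x v))
  VV : ∀ x v, VA x (VB x v) = -(VB x (VA x v))
  dVA : ∀ v, ContDiff ℝ 1 (fun x => VA x v)
  db : ∀ l v, ContDiff ℝ 1 (fun x => b l x v)
  dVB : ∀ v, ContDiff ℝ 1 (fun x => VB x v)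
  zVA : ∀ l x v, fderiv ℝ (fun y => VA y v) x (f l) = 0
  zb : ∀ l x v, fderiv ℝ (fun y => b l y v) x (f l) = 0

variable {Γ : F →ₗ[ℂ] F} {e : κ → E} {a : κ → F →ₗ[ℂ] F} {VA : E → F →ₗ[ℂ] F}
  {f : ι → E} {b : ι → E → F →ₗ[ℂ] F} {VB : E → F →ₗ[ℂ] F}

namespace Pair

variable (P : Pair Γ e a VA f b VB)
include P

theorem symmA {φ ψ : E → F} (hφ : ContDiff ℝ 1 φ) (hψ : ContDiff ℝ 1 ψ)
    (hc : HasCompactSupport φ ∨ HasCompactSupport ψ) :
    ∫ x, ⟪dirG e (fun k _ => a k) VA φ x, ψ x⟫_ℂ ∂μ =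
      ∫ x, ⟪φ x, dirG e (fun k _ => a k) VA ψ x⟫_ℂ ∂μ :=
  dirG_symm (fun k _ => P.as k) P.VAs (fun _ _ => contDiff_const)
    (fun v => (P.dVA v).continuous) (fun x v => by simp) hφ hψ hc

theorem symmB {φ ψ : E → F} (hφ : ContDiff ℝ 1 φ) (hψ : ContDiff ℝ 1 ψ)
    (hc : HasCompactSupport φ ∨ HasCompactSupport ψ) :
    ∫ x, ⟪dirG f b VB φ x, ψ x⟫_ℂ ∂μ = ∫ x, ⟪φ x, dirG f b VB ψ x⟫_ℂ ∂μ :=
  dirG_symm P.bs P.VBs P.db (fun v => (P.dVB v).continuous)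
    (fun x v => Finset.sum_eq_zero fun l _ => P.zb l x v) hφ hψ hc

theorem cA {φ : E → F} (hφ : ContDiff ℝ 2 φ) : ContDiff ℝ 1 (dirG e (fun k _ => a k) VA φ) :=
  contDiff_dirG (n := 2) (m := 1) (by norm_num) (fun _ _ => contDiff_const) P.dVA hφ

theorem cB {φ : E → F} (hφ : ContDiff ℝ 2 φ) : ContDiff ℝ 1 (dirG f b VB φ) :=
  contDiff_dirG (n := 2) (m := 1) (by norm_num) P.db P.dVB hφ

theorem x_eq {φ : E → F} (hφ : ContDiff ℝ 2 φ) (x : E) :
    xop e a f b VB φ x =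
      dirG e (fun k _ => a k) VA (dirG f b VB φ) x +
        dirG f b VB (dirG e (fun k _ => a k) VA φ) x :=
  (anti_comm P.ab P.aV P.Vb P.VV P.dVA P.db P.dVB P.zVA hφ x).symm

theorem continuous_x {φ : E → F} (hφ : ContDiff ℝ 2 φ) : Continuous (xop e a f b VB φ) := by
  have h : xop e a f b VB φ = fun x => dirG e (fun k _ => a k) VA (dirG f b VB φ) x +
        dirG f b VB (dirG e (fun k _ => a k) VA φ) x := funext fun x => P.x_eq hφ x
  have h1 : Continuous (dirG e (fun k _ => a k) VA (dirG f b VB φ)) :=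
    continuous_dirG (fun _ _ => continuous_const) (fun v => (P.dVA v).continuous) (P.cB hφ)
  have h2 : Continuous (dirG f b VB (dirG e (fun k _ => a k) VA φ)) :=
    continuous_dirG (fun l v => (P.db l v).continuous) (fun v => (P.dVB v).continuous) (P.cA hφ)
  rw [h]
  exact h1.add h2

theorem hcs_x {φ : E → F} (hφ : ContDiff ℝ 2 φ) (hc : HasCompactSupport φ) :
    HasCompactSupport (xop e a f b VB φ) := by
  have h : xop e a f b VB φ = fun x => dirG e (fun k _ => a k) VA (dirG f b VB φ) x +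
        dirG f b VB (dirG e (fun k _ => a k) VA φ) x := funext fun x => P.x_eq hφ x
  have h1 : HasCompactSupport (dirG e (fun k _ => a k) VA (dirG f b VB φ)) :=
    hasCompactSupport_dirG (hasCompactSupport_dirG hc)
  have h2 : HasCompactSupport (dirG f b VB (dirG e (fun k _ => a k) VA φ)) :=
    hasCompactSupport_dirG (hasCompactSupport_dirG hc)
  rw [h]
  exact h1.add h2

/-- **Parity decoupling of the cross term** -/
theorem cross_eq (hΓs : Γ.IsSymmetric) (hΓ : ∀ v, Γ (Γ v) = v) {φ : E → F}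
    (hφ : ContDiff ℝ 2 φ) (hc : HasCompactSupport φ) :
    (∫ x, ⟪dirG e (fun k _ => a k) VA φ x, dirG f b VB φ x⟫_ℂ ∂μ).re =
      (∫ x, ⟪pm Γ (φ x), xop e a f b VB (fun y => pp Γ (φ y)) x⟫_ℂ ∂μ).re := by
  have hφ1 : ContDiff ℝ 1 φ := hφ.of_le (by norm_num)
  have hp2 : ContDiff ℝ 2 (fun y => pp Γ (φ y)) := contDiff_pp hφ
  have hm2 : ContDiff ℝ 2 (fun y => pm Γ (φ y)) := contDiff_pm hφ
  have hp1 : ContDiff ℝ 1 (fun y => pp Γ (φ y)) := contDiff_pp hφ1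
  have hm1 : ContDiff ℝ 1 (fun y => pm Γ (φ y)) := contDiff_pm hφ1
  have hpc : HasCompactSupport (fun y => pp Γ (φ y)) := hcs_pp hc
  have hmc : HasCompactSupport (fun y => pm Γ (φ y)) := hcs_pm hc
  set A : (E → F) → E → F := dirG e (fun k _ => a k) VA with hA
  set B : (E → F) → E → F := dirG f b VB with hB
  have hApc : Continuous (A (fun y => pp Γ (φ y))) := (P.cA hp2).continuous
  have hAmc : Continuous (A (fun y => pm Γ (φ y))) := (P.cA hm2).continuous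
  have hBpc : Continuous (B (fun y => pp Γ (φ y))) := (P.cB hp2).continuous
  have hBmc : Continuous (B (fun y => pm Γ (φ y))) := (P.cB hm2).continuous
  have hsplit : ∀ x, ⟪A φ x, B φ x⟫_ℂ =
      ⟪A (fun y => pp Γ (φ y)) x, B (fun y => pm Γ (φ y)) x⟫_ℂ +
        ⟪A (fun y => pm Γ (φ y)) x, B (fun y => pp Γ (φ y)) x⟫_ℂ := by
    intro x
    have e1 : A (fun y => pp Γ (φ y)) x = pp Γ (A φ x) :=
      dirG_even_pp (fun k _ v => P.aΓ k v) P.VAΓ hφ1 x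
    have e2 : A (fun y => pm Γ (φ y)) x = pm Γ (A φ x) :=
      dirG_even_pm (fun k _ v => P.aΓ k v) P.VAΓ hφ1 x
    have e3 : B (fun y => pp Γ (φ y)) x = pm Γ (B φ x) := dirG_odd_pp P.bΓ P.VBΓ hφ1 x
    have e4 : B (fun y => pm Γ (φ y)) x = pp Γ (B φ x) := dirG_odd_pm P.bΓ P.VBΓ hφ1 x
    rw [e1, e2, e3, e4]
    conv_lhs => rw [← pp_add_pm (Γ := Γ) (A φ x), ← pp_add_pm (Γ := Γ) (B φ x)]
    rw [inner_add_left, inner_add_right, inner_add_right, inner_pp_pm hΓs hΓ,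
      inner_pm_pp hΓs hΓ]
    ring
  have i1 : Integrable (fun x => ⟪A (fun y => pp Γ (φ y)) x, B (fun y => pm Γ (φ y)) x⟫_ℂ) μ :=
    integrable_inner_of_cont hApc hBmc (Or.inl (hasCompactSupport_dirG hpc))
  have i2 : Integrable (fun x => ⟪A (fun y => pm Γ (φ y)) x, B (fun y => pp Γ (φ y)) x⟫_ℂ) μ :=
    integrable_inner_of_cont hAmc hBpc (Or.inl (hasCompactSupport_dirG hmc))
  have h1 : ∫ x, ⟪A φ x, B φ x⟫_ℂ ∂μ =
      ∫ x, ⟪A (fun y => pp Γ (φ y)) x, B (fun y => pm Γ (φ y)) x⟫_ℂ ∂μ +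
        ∫ x, ⟪A (fun y => pm Γ (φ y)) x, B (fun y => pp Γ (φ y)) x⟫_ℂ ∂μ := by
    rw [← integral_add i1 i2]
    exact integral_congr_ae (Eventually.of_forall hsplit)
  have h2 : ∫ x, ⟪A (fun y => pp Γ (φ y)) x, B (fun y => pm Γ (φ y)) x⟫_ℂ ∂μ =
      ∫ x, ⟪B (A (fun y => pp Γ (φ y))) x, pm Γ (φ x)⟫_ℂ ∂μ :=
    (P.symmB (P.cA hp2) hm1 (Or.inr hmc)).symm
  have h3 : ∫ x, ⟪A (fun y => pm Γ (φ y)) x, B (fun y => pp Γ (φ y)) x⟫_ℂ ∂μ =
      ∫ x, ⟪pm Γ (φ x), A (B (fun y => pp Γ (φ y))) x⟫_ℂ ∂μ :=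
    P.symmA hm1 (P.cB hp2) (Or.inl hmc)
  have h4 : (∫ x, ⟪B (A (fun y => pp Γ (φ y))) x, pm Γ (φ x)⟫_ℂ ∂μ).re =
      (∫ x, ⟪pm Γ (φ x), B (A (fun y => pp Γ (φ y))) x⟫_ℂ ∂μ).re := by
    have : ∫ x, ⟪B (A (fun y => pp Γ (φ y))) x, pm Γ (φ x)⟫_ℂ ∂μ =
        (starRingEnd ℂ) (∫ x, ⟪pm Γ (φ x), B (A (fun y => pp Γ (φ y))) x⟫_ℂ ∂μ) := by
      rw [← integral_conj]
      refine integral_congr_ae (Eventually.of_forall fun x => ?_)
      exact (inner_conj_symm _ _).symm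
    rw [this, Complex.conj_re]
  have c1 : Continuous (B (A (fun y => pp Γ (φ y)))) :=
    continuous_dirG (fun l v => (P.db l v).continuous) (fun v => (P.dVB v).continuous) (P.cA hp2)
  have c2 : Continuous (A (B (fun y => pp Γ (φ y)))) :=
    continuous_dirG (fun _ _ => continuous_const) (fun v => (P.dVA v).continuous) (P.cB hp2)
  have h5 : ∫ x, ⟪pm Γ (φ x), xop e a f b VB (fun y => pp Γ (φ y)) x⟫_ℂ ∂μ =
      ∫ x, ⟪pm Γ (φ x), A (B (fun y => pp Γ (φ y))) x⟫_ℂ ∂μ +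
        ∫ x, ⟪pm Γ (φ x), B (A (fun y => pp Γ (φ y))) x⟫_ℂ ∂μ := by
    rw [← integral_add (integrable_inner_of_cont hm1.continuous c2 (Or.inl hmc))
      (integrable_inner_of_cont hm1.continuous c1 (Or.inl hmc))]
    refine integral_congr_ae (Eventually.of_forall fun x => ?_)
    show ⟪pm Γ (φ x), xop e a f b VB (fun y => pp Γ (φ y)) x⟫_ℂ =
      ⟪pm Γ (φ x), A (B (fun y => pp Γ (φ y))) x⟫_ℂ +
      ⟪pm Γ (φ x), B (A (fun y => pp Γ (φ y))) x⟫_ℂ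
    rw [← inner_add_right, P.x_eq hp2 x]
  rw [h1, h2, h3, h5, Complex.add_re, Complex.add_re, h4, add_comm]

theorem cross_ge (hΓs : Γ.IsSymmetric) (hΓ : ∀ v, Γ (Γ v) = v) {φ : E → F}
    (hφ : ContDiff ℝ 2 φ) (hc : HasCompactSupport φ) {t : ℝ} (ht : 0 < t) :
    -(t * ∫ x, ‖pm Γ (φ x)‖ ^ 2 ∂μ + t⁻¹ * ∫ x, ‖xop e a f b VB (fun y => pp Γ (φ y)) x‖ ^ 2 ∂μ) ≤
      2 * (∫ x, ⟪dirG e (fun k _ => a k) VA φ x, dirG f b VB φ x⟫_ℂ ∂μ).re := by
  rw [P.cross_eq hΓs hΓ hφ hc]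
  have hp2 : ContDiff ℝ 2 (fun y => pp Γ (φ y)) := contDiff_pp hφ
  have hm2 : ContDiff ℝ 2 (fun y => pm Γ (φ y)) := contDiff_pm hφ
  have hpc : HasCompactSupport (fun y => pp Γ (φ y)) := hcs_pp hc
  have hmc : HasCompactSupport (fun y => pm Γ (φ y)) := hcs_pm hc
  have hX := P.continuous_x hp2
  have hXc := P.hcs_x hp2 hpc
  have i0 : Integrable (fun x => ⟪pm Γ (φ x), xop e a f b VB (fun y => pp Γ (φ y)) x⟫_ℂ) μ :=
    integrable_inner_of_cont hm2.continuous hX (Or.inl hmc)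
  have i1 : Integrable (fun x => ‖pm Γ (φ x)‖ ^ 2) μ :=
    (hm2.continuous.norm.pow 2).integrable_of_hasCompactSupport
      (hmc.mono' fun x hx => subset_tsupport _ (by
        intro h0; apply hx; have h00 : pm Γ (φ x) = 0 := h0; simp [h00]))
  have i2 : Integrable (fun x => ‖xop e a f b VB (fun y => pp Γ (φ y)) x‖ ^ 2) μ :=
    (hX.norm.pow 2).integrable_of_hasCompactSupport
      (hXc.mono' fun x hx => subset_tsupport _ (by
        intro h0; apply hx; simp [h0]))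
  rw [← RCLike.re_eq_complex_re, ← integral_re i0, ← integral_const_mul, ← integral_const_mul,
    ← integral_const_mul, ← integral_add (i1.const_mul _) (i2.const_mul _), ← integral_neg]
  refine integral_mono ((i1.const_mul _).add (i2.const_mul _)).neg (i0.re.const_mul 2) ?_
  intro x
  simp only
  set u := pm Γ (φ x)
  set w := xop e a f b VB (fun y => pp Γ (φ y)) x
  have h1 : -(‖u‖ * ‖w‖) ≤ RCLike.re ⟪u, w⟫_ℂ :=
    (abs_le.1 ((RCLike.abs_re_le_norm _).trans (norm_inner_le_norm u w))).1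
  have h2 : 2 * (‖u‖ * ‖w‖) ≤ t * ‖u‖ ^ 2 + t⁻¹ * ‖w‖ ^ 2 := by
    have h3 : 0 ≤ t⁻¹ * (t * ‖u‖ - ‖w‖) ^ 2 := by positivity
    have h4 : t⁻¹ * (t * ‖u‖ - ‖w‖) ^ 2 = t * ‖u‖ ^ 2 + t⁻¹ * ‖w‖ ^ 2 - 2 * (‖u‖ * ‖w‖) := by
      field_simp
      ring
    linarith
  linarith

/-- expansion of `‖A φ + B φ‖²` -/
theorem norm_sq_add {φ : E → F} (hφ : ContDiff ℝ 2 φ) (hc : HasCompactSupport φ) :
    ∫ x, ‖dirG e (fun k _ => a k) VA φ x + dirG f b VB φ x‖ ^ 2 ∂μ =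
      ∫ x, ‖dirG e (fun k _ => a k) VA φ x‖ ^ 2 ∂μ + ∫ x, ‖dirG f b VB φ x‖ ^ 2 ∂μ +
        2 * (∫ x, ⟪dirG e (fun k _ => a k) VA φ x, dirG f b VB φ x⟫_ℂ ∂μ).re := by
  have cA := (P.cA hφ).continuous
  have cB := (P.cB hφ).continuous
  have hA : HasCompactSupport (dirG e (fun k _ => a k) VA φ) := hasCompactSupport_dirG hc
  have hB : HasCompactSupport (dirG f b VB φ) := hasCompactSupport_dirG hc
  have i0 : Integrable (fun x => ⟪dirG e (fun k _ => a k) VA φ x, dirG f b VB φ x⟫_ℂ) μ :=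
    integrable_inner_of_cont cA cB (Or.inl hA)
  have i1 : Integrable (fun x => ‖dirG e (fun k _ => a k) VA φ x‖ ^ 2) μ :=
    (cA.norm.pow 2).integrable_of_hasCompactSupport
      (hA.mono' fun x hx => subset_tsupport _ (by intro h0; apply hx; simp [h0]))
  have i2 : Integrable (fun x => ‖dirG f b VB φ x‖ ^ 2) μ :=
    (cB.norm.pow 2).integrable_of_hasCompactSupport
      (hB.mono' fun x hx => subset_tsupport _ (by intro h0; apply hx; simp [h0]))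
  have i12 : Integrable (fun x => ‖dirG e (fun k _ => a k) VA φ x‖ ^ 2 +
      ‖dirG f b VB φ x‖ ^ 2) μ := i1.add i2
  rw [← RCLike.re_eq_complex_re, ← integral_re i0, ← integral_const_mul, ← integral_add i1 i2,
    ← integral_add i12 (i0.re.const_mul 2)]
  refine integral_congr_ae (Eventually.of_forall fun x => ?_)
  show ‖dirG e (fun k _ => a k) VA φ x + dirG f b VB φ x‖ ^ 2 = _ + _ + 2 * _
  rw [@norm_add_sq ℂ]
  ring

end Pair

/-- **Crude coercivity (CC), abstract form.** `A_α` light, `B_α` heavy charges, `g` the coupling: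
if the anticommutators are controlled by the heavy form on even functions (`h1`) and the heavy form
has a gap `∼ g` on odd functions (`h2`) then the charges decouple up to `O(1)‖φ‖²`. -/
theorem cc {τ : Type*} [Fintype τ] (hΓs : Γ.IsSymmetric) (hΓ : ∀ v, Γ (Γ v) = v)
    {e : κ → E} {a : τ → κ → F →ₗ[ℂ] F} {VA : τ → E → F →ₗ[ℂ] F}
    {f : ι → E} {b : τ → ι → E → F →ₗ[ℂ] F} {VB : τ → E → F →ₗ[ℂ] F}
    (P : ∀ α, Pair Γ e (a α) (VA α) f (b α) (VB α))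
    {φ : E → F} (hφ : ContDiff ℝ 2 φ) (hc : HasCompactSupport φ)
    {g K₁ K₂ : ℝ} (hg : 0 < g) (hK1 : 0 < K₁) (hK2 : 0 < K₂)
    (hgK : 4 * (Fintype.card τ + 1) * K₁ * K₂ ≤ g)
    (h1 : ∑ α, ∫ x, ‖xop e (a α) f (b α) (VB α) (fun y => pp Γ (φ y)) x‖ ^ 2 ∂μ ≤
      K₁ * (∑ α, ∫ x, ‖dirG f (b α) (VB α) (fun y => pp Γ (φ y)) x‖ ^ 2 ∂μ +
        g * ∫ x, ‖pp Γ (φ x)‖ ^ 2 ∂μ))
    (h2 : g * ∫ x, ‖pm Γ (φ x)‖ ^ 2 ∂μ ≤
      K₂ * ∑ α, ∫ x, ‖dirG f (b α) (VB α) (fun y => pm Γ (φ y)) x‖ ^ 2 ∂μ) :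
    (∑ α, ∫ x, ‖dirG e (fun k _ => a α k) (VA α) φ x‖ ^ 2 ∂μ) +
        1 / 2 * ∑ α, ∫ x, ‖dirG f (b α) (VB α) φ x‖ ^ 2 ∂μ ≤
      (∑ α, ∫ x, ‖dirG e (fun k _ => a α k) (VA α) φ x + dirG f (b α) (VB α) φ x‖ ^ 2 ∂μ) +
        2 * (Fintype.card τ + 1) * K₁ * K₂ * ∫ x, ‖φ x‖ ^ 2 ∂μ := by
  have hφ1 : ContDiff ℝ 1 φ := hφ.of_le (by norm_num)
  set n : ℝ := (Fintype.card τ : ℝ) + 1 with hn
  have hn0 : 0 < n := by positivity
  set t : ℝ := g / (2 * n * K₂) with ht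
  have ht0 : 0 < t := by positivity
  -- abbreviations
  set Sp : ℝ := ∑ α, ∫ x, ‖dirG f (b α) (VB α) (fun y => pp Γ (φ y)) x‖ ^ 2 ∂μ with hSp
  set Sm : ℝ := ∑ α, ∫ x, ‖dirG f (b α) (VB α) (fun y => pm Γ (φ y)) x‖ ^ 2 ∂μ with hSm
  set Pp : ℝ := ∫ x, ‖pp Γ (φ x)‖ ^ 2 ∂μ with hPp
  set Pm : ℝ := ∫ x, ‖pm Γ (φ x)‖ ^ 2 ∂μ with hPm
  set T : ℝ := ∑ α, ∫ x, ‖xop e (a α) f (b α) (VB α) (fun y => pp Γ (φ y)) x‖ ^ 2 ∂μ with hT
  have ipp : Integrable (fun x => ‖pp Γ (φ x)‖ ^ 2) μ :=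
    ((contDiff_pp hφ).continuous.norm.pow 2).integrable_of_hasCompactSupport
      ((hcs_pp hc).mono' fun x hx => subset_tsupport _ (by
        intro h0; apply hx; have h00 : pp Γ (φ x) = 0 := h0; simp [h00]))
  have ipm : Integrable (fun x => ‖pm Γ (φ x)‖ ^ 2) μ :=
    ((contDiff_pm hφ).continuous.norm.pow 2).integrable_of_hasCompactSupport
      ((hcs_pm hc).mono' fun x hx => subset_tsupport _ (by
        intro h0; apply hx; have h00 : pm Γ (φ x) = 0 := h0; simp [h00]))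
  have hP : ∫ x, ‖φ x‖ ^ 2 ∂μ = Pp + Pm := by
    rw [hPp, hPm, ← integral_add ipp ipm]
    exact integral_congr_ae (Eventually.of_forall fun x => norm_sq_parity hΓs hΓ (φ x))
  have hS : ∑ α, ∫ x, ‖dirG f (b α) (VB α) φ x‖ ^ 2 ∂μ = Sp + Sm := by
    rw [hSp, hSm, ← Finset.sum_add_distrib]
    refine Finset.sum_congr rfl fun α _ => ?_
    have c1 := ((P α).cB (contDiff_pp (Γ := Γ) hφ)).continuous
    have c2 := ((P α).cB (contDiff_pm (Γ := Γ) hφ)).continuous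
    have s1 : HasCompactSupport (dirG f (b α) (VB α) (fun y => pp Γ (φ y))) :=
      hasCompactSupport_dirG (hcs_pp hc)
    have s2 : HasCompactSupport (dirG f (b α) (VB α) (fun y => pm Γ (φ y))) :=
      hasCompactSupport_dirG (hcs_pm hc)
    have j1 : Integrable (fun x => ‖dirG f (b α) (VB α) (fun y => pp Γ (φ y)) x‖ ^ 2) μ :=
      (c1.norm.pow 2).integrable_of_hasCompactSupport
        (s1.mono' fun x hx => subset_tsupport _ (by intro h0; apply hx; simp [h0]))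
    have j2 : Integrable (fun x => ‖dirG f (b α) (VB α) (fun y => pm Γ (φ y)) x‖ ^ 2) μ :=
      (c2.norm.pow 2).integrable_of_hasCompactSupport
        (s2.mono' fun x hx => subset_tsupport _ (by intro h0; apply hx; simp [h0]))
    rw [← integral_add j1 j2]
    refine integral_congr_ae (Eventually.of_forall fun x => ?_)
    show ‖dirG f (b α) (VB α) φ x‖ ^ 2 = _ + _
    rw [dirG_odd_pp (P α).bΓ (P α).VBΓ hφ1 x, dirG_odd_pm (P α).bΓ (P α).VBΓ hφ1 x, add_comm]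
    exact norm_sq_parity hΓs hΓ _
  have hPp0 : 0 ≤ Pp := integral_nonneg fun x => by positivity
  have hPm0 : 0 ≤ Pm := integral_nonneg fun x => by positivity
  have hSp0 : 0 ≤ Sp := Finset.sum_nonneg fun α _ => integral_nonneg fun x => by positivity
  have hSm0 : 0 ≤ Sm := Finset.sum_nonneg fun α _ => integral_nonneg fun x => by positivity
  have hT0 : 0 ≤ T := Finset.sum_nonneg fun α _ => integral_nonneg fun x => by positivity
  -- the cross term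
  have hcross : -(t * (n * Pm) + t⁻¹ * T) ≤
      ∑ α, 2 * (∫ x, ⟪dirG e (fun k _ => a α k) (VA α) φ x, dirG f (b α) (VB α) φ x⟫_ℂ ∂μ).re := by
    have h3 := Finset.sum_le_sum fun α (_ : α ∈ (Finset.univ : Finset τ)) =>
      (P α).cross_ge (μ := μ) hΓs hΓ hφ hc ht0
    refine le_trans ?_ h3
    rw [Finset.sum_neg_distrib, Finset.sum_add_distrib, ← Finset.mul_sum, ← Finset.mul_sum,
      Finset.sum_const, Finset.card_univ, nsmul_eq_mul, ← hT, ← hPm]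
    have h4 : (Fintype.card τ : ℝ) * Pm ≤ n * Pm := by
      rw [hn]; nlinarith
    nlinarith
  have hexp : (∑ α, ∫ x, ‖dirG e (fun k _ => a α k) (VA α) φ x + dirG f (b α) (VB α) φ x‖ ^ 2 ∂μ) =
      (∑ α, ∫ x, ‖dirG e (fun k _ => a α k) (VA α) φ x‖ ^ 2 ∂μ) +
        (∑ α, ∫ x, ‖dirG f (b α) (VB α) φ x‖ ^ 2 ∂μ) +
        ∑ α, 2 * (∫ x, ⟪dirG e (fun k _ => a α k) (VA α) φ x,
          dirG f (b α) (VB α) φ x⟫_ℂ ∂μ).re := by
    rw [← Finset.sum_add_distrib, ← Finset.sum_add_distrib]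
    exact Finset.sum_congr rfl fun α _ => (P α).norm_sq_add hφ hc
  rw [hexp, hS, hP]
  have hb1 : t * (n * Pm) ≤ 1 / 2 * Sm := by
    have h5 : t * (n * Pm) = (g * Pm) / (2 * K₂) := by
      rw [ht]; field_simp
    rw [h5, div_le_iff₀ (by positivity)]
    nlinarith
  have hb2 : t⁻¹ * T ≤ 1 / 2 * Sp + 2 * n * K₁ * K₂ * Pp := by
    have h6 : t⁻¹ = 2 * n * K₂ / g := by
      rw [ht, inv_div]
    have h7 : t⁻¹ * T ≤ t⁻¹ * (K₁ * (Sp + g * Pp)) :=
      mul_le_mul_of_nonneg_left h1 (inv_nonneg.2 ht0.le)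
    refine h7.trans ?_
    rw [h6]
    have h8 : 2 * n * K₂ / g * (K₁ * (Sp + g * Pp)) =
        (2 * n * K₁ * K₂ / g) * Sp + 2 * n * K₁ * K₂ * Pp := by
      field_simp
    rw [h8]
    have h9 : 2 * n * K₁ * K₂ / g ≤ 1 / 2 := by
      rw [div_le_iff₀ hg]
      linarith
    nlinarith
  have hb3 : 0 ≤ 2 * n * K₁ * K₂ * Pm := by positivity
  have hb4 : 2 * n * K₁ * K₂ * (Pp + Pm) = 2 * n * K₁ * K₂ * Pp + 2 * n * K₁ * K₂ * Pm := by ring
  linarith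

end Cross

end Crest.Agent.R330.CC342
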