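import Crest.Agent.R330.Fib_924

/-!
# Row 330, S7 (CC) / S9 capture: crude coercivity on a slice, abstract form (helper924)

`CCHyp` collects the hypotheses on the block charges `A_α` and heavy charges `B_α` on `U × Z`;
`CCHyp.decouple` : `Σ ‖A_α Φ‖² + ½ Σ ‖B_α Φ‖² ≤ Σ ‖(A_α + B_α) Φ‖² + C ‖Φ‖²`;
`CCHyp.vac` : `g ∫_S ‖Φ - P Φ‖² ≤ 4 C₂ Σ ∫_S ‖B_α Φ‖² + C δ² g ∫_S ‖Φ‖²` if `s ≤ δ` on `S`.
-/

set_option autoImplicit false
set_option linter.unusedSectionVars false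

noncomputable section

namespace Crest.Agent.R330.Decoup924

open MeasureTheory Filter Topology
open scoped ContDiff InnerProductSpace ENNReal
open Crest.Agent.R330.IBP837

variable {F : Type*} [NormedAddCommGroup F] [InnerProductSpace ℂ F]
  {U Z : Type*} [NormedAddCommGroup U] [NormedSpace ℝ U] [FiniteDimensional ℝ U]
  [MeasurableSpace U] [BorelSpace U]
  [NormedAddCommGroup Z] [NormedSpace ℝ Z] [FiniteDimensional ℝ Z]
  [MeasurableSpace Z] [BorelSpace Z]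
  {κ ι A : Type*} [Fintype κ] [Fintype ι] [Fintype A]

/-- Data of the charges on `U × Z`. -/
structure CCData (F U Z κ ι A : Type*) [NormedAddCommGroup F] [InnerProductSpace ℂ F]
    [NormedAddCommGroup U] [NormedSpace ℝ U] [NormedAddCommGroup Z] [NormedSpace ℝ Z] where
  /-- directions of the block variables -/
  eu : κ → U
  /-- directions of the heavy variables -/
  ez : ι → Z
  /-- kinetic coefficients of the block charges -/
  a : A → κ → F →L[ℝ] F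
  /-- potential of the block charges -/
  w : A → U → F →L[ℝ] F
  /-- first order coefficients of the heavy charges -/
  β : A → ι → U → F →L[ℝ] F
  /-- zero order coefficients of the heavy charges -/
  p : A → U × Z → F →L[ℝ] F
  /-- reference (abelian) first order coefficients -/
  β₀ : A → ι → U → F →L[ℝ] F
  /-- reference (abelian) zero order coefficients -/
  p₀ : A → U → Z → F →L[ℝ] F
  /-- heavy parity -/
  Γ : F →L[ℝ] F
  /-- weight `g |z|` -/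
  ρ : Z → ℝ
  /-- fibrewise vacuum projection -/
  P : U → (Z → F) → Z → F

namespace CCData

variable (D : CCData F U Z κ ι A)

/-- block charges -/
def Aop (α : A) (Φ : U × Z → F) : U × Z → F :=
  op (fun k => (D.eu k, (0 : Z))) (fun k _ => D.a α k) (fun x => D.w α x.1) Φ

/-- heavy charges -/
def Bop (α : A) (Φ : U × Z → F) : U × Z → F :=
  op (fun i => ((0 : U), D.ez i)) (fun i x => D.β α i x.1) (D.p α) Φ

/-- heavy charges in a fibre -/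
def Bfib (α : A) (u : U) (f : Z → F) : Z → F :=
  op D.ez (fun i _ => D.β α i u) (fun z => D.p α (u, z)) f

/-- reference heavy charges in a fibre -/
def Bref (α : A) (u : U) (f : Z → F) : Z → F :=
  op D.ez (fun i _ => D.β₀ α i u) (D.p₀ α u) f

/-- the cross term operator -/
def Xop (α : A) (h : U × Z → F) (x : U × Z) : F :=
  ∑ k, D.a α k (dop (D.eu k, (0 : Z)) (fun i => ((0 : U), D.ez i)) (fun i x => D.β α i x.1)
    (D.p α) h x)

end CCData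

/-- Hypotheses on the charges over a set `Ω` of block variables; `g` = coupling, `η` = bound for the
distance `s` to the abelian configurations over `Ω`. -/
structure CCHyp (D : CCData F U Z κ ι A) (ν : Measure Z) (g η K C₁ C₂ K₃ : ℝ) (Ω : Set U)
    (s : U → ℝ) : Prop where
  hK : 0 ≤ K
  hC₁ : 0 ≤ C₁
  hC₂ : 0 ≤ C₂
  hg : 0 ≤ g
  w_cd : ∀ α, ContDiff ℝ 1 (D.w α)
  β_cd : ∀ α i, ContDiff ℝ 1 (D.β α i)
  p_cd : ∀ α, ContDiff ℝ 1 (D.p α)
  p₀_cd : ∀ α u, ContDiff ℝ 1 (D.p₀ α u)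
  ρ_c : Continuous D.ρ
  a_skew : ∀ α k, Skew (D.a α k)
  w_symm : ∀ α u, Symm (D.w α u)
  β_skew : ∀ α i u, Skew (D.β α i u)
  p_symm : ∀ α x, Symm (D.p α x)
  aβ : ∀ α k i u, Anti (D.a α k) (D.β α i u)
  ap : ∀ α k x, Anti (D.a α k) (D.p α x)
  wβ : ∀ α i u, Anti (D.w α u) (D.β α i u)
  wp : ∀ α x, Anti (D.w α x.1) (D.p α x)
  Γ_sq : ∀ v, D.Γ (D.Γ v) = v
  Γ_symm : Symm D.Γ
  Γa : ∀ α k v, D.a α k (D.Γ v) = D.Γ (D.a α k v)
  Γw : ∀ α u v, D.w α u (D.Γ v) = D.Γ (D.w α u v)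
  Γβ : ∀ α i u, Anti D.Γ (D.β α i u)
  Γp : ∀ α x, Anti D.Γ (D.p α x)
  /-- size of the cross term -/
  X_le : ∀ (h : U × Z → F), ContDiff ℝ 2 h → ∀ α, ∀ u ∈ Ω, ∀ z,
    ‖D.Xop α h (u, z)‖ ≤ K * Real.sqrt (dd (fun i => ((0 : U), D.ez i)) (fun x => D.ρ x.2) h (u, z))
  /-- (F1) -/
  F1 : ∀ u ∈ Ω, ∀ f : Z → F, ContDiff ℝ 2 f → HasCompactSupport f →
    ∫ z, dd D.ez D.ρ f z ∂ν ≤ C₁ * (∑ α, ∫ z, ‖D.Bref α u f z‖ ^ 2 ∂ν + g * ∫ z, ‖f z‖ ^ 2 ∂ν)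
  /-- (F2) -/
  F2 : ∀ u ∈ Ω, ∀ f : Z → F, ContDiff ℝ 2 f → HasCompactSupport f →
    g * ∫ z, ‖f z - D.P u f z‖ ^ 2 ∂ν ≤ C₂ * ∑ α, ∫ z, ‖D.Bref α u f z‖ ^ 2 ∂ν
  /-- the vacuum is even -/
  P_odd : ∀ u ∈ Ω, ∀ f : Z → F, ContDiff ℝ 2 f → HasCompactSupport f → (∀ z, D.Γ (f z) = -f z) →
    ∀ z, D.P u f z = 0
  /-- (F3) -/
  F3 : ∀ u ∈ Ω, ∀ f : Z → F, ContDiff ℝ 2 f → HasCompactSupport f → ∀ α z,
    ‖D.Bfib α u f z - D.Bref α u f z‖ ≤ K₃ * s u * Real.sqrt (dd D.ez D.ρ f z)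
  s_nonneg : ∀ u, 0 ≤ s u
  s_le : ∀ u ∈ Ω, s u ≤ η
  small₁ : (2 * (Fintype.card A : ℝ) * K₃ ^ 2 * η ^ 2) * C₁ ≤ 1 / 2
  small₂ : 2 * ((2 * (Fintype.card A : ℝ) * K₃ ^ 2 * η ^ 2) * C₁) * C₂ ≤ 1 / 2

namespace CCHyp

variable {D : CCData F U Z κ ι A} {μU : Measure U} {ν : Measure Z} [μU.IsAddHaarMeasure]
  [ν.IsAddHaarMeasure] {g η K C₁ C₂ K₃ : ℝ} {Ω : Set U} {s : U → ℝ}

theorem eta_sq (H : CCHyp D ν g η K C₁ C₂ K₃ Ω s) {u : U} (hu : u ∈ Ω) : s u ^ 2 ≤ η ^ 2 :=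
  pow_le_pow_left₀ (H.s_nonneg u) (H.s_le u hu) 2

/-- comparison of the squares in a fibre -/
theorem ref_le (H : CCHyp D ν g η K C₁ C₂ K₃ Ω s) {u : U} (hu : u ∈ Ω) {f : Z → F}
    (hf : ContDiff ℝ 2 f) (hcf : HasCompactSupport f) :
    ∑ α, ∫ z, ‖D.Bref α u f z‖ ^ 2 ∂ν ≤ 2 * ∑ α, ∫ z, ‖D.Bfib α u f z‖ ^ 2 ∂ν +
      (2 * (Fintype.card A : ℝ) * K₃ ^ 2 * s u ^ 2) * ∫ z, dd D.ez D.ρ f z ∂ν :=
  sq_compare (ν := ν) (β := fun α i _ => D.β α i u) (β₀ := fun α i _ => D.β₀ α i u)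
    (p := fun α z => D.p α (u, z)) (p₀ := fun α => D.p₀ α u)
    (fun _ _ => contDiff_const) (fun α => (H.p_cd α).comp (contDiff_const.prodMk contDiff_id))
    (fun _ _ => contDiff_const) (fun α => H.p₀_cd α u) H.ρ_c f hf hcf
    (fun α z => H.F3 u hu f hf hcf α z)

/-- **fibre estimate** : distance to the vacuum -/
theorem fib_vac (H : CCHyp D ν g η K C₁ C₂ K₃ Ω s) {u : U} (hu : u ∈ Ω) {f : Z → F}
    (hf : ContDiff ℝ 2 f) (hcf : HasCompactSupport f) {δ : ℝ} (hδ : s u ≤ δ) (hδη : δ ≤ η) :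
    g * ∫ z, ‖f z - D.P u f z‖ ^ 2 ∂ν ≤ C₂ * (4 * ∑ α, ∫ z, ‖D.Bfib α u f z‖ ^ 2 ∂ν +
      2 * ((2 * (Fintype.card A : ℝ) * K₃ ^ 2 * δ ^ 2) * C₁) * (g * ∫ z, ‖f z‖ ^ 2 ∂ν)) := by
  refine (H.F2 u hu f hf hcf).trans (mul_le_mul_of_nonneg_left ?_ H.hC₂)
  have hD0 : 0 ≤ ∫ z, dd D.ez D.ρ f z ∂ν := integral_nonneg fun z => dd_nonneg _ _ _ _
  have hS0 : 0 ≤ ∑ α, ∫ z, ‖D.Bref α u f z‖ ^ 2 ∂ν :=
    Finset.sum_nonneg fun α _ => integral_nonneg fun z => by positivity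
  have hM : 0 ≤ g * ∫ z, ‖f z‖ ^ 2 ∂ν :=
    mul_nonneg H.hg (integral_nonneg fun z => by positivity)
  have hs2 : s u ^ 2 ≤ δ ^ 2 := pow_le_pow_left₀ (H.s_nonneg u) hδ 2
  have hδ0 : 0 ≤ δ := (H.s_nonneg u).trans hδ
  have hδ2 : δ ^ 2 ≤ η ^ 2 := pow_le_pow_left₀ hδ0 hδη 2
  have h3 := H.ref_le hu hf hcf
  have h3' : ∑ α, ∫ z, ‖D.Bref α u f z‖ ^ 2 ∂ν ≤ 2 * ∑ α, ∫ z, ‖D.Bfib α u f z‖ ^ 2 ∂ν +
      (2 * (Fintype.card A : ℝ) * K₃ ^ 2 * δ ^ 2) * ∫ z, dd D.ez D.ρ f z ∂ν := by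
    refine h3.trans ?_
    gcongr
  refine fib_real hS0 hM (H.F1 u hu f hf hcf) h3' (by positivity) ?_
  refine le_trans ?_ H.small₁
  have := H.hC₁
  gcongr

/-- **fibre estimate** for odd functions -/
theorem fib_odd (H : CCHyp D ν g η K C₁ C₂ K₃ Ω s) {u : U} (hu : u ∈ Ω) {f : Z → F}
    (hf : ContDiff ℝ 2 f) (hcf : HasCompactSupport f) (hodd : ∀ z, D.Γ (f z) = -f z) :
    ∫ z, dd D.ez D.ρ f z ∂ν ≤
      (C₁ * (8 + 8 * C₂)) * ∑ α, ∫ z, ‖D.Bfib α u f z‖ ^ 2 ∂ν := by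
  have hS0 : 0 ≤ ∑ α, ∫ z, ‖D.Bref α u f z‖ ^ 2 ∂ν :=
    Finset.sum_nonneg fun α _ => integral_nonneg fun z => by positivity
  have hS : 0 ≤ ∑ α, ∫ z, ‖D.Bfib α u f z‖ ^ 2 ∂ν :=
    Finset.sum_nonneg fun α _ => integral_nonneg fun z => by positivity
  have hM : 0 ≤ g * ∫ z, ‖f z‖ ^ 2 ∂ν :=
    mul_nonneg H.hg (integral_nonneg fun z => by positivity)
  have hD0 : 0 ≤ ∫ z, dd D.ez D.ρ f z ∂ν := integral_nonneg fun z => dd_nonneg _ _ _ _
  have h2 : g * ∫ z, ‖f z‖ ^ 2 ∂ν ≤ C₂ * ∑ α, ∫ z, ‖D.Bref α u f z‖ ^ 2 ∂ν := by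
    have h := H.F2 u hu f hf hcf
    have e : ∀ z, f z - D.P u f z = f z := fun z => by
      rw [H.P_odd u hu f hf hcf hodd z, sub_zero]
    simpa only [e] using h
  have h3 := H.ref_le hu hf hcf
  have hs2 := H.eta_sq hu
  have h3' : ∑ α, ∫ z, ‖D.Bref α u f z‖ ^ 2 ∂ν ≤ 2 * ∑ α, ∫ z, ‖D.Bfib α u f z‖ ^ 2 ∂ν +
      (2 * (Fintype.card A : ℝ) * K₃ ^ 2 * η ^ 2) * ∫ z, dd D.ez D.ρ f z ∂ν := by
    refine h3.trans ?_
    gcongr
  have := fib_real_odd hS0 hS hM H.hC₁ H.hC₂ (H.F1 u hu f hf hcf) h2 h3' (by positivity)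
    H.small₁ H.small₂
  refine this.trans (le_of_eq ?_)
  ring

/-- the heavy charges are fibrewise -/
theorem Bop_apply {Φ : U × Z → F} (hΦ : Differentiable ℝ Φ) (α : A) (u : U) (z : Z) :
    D.Bop α Φ (u, z) = D.Bfib α u (fun z => Φ (u, z)) z :=
  op_prod (hΦ (u, z))

/-- **(CC'), first half: parity decoupling.** -/
theorem decouple (H : CCHyp D ν g η K C₁ C₂ K₃ Ω s) {Φ : U × Z → F} (hΦ : ContDiff ℝ 2 Φ)
    (hcΦ : HasCompactSupport Φ) (hsupp : ∀ x ∈ tsupport Φ, x.1 ∈ Ω) :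
    ∑ α, ∫ x, ‖D.Aop α Φ x‖ ^ 2 ∂(μU.prod ν) +
      (1 / 2) * ∑ α, ∫ x, ‖D.Bop α Φ x‖ ^ 2 ∂(μU.prod ν) ≤
    ∑ α, ∫ x, ‖D.Aop α Φ x + D.Bop α Φ x‖ ^ 2 ∂(μU.prod ν) +
      2 * (Fintype.card A : ℝ) ^ 2 * K ^ 2 * (C₁ * (8 + 8 * C₂)) *
        ∫ x, ‖Φ x‖ ^ 2 ∂(μU.prod ν) := by
  set h : U × Z → F := fun y => Po D.Γ (Φ y) with hh_def
  have hh : ContDiff ℝ 2 h := (Po D.Γ).contDiff.comp hΦ
  have hch : HasCompactSupport h :=
    hcΦ.mono' fun x hx => subset_tsupport _ (by intro h0; apply hx; simp [hh_def, h0])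
  have hsh : tsupport h ⊆ tsupport Φ := closure_mono fun x hx => by
    intro h0; apply hx; simp [hh_def, h0]
  have hρ : Continuous (fun x : U × Z => D.ρ x.2) := H.ρ_c.comp continuous_snd
  have hzero : ∀ x : U × Z, x.1 ∉ Ω → fderiv ℝ h x = 0 ∧ h x = 0 := by
    intro x hx
    have h1 : x ∉ tsupport h := fun hx' => hx (hsupp x (hsh hx'))
    have h2 : h =ᶠ[𝓝 x] 0 := notMem_tsupport_iff_eventuallyEq.mp h1
    exact ⟨by rw [h2.fderiv_eq]; simp, h2.eq_of_nhds⟩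
  have hK₁ : 0 ≤ C₁ * (8 + 8 * C₂) := by
    have := H.hC₁; have := H.hC₂; positivity
  refine Decoup924.decouple (μ := μU.prod ν) (e := fun k => (D.eu k, (0 : Z))) (a := D.a)
    (w := fun α x => D.w α x.1) (v := fun i => ((0 : U), D.ez i))
    (β := fun α i x => D.β α i x.1) (p := D.p)
    (fun α => (H.w_cd α).comp contDiff_fst) (fun α i => (H.β_cd α i).comp contDiff_fst) H.p_cd
    H.a_skew (fun α x => H.w_symm α x.1) (fun α i x => H.β_skew α i x.1) H.p_symm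
    (fun α i x => ?_) (fun α i x => ?_) (fun α k i x => H.aβ α k i x.1) H.ap
    (fun α i x => H.wβ α i x.1) H.wp H.Γ_sq H.Γ_symm H.Γa (fun α x v => H.Γw α x.1 v)
    (fun α i x => H.Γβ α i x.1) H.Γp hρ hΦ hcΦ H.hK hK₁ (fun α x => ?_) ?_
  · have h1 : HasFDerivAt (fun x : U × Z => D.β α i x.1)
        ((fderiv ℝ (D.β α i) x.1).comp (ContinuousLinearMap.fst ℝ U Z)) x :=
      (((H.β_cd α i).differentiable (by norm_num)) x.1).hasFDerivAt.comp x hasFDerivAt_fst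
    rw [h1.fderiv]
    simp
  · have h1 : HasFDerivAt (fun x : U × Z => D.w α x.1)
        ((fderiv ℝ (D.w α) x.1).comp (ContinuousLinearMap.fst ℝ U Z)) x :=
      (((H.w_cd α).differentiable (by norm_num)) x.1).hasFDerivAt.comp x hasFDerivAt_fst
    rw [h1.fderiv]
    simp
  · by_cases hx : x.1 ∈ Ω
    · exact H.X_le h hh α x.1 hx x.2
    · obtain ⟨h1, h2⟩ := hzero x hx
      have e1 : ∑ k, D.a α k (dop (D.eu k, (0 : Z)) (fun i => ((0 : U), D.ez i))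
          (fun i x => D.β α i x.1) (D.p α) h x) = 0 := by
        refine Finset.sum_eq_zero fun k _ => ?_
        simp [dop, h1, h2]
      rw [e1, norm_zero]
      exact mul_nonneg H.hK (Real.sqrt_nonneg _)
  · -- integration of the fibrewise odd estimate
    have cdd : Continuous (dd (fun i => ((0 : U), D.ez i)) (fun x : U × Z => D.ρ x.2) h) :=
      continuous_dd hρ (cd_one_of_two hh)
    have sdd : HasCompactSupport
        (dd (fun i => ((0 : U), D.ez i)) (fun x : U × Z => D.ρ x.2) h) :=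
      hasCompactSupport_dd hch
    have cB : ∀ α, Continuous (D.Bop α h) := fun α =>
      (contDiff_op (n := 2) (m := 1) (by norm_num) (fun i => (H.β_cd α i).comp contDiff_fst)
        (H.p_cd α) hh).continuous
    have sB : ∀ α, HasCompactSupport (D.Bop α h) := fun α => hasCompactSupport_op hch
    have dh : Differentiable ℝ h := hh.differentiable (by norm_num)
    change ∫ x, dd (fun i => ((0 : U), D.ez i)) (fun x : U × Z => D.ρ x.2) h x ∂(μU.prod ν) ≤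
      (C₁ * (8 + 8 * C₂)) * ∑ α, ∫ x, ‖D.Bop α h x‖ ^ 2 ∂(μU.prod ν)
    rw [integral_prod_cont cdd sdd, Finset.mul_sum]
    have e2 : ∀ α, ∫ x, ‖D.Bop α h x‖ ^ 2
        ∂(μU.prod ν) = ∫ u, ∫ z, ‖D.Bop α h (u, z)‖ ^ 2 ∂ν ∂μU := fun α =>
      integral_prod_cont (q := fun x => ‖D.Bop α h x‖ ^ 2) ((cB α).norm.pow 2)
        ((sB α).norm.comp_left (g := fun t : ℝ => t ^ 2) (by norm_num))
    simp only [e2]
    have i2 : ∀ α, Integrable (fun u => ∫ z, ‖D.Bop α h (u, z)‖ ^ 2 ∂ν) μU := fun α =>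
      integrable_fib (q := fun x => ‖D.Bop α h x‖ ^ 2) ((cB α).norm.pow 2)
        ((sB α).norm.comp_left (g := fun t : ℝ => t ^ 2) (by norm_num))
    have e7 : ∑ α, (C₁ * (8 + 8 * C₂)) * ∫ u, ∫ z, ‖D.Bop α h (u, z)‖ ^ 2 ∂ν ∂μU =
        ∫ u, ∑ α, (C₁ * (8 + 8 * C₂)) * ∫ z, ‖D.Bop α h (u, z)‖ ^ 2 ∂ν ∂μU := by
      rw [integral_finsetSum _ fun α _ => (i2 α).const_mul _]
      exact Finset.sum_congr rfl fun α _ => (integral_const_mul _ _).symm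
    rw [e7]
    refine integral_mono (integrable_fib cdd sdd)
      (integrable_finsetSum _ fun α _ => (i2 α).const_mul _) fun u => ?_
    simp only
    rw [← Finset.mul_sum]
    have hu2 : ContDiff ℝ 2 (fun z => h (u, z)) := slice_contDiff hh u
    have hu3 : HasCompactSupport (fun z => h (u, z)) := slice_hasCompactSupport hch u
    have e3 : ∀ z, dd (fun i => ((0 : U), D.ez i)) (fun x : U × Z => D.ρ x.2) h (u, z) =
        dd D.ez D.ρ (fun z => h (u, z)) z := fun z => dd_prod (dh (u, z))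
    have e4 : ∀ α z, D.Bop α h (u, z) = D.Bfib α u (fun z => h (u, z)) z := fun α z =>
      Bop_apply dh α u z
    simp only [e3, e4]
    by_cases hu : u ∈ Ω
    · exact H.fib_odd hu hu2 hu3 fun z => Γ_Po H.Γ_sq _
    · have e5 : (fun z => h (u, z)) = fun _ => 0 := by
        funext z
        exact (hzero (u, z) hu).2
      rw [e5]
      have e6 : ∀ z, dd D.ez D.ρ (fun _ : Z => (0 : F)) z = 0 := fun z => by simp [dd]
      simp only [e6, integral_zero]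
      exact mul_nonneg hK₁ (Finset.sum_nonneg fun α _ => integral_nonneg fun z => by positivity)

/-- **(CC'), second half: distance to the abelian heavy vacuum**, over a measurable set `S` of
block variables with `s ≤ δ`. -/
theorem vac (H : CCHyp D ν g η K C₁ C₂ K₃ Ω s) {Φ : U × Z → F} (hΦ : ContDiff ℝ 2 Φ)
    (hcΦ : HasCompactSupport Φ) (hsupp : ∀ x ∈ tsupport Φ, x.1 ∈ Ω) {δ : ℝ} (hδ : δ ≤ η)
    {S : Set U} (hS : MeasurableSet S) (hSδ : ∀ u ∈ S, s u ≤ δ)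
    (hP0 : ∀ u, D.P u (fun _ => 0) = fun _ => 0) :
    ENNReal.ofReal g * ∫⁻ u in S, ENNReal.ofReal
        (∫ z, ‖Φ (u, z) - D.P u (fun z => Φ (u, z)) z‖ ^ 2 ∂ν) ∂μU ≤
      ENNReal.ofReal (C₂ * (4 * ∑ α, ∫ x, ‖D.Bop α Φ x‖ ^ 2 ∂(μU.prod ν) +
        2 * ((2 * (Fintype.card A : ℝ) * K₃ ^ 2 * δ ^ 2) * C₁) *
          (g * ∫ x, ‖Φ x‖ ^ 2 ∂(μU.prod ν)))) := by
  have cB : ∀ α, Continuous (D.Bop α Φ) := fun α =>
    (contDiff_op (n := 2) (m := 1) (by norm_num) (fun i => (H.β_cd α i).comp contDiff_fst)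
      (H.p_cd α) hΦ).continuous
  have sB : ∀ α, HasCompactSupport (D.Bop α Φ) := fun α => hasCompactSupport_op hcΦ
  have dΦ : Differentiable ℝ Φ := hΦ.differentiable (by norm_num)
  set T : ℝ := 2 * ((2 * (Fintype.card A : ℝ) * K₃ ^ 2 * δ ^ 2) * C₁) with hT
  have hT0 : 0 ≤ T := by have := H.hC₁; positivity
  let R : U → ℝ := fun u => C₂ * (4 * ∑ α, ∫ z, ‖D.Bop α Φ (u, z)‖ ^ 2 ∂ν +
    T * (g * ∫ z, ‖Φ (u, z)‖ ^ 2 ∂ν))
  have hR0 : ∀ u, 0 ≤ R u := fun u => by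
    refine mul_nonneg H.hC₂ (add_nonneg (mul_nonneg (by norm_num)
      (Finset.sum_nonneg fun α _ => integral_nonneg fun z => by positivity)) ?_)
    exact mul_nonneg hT0 (mul_nonneg H.hg (integral_nonneg fun z => by positivity))
  have i1 : ∀ α, Integrable (fun u => ∫ z, ‖D.Bop α Φ (u, z)‖ ^ 2 ∂ν) μU := fun α =>
    integrable_fib (q := fun x => ‖D.Bop α Φ x‖ ^ 2) ((cB α).norm.pow 2)
      ((sB α).norm.comp_left (g := fun t : ℝ => t ^ 2) (by norm_num))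
  have i2 : Integrable (fun u => ∫ z, ‖Φ (u, z)‖ ^ 2 ∂ν) μU :=
    integrable_fib (q := fun x => ‖Φ x‖ ^ 2) (hΦ.continuous.norm.pow 2)
      (hcΦ.norm.comp_left (g := fun t : ℝ => t ^ 2) (by norm_num))
  have iR : Integrable R μU := by
    refine Integrable.const_mul (Integrable.add (Integrable.const_mul ?_ _)
      ((i2.const_mul g).const_mul T)) C₂
    exact integrable_finsetSum _ fun α _ => i1 α
  have hpt : ∀ u, s u ≤ δ → ENNReal.ofReal g * ENNReal.ofReal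
      (∫ z, ‖Φ (u, z) - D.P u (fun z => Φ (u, z)) z‖ ^ 2 ∂ν) ≤ ENNReal.ofReal (R u) := by
    intro u hu
    rw [← ENNReal.ofReal_mul H.hg]
    refine ENNReal.ofReal_le_ofReal ?_
    by_cases hΩ : u ∈ Ω
    · have h1 := H.fib_vac hΩ (slice_contDiff hΦ u) (slice_hasCompactSupport hcΦ u) hu hδ
      have e4 : ∀ α z, D.Bop α Φ (u, z) = D.Bfib α u (fun z => Φ (u, z)) z := fun α z =>
        Bop_apply dΦ α u z
      simp only [R, e4]
      exact h1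
    · have e5 : (fun z => Φ (u, z)) = fun _ => 0 := by
        funext z
        by_contra h0
        exact hΩ (hsupp (u, z) (subset_tsupport _ h0))
      have e6 : ∀ z, Φ (u, z) = 0 := fun z => congrFun e5 z
      simp only [e6, hP0, sub_self, norm_zero]
      simpa using hR0 u
  calc ENNReal.ofReal g * ∫⁻ u in S, ENNReal.ofReal
        (∫ z, ‖Φ (u, z) - D.P u (fun z => Φ (u, z)) z‖ ^ 2 ∂ν) ∂μU
      ≤ ∫⁻ u in S, ENNReal.ofReal g * ENNReal.ofReal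
        (∫ z, ‖Φ (u, z) - D.P u (fun z => Φ (u, z)) z‖ ^ 2 ∂ν) ∂μU :=
        lintegral_const_mul_le _ _
    _ ≤ ∫⁻ u in S, ENNReal.ofReal (R u) ∂μU := by
        refine setLIntegral_mono' hS fun u hu => hpt u (hSδ u hu)
    _ ≤ ∫⁻ u, ENNReal.ofReal (R u) ∂μU := setLIntegral_le_lintegral _ _
    _ = ENNReal.ofReal (∫ u, R u ∂μU) :=
        (ofReal_integral_eq_lintegral_ofReal iR (Eventually.of_forall hR0)).symm
    _ = _ := by
        congr 1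
        have e1 : ∀ α, ∫ x, ‖D.Bop α Φ x‖ ^ 2 ∂(μU.prod ν) =
            ∫ u, ∫ z, ‖D.Bop α Φ (u, z)‖ ^ 2 ∂ν ∂μU := fun α =>
          integral_prod_cont (q := fun x => ‖D.Bop α Φ x‖ ^ 2) ((cB α).norm.pow 2)
            ((sB α).norm.comp_left (g := fun t : ℝ => t ^ 2) (by norm_num))
        have e2 : ∫ x, ‖Φ x‖ ^ 2 ∂(μU.prod ν) = ∫ u, ∫ z, ‖Φ (u, z)‖ ^ 2 ∂ν ∂μU :=
          integral_prod_cont (q := fun x => ‖Φ x‖ ^ 2) (hΦ.continuous.norm.pow 2)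
            (hcΦ.norm.comp_left (g := fun t : ℝ => t ^ 2) (by norm_num))
        simp only [e1, e2]
        rw [integral_const_mul, integral_add, integral_const_mul, integral_const_mul,
          integral_const_mul, integral_finsetSum _ fun α _ => i1 α]
        · exact (integrable_finsetSum _ fun α _ => i1 α).const_mul _
        · exact (i2.const_mul g).const_mul T

end CCHyp

end Crest.Agent.R330.Decoup924
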