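import Crest.Agent.R330.Const_416

/-!
# Row 330 (helper416): counting with literal integrals

* `dimGe_iff` : the two notions of dimension.
* `dimGe_of_trial` : `k` core vectors with form below the gap on their span.
* `dimGe_of_gram` : the same from an almost orthonormal family with small forms.
* `not_dimGe_of_functionals` : upper bound of the dimension from `k` functionals.
* `exists_trial` : approximation of the kernel by core vectors.
-/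

set_option autoImplicit false
set_option linter.unusedSectionVars false

open MeasureTheory Filter Topology Crest.MathPhysics.MatrixQM
open scoped ContDiff InnerProductSpace ENNReal

noncomputable section

namespace Crest.Agent.R330.Lit416

open Crest.Agent.R330.Defs478 Crest.Agent.R330.Top478 Crest.Agent.R330.FA416
  Crest.Agent.R330.Dict416

/-! ### Abstract: almost orthonormal families -/

section abs

variable {V H H' : Type*} [AddCommGroup V] [Module ℂ V]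
  [NormedAddCommGroup H] [InnerProductSpace ℂ H]
  [NormedAddCommGroup H'] [InnerProductSpace ℂ H']
  {ι : V →ₗ[ℂ] H} {Q : V →ₗ[ℂ] H'}

theorem sum_norm_sq_le {k : ℕ} (c : Fin k → ℂ) :
    (∑ i, ‖c i‖) ^ 2 ≤ k * ∑ i, ‖c i‖ ^ 2 := by
  have h2 := Finset.sum_mul_sq_le_sq_mul_sq (Finset.univ : Finset (Fin k)) (fun _ => (1 : ℝ))
    (fun i => ‖c i‖)
  simpa using h2

/-- The Gram matrix close to the identity bounds the norm from below. -/
theorem norm_sum_ge {k : ℕ} {w : Fin k → H} {ε : ℝ}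
    (hw : ∀ i j, ‖⟪w i, w j⟫_ℂ - (if i = j then 1 else 0)‖ ≤ ε) (c : Fin k → ℂ) :
    (1 - k * ε) * ∑ i, ‖c i‖ ^ 2 ≤ ‖∑ i, c i • w i‖ ^ 2 := by
  have h1 : (‖∑ i, c i • w i‖ ^ 2 : ℝ) = (⟪∑ i, c i • w i, ∑ j, c j • w j⟫_ℂ).re := by
    rw [inner_self_eq_norm_sq_to_K]
    norm_cast
  have h2 : ⟪∑ i, c i • w i, ∑ j, c j • w j⟫_ℂ =
      ∑ i, ∑ j, (starRingEnd ℂ) (c i) * c j * ⟪w i, w j⟫_ℂ := by
    rw [sum_inner]
    refine Finset.sum_congr rfl fun i _ => ?_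
    rw [inner_sum]
    refine Finset.sum_congr rfl fun j _ => ?_
    rw [inner_smul_left, inner_smul_right]
    ring
  have h3 : ∑ i, ∑ j, (starRingEnd ℂ) (c i) * c j * ⟪w i, w j⟫_ℂ =
      ((∑ i, ‖c i‖ ^ 2 : ℝ) : ℂ) +
        ∑ i, ∑ j, (starRingEnd ℂ) (c i) * c j * (⟪w i, w j⟫_ℂ - (if i = j then 1 else 0)) := by
    have h4 : ((∑ i, ‖c i‖ ^ 2 : ℝ) : ℂ) =
        ∑ i, ∑ j, (starRingEnd ℂ) (c i) * c j * (if i = j then 1 else 0) := by
      rw [Complex.ofReal_sum]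
      refine Finset.sum_congr rfl fun i _ => ?_
      rw [Finset.sum_eq_single i]
      · rw [if_pos rfl, mul_one, Complex.conj_mul', Complex.ofReal_pow]
      · intro j _ hj
        rw [if_neg (Ne.symm hj), mul_zero]
      · intro h
        exact absurd (Finset.mem_univ i) h
    rw [h4, ← Finset.sum_add_distrib]
    refine Finset.sum_congr rfl fun i _ => ?_
    rw [← Finset.sum_add_distrib]
    refine Finset.sum_congr rfl fun j _ => ?_
    ring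
  have h5 : ‖∑ i, ∑ j, (starRingEnd ℂ) (c i) * c j *
      (⟪w i, w j⟫_ℂ - (if i = j then 1 else 0))‖ ≤ (∑ i, ‖c i‖) ^ 2 * ε := by
    refine (norm_sum_le _ _).trans ?_
    rw [sq, Finset.sum_mul, Finset.sum_mul]
    refine Finset.sum_le_sum fun i _ => (norm_sum_le _ _).trans ?_
    rw [Finset.mul_sum, Finset.sum_mul]
    refine Finset.sum_le_sum fun j _ => ?_
    rw [norm_mul, norm_mul, Complex.norm_conj]
    exact mul_le_mul_of_nonneg_left (hw i j) (by positivity)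
  have h6 : (∑ i, ‖c i‖) ^ 2 * ε ≤ k * ε * ∑ i, ‖c i‖ ^ 2 := by
    rcases Nat.eq_zero_or_pos k with hk | hk
    · subst hk
      simp
    · have hε : 0 ≤ ε := (norm_nonneg _).trans (hw ⟨0, hk⟩ ⟨0, hk⟩)
      calc (∑ i, ‖c i‖) ^ 2 * ε ≤ (k * ∑ i, ‖c i‖ ^ 2) * ε :=
            mul_le_mul_of_nonneg_right (sum_norm_sq_le c) hε
        _ = _ := by ring
  have h7 := (Complex.abs_re_le_norm (∑ i, ∑ j, (starRingEnd ℂ) (c i) * c j *
      (⟪w i, w j⟫_ℂ - (if i = j then 1 else 0)))).trans (h5.trans h6)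
  rw [h1, h2, h3, Complex.add_re, Complex.ofReal_re]
  have h8 := neg_abs_le (∑ i, ∑ j, (starRingEnd ℂ) (c i) * c j *
      (⟪w i, w j⟫_ℂ - (if i = j then 1 else 0))).re
  linarith

theorem norm_map_sum_le {k : ℕ} {w : Fin k → V} {τ : ℝ} (hτ : ∀ i, ‖Q (w i)‖ ≤ τ)
    (c : Fin k → ℂ) : ‖Q (∑ i, c i • w i)‖ ^ 2 ≤ k * τ ^ 2 * ∑ i, ‖c i‖ ^ 2 := by
  have h1 : ‖Q (∑ i, c i • w i)‖ ≤ τ * ∑ i, ‖c i‖ := by
    rw [map_sum, Finset.mul_sum]
    refine (norm_sum_le _ _).trans (Finset.sum_le_sum fun i _ => ?_)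
    rw [map_smul, norm_smul, mul_comm]
    exact mul_le_mul_of_nonneg_right (hτ i) (norm_nonneg _)
  calc ‖Q (∑ i, c i • w i)‖ ^ 2 ≤ (τ * ∑ i, ‖c i‖) ^ 2 :=
        pow_le_pow_left₀ (norm_nonneg _) h1 2
    _ = τ ^ 2 * (∑ i, ‖c i‖) ^ 2 := by ring
    _ ≤ τ ^ 2 * (k * ∑ i, ‖c i‖ ^ 2) :=
        mul_le_mul_of_nonneg_left (sum_norm_sq_le c) (sq_nonneg _)
    _ = _ := by ring

/-- **Counting** with an almost orthonormal family. -/
theorem dimGe_of_gram [CompleteSpace H] {δ : ℝ} (hG : Gap ι Q δ) (hδ : 0 ≤ δ) {k : ℕ}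
    (w : Fin k → V) {ε τ : ℝ}
    (hw : ∀ i j, ‖⟪ι (w i), ι (w j)⟫_ℂ - (if i = j then 1 else 0)‖ ≤ ε)
    (hQ : ∀ i, ‖Q (w i)‖ ≤ τ) (h : k * τ ^ 2 < δ * (1 - k * ε)) : DimGe ι Q k := by
  refine dimGe_of_small hG hδ w fun c hc => ?_
  have hs0 : 0 < ∑ i, ‖c i‖ ^ 2 := by
    obtain ⟨i, hi⟩ := Function.ne_iff.1 hc
    refine Finset.sum_pos' (fun i _ => sq_nonneg _) ⟨i, Finset.mem_univ i, ?_⟩
    have : 0 < ‖c i‖ := norm_pos_iff.2 hi
    positivity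
  have h1 := norm_sum_ge (w := fun i => ι (w i)) hw c
  have h2 : ι (∑ i, c i • w i) = ∑ i, c i • ι (w i) := by
    rw [map_sum]
    simp only [map_smul]
  rw [h2]
  calc ‖Q (∑ i, c i • w i)‖ ^ 2 ≤ k * τ ^ 2 * ∑ i, ‖c i‖ ^ 2 := norm_map_sum_le hQ c
    _ < δ * (1 - k * ε) * ∑ i, ‖c i‖ ^ 2 := mul_lt_mul_of_pos_right h hs0
    _ = δ * ((1 - k * ε) * ∑ i, ‖c i‖ ^ 2) := by ring
    _ ≤ _ := mul_le_mul_of_nonneg_left h1 hδ

end abs

/-! ### Literal forms -/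

section lit

variable {N : ℕ} {F : Type*} [NormedAddCommGroup F] [InnerProductSpace ℂ F]
  [FiniteDimensional ℂ F] {b : ColorBasis N} {M : FermionRep N F} {R : GaugeAction b M}
  {G : GammaNine} {g m δ : ℝ}

theorem dimGe_iff {k : ℕ} :
    Sec478.DimGe b M R G g m k ↔ DimGe (ιC R) (QC R G g m) k := by
  unfold Sec478.DimGe
  rw [zker_eq, dimGe_iff_rank]

theorem gapZ_iff : Sec478.GapZ b M R G g m δ ↔ Gap (ιC R) (QC R G g m) (16 * δ) := gapL_iff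

theorem qf_nonneg (φ : Cfg N → F) : 0 ≤ qf b M G g m φ := by
  unfold qf
  exact mul_nonneg (by norm_num) (Finset.sum_nonneg fun α _ =>
    integral_nonneg fun x => sq_nonneg _)

theorem coe_sum_smul {k : ℕ} (c : Fin k → ℂ) (w : Fin k → core b R) :
    ((∑ i, c i • w i : core b R) : Cfg N → F) = ∑ i, c i • (w i : Cfg N → F) := by
  rw [Submodule.coe_sum]
  rfl

/-- **Counting, lower bound**, literal. -/
theorem dimGe_of_trial (hG : Sec478.GapZ b M R G g m δ) (hδ : 0 ≤ δ) {k : ℕ}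
    (w : Fin k → Cfg N → F) (hw : ∀ i, IsCoreVec b R (w i))
    (h : ∀ c : Fin k → ℂ, c ≠ 0 → qf b M G g m (∑ i, c i • w i) <
      δ * ∫ x, ‖(∑ i, c i • w i) x‖ ^ 2) : Sec478.DimGe b M R G g m k := by
  rw [dimGe_iff]
  refine dimGe_of_small (gapZ_iff.1 hG) (by positivity) (fun i => ⟨w i, hw i⟩) fun c hc => ?_
  have h1 := h c hc
  rw [norm_QC_sq, norm_ιC_sq, coe_sum_smul]
  linarith

/-- **Counting, lower bound**, literal, with an almost orthonormal family. -/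
theorem dimGe_of_trial_gram (hG : Sec478.GapZ b M R G g m δ) (hδ : 0 ≤ δ) {k : ℕ}
    (w : Fin k → Cfg N → F) (hw : ∀ i, IsCoreVec b R (w i)) {ε τ : ℝ}
    (hgram : ∀ i j, ‖(∫ x, ⟪w i x, w j x⟫_ℂ) - (if i = j then 1 else 0)‖ ≤ ε)
    (hq : ∀ i, qf b M G g m (w i) ≤ τ) (h : k * τ < δ * (1 - k * ε)) :
    Sec478.DimGe b M R G g m k := by
  rw [dimGe_iff]
  rcases Nat.eq_zero_or_pos k with hk | hk
  · subst hk
    exact dimGe_zero
  have hτ : 0 ≤ τ := (qf_nonneg _).trans (hq ⟨0, hk⟩)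
  refine Lit416.dimGe_of_gram (gapZ_iff.1 hG) (by positivity) (fun i => ⟨w i, hw i⟩) (ε := ε)
    (τ := Real.sqrt (16 * τ)) (fun i j => ?_) (fun i => ?_) ?_
  · rw [inner_ιC]
    exact hgram i j
  · refine Real.le_sqrt_of_sq_le ?_
    rw [norm_QC_sq]
    linarith [hq i]
  · rw [Real.sq_sqrt (by positivity)]
    linarith

/-- **Counting, upper bound**, literal. -/
theorem not_dimGe_of_functionals {k : ℕ} (v : Fin k → Cfg N → F) (hv : ∀ i, MemLp (v i) 2 volume)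
    {c C : ℝ} (hc : 0 < c)
    (h : ∀ φ : Cfg N → F, IsCoreVec b R φ → c * ∫ x, ‖φ x‖ ^ 2 ≤
      qf b M G g m φ + C * ∑ i, ‖∫ x, ⟪v i x, φ x⟫_ℂ‖ ^ 2) :
    ¬ Sec478.DimGe b M R G g m (k + 1) := by
  rw [dimGe_iff]
  refine not_dimGe_of_lower (fun i => (hv i).toLp (v i)) (c := 16 * c) (C := 16 * C)
    (by positivity) fun φ => ?_
  have h1 := h φ.1 φ.2
  have h2 : ∀ i, ⟪(hv i).toLp (v i), ιC R φ⟫_ℂ = ∫ x, ⟪v i x, φ.1 x⟫_ℂ := fun i =>
    inner_toLp (hv i) (cv_memLp φ.2)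
  simp only [h2]
  rw [norm_QC_sq, norm_ιC_sq]
  nlinarith

/-- **Approximation of the kernel by core vectors**, literal. -/
theorem exists_trial {k : ℕ} (h : Sec478.DimGe b M R G g m k) {τ : ℝ} (hτ : 0 < τ) :
    ∃ w : Fin k → Cfg N → F, (∀ i, IsCoreVec b R (w i)) ∧ ∀ c : Fin k → ℂ,
      qf b M G g m (∑ i, c i • w i) ≤ τ * ∑ i, ‖c i‖ ^ 2 ∧
      (1 - τ) * ∑ i, ‖c i‖ ^ 2 ≤ ∫ x, ‖(∑ i, c i • w i) x‖ ^ 2 ∧
      ∫ x, ‖(∑ i, c i • w i) x‖ ^ 2 ≤ (1 + τ) * ∑ i, ‖c i‖ ^ 2 := by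
  set σ : ℝ := min (τ / 4) (1 / 2) with hσ
  have hσ0 : 0 < σ := lt_min (by positivity) (by norm_num)
  have hσ1 : σ ≤ τ / 4 := min_le_left _ _
  have hσ2 : σ ≤ 1 / 2 := min_le_right _ _
  obtain ⟨w, hw⟩ := (dimGe_iff.1 h).exists_approx hσ0
  refine ⟨fun i => (w i).1, fun i => (w i).2, fun c => ?_⟩
  obtain ⟨h1, h2, h3⟩ := hw c
  set s : ℝ := Real.sqrt (∑ i, ‖c i‖ ^ 2) with hs
  have hs0 : 0 ≤ s := Real.sqrt_nonneg _
  have hs2 : ∑ i, ‖c i‖ ^ 2 = s ^ 2 := by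
    rw [hs, Real.sq_sqrt (Finset.sum_nonneg fun i _ => sq_nonneg _)]
  have h4 : ‖QC R G g m (∑ i, c i • w i)‖ ^ 2 ≤ (σ * s) ^ 2 :=
    pow_le_pow_left₀ (norm_nonneg _) h1 2
  have h5 : ((1 - σ) * s) ^ 2 ≤ ‖ιC R (∑ i, c i • w i)‖ ^ 2 :=
    pow_le_pow_left₀ (mul_nonneg (by linarith) hs0) h2 2
  have h6 : ‖ιC R (∑ i, c i • w i)‖ ^ 2 ≤ ((1 + σ) * s) ^ 2 :=
    pow_le_pow_left₀ (norm_nonneg _) h3 2
  rw [norm_QC_sq, coe_sum_smul] at h4
  rw [norm_ιC_sq, coe_sum_smul] at h5 h6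
  rw [hs2]
  have h7 : σ ^ 2 ≤ σ := by nlinarith
  refine ⟨?_, ?_, ?_⟩
  · have : (σ * s) ^ 2 ≤ τ * s ^ 2 := by
      rw [mul_pow]
      exact mul_le_mul_of_nonneg_right (by linarith) (sq_nonneg _)
    linarith [sq_nonneg s, qf_nonneg (b := b) (M := M) (G := G) (g := g) (m := m)
      (∑ i, c i • (w i : Cfg N → F))]
  · refine le_trans ?_ h5
    rw [mul_pow]
    refine mul_le_mul_of_nonneg_right ?_ (sq_nonneg _)
    nlinarith
  · refine h6.trans ?_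
    rw [mul_pow]
    refine mul_le_mul_of_nonneg_right ?_ (sq_nonneg _)
    nlinarith

end lit

end Crest.Agent.R330.Lit416

end
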