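import Crest.Agent.R330.Defs_478
import Crest.Agent.R330.Gam_962
import Crest.Agent.R330.CoerCfg_87

/-!
# Row 330: the potential `V = (1/32) Σ w²` in commutator form (helper87)

* `tr2`, `tr4`, `tr6` : traces of products of gamma matrices.
* `Vsq_eq` : `(1/32) Σ_{αβA} wpot² = ½ Vcyc + (m²/72) Vhi + g² Voth`.
* `Vsq_coer` : coercivity of `Vsq g 1`.
-/

set_option autoImplicit false

open Matrix Crest.MathPhysics.MatrixQM

namespace Crest.Agent.R330.VId87

open Crest.Agent.R330.CoerCfg87 Crest.Agent.R330.Defs478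

noncomputable section

variable (G : GammaNine)

/-- Kronecker delta -/
def dl (i j : Fin 9) : ℝ := if i = j then 1 else 0

theorem dl_comm (i j : Fin 9) : dl i j = dl j i := by
  unfold dl; simp only [eq_comm]

theorem swapM (i j : Fin 9) : G.γ i * G.γ j = (2 * dl i j) • (1 : Matrix (Fin 16) (Fin 16) ℝ)
    - G.γ j * G.γ i := by
  rw [eq_sub_iff_add_eq, G.clifford i j]
  unfold dl
  split_ifs with h
  · rw [mul_one, two_smul, one_add_one_eq_two]
  · simp

theorem tr_swap (L R : Matrix (Fin 16) (Fin 16) ℝ) (i j : Fin 9) :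
    (L * (G.γ i * (G.γ j * R))).trace
      = 2 * dl i j * (L * R).trace - (L * (G.γ j * (G.γ i * R))).trace := by
  rw [← Matrix.mul_assoc (G.γ i), swapM, Matrix.sub_mul, Matrix.mul_sub, Matrix.trace_sub,
    Matrix.smul_mul, Matrix.one_mul, Matrix.mul_smul, Matrix.trace_smul, smul_eq_mul,
    Matrix.mul_assoc]

theorem tr2 (i j : Fin 9) : (G.γ i * G.γ j).trace = 16 * dl i j := by
  have h := tr_swap G 1 1 i j
  simp only [Matrix.one_mul, Matrix.mul_one, Matrix.trace_one, Fintype.card_fin] at h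
  rw [Matrix.trace_mul_comm (G.γ j)] at h
  push_cast at h
  linarith

theorem tr4 (a b c d : Fin 9) : (G.γ a * (G.γ b * (G.γ c * G.γ d))).trace
    = 16 * (dl a b * dl c d - dl a c * dl b d + dl a d * dl b c) := by
  have h1 := tr_swap G 1 (G.γ c * G.γ d) a b
  have h2 := tr_swap G (G.γ b) (G.γ d) a c
  have h3 := tr_swap G (G.γ b * G.γ c) 1 a d
  simp only [Matrix.one_mul, Matrix.mul_one, Matrix.mul_assoc] at h1 h2 h3
  have h4 : (G.γ b * (G.γ c * (G.γ d * G.γ a))).trace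
      = (G.γ a * (G.γ b * (G.γ c * G.γ d))).trace := by
    rw [Matrix.trace_mul_comm (G.γ a)]; simp only [Matrix.mul_assoc]
  rw [h4] at h3
  rw [tr2] at h1 h2 h3
  linarith

theorem tr6 (a b c d e f : Fin 9) :
    (G.γ a * (G.γ b * (G.γ c * (G.γ d * (G.γ e * G.γ f))))).trace
    = 16 * (dl a b * (dl c d * dl e f - dl c e * dl d f + dl c f * dl d e)
      - dl a c * (dl b d * dl e f - dl b e * dl d f + dl b f * dl d e)
      + dl a d * (dl b c * dl e f - dl b e * dl c f + dl b f * dl c e)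
      - dl a e * (dl b c * dl d f - dl b d * dl c f + dl b f * dl c d)
      + dl a f * (dl b c * dl d e - dl b d * dl c e + dl b e * dl c d)) := by
  have h1 := tr_swap G 1 (G.γ c * (G.γ d * (G.γ e * G.γ f))) a b
  have h2 := tr_swap G (G.γ b) (G.γ d * (G.γ e * G.γ f)) a c
  have h3 := tr_swap G (G.γ b * G.γ c) (G.γ e * G.γ f) a d
  have h4 := tr_swap G (G.γ b * (G.γ c * G.γ d)) (G.γ f) a e
  have h5 := tr_swap G (G.γ b * (G.γ c * (G.γ d * G.γ e))) 1 a f
  simp only [Matrix.one_mul, Matrix.mul_one, Matrix.mul_assoc] at h1 h2 h3 h4 h5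
  have h6 : (G.γ b * (G.γ c * (G.γ d * (G.γ e * (G.γ f * G.γ a))))).trace
      = (G.γ a * (G.γ b * (G.γ c * (G.γ d * (G.γ e * G.γ f))))).trace := by
    rw [Matrix.trace_mul_comm (G.γ a)]; simp only [Matrix.mul_assoc]
  rw [h6] at h5
  rw [tr4] at h1 h2 h3 h4 h5
  linarith

/-- `tr(γ^{ij} γ^{kl})`. -/
theorem tr_g2_g2 (i j k l : Fin 9) :
    (G.γ2 i j * G.γ2 k l).trace = 16 * (dl i l * dl j k - dl i k * dl j l) := by
  unfold GammaNine.γ2
  rw [Matrix.smul_mul, Matrix.mul_smul, Matrix.trace_smul, Matrix.trace_smul, Matrix.sub_mul,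
    Matrix.mul_sub, Matrix.mul_sub, Matrix.trace_sub, Matrix.trace_sub, Matrix.trace_sub]
  simp only [Matrix.mul_assoc, tr4, smul_eq_mul]
  rw [dl_comm l k, dl_comm j i]
  ring

/-- `tr(γ^{ij} Γ γ^k)`. -/
theorem tr_g2_Gam (i j k : Fin 9) :
    (G.γ2 i j * (Gam G * G.γ k)).trace
      = 16 * (- dl k 0 * (dl i 1 * dl j 2 - dl i 2 * dl j 1)
        - dl k 1 * (dl i 2 * dl j 0 - dl i 0 * dl j 2)
        - dl k 2 * (dl i 0 * dl j 1 - dl i 1 * dl j 0)) := by
  unfold GammaNine.γ2 Gam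
  rw [Matrix.smul_mul, Matrix.trace_smul, Matrix.sub_mul, Matrix.trace_sub]
  simp only [Matrix.mul_assoc, tr6, smul_eq_mul]
  have e01 : dl 0 1 = 0 := by unfold dl; simp
  have e02 : dl 0 2 = 0 := by unfold dl; simp
  have e12 : dl 1 2 = 0 := by unfold dl; simp
  rw [e01, e02, e12, dl_comm 0 k, dl_comm 1 k, dl_comm 2 k, dl_comm j i]
  ring

/-- `tr((Γ γ^i)ᵀ Γ γ^j)`. -/
theorem tr_Gam_Gam (i j : Fin 9) :
    ((Gam G * G.γ i)ᵀ * (Gam G * G.γ j)).trace = 16 * dl i j := by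
  unfold Gam
  rw [Matrix.transpose_mul, Matrix.transpose_mul, Matrix.transpose_mul, G.symm, G.symm, G.symm,
    G.symm]
  have h : G.γ i * (G.γ 2 * (G.γ 1 * G.γ 0)) * (G.γ 0 * G.γ 1 * G.γ 2 * G.γ j)
      = G.γ i * G.γ j := by
    calc G.γ i * (G.γ 2 * (G.γ 1 * G.γ 0)) * (G.γ 0 * G.γ 1 * G.γ 2 * G.γ j)
        = G.γ i * (G.γ 2 * (G.γ 1 * (G.γ 0 * G.γ 0) * G.γ 1) * G.γ 2) * G.γ j := by
          simp only [Matrix.mul_assoc]
      _ = G.γ i * G.γ j := by
          rw [Crest.Agent.R330.Gam962.sq_one, Matrix.mul_one, Crest.Agent.R330.Gam962.sq_one,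
            Matrix.mul_one, Crest.Agent.R330.Gam962.sq_one, Matrix.mul_one]
  rw [h, tr2]

/-! ### Frobenius norm of the potential matrix -/

/-- the potential matrix with coefficients `a`, `y` -/
def Wm (g m : ℝ) (a : Fin 9 → Fin 9 → ℝ) (y : Fin 9 → ℝ) : Matrix (Fin 16) (Fin 16) ℝ :=
  (g / 2) • (∑ i, ∑ j, a i j • G.γ2 i j) - m • (∑ j, (cc j * y j) • (Gam G * G.γ j))

theorem sum_sq_eq_trace (A : Matrix (Fin 16) (Fin 16) ℝ) :
    ∑ α, ∑ β, (A α β) ^ 2 = (Aᵀ * A).trace := by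
  rw [Matrix.trace]
  simp only [Matrix.diag_apply, Matrix.mul_apply, Matrix.transpose_apply]
  rw [Finset.sum_comm]
  exact Finset.sum_congr rfl fun _ _ => Finset.sum_congr rfl fun _ _ => sq _

theorem trTT (a : Fin 9 → Fin 9 → ℝ) (ha : ∀ i j, a j i = - a i j) :
    ((∑ i, ∑ j, a i j • G.γ2 i j)ᵀ * (∑ i, ∑ j, a i j • G.γ2 i j)).trace
      = 32 * ∑ i, ∑ j, (a i j) ^ 2 := by
  have h1 : (∑ i, ∑ j, a i j • G.γ2 i j)ᵀ = - ∑ i, ∑ j, a i j • G.γ2 i j := by
    rw [Matrix.transpose_sum, ← Finset.sum_neg_distrib]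
    refine Finset.sum_congr rfl fun i _ => ?_
    rw [Matrix.transpose_sum, ← Finset.sum_neg_distrib]
    refine Finset.sum_congr rfl fun j _ => ?_
    rw [Matrix.transpose_smul, Crest.Agent.R330.Gam962.g2_transpose, smul_neg]
  rw [h1, Matrix.neg_mul, Matrix.trace_neg]
  simp only [Finset.sum_mul, Finset.mul_sum, Matrix.trace_sum, Matrix.smul_mul, Matrix.mul_smul,
    Matrix.trace_smul, tr_g2_g2, smul_eq_mul]
  unfold dl
  rw [← Finset.sum_neg_distrib]
  refine Finset.sum_congr rfl fun i _ => ?_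
  rw [← Finset.sum_neg_distrib]
  refine Finset.sum_congr rfl fun j _ => ?_
  have h3 : ∀ k l : Fin 9, a i j * (a k l * (16 * (((if k = j then (1 : ℝ) else 0)
      * if l = i then 1 else 0) - (if k = i then 1 else 0) * if l = j then 1 else 0)))
      = (if l = i then (if k = j then 16 * (a i j * a k l) else 0) else 0)
        - (if l = j then (if k = i then 16 * (a i j * a k l) else 0) else 0) := by
    intro k l
    split_ifs <;> ring
  simp only [h3, Finset.sum_sub_distrib, Finset.sum_ite_eq', Finset.mem_univ, if_true]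
  rw [ha i j]
  ring

theorem trUU (c : Fin 9 → ℝ) :
    ((∑ j, c j • (Gam G * G.γ j))ᵀ * (∑ j, c j • (Gam G * G.γ j))).trace
      = 16 * ∑ j, (c j) ^ 2 := by
  rw [Matrix.transpose_sum]
  simp only [Matrix.transpose_smul, Finset.sum_mul, Finset.mul_sum, Matrix.trace_sum,
    Matrix.smul_mul, Matrix.mul_smul, Matrix.trace_smul, tr_Gam_Gam, smul_eq_mul]
  unfold dl
  refine Finset.sum_congr rfl fun i _ => ?_
  have h3 : ∀ k : Fin 9, c i * (c k * (16 * (if k = i then (1 : ℝ) else 0)))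
      = (if k = i then 16 * (c i * c k) else 0) := by
    intro k
    split_ifs <;> ring
  simp only [h3, Finset.sum_ite_eq', Finset.mem_univ, if_true]
  ring

theorem trTU (a : Fin 9 → Fin 9 → ℝ) (ha : ∀ i j, a j i = - a i j) (c : Fin 9 → ℝ) :
    ((∑ i, ∑ j, a i j • G.γ2 i j)ᵀ * (∑ j, c j • (Gam G * G.γ j))).trace
      = 32 * (c 0 * a 1 2 + c 1 * a 2 0 + c 2 * a 0 1) := by
  have h1 : (∑ i, ∑ j, a i j • G.γ2 i j)ᵀ = - ∑ i, ∑ j, a i j • G.γ2 i j := by
    rw [Matrix.transpose_sum, ← Finset.sum_neg_distrib]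
    refine Finset.sum_congr rfl fun i _ => ?_
    rw [Matrix.transpose_sum, ← Finset.sum_neg_distrib]
    refine Finset.sum_congr rfl fun j _ => ?_
    rw [Matrix.transpose_smul, Crest.Agent.R330.Gam962.g2_transpose, smul_neg]
  rw [h1, Matrix.neg_mul, Matrix.trace_neg]
  simp only [Finset.sum_mul, Finset.mul_sum, Matrix.trace_sum, Matrix.smul_mul, Matrix.mul_smul,
    Matrix.trace_smul, tr_g2_Gam, smul_eq_mul]
  have key : ∀ p q : Fin 9, ∑ i, ∑ j, a i j * (dl i p * dl j q) = a p q := by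
    intro p q
    unfold dl
    have h : ∀ i j : Fin 9, a i j * ((if i = p then (1 : ℝ) else 0) * (if j = q then 1 else 0))
        = if j = q then (if i = p then a i j else 0) else 0 := by
      intro i j; split_ifs <;> ring
    simp only [h, Finset.sum_ite_eq', Finset.mem_univ, if_true]
  have key2 : ∀ p : Fin 9, ∑ k, c k * dl k p = c p := by
    intro p
    unfold dl
    simp
  have h2 : ∀ k : Fin 9, ∑ i, ∑ j, c k * (a i j * (16 *
      (-dl k 0 * (dl i 1 * dl j 2 - dl i 2 * dl j 1) - dl k 1 * (dl i 2 * dl j 0 - dl i 0 * dl j 2)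
        - dl k 2 * (dl i 0 * dl j 1 - dl i 1 * dl j 0))))
      = -(32 * (a 1 2 * (c k * dl k 0) + a 2 0 * (c k * dl k 1) + a 0 1 * (c k * dl k 2))) := by
    intro k
    have e : ∀ i j : Fin 9, c k * (a i j * (16 *
      (-dl k 0 * (dl i 1 * dl j 2 - dl i 2 * dl j 1) - dl k 1 * (dl i 2 * dl j 0 - dl i 0 * dl j 2)
        - dl k 2 * (dl i 0 * dl j 1 - dl i 1 * dl j 0))))
        = (-16 * (c k * dl k 0)) * (a i j * (dl i 1 * dl j 2))
          + (16 * (c k * dl k 0)) * (a i j * (dl i 2 * dl j 1))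
          + (-16 * (c k * dl k 1)) * (a i j * (dl i 2 * dl j 0))
          + (16 * (c k * dl k 1)) * (a i j * (dl i 0 * dl j 2))
          + (-16 * (c k * dl k 2)) * (a i j * (dl i 0 * dl j 1))
          + (16 * (c k * dl k 2)) * (a i j * (dl i 1 * dl j 0)) := by
      intro i j; ring
    simp only [e, Finset.sum_add_distrib, ← Finset.mul_sum, key]
    rw [ha 1 2, ha 2 0, ha 0 1]
    ring
  rw [Finset.sum_congr rfl (fun k _ => h2 k), Finset.sum_neg_distrib, neg_neg, ← Finset.mul_sum]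
  simp only [Finset.sum_add_distrib, ← Finset.mul_sum, key2]
  ring

theorem fro_Wm (g m : ℝ) (a : Fin 9 → Fin 9 → ℝ) (ha : ∀ i j, a j i = - a i j) (y : Fin 9 → ℝ) :
    ∑ α, ∑ β, (Wm G g m a y α β) ^ 2
      = 8 * g ^ 2 * ∑ i, ∑ j, (a i j) ^ 2
        - 32 * g * m * (cc 0 * y 0 * a 1 2 + cc 1 * y 1 * a 2 0 + cc 2 * y 2 * a 0 1)
        + 16 * m ^ 2 * ∑ j, (cc j * y j) ^ 2 := by
  rw [sum_sq_eq_trace]
  unfold Wm
  rw [Matrix.transpose_sub, Matrix.transpose_smul, Matrix.transpose_smul]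
  set T := ∑ i, ∑ j, a i j • G.γ2 i j with hT
  set U := ∑ j, (cc j * y j) • (Gam G * G.γ j) with hU
  have h1 : ((g / 2) • Tᵀ - m • Uᵀ) * ((g / 2) • T - m • U)
      = (g / 2 * (g / 2)) • (Tᵀ * T) - (g / 2 * m) • (Tᵀ * U) - (m * (g / 2)) • (Uᵀ * T)
        + (m * m) • (Uᵀ * U) := by
    rw [Matrix.sub_mul, Matrix.mul_sub, Matrix.mul_sub, Matrix.smul_mul, Matrix.smul_mul,
      Matrix.smul_mul, Matrix.smul_mul, Matrix.mul_smul, Matrix.mul_smul, Matrix.mul_smul,
      Matrix.mul_smul, smul_smul, smul_smul, smul_smul, smul_smul]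
    abel
  have h2 : (Uᵀ * T).trace = (Tᵀ * U).trace := by
    rw [← Matrix.trace_transpose (Tᵀ * U), Matrix.transpose_mul, Matrix.transpose_transpose]
  rw [h1, Matrix.trace_add, Matrix.trace_sub, Matrix.trace_sub, Matrix.trace_smul,
    Matrix.trace_smul, Matrix.trace_smul, Matrix.trace_smul, h2, hT, hU, trTT G a ha,
    trUU G (fun j => cc j * y j), trTU G a ha (fun j => cc j * y j)]
  simp only [smul_eq_mul]
  ring

theorem sum_pairs (f : Fin 9 → Fin 9 → ℝ) (hs : ∀ i j, f j i = f i j) (h0 : ∀ i, f i i = 0) :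
    ∑ i, ∑ j, f i j = 2 * (f 1 2 + f 2 0 + f 0 1)
      + ∑ i : Fin 9, ∑ j : Fin 9, (if (i : ℕ) < 3 ∧ (j : ℕ) < 3 then 0 else f i j) := by
  have h : ∑ i, ∑ j, f i j = ∑ i : Fin 9, ∑ j : Fin 9, (if (i : ℕ) < 3 ∧ (j : ℕ) < 3 then f i j else 0)
      + ∑ i : Fin 9, ∑ j : Fin 9, (if (i : ℕ) < 3 ∧ (j : ℕ) < 3 then 0 else f i j) := by
    rw [← Finset.sum_add_distrib]
    refine Finset.sum_congr rfl fun i _ => ?_
    rw [← Finset.sum_add_distrib]
    refine Finset.sum_congr rfl fun j _ => ?_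
    split_ifs <;> simp
  rw [h]
  congr 1
  simp only [Fin.sum_univ_succ]
  simp
  have e1 := hs 0 1
  have e2 := hs 1 2
  have e3 := hs 0 2
  have z0 := h0 0
  have z1 := h0 1
  have z2 := h0 2
  linarith

/-! ### The potential -/

/-- `V_{g,m} = (1/32) Σ w²` -/
def Vsq {N : ℕ} (b : ColorBasis N) (g m : ℝ) (x : Cfg N) : ℝ :=
  (1 / 32 : ℝ) * ∑ α : Fin 16, ∑ β : Fin 16, ∑ A : Fin (N ^ 2 - 1), (wpot b G g m α β A x) ^ 2

/-- `½ Σ |[x_i, x_j]|²` over the ordered pairs which are not both `< 3`, halved. -/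
def Voth {N : ℕ} (b : ColorBasis N) (x : Cfg N) : ℝ :=
  (1 / 4 : ℝ) * ∑ A : Fin (N ^ 2 - 1), ∑ i : Fin 9, ∑ j : Fin 9,
    (if (i : ℕ) < 3 ∧ (j : ℕ) < 3 then 0 else (br b (comp x i) (comp x j) A) ^ 2)

theorem Voth_nonneg {N : ℕ} (b : ColorBasis N) (x : Cfg N) : 0 ≤ Voth b x := by
  unfold Voth
  refine mul_nonneg (by norm_num) (Finset.sum_nonneg fun A _ => Finset.sum_nonneg fun i _ =>
    Finset.sum_nonneg fun j _ => ?_)
  split_ifs
  · exact le_rfl
  · exact sq_nonneg _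

theorem structConst_swap23 {N : ℕ} (b : ColorBasis N) (A B C : Fin (N ^ 2 - 1)) :
    b.structConst A C B = - b.structConst A B C := by
  rw [structConst_cyc b A C B, structConst_swap b B C A, ← structConst_cyc b A B C]

theorem br_swap {N : ℕ} (b : ColorBasis N) (u v : Fin (N ^ 2 - 1) → ℝ) (A : Fin (N ^ 2 - 1)) :
    br b v u A = - br b u v A := by
  unfold br
  rw [Finset.sum_comm, ← Finset.sum_neg_distrib]
  refine Finset.sum_congr rfl fun B _ => ?_
  rw [← Finset.sum_neg_distrib]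
  refine Finset.sum_congr rfl fun C _ => ?_
  rw [structConst_swap23 b A B C]
  ring

theorem wpot_eq {N : ℕ} (b : ColorBasis N) (g m : ℝ) (α β : Fin 16) (A : Fin (N ^ 2 - 1))
    (x : Cfg N) :
    wpot b G g m α β A x
      = Wm G g m (fun i j => br b (comp x i) (comp x j) A) (fun j => comp x j A) α β := by
  unfold wpot Wm br CoerCfg87.comp
  rw [Matrix.sub_apply, Matrix.smul_apply, Matrix.smul_apply, Matrix.sum_apply, Matrix.sum_apply]
  simp only [Matrix.sum_apply, Matrix.smul_apply, smul_eq_mul]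
  congr 1
  · simp only [Finset.mul_sum, Finset.sum_mul]
    rw [Finset.sum_congr rfl fun B _ => Finset.sum_comm, Finset.sum_comm]
    refine Finset.sum_congr rfl fun i _ => ?_
    rw [Finset.sum_congr rfl fun B _ => Finset.sum_comm, Finset.sum_comm]
    refine Finset.sum_congr rfl fun j _ => Finset.sum_congr rfl fun B _ =>
      Finset.sum_congr rfl fun C _ => ?_
    ring

theorem cc_lt {j : Fin 9} (h : (j : ℕ) < 3) : cc j = 1 / 3 := if_pos h

theorem cc_ge {j : Fin 9} (h : ¬ (j : ℕ) < 3) : cc j = -(1 / 6) := if_neg h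

/-- **The potential in commutator form.** -/
theorem Vsq_eq {N : ℕ} (b : ColorBasis N) (g m : ℝ) (x : Cfg N) :
    Vsq G b g m x = 1 / 2 * Vcyc b g m x + m ^ 2 / 72 * Vhi x + g ^ 2 * Voth b x := by
  have h1 : Vsq G b g m x = (1 / 32 : ℝ) * ∑ A, ∑ α, ∑ β,
      (Wm G g m (fun i j => br b (CoerCfg87.comp x i) (CoerCfg87.comp x j) A)
        (fun j => CoerCfg87.comp x j A) α β) ^ 2 := by
    unfold Vsq
    congr 1
    rw [Finset.sum_congr rfl fun α _ => Finset.sum_comm, Finset.sum_comm]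
    exact Finset.sum_congr rfl fun A _ => Finset.sum_congr rfl fun α _ =>
      Finset.sum_congr rfl fun β _ => by rw [wpot_eq]
  rw [h1]
  have h2 : ∀ A : Fin (N ^ 2 - 1), ∑ α, ∑ β,
      (Wm G g m (fun i j => br b (CoerCfg87.comp x i) (CoerCfg87.comp x j) A)
        (fun j => CoerCfg87.comp x j A) α β) ^ 2
      = 16 * (∑ i : Fin 3, (m * CoerCfg87.comp x (lo i) A / 3
          - g * br b (CoerCfg87.comp x (lo (i + 1))) (CoerCfg87.comp x (lo (i + 2))) A) ^ 2)
        + 32 * (m ^ 2 / 72 * ∑ i : Fin 6, (CoerCfg87.comp x ⟨i + 3, by omega⟩ A) ^ 2)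
        + 32 * (g ^ 2 * ((1 / 4 : ℝ) * ∑ i : Fin 9, ∑ j : Fin 9,
          (if (i : ℕ) < 3 ∧ (j : ℕ) < 3 then 0
            else (br b (CoerCfg87.comp x i) (CoerCfg87.comp x j) A) ^ 2))) := by
    intro A
    rw [fro_Wm G g m _ (fun i j => br_swap b _ _ A)]
    rw [sum_pairs (fun i j => (br b (CoerCfg87.comp x i) (CoerCfg87.comp x j) A) ^ 2)
      (fun i j => by rw [br_swap]; ring)
      (fun i => by
        have := br_swap b (CoerCfg87.comp x i) (CoerCfg87.comp x i) A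
        have h0 : br b (CoerCfg87.comp x i) (CoerCfg87.comp x i) A = 0 := by linarith
        rw [h0]; norm_num)]
    set Z := ∑ i : Fin 9, ∑ j : Fin 9, (if (i : ℕ) < 3 ∧ (j : ℕ) < 3 then 0
            else (br b (CoerCfg87.comp x i) (CoerCfg87.comp x j) A) ^ 2) with hZ
    have h3 : ∑ j : Fin 9, (cc j * CoerCfg87.comp x j A) ^ 2
        = 1 / 9 * ∑ i : Fin 3, (CoerCfg87.comp x (lo i) A) ^ 2
          + 1 / 36 * ∑ i : Fin 6, (CoerCfg87.comp x ⟨i + 3, by omega⟩ A) ^ 2 := by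
      rw [Fin.sum_univ_succ, Fin.sum_univ_succ, Fin.sum_univ_succ, Fin.sum_univ_three]
      rw [cc_lt (j := 0) (by decide), cc_lt (j := (0 : Fin 8).succ) (by decide),
        cc_lt (j := ((0 : Fin 7).succ).succ) (by decide)]
      have h4 : ∀ i : Fin 6, cc (i.succ.succ.succ) = -(1 / 6) := fun i => cc_ge (by simp)
      simp only [h4]
      rw [Finset.mul_sum]
      have h5 : ∀ i : Fin 6, (-(1 / 6) * CoerCfg87.comp x (i.succ.succ.succ) A) ^ 2
          = 1 / 36 * (CoerCfg87.comp x ⟨i + 3, by omega⟩ A) ^ 2 := by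
        intro i
        have : (i.succ.succ.succ : Fin 9) = ⟨i + 3, by omega⟩ := by ext; simp
        rw [this]; ring
      simp only [h5]
      have e0 : lo 0 = (0 : Fin 9) := rfl
      have e1 : lo 1 = (1 : Fin 9) := rfl
      have e2 : lo 2 = (2 : Fin 9) := rfl
      have f1 : ((0 : Fin 8).succ) = (1 : Fin 9) := rfl
      have f2 : (((0 : Fin 7).succ).succ) = (2 : Fin 9) := rfl
      rw [e0, e1, e2, f1, f2]
      ring
    rw [h3]
    rw [cc_lt (j := 0) (by decide), cc_lt (j := 1) (by decide), cc_lt (j := 2) (by decide)]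
    simp only [Fin.sum_univ_three]
    have e0 : lo 0 = (0 : Fin 9) := rfl
    have e1 : lo 1 = (1 : Fin 9) := rfl
    have e2 : lo 2 = (2 : Fin 9) := rfl
    have a1 : (0 : Fin 3) + 1 = 1 := rfl
    have a2 : (0 : Fin 3) + 2 = 2 := rfl
    have a3 : (1 : Fin 3) + 1 = 2 := rfl
    have a4 : (1 : Fin 3) + 2 = 0 := rfl
    have a5 : (2 : Fin 3) + 1 = 0 := rfl
    have a6 : (2 : Fin 3) + 2 = 1 := rfl
    simp only [a1, a2, a3, a4, a5, a6, e0, e1, e2]
    ring
  simp only [h2]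
  unfold Vcyc Vhi Voth
  rw [Finset.sum_add_distrib, Finset.sum_add_distrib]
  rw [Finset.sum_comm (s := (Finset.univ : Finset (Fin 3))),
    Finset.sum_comm (s := (Finset.univ : Finset (Fin 6)))]
  simp only [← Finset.mul_sum]
  ring

/-- Coercivity of `V_{g,1}`. -/
theorem Vsq_coer {N : ℕ} (hN : 0 < N) (b : ColorBasis N) {g : ℝ} (hg : 0 < g) (x : Cfg N) :
    ‖x‖ ^ 2 / (432 * (N : ℝ) ^ 3) - 1152 * (N : ℝ) ^ 10 / g ^ 2 ≤ Vsq G b g 1 x := by
  have h := coercivity b hN hg x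
  have h2 := Voth_nonneg b x
  rw [Vsq_eq]
  nlinarith [sq_nonneg g, mul_nonneg (sq_nonneg g) h2]

end

end Crest.Agent.R330.VId87
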