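import Crest.Agent.R330.HIAnn_245
import Crest.Agent.R330.VId_87

/-!
# Row 330, leaf S10-TIGHT, part A (helper399)

* `dcharge_eq_dop`, `qf_ims` : integrated IMS identity for all charges `Q^{g,m}` and any finite
  family of smooth functions with `Σ J² = 1` near the support.
* `qf_scale'` : scaling of `q_{g,m}` with mass.
* `TA b M R G Λ` : `c L⁴ ∫|φ|² ≤ q_{g,L²}(φ)` for core vectors supported in `1 ≤ |x| ≤ Λ`,
  all `L ≥ L₀`, all `g ≥ L³`.
* `tight_of_TA` : (10.1) from `TA`.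
-/

set_option autoImplicit false
set_option linter.unusedSectionVars false

open MeasureTheory Filter Topology Crest.MathPhysics.MatrixQM
open scoped ContDiff InnerProductSpace ENNReal

noncomputable section

namespace Crest.Agent.R330.TightA399

open Crest.Agent.R330.Defs478 Crest.Agent.R330.Ims714 Crest.Agent.R330.HIAnn245

variable {N : ℕ} {F : Type*} [NormedAddCommGroup F] [InnerProductSpace ℂ F]
  [FiniteDimensional ℂ F]

/-- the potential part of the charge `Q_α^{g,m}` -/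
def wd (b : ColorBasis N) (M : FermionRep N F) (G : GammaNine) (g m : ℝ) (α : Fin 16)
    (x : Cfg N) : F →ₗ[ℂ] F :=
  ∑ A : Fin (N ^ 2 - 1), ∑ β : Fin 16, ((wpot b G g m α β A x : ℝ) : ℂ) • M.θ β A

theorem dcharge_eq_dop (b : ColorBasis N) (M : FermionRep N F) (G : GammaNine) (g m : ℝ)
    (α : Fin 16) (φ : Cfg N → F) : dcharge b M G g m α φ = dop G M α (wd b M G g m α) φ := by
  funext x
  simp only [dcharge, Defs478.kin, dop, wd, LinearMap.sum_apply, LinearMap.smul_apply]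

theorem dcharge_eventually_zero (b : ColorBasis N) (M : FermionRep N F) (G : GammaNine)
    (g m : ℝ) (α : Fin 16) {φ : Cfg N → F} {x : Cfg N} (h : φ =ᶠ[𝓝 x] 0) :
    dcharge b M G g m α φ x = 0 := by
  have h1 : fderiv ℝ φ x = 0 := by
    rw [h.fderiv_eq]
    exact fderiv_const_apply (0 : F)
  have h2 : φ x = 0 := h.eq_of_nhds
  simp [dcharge, Defs478.kin, h1, h2]

theorem integrable_dcharge_sq (b : ColorBasis N) (M : FermionRep N F) (G : GammaNine)
    (g m : ℝ) (α : Fin 16) {φ : Cfg N → F} (hφ : ContDiff ℝ 1 φ) (hc : HasCompactSupport φ) :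
    Integrable fun x => ‖dcharge b M G g m α φ x‖ ^ 2 := by
  refine ((continuous_dcharge b M G g m α hφ).norm.pow 2).integrable_of_hasCompactSupport ?_
  refine HasCompactSupport.intro hc fun x hx => ?_
  simp only [Pi.pow_apply,
    dcharge_eventually_zero b M G g m α (notMem_tsupport_iff_eventuallyEq.1 hx)]
  simp

theorem qf_nonneg (b : ColorBasis N) (M : FermionRep N F) (G : GammaNine) (g m : ℝ)
    (φ : Cfg N → F) : 0 ≤ qf b M G g m φ := by
  unfold qf
  have : 0 ≤ ∑ α : Fin 16, ∫ x, ‖dcharge b M G g m α φ x‖ ^ 2 :=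
    Finset.sum_nonneg fun α _ => integral_nonneg fun x => by positivity
  positivity

theorem continuous_grad {χ : Cfg N → ℝ} (hχ : ContDiff ℝ 1 χ) : Continuous (grad χ) := by
  have h : Continuous fun x : Cfg N => fun iA : Fin 9 × Fin (N ^ 2 - 1) =>
      fderiv ℝ χ x (EuclideanSpace.single iA 1) :=
    continuous_pi fun iA => (hχ.continuous_fderiv one_ne_zero).clm_apply continuous_const
  exact (PiLp.continuous_toLp 2 _).comp h

/-- **Integrated IMS identity** for the charges `Q^{g,m}`. -/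
theorem qf_ims {ι : Type*} (s : Finset ι) (b : ColorBasis N) (M : FermionRep N F)
    (G : GammaNine) (g m : ℝ) {J : ι → Cfg N → ℝ} {φ : Cfg N → F}
    (hJ : ∀ k ∈ s, ContDiff ℝ 1 (J k)) (hφ : ContDiff ℝ 1 φ) (hc : HasCompactSupport φ)
    (h1 : ∀ x ∈ tsupport φ, ∀ᶠ y in 𝓝 x, ∑ k ∈ s, J k y ^ 2 = 1) :
    ∑ k ∈ s, qf b M G g m (fun x => J k x • φ x) =
      qf b M G g m φ + 1 / 2 * ∫ x, (∑ k ∈ s, ‖grad (J k) x‖ ^ 2) * ‖φ x‖ ^ 2 := by
  have hd : ∀ k ∈ s, ContDiff ℝ 1 (fun x => J k x • φ x) := fun k hk => (hJ k hk).smul hφ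
  have hcs : ∀ k, HasCompactSupport (fun x => J k x • φ x) := fun k => hc.smul_left (f := J k)
  have hint : ∀ k ∈ s, ∀ α, Integrable fun x =>
      ‖dcharge b M G g m α (fun y => J k y • φ y) x‖ ^ 2 := fun k hk α =>
    integrable_dcharge_sq b M G g m α (hd k hk) (hcs k)
  have hgi : Integrable fun x => (∑ k ∈ s, ‖grad (J k) x‖ ^ 2) * ‖φ x‖ ^ 2 := by
    refine Continuous.integrable_of_hasCompactSupport ?_ ?_
    · refine (continuous_finsetSum _ fun k hk => ?_).mul (hφ.continuous.norm.pow 2)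
      exact (continuous_grad (hJ k hk)).norm.pow 2
    · refine HasCompactSupport.intro hc fun x hx => ?_
      simp [image_eq_zero_of_notMem_tsupport hx]
  have hpt : ∀ α x, ∑ k ∈ s, ‖dcharge b M G g m α (fun y => J k y • φ y) x‖ ^ 2 =
      ‖dcharge b M G g m α φ x‖ ^ 2 +
        1 / 2 * ((∑ k ∈ s, ‖grad (J k) x‖ ^ 2) * ‖φ x‖ ^ 2) := by
    intro α x
    by_cases hx : x ∈ tsupport φ
    · have hJd : ∀ k ∈ s, DifferentiableAt ℝ (J k) x := fun k hk =>
        (hJ k hk).differentiable (by simp) x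
      have h2 := ims_pointwise s G M α (wd b M G g m α) hJd
        (hφ.differentiable (by simp) x) (h1 x hx).self_of_nhds
        (sum_mul_grad_eq_zero _ hJd (h1 x hx))
      simp only [← dcharge_eq_dop] at h2
      rw [h2]
      ring
    · have he := notMem_tsupport_iff_eventuallyEq.1 hx
      have h1 : ∀ k, dcharge b M G g m α (fun y => J k y • φ y) x = 0 := fun k => by
        refine dcharge_eventually_zero b M G g m α ?_
        filter_upwards [he] with y hy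
        simp [hy]
      have h2 : φ x = 0 := image_eq_zero_of_notMem_tsupport hx
      simp only [h1, h2, dcharge_eventually_zero b M G g m α he]
      simp
  have hsum : ∀ α, ∑ k ∈ s, ∫ x, ‖dcharge b M G g m α (fun y => J k y • φ y) x‖ ^ 2 =
      (∫ x, ‖dcharge b M G g m α φ x‖ ^ 2) +
        1 / 2 * ∫ x, (∑ k ∈ s, ‖grad (J k) x‖ ^ 2) * ‖φ x‖ ^ 2 := by
    intro α
    rw [← integral_finsetSum _ fun k hk => hint k hk α, ← integral_const_mul,
      ← integral_add (integrable_dcharge_sq b M G g m α hφ hc) (hgi.const_mul _)]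
    exact integral_congr_ae (Eventually.of_forall fun x => hpt α x)
  unfold qf
  rw [← Finset.mul_sum, Finset.sum_comm, Finset.sum_congr rfl fun α _ => hsum α,
    Finset.sum_add_distrib, Finset.sum_const, Finset.card_univ, Fintype.card_fin, nsmul_eq_mul]
  push_cast
  ring

/-! ### scaling with mass -/

theorem dcharge_scale' (b : ColorBasis N) (M : FermionRep N F) (G : GammaNine) (g m : ℝ)
    (α : Fin 16) {φ : Cfg N → F} (hφ : Differentiable ℝ φ) (l : ℝ) (x : Cfg N) :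
    dcharge b M G (g * l ^ 3) (m * l ^ 2) α (fun y => φ (l • y)) x =
      l • dcharge b M G g m α φ (l • x) := by
  have hr : ∀ (c : ℝ) (f : F), c • f = (c : ℂ) • f := fun c f => (Complex.coe_smul c f).symm
  have hd : ∀ v : Cfg N, fderiv ℝ (fun y => φ (l • y)) x v = l • fderiv ℝ φ (l • x) v := by
    intro v
    have h1 : HasFDerivAt (fun y : Cfg N => l • y) (l • ContinuousLinearMap.id ℝ (Cfg N)) x :=
      (hasFDerivAt_id x).const_smul l
    have h2 := (hφ (l • x)).hasFDerivAt.comp x h1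
    have h3 : fderiv ℝ (fun y => φ (l • y)) x =
        (fderiv ℝ φ (l • x)).comp (l • ContinuousLinearMap.id ℝ (Cfg N)) := h2.fderiv
    rw [h3]
    simp
  have hw : ∀ β A, wpot b G (g * l ^ 3) (m * l ^ 2) α β A x =
      l * wpot b G g m α β A (l • x) := by
    intro β A
    unfold wpot
    simp only [PiLp.smul_apply, smul_eq_mul]
    rw [mul_sub]
    congr 1
    · rw [Finset.mul_sum, Finset.mul_sum, Finset.mul_sum]
      refine Finset.sum_congr rfl fun B _ => ?_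
      rw [Finset.mul_sum, Finset.mul_sum, Finset.mul_sum]
      refine Finset.sum_congr rfl fun C _ => ?_
      rw [Finset.mul_sum, Finset.mul_sum, Finset.mul_sum]
      refine Finset.sum_congr rfl fun i _ => ?_
      rw [Finset.mul_sum, Finset.mul_sum, Finset.mul_sum]
      refine Finset.sum_congr rfl fun j _ => ?_
      ring
    · rw [Finset.mul_sum, Finset.mul_sum, Finset.mul_sum]
      refine Finset.sum_congr rfl fun j _ => ?_
      ring
  unfold dcharge Defs478.kin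
  rw [smul_add, Finset.smul_sum, Finset.smul_sum]
  congr 1
  · refine Finset.sum_congr rfl fun i _ => ?_
    rw [Finset.smul_sum]
    refine Finset.sum_congr rfl fun A _ => ?_
    rw [Finset.smul_sum]
    refine Finset.sum_congr rfl fun β _ => ?_
    rw [hd, hr, map_smul, hr]
    exact smul_comm _ _ _
  · refine Finset.sum_congr rfl fun A _ => ?_
    rw [Finset.smul_sum]
    refine Finset.sum_congr rfl fun β _ => ?_
    rw [hw, hr, smul_smul]
    push_cast
    rfl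

theorem qf_scale' (b : ColorBasis N) (M : FermionRep N F) (G : GammaNine) (g m : ℝ)
    {φ : Cfg N → F} (hφ : Differentiable ℝ φ) (l : ℝ) :
    qf b M G (g * l ^ 3) (m * l ^ 2) (fun y => φ (l • y)) =
      l ^ 2 * |(l ^ Module.finrank ℝ (Cfg N))⁻¹| * qf b M G g m φ := by
  unfold qf
  have h : ∀ α : Fin 16,
      ∫ x, ‖dcharge b M G (g * l ^ 3) (m * l ^ 2) α (fun y => φ (l • y)) x‖ ^ 2 =
      l ^ 2 * |(l ^ Module.finrank ℝ (Cfg N))⁻¹| * ∫ x, ‖dcharge b M G g m α φ x‖ ^ 2 := by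
    intro α
    have h1 : ∀ x, ‖dcharge b M G (g * l ^ 3) (m * l ^ 2) α (fun y => φ (l • y)) x‖ ^ 2 =
        l ^ 2 * (fun z => ‖dcharge b M G g m α φ z‖ ^ 2) (l • x) := by
      intro x
      rw [dcharge_scale' b M G g m α hφ, norm_smul, mul_pow, Real.norm_eq_abs, sq_abs]
    simp only [h1]
    rw [integral_const_mul, Measure.integral_comp_smul volume
      (fun z => ‖dcharge b M G g m α φ z‖ ^ 2) l, smul_eq_mul]
    ring
  simp only [h]
  rw [← Finset.mul_sum]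
  ring

/-- the annulus inequality at large mass -/
def TA (b : ColorBasis N) (M : FermionRep N F) (R : GaugeAction b M) (G : GammaNine)
    (Λ : ℝ) : Prop :=
  ∃ L₀ c : ℝ, 0 < L₀ ∧ 0 < c ∧ ∀ L : ℝ, L₀ ≤ L → ∀ g : ℝ, L ^ 3 ≤ g →
    ∀ φ : Cfg N → F, IsCoreVec b R φ → (∀ x, φ x ≠ 0 → 1 ≤ ‖x‖ ∧ ‖x‖ ≤ Λ) →
    c * L ^ 4 * ∫ x, ‖φ x‖ ^ 2 ≤ qf b M G g (L ^ 2) φ

/-- (10.1): tightness at infinity, uniformly in the coupling `g ≥ 1`. -/
def Tight (b : ColorBasis N) (M : FermionRep N F) (R : GaugeAction b M) (G : GammaNine) : Prop :=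
  ∃ L₀ c : ℝ, 0 < L₀ ∧ 0 < c ∧ ∀ g : ℝ, 1 ≤ g → ∀ φ : Cfg N → F, IsCoreVec b R φ →
    (∀ x, ‖x‖ < L₀ → φ x = 0) → c * ∫ x, ‖x‖ ^ 2 * ‖φ x‖ ^ 2 ≤ qf b M G g 1 φ

theorem ta_scaled {b : ColorBasis N} {M : FermionRep N F} {R : GaugeAction b M} {G : GammaNine}
    {Λ L₀ c : ℝ} (h : ∀ L : ℝ, L₀ ≤ L → ∀ g : ℝ, L ^ 3 ≤ g →
      ∀ φ : Cfg N → F, IsCoreVec b R φ → (∀ x, φ x ≠ 0 → 1 ≤ ‖x‖ ∧ ‖x‖ ≤ Λ) →
      c * L ^ 4 * ∫ x, ‖φ x‖ ^ 2 ≤ qf b M G g (L ^ 2) φ)
    {l : ℝ} (hl : 0 < l) (hL : L₀ ≤ l) {g : ℝ} (hg : 1 ≤ g) {φ : Cfg N → F}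
    (hφ : IsCoreVec b R φ) (hs : ∀ x, φ x ≠ 0 → l ≤ ‖x‖ ∧ ‖x‖ ≤ l * Λ) :
    c * l ^ 2 * ∫ x, ‖φ x‖ ^ 2 ≤ qf b M G g 1 φ := by
  have hl3 : 0 < l ^ 3 := by positivity
  have h1 := h l hL (g * l ^ 3) (by nlinarith) (fun y => φ (l • y)) (core_scale hφ hl.ne')
    (fun x hx => by
      have h2 := hs (l • x) hx
      rw [norm_smul, Real.norm_eq_abs, abs_of_pos hl] at h2
      constructor
      · have := h2.1
        nlinarith
      · exact le_of_mul_le_mul_left h2.2 hl)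
  have h3 : qf b M G (g * l ^ 3) (l ^ 2) (fun y => φ (l • y)) =
      l ^ 2 * |(l ^ Module.finrank ℝ (Cfg N))⁻¹| * qf b M G g 1 φ := by
    rw [← qf_scale' b M G g 1 (cv_diff hφ) l, one_mul]
  have h4 : ∫ x, ‖φ (l • x)‖ ^ 2 = |(l ^ Module.finrank ℝ (Cfg N))⁻¹| * ∫ x, ‖φ x‖ ^ 2 := by
    rw [Measure.integral_comp_smul volume (fun z => ‖φ z‖ ^ 2) l, smul_eq_mul]
  rw [h3, h4] at h1
  have hc : 0 < l ^ 2 * |(l ^ Module.finrank ℝ (Cfg N))⁻¹| := by
    have : l ^ Module.finrank ℝ (Cfg N) ≠ 0 := pow_ne_zero _ hl.ne'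
    positivity
  refine le_of_mul_le_mul_left ?_ hc
  refine le_trans (le_of_eq ?_) h1
  ring

/-- **(10.1) from the annulus inequality.** -/
theorem tight_of_TA {b : ColorBasis N} {M : FermionRep N F} {R : GaugeAction b M}
    {G : GammaNine} (hTA : TA b M R G 4) : Tight b M R G := by
  obtain ⟨L₀, c, hL₀, hc, hTA⟩ := hTA
  obtain ⟨C, hC0, hC⟩ := exists_sT_bound
  have hΛ : (1 : ℝ) < 2 := by norm_num
  set B : ℝ := 5 * (Real.pi / 2 * C / Real.log 2) ^ 2 with hBdef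
  have hB0 : 0 ≤ B := by rw [hBdef]; positivity
  obtain ⟨k₀, hk₀⟩ := pow_unbounded_of_one_lt (max (max 1 L₀) (16 * B / c)) hΛ
  have hk1 : (1 : ℝ) ≤ 2 ^ k₀ := ((le_max_left _ _).trans (le_max_left _ _)).trans hk₀.le
  have hk2 : L₀ ≤ 2 ^ k₀ := ((le_max_right _ _).trans (le_max_left _ _)).trans hk₀.le
  have hk3 : 16 * B / c ≤ 2 ^ k₀ := (le_max_right _ _).trans hk₀.le
  refine ⟨2 ^ (k₀ + 2), c / 32, by positivity, by positivity, fun g hg φ hφ h0 => ?_⟩
  obtain ⟨r, hr⟩ := hφ.2.1.isBounded.exists_norm_le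
  obtain ⟨n, hn⟩ := pow_unbounded_of_one_lt r hΛ
  have hn' : ∀ x ∈ tsupport φ, ‖x‖ < 2 ^ n := fun x hx => (hr x hx).trans_lt hn
  have hJ1 : ∀ x ∈ tsupport φ, ∀ᶠ y in 𝓝 x, ∑ k ∈ Finset.range (n + 1), J 2 k y ^ 2 = 1 := by
    intro x hx
    have : ∀ᶠ y : Cfg N in 𝓝 x, ‖y‖ < 2 ^ n :=
      (continuous_norm.tendsto x).eventually_lt_const (hn' x hx)
    filter_upwards [this] with y hy
    rw [J_sum hΛ, ang_zero hΛ hy.le]; simp
  have hims := qf_ims (Finset.range (n + 1)) b M G g 1 (J := J 2)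
    (fun k _ => (contDiff_J hΛ k).of_le (by simp)) (cv_c1 hφ) hφ.2.1 hJ1
  -- the localised pieces
  have hintW : ∀ ψ : Cfg N → F, Continuous ψ → HasCompactSupport ψ →
      Integrable fun x => ‖x‖ ^ 2 * ‖ψ x‖ ^ 2 := fun ψ h1 h2 => by
    refine Continuous.integrable_of_hasCompactSupport
      ((continuous_norm.pow 2).mul (h1.norm.pow 2)) ?_
    exact HasCompactSupport.intro h2 fun x hx => by
      simp [image_eq_zero_of_notMem_tsupport hx]
  have hint2 : ∀ ψ : Cfg N → F, Continuous ψ → HasCompactSupport ψ →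
      Integrable fun x => ‖ψ x‖ ^ 2 := fun ψ h1 h2 => by
    refine Continuous.integrable_of_hasCompactSupport (h1.norm.pow 2) ?_
    exact HasCompactSupport.intro h2 fun x hx => by
      simp [image_eq_zero_of_notMem_tsupport hx]
  have hcore : ∀ k, IsCoreVec b R (fun x => J 2 k x • φ x) := fun k =>
    isCoreVec_mul (contDiff_J hΛ k) (J_act b 2 k) hφ
  have hk : ∀ k, c / 16 * ∫ x, ‖x‖ ^ 2 * ‖J 2 k x • φ x‖ ^ 2 ≤
      qf b M G g 1 (fun x => J 2 k x • φ x) := by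
    intro k
    have hzero : (∀ x, J 2 k x • φ x = 0) → c / 16 * ∫ x, ‖x‖ ^ 2 * ‖J 2 k x • φ x‖ ^ 2 ≤
        qf b M G g 1 (fun x => J 2 k x • φ x) := by
      intro h
      have h1 : (∫ x, ‖x‖ ^ 2 * ‖J 2 k x • φ x‖ ^ 2) = 0 := by simp [h]
      rw [h1, mul_zero]
      exact qf_nonneg _ _ _ _ _ _
    cases k with
    | zero =>
      apply hzero
      intro x
      by_cases hx : ‖x‖ < 2 ^ (k₀ + 2)
      · rw [h0 x hx, smul_zero]
      · push Not at hx
        rw [J_zero hΛ, zero_smul]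
        calc (2 : ℝ) = 2 ^ 1 := (pow_one 2).symm
          _ ≤ 2 ^ (k₀ + 2) := pow_le_pow_right₀ hΛ.le (by omega)
          _ ≤ ‖x‖ := hx
    | succ j =>
      by_cases hj : j < k₀
      · apply hzero
        intro x
        by_cases hx : ‖x‖ < 2 ^ (k₀ + 2)
        · rw [h0 x hx, smul_zero]
        · push Not at hx
          by_contra hcon
          have hJ : J 2 (j + 1) x ≠ 0 := fun h => hcon (by rw [h, zero_smul])
          have h2 := (J_supp hΛ hJ).2
          have h3 : (2 : ℝ) ^ (j + 2) < 2 ^ (k₀ + 2) := pow_lt_pow_right₀ hΛ (by omega)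
          linarith
      · push Not at hj
        have h1 : L₀ ≤ 2 ^ j := hk2.trans (pow_le_pow_right₀ hΛ.le hj)
        have hs : ∀ x, J 2 (j + 1) x • φ x ≠ 0 → (2 : ℝ) ^ j ≤ ‖x‖ ∧ ‖x‖ ≤ 2 ^ j * 4 := by
          intro x hx
          have hJ : J 2 (j + 1) x ≠ 0 := fun h => hx (by rw [h, zero_smul])
          have h3 := J_supp hΛ hJ
          exact ⟨h3.1, h3.2.trans_eq (by ring)⟩
        have h2 := ta_scaled (G := G) hTA (l := 2 ^ j) (by positivity) h1 hg (hcore (j + 1)) hs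
        refine le_trans ?_ h2
        have h3 : ∫ x, ‖x‖ ^ 2 * ‖J 2 (j + 1) x • φ x‖ ^ 2 ≤
            ∫ x, 16 * ((2 : ℝ) ^ j) ^ 2 * ‖J 2 (j + 1) x • φ x‖ ^ 2 := by
          refine integral_mono (hintW _ (hcore (j + 1)).1.continuous (hcore (j + 1)).2.1)
            ((hint2 _ (hcore (j + 1)).1.continuous (hcore (j + 1)).2.1).const_mul _) fun x => ?_
          by_cases hx : J 2 (j + 1) x • φ x = 0
          · simp [hx]
          · have h4 := (hs x hx).2
            have h5 : ‖x‖ ^ 2 ≤ 16 * ((2 : ℝ) ^ j) ^ 2 := by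
              have := pow_le_pow_left₀ (norm_nonneg x) h4 2
              nlinarith
            exact mul_le_mul_of_nonneg_right h5 (by positivity)
        rw [integral_const_mul] at h3
        nlinarith
  -- the sum of the pieces
  have htot : ∑ k ∈ Finset.range (n + 1), ∫ x, ‖x‖ ^ 2 * ‖J 2 k x • φ x‖ ^ 2 =
      ∫ x, ‖x‖ ^ 2 * ‖φ x‖ ^ 2 := by
    rw [← integral_finsetSum _ fun k _ =>
      hintW _ (hcore k).1.continuous (hcore k).2.1]
    refine integral_congr_ae (Eventually.of_forall fun x => ?_)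
    show ∑ k ∈ Finset.range (n + 1), ‖x‖ ^ 2 * ‖J 2 k x • φ x‖ ^ 2 = ‖x‖ ^ 2 * ‖φ x‖ ^ 2
    by_cases hx : x ∈ tsupport φ
    · have h1 : ∑ k ∈ Finset.range (n + 1), J 2 k x ^ 2 = 1 := (hJ1 x hx).self_of_nhds
      simp only [norm_smul, mul_pow, Real.norm_eq_abs, sq_abs]
      rw [← Finset.mul_sum, ← Finset.sum_mul, h1, one_mul]
    · rw [image_eq_zero_of_notMem_tsupport hx]
      simp
  have h5 : c / 16 * ∫ x, ‖x‖ ^ 2 * ‖φ x‖ ^ 2 ≤ qf b M G g 1 φ +
      1 / 2 * ∫ x, (∑ k ∈ Finset.range (n + 1), ‖grad (J 2 k) x‖ ^ 2) * ‖φ x‖ ^ 2 := by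
    rw [← hims, ← htot, Finset.mul_sum]
    exact Finset.sum_le_sum fun k _ => hk k
  -- the localisation error
  have h6 : ∫ x, (∑ k ∈ Finset.range (n + 1), ‖grad (J 2 k) x‖ ^ 2) * ‖φ x‖ ^ 2 ≤
      ∫ x, c / 16 * (‖x‖ ^ 2 * ‖φ x‖ ^ 2) := by
    refine integral_mono_of_nonneg (Eventually.of_forall fun x => by positivity)
      ((hintW φ hφ.1.continuous hφ.2.1).const_mul _) (Eventually.of_forall fun x => ?_)
    show (∑ k ∈ Finset.range (n + 1), ‖grad (J 2 k) x‖ ^ 2) * ‖φ x‖ ^ 2 ≤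
      c / 16 * (‖x‖ ^ 2 * ‖φ x‖ ^ 2)
    by_cases hx : ‖x‖ < 2 ^ (k₀ + 2)
    · rw [h0 x hx]; simp
    · push Not at hx
      have hx0 : 0 < ‖x‖ := lt_of_lt_of_le (by positivity) hx
      have h7 := sum_grad_J hΛ hC (norm_pos_iff.1 hx0) n
      have h8 : 5 * (Real.pi / 2 * C / (Real.log 2 * ‖x‖)) ^ 2 = B / ‖x‖ ^ 2 := by
        rw [hBdef, ← div_div, div_pow _ ‖x‖]
        ring
      rw [h8] at h7
      have h9 : (2 : ℝ) ^ k₀ ≤ ‖x‖ := (pow_le_pow_right₀ hΛ.le (by omega)).trans hx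
      have h10 : B / ‖x‖ ^ 2 ≤ c / 16 * ‖x‖ ^ 2 := by
        rw [div_le_iff₀ (by positivity)]
        have h11 : 16 * B ≤ 2 ^ k₀ * c := by
          rw [div_le_iff₀ hc] at hk3
          exact hk3
        have h12 : (1 : ℝ) ≤ ‖x‖ := hk1.trans h9
        have h13 : ‖x‖ ≤ ‖x‖ ^ 2 * ‖x‖ ^ 2 := by
          have : ‖x‖ ≤ ‖x‖ ^ 4 := le_self_pow₀ h12 (by norm_num)
          calc ‖x‖ ≤ ‖x‖ ^ 4 := this
            _ = _ := by ring
        nlinarith
      calc _ ≤ B / ‖x‖ ^ 2 * ‖φ x‖ ^ 2 := mul_le_mul_of_nonneg_right h7 (by positivity)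
        _ ≤ c / 16 * ‖x‖ ^ 2 * ‖φ x‖ ^ 2 := mul_le_mul_of_nonneg_right h10 (by positivity)
        _ = _ := by ring
  rw [integral_const_mul] at h6
  linarith

end Crest.Agent.R330.TightA399

end
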