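import Crest.Agent.R330.Chan_441
import Crest.Agent.R330.QM0_363
import Crest.Agent.R330.TightA_399

/-!
# Row 330, S9: capture on balls from capture on annuli (helper441)

* `HardyFin b M R G` : global Hardy inequality for the charges `Q^{1,0}` modulo finitely many zero
  states.
* `qf_cut0_le` : `q_{g,0}(χ_L φ) ≤ 3 (q_{g,1}(φ) + (C/L)² ∫_{L/2 ≤ |x| ≤ L} |φ|² + (C L)² ∫ |φ|²)`.
* `inner_bound` : `∫ |v|² ≤ (2/c) (l⁻² + L²) q_{g,0}(v) + 2 n Σ_i |⟨U_l ψ_i, v⟩|² ∫ |ψ_i|²`,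
  `l = g^{1/3}`, `v` supported in `|x| ≤ L`.
* `capBall_of` : `HardyFin` and capture on annuli at mass one give `CapBall`.
-/

set_option autoImplicit false
set_option linter.unusedSectionVars false

open MeasureTheory Filter Topology Crest.MathPhysics.MatrixQM
open scoped ContDiff InnerProductSpace ENNReal

noncomputable section

namespace Crest.Agent.R330.CapBall441

open Crest.Agent.R330.Defs478 Crest.Agent.R330.Top478 Crest.Agent.R330.Sec478
  Crest.Agent.R330.Scale423 Crest.Agent.R330.ScaleD423 Crest.Agent.R330.TrialSys796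
  Crest.Agent.R330.Chan441 Crest.Agent.R330.QM0363

variable {N : ℕ} {F : Type*} [NormedAddCommGroup F] [InnerProductSpace ℂ F]
  [FiniteDimensional ℂ F]

/-- Global Hardy inequality modulo finitely many zero states. -/
def HardyFin (b : ColorBasis N) (M : FermionRep N F) (R : GaugeAction b M) (G : GammaNine) :
    Prop :=
  ∃ (n : ℕ) (ψ : Fin n → Cfg N → F) (c : ℝ), (∀ i, ψ i ∈ zset b M R G 1 0) ∧ 0 < c ∧
    ∀ φ : Cfg N → F, IsCoreVec b R φ →
      c * ∫ x, (1 + ‖x‖ ^ 2)⁻¹ * ‖φ x - ∑ i, (∫ y, ⟪ψ i y, φ y⟫_ℂ) • ψ i x‖ ^ 2 ≤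
        qf b M G 1 0 φ

/-! ### 1. The cut-off -/

/-- the shell `L/2 ≤ |x| ≤ L` -/
def shell (N : ℕ) (L : ℝ) : Set (Cfg N) := {y | L / 2 ≤ ‖y‖ ∧ ‖y‖ ≤ L}

theorem measurableSet_ann (r ρ : ℝ) : MeasurableSet {x : Cfg N | r ≤ ‖x‖ ∧ ‖x‖ ≤ ρ} :=
  ((isClosed_le continuous_const continuous_norm).inter
    (isClosed_le continuous_norm continuous_const)).measurableSet

theorem measurableSet_shell (L : ℝ) : MeasurableSet (shell N L) := measurableSet_ann _ _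

theorem grad_cut_zero' {L : ℝ} (hL : 0 < L) {x : Cfg N} (hx : L < ‖x‖) :
    Ims714.grad (cut L) x = 0 := by
  have h1 : cut (N := N) L =ᶠ[𝓝 x] fun _ => (0 : ℝ) := by
    have h2 : ∀ᶠ y in 𝓝 x, L < ‖y‖ := (continuous_norm.tendsto x).eventually_const_lt hx
    filter_upwards [h2] with y hy
    exact cut_zero hL hy.le
  ext iA
  rw [Ims714.grad_apply, h1.fderiv_eq]
  simp

theorem pointwise0 (b : ColorBasis N) (M : FermionRep N F) (G : GammaNine) {CM : ℝ}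
    (hCM0 : 0 < CM)
    (hCM : ∀ (α : Fin 16) (x : Cfg N) (v : F), ‖massT M G α x v‖ ≤ CM * ‖x‖ * ‖v‖)
    {C : ℝ} (hC0 : 0 ≤ C) (hC : ∀ t, |deriv Real.smoothTransition t| ≤ C) {L g : ℝ}
    (hL : 0 < L) (α : Fin 16) {φ : Cfg N → F} (hφ : Differentiable ℝ φ) (x : Cfg N) :
    ‖dcharge b M G g 0 α (fun y => cut L y • φ y) x‖ ^ 2 ≤
      3 * (‖dcharge b M G g 1 α φ x‖ ^ 2 +
        (8 / 3 * C / L) ^ 2 * ((shell N L).indicator (fun y => ‖φ y‖ ^ 2) x) +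
        (CM * L) ^ 2 * ‖φ x‖ ^ 2) := by
  have hcd : DifferentiableAt ℝ (cut (N := N) L) x :=
    (contDiff_cut L).differentiable (by simp) x
  have e1 : dcharge b M G g 0 α (fun y => cut L y • φ y) x =
      cut L x • dcharge b M G g 1 α φ x + Ims714.kin G M α (Ims714.grad (cut L) x) (φ x) +
        cut L x • massT M G α x (φ x) := by
    rw [TightA399.dcharge_eq_dop, Ims714.dop_mul G M α _ hcd (hφ x), ← TightA399.dcharge_eq_dop,
      dcharge_sub_mass b M G g 1 α φ x]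
    simp only [Complex.ofReal_one, one_smul, smul_sub]
    abel
  have n1 : ‖cut L x • dcharge b M G g 1 α φ x‖ ≤ ‖dcharge b M G g 1 α φ x‖ := by
    rw [norm_smul, Real.norm_eq_abs, abs_of_nonneg (cut_nonneg L x)]
    exact mul_le_of_le_one_left (norm_nonneg _) (cut_le_one L x)
  have hk0 : Ims714.kin G M α (0 : Cfg N) = 0 := by
    have := Ims714.kin_smul G M α 0 (0 : Cfg N)
    simpa using this
  have n2 : ‖Ims714.kin G M α (Ims714.grad (cut L) x) (φ x)‖ ^ 2 ≤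
      (8 / 3 * C / L) ^ 2 * ((shell N L).indicator (fun y => ‖φ y‖ ^ 2) x) := by
    by_cases hx : x ∈ shell N L
    · rw [Set.indicator_of_mem hx, ← mul_pow]
      have h1 := Ims714.norm_kin_le G M α (Ims714.grad (cut L) x) (φ x)
      have h2 := norm_grad_cut hL hC0 hC x
      gcongr
      exact h1.trans (mul_le_mul_of_nonneg_right h2 (norm_nonneg _))
    · have h3 : Ims714.grad (cut L) x = 0 := by
        by_cases h4 : ‖x‖ < L / 2
        · exact grad_cut_zero hL h4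
        · refine grad_cut_zero' hL ?_
          by_contra h5
          exact hx ⟨not_lt.1 h4, not_lt.1 h5⟩
      rw [h3, hk0]
      simp only [LinearMap.zero_apply, norm_zero]
      rw [zero_pow two_ne_zero]
      refine mul_nonneg (sq_nonneg _) (Set.indicator_nonneg (fun y _ => sq_nonneg _) x)
  have n3 : ‖cut L x • massT M G α x (φ x)‖ ≤ CM * L * ‖φ x‖ := by
    rw [norm_smul, Real.norm_eq_abs, abs_of_nonneg (cut_nonneg L x)]
    by_cases hx : L ≤ ‖x‖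
    · rw [cut_zero hL hx, zero_mul]
      positivity
    · push Not at hx
      calc cut L x * ‖massT M G α x (φ x)‖ ≤ 1 * (CM * ‖x‖ * ‖φ x‖) :=
            mul_le_mul (cut_le_one L x) (hCM α x _) (norm_nonneg _) zero_le_one
        _ ≤ CM * L * ‖φ x‖ := by
            rw [one_mul]
            gcongr
  have h5 : ‖dcharge b M G g 0 α (fun y => cut L y • φ y) x‖ ≤
      ‖dcharge b M G g 1 α φ x‖ + ‖Ims714.kin G M α (Ims714.grad (cut L) x) (φ x)‖ +
        CM * L * ‖φ x‖ := by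
    rw [e1]
    refine (norm_add_le _ _).trans (add_le_add ?_ n3)
    exact (norm_add_le _ _).trans (add_le_add n1 le_rfl)
  calc ‖dcharge b M G g 0 α (fun y => cut L y • φ y) x‖ ^ 2
      ≤ (‖dcharge b M G g 1 α φ x‖ + ‖Ims714.kin G M α (Ims714.grad (cut L) x) (φ x)‖ +
        CM * L * ‖φ x‖) ^ 2 := by gcongr
    _ ≤ 3 * (‖dcharge b M G g 1 α φ x‖ ^ 2 +
        ‖Ims714.kin G M α (Ims714.grad (cut L) x) (φ x)‖ ^ 2 +
        (CM * L * ‖φ x‖) ^ 2) := sq_add3_le _ _ _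
    _ ≤ _ := by
        rw [mul_pow (CM * L)]
        gcongr

theorem qf_cut0_le (b : ColorBasis N) (M : FermionRep N F) {R : GaugeAction b M} (G : GammaNine)
    {CM : ℝ} (hCM0 : 0 < CM)
    (hCM : ∀ (α : Fin 16) (x : Cfg N) (v : F), ‖massT M G α x v‖ ≤ CM * ‖x‖ * ‖v‖)
    {C : ℝ} (hC0 : 0 ≤ C) (hC : ∀ t, |deriv Real.smoothTransition t| ≤ C) {L g : ℝ}
    (hL : 0 < L) {φ : Cfg N → F} (hφ : IsCoreVec b R φ) :
    qf b M G g 0 (fun y => cut L y • φ y) ≤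
      3 * (qf b M G g 1 φ + (8 / 3 * C / L) ^ 2 * (∫ x in shell N L, ‖φ x‖ ^ 2) +
        (CM * L) ^ 2 * ∫ x, ‖φ x‖ ^ 2) := by
  have hi1 : Integrable ((shell N L).indicator (fun y => ‖φ y‖ ^ 2)) :=
    (int_sq hφ).indicator (measurableSet_shell _)
  have h1 : ∀ α : Fin 16, ∫ x, ‖dcharge b M G g 0 α (fun y => cut L y • φ y) x‖ ^ 2 ≤
      3 * ((∫ x, ‖dcharge b M G g 1 α φ x‖ ^ 2) +
        (8 / 3 * C / L) ^ 2 * (∫ x in shell N L, ‖φ x‖ ^ 2) +
        (CM * L) ^ 2 * ∫ x, ‖φ x‖ ^ 2) := by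
    intro α
    have hI1 := int_sq_dcharge G g 1 α hφ
    have hI2 : Integrable fun x => (8 / 3 * C / L) ^ 2 *
        ((shell N L).indicator (fun y => ‖φ y‖ ^ 2) x) := hi1.const_mul _
    have hI3 : Integrable fun x => (CM * L) ^ 2 * ‖φ x‖ ^ 2 := (int_sq hφ).const_mul _
    calc ∫ x, ‖dcharge b M G g 0 α (fun y => cut L y • φ y) x‖ ^ 2
        ≤ ∫ x, 3 * (‖dcharge b M G g 1 α φ x‖ ^ 2 +
        (8 / 3 * C / L) ^ 2 * ((shell N L).indicator (fun y => ‖φ y‖ ^ 2) x) +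
        (CM * L) ^ 2 * ‖φ x‖ ^ 2) :=
          integral_mono (int_sq_dcharge G g 0 α (core_cut L hφ))
            (((hI1.add hI2).add hI3).const_mul 3)
            fun x => pointwise0 b M G hCM0 hCM hC0 hC hL α (cv_diff hφ) x
      _ = _ := by
          have hI12 : Integrable fun x => ‖dcharge b M G g 1 α φ x‖ ^ 2 +
              (8 / 3 * C / L) ^ 2 *
                ((shell N L).indicator (fun y => ‖φ y‖ ^ 2) x) := hI1.add hI2
          rw [integral_const_mul, integral_add hI12 hI3, integral_add hI1 hI2,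
            integral_const_mul, integral_const_mul, integral_indicator (measurableSet_shell _)]
  unfold qf
  calc (1 / 16 : ℝ) * ∑ α : Fin 16, ∫ x, ‖dcharge b M G g 0 α (fun y => cut L y • φ y) x‖ ^ 2
      ≤ (1 / 16 : ℝ) * ∑ α : Fin 16, 3 * ((∫ x, ‖dcharge b M G g 1 α φ x‖ ^ 2) +
        (8 / 3 * C / L) ^ 2 * (∫ x in shell N L, ‖φ x‖ ^ 2) +
        (CM * L) ^ 2 * ∫ x, ‖φ x‖ ^ 2) := by
        refine mul_le_mul_of_nonneg_left (Finset.sum_le_sum fun α _ => h1 α) (by norm_num)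
    _ = _ := by
        rw [← Finset.mul_sum, Finset.sum_add_distrib, Finset.sum_add_distrib,
          Finset.sum_const, Finset.sum_const, Finset.card_univ, Fintype.card_fin]
        simp only [nsmul_eq_mul]
        push_cast
        ring

/-! ### 2. The inner region -/

theorem sq_add_le (a c : ℝ) : (a + c) ^ 2 ≤ 2 * a ^ 2 + 2 * c ^ 2 := by
  nlinarith [sq_nonneg (a - c)]

/-- `‖Σ_i a_i ψ_i‖² ≤ n Σ |a_i|² ‖ψ_i‖²` -/
theorem norm_sum_sq_le {n : ℕ} (v : Fin n → F) : ‖∑ i, v i‖ ^ 2 ≤ n * ∑ i, ‖v i‖ ^ 2 := by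
  have h1 : ‖∑ i, v i‖ ≤ ∑ i, ‖v i‖ := norm_sum_le _ _
  have h2 : (∑ i, ‖v i‖) ^ 2 ≤ (Finset.univ : Finset (Fin n)).card * ∑ i, ‖v i‖ ^ 2 :=
    sq_sum_le_card_mul_sum_sq
  rw [Finset.card_univ, Fintype.card_fin] at h2
  calc ‖∑ i, v i‖ ^ 2 ≤ (∑ i, ‖v i‖) ^ 2 := by gcongr
    _ ≤ _ := h2

theorem inner_bound {b : ColorBasis N} {M : FermionRep N F} {R : GaugeAction b M}
    {G : GammaNine} {n : ℕ} {ψ : Fin n → Cfg N → F} {c : ℝ}
    (hψ : ∀ i, ψ i ∈ zset b M R G 1 0) (hc : 0 < c)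
    (hH : ∀ φ : Cfg N → F, IsCoreVec b R φ →
      c * ∫ x, (1 + ‖x‖ ^ 2)⁻¹ * ‖φ x - ∑ i, (∫ y, ⟪ψ i y, φ y⟫_ℂ) • ψ i x‖ ^ 2 ≤
        qf b M G 1 0 φ)
    {g L : ℝ} (hg : 0 < g) {v : Cfg N → F} (hv : IsCoreVec b R v)
    (hvL : ∀ x, L ≤ ‖x‖ → v x = 0) :
    ∫ x, ‖v x‖ ^ 2 ≤
      2 / c * (((g ^ ((1 : ℝ) / 3)) ^ 2)⁻¹ + L ^ 2) * qf b M G g 0 v +
        2 * (n * ∑ i, ‖∫ x, ⟪Us (g ^ ((1 : ℝ) / 3)) (ψ i) x, v x⟫_ℂ‖ ^ 2 * ∫ x, ‖ψ i x‖ ^ 2) := by
  set l : ℝ := g ^ ((1 : ℝ) / 3) with hl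
  have hl0 : 0 < l := Real.rpow_pos_of_pos hg _
  set u : Cfg N → F := Us l⁻¹ v with hu
  have hucore : IsCoreVec b R u := core_Us (inv_pos.2 hl0) hv
  have hvu : Us l u = v := Us_inv_right hl0 v
  have e1 : ∫ x, ‖v x‖ ^ 2 = ∫ x, ‖u x‖ ^ 2 := by
    rw [← hvu, integral_norm_sq_Us hl0]
  have e2 : qf b M G g 0 v = l ^ 2 * qf b M G 1 0 u :=
    qf_coupling b M G hg (cv_diff hv)
  have e3 : ∀ i, ∫ y, ⟪ψ i y, u y⟫_ℂ = ∫ x, ⟪Us l (ψ i) x, v x⟫_ℂ := fun i => by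
    rw [← hvu, integral_inner_Us hl0]
  have hu0 : ∀ x, L * l ≤ ‖x‖ → u x = 0 := by
    intro x hx
    rw [hu, Us_apply, hvL, smul_zero]
    rw [norm_smul, norm_inv, Real.norm_of_nonneg hl0.le, ← div_eq_inv_mul, le_div_iff₀ hl0]
    exact hx
  set a : Fin n → ℂ := fun i => ∫ y, ⟪ψ i y, u y⟫_ℂ with ha
  set P : Cfg N → F := fun x => ∑ i, a i • ψ i x with hP
  have hψm : ∀ i, MemLp (ψ i) 2 volume := fun i => (hψ i).1
  have hPm : MemLp P 2 volume := by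
    have h1 : P = ∑ i, a i • ψ i := by
      funext x
      simp [hP]
    rw [h1]
    exact memLp_finset_sum' _ fun i _ => (hψm i).const_smul (a i)
  have hum : MemLp u 2 volume := Dict416.cv_memLp hucore
  have hdm : MemLp (fun x => u x - P x) 2 volume := hum.sub hPm
  have hdi : Integrable fun x => ‖u x - P x‖ ^ 2 := int_sq_memLp hdm
  have hPi : Integrable fun x => ‖P x‖ ^ 2 := int_sq_memLp hPm
  have hwi : Integrable fun x => (1 + ‖x‖ ^ 2)⁻¹ * ‖u x - P x‖ ^ 2 := by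
    refine hdi.mono ((Continuous.aestronglyMeasurable (by
      refine Continuous.inv₀ (by fun_prop) fun x => by positivity)).mul hdi.1)
      (Eventually.of_forall fun x => ?_)
    rw [norm_mul, Real.norm_of_nonneg (show (0 : ℝ) ≤ (1 + ‖x‖ ^ 2)⁻¹ by positivity)]
    refine mul_le_of_le_one_left (norm_nonneg _) ?_
    exact inv_le_one_of_one_le₀ (by nlinarith [sq_nonneg ‖x‖])
  have hH1 := hH u hucore
  have p1 : ∀ x, ‖u x‖ ^ 2 ≤
      2 * ((1 + (L * l) ^ 2) * ((1 + ‖x‖ ^ 2)⁻¹ * ‖u x - P x‖ ^ 2)) + 2 * ‖P x‖ ^ 2 := by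
    intro x
    by_cases hx : L * l ≤ ‖x‖
    · rw [hu0 x hx, norm_zero, zero_pow two_ne_zero]
      positivity
    · push Not at hx
      have h1 : ‖x‖ ^ 2 ≤ (L * l) ^ 2 := by gcongr
      have h2 : 1 ≤ (1 + (L * l) ^ 2) * (1 + ‖x‖ ^ 2)⁻¹ := by
        rw [← div_eq_mul_inv, one_le_div (by positivity)]
        linarith
      have h3 : ‖u x‖ ≤ ‖u x - P x‖ + ‖P x‖ := by
        simpa using norm_add_le (u x - P x) (P x)
      calc ‖u x‖ ^ 2 ≤ (‖u x - P x‖ + ‖P x‖) ^ 2 := by gcongr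
        _ ≤ 2 * ‖u x - P x‖ ^ 2 + 2 * ‖P x‖ ^ 2 := sq_add_le _ _
        _ ≤ _ := by
            rw [← mul_assoc (1 + (L * l) ^ 2)]
            have h4 : 1 * ‖u x - P x‖ ^ 2 ≤
                (1 + (L * l) ^ 2) * (1 + ‖x‖ ^ 2)⁻¹ * ‖u x - P x‖ ^ 2 :=
              mul_le_mul_of_nonneg_right h2 (sq_nonneg _)
            linarith
  have i1 : ∫ x, ‖u x‖ ^ 2 ≤
      2 * ((1 + (L * l) ^ 2) * ∫ x, (1 + ‖x‖ ^ 2)⁻¹ * ‖u x - P x‖ ^ 2) +
        2 * ∫ x, ‖P x‖ ^ 2 := by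
    calc ∫ x, ‖u x‖ ^ 2 ≤ ∫ x, (2 * ((1 + (L * l) ^ 2) * ((1 + ‖x‖ ^ 2)⁻¹ * ‖u x - P x‖ ^ 2)) +
          2 * ‖P x‖ ^ 2) :=
          integral_mono (int_sq hucore)
            (((hwi.const_mul (1 + (L * l) ^ 2)).const_mul 2).add (hPi.const_mul 2)) p1
      _ = _ := by
          rw [integral_add ((hwi.const_mul (1 + (L * l) ^ 2)).const_mul 2) (hPi.const_mul 2),
            integral_const_mul, integral_const_mul, integral_const_mul]
  have i2 : ∫ x, ‖P x‖ ^ 2 ≤ n * ∑ i, ‖a i‖ ^ 2 * ∫ x, ‖ψ i x‖ ^ 2 := by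
    have hi : ∀ i, Integrable fun x => ‖a i • ψ i x‖ ^ 2 := fun i =>
      int_sq_memLp ((hψm i).const_smul (a i))
    calc ∫ x, ‖P x‖ ^ 2 ≤ ∫ x, n * ∑ i, ‖a i • ψ i x‖ ^ 2 :=
          integral_mono hPi ((integrable_finset_sum _ fun i _ => hi i).const_mul _)
            fun x => norm_sum_sq_le _
      _ = _ := by
          rw [integral_const_mul, integral_finset_sum _ fun i _ => hi i]
          congr 1
          refine Finset.sum_congr rfl fun i _ => ?_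
          simp only [norm_smul, mul_pow]
          rw [integral_const_mul]
  have hI0 : 0 ≤ ∫ x, (1 + ‖x‖ ^ 2)⁻¹ * ‖u x - P x‖ ^ 2 :=
    integral_nonneg fun x => by positivity
  have hH2 : ∫ x, (1 + ‖x‖ ^ 2)⁻¹ * ‖u x - P x‖ ^ 2 ≤ qf b M G 1 0 u / c := by
    rw [le_div_iff₀ hc, mul_comm]
    exact hH1
  have hq : qf b M G 1 0 u = (l ^ 2)⁻¹ * qf b M G g 0 v := by
    rw [e2, ← mul_assoc, inv_mul_cancel₀ (by positivity), one_mul]
  have e4 : ∀ i, a i = ∫ x, ⟪Us l (ψ i) x, v x⟫_ℂ := e3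
  rw [e1]
  refine i1.trans (add_le_add ?_ ?_)
  · calc 2 * ((1 + (L * l) ^ 2) * ∫ x, (1 + ‖x‖ ^ 2)⁻¹ * ‖u x - P x‖ ^ 2)
        ≤ 2 * ((1 + (L * l) ^ 2) * (qf b M G 1 0 u / c)) := by gcongr
      _ = _ := by
          rw [hq]
          field_simp
  · simp only [← e4]
    exact mul_le_mul_of_nonneg_left i2 (by norm_num)

/-! ### 3. Capture on balls -/

theorem int_inner {f h : Cfg N → F} (hf : MemLp f 2 volume) (hh : MemLp h 2 volume) :
    Integrable fun x => ⟪f x, h x⟫_ℂ :=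
  IBP837.integrable_inner_of_memLp hf hh

theorem tendsto_zero_of_le {f : ℕ → ℝ} (h0 : ∀ j, 0 ≤ f j)
    (h : ∀ ε : ℝ, 0 < ε → ∀ᶠ j in atTop, f j ≤ ε) : Tendsto f atTop (𝓝 0) := by
  rw [Metric.tendsto_atTop]
  intro ε hε
  obtain ⟨n, hn⟩ := eventually_atTop.1 (h (ε / 2) (by positivity))
  refine ⟨n, fun j hj => ?_⟩
  rw [Real.dist_eq, sub_zero, abs_of_nonneg (h0 j)]
  linarith [hn j hj]

theorem capBall_of {b : ColorBasis N} {M : FermionRep N F} {R : GaugeAction b M}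
    {G : GammaNine} (hH : HardyFin b M R G) {X : Type*} {T : ℝ → X → Cfg N → F}
    (hT : CapAnn b M R G 1 T) : CapBall b M R G T := by
  intro g φ C hg hφ hE hamp hψamp ρ
  obtain ⟨n, ψ, c, hψ, hc, hH⟩ := hH
  obtain ⟨CM, hCM0, hCM⟩ := exists_mass_bound (N := N) M G
  obtain ⟨Cs, hCs0, hCs⟩ := HIAnn245.exists_sT_bound
  have hC0 : 0 ≤ C := by
    refine le_trans ?_ (hE 0)
    unfold En
    exact add_nonneg (integral_nonneg fun x => sq_nonneg _) (QM0363.qf_nonneg b M G _ _ _)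
  have hN2 : ∀ j, ∫ x, ‖φ j x‖ ^ 2 ≤ C := fun j => by
    have := hE j
    unfold En at this
    linarith [QM0363.qf_nonneg b M G (g j) 1 (φ j)]
  have hQ2 : ∀ j, qf b M G (g j) 1 (φ j) ≤ C := fun j => by
    have := hE j
    unfold En at this
    linarith [integral_nonneg (μ := volume) (f := fun x => ‖φ j x‖ ^ 2) fun x => sq_nonneg _]
  set K0 : ℝ := 3 * (C + 1 + CM ^ 2 * C) with hK0
  have hK0p : 0 < K0 := by positivity
  -- the annuli
  have hann := hT g φ C hg hφ hE hamp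
  have hl : Tendsto (fun j => g j ^ ((1 : ℝ) / 3)) atTop atTop :=
    (tendsto_rpow_atTop (by norm_num)).comp hg
  refine tendsto_zero_of_le (fun j => integral_nonneg fun x => sq_nonneg _) fun ε hε => ?_
  -- choice of the cut-off radius
  obtain ⟨L, hL0, hL1, hLε⟩ : ∃ L : ℝ, 0 < L ∧ L ≤ 1 ∧ 2 / c * (2 * L ^ 2) * K0 ≤ ε / 4 := by
    have h1 : Tendsto (fun L : ℝ => 2 / c * (2 * L ^ 2) * K0) (𝓝[>] 0) (𝓝 0) := by
      have h2 : Continuous fun L : ℝ => 2 / c * (2 * L ^ 2) * K0 := by fun_prop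
      have h3 := (h2.tendsto 0).mono_left (nhdsWithin_le_nhds (s := Set.Ioi (0 : ℝ)))
      simpa using h3
    have h4 : ∀ᶠ L : ℝ in 𝓝[>] 0, 2 / c * (2 * L ^ 2) * K0 ≤ ε / 4 :=
      (h1.eventually_lt_const (show (0 : ℝ) < ε / 4 by positivity)).mono fun _ h => h.le
    have h5 : ∀ᶠ L : ℝ in 𝓝[>] 0, L ≤ 1 := by
      filter_upwards [Ioo_mem_nhdsGT (show (0 : ℝ) < 1 by norm_num)] with L hL
      exact hL.2.le
    obtain ⟨L, hL⟩ := ((h4.and h5).and self_mem_nhdsWithin).exists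
    exact ⟨L, hL.2, hL.1.2, hL.1.1⟩
  set v : ℕ → Cfg N → F := fun j y => cut L y • φ j y with hv
  have hvcore : ∀ j, IsCoreVec b R (v j) := fun j => core_cut L (hφ j)
  have hv0 : ∀ j x, L ≤ ‖x‖ → v j x = 0 := fun j x hx => by
    simp only [hv, cut_zero hL0 hx, zero_smul]
  -- the energies of `v`
  have hshell : Tendsto (fun j => (8 / 3 * Cs / L) ^ 2 * ∫ x in shell N L, ‖φ j x‖ ^ 2) atTop
      (𝓝 0) := by
    have := (hann (L / 2) L (by positivity)).const_mul ((8 / 3 * Cs / L) ^ 2)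
    rw [mul_zero] at this
    exact this
  have q1 : ∀ᶠ j in atTop, qf b M G (g j) 0 (v j) ≤ K0 := by
    filter_upwards [hshell.eventually_lt_const (show (0 : ℝ) < 1 by norm_num)] with j hj
    refine (qf_cut0_le b M G hCM0 hCM hCs0.le hCs hL0 (hφ j)).trans ?_
    rw [hK0]
    have h1 : (CM * L) ^ 2 * ∫ x, ‖φ j x‖ ^ 2 ≤ CM ^ 2 * C := by
      have h2 : (CM * L) ^ 2 ≤ CM ^ 2 := by
        rw [mul_pow]
        exact mul_le_of_le_one_right (sq_nonneg _) (pow_le_one₀ hL0.le hL1)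
      exact mul_le_mul h2 (hN2 j) (integral_nonneg fun x => sq_nonneg _) (sq_nonneg _)
    have h3 := hQ2 j
    linarith
  have q2 : ∀ᶠ j in atTop, ((g j ^ ((1 : ℝ) / 3)) ^ 2)⁻¹ ≤ L ^ 2 := by
    filter_upwards [hl.eventually_ge_atTop L⁻¹] with j hj
    have hj0 : 0 < g j ^ ((1 : ℝ) / 3) := lt_of_lt_of_le (inv_pos.2 hL0) hj
    rw [inv_le_comm₀ (by positivity) (by positivity), ← inv_pow]
    gcongr
  -- the amplitudes of `v`
  have hamp2 : ∀ i, Tendsto (fun j => ∫ x, ⟪Us (g j ^ ((1 : ℝ) / 3)) (ψ i) x, v j x⟫_ℂ) atTop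
      (𝓝 0) := by
    intro i
    have hm : MemLp (ψ i) 2 volume := (hψ i).1
    rw [tendsto_zero_iff_norm_tendsto_zero]
    refine tendsto_zero_of_le (fun j => norm_nonneg _) fun δ hδ => ?_
    set sC : ℝ := Real.sqrt C + 1 with hsC
    have hsC0 : 0 < sC := by positivity
    obtain ⟨l1, hl1, hfar⟩ := pair_far_Us hm (ρ := L / 2) (ε := δ / (2 * sC)) (by positivity)
      (by positivity)
    have h1 := tendsto_zero_iff_norm_tendsto_zero.1 (hψamp (ψ i) (hψ i))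
    filter_upwards [h1.eventually_lt_const (show (0 : ℝ) < δ / 2 by positivity),
      hl.eventually_ge_atTop l1, hl.eventually_gt_atTop 0] with j hj1 hj2 hj3
    set f : Cfg N → F := fun x => φ j x - v j x with hf
    have hφm : MemLp (φ j) 2 volume := Dict416.cv_memLp (hφ j)
    have hvm : MemLp (v j) 2 volume := Dict416.cv_memLp (hvcore j)
    have hfm : MemLp f 2 volume := hφm.sub hvm
    have hf0 : ∀ x, ‖x‖ < L / 2 → f x = 0 := by
      intro x hx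
      simp only [hf, hv, cut_one hL0 hx.le, one_smul, sub_self]
    have h2 := hfar _ hj2 f hfm hf0
    have h3 : ∫ x, ‖f x‖ ^ 2 ≤ C := by
      refine le_trans (integral_mono (int_sq_memLp hfm) (int_sq (hφ j)) fun x => ?_) (hN2 j)
      have h4 : f x = (1 - cut L x) • φ j x := by
        simp only [hf, hv, sub_smul, one_smul]
      show ‖f x‖ ^ 2 ≤ ‖φ j x‖ ^ 2
      rw [h4, norm_smul, Real.norm_eq_abs,
        abs_of_nonneg (show (0 : ℝ) ≤ 1 - cut L x by linarith [cut_le_one L x])]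
      refine pow_le_pow_left₀ (mul_nonneg (by linarith [cut_le_one L x]) (norm_nonneg _)) ?_ 2
      exact mul_le_of_le_one_left (norm_nonneg _) (by linarith [cut_nonneg L x])
    have h5 : ∫ x, ⟪Us (g j ^ ((1 : ℝ) / 3)) (ψ i) x, v j x⟫_ℂ =
        (∫ x, ⟪Us (g j ^ ((1 : ℝ) / 3)) (ψ i) x, φ j x⟫_ℂ) -
          ∫ x, ⟪Us (g j ^ ((1 : ℝ) / 3)) (ψ i) x, f x⟫_ℂ := by
      have hU := Us_memLp hj3 hm
      rw [← integral_sub (int_inner hU hφm) (int_inner hU hfm)]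
      refine integral_congr_ae (Eventually.of_forall fun x => ?_)
      simp only [hf, ← inner_sub_right]
      congr 1
      abel
    rw [h5]
    refine (norm_sub_le _ _).trans ?_
    have h6 : δ / (2 * sC) * Real.sqrt (∫ x, ‖f x‖ ^ 2) ≤ δ / 2 := by
      have h7 : Real.sqrt (∫ x, ‖f x‖ ^ 2) ≤ sC :=
        (Real.sqrt_le_sqrt h3).trans (by rw [hsC]; linarith)
      calc δ / (2 * sC) * Real.sqrt (∫ x, ‖f x‖ ^ 2) ≤ δ / (2 * sC) * sC := by gcongr
        _ = δ / 2 := by field_simp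
    linarith [h2.trans h6]
  have hsum : Tendsto (fun j => 2 * (n * ∑ i,
      ‖∫ x, ⟪Us (g j ^ ((1 : ℝ) / 3)) (ψ i) x, v j x⟫_ℂ‖ ^ 2 * ∫ x, ‖ψ i x‖ ^ 2)) atTop
      (𝓝 0) := by
    have h1 : ∀ i, Tendsto (fun j =>
        ‖∫ x, ⟪Us (g j ^ ((1 : ℝ) / 3)) (ψ i) x, v j x⟫_ℂ‖ ^ 2 * ∫ x, ‖ψ i x‖ ^ 2) atTop
        (𝓝 0) := fun i => by
      have h2 := ((tendsto_zero_iff_norm_tendsto_zero.1 (hamp2 i)).pow 2).mul_const
        (∫ x, ‖ψ i x‖ ^ 2)
      simpa using h2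
    have h3 := ((tendsto_finset_sum Finset.univ fun i _ => h1 i).const_mul (n : ℝ)).const_mul 2
    simpa using h3
  have hbig := hann (L / 2) ρ (by positivity)
  filter_upwards [q1, q2, hsum.eventually_lt_const (show (0 : ℝ) < ε / 4 by positivity),
    hbig.eventually_lt_const (show (0 : ℝ) < ε / 2 by positivity),
    hg.eventually_gt_atTop 0] with j h1 h2 h3 h4 h5
  have h6 := inner_bound hψ hc hH h5 (hvcore j) (hv0 j)
  have h7 : 2 / c * (((g j ^ ((1 : ℝ) / 3)) ^ 2)⁻¹ + L ^ 2) * qf b M G (g j) 0 (v j) ≤ ε / 4 := by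
    refine le_trans ?_ hLε
    have h8 : ((g j ^ ((1 : ℝ) / 3)) ^ 2)⁻¹ + L ^ 2 ≤ 2 * L ^ 2 := by linarith
    have h9 : 0 ≤ qf b M G (g j) 0 (v j) := QM0363.qf_nonneg b M G _ _ _
    have h10 : 0 ≤ 2 / c * (2 * L ^ 2) := by positivity
    refine mul_le_mul ?_ h1 h9 h10
    exact mul_le_mul_of_nonneg_left h8 (by positivity)
  have h8 : ∫ x, ‖v j x‖ ^ 2 ≤ ε / 2 := by linarith
  -- the ball
  have hi1 : Integrable fun x => ‖v j x‖ ^ 2 := int_sq (hvcore j)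
  have hi2 : Integrable ({x : Cfg N | L / 2 ≤ ‖x‖ ∧ ‖x‖ ≤ ρ}.indicator fun x => ‖φ j x‖ ^ 2) :=
    (int_sq (hφ j)).indicator (measurableSet_ann _ _)
  have h9 : ∫ x in Metric.ball (0 : Cfg N) ρ, ‖φ j x‖ ^ 2 ≤
      (∫ x, ‖v j x‖ ^ 2) + ∫ x in {x : Cfg N | L / 2 ≤ ‖x‖ ∧ ‖x‖ ≤ ρ}, ‖φ j x‖ ^ 2 := by
    rw [← integral_indicator measurableSet_ball, ← integral_indicator (measurableSet_ann _ _),
      ← integral_add hi1 hi2]
    refine integral_mono ((int_sq (hφ j)).indicator measurableSet_ball) (hi1.add hi2) fun x => ?_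
    by_cases hx : x ∈ Metric.ball (0 : Cfg N) ρ
    · simp only [Set.indicator_of_mem hx, Pi.add_apply]
      by_cases hx2 : ‖x‖ < L / 2
      · have h10 : v j x = φ j x := by simp only [hv, cut_one hL0 hx2.le, one_smul]
        rw [h10]
        exact le_add_of_nonneg_right (Set.indicator_nonneg (fun y _ => sq_nonneg _) x)
      · have h11 : x ∈ {x : Cfg N | L / 2 ≤ ‖x‖ ∧ ‖x‖ ≤ ρ} :=
          ⟨not_lt.1 hx2, (mem_ball_zero_iff.1 hx).le⟩
        rw [Set.indicator_of_mem h11]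
        exact le_add_of_nonneg_left (sq_nonneg _)
    · simp only [Set.indicator_of_notMem hx, Pi.add_apply]
      exact add_nonneg (sq_nonneg _) (Set.indicator_nonneg (fun y _ => sq_nonneg _) x)
  linarith

end Crest.Agent.R330.CapBall441

end
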