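import Mathlib

/-!
# Row 330, S9 capture: topological reduction (helper924)

`cap_top` : masses `m j S` (monotone and finitely subadditive in the set `S`), a compact set `A`,
closed sets `C 0, …, C n` (configurations with few clusters).  If near every point of
`C (k+1) \ C k` the mass near `C (k+1)` is small (`hloc`) and the mass of compact sets off `C n` is
small (`haway`), then the mass of `A` tends to zero.
-/

set_option autoImplicit false
set_option linter.unusedSectionVars false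

open Set Filter Topology
open scoped ENNReal

namespace Crest.Agent.R330.CapTop924

variable {X ι : Type*} [TopologicalSpace X]

/-- finite unions are small if all members are small -/
theorem ev_biUnion {l : Filter ι} {m : ι → Set X → ℝ≥0∞}
    (hun : ∀ j S T, m j (S ∪ T) ≤ m j S + m j T) (hemp : ∀ j, m j ∅ = 0)
    {κ : Type*} (s : Finset κ) (S : κ → Set X) {ε : ℝ≥0∞}
    (h : ∀ k ∈ s, ∀ᶠ j in l, m j (S k) ≤ ε) :
    ∀ᶠ j in l, m j (⋃ k ∈ s, S k) ≤ s.card * ε := by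
  classical
  induction s using Finset.induction_on with
  | empty => simp [hemp]
  | insert a s ha ih =>
    have h1 := h a (Finset.mem_insert_self a s)
    have h2 := ih fun k hk => h k (Finset.mem_insert_of_mem hk)
    filter_upwards [h1, h2] with j hj1 hj2
    rw [Finset.set_biUnion_insert, Finset.card_insert_of_notMem ha]
    refine (hun j _ _).trans ?_
    push_cast
    rw [add_mul, one_mul, add_comm]
    exact add_le_add hj2 hj1

/-- **Topological reduction of the capture lemma.** -/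
theorem cap_top {l : Filter ι} {A : Set X} (hA : IsCompact A) (n : ℕ) (C : ℕ → Set X)
    (hC : ∀ k, IsClosed (C k)) (h0 : A ∩ C 0 = ∅) {m : ι → Set X → ℝ≥0∞}
    (hmono : ∀ j S T, S ⊆ T → m j S ≤ m j T)
    (hun : ∀ j S T, m j (S ∪ T) ≤ m j S + m j T) (hemp : ∀ j, m j ∅ = 0)
    (hloc : ∀ k < n, ∀ c ∈ A, c ∈ C (k + 1) → c ∉ C k → ∃ U, IsOpen U ∧ c ∈ U ∧
      ∀ ε : ℝ≥0∞, 0 < ε → ∃ V, IsOpen V ∧ A ∩ U ∩ C (k + 1) ⊆ V ∧
        ∀ᶠ j in l, m j (A ∩ U ∩ V) ≤ ε)
    (haway : ∀ K, IsCompact K → K ⊆ A → Disjoint K (C n) →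
      ∀ ε : ℝ≥0∞, 0 < ε → ∀ᶠ j in l, m j K ≤ ε) :
    ∀ ε : ℝ≥0∞, 0 < ε → ∀ᶠ j in l, m j A ≤ ε := by
  classical
  have key : ∀ k ≤ n, ∀ ε : ℝ≥0∞, 0 < ε → ∃ O, IsOpen O ∧ A ∩ C k ⊆ O ∧
      ∀ᶠ j in l, m j (A ∩ O) ≤ ε := by
    intro k
    induction k with
    | zero =>
      intro _ ε _
      exact ⟨∅, isOpen_empty, by rw [h0], by simp [hemp]⟩
    | succ k ih =>
      intro hk ε hε
      have hε2 : 0 < ε / 2 := ENNReal.half_pos hε.ne'
      obtain ⟨O, hO, hCO, hmO⟩ := ih (by omega) (ε / 2) hε2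
      have hK : IsCompact ((A ∩ C (k + 1)) \ O) :=
        (hA.inter_right (hC (k + 1))).diff hO
      have hpt : ∀ c : ((A ∩ C (k + 1)) \ O : Set X), ∃ U, IsOpen U ∧ (c : X) ∈ U ∧
          ∀ ε : ℝ≥0∞, 0 < ε → ∃ V, IsOpen V ∧ A ∩ U ∩ C (k + 1) ⊆ V ∧
            ∀ᶠ j in l, m j (A ∩ U ∩ V) ≤ ε := by
        rintro ⟨c, ⟨hcA, hcC⟩, hcO⟩
        exact hloc k (by omega) c hcA hcC fun h => hcO (hCO ⟨hcA, h⟩)
      choose U hU hcU hUV using hpt
      obtain ⟨t, ht⟩ := hK.elim_finite_subcover U hU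
        (fun x hx => mem_iUnion.2 ⟨⟨x, hx⟩, hcU ⟨x, hx⟩⟩)
      have hδ : 0 < ε / 2 / (t.card + 1) :=
        ENNReal.div_pos hε2.ne' (by simp)
      choose V hV hVs hVm using fun c => hUV c (ε / 2 / (t.card + 1)) hδ
      refine ⟨O ∪ ⋃ c ∈ t, (U c ∩ V c), hO.union (isOpen_biUnion fun c _ => (hU c).inter (hV c)),
        ?_, ?_⟩
      · intro x hx
        by_cases hxO : x ∈ O
        · exact Or.inl hxO
        · right
          obtain ⟨c, hc, hxU⟩ := mem_iUnion₂.1 (ht ⟨hx, hxO⟩)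
          exact mem_iUnion₂.2 ⟨c, hc, hxU, hVs c ⟨⟨hx.1, hxU⟩, hx.2⟩⟩
      · have h2 := ev_biUnion (l := l) (m := m) hun hemp t (fun c => A ∩ U c ∩ V c)
          (ε := ε / 2 / (t.card + 1)) fun c _ => hVm c
        filter_upwards [hmO, h2] with j hj1 hj2
        have e : A ∩ (O ∪ ⋃ c ∈ t, (U c ∩ V c)) = (A ∩ O) ∪ ⋃ c ∈ t, (A ∩ U c ∩ V c) := by
          ext x
          simp only [mem_inter_iff, mem_union, mem_iUnion]
          constructor
          · rintro ⟨hxA, hx | ⟨c, hc, hxU, hxV⟩⟩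
            · exact Or.inl ⟨hxA, hx⟩
            · exact Or.inr ⟨c, hc, ⟨hxA, hxU⟩, hxV⟩
          · rintro (⟨hxA, hx⟩ | ⟨c, hc, ⟨hxA, hxU⟩, hxV⟩)
            · exact ⟨hxA, Or.inl hx⟩
            · exact ⟨hxA, Or.inr ⟨c, hc, hxU, hxV⟩⟩
        rw [e]
        refine (hun j _ _).trans ?_
        have h3 : (t.card : ℝ≥0∞) * (ε / 2 / (t.card + 1)) ≤ ε / 2 := by
          rcases eq_or_ne ε ⊤ with h | h
          · subst h
            simp [ENNReal.top_div]
          · calc (t.card : ℝ≥0∞) * (ε / 2 / (t.card + 1))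
                ≤ (t.card + 1 : ℝ≥0∞) * (ε / 2 / (t.card + 1)) := by gcongr; exact le_self_add
              _ = ε / 2 := ENNReal.mul_div_cancel (by simp) (by simp)
        calc m j (A ∩ O) + m j (⋃ c ∈ t, (A ∩ U c ∩ V c)) ≤ ε / 2 + ε / 2 :=
              add_le_add hj1 (hj2.trans h3)
          _ = ε := ENNReal.add_halves ε
  intro ε hε
  have hε2 : 0 < ε / 2 := ENNReal.half_pos hε.ne'
  obtain ⟨O, hO, hCO, hmO⟩ := key n le_rfl (ε / 2) hε2
  have hK : IsCompact (A \ O) := hA.diff hO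
  have hd : Disjoint (A \ O) (C n) := by
    rw [Set.disjoint_left]
    rintro x ⟨hxA, hxO⟩ hxC
    exact hxO (hCO ⟨hxA, hxC⟩)
  filter_upwards [hmO, haway _ hK sdiff_subset hd (ε / 2) hε2] with j hj1 hj2
  calc m j A ≤ m j ((A ∩ O) ∪ (A \ O)) := hmono j _ _ (by rw [inter_union_sdiff])
    _ ≤ m j (A ∩ O) + m j (A \ O) := hun j _ _
    _ ≤ ε / 2 + ε / 2 := add_le_add hj1 hj2
    _ = ε := ENNReal.add_halves ε

end Crest.Agent.R330.CapTop924
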