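import Crest.Agent.R330.WeitzG_726

/-!
# Row 330, (1.1): the Yukawa operator of `Q^{g,m}` and the final energy identity (helper726)

* `quadL M C B A = ∑_{βδ} C_{βδ} θ_β^B θ_δ^A`;
* `Yop b M G x = -(i/2) ∑ f_{ABC} x_j^C θ^B γ^j θ^A`, `IG M G = i ∑_A θ^A Γ θ^A`;
* `Zop_wpot : Zop M G (wpot b G g m) x = 16 (g Y(x) + (m/8) iθΓθ)`;
* `energy` : the energy identity of `Q^{g,m}`; `energy_super` : the one of the supercharge.
-/

set_option autoImplicit false
set_option linter.unusedSectionVars false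

open MeasureTheory Filter Topology
open scoped ContDiff InnerProductSpace ENNReal
open Crest.MathPhysics.MatrixQM
open Crest.Agent.R330.IBP837
open Crest.Agent.R330.Defs478 (cc Gam wpot dcharge qf)
open Crest.Agent.R330.Bar186 (brk pot)

noncomputable section

namespace Crest.Agent.R330.Weitz726

variable {N : ℕ}

/-! ## the derivative of the coefficients -/

theorem hasFDerivAt_coord (k : Fin 9 × Fin (N ^ 2 - 1)) (x : Cfg N) :
    HasFDerivAt (fun y : Cfg N => (y k : ℝ)) (EuclideanSpace.proj k : Cfg N →L[ℝ] ℝ) x :=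
  (EuclideanSpace.proj k : Cfg N →L[ℝ] ℝ).hasFDerivAt

theorem hasFDerivAt_coord2 (k l : Fin 9 × Fin (N ^ 2 - 1)) (x : Cfg N) :
    HasFDerivAt (fun y : Cfg N => (y k * y l : ℝ))
      (x k • (EuclideanSpace.proj l : Cfg N →L[ℝ] ℝ) +
        x l • (EuclideanSpace.proj k : Cfg N →L[ℝ] ℝ)) x :=
  HasFDerivAt.mul (𝔸' := ℝ) (hasFDerivAt_coord k x) (hasFDerivAt_coord l x)

theorem proj_single (p k : Fin 9 × Fin (N ^ 2 - 1)) :
    (EuclideanSpace.proj p : Cfg N →L[ℝ] ℝ) (EuclideanSpace.single k 1) =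
      if p = k then 1 else 0 := by
  simp [EuclideanSpace.proj, Pi.single_apply]

/-- the derivative of the coefficients -/
theorem dW_wpot (b : ColorBasis N) (G : GammaNine) (g m : ℝ) (α β : Fin 16)
    (k : Fin 9 × Fin (N ^ 2 - 1)) (A : Fin (N ^ 2 - 1)) (x : Cfg N) :
    dW (wpot b G g m) α k x β A =
      g * (∑ C : Fin (N ^ 2 - 1), ∑ j : Fin 9, b.structConst A k.2 C * x (j, C) *
        G.γ2 k.1 j α β) - m * (cc k.1 * (if A = k.2 then 1 else 0) * (Gam G * G.γ k.1) α β) := by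
  have h : HasFDerivAt (wpot b G g m α β A)
      (g • (∑ B : Fin (N ^ 2 - 1), ∑ C : Fin (N ^ 2 - 1), ∑ i : Fin 9, ∑ j : Fin 9,
        (1 / 2 * b.structConst A B C * G.γ2 i j α β) •
          (x (i, B) • (EuclideanSpace.proj (j, C) : Cfg N →L[ℝ] ℝ) +
            x (j, C) • (EuclideanSpace.proj (i, B) : Cfg N →L[ℝ] ℝ))) -
        m • ∑ j : Fin 9, (cc j * (Gam G * G.γ j) α β) •
          (EuclideanSpace.proj (j, A) : Cfg N →L[ℝ] ℝ)) x := by
    have e : wpot b G g m α β A = fun y => g • (∑ B : Fin (N ^ 2 - 1), ∑ C : Fin (N ^ 2 - 1),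
        ∑ i : Fin 9, ∑ j : Fin 9, (1 / 2 * b.structConst A B C * G.γ2 i j α β) •
          (y (i, B) * y (j, C))) - m • ∑ j : Fin 9, (cc j * (Gam G * G.γ j) α β) • y (j, A) := by
      funext y
      unfold wpot
      simp only [smul_eq_mul]
      congr 1
      · congr 1
        exact Finset.sum_congr rfl fun B _ => Finset.sum_congr rfl fun C _ =>
          Finset.sum_congr rfl fun i _ => Finset.sum_congr rfl fun j _ => by ring
      · congr 1
        exact Finset.sum_congr rfl fun j _ => by ring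
    rw [e]
    refine HasFDerivAt.fun_sub ?_ ?_
    · refine HasFDerivAt.fun_const_smul ?_ g
      refine HasFDerivAt.fun_sum fun B _ => HasFDerivAt.fun_sum fun C _ =>
        HasFDerivAt.fun_sum fun i _ => HasFDerivAt.fun_sum fun j _ => ?_
      exact (hasFDerivAt_coord2 (i, B) (j, C) x).fun_const_smul _
    · refine HasFDerivAt.fun_const_smul ?_ m
      refine HasFDerivAt.fun_sum fun j _ => ?_
      exact (hasFDerivAt_coord (j, A) x).fun_const_smul _
  unfold dW
  rw [h.fderiv]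
  simp only [_root_.sub_apply, _root_.smul_apply, _root_.sum_apply, _root_.add_apply,
    proj_single, smul_eq_mul]
  congr 1
  · congr 1
    obtain ⟨k1, k2⟩ := k
    have e1 : ∀ B C i j, 1 / 2 * b.structConst A B C * G.γ2 i j α β *
        (x (i, B) * (if (j, C) = (k1, k2) then 1 else 0) +
          x (j, C) * (if (i, B) = (k1, k2) then 1 else 0)) =
        (if C = k2 then (if j = k1 then
          1 / 2 * b.structConst A B C * G.γ2 i j α β * x (i, B) else 0) else 0) +
        (if B = k2 then (if i = k1 then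
          1 / 2 * b.structConst A B C * G.γ2 i j α β * x (j, C) else 0) else 0) := by
      intro B C i j
      simp only [Prod.mk.injEq]
      by_cases h1 : C = k2 <;> by_cases h2 : j = k1 <;> by_cases h3 : B = k2 <;>
        by_cases h4 : i = k1 <;> simp [h1, h2, h3, h4] <;> ring
    simp only [e1, Finset.sum_add_distrib, Finset.sum_ite_irrel, Finset.sum_const_zero,
      Finset.sum_ite_eq', Finset.mem_univ, if_true]
    rw [← Finset.sum_add_distrib]
    refine Finset.sum_congr rfl fun C _ => ?_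
    rw [← Finset.sum_add_distrib]
    refine Finset.sum_congr rfl fun j _ => ?_
    have f1 := Col962.f_swap23 b A k2 C
    have f2 : G.γ2 j k1 α β = -G.γ2 k1 j α β := by
      rw [Gam962.g2_swap G k1 j]; rfl
    rw [f1, f2]
    ring
  · congr 1
    obtain ⟨k1, k2⟩ := k
    rw [Finset.sum_eq_single k1]
    · simp only [Prod.mk.injEq, true_and]
      ring
    · intro j _ hj
      simp [hj]
    · intro h; exact absurd (Finset.mem_univ _) h

/-! ## gamma sums -/

theorem sum_g_g2 (G : GammaNine) (j : Fin 9) : ∑ i, G.γ i * G.γ2 i j = (8 : ℝ) • G.γ j := by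
  have h : ∀ i, G.γ i * G.γ2 i j = if i = j then 0 else G.γ j := by
    intro i
    by_cases hij : i = j
    · subst hij
      rw [Gam962.g2_self, mul_zero, if_pos rfl]
    · rw [Gam962.g2_ne G hij, ← mul_assoc, gamma_sq, one_mul, if_neg hij]
  simp only [h]
  rw [Finset.sum_ite, Finset.sum_const_zero, zero_add, Finset.sum_const]
  have hc : (Finset.univ.filter fun i : Fin 9 => ¬i = j).card = 8 := by
    have : (Finset.univ.filter fun i : Fin 9 => ¬i = j) = Finset.univ.erase j := by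
      ext i; simp
    rw [this, Finset.card_erase_of_mem (Finset.mem_univ _)]
    rfl
  rw [hc, ← Nat.cast_smul_eq_nsmul ℝ]
  norm_num

theorem g_Gam_g (G : GammaNine) (i : Fin 9) :
    G.γ i * (Gam G * G.γ i) = (if (i : ℕ) < 3 then (1 : ℝ) else -1) • Gam G := by
  have a : ∀ {l k : Fin 9}, l ≠ k → ∀ X : Matrix (Fin 16) (Fin 16) ℝ,
      G.γ l * (G.γ k * X) = -(G.γ k * (G.γ l * X)) := fun {l k} h X => by
    rw [← mul_assoc, gamma_anti G h, neg_mul, mul_assoc]
  have q : ∀ (l : Fin 9) (X : Matrix (Fin 16) (Fin 16) ℝ), G.γ l * (G.γ l * X) = X :=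
    fun l X => by rw [← mul_assoc, gamma_sq, one_mul]
  by_cases h0 : i = 0
  · subst h0
    rw [if_pos (by norm_num), one_smul]
    unfold Gam
    simp only [mul_assoc]
    rw [q, gamma_anti G (show (2 : Fin 9) ≠ 0 by decide), mul_neg,
      a (show (1 : Fin 9) ≠ 0 by decide), neg_neg]
  by_cases h1 : i = 1
  · subst h1
    rw [if_pos (by norm_num), one_smul]
    unfold Gam
    simp only [mul_assoc]
    rw [a (show (1 : Fin 9) ≠ 0 by decide), q, gamma_anti G (show (2 : Fin 9) ≠ 1 by decide),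
      mul_neg, neg_neg]
  by_cases h2 : i = 2
  · subst h2
    rw [if_pos (by norm_num), one_smul]
    unfold Gam
    simp only [mul_assoc]
    rw [gamma_sq, mul_one, a (show (2 : Fin 9) ≠ 0 by decide),
      gamma_anti G (show (2 : Fin 9) ≠ 1 by decide), mul_neg, neg_neg]
  rw [if_neg (by
    have h0' : (i : ℕ) ≠ 0 := fun h => h0 (Fin.ext h)
    have h1' : (i : ℕ) ≠ 1 := fun h => h1 (Fin.ext h)
    have h2' : (i : ℕ) ≠ 2 := fun h => h2 (Fin.ext h)
    omega)]
  unfold Gam
  simp only [mul_assoc]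
  rw [a h0, a h1, a h2, gamma_sq, mul_one]
  simp

theorem sum_cc_Gam (G : GammaNine) :
    ∑ i, cc i • (G.γ i * (Gam G * G.γ i)) = (2 : ℝ) • Gam G := by
  simp only [g_Gam_g, smul_smul, ← Finset.sum_smul]
  congr 1
  simp only [Fin.sum_univ_succ, cc]
  norm_num

/-! ## the Yukawa operator -/

section

variable {F : Type*} [NormedAddCommGroup F] [InnerProductSpace ℂ F]

/-- `∑_{βδ} C_{βδ} θ_β^B θ_δ^A` -/
def quadL (M : FermionRep N F) (C : Matrix (Fin 16) (Fin 16) ℝ) (B A : Fin (N ^ 2 - 1)) :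
    F →ₗ[ℂ] F := ∑ β, ∑ δ, ((C β δ : ℝ) : ℂ) • (M.θ β B ∘ₗ M.θ δ A)

theorem quadL_apply (M : FermionRep N F) (C : Matrix (Fin 16) (Fin 16) ℝ)
    (B A : Fin (N ^ 2 - 1)) (v : F) :
    quadL M C B A v = ∑ β, ∑ δ, ((C β δ : ℝ) : ℂ) • M.θ β B (M.θ δ A v) := by
  simp [quadL, LinearMap.sum_apply]

theorem quadL_add (M : FermionRep N F) (C D : Matrix (Fin 16) (Fin 16) ℝ)
    (B A : Fin (N ^ 2 - 1)) : quadL M (C + D) B A = quadL M C B A + quadL M D B A := by
  simp [quadL, add_smul, Finset.sum_add_distrib]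

theorem quadL_smul (M : FermionRep N F) (r : ℝ) (C : Matrix (Fin 16) (Fin 16) ℝ)
    (B A : Fin (N ^ 2 - 1)) : quadL M (r • C) B A = (r : ℂ) • quadL M C B A := by
  simp [quadL, Finset.smul_sum, mul_smul]

theorem quadL_zero (M : FermionRep N F) (B A : Fin (N ^ 2 - 1)) : quadL M 0 B A = 0 := by
  simp [quadL]

theorem quadL_sum (M : FermionRep N F) {ι : Type*} (s : Finset ι)
    (C : ι → Matrix (Fin 16) (Fin 16) ℝ) (B A : Fin (N ^ 2 - 1)) :
    quadL M (∑ i ∈ s, C i) B A = ∑ i ∈ s, quadL M (C i) B A := by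
  classical
  induction s using Finset.induction_on with
  | empty => simp [quadL_zero]
  | insert a s ha ih => rw [Finset.sum_insert ha, Finset.sum_insert ha, quadL_add, ih]

/-- `Y(x) = -(i/2) ∑ f_{ABC} x_j^C θ^B γ^j θ^A` -/
def Yop (b : ColorBasis N) (M : FermionRep N F) (G : GammaNine) (x : Cfg N) : F →ₗ[ℂ] F :=
  (-(Complex.I / 2)) • ∑ B, ∑ A, ∑ C, ∑ j,
    ((b.structConst A B C * x (j, C) : ℝ) : ℂ) • quadL M (G.γ j) B A

/-- `iθΓθ` -/
def IG (M : FermionRep N F) (G : GammaNine) : F →ₗ[ℂ] F :=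
  Complex.I • ∑ A, quadL M (Gam G) A A

/-- one direction of the Yukawa operator, as quadratic operators -/
theorem sum_dco_Th [FiniteDimensional ℂ F] (b : ColorBasis N) (M : FermionRep N F)
    (G : GammaNine) (g m : ℝ) (k : Fin 9 × Fin (N ^ 2 - 1)) (x : Cfg N) (v : F) :
    ∑ α, dco M G α k (Th M (dW (wpot b G g m) α k x) v) =
      ∑ A, quadL M (g • (∑ C, ∑ j, (b.structConst A k.2 C * x (j, C)) •
        (G.γ k.1 * G.γ2 k.1 j)) - (m * (cc k.1 * (if A = k.2 then 1 else 0))) •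
          (G.γ k.1 * (Gam G * G.γ k.1))) k.2 A v := by
  have hC : ∀ (A : Fin (N ^ 2 - 1)) (β δ : Fin 16),
      (g • (∑ C, ∑ j, (b.structConst A k.2 C * x (j, C)) •
        (G.γ k.1 * G.γ2 k.1 j)) - (m * (cc k.1 * (if A = k.2 then 1 else 0))) •
          (G.γ k.1 * (Gam G * G.γ k.1))) β δ =
      ∑ α, G.γ k.1 α β * dW (wpot b G g m) α k x δ A := by
    intro A β δ
    have e : ∀ Y : Matrix (Fin 16) (Fin 16) ℝ, (G.γ k.1 * Y) β δ = ∑ α, G.γ k.1 α β * Y α δ := by
      intro Y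
      rw [Matrix.mul_apply]
      exact Finset.sum_congr rfl fun α _ => by rw [Gam962.g_symm G k.1 β α]
    simp only [Matrix.sub_apply, Matrix.smul_apply, Matrix.sum_apply, e, smul_eq_mul, dW_wpot]
    simp only [Finset.mul_sum, mul_sub, Finset.sum_sub_distrib]
    congr 1
    · conv_rhs => rw [Finset.sum_comm]
      refine Finset.sum_congr rfl fun C _ => ?_
      conv_rhs => rw [Finset.sum_comm]
      exact Finset.sum_congr rfl fun j _ => Finset.sum_congr rfl fun α _ => by ring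
    · refine Finset.sum_congr rfl fun α _ => ?_
      ring
  have hL : ∑ α, dco M G α k (Th M (dW (wpot b G g m) α k x) v) = ∑ α, ∑ β, ∑ δ, ∑ A,
      ((G.γ k.1 α β * dW (wpot b G g m) α k x δ A : ℝ) : ℂ) • M.θ β k.2 (M.θ δ A v) := by
    refine Finset.sum_congr rfl fun α _ => ?_
    rw [dco_apply]
    refine Finset.sum_congr rfl fun β _ => ?_
    rw [Th_apply, map_sum, Finset.smul_sum]
    refine Finset.sum_congr rfl fun δ _ => ?_
    rw [map_sum, Finset.smul_sum]
    refine Finset.sum_congr rfl fun A _ => ?_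
    rw [map_smul, smul_smul, Complex.ofReal_mul]
  have hR : ∀ A, quadL M (g • (∑ C, ∑ j, (b.structConst A k.2 C * x (j, C)) •
        (G.γ k.1 * G.γ2 k.1 j)) - (m * (cc k.1 * (if A = k.2 then 1 else 0))) •
          (G.γ k.1 * (Gam G * G.γ k.1))) k.2 A v = ∑ β, ∑ δ, ∑ α,
      ((G.γ k.1 α β * dW (wpot b G g m) α k x δ A : ℝ) : ℂ) • M.θ β k.2 (M.θ δ A v) := by
    intro A
    rw [quadL_apply]
    refine Finset.sum_congr rfl fun β _ => Finset.sum_congr rfl fun δ _ => ?_
    rw [hC, Complex.ofReal_sum, Finset.sum_smul]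
  rw [hL, Finset.sum_congr rfl fun A _ => hR A]
  have e : ∀ f : Fin 16 → Fin 16 → Fin 16 → Fin (N ^ 2 - 1) → F,
      ∑ α, ∑ β, ∑ δ, ∑ A, f α β δ A = ∑ A, ∑ β, ∑ δ, ∑ α, f α β δ A := by
    intro f
    rw [Finset.sum_congr rfl fun α _ => Finset.sum_congr rfl fun β _ => Finset.sum_comm]
    rw [Finset.sum_congr rfl fun α _ => Finset.sum_comm, Finset.sum_comm]
    refine Finset.sum_congr rfl fun A _ => ?_
    rw [Finset.sum_comm]
    exact Finset.sum_congr rfl fun β _ => Finset.sum_comm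
  exact e _

/-- **the Yukawa operator of `Q^{g,m}`** -/
theorem Zop_wpot [FiniteDimensional ℂ F] (b : ColorBasis N) (M : FermionRep N F)
    (G : GammaNine) (g m : ℝ) (x : Cfg N) :
    Zop M G (wpot b G g m) x =
      (16 : ℂ) • ((g : ℂ) • Yop b M G x + ((m / 8 : ℝ) : ℂ) • IG M G) := by
  have hs : ∀ k2 A : Fin (N ^ 2 - 1), ∑ k1 : Fin 9,
      (g • (∑ C, ∑ j, (b.structConst A k2 C * x (j, C)) • (G.γ k1 * G.γ2 k1 j)) -
        (m * (cc k1 * (if A = k2 then 1 else 0))) • (G.γ k1 * (Gam G * G.γ k1))) =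
      (8 * g) • (∑ C, ∑ j, (b.structConst A k2 C * x (j, C)) • G.γ j) -
        (2 * m * (if A = k2 then 1 else 0)) • Gam G := by
    intro k2 A
    rw [Finset.sum_sub_distrib]
    congr 1
    · rw [← Finset.smul_sum, Finset.sum_comm, mul_comm 8 g, mul_smul, Finset.smul_sum (r := (8 : ℝ))]
      congr 1
      refine Finset.sum_congr rfl fun C _ => ?_
      rw [Finset.sum_comm, Finset.smul_sum]
      refine Finset.sum_congr rfl fun j _ => ?_
      rw [← Finset.smul_sum, sum_g_g2, smul_comm]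
    · have : ∀ k1, (m * (cc k1 * (if A = k2 then 1 else 0))) • (G.γ k1 * (Gam G * G.γ k1)) =
          (m * (if A = k2 then 1 else 0)) • (cc k1 • (G.γ k1 * (Gam G * G.γ k1))) := by
        intro k1
        rw [smul_smul]
        congr 1
        ring
      rw [Finset.sum_congr rfl fun k1 _ => this k1, ← Finset.smul_sum, sum_cc_Gam, smul_smul]
      congr 1
      ring
  ext v
  have h1 : Zop M G (wpot b G g m) x v = (-Complex.I) • ∑ k2, ∑ A,
      quadL M ((8 * g) • (∑ C, ∑ j, (b.structConst A k2 C * x (j, C)) • G.γ j) -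
        (2 * m * (if A = k2 then 1 else 0)) • Gam G) k2 A v := by
    rw [Zop_apply, Finset.sum_comm]
    simp only [← Finset.smul_sum, sum_dco_Th]
    congr 1
    rw [Fintype.sum_prod_type, Finset.sum_comm]
    refine Finset.sum_congr rfl fun k2 _ => ?_
    rw [Finset.sum_comm]
    refine Finset.sum_congr rfl fun A _ => ?_
    rw [← hs k2 A, quadL_sum, LinearMap.sum_apply]
  have h2 : ∀ k2 A, quadL M ((8 * g) • (∑ C, ∑ j, (b.structConst A k2 C * x (j, C)) • G.γ j) -
        (2 * m * (if A = k2 then 1 else 0)) • Gam G) k2 A v =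
      ((8 * g : ℝ) : ℂ) • (∑ C, ∑ j, ((b.structConst A k2 C * x (j, C) : ℝ) : ℂ) •
        quadL M (G.γ j) k2 A v) -
      (if A = k2 then ((2 * m : ℝ) : ℂ) • quadL M (Gam G) k2 A v else 0) := by
    intro k2 A
    rw [sub_eq_add_neg, ← neg_smul, quadL_add, quadL_smul, quadL_smul, quadL_sum]
    simp only [quadL_sum, quadL_smul, LinearMap.add_apply, LinearMap.smul_apply,
      LinearMap.sum_apply]
    rw [sub_eq_add_neg]
    congr 1
    by_cases h : A = k2
    · simp only [h, if_true, mul_one]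
      push_cast
      rw [neg_smul]
    · simp [h]
  rw [h1]
  simp only [h2, Finset.sum_sub_distrib, Finset.sum_ite_eq', Finset.mem_univ, if_true,
    LinearMap.smul_apply, LinearMap.add_apply, Yop, IG, LinearMap.sum_apply]
  rw [smul_sub]
  simp only [← Finset.smul_sum]
  simp only [smul_add, smul_smul]
  rw [sub_eq_add_neg]
  congr 1
  · congr 1
    push_cast
    ring
  · rw [← neg_smul]
    congr 1
    push_cast
    ring

theorem Zop_wco [FiniteDimensional ℂ F] (b : ColorBasis N) (M : FermionRep N F)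
    (G : GammaNine) (x : Cfg N) : Zop M G (wco b G) x = (16 : ℂ) • Yop b M G x := by
  rw [wco_eq_wpot, Zop_wpot]
  simp

/-- `‖Y(x) v‖ ≤ C ‖x‖ ‖v‖` -/
theorem Yop_bound [FiniteDimensional ℂ F] (b : ColorBasis N) (M : FermionRep N F)
    (G : GammaNine) : ∃ C : ℝ, 0 ≤ C ∧ ∀ (x : Cfg N) (v : F), ‖Yop b M G x v‖ ≤ C * ‖x‖ * ‖v‖ := by
  refine ⟨∑ B, ∑ A, ∑ C, ∑ j, |b.structConst A B C| *
    ‖LinearMap.toContinuousLinearMap (quadL M (G.γ j) B A)‖, by positivity, fun x v => ?_⟩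
  have hx : ∀ p, |x p| ≤ ‖x‖ := fun p => by
    have := PiLp.norm_apply_le x p
    rwa [Real.norm_eq_abs] at this
  have h1 : ‖Yop b M G x v‖ ≤ ‖∑ B, ∑ A, ∑ C, ∑ j,
      ((b.structConst A B C * x (j, C) : ℝ) : ℂ) • quadL M (G.γ j) B A v‖ := by
    simp only [Yop, LinearMap.smul_apply, LinearMap.sum_apply]
    rw [norm_smul, norm_neg, norm_div, Complex.norm_I, Complex.norm_two]
    have := norm_nonneg (∑ B, ∑ A, ∑ C, ∑ j,
      ((b.structConst A B C * x (j, C) : ℝ) : ℂ) • quadL M (G.γ j) B A v)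
    linarith
  refine h1.trans ((norm_sum_le _ _).trans ?_)
  rw [Finset.sum_mul, Finset.sum_mul]
  refine Finset.sum_le_sum fun B _ => (norm_sum_le _ _).trans ?_
  rw [Finset.sum_mul, Finset.sum_mul]
  refine Finset.sum_le_sum fun A _ => (norm_sum_le _ _).trans ?_
  rw [Finset.sum_mul, Finset.sum_mul]
  refine Finset.sum_le_sum fun C _ => (norm_sum_le _ _).trans ?_
  rw [Finset.sum_mul, Finset.sum_mul]
  refine Finset.sum_le_sum fun j _ => ?_
  rw [norm_smul, Complex.norm_real, Real.norm_eq_abs, abs_mul]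
  have h2 : ‖quadL M (G.γ j) B A v‖ ≤
      ‖LinearMap.toContinuousLinearMap (quadL M (G.γ j) B A)‖ * ‖v‖ :=
    (LinearMap.toContinuousLinearMap (quadL M (G.γ j) B A)).le_opNorm v
  calc |b.structConst A B C| * |x (j, C)| * ‖quadL M (G.γ j) B A v‖
      ≤ |b.structConst A B C| * ‖x‖ *
        (‖LinearMap.toContinuousLinearMap (quadL M (G.γ j) B A)‖ * ‖v‖) := by
        gcongr
        exact hx _
    _ = _ := by ring

/-- **(1.1), the energy identity of `Q^{g,m}`**, sum of squares form of the potential -/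
theorem energy [FiniteDimensional ℂ F] (b : ColorBasis N) (M : FermionRep N F) (G : GammaNine)
    (g m : ℝ) {φ : Cfg N → F} (hφ : ContDiff ℝ 2 φ) (hc : HasCompactSupport φ) :
    (1 / 16 : ℝ) * ∑ α, ∫ x, ‖chargeW M G (wpot b G g m) α φ x‖ ^ 2 =
      1 / 2 * (∑ k : Fin 9 × Fin (N ^ 2 - 1),
        ∫ x, ‖fderiv ℝ φ x (EuclideanSpace.single k 1)‖ ^ 2) +
      (∫ x, Wsq (wpot b G g m) x / 32 * ‖φ x‖ ^ 2) +
      ∫ x, (⟪φ x, ((g : ℂ) • Yop b M G x + ((m / 8 : ℝ) : ℂ) • IG M G) (φ x)⟫_ℂ).re := by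
  have hW : ∀ α β A, ContDiff ℝ 1 (wpot b G g m α β A) := fun α β A => by
    have h1 : ∀ k : Fin 9 × Fin (N ^ 2 - 1), ContDiff ℝ 1 (fun x : Cfg N => (x k : ℝ)) := fun k =>
      (EuclideanSpace.proj k : Cfg N →L[ℝ] ℝ).contDiff
    unfold wpot
    refine ContDiff.sub (contDiff_const.mul ?_) (contDiff_const.mul ?_)
    · refine ContDiff.sum fun B _ => ContDiff.sum fun C _ => ContDiff.sum fun i _ =>
        ContDiff.sum fun j _ => ?_
      exact (((contDiff_const.mul (h1 _)).mul (h1 _)).mul contDiff_const)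
    · exact ContDiff.sum fun j _ => ((contDiff_const.mul (h1 _)).mul contDiff_const)
  have h := weitz (M := M) hW (trZ_wpot b G g m) hφ hc
  rw [h]
  have e1 : ∫ x, (⟪φ x, Zop M G (wpot b G g m) x (φ x)⟫_ℂ).re = 16 *
      ∫ x, (⟪φ x, ((g : ℂ) • Yop b M G x + ((m / 8 : ℝ) : ℂ) • IG M G) (φ x)⟫_ℂ).re := by
    rw [← integral_const_mul]
    refine integral_congr_ae (Eventually.of_forall fun x => ?_)
    simp only
    rw [Zop_wpot, LinearMap.smul_apply, inner_smul_right]
    rw [show (16 : ℂ) = ((16 : ℝ) : ℂ) by norm_num, Complex.re_ofReal_mul]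
  have e2 : ∫ x, Wsq (wpot b G g m) x / 2 * ‖φ x‖ ^ 2 =
      16 * ∫ x, Wsq (wpot b G g m) x / 32 * ‖φ x‖ ^ 2 := by
    rw [← integral_const_mul]
    exact integral_congr_ae (Eventually.of_forall fun x => by simp only; ring)
  rw [e1, e2]
  ring

/-- **the energy identity of the supercharges** -/
theorem energy_super [FiniteDimensional ℂ F] (b : ColorBasis N) (M : FermionRep N F)
    (G : GammaNine) {φ : Cfg N → F} (hφ : ContDiff ℝ 2 φ) (hc : HasCompactSupport φ) :
    (1 / 16 : ℝ) * ∑ α, ∫ x, ‖supercharge b M G α φ x‖ ^ 2 =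
      1 / 2 * (∑ k : Fin 9 × Fin (N ^ 2 - 1),
        ∫ x, ‖fderiv ℝ φ x (EuclideanSpace.single k 1)‖ ^ 2) +
      (∫ x : Cfg N, pot b x * ‖φ x‖ ^ 2) + ∫ x, (⟪φ x, Yop b M G x (φ x)⟫_ℂ).re := by
  have h := energy b M G 1 0 hφ hc
  simp only [← wco_eq_wpot] at h
  simp only [supercharge_eq]
  rw [h]
  congr 1
  · congr 1
    refine integral_congr_ae (Eventually.of_forall fun x => ?_)
    simp only [Wsq_wco]
    ring
  · simp

end

end Crest.Agent.R330.Weitz726

end
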