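import Crest.Agent.R330.Off2_302
import Crest.Agent.R330.WeitzY_726

/-!
R330 (helper302): the lower energy bound `∃ C ≥ 0, EnLow b M G C` from 726's energy identity.
-/

set_option autoImplicit false
set_option linter.unusedSectionVars false
open MeasureTheory Filter Topology Crest.MathPhysics.MatrixQM
open scoped ContDiff InnerProductSpace

namespace Crest.Agent.R330.EnLow302

open Crest.Agent.R330.CoerCfg87 Crest.Agent.R330.VId87
open Crest.Agent.R330.Defs478 Crest.Agent.R330.Off2302 Crest.Agent.R330.Weitz726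

noncomputable section

variable {N : ℕ} {F : Type*} [NormedAddCommGroup F] [InnerProductSpace ℂ F]
  [FiniteDimensional ℂ F]

/-- the energy identity in the shape `qf = ½ ∑ ∫ |∂φ|² + ∫ Vsq |φ|² + ∫ Re ⟨φ, Y φ⟩` -/
theorem qf_eq (b : ColorBasis N) (M : FermionRep N F) (G : GammaNine) (g m : ℝ)
    {φ : Cfg N → F} (hφ : ContDiff ℝ 2 φ) (hc : HasCompactSupport φ) :
    qf b M G g m φ = 1 / 2 * (∑ k : Fin 9 × Fin (N ^ 2 - 1),
        ∫ x, ‖fderiv ℝ φ x (EuclideanSpace.single k 1)‖ ^ 2) +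
      (∫ x, Vsq G b g m x * ‖φ x‖ ^ 2) +
      ∫ x, (⟪φ x, ((g : ℂ) • Yop b M G x + ((m / 8 : ℝ) : ℂ) • IG M G) (φ x)⟫_ℂ).re := by
  have h := energy b M G g m hφ hc
  unfold qf
  simp only [Brid837.dcharge_eq]
  rw [h]
  congr 2
  refine integral_congr_ae (Eventually.of_forall fun x => ?_)
  simp only [Wsq, Vsq, dp, ← pow_two]
  ring

theorem enLow (b : ColorBasis N) (M : FermionRep N F) (G : GammaNine) :
    ∃ C : ℝ, 0 ≤ C ∧ EnLow b M G C := by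
  obtain ⟨CY, hCY, hY⟩ := Yop_bound b M G
  set CI : ℝ := ‖LinearMap.toContinuousLinearMap (IG M G)‖ with hCI
  have hI : ∀ v : F, ‖IG M G v‖ ≤ CI * ‖v‖ := fun v =>
    (LinearMap.toContinuousLinearMap (IG M G)).le_opNorm v
  have hCI0 : 0 ≤ CI := norm_nonneg _
  refine ⟨CY + CI, by positivity, fun g m hg hm φ hφ hc => ?_⟩
  have h2 : ContDiff ℝ 2 φ := hφ.of_le (WithTop.coe_le_coe.2 le_top)
  rw [qf_eq b M G g m h2 hc]
  have hcont : Continuous φ := hφ.continuous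
  have key : -(∫ x, (⟪φ x, ((g : ℂ) • Yop b M G x + ((m / 8 : ℝ) : ℂ) • IG M G) (φ x)⟫_ℂ).re) ≤
      (CY + CI) * ∫ x, (g * ‖x‖ + m) * ‖φ x‖ ^ 2 := by
    rw [← integral_neg, ← integral_const_mul]
    have hpt : ∀ x, ‖(⟪φ x, ((g : ℂ) • Yop b M G x + ((m / 8 : ℝ) : ℂ) • IG M G) (φ x)⟫_ℂ).re‖ ≤
        (CY + CI) * ((g * ‖x‖ + m) * ‖φ x‖ ^ 2) := by
      intro x
      have e1 : ‖((g : ℂ) • Yop b M G x + ((m / 8 : ℝ) : ℂ) • IG M G) (φ x)‖ ≤
          g * (CY * ‖x‖ * ‖φ x‖) + m / 8 * (CI * ‖φ x‖) := by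
        rw [LinearMap.add_apply, LinearMap.smul_apply, LinearMap.smul_apply]
        refine (norm_add_le _ _).trans ?_
        rw [norm_smul, norm_smul, Complex.norm_real, Complex.norm_real, Real.norm_eq_abs,
          Real.norm_eq_abs, abs_of_nonneg hg, abs_of_nonneg (by positivity : 0 ≤ m / 8)]
        gcongr
        · exact hY x (φ x)
        · exact hI (φ x)
      have e2 := (Complex.abs_re_le_norm _).trans
        (norm_inner_le_norm (𝕜 := ℂ) (φ x)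
          (((g : ℂ) • Yop b M G x + ((m / 8 : ℝ) : ℂ) • IG M G) (φ x)))
      rw [Real.norm_eq_abs]
      refine e2.trans ((mul_le_mul_of_nonneg_left e1 (norm_nonneg _)).trans ?_)
      have n1 : 0 ≤ ‖φ x‖ := norm_nonneg _
      have n2 : 0 ≤ ‖x‖ := norm_nonneg _
      have : (CY + CI) * ((g * ‖x‖ + m) * ‖φ x‖ ^ 2) - ‖φ x‖ * (g * (CY * ‖x‖ * ‖φ x‖) +
          m / 8 * (CI * ‖φ x‖)) = ‖φ x‖ ^ 2 * (CY * m + CI * (g * ‖x‖) + 7 / 8 * (CI * m)) := by
        ring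
      have h3 : 0 ≤ ‖φ x‖ ^ 2 * (CY * m + CI * (g * ‖x‖) + 7 / 8 * (CI * m)) := by positivity
      linarith
    have hint : Integrable fun x => (CY + CI) * ((g * ‖x‖ + m) * ‖φ x‖ ^ 2) :=
      (integrable_mul_sq hcont hc (w := fun x => g * ‖x‖ + m)
        ((continuous_const.mul continuous_norm).add continuous_const)).const_mul _
    have h4 := norm_integral_le_of_norm_le hint (Eventually.of_forall hpt)
    have h5 := neg_le_abs (∫ x, (⟪φ x, ((g : ℂ) • Yop b M G x +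
      ((m / 8 : ℝ) : ℂ) • IG M G) (φ x)⟫_ℂ).re)
    rw [integral_neg]
    exact h5.trans h4
  linarith

/-- **Mass off the commuting variety**, no hypothesis left, `0 ≤ m ≤ 1`. -/
theorem off_compact (b : ColorBasis N) (M : FermionRep N F) (G : GammaNine)
    {K : Set (Cfg N)} (hK : IsCompact K) (hd : Disjoint K (OffCm302.Cm b)) :
    ∃ C' : ℝ, 0 ≤ C' ∧ ∀ g m : ℝ, 1 ≤ g → 0 ≤ m → m ≤ 1 → ∀ φ : Cfg N → F,
      ContDiff ℝ ∞ φ → HasCompactSupport φ →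
      g ^ 2 * ∫ x in K, ‖φ x‖ ^ 2 ≤ C' * (qf b M G g m φ + ∫ x, ‖φ x‖ ^ 2) := by
  obtain ⟨C, -, hC⟩ := enLow b M G
  obtain ⟨C', hC', h⟩ := Off2302.off_compact b M G hC 1 hK hd
  exact ⟨C', hC', fun g m hg hm hm1 φ hφ hc => h g m hg hm (by nlinarith) φ hφ hc⟩

/-- bounded energy sequences, coupling `→ ∞`, masses `0 ≤ m_j ≤ 1`: no mass on compact sets
disjoint from the commuting variety -/
theorem off_compact_seq (b : ColorBasis N) (M : FermionRep N F) (G : GammaNine)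
    {K : Set (Cfg N)} (hK : IsCompact K) (hd : Disjoint K (OffCm302.Cm b))
    {g m : ℕ → ℝ} (hm : ∀ j, 0 ≤ m j) (hm1 : ∀ j, m j ≤ 1) (hg : Tendsto g atTop atTop)
    {φ : ℕ → Cfg N → F} (hφ : ∀ j, ContDiff ℝ ∞ (φ j)) (hc : ∀ j, HasCompactSupport (φ j))
    {E : ℝ} (hE : ∀ j, qf b M G (g j) (m j) (φ j) + ∫ x, ‖φ j x‖ ^ 2 ≤ E) :
    Tendsto (fun j => ∫ x in K, ‖φ j x‖ ^ 2) atTop (𝓝 0) := by
  obtain ⟨C', hC', h⟩ := off_compact b M G hK hd
  have hlim : Tendsto (fun j => C' * E / (g j) ^ 2) atTop (𝓝 0) :=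
    Tendsto.div_atTop tendsto_const_nhds ((tendsto_pow_atTop two_ne_zero).comp hg)
  refine squeeze_zero' (Eventually.of_forall fun j => integral_nonneg fun x => by positivity)
    ?_ hlim
  filter_upwards [hg.eventually_ge_atTop 1] with j hj
  have h1 := h (g j) (m j) hj (hm j) (hm1 j) (φ j) (hφ j) (hc j)
  rw [le_div_iff₀ (by positivity), mul_comm]
  exact h1.trans (mul_le_mul_of_nonneg_left (hE j) hC')

/-- weighted form on balls, no hypothesis left -/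
theorem off_weight (b : ColorBasis N) (M : FermionRep N F) (G : GammaNine) (ρ : ℝ) :
    ∃ C' : ℝ, 0 ≤ C' ∧ ∀ g m : ℝ, 1 ≤ g → 0 ≤ m → m ≤ 1 → ∀ φ : Cfg N → F,
      ContDiff ℝ ∞ φ → HasCompactSupport φ → (∀ x, φ x ≠ 0 → ‖x‖ ≤ ρ) →
      (∑ k : Fin 9 × Fin (N ^ 2 - 1),
        ∫ x, ‖fderiv ℝ φ x (EuclideanSpace.single k 1)‖ ^ 2) +
          g ^ 2 * (∫ x, AcomV302.Vq b x * ‖φ x‖ ^ 2) ≤
      C' * (qf b M G g m φ + g * ∫ x, ‖φ x‖ ^ 2) := by
  obtain ⟨C, -, hC⟩ := enLow b M G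
  obtain ⟨C', hC', h⟩ := Off2302.off_weight b M G hC 1 ρ
  exact ⟨C', hC', fun g m hg hm hm1 φ hφ hc hs => h g m hg hm (by nlinarith) φ hφ hc hs⟩

end

end Crest.Agent.R330.EnLow302
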