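import Crest.Agent.R330.StrataB_737
import Crest.Agent.R330.CapTop_924
import Crest.Agent.R330.EnLow_302
import Crest.Agent.R330.Chan_441

/-!
# Row 330, S9-CAPBIND (helper737): capture on annuli from the slice estimate

* `Null b M R G m T g φ` : `g → ∞`, core vectors of bounded energy, all amplitudes tend to zero.
* `SliceEst b M R G m T` : the slice estimate at the diagonal configurations with at least two
  clusters.  It is enough to have it FREQUENTLY in `j` (all hypotheses pass to subsequences).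
* `capAnn_of : SliceEst → CapAnn`, `capFam_of` : the same for a family of channels.
-/

set_option autoImplicit false
set_option linter.unusedSectionVars false

open MeasureTheory Filter Topology Set Crest.MathPhysics.MatrixQM
open scoped ContDiff InnerProductSpace ENNReal

noncomputable section

namespace Crest.Agent.R330.CapBind737

open Crest.Agent.R330.Defs478 Crest.Agent.R330.Top478 Crest.Agent.R330.Sec478
  Crest.Agent.R330.TrialSys796 Crest.Agent.R330.Chan441 Crest.Agent.R330.OffCm302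
  Crest.Agent.R330.AcomV302 Crest.Agent.R330.Strata737 Crest.Agent.R330.SlP314

variable {N : ℕ} {F : Type*} [NormedAddCommGroup F] [InnerProductSpace ℂ F]
  [FiniteDimensional ℂ F]

/-- a sequence of bounded energy with null amplitudes -/
structure Null (b : ColorBasis N) (M : FermionRep N F) (R : GaugeAction b M) (G : GammaNine)
    (m : ℝ) {X : Type*} (T : ℝ → X → Cfg N → F) (g : ℕ → ℝ) (φ : ℕ → Cfg N → F) : Prop where
  g_top : Tendsto g atTop atTop
  core : ∀ j, IsCoreVec b R (φ j)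
  en : ∃ C, ∀ j, En b M G (g j) m (φ j) ≤ C
  pair : ∀ χ, Tendsto (fun j => ∫ x, ⟪T (g j) χ x, φ j x⟫_ℂ) atTop (𝓝 0)

theorem Null.comp {b : ColorBasis N} {M : FermionRep N F} {R : GaugeAction b M} {G : GammaNine}
    {m : ℝ} {X : Type*} {T : ℝ → X → Cfg N → F} {g : ℕ → ℝ} {φ : ℕ → Cfg N → F}
    (h : Null b M R G m T g φ) {s : ℕ → ℕ} (hs : Tendsto s atTop atTop) :
    Null b M R G m T (fun j => g (s j)) (fun j => φ (s j)) where
  g_top := h.g_top.comp hs
  core j := h.core (s j)
  en := h.en.imp fun _ hC j => hC (s j)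
  pair χ := (h.pair χ).comp hs

/-- **The slice estimate** at the diagonal configuration `diag(p)`: for a good radius `η`
(depending only on `p`), for every null sequence and every `ε > 0` there is `δ > 0` such that the
mass of `tubeS b c η δ = {h(c+y) : y ∈ Nor c, ‖y‖ < η, ‖y - P_F y‖ < δ}` is at most `ε` for
infinitely many `j`. -/
def SliceEstAt (b : ColorBasis N) (M : FermionRep N F) (R : GaugeAction b M) (G : GammaNine)
    (m : ℝ) {X : Type*} (T : ℝ → X → Cfg N → F) (p : Fin 9 → Fin N → ℝ) : Prop :=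
  ∃ η : ℝ, GoodRad b (diagCfg b p) η ∧
    ∀ (g : ℕ → ℝ) (φ : ℕ → Cfg N → F), Null b M R G m T g φ → ∀ ε : ℝ, 0 < ε →
      ∃ δ : ℝ, 0 < δ ∧ ∃ᶠ j in atTop, ∫ x in tubeS b (diagCfg b p) η δ, ‖φ j x‖ ^ 2 ≤ ε

/-- the slice estimate at all diagonal configurations with at least two clusters -/
def SliceEst (b : ColorBasis N) (M : FermionRep N F) (R : GaugeAction b M) (G : GammaNine)
    (m : ℝ) {X : Type*} (T : ℝ → X → Cfg N → F) : Prop :=
  ∀ p : Fin 9 → Fin N → ℝ, (∀ i, ∑ a, p i a = 0) → 2 ≤ nv p → SliceEstAt b M R G m T p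

section mass

theorem integrableOn_sq {φ : Cfg N → F} (hφ : Continuous φ) (hc : HasCompactSupport φ)
    (S : Set (Cfg N)) : IntegrableOn (fun x => ‖φ x‖ ^ 2) S := by
  have h : Integrable (fun x => ‖φ x‖ ^ 2) := by
    refine (hφ.norm.pow 2).integrable_of_hasCompactSupport ?_
    exact HasCompactSupport.intro hc fun x hx => by
      simp only [Pi.pow_apply, image_eq_zero_of_notMem_tsupport hx]; simp
  exact h.integrableOn

theorem mass_eq {φ : Cfg N → F} (hφ : Continuous φ) (hc : HasCompactSupport φ)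
    (S : Set (Cfg N)) :
    ∫⁻ x in S, ‖φ x‖ₑ ^ 2 = ENNReal.ofReal (∫ x in S, ‖φ x‖ ^ 2) := by
  rw [ofReal_integral_eq_lintegral_ofReal (integrableOn_sq hφ hc S)
    (ae_of_all _ fun x => by positivity)]
  refine lintegral_congr fun x => ?_
  rw [ENNReal.ofReal_pow (norm_nonneg _), ofReal_norm]

theorem tubeS_mono (b : ColorBasis N) (c : Cfg N) (η : ℝ) {δ δ' : ℝ} (h : δ ≤ δ') :
    tubeS b c η δ ⊆ tubeS b c η δ' := by
  rintro x ⟨g, y, hy, hn, hd, he⟩
  exact ⟨g, y, hy, hn, hd.trans_le h, he⟩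

theorem act_mem_tubeS (b : ColorBasis N) {c : Cfg N} {η δ : ℝ} {x : Cfg N}
    (g : Matrix.specialUnitaryGroup (Fin N) ℂ) (h : x ∈ tubeS b c η δ) :
    b.act g x ∈ tubeS b c η δ := by
  obtain ⟨k, y, hy, hn, hd, he⟩ := h
  exact ⟨g * k, y, hy, hn, hd, by rw [Col962.act_mul, he]⟩

theorem mem_tubeS_act (b : ColorBasis N) {c : Cfg N} {η δ : ℝ} {x : Cfg N}
    (g : Matrix.specialUnitaryGroup (Fin N) ℂ) :
    b.act g x ∈ tubeS b c η δ ↔ x ∈ tubeS b c η δ := by
  constructor
  · intro h
    have h1 := act_mem_tubeS b g⁻¹ h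
    rwa [comp_act_inv] at h1
  · exact act_mem_tubeS b g

theorem continuous_actq (b : ColorBasis N) (q : Matrix.specialUnitaryGroup (Fin N) ℂ) :
    Continuous fun x : Cfg N => b.act q x := by
  have h1 := SlD314.continuous_act b
  have h2 : Continuous fun x : Cfg N => ((q, x) : Matrix.specialUnitaryGroup (Fin N) ℂ × Cfg N) :=
    continuous_const.prodMk continuous_id
  have h3 := Continuous.comp (g := fun p : Matrix.specialUnitaryGroup (Fin N) ℂ × Cfg N =>
    b.act p.1 p.2) h1 h2
  exact h3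

end mass

variable {b : ColorBasis N} {M : FermionRep N F} {R : GaugeAction b M} {G : GammaNine}
  {m : ℝ} {X : Type*} {T : ℝ → X → Cfg N → F}

/-- frequently = eventually, because null sequences are stable under subsequences -/
theorem SliceEstAt.eventually {p : Fin 9 → Fin N → ℝ} (h : SliceEstAt b M R G m T p) :
    ∃ η : ℝ, GoodRad b (diagCfg b p) η ∧
      ∀ (g : ℕ → ℝ) (φ : ℕ → Cfg N → F), Null b M R G m T g φ → ∀ ε : ℝ, 0 < ε →
        ∃ δ : ℝ, 0 < δ ∧ ∀ᶠ j in atTop, ∫ x in tubeS b (diagCfg b p) η δ, ‖φ j x‖ ^ 2 ≤ ε := by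
  obtain ⟨η, hη, h⟩ := h
  refine ⟨η, hη, fun g φ hn ε hε => ?_⟩
  by_contra hcon
  push Not at hcon
  have h1 : ∀ n : ℕ, ∃ᶠ j in atTop,
      ε < ∫ x in tubeS b (diagCfg b p) η (1 / ((n : ℝ) + 1)), ‖φ j x‖ ^ 2 := by
    intro n
    exact hcon (1 / ((n : ℝ) + 1)) (by positivity)
  obtain ⟨s, hs, h3⟩ := extraction_forall_of_frequently h1
  obtain ⟨δ, hδ, h4⟩ := h _ _ (hn.comp hs.tendsto_atTop) ε hε
  obtain ⟨n₀, hn₀⟩ := exists_nat_one_div_lt hδ
  refine h4 ?_
  filter_upwards [eventually_ge_atTop n₀] with n hn1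
  rw [not_le]
  refine (h3 n).trans_le ?_
  have hc := hn.core (s n)
  refine setIntegral_mono_set (integrableOn_sq hc.1.continuous hc.2.1 _)
    (ae_of_all _ fun x => by positivity) ?_
  refine LE.le.eventuallyLE (tubeS_mono b _ η ?_)
  have h5 : 1 / ((n : ℝ) + 1) ≤ 1 / ((n₀ : ℝ) + 1) := by
    apply one_div_le_one_div_of_le (by positivity)
    have : (n₀ : ℝ) ≤ n := by exact_mod_cast hn1
    linarith
  linarith

/-- **Capture on annuli from the slice estimate.** -/
theorem capAnn_of (hN : 0 < N) (hm : 0 ≤ m) (hm1 : m ≤ 1) (h : SliceEst b M R G m T) :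
    CapAnn b M R G m T := by
  intro g φ C hg hφ hE hp r ρ hr
  have hnull : Null b M R G m T g φ := ⟨hg, hφ, ⟨C, hE⟩, hp⟩
  have hφc : ∀ j, Continuous (φ j) := fun j => (hφ j).1.continuous
  set A : Set (Cfg N) := {x : Cfg N | r ≤ ‖x‖ ∧ ‖x‖ ≤ ρ} with hAdef
  have hA : IsCompact A := by
    have h1 : IsCompact (Metric.closedBall (0 : Cfg N) ρ) := isCompact_closedBall _ _
    refine h1.of_isClosed_subset ?_ ?_
    · exact (isClosed_le continuous_const continuous_norm).inter
        (isClosed_le continuous_norm continuous_const)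
    · intro x hx
      rw [mem_closedBall_zero_iff]
      exact hx.2
  have hA0 : (0 : Cfg N) ∉ A := fun h0 => by
    have := h0.1
    rw [norm_zero] at this
    linarith
  have key := CapTop924.cap_top (l := (atTop : Filter ℕ)) hA N (Str b) (isClosed_Str b)
    (by rw [Str_zero b hN, Set.inter_empty])
    (m := fun (j : ℕ) (S : Set (Cfg N)) => ∫⁻ x in S, ‖φ j x‖ₑ ^ 2)
    (fun j S S' hSS => lintegral_mono_set hSS)
    (fun j S S' => lintegral_union_le _ _ _)
    (fun j => by simp) ?_ ?_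
  · rw [tendsto_order]
    constructor
    · intro a ha
      exact Eventually.of_forall fun j => lt_of_lt_of_le ha
        (integral_nonneg fun x => by positivity)
    · intro a ha
      have h1 := key (ENNReal.ofReal (a / 2)) (by rw [ENNReal.ofReal_pos]; linarith)
      filter_upwards [h1] with j hj
      rw [mass_eq (hφc j) (hφ j).2.1] at hj
      have h2 := (ENNReal.ofReal_le_ofReal_iff (by linarith)).1 hj
      linarith
  · -- the local estimate
    intro k hk c hcA hc1 hck
    obtain ⟨q, p, hps, hpn, hpe⟩ := hc1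
    have hc0 : c ≠ 0 := fun h0 => hA0 (h0 ▸ hcA)
    have hnv : 2 ≤ nv p := by
      by_contra hlt
      have h1 : c ∈ Str b 1 := ⟨q, p, hps, by omega, hpe⟩
      rw [Str_one b hN] at h1
      exact hc0 h1
    obtain ⟨η, hη, hest⟩ := (h p hps hnv).eventually
    have hd1 : diagCfg b p ∈ Str b (k + 1) := by
      rw [← hpe]
      exact act_mem_Str b ⟨q, p, hps, hpn, hpe⟩ q
    have hd2 : diagCfg b p ∉ Str b k := by
      intro h1
      rw [← hpe] at h1
      have h2 := act_mem_Str b h1 q⁻¹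
      rw [comp_act_inv] at h2
      exact hck h2
    obtain ⟨U, hU, hdU, hUs⟩ := stratum_subset_tubeS b hN hd1 hd2 hη.pos
    have hcont : Continuous fun x : Cfg N => b.act q x := continuous_actq b q
    refine ⟨(fun x => b.act q x) ⁻¹' U, hU.preimage hcont, ?_, fun ε hε => ?_⟩
    · show b.act q c ∈ U
      rwa [hpe]
    · have hε' : ∃ ε' : ℝ, 0 < ε' ∧ ENNReal.ofReal ε' ≤ ε := by
        rcases eq_or_ne ε ⊤ with h1 | h1
        · exact ⟨1, one_pos, h1 ▸ le_top⟩
        · exact ⟨ε.toReal, ENNReal.toReal_pos hε.ne' h1, (ENNReal.ofReal_toReal h1).le⟩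
      obtain ⟨ε', hε1, hε2⟩ := hε'
      obtain ⟨δ, hδ, hev⟩ := hest g φ hnull ε' hε1
      refine ⟨tubeS b (diagCfg b p) η δ, isOpen_tubeS b hη δ, ?_, ?_⟩
      · rintro x ⟨⟨-, hxU⟩, hxS⟩
        have hxU' : b.act q x ∈ U := hxU
        have hxV : b.act q x ∈ tubeS b (diagCfg b p) η δ :=
          hUs δ hδ ⟨hxU', act_mem_Str b hxS q⟩
        exact (mem_tubeS_act b q).1 hxV
      · filter_upwards [hev] with j hj
        refine (lintegral_mono_set Set.inter_subset_right).trans ?_
        rw [mass_eq (hφc j) (hφ j).2.1]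
        exact (ENNReal.ofReal_le_ofReal hj).trans hε2
  · -- off the commuting variety
    intro K hK hKA hd ε hε
    rw [Str_top b hN] at hd
    have h1 := EnLow302.off_compact_seq b M G hK hd (g := g) (m := fun _ => m)
      (fun _ => hm) (fun _ => hm1) hg (fun j => (hφ j).1) (fun j => (hφ j).2.1) (E := C)
      (fun j => by have := hE j; unfold En at this; linarith)
    have hε' : ∃ ε' : ℝ, 0 < ε' ∧ ENNReal.ofReal ε' ≤ ε := by
      rcases eq_or_ne ε ⊤ with h1 | h1
      · exact ⟨1, one_pos, h1 ▸ le_top⟩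
      · exact ⟨ε.toReal, ENNReal.toReal_pos hε.ne' h1, (ENNReal.ofReal_toReal h1).le⟩
    obtain ⟨ε', hε1, hε2⟩ := hε'
    filter_upwards [h1.eventually_le_const hε1] with j hj
    rw [mass_eq (hφc j) (hφ j).2.1]
    exact (ENNReal.ofReal_le_ofReal hj).trans hε2

/-- the same for a family of channels -/
theorem capFam_of (hN : 0 < N) (hm : 0 ≤ m) (hm1 : m ≤ 1) {ι : Type*} {X : ι → Type*}
    {T : ∀ i, ℝ → X i → Cfg N → F}
    (h : SliceEst b M R G m (X := Σ i, X i) (fun g s => T s.1 g s.2)) :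
    CapFam b M R G m T := by
  intro g φ C hg hφ hE hp r ρ hr
  exact capAnn_of hN hm hm1 h g φ C hg hφ hE (fun s => hp s.1 s.2) r ρ hr

end Crest.Agent.R330.CapBind737

end
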