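import Crest.Agent.R330.FreeC_399
import Crest.Agent.R330.TDef_414
import Crest.Agent.R330.Pou_365

/-!
# Row 330, S8-CHSYS: one channel from the statements on generators (helper399)

Over `TDef_414` (`C : Chn b p S`, `P : TPack C M R G`) and a limit channel
`K : Chan566.Chan S (Pos p) (C.Fx M G)` of helper566 which matches it (`Match`):

* `CoreT`, `SuppT`, `RadT`, `GramT`, `DualT` : the statements (T1)-(T5) on generators.
* `ChartT` : charts exist at every regular position.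
* `e₀`, `eX` : the limit vectors.
* `isChan_TT` : 441's `IsChan` for `XX`, `DD`, `WW`, `TT` of helper414.
* `isLim_TT` : 441's `IsLim` for `XX`, from `IsLim` of the symmetric test space.
* `chanOf` : the bundled channel.
-/

set_option autoImplicit false
set_option linter.unusedSectionVars false

open MeasureTheory Filter Topology Crest.MathPhysics.MatrixQM
open scoped ContDiff InnerProductSpace ENNReal

noncomputable section

namespace Crest.Agent.R330.ChSys399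

open Crest.Agent.R330.Defs478 Crest.Agent.R330.TDef414 Crest.Agent.R330.FreeX399
  Crest.Agent.R330.FreeY399 Crest.Agent.R330.Chan441 Crest.Agent.R330.TrialSys796

/-! ## symmetrised vectors of a channel -/

section gen

variable {S : Type*} [Group S] [Fintype S]
variable {E : Type*} [NormedAddCommGroup E] [InnerProductSpace ℝ E] [FiniteDimensional ℝ E]
  [MeasurableSpace E] [BorelSpace E]
variable {F : Type*} [NormedAddCommGroup F] [InnerProductSpace ℂ F] [FiniteDimensional ℂ F]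
variable (K : Chan566.Chan S E F)

/-- Gram matrix of symmetrised vectors. -/
theorem inner_sym {ψ ψ' : E → F} (h : K.Test ψ) (h' : K.Test ψ') :
    ⟪FreeC399.kap S • K.e (K.sym h), FreeC399.kap S • K.e (K.sym h')⟫_ℂ =
      ∑ s, ∫ x, ⟪ψ x, K.tr s ψ' x⟫_ℂ := by
  obtain ⟨r₁, hr₁⟩ := h.cpt.isCompact.isBounded.subset_ball (0 : E)
  obtain ⟨r₂, hr₂⟩ := h'.cpt.isCompact.isBounded.subset_ball (0 : E)
  let r : E → ℝ := fun _ => max r₁ r₂
  let γ : FreeC399.Gen K Set.univ r := ⟨0, ψ, Set.mem_univ _, h, hr₁.trans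
    (Metric.ball_subset_ball (le_max_left _ _))⟩
  let γ' : FreeC399.Gen K Set.univ r := ⟨0, ψ', Set.mem_univ _, h', hr₂.trans
    (Metric.ball_subset_ball (le_max_right _ _))⟩
  exact FreeC399.inner_e₀ K Set.univ r γ γ'

variable {Γ : Type*} (f : Γ → E → F) (hf : ∀ γ, K.Test (f γ))

/-- limit vectors of an arbitrary family of test functions -/
def e₁ (γ : Γ) : K.L := FreeC399.kap S • K.e (K.sym (hf γ))

/-- the intertwiner onto the symmetric test space -/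
def pr : (Γ →₀ ℂ) →ₗ[ℂ] K.X :=
  Finsupp.linearCombination ℂ fun γ : Γ => FreeC399.kap S • K.sym (hf γ)

theorem pr_single (γ : Γ) (a : ℂ) :
    pr K f hf (Finsupp.single γ a) = a • FreeC399.kap S • K.sym (hf γ) := by
  simp [pr]

theorem pr_e (χ : Γ →₀ ℂ) : eF (e₁ K f hf) χ = K.e (pr K f hf χ) := by
  rw [eF_eq, pr, Finsupp.linearCombination_apply, Finsupp.sum, map_sum]
  refine Finset.sum_congr rfl fun γ _ => ?_
  rw [map_smul, map_smul]
  rfl

theorem ext_gen {X : Type*} [AddCommGroup X] [Module ℂ X] {f g : (Γ →₀ ℂ) →ₗ[ℂ] X}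
    (h : ∀ γ, f (Finsupp.single γ 1) = g (Finsupp.single γ 1)) : f = g :=
  Finsupp.lhom_ext' fun γ => LinearMap.ext_ring (by simpa using h γ)

theorem sym_congr {ψ ψ' : E → F} (h : K.Test ψ) (h' : K.Test ψ') (he : ψ = ψ') :
    K.sym h = K.sym h' := by
  subst he
  rfl

theorem pr_D (m : ℝ) (α : Fin 16) (D₀ : Γ → Γ) (hD : ∀ γ, f (D₀ γ) = (K.Q m α).op (f γ))
    (χ : Γ →₀ ℂ) : pr K f hf (MF D₀ χ) = K.D m α (pr K f hf χ) := by
  have h1 : (pr K f hf) ∘ₗ (MF D₀) = (K.D m α) ∘ₗ (pr K f hf) := by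
    refine ext_gen fun γ => ?_
    rw [LinearMap.comp_apply, LinearMap.comp_apply, MF_single, pr_single, pr_single, map_smul,
      map_smul, K.D_sym, sym_congr K (hf (D₀ γ)) ((hf γ).op m α) (hD γ)]
  exact LinearMap.congr_fun h1 χ

theorem pr_W {w : ℝ → ℝ} (hw : ContDiff ℝ ∞ w) (W₀ : Γ → Γ)
    (hW : ∀ γ, f (W₀ γ) = fun x => w (‖x‖ ^ 2) • f γ x) (χ : Γ →₀ ℂ) :
    pr K f hf (MF W₀ χ) = K.W w hw (pr K f hf χ) := by
  have h1 : (pr K f hf) ∘ₗ (MF W₀) = (K.W w hw) ∘ₗ (pr K f hf) := by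
    refine ext_gen fun γ => ?_
    rw [LinearMap.comp_apply, LinearMap.comp_apply, MF_single, pr_single, pr_single, map_smul,
      map_smul, FreeC399.W_sym K hw,
      sym_congr K (hf (W₀ γ)) (FreeC399.Gen.test_wm hw (hf γ)) (hW γ)]
  exact LinearMap.congr_fun h1 χ


/-- surjectivity from finite decompositions -/
theorem pr_surj_of (h : ∀ χ : K.X, ∃ (κ : Type) (s : Finset κ) (γ : κ → Γ),
    ∀ x, χ.1 x = ∑ i ∈ s, f (γ i) x) : Function.Surjective (pr K f hf) := by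
  intro χ
  obtain ⟨κ, s, γ, h1⟩ := h χ
  refine ⟨∑ i ∈ s, Finsupp.single (γ i) (FreeC399.kap S)⁻¹, ?_⟩
  rw [map_sum]
  have h2 : ∀ i, pr K f hf (Finsupp.single (γ i) (FreeC399.kap S)⁻¹) = K.sym (hf (γ i)) :=
    fun i => by rw [pr_single, smul_smul, inv_mul_cancel₀ FreeC399.kap_ne, one_smul]
  simp only [h2]
  apply Subtype.ext
  have h3 : ((∑ i ∈ s, K.sym (hf (γ i)) : K.X) : E → F) = ∑ i ∈ s, K.avg (f (γ i)) := by
    rw [AddSubmonoidClass.coe_finsetSum]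
    rfl
  rw [h3]
  funext x
  rw [Finset.sum_apply]
  have h4 : K.avg χ.1 x = χ.1 x := by
    have hc : ((Fintype.card S : ℝ)) ≠ 0 := by
      exact_mod_cast (Fintype.card_pos (α := S)).ne'
    rw [Chan566.Chan.avg]
    simp only [K.tr_of_eqv χ.2.2]
    rw [Finset.sum_const, Finset.card_univ, ← Nat.cast_smul_eq_nsmul ℝ, smul_smul,
      inv_mul_cancel₀ hc, one_smul]
  rw [← h4]
  simp only [Chan566.Chan.avg, Chan566.Chan.tr]
  rw [← Finset.smul_sum, Finset.sum_comm]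
  congr 1
  refine Finset.sum_congr rfl fun s _ => ?_
  rw [h1, map_sum]

end gen

/-! ## the channel -/

variable {N p : ℕ} {b : ColorBasis N} {S : Type} [Group S] [Fintype S] {C : Chn b p S}
variable {F : Type} [NormedAddCommGroup F] [InnerProductSpace ℂ F] [FiniteDimensional ℂ F]
variable {M : FermionRep N F} {R : GaugeAction b M} {G : GammaNine}

/-- The limit channel matches the geometry. -/
structure Match (R : GaugeAction b M) (K : Chan566.Chan S (Pos p) (C.Fx M G)) : Prop where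
  hO : ∀ s X, K.O s X = C.O s X
  hU : ∀ s (f : C.Fx M G), ((K.U s f : C.Fx M G) : F) = R.ρ (C.w s) (f : F)
  hZ : ∀ X, X ∈ K.Z ↔ ¬ C.BReg X
  hQ : ∀ m α (ψ : Pos p → C.Fx M G), ContDiff ℝ ∞ ψ → (K.Q m α).op ψ = C.Dx M G m α ψ

/-- (T1) core vectors. -/
def CoreT (P : TPack C M R G) : Prop :=
  ∀ (σ : Sl C) (χ : Amp M G σ), ∀ᶠ g in atTop, IsCoreVec b R (Tgen P σ g χ.fn)

/-- (T1) supports. -/
def SuppT (P : TPack C M R G) : Prop :=
  ∀ (σ : Sl C) (χ : Amp M G σ), ∃ δ ρ : ℝ, 0 < δ ∧ ∀ᶠ g in atTop, ∀ x,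
    Tgen P σ g χ.fn x ≠ 0 → δ ≤ ‖x‖ ∧ ‖x‖ ≤ ρ

/-- (T2) radial multiplication. -/
def RadT (P : TPack C M R G) : Prop :=
  ∀ (σ : Sl C) (χ : Amp M G σ) (w : ℝ → ℝ), ContDiff ℝ ∞ w → Tendsto (fun g =>
    ∫ x, ‖Tgen P σ g (χ.W w).fn x - ((w (‖x‖ ^ 2) : ℝ) : ℂ) • Tgen P σ g χ.fn x‖ ^ 2) atTop (𝓝 0)

/-- (T3), (T4) Gram matrix. -/
def GramT (P : TPack C M R G) : Prop :=
  ∀ (σ σ' : Sl C) (χ : Amp M G σ) (χ' : Amp M G σ'), Tendsto (fun g =>
    ∫ x, ⟪Tgen P σ g χ.fn x, Tgen P σ' g χ'.fn x⟫_ℂ) atTop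
      (𝓝 (∑ s, ∫ X, ⟪R.ρ (C.w s) (χ.fn X : F), (χ'.fn (C.O s X) : F)⟫_ℂ))

/-- (T5) the dual estimate. -/
def DualT (P : TPack C M R G) : Prop :=
  ∀ m : ℝ, m = 0 ∨ m = 1 → ∀ (σ : Sl C) (χ : Amp M G σ) (α : Fin 16), ∀ ε : ℝ, 0 < ε →
    ∀ᶠ g in atTop, ∀ φ : Cfg N → F, IsCoreVec b R φ →
      ‖∫ x, ⟪φ x, dcharge b M G g m α (Tgen P σ g χ.fn) x -
        Tgen P σ g (C.Dx M G m α χ.fn) x⟫_ℂ‖ ≤ ε * Real.sqrt (En b M G g m φ)

/-- Charts exist. -/
def ChartT (C : Chn b p S) : Prop := ∀ X0 : Pos p, C.BReg X0 → ∃ σ : Sl C, σ.X0 = X0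

variable {K : Chan566.Chan S (Pos p) (C.Fx M G)}

/-- The amplitude of a generator is a test function of the limit channel. -/
theorem Match.test (hM : Match R K) (q : TDef414.Gen C M G) : K.Test q.2.fn where
  smooth := q.2.smooth
  cpt := q.2.compact
  off x hx := by
    rw [hM.hZ, not_not]
    exact q.2.off x hx

/-- The limit vector of a generator. -/
def e₀ (hM : Match R K) : TDef414.Gen C M G → K.L := e₁ K (fun q => q.2.fn) hM.test

/-- The limit vectors of the test space. -/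
def eX (hM : Match R K) : XX C M G →ₗ[ℂ] K.L := eF (e₀ hM)

theorem gram_e₀ (hM : Match R K) (q q' : TDef414.Gen C M G) :
    ⟪e₀ hM q, e₀ hM q'⟫_ℂ =
      ∑ s, ∫ X, ⟪R.ρ (C.w s) (q.2.fn X : F), (q'.2.fn (C.O s X) : F)⟫_ℂ := by
  refine (inner_sym K (hM.test q) (hM.test q')).trans (Finset.sum_congr rfl fun s _ => ?_)
  refine integral_congr_ae (Eventually.of_forall fun x => ?_)
  show ⟪q.2.fn x, K.U s⁻¹ (q'.2.fn (K.O s x))⟫_ℂ = _
  have h1 : ⟪q.2.fn x, K.U s⁻¹ (q'.2.fn (K.O s x))⟫_ℂ =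
      ⟪K.U s (q.2.fn x), q'.2.fn (K.O s x)⟫_ℂ := by
    rw [← (K.U s).inner_map_map (q.2.fn x), K.U_inv']
  rw [h1, Submodule.coe_inner, hM.hU, hM.hO]

/-- The statements on generators. -/
theorem isGenCh (P : TPack C M R G) (hM : Match R K) (hC : CoreT P) (hS : SuppT P) (hR : RadT P)
    (hG : GramT P) (hD : DualT P) :
    IsGenCh b M R G (e₀ hM) (fun m α (q : TDef414.Gen C M G) => ⟨q.1, q.2.D m α⟩)
      (fun w q => ⟨q.1, q.2.W w⟩) (fun g q => Tgen P q.1 g q.2.fn) where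
  core q := hC q.1 q.2
  supp q := hS q.1 q.2
  iso q q' := by
    rw [gram_e₀]
    exact hG q.1 q'.1 q.2 q'.2
  dual m hm q α ε hε := hD m hm q.1 q.2 α ε hε
  rad w hw q := hR q.1 q.2 w hw

/-- **`IsChan` of the channel.** -/
theorem isChan_TT (P : TPack C M R G) (hM : Match R K) (hC : CoreT P) (hS : SuppT P)
    (hR : RadT P) (hG : GramT P) (hD : DualT P) :
    IsChan b M R G (L := K.L) (eX hM) (DD C M G) (WW C M G) (fun g χ => TT P g χ) :=
  isChan_free (isGenCh P hM hC hS hR hG hD)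

theorem surj_TT (hM : Match R K) (hCh : ChartT C) :
    Function.Surjective (pr K (fun q : TDef414.Gen C M G => q.2.fn) hM.test) := by
  refine pr_surj_of K _ _ fun χ => ?_
  have h1 : ∀ X0 : {X : Pos p // C.BReg X}, ∃ σ : Sl C, σ.X0 = X0.1 := fun X0 => hCh X0.1 X0.2
  choose σ hσ using h1
  have hcov : tsupport χ.1 ⊆ ⋃ X0 : {X : Pos p // C.BReg X},
      Metric.ball (X0 : Pos p) ((σ X0).r / 4) := by
    intro x hx
    have hx1 : C.BReg x := by
      have := χ.2.1.off x hx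
      rwa [hM.hZ, not_not] at this
    have hr : 0 < (σ ⟨x, hx1⟩).r / 4 := by
      have := (σ ⟨x, hx1⟩).pos
      positivity
    exact Set.mem_iUnion.2 ⟨⟨x, hx1⟩, Metric.mem_ball_self hr⟩
  obtain ⟨s, ψ, h2, h3, h4, h5⟩ := Pou365.exists_rep
    (U := fun X0 : {X : Pos p // C.BReg X} => Metric.ball (X0 : Pos p) ((σ X0).r / 4))
    (fun X0 => Metric.isOpen_ball) χ.2.1.smooth χ.2.1.cpt hcov
  refine ⟨_, s, fun X0 => ⟨σ X0, ⟨ψ X0, h2 X0, ?_, fun X hX => ?_⟩⟩, h5⟩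
  · rw [hσ X0]
    exact (h4 X0).trans Set.inter_subset_left
  · have := χ.2.1.off X (h4 X0 hX).2
    rwa [hM.hZ, not_not] at this

theorem sq_TT (hM : Match R K)
    (hsq : ∀ (α β : Fin 16) (ψ : Pos p → C.Fx M G), ContDiff ℝ ∞ ψ →
      (K.Q 0 α).op ((K.Q 0 α).op ψ) = (K.Q 0 β).op ((K.Q 0 β).op ψ))
    (α β : Fin 16) (χ : XX C M G) :
    DD C M G 0 α (DD C M G 0 α χ) = DD C M G 0 β (DD C M G 0 β χ) := by
  have h0 : ∀ (σ : Sl C) (χ : Amp M G σ), (χ.D 0 α).D 0 α = (χ.D 0 β).D 0 β := by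
    intro σ χ
    have h1 : ∀ α, C.Dx M G 0 α (C.Dx M G 0 α χ.fn) = (K.Q 0 α).op ((K.Q 0 α).op χ.fn) := by
      intro α
      rw [hM.hQ 0 α χ.fn χ.smooth]
      exact (hM.hQ 0 α _ (χ.D 0 α).smooth).symm
    have h2 : C.Dx M G 0 α (C.Dx M G 0 α χ.fn) = C.Dx M G 0 β (C.Dx M G 0 β χ.fn) := by
      rw [h1, h1, hsq α β χ.fn χ.smooth]
    simp only [Amp.D, Amp.mk.injEq]
    exact h2
  have h1 : (DD C M G 0 α) ∘ₗ (DD C M G 0 α) = (DD C M G 0 β) ∘ₗ (DD C M G 0 β) := by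
    refine ext_gen fun q => ?_
    obtain ⟨σ, χ⟩ := q
    have h2 : ∀ γ : Fin 16, ((DD C M G 0 γ) ∘ₗ (DD C M G 0 γ)) (Finsupp.single ⟨σ, χ⟩ 1) =
        gen σ ((χ.D 0 γ).D 0 γ) := fun γ => by
      rw [LinearMap.comp_apply]
      exact (congrArg _ (DD_gen 0 γ σ χ)).trans (DD_gen 0 γ σ _)
    rw [h2, h2, h0]
  exact LinearMap.congr_fun h1 χ

/-- **`IsLim` of the channel.** -/
theorem isLim_TT (hM : Match R K) (hCh : ChartT C)
    {W : (ℝ → ℝ) → K.X →ₗ[ℂ] K.X} {K0 : Submodule ℂ K.L} {d : ℕ}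
    (hW : ∀ (w : ℝ → ℝ) (hw : ContDiff ℝ ∞ w), W w = K.W w hw)
    (hsq : ∀ (α β : Fin 16) (ψ : Pos p → C.Fx M G), ContDiff ℝ ∞ ψ →
      (K.Q 0 α).op ((K.Q 0 α).op ψ) = (K.Q 0 β).op ((K.Q 0 β).op ψ))
    (h : IsLim (L := K.L) K.e K.D W K0 d) :
    IsLim (L := K.L) (eX hM) (DD C M G) (WW C M G) K0 d :=
  isLim_pull (pr K (fun q : TDef414.Gen C M G => q.2.fn) hM.test) (surj_TT hM hCh)
    (pr_e K _ _)
    (fun m α χ => pr_D K _ _ m α _ (fun q => (hM.hQ m α q.2.fn q.2.smooth).symm) χ)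
    (fun w hw χ => by
      rw [hW w hw]
      refine pr_W K _ _ hw _ (fun q => ?_) χ
      funext X
      exact (if_pos hw).trans (Complex.coe_smul _ _))
    (sq_TT hM hsq) h

/-- **The bundled channel.** -/
def chanOf (P : TPack C M R G) (hM : Match R K) (hCh : ChartT C) (hC : CoreT P) (hS : SuppT P)
    (hR : RadT P) (hG : GramT P) (hD : DualT P) {W : (ℝ → ℝ) → K.X →ₗ[ℂ] K.X}
    {K0 : Submodule ℂ K.L}
    (hW : ∀ (w : ℝ → ℝ) (hw : ContDiff ℝ ∞ w), W w = K.W w hw)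
    (hsq : ∀ (α β : Fin 16) (ψ : Pos p → C.Fx M G), ContDiff ℝ ∞ ψ →
      (K.Q 0 α).op ((K.Q 0 α).op ψ) = (K.Q 0 β).op ((K.Q 0 β).op ψ))
    (h : IsLim (L := K.L) K.e K.D W K0 1) : Chan441.Chan b M R G where
  L := K.L
  nL := inferInstance
  iL := inferInstance
  cL := inferInstance
  X := XX C M G
  aX := inferInstance
  mX := inferInstance
  e := eX hM
  D := DD C M G
  W := WW C M G
  T := fun g χ => TT P g χ
  K0 := K0
  lim := isLim_TT hM hCh hW hsq h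
  chan := isChan_TT P hM hC hS hR hG hD

end Crest.Agent.R330.ChSys399
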