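import Crest.Agent.R330.Geo9_692
import Crest.Agent.R330.TDef_414

/-!
# Row 330, S8-GEO part 3 (helper692): the geometry of the channels, literally

`chn b P : TDef414.Chn b (P.m - 1) (Sw P)` for every partition `P : Lam N` with at least two parts.

* `hm_colbr`, `colbr_cen` : brackets by matrix entries; `ev b a c z` : the colour vector of
  `z E_ac + conj z E_ca`.
* `Reg_iff` : `kc (cfX X) = kk` exactly for `X ∈ Reg`.
* `osw`, `oS` : the permutations on the centre; `lift9_oS`.
* `Lf` : the last six components of `pos p - pos q`; `UU_iff`.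
* `chn`, and the dictionary `chn_kk`, `chn_cen`, `chn_cf`, `chn_O`, `chn_Reg`, `chn_BReg`,
  `chn_w_mem`.
-/

set_option autoImplicit false
set_option linter.unusedSectionVars false

open MeasureTheory Filter Topology Crest.MathPhysics.MatrixQM
open scoped ContDiff InnerProductSpace ENNReal BigOperators

noncomputable section

namespace Crest.Agent.R330.Geo692

open Crest.Agent.R330.Parts879 Crest.Agent.R330.LS839 Crest.Agent.R330.Bind6839
open Crest.Agent.R330.Frame839 (kc Tn)
open Crest.Agent.R330.Blk304 (hm cf hs)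
open Crest.Agent.R330.Diag304 (dg)
open Crest.Agent.R330.Clus839
open Crest.Agent.R330.TDef414 (Pos pcomp mkp lift9 cfOf Chn)

variable {N : ℕ} (b : ColorBasis N) (P : Lam N)

/-! ## Brackets by matrix entries -/

theorem hm_colbr (u v : Colg N) : hm b ((colAlg b).br u v).ofLp =
    (-Complex.I) • (hm b u.ofLp * hm b v.ofLp - hm b v.ofLp * hm b u.ofLp) :=
  SlB314.cm_br b u.ofLp v.ofLp

theorem colbr_eq_zero_iff (u v : Colg N) : (colAlg b).br u v = 0 ↔
    hm b u.ofLp * hm b v.ofLp = hm b v.ofLp * hm b u.ofLp := by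
  constructor
  · intro h
    have h1 := hm_colbr b u v
    rw [h] at h1
    have h2 : hm b (0 : Colg N).ofLp = 0 := Blk304.hm_zero b
    rw [h2] at h1
    have h3 := smul_eq_zero.1 h1.symm
    rcases h3 with h3 | h3
    · simp at h3
    · exact sub_eq_zero.1 h3
  · intro h
    have h1 := hm_colbr b u v
    rw [h, sub_self, smul_zero] at h1
    have h2 : ((colAlg b).br u v).ofLp = 0 := by
      apply Blk304.hm_inj b
      rw [h1, Blk304.hm_zero]
    exact (WithLp.ofLp_injective 2) h2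

/-- The bracket with a central vector vanishes. -/
theorem colbr_cen (u : Colg N) (t : EuclideanSpace ℝ (Fin (P.m - 1))) :
    (colAlg b).br u (cen b P t) = 0 ↔
      ∀ a c, lab b P t (P.cl a) ≠ lab b P t (P.cl c) → hm b u.ofLp a c = 0 := by
  rw [colbr_eq_zero_iff, hm_cen]
  unfold bsc
  constructor
  · intro h a c hac
    have h1 := congrFun (congrFun h a) c
    rw [Matrix.mul_diagonal, Matrix.diagonal_mul] at h1
    have h2 : hm b u.ofLp a c * (((lab b P t (P.cl c) : ℝ) : ℂ) - ((lab b P t (P.cl a) : ℝ) : ℂ))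
        = 0 := by
      rw [mul_sub, h1]
      ring
    rcases mul_eq_zero.1 h2 with h3 | h3
    · exact h3
    · exfalso
      apply hac
      have h4 := sub_eq_zero.1 h3
      exact (Complex.ofReal_inj.1 h4).symm
  · intro h
    ext a c
    rw [Matrix.mul_diagonal, Matrix.diagonal_mul]
    by_cases hac : lab b P t (P.cl a) = lab b P t (P.cl c)
    · rw [hac, mul_comm]
    · rw [h a c hac]
      ring

/-! ## Off-diagonal vectors -/

/-- `z E_ac + conj z E_ca`. -/
def eM (a c : Fin N) (z : ℂ) : Matrix (Fin N) (Fin N) ℂ :=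
  Matrix.single a c z + Matrix.single c a (star z)

theorem eM_herm (a c : Fin N) (z : ℂ) : (eM a c z).IsHermitian := by
  unfold eM Matrix.IsHermitian
  rw [Matrix.conjTranspose_add, Matrix.conjTranspose_single, Matrix.conjTranspose_single,
    star_star, add_comm]

theorem eM_trace {a c : Fin N} (h : a ≠ c) (z : ℂ) : (eM a c z).trace = 0 := by
  unfold eM
  rw [Matrix.trace_add, Matrix.trace_single_eq_of_ne _ _ _ h, Matrix.trace_single_eq_of_ne _ _ _ h.symm,
    add_zero]

/-- The colour vector of `z E_ac + conj z E_ca`. -/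
def ev (a c : Fin N) (z : ℂ) : Colg N := WithLp.toLp 2 (cf b (eM a c z))

theorem hm_ev {a c : Fin N} (h : a ≠ c) (z : ℂ) : hm b (ev b a c z).ofLp = eM a c z :=
  Blk304.hm_cf b (eM_herm a c z) (eM_trace h z)

theorem eM_ac {a c : Fin N} (h : a ≠ c) (z : ℂ) : eM a c z a c = z := by
  unfold eM
  rw [Matrix.add_apply, Matrix.single_apply_same, Matrix.single_apply_of_ne _ _ _ _ _ (by tauto),
    add_zero]

theorem eM_eq_zero {a c x y : Fin N} (z : ℂ) (h1 : ¬ (a = x ∧ c = y)) (h2 : ¬ (c = x ∧ a = y)) :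
    eM a c z x y = 0 := by
  unfold eM
  rw [Matrix.add_apply, Matrix.single_apply_of_ne _ _ _ _ _ h1,
    Matrix.single_apply_of_ne _ _ _ _ _ h2, add_zero]

theorem exists_cl (p : Fin P.m) : ∃ a, P.cl a = p := P.cl_surj p

/-- An off-diagonal vector between two clusters. -/
theorem exists_ev {p q : Fin P.m} (hpq : p ≠ q) : ∃ u : Colg N, u ∉ kk b P ∧
    ∀ a c, hm b u.ofLp a c ≠ 0 → (P.cl a = p ∧ P.cl c = q) ∨ (P.cl a = q ∧ P.cl c = p) := by
  obtain ⟨a, ha⟩ := P.cl_surj p
  obtain ⟨c, hc⟩ := P.cl_surj q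
  have hac : a ≠ c := fun h => hpq (by rw [← ha, ← hc, h])
  refine ⟨ev b a c 1, fun h => ?_, fun x y hxy => ?_⟩
  · have h1 := h a c (by rw [ha, hc]; exact hpq)
    rw [hm_ev b hac, eM_ac hac] at h1
    exact one_ne_zero h1
  · rw [hm_ev b hac] at hxy
    by_cases h1 : a = x ∧ c = y
    · exact Or.inl ⟨by rw [← h1.1, ha], by rw [← h1.2, hc]⟩
    · by_cases h2 : c = x ∧ a = y
      · exact Or.inr ⟨by rw [← h2.1, hc], by rw [← h2.2, ha]⟩
      · exact absurd (eM_eq_zero 1 h1 h2) hxy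

theorem Reg_iff (X : XS P) : kc (actB b) (cfX b P X) = kk b P ↔ X ∈ Reg b P := by
  refine ⟨fun h p q hpq => ?_, kc_cfX b P⟩
  by_contra hne
  obtain ⟨u, hu, hu2⟩ := exists_ev b P hne
  apply hu
  rw [← h, mem_kc_cfX]
  intro a c hac
  by_contra h3
  rcases hu2 a c h3 with ⟨h4, h5⟩ | ⟨h4, h5⟩
  · exact hac (by rw [h4, h5, hpq])
  · exact hac (by rw [h4, h5, hpq])

/-! ## The centre of the block algebra -/

theorem cen_comm (t : EuclideanSpace ℝ (Fin (P.m - 1))) (u : Colg N) (hu : u ∈ kk b P) :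
    (colAlg b).br (cen b P t) u = 0 := by
  rw [(colAlg b).anti, (colbr_cen b P u t).2, neg_zero]
  intro a c hac
  exact hu a c fun h => hac (by rw [h])

theorem ev_mem_kk {a c : Fin N} (hac : a ≠ c) (h : P.cl a = P.cl c) (z : ℂ) :
    ev b a c z ∈ kk b P := by
  intro x y hxy
  rw [hm_ev b hac]
  refine eM_eq_zero z (fun h1 => hxy ?_) fun h1 => hxy ?_
  · rw [← h1.1, ← h1.2, h]
  · rw [← h1.1, ← h1.2, h]

/-- commuting with `E_ac`, entrywise -/
theorem comm_entries {U : Matrix (Fin N) (Fin N) ℂ} {a c : Fin N} (hac : a ≠ c)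
    (h1 : U * eM a c 1 = eM a c 1 * U) (hI : U * eM a c Complex.I = eM a c Complex.I * U) :
    U a a = U c c ∧ U a c = 0 := by
  have e1 := congrFun (congrFun h1 a) c
  have e2 := congrFun (congrFun h1 a) a
  have e3 := congrFun (congrFun hI a) a
  unfold eM at e1 e2 e3
  rw [Matrix.mul_add, Matrix.add_mul, Matrix.add_apply, Matrix.add_apply,
    Matrix.mul_single_apply_same, Matrix.single_mul_apply_same,
    Matrix.mul_single_apply_of_ne _ _ _ _ _ hac.symm,
    Matrix.single_mul_apply_of_ne _ _ _ _ _ hac] at e1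
  rw [Matrix.mul_add, Matrix.add_mul, Matrix.add_apply, Matrix.add_apply,
    Matrix.mul_single_apply_same, Matrix.single_mul_apply_same,
    Matrix.mul_single_apply_of_ne _ _ _ _ _ hac,
    Matrix.single_mul_apply_of_ne _ _ _ _ _ hac] at e2 e3
  simp only [star_one, mul_one, one_mul, add_zero, zero_add] at e1 e2
  refine ⟨e1, ?_⟩
  rw [zero_add, add_zero] at e3
  have h5 : star Complex.I = -Complex.I := Complex.conj_I
  rw [h5, e2] at e3
  have h6 : Complex.I * U c a = 0 := by
    have : (2 : ℂ) * (Complex.I * U c a) = 0 := by linear_combination -e3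
    simpa using this
  rw [e2]
  simpa using h6

theorem cen_all (u : Colg N) (hu : u ∈ kk b P) (h : ∀ v ∈ kk b P, (colAlg b).br u v = 0) :
    ∃ t, cen b P t = u := by
  set U := hm b u.ofLp with hU
  have key : ∀ a c : Fin N, a ≠ c → P.cl a = P.cl c → U a a = U c c ∧ U a c = 0 := by
    intro a c hac hcl
    have h1 := (colbr_eq_zero_iff b _ _).1 (h _ (ev_mem_kk b P hac hcl 1))
    have h2 := (colbr_eq_zero_iff b _ _).1 (h _ (ev_mem_kk b P hac hcl Complex.I))
    rw [hm_ev b hac] at h1 h2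
    exact comm_entries hac h1 h2
  have hreal : ∀ a, (((U a a).re : ℝ) : ℂ) = U a a := by
    intro a
    have h1 : star (U a a) = U a a := (Blk304.hm_herm b u.ofLp).apply a a
    exact Complex.conj_eq_iff_re.1 h1
  have hdiag : U = bsc P fun p => (U (P.eqv ⟨p, ⟨0, P.k_pos p⟩⟩) (P.eqv ⟨p, ⟨0, P.k_pos p⟩⟩)).re := by
    ext a c
    unfold bsc
    by_cases hac : a = c
    · subst hac
      rw [Matrix.diagonal_apply_eq]
      set a0 := P.eqv ⟨P.cl a, ⟨0, P.k_pos (P.cl a)⟩⟩ with ha0
      have hcl : P.cl a0 = P.cl a := by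
        have h1 := congrArg Sigma.fst
          (P.eqv.symm_apply_apply ⟨P.cl a, ⟨0, P.k_pos (P.cl a)⟩⟩)
        exact h1
      rw [hreal a0]
      by_cases h0 : a = a0
      · rw [← h0]
      · exact (key a a0 h0 hcl.symm).1
    · rw [Matrix.diagonal_apply_ne _ hac]
      by_cases hcl : P.cl a = P.cl c
      · exact (key a c hac hcl).2
      · exact hu a c hcl
  have hmem : u ∈ Cen b P := by
    refine (mem_Cen b P).2 ⟨_, ?_, hdiag⟩
    rw [mem_Val]
    have h1 := Blk304.hm_trace b u.ofLp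
    rw [← hU, hdiag, trace_bsc] at h1
    exact_mod_cast h1
  rw [← range_cen] at hmem
  exact hmem

/-! ## The permutations on the centre -/

theorem exists_osw {σ : Equiv.Perm (Fin P.m)} (hσ : σ ∈ Sw P)
    (s : EuclideanSpace ℝ (Fin (P.m - 1))) : ∃ t, lab b P t = fun p => lab b P s (σ⁻¹ p) := by
  refine exists_lab b P ((mem_Val P).2 ?_)
  have h1 := sum_k_perm P hσ (V := ℝ) fun p => lab b P s p
  simp only [smul_eq_mul] at h1
  rw [h1]
  exact (mem_Val P).1 (lab_mem b P s)

/-- The permutation on the centre, as a map. -/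
def oswc {σ : Equiv.Perm (Fin P.m)} (hσ : σ ∈ Sw P) (s : EuclideanSpace ℝ (Fin (P.m - 1))) :
    EuclideanSpace ℝ (Fin (P.m - 1)) := Classical.choose (exists_osw b P hσ s)

theorem lab_oswc {σ : Equiv.Perm (Fin P.m)} (hσ : σ ∈ Sw P) (s : EuclideanSpace ℝ (Fin (P.m - 1)))
    (p : Fin P.m) : lab b P (oswc b P hσ s) p = lab b P s (σ⁻¹ p) :=
  congrFun (Classical.choose_spec (exists_osw b P hσ s)) p

/-- The permutation on the centre, as a linear isometry. -/
def oswi {σ : Equiv.Perm (Fin P.m)} (hσ : σ ∈ Sw P) :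
    EuclideanSpace ℝ (Fin (P.m - 1)) →ₗᵢ[ℝ] EuclideanSpace ℝ (Fin (P.m - 1)) where
  toFun := oswc b P hσ
  map_add' s t := by
    apply lab_inj b P
    funext p
    rw [lab_oswc, map_add, map_add, Pi.add_apply, Pi.add_apply, lab_oswc, lab_oswc]
  map_smul' r s := by
    apply lab_inj b P
    funext p
    rw [lab_oswc, map_smul, RingHom.id_apply, map_smul, Pi.smul_apply, Pi.smul_apply, lab_oswc]
  norm_map' s := by
    have h : ‖oswc b P hσ s‖ ^ 2 = ‖s‖ ^ 2 := by
      rw [← norm_sq_lab b P, ← norm_sq_lab b P]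
      simp only [lab_oswc]
      have h1 := sum_k_perm P hσ (V := ℝ) fun p => lab b P s p ^ 2
      simp only [smul_eq_mul] at h1
      exact h1
    exact (pow_left_inj₀ (norm_nonneg _) (norm_nonneg _) two_ne_zero).1 h

/-- The permutation on the centre. -/
def osw {σ : Equiv.Perm (Fin P.m)} (hσ : σ ∈ Sw P) :
    EuclideanSpace ℝ (Fin (P.m - 1)) ≃ₗᵢ[ℝ] EuclideanSpace ℝ (Fin (P.m - 1)) where
  toFun := oswc b P hσ
  map_add' := (oswi b P hσ).map_add
  map_smul' := (oswi b P hσ).map_smul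
  invFun := oswc b P (inv_mem_Sw P hσ)
  left_inv s := by
    apply lab_inj b P
    funext p
    rw [lab_oswc, lab_oswc]
    exact congrArg _ (ias σ p)
  right_inv s := by
    apply lab_inj b P
    funext p
    rw [lab_oswc, lab_oswc, inv_inv, sia]
  norm_map' s := (oswi b P hσ).norm_map s

@[simp] theorem lab_osw {σ : Equiv.Perm (Fin P.m)} (hσ : σ ∈ Sw P)
    (s : EuclideanSpace ℝ (Fin (P.m - 1))) (p : Fin P.m) :
    lab b P (osw b P hσ s) p = lab b P s (σ⁻¹ p) := lab_oswc b P hσ s p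

/-- The representation of the permutations of equal clusters on the centre. -/
def oS : Sw P →* (EuclideanSpace ℝ (Fin (P.m - 1)) ≃ₗᵢ[ℝ] EuclideanSpace ℝ (Fin (P.m - 1))) where
  toFun σ := osw b P σ.2
  map_one' := by
    refine LinearIsometryEquiv.ext fun s => ?_
    apply lab_inj b P
    funext p
    rw [lab_osw]
    rfl
  map_mul' σ τ := by
    refine LinearIsometryEquiv.ext fun s => ?_
    apply lab_inj b P
    funext p
    rw [lab_osw, LinearIsometryEquiv.coe_mul, Function.comp_apply, lab_osw, lab_osw]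
    congr 1

theorem lab_oS (σ : Sw P) (s : EuclideanSpace ℝ (Fin (P.m - 1))) (p : Fin P.m) :
    lab b P (oS b P σ s) p = lab b P s ((σ : Equiv.Perm (Fin P.m))⁻¹ p) := lab_osw b P σ.2 s p

theorem cfOf_cen (X : XS P) : cfOf (cen b P) X = cfX b P X := rfl

theorem lift9_oS (σ : Sw P) (X : XS P) : lift9 (oS b P σ) X = Osw b P σ.2 X := by
  apply pos_inj b P
  intro p
  rw [pos_Osw]
  ext i
  rw [pos_apply, pos_apply]
  exact lab_oS b P σ (xrow P X i) p

/-! ## The flats -/

/-- The last six components of the difference of two positions. -/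
def Lf (q : {q : Fin P.m × Fin P.m // q.1 ≠ q.2}) : XS P →L[ℝ] EuclideanSpace ℝ (Fin 6) :=
  LinearMap.toContinuousLinearMap
    { toFun := fun X => WithLp.toLp 2 fun j : Fin 6 =>
        pos b P X q.1.1 ⟨(j : ℕ) + 3, by omega⟩ - pos b P X q.1.2 ⟨(j : ℕ) + 3, by omega⟩
      map_add' := fun X Y => by
        ext j
        simp only [pos_add, PiLp.add_apply]
        ring
      map_smul' := fun r X => by
        ext j
        simp only [pos_smul, PiLp.smul_apply, smul_eq_mul, RingHom.id_apply]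
        ring }

theorem Lf_apply (q : {q : Fin P.m × Fin P.m // q.1 ≠ q.2}) (X : XS P) (j : Fin 6) :
    Lf b P q X j = pos b P X q.1.1 ⟨(j : ℕ) + 3, by omega⟩ - pos b P X q.1.2 ⟨(j : ℕ) + 3, by omega⟩ :=
  rfl

theorem Lf_eq_zero (q : {q : Fin P.m × Fin P.m // q.1 ≠ q.2}) (X : XS P) :
    Lf b P q X = 0 ↔ ∀ i : Fin 9, 3 ≤ (i : ℕ) → pos b P X q.1.1 i = pos b P X q.1.2 i := by
  constructor
  · intro h i hi
    have h1 := congrArg (fun v : EuclideanSpace ℝ (Fin 6) => v ⟨(i : ℕ) - 3, by omega⟩) h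
    simp only [Lf_apply, PiLp.zero_apply] at h1
    have h2 : (⟨(i : ℕ) - 3 + 3, by omega⟩ : Fin 9) = i := Fin.ext (by simp; omega)
    rw [h2] at h1
    exact sub_eq_zero.1 h1
  · intro h
    ext j
    rw [Lf_apply, h _ (by simp), sub_self]
    rfl

theorem UU_iff (X : XS P) : (∀ q, Lf b P q X ≠ 0) ↔ X ∈ UU b P := by
  constructor
  · intro h p q hpq
    have h1 := h ⟨(p, q), hpq⟩
    rw [Ne, Lf_eq_zero] at h1
    push Not at h1
    exact h1
  · intro h q h0
    rw [Lf_eq_zero] at h0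
    obtain ⟨j, hj, hne⟩ := h _ _ q.2
    exact hne (h0 j hj)

theorem Lf_surj (q : {q : Fin P.m × Fin P.m // q.1 ≠ q.2}) :
    Function.Surjective (Lf b P q) := by
  intro v
  obtain ⟨⟨p, q⟩, hpq⟩ := q
  change p ≠ q at hpq
  set n : ℝ := (P.k p : ℝ) + (P.k q : ℝ) with hn
  have hn0 : n ≠ 0 := by
    have h1 : (0 : ℝ) < P.k p := by exact_mod_cast P.k_pos p
    have h2 : (0 : ℝ) ≤ P.k q := Nat.cast_nonneg _
    positivity
  set v' : EuclideanSpace ℝ (Fin 9) := WithLp.toLp 2 fun i =>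
    if h : 3 ≤ (i : ℕ) then n⁻¹ * v ⟨(i : ℕ) - 3, by omega⟩ else 0 with hv'
  set cfn : Fin P.m → ℝ := fun r => (if r = p then (P.k q : ℝ) else 0) -
    (if r = q then (P.k p : ℝ) else 0) with hcfn
  obtain ⟨X, hX⟩ := exists_pos b P (r := fun r => cfn r • v') (by
    simp only [smul_smul, ← Finset.sum_smul]
    have h1 : ∑ r, (P.k r : ℝ) * cfn r = 0 := by
      simp only [hcfn, mul_sub, Finset.sum_sub_distrib, mul_ite, mul_zero, Finset.sum_ite_eq',
        Finset.mem_univ, if_true]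
      ring
    rw [h1, zero_smul])
  refine ⟨X, ?_⟩
  ext j
  rw [Lf_apply]
  simp only [hX]
  have e1 : cfn p = (P.k q : ℝ) := by simp [hcfn, hpq]
  have e2 : cfn q = -(P.k p : ℝ) := by simp [hcfn, hpq.symm]
  have e3 : v' ⟨(j : ℕ) + 3, by omega⟩ = n⁻¹ * v j := by
    simp [hv']
  simp only [PiLp.smul_apply, smul_eq_mul, e1, e2, e3]
  have h4 : (P.k q : ℝ) * (n⁻¹ * v j) - -(P.k p : ℝ) * (n⁻¹ * v j) = n * n⁻¹ * v j := by
    rw [hn]
    ring
  rw [h4, mul_inv_cancel₀ hn0, one_mul]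

theorem breg (X : XS P) : (∀ q, Lf b P q X ≠ 0) ↔
    ∀ u : Colg N, (∀ i : Fin 9, 3 ≤ (i : ℕ) → (colAlg b).br u (cen b P (xrow P X i)) = 0) →
      u ∈ kk b P := by
  rw [UU_iff]
  constructor
  · intro h u hu a c hac
    obtain ⟨j, hj, hne⟩ := h _ _ hac
    exact (colbr_cen b P u _).1 (hu j hj) a c hne
  · intro h p q hpq
    by_contra hcon
    push Not at hcon
    obtain ⟨u, hu, hu2⟩ := exists_ev b P hpq
    apply hu
    apply h
    intro i hi
    rw [colbr_cen]
    intro a c hac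
    by_contra h3
    have h4 := hcon i hi
    rw [pos_apply, pos_apply] at h4
    rcases hu2 a c h3 with ⟨h5, h6⟩ | ⟨h5, h6⟩
    · exact hac (by rw [h5, h6, h4])
    · exact hac (by rw [h5, h6, h4])

/-! ## The channel -/

theorem exists_w (σ : Sw P) : ∃ w : Matrix.specialUnitaryGroup (Fin N) ℂ,
    w ∈ KS P (σ : Equiv.Perm (Fin P.m)) := exists_mem_KS P σ.2

/-- Representatives in `SU(N)` of the permutations. -/
def wS (σ : Sw P) : Matrix.specialUnitaryGroup (Fin N) ℂ := Classical.choose (exists_w P σ)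

theorem wS_mem (σ : Sw P) : wS P σ ∈ KS P (σ : Equiv.Perm (Fin P.m)) :=
  Classical.choose_spec (exists_w P σ)

instance : Fintype (Sw P) := Fintype.ofFinite _

/-- **The geometry of the channel of the partition `P`.** -/
def chn : Chn b (P.m - 1) (Sw P) where
  kk := kk b P
  cen := cen b P
  o := oS b P
  w := wS P
  J := {q : Fin P.m × Fin P.m // q.1 ≠ q.2}
  hJ := inferInstance
  Lf := Lf b P
  cen_mem t := Cen_le_kk b P (cen_mem b P t)
  cen_comm t u hu := cen_comm b P t u hu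
  cen_all u hu h := cen_all b P u hu h
  act_w σ X := by
    rw [lift9_oS]
    exact act_KS b P σ.2 (wS_mem P σ) X
  orbit X X' h hX hX' hh := by
    have h1 : X' ∈ Reg b P := (Reg_iff b P X').1 hX'
    obtain ⟨σ, hσ, -, h2⟩ := exists_sw b P h1 hh
    exact ⟨⟨σ, hσ⟩, by rw [lift9_oS]; exact h2⟩
  free σ X hX h := by
    have h1 : X ∈ Reg b P := (Reg_iff b P X).1 hX
    rw [lift9_oS] at h
    have h2 : (σ : Equiv.Perm (Fin P.m))⁻¹ = 1 := by
      refine Equiv.ext fun p => ?_
      apply h1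
      rw [← pos_Osw b σ.2, h]
      rfl
    exact Subtype.ext (inv_eq_one.1 h2)
  Lf_surj := Lf_surj b P
  breg X := breg b P X

@[simp] theorem chn_kk : (chn b P).kk = kk b P := rfl

@[simp] theorem chn_cen : (chn b P).cen = cen b P := rfl

theorem chn_cf (X : XS P) : (chn b P).cf X = cfX b P X := rfl

theorem chn_O (σ : Sw P) (X : XS P) : (chn b P).O σ X = Osw b P σ.2 X := lift9_oS b P σ X

theorem chn_w_mem (σ : Sw P) : (chn b P).w σ ∈ KS P (σ : Equiv.Perm (Fin P.m)) := wS_mem P σ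

theorem chn_Reg (X : XS P) : (chn b P).Reg X ↔ X ∈ Reg b P := Reg_iff b P X

theorem chn_BReg (X : XS P) : (chn b P).BReg X ↔ X ∈ UU b P := UU_iff b P X

theorem chn_stab {X : XS P} (hX : (chn b P).Reg X) {g : Matrix.specialUnitaryGroup (Fin N) ℂ} :
    b.act g ((chn b P).cf X) = (chn b P).cf X ↔ g ∈ Kst P :=
  act_cfX_iff b P ((chn_Reg b P X).1 hX)

end Crest.Agent.R330.Geo692

end
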