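import Crest.Agent.R330.CapIntC_737
import Crest.Agent.R330.ChSys_399
import Crest.Agent.R330.Chn_692

/-!
# Row 330, S9: the capture slot of `ChanAll` (helper737)

* `Null.of_sub`, `SliceEstC.of_sub` : fewer tests.
* `CapT P m` : the slice estimate of one channel, tested with its own generators
  (`P : TPack C M R G`), at every regular position.
* `OrbitT b` : every diagonal configuration with at least two clusters is conjugate to a regular
  position of one of the channels.
* `capFam_of_capT` : `CapFam` of the family `TT (P L)` from these.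
-/

set_option autoImplicit false
set_option linter.unusedSectionVars false

open MeasureTheory Filter Topology Set Crest.MathPhysics.MatrixQM
open scoped ContDiff InnerProductSpace ENNReal

noncomputable section

namespace Crest.Agent.R330.CapGlue737

open Crest.Agent.R330.Defs478 Crest.Agent.R330.TrialSys796 Crest.Agent.R330.Strata737
  Crest.Agent.R330.CapBind737 Crest.Agent.R330.CapIntC737 Crest.Agent.R330.TDef414
  Crest.Agent.R330.Parts879 Crest.Agent.R330.Geo692

variable {N : ℕ} {b : ColorBasis N} {F : Type*} [NormedAddCommGroup F] [InnerProductSpace ℂ F]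
  [FiniteDimensional ℂ F] {M : FermionRep N F} {R : GaugeAction b M} {G : GammaNine} {m : ℝ}

/-- fewer tests -/
theorem Null.of_sub {X X' : Type*} {T : ℝ → X → Cfg N → F} {T' : ℝ → X' → Cfg N → F}
    {g : ℕ → ℝ} {φ : ℕ → Cfg N → F} (h : Null b M R G m T g φ) (f : X' → X)
    (hf : ∀ g χ, T' g χ = T g (f χ)) : Null b M R G m T' g φ where
  g_top := h.g_top
  core := h.core
  en := h.en
  pair χ := by
    simp only [hf]
    exact h.pair (f χ)

/-- more tests -/
theorem SliceEstC.of_sub {X X' : Type*} {T : ℝ → X → Cfg N → F} {T' : ℝ → X' → Cfg N → F}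
    {c : Cfg N} (h : SliceEstC b M R G m T' c) (f : X' → X)
    (hf : ∀ g χ, T' g χ = T g (f χ)) : SliceEstC b M R G m T c := by
  obtain ⟨η, hη, h1⟩ := h
  exact ⟨η, hη, fun g φ hn => h1 g φ (Null.of_sub hn f hf)⟩

section one

variable {p : ℕ} {S : Type} [Group S] [Fintype S] {C : Chn b p S}

/-- **Capture for one channel**: the slice estimate at every regular position, tested with the
generators of the channel. -/
def CapT (P : TPack C M R G) (m : ℝ) : Prop :=
  ∀ X0 : Pos p, C.Reg X0 → SliceEstC b M R G m (X := Gen C M G)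
    (fun g q => Tgen P q.1 g q.2.fn) (C.cf X0)

end one

variable (b) in
/-- every diagonal configuration with at least two clusters is conjugate to a regular position -/
def OrbitT : Prop :=
  ∀ q : Fin 9 → Fin N → ℝ, (∀ i, ∑ a, q i a = 0) → 2 ≤ nv q →
    ∃ (L : Lam N) (X : Pos (L.m - 1)) (h : Matrix.specialUnitaryGroup (Fin N) ℂ),
      (chn b L).Reg X ∧ b.act h (AcomV302.diagCfg b q) = (chn b L).cf X

/-- **The capture slot of `ChanAll`.** -/
theorem capFam_of_capT (hN : 0 < N) (hm : 0 ≤ m) (hm1 : m ≤ 1) (hO : OrbitT b)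
    (P : ∀ L : Lam N, TPack (chn b L) M R G) (hP : ∀ L, CapT (P L) m) :
    Chan441.CapFam b M R G m (X := fun L => XX (chn b L) M G)
      (fun L g χ => TT (P L) g χ) := by
  refine capFam_of_rep hN hm hm1 fun q hq hn => ?_
  obtain ⟨L, X, h, hX, he⟩ := hO q hq hn
  refine ⟨h, ?_⟩
  rw [he]
  exact SliceEstC.of_sub (hP L X hX) (fun γ => ⟨L, gen γ.1 γ.2⟩) fun g γ =>
    (TT_gen (P L) g γ.1 γ.2).symm

end Crest.Agent.R330.CapGlue737

end
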