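import Crest.Agent.R330.CapInt_737

/-!
# Row 330, S9-CAPBIND (helper737): tube and slice at an arbitrary commuting configuration

`c` any commuting configuration (839's `Comc b c`), e.g. `C.cf X0` of `TDef_414`.

* `ctrS_le_Uk`, `PF_Zs` : the centre directions lie in `Uk`.
* `slE`, `slι`, `range_slι` : `Uk b c ⊕ Zs b c = Nor b c` (every `c`).
* `lintegral_tubeS_le`, `sliceEstC_of` : from the slice coordinates to the tube.
* `SliceEstC b M R G m T c`, `sliceEstAt_of_rep`, `capAnn_of_rep`, `capFam_of_rep` : it is enough to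
  have the slice estimate at one representative of each orbit.
-/

set_option autoImplicit false
set_option linter.unusedSectionVars false

open MeasureTheory Filter Topology Set Crest.MathPhysics.MatrixQM
open scoped ContDiff InnerProductSpace ENNReal

noncomputable section

namespace Crest.Agent.R330.CapIntC737

open Crest.Agent.R330.Defs478 Crest.Agent.R330.TrialSys796 Crest.Agent.R330.Strata737
  Crest.Agent.R330.SlP314 Crest.Agent.R330.CapBind737 Crest.Agent.R330.SlM712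
  Crest.Agent.R330.SlN712 Crest.Agent.R330.Bind6839 Crest.Agent.R330.Frame839
  Crest.Agent.R330.LS839 Crest.Agent.R330.Clus839
open Crest.Agent.R330.SlB314 (Nor Tan brx)

variable {N : ℕ} {b : ColorBasis N} {c : Cfg N}

/-! ### the slice coordinates -/

theorem ctrS_le_Uk (hc : Comc b c) : ctrS b c ≤ Uk b c := by
  intro r hr i
  rw [kc_eq, ColAlg.mem_kk]
  intro j
  have h1 : actB b (Bind6839.comp c j) c = 0 := by
    refine ext_comp fun i => ?_
    rw [comp_act, Bind6839.comp_zero]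
    exact hc j i
  have h2 : actB b (Bind6839.comp c j) r = 0 := by
    have h3 := hr (Bind6839.comp c j).ofLp (by rw [← LS839.actB_apply]; exact h1)
    rw [LS839.actB_apply]
    exact h3
  have h3 := congrArg (fun x => Bind6839.comp x i) h2
  simp only [comp_act, Bind6839.comp_zero] at h3
  exact h3

theorem PF_mem_Uk (hc : Comc b c) (y : Cfg N) : PF b c y ∈ Uk b c :=
  ctrS_le_Uk hc (PF_mem b c y)

theorem PF_Zs (hc : Comc b c) {z : Cfg N} (hz : z ∈ Zs b c) : PF b c z = 0 := by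
  unfold PF
  rw [Submodule.starProjection_apply_eq_zero_iff, Submodule.mem_orthogonal]
  intro u hu
  exact Zs_perp_Uk (ctrS_le_Uk hc hu) hz

variable (b c) in
/-- `Uk ⊕ Zs = Nor` -/
def slE : WithLp 2 (Uk b c × Zs b c) ≃ₗᵢ[ℝ] Nor b c :=
  SlIso741.supE (fun x hx y hy => Zs_perp_Uk hx hy)
    (by rw [← LS839.Nor_eq]; exact Uk_le_Nor)
    (by rw [← LS839.Nor_eq]; exact fun z hz => hz.2)
    (fun z hz => by
      rw [← LS839.Nor_eq] at hz
      obtain ⟨x, hx, y, hy, h⟩ := nor_decomp hz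
      exact ⟨x, hx, y, hy, h.symm⟩)

theorem coe_slE (x : WithLp 2 (Uk b c × Zs b c)) : (slE b c x : Cfg N) = x.fst + x.snd := rfl

variable (b c) in
/-- the parametrisation of the normal space -/
def slι : WithLp 2 (Uk b c × Zs b c) →ₗᵢ[ℝ] Cfg N :=
  (Nor b c).subtypeₗᵢ.comp (slE b c).toLinearIsometry

theorem slι_apply (x : WithLp 2 (Uk b c × Zs b c)) : slι b c x = (x.fst : Cfg N) + x.snd := rfl

theorem range_slι : LinearMap.range (slι b c).toLinearMap = Nor b c := by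
  ext y
  constructor
  · rintro ⟨x, rfl⟩
    exact (slE b c x).2
  · intro hy
    refine ⟨(slE b c).symm ⟨y, hy⟩, ?_⟩
    show ((slE b c ((slE b c).symm ⟨y, hy⟩) : Nor b c) : Cfg N) = y
    rw [LinearIsometryEquiv.apply_symm_apply]

/-- `‖(u + z) - P_F (u + z)‖² = ‖u - P_F u‖² + ‖z‖²` -/
theorem norm_sub_PF_sq (hc : Comc b c) (u : Uk b c) (z : Zs b c) :
    ‖((u : Cfg N) + z) - PF b c ((u : Cfg N) + z)‖ ^ 2 =
      ‖(u : Cfg N) - PF b c u‖ ^ 2 + ‖(z : Cfg N)‖ ^ 2 := by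
  rw [map_add, PF_Zs hc z.2, add_zero]
  have h1 : ⟪(u : Cfg N) - PF b c u, (z : Cfg N)⟫_ℝ = 0 :=
    Zs_perp_Uk (Submodule.sub_mem _ u.2 (PF_mem_Uk hc _)) z.2
  have h2 : ((u : Cfg N) + z) - PF b c u = ((u : Cfg N) - PF b c u) + z := by abel
  rw [h2, norm_add_sq_real, h1]
  ring

theorem norm_sq (u : Uk b c) (z : Zs b c) :
    ‖(u : Cfg N) + z‖ ^ 2 = ‖(u : Cfg N)‖ ^ 2 + ‖(z : Cfg N)‖ ^ 2 := by
  rw [norm_add_sq_real, Zs_perp_Uk u.2 z.2]
  ring

theorem sub_PF_le (hc : Comc b c) (u : Uk b c) (z : Zs b c) :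
    ‖(u : Cfg N) - PF b c u‖ ≤ ‖((u : Cfg N) + z) - PF b c ((u : Cfg N) + z)‖ := by
  refine (pow_le_pow_iff_left₀ (norm_nonneg _) (norm_nonneg _) two_ne_zero).1 ?_
  rw [norm_sub_PF_sq hc]
  nlinarith [sq_nonneg ‖(z : Cfg N)‖]

theorem norm_u_le (u : Uk b c) (z : Zs b c) : ‖(u : Cfg N)‖ ≤ ‖(u : Cfg N) + z‖ := by
  refine (pow_le_pow_iff_left₀ (norm_nonneg _) (norm_nonneg _) two_ne_zero).1 ?_
  rw [norm_sq]
  nlinarith [sq_nonneg ‖(z : Cfg N)‖]

variable (b c) in
/-- block displacements with small internal part -/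
def Su (η δ : ℝ) : Set (Uk b c) :=
  {u | ‖(u : Cfg N)‖ < η ∧ ‖(u : Cfg N) - PF b c u‖ < δ}

theorem isOpen_Su (η δ : ℝ) : IsOpen (Su b c η δ) := by
  refine IsOpen.inter ?_ ?_
  · exact isOpen_lt (continuous_subtype_val.norm) continuous_const
  · refine isOpen_lt (Continuous.norm ?_) continuous_const
    exact continuous_subtype_val.sub ((PF b c).continuous.comp continuous_subtype_val)

variable {F : Type*} [NormedAddCommGroup F] [InnerProductSpace ℂ F] [FiniteDimensional ℂ F]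
  {M : FermionRep N F} {R : GaugeAction b M}

/-- **From the tube to the slice.** -/
theorem lintegral_tubeS_le (hc : Comc b c) {r0 C η δ K : ℝ} (hK : 0 ≤ K)
    (H : SRad b c r0 C) (hη0 : 0 < η) (hη : η ≤ r0) {φ : Cfg N → F}
    (hφ : IsCoreVec b R φ) {Φ : Uk b c × Zs b c → F} (hΦ : Continuous Φ)
    (hle : ∀ (u : Uk b c) (z : Zs b c), ‖(u : Cfg N) + z‖ < η →
      jd b c C ((u : Cfg N) + z) * ‖φ (c + ((u : Cfg N) + z))‖ ^ 2 ≤
        K * ‖Φ (u, z)‖ ^ 2) :
    ∫⁻ x in tubeS b c η δ, ‖φ x‖ₑ ^ 2 ≤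
      ENNReal.ofReal K * ∫⁻ u in Su b c η δ, ∫⁻ z, ‖Φ (u, z)‖ₑ ^ 2 := by
  classical
  have hgood : GoodRad b c η := H.good.mono hη0 hη
  have hopen : IsOpen (tubeS b c η δ) := isOpen_tubeS b hgood δ
  have hinter : tubeS b c η δ = SlD314.tube b c η ∩ tubeS b c η δ :=
    (Set.inter_eq_right.2 (tubeS_subset_tube b c η δ)).symm
  have hm : Measurable fun x => ‖φ x‖ₑ := hφ.1.continuous.enorm.measurable
  have h1 := H.lintegral_norm_sq (ι := slι b c) range_slι hη hm hφ.2.2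
    hopen.measurableSet (fun g x => mem_tubeS_act b g)
  rw [← hinter] at h1
  rw [h1]
  set W : Set (WithLp 2 (Uk b c × Zs b c)) :=
    Metric.ball 0 η ∩ (fun v => c + slι b c v) ⁻¹' tubeS b c η δ with hW
  have hWm : MeasurableSet W := by
    refine Metric.isOpen_ball.measurableSet.inter ?_
    refine (hopen.preimage ?_).measurableSet
    exact continuous_const.add (slι b c).continuous
  -- pointwise bound by a product indicator
  set f : Uk b c × Zs b c → ℝ≥0∞ := fun q =>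
    (Su b c η δ).indicator (fun _ => ENNReal.ofReal K * ‖Φ q‖ₑ ^ 2) q.1 with hf
  have hfm : Measurable f := by
    have h2 : Measurable fun q : Uk b c × Zs b c => ENNReal.ofReal K * ‖Φ q‖ₑ ^ 2 :=
      (hΦ.enorm.measurable.pow_const 2).const_mul _
    have h3 : f = ((Prod.fst : Uk b c × Zs b c → Uk b c) ⁻¹' Su b c η δ).indicator
        (fun q => ENNReal.ofReal K * ‖Φ q‖ₑ ^ 2) := by
      funext q
      simp only [hf]
      by_cases hq : q.1 ∈ Su b c η δ
      · rw [indicator_of_mem hq, indicator_of_mem (by exact hq)]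
      · rw [indicator_of_notMem hq, indicator_of_notMem (by exact hq)]
    rw [h3]
    exact h2.indicator (measurable_fst (isOpen_Su η δ).measurableSet)
  have h2 : ∫⁻ v in W, ENNReal.ofReal (jd b c C (slι b c v)) * ‖φ (c + slι b c v)‖ₑ ^ 2 ≤
      ∫⁻ v : WithLp 2 (Uk b c × Zs b c), f (WithLp.ofLp v) := by
    rw [← lintegral_indicator hWm]
    refine lintegral_mono fun v => ?_
    by_cases hv : v ∈ W
    · rw [indicator_of_mem hv]
      have hv1 : ‖(v.fst : Cfg N) + v.snd‖ < η := by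
        have h3 := hv.1
        rw [mem_ball_zero_iff] at h3
        have h4 := (slι b c).norm_map v
        rw [slι_apply] at h4
        rw [h4]
        exact h3
      have hyN : ((v.fst : Cfg N) + v.snd) ∈ Nor b c := (slE b c v).2
      have hv2 := CapInt737.mem_tubeS_slice hgood hyN hv1 (by exact hv.2)
      have hS : v.fst ∈ Su b c η δ := by
        refine ⟨(norm_u_le _ _).trans_lt hv1, (sub_PF_le hc v.fst v.snd).trans_lt hv2⟩
      have h5 : f (WithLp.ofLp v) = ENNReal.ofReal K * ‖Φ (v.fst, v.snd)‖ₑ ^ 2 := by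
        simp only [hf]
        exact indicator_of_mem (by exact hS) _
      rw [h5, slι_apply]
      have h6 := hle v.fst v.snd hv1
      have h7 : ∀ w : F, ‖w‖ₑ ^ 2 = ENNReal.ofReal (‖w‖ ^ 2) := fun w => by
        rw [ENNReal.ofReal_pow (norm_nonneg _), ofReal_norm]
      rw [h7, h7, ← ENNReal.ofReal_mul hK, ← ENNReal.ofReal_mul (H.jd_pos (hv1.trans_le hη)).le]
      exact ENNReal.ofReal_le_ofReal h6
    · rw [indicator_of_notMem hv]
      exact bot_le
  refine h2.trans ?_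
  have h3 : ∫⁻ v : WithLp 2 (Uk b c × Zs b c), f (WithLp.ofLp v) = ∫⁻ q, f q := by
    have hmp := WithLp.volume_preserving_toLp (Uk b c) (Zs b c)
    have h4 : Measurable fun v : WithLp 2 (Uk b c × Zs b c) => f (WithLp.ofLp v) :=
      hfm.comp (WithLp.prod_continuous_ofLp _ _ _).measurable
    rw [← hmp.lintegral_comp h4]
  rw [h3, Measure.volume_eq_prod, lintegral_prod _ hfm.aemeasurable]
  have h4 : ∀ u, ∫⁻ z, f (u, z) = (Su b c η δ).indicator
      (fun u => ENNReal.ofReal K * ∫⁻ z, ‖Φ (u, z)‖ₑ ^ 2) u := by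
    intro u
    by_cases hu : u ∈ Su b c η δ
    · rw [indicator_of_mem hu, ← lintegral_const_mul' _ _ ENNReal.ofReal_ne_top]
      refine lintegral_congr fun z => ?_
      simp only [hf]
      rw [indicator_of_mem (by exact hu)]
    · rw [indicator_of_notMem hu, ← lintegral_zero]
      refine lintegral_congr fun z => ?_
      simp only [hf]
      rw [indicator_of_notMem (by exact hu)]
  simp only [h4]
  rw [lintegral_indicator (isOpen_Su η δ).measurableSet, lintegral_const_mul' _ _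
    ENNReal.ofReal_ne_top]

/-- **The slice estimate at `c`** (frequently in `j`). -/
def SliceEstC (b : ColorBasis N) (M : FermionRep N F) (R : GaugeAction b M) (G : GammaNine)
    (m : ℝ) {X : Type*} (T : ℝ → X → Cfg N → F) (c : Cfg N) : Prop :=
  ∃ η : ℝ, 0 < η ∧
    ∀ (g : ℕ → ℝ) (φ : ℕ → Cfg N → F), Null b M R G m T g φ → ∀ ε : ℝ, 0 < ε →
      ∃ δ : ℝ, 0 < δ ∧ ∃ᶠ j in atTop, ∫ x in tubeS b c η δ, ‖φ j x‖ ^ 2 ≤ ε

variable {G : GammaNine} {m : ℝ} {X : Type*} {T : ℝ → X → Cfg N → F}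

/-- the slice estimate at one point of the orbit -/
theorem sliceEstAt_of_rep {q : Fin 9 → Fin N → ℝ} {k : Matrix.specialUnitaryGroup (Fin N) ℂ}
    (h : SliceEstC b M R G m T (b.act k (AcomV302.diagCfg b q))) :
    SliceEstAt b M R G m T q := by
  obtain ⟨η, hη, h⟩ := h
  obtain ⟨η', hη'⟩ := exists_goodRad b (AcomV302.diagCfg b q)
  refine ⟨min η η', hη'.mono (lt_min hη hη'.pos) (min_le_right _ _), fun g φ hn ε hε => ?_⟩
  obtain ⟨δ, hδ, hfr⟩ := h g φ hn ε hε
  refine ⟨δ, hδ, hfr.mono fun j hj => le_trans ?_ hj⟩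
  rw [DiagRed302.tubeS_act]
  have hc := hn.core j
  refine setIntegral_mono_set (integrableOn_sq hc.1.continuous hc.2.1 _)
    (ae_of_all _ fun x => by positivity) ?_
  exact LE.le.eventuallyLE (DiagRed302.tubeS_mono b (min_le_left _ _) le_rfl)

/-- **Capture on annuli**: the slice estimate at one representative of each orbit. -/
theorem capAnn_of_rep (hN : 0 < N) (hm : 0 ≤ m) (hm1 : m ≤ 1)
    (h : ∀ q : Fin 9 → Fin N → ℝ, (∀ i, ∑ a, q i a = 0) → 2 ≤ nv q →
      ∃ k, SliceEstC b M R G m T (b.act k (AcomV302.diagCfg b q))) :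
    Chan441.CapAnn b M R G m T :=
  capAnn_of hN hm hm1 fun q hq hn => by
    obtain ⟨k, hk⟩ := h q hq hn
    exact sliceEstAt_of_rep hk

theorem capFam_of_rep (hN : 0 < N) (hm : 0 ≤ m) (hm1 : m ≤ 1) {ι : Type*} {X : ι → Type*}
    {T : ∀ i, ℝ → X i → Cfg N → F}
    (h : ∀ q : Fin 9 → Fin N → ℝ, (∀ i, ∑ a, q i a = 0) → 2 ≤ nv q →
      ∃ k, SliceEstC b M R G m (X := Σ i, X i) (fun g s => T s.1 g s.2)
        (b.act k (AcomV302.diagCfg b q))) :
    Chan441.CapFam b M R G m T :=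
  capFam_of hN hm hm1 fun q hq hn => by
    obtain ⟨k, hk⟩ := h q hq hn
    exact sliceEstAt_of_rep hk

/-- **The slice estimate from its form in slice coordinates.** -/
theorem sliceEstC_of (hc : Comc b c) {r0 C η : ℝ} (H : SRad b c r0 C) (hη0 : 0 < η)
    (hη : η ≤ r0)
    (hest : ∀ (g : ℕ → ℝ) (φ : ℕ → Cfg N → F), Null b M R G m T g φ →
      ∃ (K : ℝ) (Φ : ℕ → Uk b c × Zs b c → F), 0 ≤ K ∧ (∀ j, Continuous (Φ j)) ∧
        (∀ j (u : Uk b c) (z : Zs b c), ‖(u : Cfg N) + z‖ < η →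
          jd b c C ((u : Cfg N) + z) * ‖φ j (c + ((u : Cfg N) + z))‖ ^ 2 ≤
            K * ‖Φ j (u, z)‖ ^ 2) ∧
        ∀ ε : ℝ≥0∞, 0 < ε → ∃ δ : ℝ, 0 < δ ∧ ∃ᶠ j in atTop,
          ∫⁻ u in Su b c η δ, ∫⁻ z, ‖Φ j (u, z)‖ₑ ^ 2 ≤ ε) :
    SliceEstC b M R G m T c := by
  refine ⟨η, hη0, fun g φ hn ε hε => ?_⟩
  obtain ⟨K, Φ, hK, hΦ, hle, h⟩ := hest g φ hn
  have hε' : 0 < ENNReal.ofReal (ε / (K + 1)) := by
    rw [ENNReal.ofReal_pos]; positivity
  obtain ⟨δ, hδ, hfr⟩ := h _ hε'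
  refine ⟨δ, hδ, hfr.mono fun j hj => ?_⟩
  have h1 := lintegral_tubeS_le (δ := δ) hc hK H hη0 hη (hn.core j) (hΦ j) (hle j)
  have h2 : ∫⁻ x in tubeS b c η δ, ‖φ j x‖ₑ ^ 2 ≤ ENNReal.ofReal ε := by
    refine h1.trans ((mul_le_mul_right hj _).trans ?_)
    rw [← ENNReal.ofReal_mul hK]
    refine ENNReal.ofReal_le_ofReal ?_
    rw [mul_div_assoc', div_le_iff₀ (by positivity)]
    nlinarith
  rw [mass_eq (hn.core j).1.continuous (hn.core j).2.1] at h2
  exact (ENNReal.ofReal_le_ofReal_iff hε.le).1 h2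

end Crest.Agent.R330.CapIntC737

end
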