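import Crest.Agent.R330.SlE_944

/-!
# Row 330, S5b: local coordinates near the slice

* `brx_brx` (Jacobi), `inner_brx` (antisymmetry);
* `Good b c r` : the radius conditions; `exists_good`;
* `local_rep` : near `c + y₀` (`y₀ ∈ Nor b c`, `‖y₀‖ < r`) every point is
  `act (gexp b (om x)) (c + y x)` with smooth `om`, `y`.
-/

set_option autoImplicit false
set_option linter.unusedSectionVars false
set_option linter.style.haveILetI false

open MeasureTheory Filter Topology Crest.MathPhysics.MatrixQM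
open NormedSpace (exp)
open scoped InnerProductSpace ContDiff

noncomputable section

namespace Crest.Agent.R330.SlF944

open Crest.Agent.R330.SlA314 Crest.Agent.R330.SlB314 Crest.Agent.R330.SlC314
open Crest.Agent.R330.SlD314 Crest.Agent.R330.SlE944

variable {N : ℕ} (b : ColorBasis N)

/-! ## algebra of the bracket -/

/-- Jacobi identity -/
theorem brx_brx (k om : Fin (N ^ 2 - 1) → ℝ) (x : Cfg N) :
    brx b k (brx b om x) = brx b (br b k om) x + brx b om (brx b k x) := by
  apply mat_inj b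
  intro i
  simp only [mat_add, mat_brx, cm_br, smul_sub, Matrix.mul_sub, Matrix.sub_mul, mul_smul_comm,
    smul_mul_assoc, smul_smul, Matrix.mul_assoc]
  abel

theorem inner_brx (om : Fin (N ^ 2 - 1) → ℝ) (x y : Cfg N) :
    inner ℝ (brx b om x) y = -(inner ℝ x (brx b om y) : ℝ) := by
  have h : ((inner ℝ (brx b om x) y : ℝ) : ℂ) = ((-(inner ℝ x (brx b om y) : ℝ) : ℝ) : ℂ) := by
    rw [Complex.ofReal_neg, inner_eq b, inner_eq b, ← Finset.sum_neg_distrib]
    refine Finset.sum_congr rfl fun i _ => ?_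
    rw [mat_brx, mat_brx]
    simp only [smul_mul_assoc, mul_smul_comm, Matrix.sub_mul, Matrix.mul_sub, Matrix.trace_smul,
      Matrix.trace_sub]
    have h1 : (cm b om * mat b x i * mat b y i).trace =
        (mat b x i * (mat b y i * cm b om)).trace := by
      rw [Matrix.mul_assoc, Matrix.trace_mul_comm, Matrix.mul_assoc]
    have h2 : (mat b x i * cm b om * mat b y i).trace =
        (mat b x i * (cm b om * mat b y i)).trace := by rw [Matrix.mul_assoc]
    rw [h1, h2, ← smul_neg, neg_sub]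
  exact_mod_cast h

/-- the stabiliser algebra preserves the normal space -/
theorem brx_mem_Nor {c y : Cfg N} (hy : y ∈ Nor b c) {k : Fin (N ^ 2 - 1) → ℝ}
    (hk : brx b k c = 0) : brx b k y ∈ Nor b c := by
  rw [mem_Nor] at hy ⊢
  intro om
  have h1 := inner_brx b k (brx b om c) y
  have h2 : brx b k (brx b om c) = brx b (br b k om) c := by
    rw [brx_brx, hk]
    have : brx b om (0 : Cfg N) = 0 := by
      have := brx_smul_right b 0 om (0 : Cfg N)
      simpa using this
    rw [this, add_zero]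
  rw [h2, hy] at h1
  linarith

theorem act_mem_Nor {c y : Cfg N} (hy : y ∈ Nor b c) {g : Matrix.specialUnitaryGroup (Fin N) ℂ}
    (hg : b.act g c = c) : b.act g y ∈ Nor b c := by
  rw [mem_Nor] at hy ⊢
  intro om
  -- `act g⁻¹ [om, c] = [g⁻¹ om g, c]`
  have hder : b.act g⁻¹ (brx b om c) ∈ Tan b c := by
    obtain ⟨om', hom'⟩ : ∃ om' : Fin (N ^ 2 - 1) → ℝ,
        cm b om' = star (g : Matrix (Fin N) (Fin N) ℂ) * cm b om *
          (g : Matrix (Fin N) (Fin N) ℂ) := by
      refine ⟨_, exists_cm b _ ?_ ?_⟩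
      · unfold Matrix.IsHermitian
        rw [Matrix.conjTranspose_mul, Matrix.conjTranspose_mul, (cm_herm b om).eq,
          Matrix.star_eq_conjTranspose, Matrix.conjTranspose_conjTranspose, Matrix.mul_assoc]
      · rw [Matrix.trace_mul_comm, ← Matrix.mul_assoc, mul_star_self', Matrix.one_mul, cm_trace]
    refine ⟨om', ?_⟩
    rw [adL_apply]
    have hc' : b.act g⁻¹ c = c := by
      conv_lhs => rw [← hg]
      rw [act_inv_act]
    have hginv : ((g⁻¹ : Matrix.specialUnitaryGroup (Fin N) ℂ) : Matrix (Fin N) (Fin N) ℂ) =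
        star (g : Matrix (Fin N) (Fin N) ℂ) := rfl
    apply mat_inj b
    intro i
    rw [mat_act, mat_brx, mat_brx, hom', hginv, star_star]
    have hci : mat b c i = star (g : Matrix (Fin N) (Fin N) ℂ) * mat b c i *
        (g : Matrix (Fin N) (Fin N) ℂ) := by
      conv_lhs => rw [← hc']
      rw [mat_act, hginv, star_star]
    have h1 := mul_star_self' g
    have e1 : star (g : Matrix (Fin N) (Fin N) ℂ) * cm b om * (g : Matrix (Fin N) (Fin N) ℂ) *
        mat b c i = star (g : Matrix (Fin N) (Fin N) ℂ) * (cm b om * mat b c i) *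
          (g : Matrix (Fin N) (Fin N) ℂ) := by
      conv_lhs => rw [hci]
      calc _ = star (g : Matrix (Fin N) (Fin N) ℂ) * cm b om *
            ((g : Matrix (Fin N) (Fin N) ℂ) * star (g : Matrix (Fin N) (Fin N) ℂ)) *
            (mat b c i * (g : Matrix (Fin N) (Fin N) ℂ)) := by simp only [Matrix.mul_assoc]
        _ = _ := by rw [h1]; simp only [Matrix.mul_assoc, Matrix.mul_one]
    have e2 : mat b c i * (star (g : Matrix (Fin N) (Fin N) ℂ) * cm b om *
        (g : Matrix (Fin N) (Fin N) ℂ)) = star (g : Matrix (Fin N) (Fin N) ℂ) *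
          (mat b c i * cm b om) * (g : Matrix (Fin N) (Fin N) ℂ) := by
      conv_lhs => rw [hci]
      calc _ = star (g : Matrix (Fin N) (Fin N) ℂ) * mat b c i *
            ((g : Matrix (Fin N) (Fin N) ℂ) * star (g : Matrix (Fin N) (Fin N) ℂ)) *
            (cm b om * (g : Matrix (Fin N) (Fin N) ℂ)) := by simp only [Matrix.mul_assoc]
        _ = _ := by rw [h1]; simp only [Matrix.mul_assoc, Matrix.mul_one]
    rw [e1, e2]
    simp only [mul_smul_comm, smul_mul_assoc, Matrix.mul_sub, Matrix.sub_mul, Matrix.mul_assoc]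
  obtain ⟨om', hom'⟩ := hder
  rw [adL_apply] at hom'
  have h3 := act_inner b g (b.act g⁻¹ (brx b om c)) y
  rw [act_act_inv, ← hom', hy om'] at h3
  exact h3

/-! ## the radius -/

/-- radius conditions for the slice at `c` -/
structure Good (c : Cfg N) (r : ℝ) : Prop where
  star : ∀ (g : Matrix.specialUnitaryGroup (Fin N) ℂ) (y y' : Cfg N), y ∈ Nor b c →
    y' ∈ Nor b c → ‖y‖ < r → ‖y'‖ < r → b.act g (c + y) = c + y' → b.act g c = c
  nondeg : ∀ (y : Cfg N) (om : Fin (N ^ 2 - 1) → ℝ), y ∈ Nor b c → ‖y‖ < r →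
    brx b om (c + y) ∈ Nor b c → brx b om c = 0

theorem Good.mono {c : Cfg N} {r r' : ℝ} (h : Good b c r) (hr : r' ≤ r) : Good b c r' :=
  ⟨fun g y y' hy hy' hn hn' => h.star g y y' hy hy' (hn.trans_le hr) (hn'.trans_le hr),
    fun y om hy hn => h.nondeg y om hy (hn.trans_le hr)⟩

theorem exists_good (c : Cfg N) : ∃ r : ℝ, 0 < r ∧ Good b c r := by
  obtain ⟨r1, hr1, -, hstar⟩ := SlC314.star b c
  obtain ⟨L, hL, hL0⟩ := exists_frame b c
  set C : ℝ := ‖brB b‖ * ‖L‖ + 1 with hC
  have hCpos : 0 < C := by positivity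
  refine ⟨min r1 (1 / C), lt_min hr1 (by positivity), ?_, ?_⟩
  · intro g y y' hy hy' hn hn'
    exact hstar g y y' hy hy' (hn.trans_le (min_le_left _ _)) (hn'.trans_le (min_le_left _ _))
  · intro y om hy hn hmem
    have hn2 : ‖y‖ < 1 / C := hn.trans_le (min_le_right _ _)
    set t : Cfg N := brx b om c with ht
    have htT : t ∈ Tan b c := ⟨om, rfl⟩
    have hLt : brx b (L t) c = t := by
      rw [hL, Submodule.starProjection_eq_self_iff]
      exact htT
    have hk : brx b (om - L t) c = 0 := by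
      have h1 : om = (om - L t) + L t := by abel
      have h2 := brx_add_left b (om - L t) (L t) c
      rw [← h1, hLt, ← ht] at h2
      have h3 : brx b (om - L t) c = t - t := by
        rw [eq_sub_iff_add_eq]
        exact h2.symm
      rw [h3, sub_self]
    have h4 : brx b om (c + y) = t + brx b (L t) y + brx b (om - L t) y := by
      rw [brx_add_right, ← ht]
      have h1 : om = L t + (om - L t) := by abel
      have h2 := brx_add_left b (L t) (om - L t) y
      rw [← h1] at h2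
      rw [h2]
      abel
    have h5 : t + brx b (L t) y ∈ Nor b c := by
      have h6 := (Nor b c).sub_mem hmem (brx_mem_Nor b hy hk)
      rw [h4, add_sub_cancel_right] at h6
      exact h6
    have h7 : inner ℝ t (t + brx b (L t) y) = (0 : ℝ) := by
      have := (mem_Nor b).1 h5 om
      rwa [← ht] at this
    rw [inner_add_right, real_inner_self_eq_norm_sq] at h7
    have h8 : |(inner ℝ t (brx b (L t) y) : ℝ)| ≤ ‖t‖ * (‖brB b‖ * ‖L‖ * ‖t‖ * ‖y‖) := by
      refine (abs_real_inner_le_norm _ _).trans ?_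
      refine mul_le_mul_of_nonneg_left ?_ (norm_nonneg _)
      calc ‖brx b (L t) y‖ ≤ ‖brB b‖ * ‖L t‖ * ‖y‖ := norm_brx_le b _ _
        _ ≤ ‖brB b‖ * (‖L‖ * ‖t‖) * ‖y‖ := by
            gcongr
            exact L.le_opNorm t
        _ = _ := by ring
    have h9 : ‖t‖ ^ 2 ≤ ‖t‖ ^ 2 * ((C - 1) * ‖y‖) := by
      have := neg_abs_le (inner ℝ t (brx b (L t) y) : ℝ)
      calc ‖t‖ ^ 2 ≤ ‖t‖ * (‖brB b‖ * ‖L‖ * ‖t‖ * ‖y‖) := by linarith
        _ = ‖t‖ ^ 2 * ((C - 1) * ‖y‖) := by rw [hC]; ring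
    have h10 : (C - 1) * ‖y‖ < 1 := by
      have h11 : ‖y‖ * C < 1 := by rwa [lt_div_iff₀ hCpos] at hn2
      nlinarith [norm_nonneg y]
    have h12 : ‖t‖ ^ 2 = 0 := by
      by_contra hne
      have : 0 < ‖t‖ ^ 2 := lt_of_le_of_ne (sq_nonneg _) (Ne.symm hne)
      nlinarith
    exact norm_eq_zero.1 (pow_eq_zero_iff (two_ne_zero) |>.1 h12)

/-! ## the chart -/

/-- the action map in exponential coordinates -/
def actE (p : (Fin (N ^ 2 - 1) → ℝ) × Cfg N) : Cfg N := b.act (gexp b p.1) p.2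

theorem hasFDerivAt_actE (x : Cfg N) :
    ∃ D : ((Fin (N ^ 2 - 1) → ℝ) × Cfg N) →L[ℝ] Cfg N,
      HasFDerivAt (actE b) D ((0 : Fin (N ^ 2 - 1) → ℝ), x) ∧
        ∀ om v, D (om, v) = brx b om x + v := by
  have hd : Differentiable ℝ (actE b) := (contDiff_act_gexp b).differentiable (by simp)
  set D := fderiv ℝ (actE b) ((0 : Fin (N ^ 2 - 1) → ℝ), x) with hD
  have hDx : HasFDerivAt (actE b) D ((0 : Fin (N ^ 2 - 1) → ℝ), x) := (hd _).hasFDerivAt
  refine ⟨D, hDx, fun om v => ?_⟩
  have h1 : D (om, 0) = brx b om x := by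
    have hc : HasDerivAt (fun t : ℝ => ((t • om, x) : (Fin (N ^ 2 - 1) → ℝ) × Cfg N))
        (om, (0 : Cfg N)) 0 := by
      have := ((hasDerivAt_id (0 : ℝ)).smul_const om).prodMk (hasDerivAt_const (0 : ℝ) x)
      simpa using this
    have hDx' : HasFDerivAt (actE b) D (((0 : ℝ) • om, x) : (Fin (N ^ 2 - 1) → ℝ) × Cfg N) := by
      rw [zero_smul]; exact hDx
    have h4 : HasDerivAt (actE b ∘ fun t : ℝ => ((t • om, x) :
        (Fin (N ^ 2 - 1) → ℝ) × Cfg N)) (D (om, 0)) 0 :=
      hDx'.comp_hasDerivAt (0 : ℝ) hc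
    exact h4.unique (hasDerivAt_act_zero b om x)
  have h2 : D (0, v) = v := by
    have hc : HasDerivAt (fun t : ℝ => ((0, x + t • v) : (Fin (N ^ 2 - 1) → ℝ) × Cfg N))
        ((0 : Fin (N ^ 2 - 1) → ℝ), v) 0 := by
      have h3 : HasDerivAt (fun t : ℝ => x + t • v) v 0 := by
        simpa using ((hasDerivAt_id (0 : ℝ)).smul_const v).const_add x
      exact (hasDerivAt_const (0 : ℝ) (0 : Fin (N ^ 2 - 1) → ℝ)).prodMk h3
    have hDx' : HasFDerivAt (actE b) D
        ((0, x + (0 : ℝ) • v) : (Fin (N ^ 2 - 1) → ℝ) × Cfg N) := by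
      rw [zero_smul, add_zero]; exact hDx
    have h4 := hDx'.comp_hasDerivAt (0 : ℝ) hc
    have h5 : HasDerivAt (fun t : ℝ => x + t • v) (D (0, v)) 0 := by
      refine h4.congr_of_eventuallyEq (Eventually.of_forall fun t => ?_)
      change x + t • v = b.act (gexp b 0) (x + t • v)
      rw [gexp_zero, act_one]
    have h3 : HasDerivAt (fun t : ℝ => x + t • v) v 0 := by
      simpa using ((hasDerivAt_id (0 : ℝ)).smul_const v).const_add x
    exact h5.unique h3
  have h3 : ((om, v) : (Fin (N ^ 2 - 1) → ℝ) × Cfg N) = (om, 0) + (0, v) := by simp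
  rw [h3, map_add, h1, h2]

/-- **local coordinates** near a point of the slice -/
theorem local_rep {c : Cfg N} {r : ℝ} (hg : Good b c r) {y₀ : Cfg N} (hy : y₀ ∈ Nor b c)
    (hr : ‖y₀‖ < r) :
    ∃ (om : Cfg N → (Fin (N ^ 2 - 1) → ℝ)) (y : Cfg N → Nor b c),
      ContDiffAt ℝ ∞ om (c + y₀) ∧ ContDiffAt ℝ ∞ y (c + y₀) ∧ om (c + y₀) = 0 ∧
      y (c + y₀) = ⟨y₀, hy⟩ ∧
      ∀ᶠ x in 𝓝 (c + y₀), b.act (gexp b (om x)) (c + (y x : Cfg N)) = x := by
  obtain ⟨L, hL, hL0⟩ := exists_frame b c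
  set P : Cfg N →L[ℝ] Nor b c := (Nor b c).orthogonalProjection with hP
  have hsum : ∀ v : Cfg N, (Tan b c).starProjection v + (P v : Cfg N) = v := by
    intro v
    have h := Submodule.starProjection_add_starProjection_orthogonal (K := Tan b c) v
    exact h
  set Bm : Cfg N → (Fin (N ^ 2 - 1) → ℝ) × Cfg N := fun v => (L v, c + (P v : Cfg N)) with hBm
  set Ψ : Cfg N → Cfg N := fun v => actE b (Bm v) with hΨ
  have hBc : ContDiff ℝ ∞ Bm :=
    L.contDiff.prodMk (contDiff_const.add ((Nor b c).subtypeL.contDiff.comp P.contDiff))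
  have hΨc : ContDiff ℝ ∞ Ψ := (contDiff_act_gexp b).comp hBc
  have hPy : P y₀ = ⟨y₀, hy⟩ := by
    apply Subtype.ext
    exact Submodule.starProjection_eq_self_iff.2 hy
  have hB0 : Bm y₀ = (0, c + y₀) := by
    simp only [hBm]
    rw [hL0 y₀ hy, hPy]
  have hΨ0 : Ψ y₀ = c + y₀ := by
    simp only [hΨ, hB0, actE]
    rw [gexp_zero, act_one]
  obtain ⟨D, hD, hDf⟩ := hasFDerivAt_actE b (c + y₀)
  have hBd : HasFDerivAt Bm (L.prod ((Nor b c).subtypeL.comp P)) y₀ := by
    refine L.hasFDerivAt.prodMk ?_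
    exact (((Nor b c).subtypeL.comp P).hasFDerivAt).const_add c
  have hΨd : HasFDerivAt Ψ (D.comp (L.prod ((Nor b c).subtypeL.comp P))) y₀ := by
    rw [← hB0] at hD
    exact hD.comp y₀ hBd
  set D' : Cfg N →L[ℝ] Cfg N := D.comp (L.prod ((Nor b c).subtypeL.comp P)) with hD'
  have hD'f : ∀ v, D' v = v + brx b (L v) y₀ := by
    intro v
    change D (L v, (P v : Cfg N)) = _
    rw [hDf, brx_add_right, hL]
    calc (Tan b c).starProjection v + brx b (L v) y₀ + (P v : Cfg N)
        = ((Tan b c).starProjection v + (P v : Cfg N)) + brx b (L v) y₀ := by abel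
      _ = v + brx b (L v) y₀ := by rw [hsum v]
  have hinj : Function.Injective (D' : Cfg N →ₗ[ℝ] Cfg N) := by
    rw [← LinearMap.ker_eq_bot, LinearMap.ker_eq_bot']
    intro v hv
    have hv' : v + brx b (L v) y₀ = 0 := by rw [← hD'f]; exact hv
    have h1 : brx b (L v) (c + y₀) ∈ Nor b c := by
      rw [brx_add_right, hL]
      have h2 : (Tan b c).starProjection v + brx b (L v) y₀ = -(P v : Cfg N) := by
        have h3 := hsum v
        rw [eq_neg_iff_add_eq_zero]
        calc (Tan b c).starProjection v + brx b (L v) y₀ + (P v : Cfg N)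
            = ((Tan b c).starProjection v + (P v : Cfg N)) + brx b (L v) y₀ := by abel
          _ = 0 := by rw [h3, hv']
      rw [h2]
      exact (Nor b c).neg_mem (P v).2
    have h2 := hg.nondeg y₀ (L v) hy hr h1
    rw [hL] at h2
    have h3 : v ∈ Nor b c := by
      have h4 := hsum v
      rw [h2, zero_add] at h4
      rw [← h4]
      exact (P v).2
    rw [hL0 v h3] at hv'
    have h5 : brx b (0 : Fin (N ^ 2 - 1) → ℝ) y₀ = 0 := by
      have := brx_smul_left b 0 (0 : Fin (N ^ 2 - 1) → ℝ) y₀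
      simpa using this
    rw [h5, add_zero] at hv'
    exact hv'
  set e : Cfg N ≃L[ℝ] Cfg N :=
    (LinearEquiv.ofInjectiveEndo (D' : Cfg N →ₗ[ℝ] Cfg N) hinj).toContinuousLinearEquiv with he
  have hee : (e : Cfg N →L[ℝ] Cfg N) = D' := by
    ext1 v
    rfl
  have hΨd' : HasFDerivAt Ψ (e : Cfg N →L[ℝ] Cfg N) y₀ := by rw [hee]; exact hΨd
  have hne : (∞ : WithTop ℕ∞) ≠ 0 := by simp
  have hcd : ContDiffAt ℝ ∞ Ψ y₀ := hΨc.contDiffAt
  set h := hcd.localInverse hΨd' hne with hh
  have hhc : ContDiffAt ℝ ∞ h (c + y₀) := by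
    have := hcd.to_localInverse hΨd' hne
    rwa [hΨ0] at this
  have hh0 : h (c + y₀) = y₀ := by
    have := hcd.localInverse_apply_image hΨd' hne
    rwa [hΨ0] at this
  have hr : ∀ᶠ x in 𝓝 (c + y₀), Ψ (h x) = x := by
    have := (hcd.hasStrictFDerivAt' hΨd' hne).eventually_right_inverse
    rwa [hΨ0] at this
  refine ⟨fun x => L (h x), fun x => P (h x), L.contDiff.contDiffAt.comp _ hhc,
    P.contDiff.contDiffAt.comp _ hhc, ?_, ?_, hr⟩
  · simp only [hh0, hL0 y₀ hy]
  · simp only [hh0, hPy]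

end Crest.Agent.R330.SlF944

end
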