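import Crest.Agent.R330.Bind6_839
import Crest.Agent.R330.SlF_944
import Crest.Agent.R330.FibProj_837
import Crest.Agent.R330.Cov_837
import Crest.Agent.R330.Cliff6_442

/-!
# Row 330, S9-KEQ (helper823): the stabiliser acting on the slice, `K`-equivariance of `w`

Over 839's names (`Colg`, `comp`, `kc`, `Uk`, `Mm`, `Zs`, `Tn`).

* `adg b h : Colg N ≃ₗᵢ Colg N` : adjoint action; `comp_act_g`, `adg_br`, `act_actB`.
* `h` in the stabiliser of `c`: `adg_mem_kc`, `act_mem_Uk`, `act_mem_Mm`, `act_mem_Tn`,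
  `act_mem_Zs`; `actU`, `actZ`, `actT` : isometries of `Uk b c`, `Zs b c`, `Tn (actB b) c`.
* `sf J φ` : slice function on `Uk b c × Zs b c`; `sf_equiv`.
* `w_equiv` : `w (h p) = ρ(h) (w p)`.
* `proj_stab` : covariance of the vacuum projection `proj (J p)`.
-/

set_option autoImplicit false
set_option linter.unusedSectionVars false

open MeasureTheory Filter Topology Crest.MathPhysics.MatrixQM
open Crest.Agent.R330.IBP837 Crest.Agent.R330.Defs478 Crest.Agent.R330.Frame839
open Crest.Agent.R330.LS839 Crest.Agent.R330.Clus839 Crest.Agent.R330.Bind6839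
open scoped ContDiff InnerProductSpace ENNReal

noncomputable section

namespace Crest.Agent.R330.KEq823

variable {N : ℕ} (b : ColorBasis N) (h : Matrix.specialUnitaryGroup (Fin N) ℂ)

/-! ## The adjoint action on colour vectors -/

/-- the adjoint action, as a function -/
def adf (u : Colg N) : Colg N := WithLp.toLp 2 fun A => ∑ B, b.adjMat h A B * u B

theorem comp_act_g (x : Cfg N) (i : Fin 9) : Bind6839.comp (b.act h x) i = adf b h (Bind6839.comp x i) := rfl

theorem act_mkc (f : Fin 9 → Colg N) : b.act h (mkc f) = mkc fun i => adf b h (f i) := by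
  refine ext_comp fun i => ?_
  rw [comp_act_g, comp_mkc, comp_mkc]

theorem adf_add (u v : Colg N) : adf b h (u + v) = adf b h u + adf b h v := by
  ext A
  simp [adf, mul_add, Finset.sum_add_distrib]

theorem adf_smul (r : ℝ) (u : Colg N) : adf b h (r • u) = r • adf b h u := by
  ext A
  simp only [adf, PiLp.smul_apply, smul_eq_mul, Finset.mul_sum]
  exact Finset.sum_congr rfl fun B _ => by ring

theorem adf_eq_comp (u : Colg N) (i : Fin 9) :
    adf b h u = Bind6839.comp (b.act h (mkc fun _ => u)) i := by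
  rw [comp_act_g, comp_mkc]

theorem adf_inv_adf (u : Colg N) : adf b h⁻¹ (adf b h u) = u := by
  rw [adf_eq_comp b h u 0, adf_eq_comp b h⁻¹ _ 0]
  have h1 : (mkc fun _ : Fin 9 => Bind6839.comp (b.act h (mkc fun _ => u)) 0) = b.act h (mkc fun _ => u) := by
    refine ext_comp fun i => ?_
    rw [comp_mkc, comp_act_g, comp_act_g, comp_mkc, comp_mkc]
  rw [h1, Cov837.act_inv_act, comp_mkc]

theorem adf_adf_inv (u : Colg N) : adf b h (adf b h⁻¹ u) = u := by
  have := adf_inv_adf b h⁻¹ u
  rwa [inv_inv] at this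

theorem norm_adf (u : Colg N) : ‖adf b h u‖ = ‖u‖ := by
  have h1 := Cov837.norm_act b h (mkc fun _ => u)
  have h2 : ‖(mkc fun _ : Fin 9 => adf b h u : Cfg N)‖ = ‖(mkc fun _ : Fin 9 => u : Cfg N)‖ := by
    rw [← h1, act_mkc]
  have h3 : ∀ v : Colg N, ‖(mkc fun _ : Fin 9 => v : Cfg N)‖ ^ 2 = 9 * ‖v‖ ^ 2 := fun v => by
    rw [norm_sq_comp]
    simp [comp_mkc]
  have h4 : ‖adf b h u‖ ^ 2 = ‖u‖ ^ 2 := by
    have := h3 (adf b h u)
    rw [h2, h3 u] at this
    linarith
  exact (sq_eq_sq₀ (norm_nonneg _) (norm_nonneg _)).1 h4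

/-- **the adjoint action** as a linear isometry equivalence of colour space -/
def adg : Colg N ≃ₗᵢ[ℝ] Colg N where
  toFun := adf b h
  invFun := adf b h⁻¹
  left_inv := adf_inv_adf b h
  right_inv := adf_adf_inv b h
  map_add' := adf_add b h
  map_smul' := adf_smul b h
  norm_map' := norm_adf b h

theorem adg_apply (u : Colg N) : adg b h u = adf b h u := rfl

theorem adg_symm_apply (u : Colg N) : (adg b h).symm u = adg b h⁻¹ u := rfl

theorem comp_act_adg (x : Cfg N) (i : Fin 9) : Bind6839.comp (b.act h x) i = adg b h (Bind6839.comp x i) := rfl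

/-- the adjoint action is an automorphism of the bracket -/
theorem adg_br (u v : Colg N) :
    adg b h ((colAlg b).br u v) = (colAlg b).br (adg b h u) (adg b h v) := by
  ext A
  have h1 := Cov837.struct_cov_vec b h A u.ofLp v.ofLp
  exact h1.symm

/-- **covariance of the infinitesimal action** -/
theorem act_actB (w : Colg N) (x : Cfg N) :
    b.act h (actB b w x) = actB b (adg b h w) (b.act h x) := by
  refine ext_comp fun i => ?_
  rw [comp_act_adg, comp_act, comp_act, comp_act_adg, adg_br]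

/-! ## The stabiliser -/

variable {b h} {c : Cfg N}

theorem stab_inv (hc : b.act h c = c) : b.act h⁻¹ c = c := by
  conv_lhs => rw [← hc]
  rw [Cov837.act_inv_act]

theorem adg_mem_kc (hc : b.act h c = c) {w : Colg N} (hw : w ∈ kc (actB b) c) :
    adg b h w ∈ kc (actB b) c := by
  rw [mem_kc] at hw ⊢
  have h1 := act_actB b h w c
  rw [hc, hw] at h1
  rw [← h1]
  exact map_zero (Cov837.actL b h)

theorem adg_mem_perp (hc : b.act h c = c) {w : Colg N} (hw : w ∈ (kc (actB b) c)ᗮ) :
    adg b h w ∈ (kc (actB b) c)ᗮ := by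
  rw [Submodule.mem_orthogonal] at hw ⊢
  intro u hu
  have h1 := hw _ (adg_mem_kc (stab_inv hc) hu)
  rw [← (adg b h).inner_map_map] at h1
  rwa [adg_apply b h (adg b h⁻¹ u), adg_apply b h⁻¹ u, adf_adf_inv] at h1

theorem act_mem_Uk (hc : b.act h c = c) {x : Cfg N} (hx : x ∈ Uk b c) : b.act h x ∈ Uk b c := by
  rw [Uk, mem_Tup] at hx ⊢
  intro i
  rw [comp_act_adg]
  exact adg_mem_kc hc (hx i)

theorem act_mem_Mm (hc : b.act h c = c) {x : Cfg N} (hx : x ∈ Mm b c) : b.act h x ∈ Mm b c := by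
  rw [Mm, mem_Tup] at hx ⊢
  intro i
  rw [comp_act_adg]
  exact adg_mem_perp hc (hx i)

theorem act_mem_Tn (hc : b.act h c = c) {x : Cfg N} (hx : x ∈ Tn (actB b) c) :
    b.act h x ∈ Tn (actB b) c := by
  obtain ⟨w, rfl⟩ := hx
  have e : ((actB b).flip c).toLinearMap w = actB b w c := rfl
  rw [e, act_actB, hc]
  exact ⟨adg b h w, rfl⟩

theorem act_mem_TnP (hc : b.act h c = c) {x : Cfg N} (hx : x ∈ (Tn (actB b) c)ᗮ) :
    b.act h x ∈ (Tn (actB b) c)ᗮ := by
  rw [Submodule.mem_orthogonal] at hx ⊢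
  intro u hu
  have h1 := hx _ (act_mem_Tn (stab_inv hc) hu)
  rw [← Cov837.inner_act b h, Cov837.act_act_inv] at h1
  exact h1

theorem act_mem_Zs (hc : b.act h c = c) {x : Cfg N} (hx : x ∈ Zs b c) : b.act h x ∈ Zs b c :=
  ⟨act_mem_Mm hc hx.1, act_mem_TnP hc hx.2⟩

/-- restriction of a linear isometry equivalence to an invariant subspace -/
def restr {E : Type*} [NormedAddCommGroup E] [InnerProductSpace ℝ E] (L : E ≃ₗᵢ[ℝ] E)
    (K : Submodule ℝ E) (h1 : ∀ x ∈ K, L x ∈ K) (h2 : ∀ x ∈ K, L.symm x ∈ K) : K ≃ₗᵢ[ℝ] K where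
  toFun x := ⟨L x, h1 x x.2⟩
  invFun x := ⟨L.symm x, h2 x x.2⟩
  left_inv x := Subtype.ext (L.symm_apply_apply x)
  right_inv x := Subtype.ext (L.apply_symm_apply x)
  map_add' x y := Subtype.ext (map_add L (x : E) y)
  map_smul' r x := Subtype.ext (map_smul L r (x : E))
  norm_map' x := L.norm_map x

/-- the stabiliser on `R⁹ ⊗ k` -/
def actU (hc : b.act h c = c) : Uk b c ≃ₗᵢ[ℝ] Uk b c :=
  restr (Cov837.actL b h) (Uk b c) (fun x hx => by
      rw [Cov837.actL_apply]
      exact act_mem_Uk hc hx)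
    (fun x hx => by
      rw [Cov837.actL_symm_apply]
      exact act_mem_Uk (stab_inv hc) hx)

/-- the stabiliser on the transverse directions -/
def actZ (hc : b.act h c = c) : Zs b c ≃ₗᵢ[ℝ] Zs b c :=
  restr (Cov837.actL b h) (Zs b c) (fun x hx => by
      rw [Cov837.actL_apply]
      exact act_mem_Zs hc hx)
    (fun x hx => by
      rw [Cov837.actL_symm_apply]
      exact act_mem_Zs (stab_inv hc) hx)

/-- the stabiliser on the orbit directions -/
def actT (hc : b.act h c = c) : Tn (actB b) c ≃ₗᵢ[ℝ] Tn (actB b) c :=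
  restr (Cov837.actL b h) (Tn (actB b) c) (fun x hx => by
      rw [Cov837.actL_apply]
      exact act_mem_Tn hc hx)
    (fun x hx => by
      rw [Cov837.actL_symm_apply]
      exact act_mem_Tn (stab_inv hc) hx)

/-- the stabiliser on the complement of the stabiliser algebra -/
def actP (hc : b.act h c = c) : ((kc (actB b) c)ᗮ : Submodule ℝ (Colg N)) ≃ₗᵢ[ℝ]
    ((kc (actB b) c)ᗮ : Submodule ℝ (Colg N)) :=
  restr (adg b h) (kc (actB b) c)ᗮ (fun _ hx => adg_mem_perp hc hx)
    (fun x hx => by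
      rw [adg_symm_apply]
      exact adg_mem_perp (stab_inv hc) hx)

@[simp] theorem coe_actU (hc : b.act h c = c) (x : Uk b c) : (actU hc x : Cfg N) = b.act h x := rfl

@[simp] theorem coe_actZ (hc : b.act h c = c) (x : Zs b c) : (actZ hc x : Cfg N) = b.act h x := rfl

@[simp] theorem coe_actT (hc : b.act h c = c) (x : Tn (actB b) c) :
    (actT hc x : Cfg N) = b.act h x := rfl

@[simp] theorem coe_actP (hc : b.act h c = c) (x : ((kc (actB b) c)ᗮ : Submodule ℝ (Colg N))) :
    (actP hc x : Colg N) = adg b h x := rfl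

/-- the slice coordinate `c + u + z` -/
theorem act_slice (hc : b.act h c = c) (u : Uk b c) (z : Zs b c) :
    b.act h (c + (u : Cfg N) + z) = c + (actU hc u : Cfg N) + actZ hc z := by
  rw [Cov837.act_add, Cov837.act_add, hc, coe_actU, coe_actZ]

theorem act_add_slice (hc : b.act h c = c) (u : Uk b c) (z : Zs b c) :
    b.act h ((u : Cfg N) + z) = (actU hc u : Cfg N) + actZ hc z := by
  rw [Cov837.act_add, coe_actU, coe_actZ]

theorem slice_mem_Nor (u : Uk b c) (z : Zs b c) : ((u : Cfg N) + z) ∈ SlB314.Nor b c := by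
  rw [← Nor_eq]
  exact Submodule.add_mem _ (Uk_le_Nor u.2) z.2.2

theorem actU_comp {h' : Matrix.specialUnitaryGroup (Fin N) ℂ} (hc : b.act h c = c)
    (hc' : b.act h' c = c) (hcc : b.act (h * h') c = c) (u : Uk b c) :
    actU hcc u = actU hc (actU hc' u) := by
  apply Subtype.ext
  rw [coe_actU, coe_actU, coe_actU, Cov837.act_mul]

theorem actU_one (hc : b.act 1 c = c) (u : Uk b c) : actU hc u = u := by
  apply Subtype.ext
  rw [coe_actU, Cov837.act_one]

theorem measurePreserving_actU (hc : b.act h c = c) :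
    MeasurePreserving (actU hc) (volume : Measure (Uk b c)) volume :=
  (actU hc).measurePreserving

theorem measurePreserving_actZ (hc : b.act h c = c) :
    MeasurePreserving (actZ hc) (volume : Measure (Zs b c)) volume :=
  (actZ hc).measurePreserving

/-! ## Slice functions -/

variable {F : Type*} [NormedAddCommGroup F] [InnerProductSpace ℂ F] [FiniteDimensional ℂ F]
  {M : FermionRep N F}

variable (b c) in
/-- the slice function `(u,z) ↦ a(u+z) φ(c+u+z)` -/
def sf (a : Cfg N → ℝ) (φ : Cfg N → F) (q : Uk b c × Zs b c) : F :=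
  a ((q.1 : Cfg N) + q.2) • φ (c + (q.1 : Cfg N) + q.2)

theorem norm_sf (a : Cfg N → ℝ) (φ : Cfg N → F) (q : Uk b c × Zs b c) :
    ‖sf b c a φ q‖ = |a ((q.1 : Cfg N) + q.2)| * ‖φ (c + (q.1 : Cfg N) + q.2)‖ := by
  rw [sf, norm_smul, Real.norm_eq_abs]

theorem continuous_sf {a : Cfg N → ℝ} {φ : Cfg N → F} (ha : Continuous a) (hφ : Continuous φ) :
    Continuous (sf b c a φ) := by
  unfold sf
  fun_prop

theorem contDiff_sf {n : WithTop ℕ∞} {a : Cfg N → ℝ} {φ : Cfg N → F} (ha : ContDiff ℝ n a)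
    (hφ : ContDiff ℝ n φ) : ContDiff ℝ n (sf b c a φ) := by
  have h1 : ContDiff ℝ n fun q : Uk b c × Zs b c => (q.1 : Cfg N) :=
    (Uk b c).subtypeL.contDiff.comp contDiff_fst
  have h2 : ContDiff ℝ n fun q : Uk b c × Zs b c => (q.2 : Cfg N) :=
    (Zs b c).subtypeL.contDiff.comp contDiff_snd
  unfold sf
  exact (ha.comp (h1.add h2)).smul (hφ.comp ((contDiff_const.add h1).add h2))

theorem hasCompactSupport_sf {a : Cfg N → ℝ} {φ : Cfg N → F} (hφ : HasCompactSupport φ) :
    HasCompactSupport (sf b c a φ) := by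
  have hcl : Topology.IsClosedEmbedding fun q : Uk b c × Zs b c => c + (q.1 : Cfg N) + q.2 := by
    have hinj : Function.Injective fun q : Uk b c × Zs b c => (q.1 : Cfg N) + q.2 := by
      rintro ⟨u, z⟩ ⟨u', z'⟩ he
      simp only at he
      have h3 : ((u - u' : Uk b c) : Cfg N) = ((z' - z : Zs b c) : Cfg N) := by
        push_cast
        rw [sub_eq_sub_iff_add_eq_add, he, add_comm]
      have h4 : ⟪((u - u' : Uk b c) : Cfg N), ((z' - z : Zs b c) : Cfg N)⟫_ℝ = 0 :=
        Zs_perp_Uk (u - u').2 (z' - z).2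
      rw [← h3, inner_self_eq_zero] at h4
      have h5 : u = u' := by
        have := sub_eq_zero.1 (Subtype.ext h4 : (u - u' : Uk b c) = 0)
        exact this
      have h6 : z = z' := by
        rw [h4] at h3
        have := sub_eq_zero.1 (Subtype.ext h3.symm : (z' - z : Zs b c) = 0)
        exact this.symm
      rw [h5, h6]
    have h7 : Topology.IsClosedEmbedding fun q : Uk b c × Zs b c => (q.1 : Cfg N) + q.2 := by
      have e : (fun q : Uk b c × Zs b c => (q.1 : Cfg N) + q.2) =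
          ((Uk b c).subtypeL.coprod (Zs b c).subtypeL) := by
        ext1 q
        simp
      rw [e] at hinj ⊢
      exact LinearMap.isClosedEmbedding_of_injective
        (f := ((Uk b c).subtypeL.coprod (Zs b c).subtypeL).toLinearMap)
        (LinearMap.ker_eq_bot.2 hinj)
    have h8 : (fun q : Uk b c × Zs b c => c + (q.1 : Cfg N) + q.2) =
        (fun x => c + x) ∘ fun q : Uk b c × Zs b c => (q.1 : Cfg N) + q.2 := by
      funext q
      simp [add_assoc]
    rw [h8]
    exact (Homeomorph.addLeft c).isClosedEmbedding.comp h7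
  have h1 : HasCompactSupport fun q : Uk b c × Zs b c => φ (c + (q.1 : Cfg N) + q.2) :=
    hφ.comp_isClosedEmbedding hcl
  refine h1.mono' fun q hq => subset_tsupport _ ?_
  intro h0
  apply hq
  simp only [sf, h0, smul_zero]

/-- **equivariance of the slice function** -/
theorem sf_equiv (R : GaugeAction b M) (hc : b.act h c = c) {a : Cfg N → ℝ} {φ : Cfg N → F}
    (ha : ∀ y ∈ SlB314.Nor b c, a (b.act h y) = a y)
    (hφ : ∀ g x, φ (b.act g x) = R.ρ g (φ x)) (u : Uk b c) (z : Zs b c) :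
    sf b c a φ (actU hc u, actZ hc z) = R.ρ h (sf b c a φ (u, z)) := by
  unfold sf
  simp only
  rw [← act_add_slice hc, ← act_slice hc, ha _ (slice_mem_Nor u z), hφ]
  rw [← Complex.coe_smul, ← Complex.coe_smul, map_smul]

/-! ## Equivariance of the fibre projection -/

open Crest.Agent.R330.FibProj837

/-- **`w (h u) = ρ(h) w(u)`**, `w(u) = p(u) ∫ gs(u,z) Φ(u,z) dz`, for any equivariant `Φ` -/
theorem w_equiv (R : GaugeAction b M) (hc : b.act h c = c) {Φ : Uk b c × Zs b c → F}
    {gs : Uk b c × Zs b c → ℝ} {p : Uk b c → F →ₗ[ℂ] F} {ν : Measure (Zs b c)}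
    (hν : MeasurePreserving (actZ hc) ν ν)
    (hΦe : ∀ u z, Φ (actU hc u, actZ hc z) = R.ρ h (Φ (u, z)))
    (hge : ∀ u z, gs (actU hc u, actZ hc z) = gs (u, z))
    (hpe : ∀ u v, p (actU hc u) (R.ρ h v) = R.ρ h (p u v))
    (hgs : Continuous gs) (hΦ : Continuous Φ) (hcs : HasCompactSupport Φ) [ν.IsAddHaarMeasure]
    (u : Uk b c) : fpr ν gs p Φ (actU hc u) = R.ρ h (fpr ν gs p Φ u) :=
  fpr_equivariant (a := actU hc) (c := actZ hc) hν
    (actZ hc).toHomeomorph.measurableEmbedding hΦe hge hpe hgs hΦ hcs u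

/-- the same for the slice function of a core vector -/
theorem w_equiv_core (R : GaugeAction b M) (hc : b.act h c = c) {a : Cfg N → ℝ} {φ : Cfg N → F}
    (ha : ∀ y ∈ SlB314.Nor b c, a (b.act h y) = a y) (hac : Continuous a)
    (hφ : IsCoreVec b R φ) {gs : Uk b c × Zs b c → ℝ} {p : Uk b c → F →ₗ[ℂ] F}
    (hge : ∀ u z, gs (actU hc u, actZ hc z) = gs (u, z))
    (hpe : ∀ u v, p (actU hc u) (R.ρ h v) = R.ρ h (p u v)) (hgs : Continuous gs) (u : Uk b c) :
    fpr volume gs p (sf b c a φ) (actU hc u) = R.ρ h (fpr volume gs p (sf b c a φ) u) :=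
  w_equiv R hc (measurePreserving_actZ hc) (sf_equiv R hc ha hφ.2.2) hge hpe hgs
    (continuous_sf hac hφ.1.continuous) (hasCompactSupport_sf hφ.2.1) u

/-- transport by an intertwining family: `w~(u) = V(u) w(u)` with `V(h u) ρ(h) = ρ(h) V(u)` -/
theorem wt_equiv (R : GaugeAction b M) (hc : b.act h c = c) {w : Uk b c → F}
    (hw : ∀ u, w (actU hc u) = R.ρ h (w u)) {V : Uk b c → F →ₗ[ℂ] F}
    (hV : ∀ u v, V (actU hc u) (R.ρ h v) = R.ρ h (V u v)) (u : Uk b c) :
    V (actU hc u) (w (actU hc u)) = R.ρ h (V u (w u)) := by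
  rw [hw, hV]

end Crest.Agent.R330.KEq823

end
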