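import Crest.Agent.R330.DiagB_304

/-!
R330, S9-CAPBIND (helper302): the strata of the commuting variety in the slice.

`slStr` : `c = dg b p`, `x = c + y + z` in the slice (`y` block diagonal, `z ∈ Z_c`) close to `c`.  If
`x` is conjugate to a diagonal configuration with at most as many distinct positions as `p`, then
`z = 0` and `y = dg b s` with `s` constant on the clusters of `p` (i.e. `y' = 0`).
-/

set_option autoImplicit false
set_option linter.unusedSectionVars false

open MeasureTheory Crest.MathPhysics.MatrixQM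
open scoped BigOperators Matrix InnerProductSpace

noncomputable section

namespace Crest.Agent.R330.SlStr302

open Crest.Agent.R330.Diag304 Crest.Agent.R330.Blk304

variable {N : ℕ} (b : ColorBasis N)

local notation "V9" => EuclideanSpace ℝ (Fin 9)

/-- the matrix equation of a conjugation to diagonal form -/
theorem mul_mat {x : Cfg N} {g : Matrix.specialUnitaryGroup (Fin N) ℂ} {q : Fin N → V9}
    (hq : ∑ a, q a = 0) (hx : b.act g x = dg b q) (i : Fin 9) :
    (g : Matrix (Fin N) (Fin N) ℂ) * Blk304.mat b x i =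
      (Matrix.diagonal fun a => ((q a i : ℝ) : ℂ)) * (g : Matrix (Fin N) (Fin N) ℂ) := by
  have h1 := Blk304.mat_act b g x i
  rw [hx, mat_dg b hq] at h1
  rw [h1, Matrix.mul_assoc _ (star _), Blk304.su_star_mul, Matrix.mul_one]

/-- Cauchy–Schwarz for a row vector times a matrix -/
theorem row_mul_le (w : Fin N → ℂ) (Y : Matrix (Fin N) (Fin N) ℂ) :
    ∑ a', ‖∑ a, w a * Y a a'‖ ^ 2 ≤ (∑ a, ‖w a‖ ^ 2) * hs Y := by
  have h1 : ∀ a', ‖∑ a, w a * Y a a'‖ ^ 2 ≤ (∑ a, ‖w a‖ ^ 2) * ∑ a, ‖Y a a'‖ ^ 2 := by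
    intro a'
    have h2 : ‖∑ a, w a * Y a a'‖ ≤ ∑ a, ‖w a‖ * ‖Y a a'‖ :=
      (norm_sum_le _ _).trans (Finset.sum_le_sum fun a _ => by rw [norm_mul])
    calc ‖∑ a, w a * Y a a'‖ ^ 2 ≤ (∑ a, ‖w a‖ * ‖Y a a'‖) ^ 2 := by gcongr
      _ ≤ _ := Finset.sum_mul_sq_le_sq_mul_sq _ _ _
  refine (Finset.sum_le_sum fun a' _ => h1 a').trans (le_of_eq ?_)
  rw [← Finset.mul_sum]
  unfold Blk304.hs
  rw [Finset.sum_comm]

variable {p q : Fin N → V9} {y : Cfg N} {g : Matrix.specialUnitaryGroup (Fin N) ℂ}

/-- a joint eigenvector with a component in the cluster `p a` has its eigenvalue near `p a` -/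
theorem eig_near (hp : ∑ a, p a = 0) (hq : ∑ a, q a = 0) (hy : y ∈ BlkC b p)
    (hx : b.act g (dg b p + y) = dg b q) {c a : Fin N}
    (hU : (g : Matrix (Fin N) (Fin N) ℂ) c a ≠ 0) : ‖q c - p a‖ ≤ ‖y‖ := by
  classical
  set U : Matrix (Fin N) (Fin N) ℂ := (g : Matrix (Fin N) (Fin N) ℂ) with hUdef
  set w : Fin N → ℂ := fun a₁ => if p a₁ = p a then U c a₁ else 0 with hw
  have hW : 0 < ∑ a₁, ‖w a₁‖ ^ 2 := by
    refine Finset.sum_pos' (fun _ _ => by positivity) ⟨a, Finset.mem_univ _, ?_⟩
    have : w a = U c a := by simp [hw]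
    rw [this]
    have := norm_pos_iff.2 hU
    positivity
  have hrow : ∀ i a', ∑ a₁, w a₁ * Blk304.mat b y i a₁ a' =
      ((q c i - p a i : ℝ) : ℂ) * w a' := by
    intro i a'
    have h1 := congrFun (congrFun (mul_mat b hq hx i) c) a'
    rw [Matrix.mul_apply, Matrix.diagonal_mul, Blk304.mat_add, mat_dg b hp] at h1
    simp only [Matrix.add_apply, mul_add, Finset.sum_add_distrib, Matrix.diagonal_apply,
      mul_ite, mul_zero, Finset.sum_ite_eq', Finset.mem_univ, if_true] at h1
    by_cases h : p a' = p a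
    · have h2 : ∀ a₁, w a₁ * Blk304.mat b y i a₁ a' = U c a₁ * Blk304.mat b y i a₁ a' := by
        intro a₁
        by_cases h3 : p a₁ = p a
        · simp only [hw, if_pos h3]
        · rw [hy i a₁ a' (fun h4 => h3 (h4.trans h)), mul_zero, mul_zero]
      simp only [h2]
      have h3 : w a' = U c a' := by simp only [hw, if_pos h]
      rw [h3, ← h]
      push_cast
      linear_combination h1
    · have h3 : w a' = 0 := by simp only [hw, if_neg h]
      rw [h3, mul_zero]
      refine Finset.sum_eq_zero fun a₁ _ => ?_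
      by_cases h4 : p a₁ = p a
      · rw [hy i a₁ a' (fun h5 => h (h5.symm.trans h4)), mul_zero]
      · simp only [hw, if_neg h4, zero_mul]
  have h1 : ‖q c - p a‖ ^ 2 * ∑ a', ‖w a'‖ ^ 2 ≤ ‖y‖ ^ 2 * ∑ a', ‖w a'‖ ^ 2 := by
    have e1 : ‖q c - p a‖ ^ 2 * ∑ a', ‖w a'‖ ^ 2 =
        ∑ i, ∑ a', ‖∑ a₁, w a₁ * Blk304.mat b y i a₁ a'‖ ^ 2 := by
      rw [EuclideanSpace.norm_sq_eq, Finset.sum_mul]
      refine Finset.sum_congr rfl fun i _ => ?_
      rw [Finset.mul_sum]
      refine Finset.sum_congr rfl fun a' _ => ?_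
      rw [hrow i a', norm_mul, mul_pow, Complex.norm_real]
      rfl
    rw [e1, Blk304.norm_sq_eq b y, Finset.sum_mul]
    refine Finset.sum_le_sum fun i _ => ?_
    rw [mul_comm]
    exact row_mul_le w _
  have h2 := le_of_mul_le_mul_right h1 hW
  exact (pow_le_pow_iff_left₀ (norm_nonneg _) (norm_nonneg _) two_ne_zero).1 h2

/-- every row and every column of a unitary matrix is nonzero -/
theorem exists_row (g : Matrix.specialUnitaryGroup (Fin N) ℂ) (c : Fin N) :
    ∃ a, (g : Matrix (Fin N) (Fin N) ℂ) c a ≠ 0 := by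
  by_contra h
  push Not at h
  have h1 := congrFun (congrFun (Blk304.su_mul_star g) c) c
  rw [Matrix.mul_apply, Matrix.one_apply_eq] at h1
  rw [Finset.sum_eq_zero fun a _ => by rw [h a, zero_mul]] at h1
  exact zero_ne_one h1

theorem exists_col (g : Matrix.specialUnitaryGroup (Fin N) ℂ) (a : Fin N) :
    ∃ c, (g : Matrix (Fin N) (Fin N) ℂ) c a ≠ 0 := by
  by_contra h
  push Not at h
  have h1 := congrFun (congrFun (Blk304.su_star_mul g) a) a
  rw [Matrix.mul_apply, Matrix.one_apply_eq] at h1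
  rw [Finset.sum_eq_zero fun c _ => by rw [h c, mul_zero]] at h1
  exact zero_ne_one h1

/-- **The block part.** -/
theorem slStr_blk (hp : ∑ a, p a = 0) (hq : ∑ a, q a = 0) {r : ℝ} (hsep : Sep p r)
    (hy : y ∈ BlkC b p) (hyr : 2 * ‖y‖ < r) (hx : b.act g (dg b p + y) = dg b q)
    (hcard : (Finset.univ.image q).card ≤ (Finset.univ.image p).card) :
    ∃ s : Fin N → V9, (∀ a a', p a = p a' → s a = s a') ∧ ∑ a, s a = 0 ∧ y = dg b s := by
  classical
  set U : Matrix (Fin N) (Fin N) ℂ := (g : Matrix (Fin N) (Fin N) ℂ) with hUdef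
  have hnear : ∀ c a, U c a ≠ 0 → ‖q c - p a‖ ≤ ‖y‖ := fun c a h => eig_near b hp hq hy hx h
  have hsame : ∀ c c' a a', q c = q c' → U c a ≠ 0 → U c' a' ≠ 0 → p a = p a' := by
    intro c c' a a' hcc h h'
    by_contra hne
    have h1 := hsep a a' hne
    have h2 := hnear c a h
    have h3 := hnear c' a' h'
    have h4 : ‖p a - p a'‖ ≤ ‖q c - p a‖ + ‖q c' - p a'‖ := by
      have : p a - p a' = (q c' - p a') - (q c - p a) := by rw [hcc]; abel
      rw [this]
      exact (norm_sub_le _ _).trans (by linarith)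
    linarith
  choose α hα using exists_row g
  choose κ hκ using exists_col g
  set T : Finset (V9 × V9) := Finset.univ.image (fun c => (q c, p (α c))) with hT
  have hfst : (T.image Prod.fst).card = T.card := by
    apply Finset.card_image_of_injOn
    intro t ht t' ht' htt
    simp only [hT, Finset.coe_image, Set.mem_image, Finset.coe_univ, Set.mem_univ, true_and]
      at ht ht'
    obtain ⟨c, rfl⟩ := ht
    obtain ⟨c', rfl⟩ := ht'
    simp only at htt
    rw [Prod.mk.injEq]
    exact ⟨htt, hsame c c' _ _ htt (hα c) (hα c')⟩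
  have hfst' : T.image Prod.fst = Finset.univ.image q := by
    rw [hT, Finset.image_image]; rfl
  have hsnd' : T.image Prod.snd = Finset.univ.image p := by
    rw [hT, Finset.image_image]
    ext v
    simp only [Finset.mem_image, Finset.mem_univ, true_and, Function.comp]
    constructor
    · rintro ⟨c, rfl⟩
      exact ⟨α c, rfl⟩
    · rintro ⟨a, rfl⟩
      exact ⟨κ a, hsame (κ a) (κ a) _ _ rfl (hα (κ a)) (hκ a)⟩
  have hcard2 : (T.image Prod.snd).card = T.card := by
    apply le_antisymm Finset.card_image_le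
    rw [hsnd', ← hfst, hfst']
    exact hcard
  have hinj : Set.InjOn Prod.snd (T : Set (V9 × V9)) := Finset.injOn_of_card_image_eq hcard2
  have hq' : ∀ c c' a a', U c a ≠ 0 → U c' a' ≠ 0 → p a = p a' → q c = q c' := by
    intro c c' a a' h h' haa
    have h1 : p (α c) = p (α c') := by
      rw [hsame c c _ _ rfl (hα c) h, hsame c' c' _ _ rfl (hα c') h', haa]
    have m1 : (q c, p (α c)) ∈ (T : Set (V9 × V9)) := by
      simp only [hT, Finset.coe_image, Finset.coe_univ, Set.image_univ]; exact ⟨c, rfl⟩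
    have m2 : (q c', p (α c')) ∈ (T : Set (V9 × V9)) := by
      simp only [hT, Finset.coe_image, Finset.coe_univ, Set.image_univ]; exact ⟨c', rfl⟩
    exact congrArg Prod.fst (hinj m1 m2 h1)
  -- the entries
  have hent : ∀ i a a', p a = p a' → Blk304.mat b (dg b p + y) i a a' =
      ((q (κ a) i : ℝ) : ℂ) * (if a = a' then 1 else 0) := by
    intro i a a' haa
    have h1 : Blk304.mat b (dg b p + y) i =
        star U * ((Matrix.diagonal fun a => ((q a i : ℝ) : ℂ)) * U) := by
      rw [← mul_mat b hq hx i, ← Matrix.mul_assoc, Blk304.su_star_mul, Matrix.one_mul]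
    rw [h1, Matrix.mul_apply]
    have h2 : ∀ c, star U a c * ((Matrix.diagonal fun a => ((q a i : ℝ) : ℂ)) * U) c a' =
        ((q (κ a) i : ℝ) : ℂ) * (star U a c * U c a') := by
      intro c
      rw [Matrix.diagonal_mul]
      by_cases h3 : U c a = 0
      · have : star U a c = 0 := by
          rw [Matrix.star_apply, h3, star_zero]
        rw [this]; ring
      · rw [hq' c (κ a) a a h3 (hκ a) rfl]; ring
    simp only [h2]
    rw [← Finset.mul_sum, ← Matrix.mul_apply, Blk304.su_star_mul, Matrix.one_apply]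
  refine ⟨fun a => q (κ a) - p a, fun a a' h => ?_, ?_, ?_⟩
  · simp only
    rw [hq' (κ a) (κ a') a a' (hκ a) (hκ a') h, h]
  · have h1 : ∀ i, ∑ a, (q (κ a) i - p a i) = 0 := by
      intro i
      have h2 : (Blk304.mat b y i).trace = ((∑ a, (q (κ a) i - p a i) : ℝ) : ℂ) := by
        unfold Matrix.trace
        rw [Complex.ofReal_sum]
        refine Finset.sum_congr rfl fun a _ => ?_
        have h3 := hent i a a rfl
        rw [Blk304.mat_add, mat_dg b hp, Matrix.add_apply, Matrix.diagonal_apply_eq, if_pos rfl,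
          mul_one] at h3
        rw [Matrix.diag_apply]
        push_cast
        linear_combination h3
      rw [Blk304.mat_trace] at h2
      exact Complex.ofReal_eq_zero.1 h2.symm
    ext i
    have h3 := h1 i
    simpa using h3
  · apply Blk304.mat_inj b
    intro i
    have h0 : ∑ a, (q (κ a) - p a) = 0 := by
      ext i
      have h2 : (Blk304.mat b y i).trace = ((∑ a, (q (κ a) i - p a i) : ℝ) : ℂ) := by
        unfold Matrix.trace
        rw [Complex.ofReal_sum]
        refine Finset.sum_congr rfl fun a _ => ?_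
        have h3 := hent i a a rfl
        rw [Blk304.mat_add, mat_dg b hp, Matrix.add_apply, Matrix.diagonal_apply_eq, if_pos rfl,
          mul_one] at h3
        rw [Matrix.diag_apply]
        push_cast
        linear_combination h3
      rw [Blk304.mat_trace] at h2
      have h4 : ∑ a, (q (κ a) i - p a i) = 0 := Complex.ofReal_eq_zero.1 h2.symm
      simpa using h4
    rw [mat_dg b h0]
    ext a a'
    by_cases h : p a = p a'
    · have h3 := hent i a a' h
      rw [Blk304.mat_add, mat_dg b hp, Matrix.add_apply] at h3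
      by_cases haa : a = a'
      · subst haa
        rw [Matrix.diagonal_apply_eq, if_pos rfl, mul_one] at h3
        rw [Matrix.diagonal_apply_eq, PiLp.sub_apply]
        push_cast
        linear_combination h3
      · rw [Matrix.diagonal_apply_ne _ haa, if_neg haa, mul_zero, zero_add] at h3
        rw [Matrix.diagonal_apply_ne _ haa, h3]
    · have haa : a ≠ a' := fun h1 => h (by rw [h1])
      rw [Matrix.diagonal_apply_ne _ haa]
      exact hy i a a' h

theorem V4_dg (hq : ∑ a, q a = 0) : Cone741.V4 b (dg b q) = 0 := by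
  rw [← V4_row]
  unfold Clus839.ColAlg.V4
  simp only [comm_dg b hq _ _]
  simp

/-- **The strata in the slice.** -/
theorem slStr (hp : ∑ a, p a = 0) (hq : ∑ a, q a = 0) {r : ℝ} (hr : 0 < r) (hsep : Sep p r)
    {z : Cfg N} (hy : y ∈ BlkC b p) (hz : z ∈ Zt b p) (hyz : 56 * (‖y‖ ^ 2 + ‖z‖ ^ 2) ≤ r ^ 2)
    (hx : b.act g (dg b p + y + z) = dg b q)
    (hcard : (Finset.univ.image q).card ≤ (Finset.univ.image p).card) :
    z = 0 ∧ ∃ s : Fin N → V9, (∀ a a', p a = p a' → s a = s a') ∧ ∑ a, s a = 0 ∧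
      y = dg b s := by
  have hV : Cone741.V4 b (dg b p + y + z) = 0 := by
    rw [← Cone741.V4_act b g, hx, V4_dg b hq]
  have h1 := V4_low b hp hr.le hsep hy hz hyz
  rw [hV] at h1
  have h2 := Cone741.V4_nonneg b y
  have hz0 : z = 0 := by
    have h3 : 1 / 8 * r ^ 2 * ‖z‖ ^ 2 ≤ 0 := by linarith
    have h4 : ‖z‖ ^ 2 ≤ 0 := by
      by_contra h5
      push Not at h5
      have : 0 < 1 / 8 * r ^ 2 * ‖z‖ ^ 2 := by positivity
      linarith
    have h5 : ‖z‖ = 0 := by nlinarith [norm_nonneg z]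
    exact norm_eq_zero.1 h5
  refine ⟨hz0, ?_⟩
  subst hz0
  rw [add_zero] at hx
  have hyr : 2 * ‖y‖ < r := by
    rw [norm_zero] at hyz
    nlinarith [norm_nonneg y, sq_nonneg (2 * ‖y‖ - r)]
  exact slStr_blk b hp hq hsep hy hyr hx hcard

end Crest.Agent.R330.SlStr302
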