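import Crest.Agent.R330.StrataB_737
import Crest.Agent.R330.SlStr_302
import Crest.Agent.R330.Bind6_839

/-!
R330, S9-CAPBIND (helper302): reduction of the slice neighbourhoods `tubeS b c η δ` of 737 to
diagonal `c = dg b p` (304's names).

* `tubeS_act` : `tubeS b (act g c) η δ = tubeS b c η δ`; `tubeS_mono`.
* `exists_dg_Str` : `c ∈ Str b (k+1) \ Str b k` is conjugate to `dg b p` with `k+1` distinct
  positions.
* `Cen b p` : central directions; `ctrS_dg : ctrS b (dg b p) = Cen b p`; `mem_Cen_iff`.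
* `Uk_dg`, `Zs_dg` : 839's `Uk`, `Zs` are 304's `BlkC`, `Zt`.
* `split_dg` : `y ∈ Nor b (dg b p)` splits orthogonally as `PF y + (prB y - PF y) + (y - prB y)`.
-/

set_option autoImplicit false
set_option linter.unusedSectionVars false

open MeasureTheory Crest.MathPhysics.MatrixQM
open scoped BigOperators Matrix InnerProductSpace

noncomputable section

namespace Crest.Agent.R330.DiagRed302

open Crest.Agent.R330.Strata737
open Crest.Agent.R330.SlB314 (br brx Tan Nor mem_Nor)
open Crest.Agent.R330.SlA314 (act_inv_act act_act_inv act_norm act_inner act_mul act_sub act_add)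
open Crest.Agent.R330.Diag304 (dg BlkC Zt prB mat_dg Sep)
open Crest.Agent.R330.SlStr302

variable {N : ℕ} (b : ColorBasis N)

local notation "V9" => EuclideanSpace ℝ (Fin 9)
local notation "SU" => Matrix.specialUnitaryGroup (Fin N) ℂ

/-! ## Equivariance -/

theorem act_mem_Nor {c y : Cfg N} (g : SU) (hy : y ∈ Nor b c) :
    b.act g y ∈ Nor b (b.act g c) := by
  rw [mem_Nor] at hy ⊢
  intro om
  have h := brx_act b g⁻¹ om (b.act g c)
  rw [act_inv_act] at h
  have h1 := hy (fun A => ∑ B, b.adjMat g⁻¹ A B * om B)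
  rw [h] at h1
  have h2 := act_inner b g⁻¹ (brx b om (b.act g c)) (b.act g y)
  rw [act_inv_act] at h2
  rw [← h2]
  exact h1

theorem PF_act (g : SU) (c y : Cfg N) :
    PF b (b.act g c) (b.act g y) = b.act g (PF b c y) := by
  refine (Submodule.eq_starProjection_of_mem_of_inner_eq_zero
    (act_mem_ctrS b g (PF_mem b c y)) fun w hw => ?_)
  have h1 : b.act g⁻¹ w ∈ ctrS b c := by
    have := act_mem_ctrS b g⁻¹ hw
    rwa [act_inv_act] at this
  have h2 : inner ℝ (y - PF b c y) (b.act g⁻¹ w) = 0 := by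
    have := Submodule.starProjection_inner_eq_zero (K := ctrS b c) y _ h1
    exact this
  rw [← act_sub, ← act_inner b g⁻¹, act_inv_act]
  exact h2

theorem tubeS_act_subset (g : SU) (c : Cfg N) (η δ : ℝ) :
    tubeS b c η δ ⊆ tubeS b (b.act g c) η δ := by
  rintro x ⟨h, y, hy, hn, hd, rfl⟩
  refine ⟨h * g⁻¹, b.act g y, act_mem_Nor b g hy, by rw [act_norm]; exact hn, ?_, ?_⟩
  · rw [PF_act, ← act_sub, act_norm]
    exact hd
  · rw [← act_add, act_mul, act_inv_act]

/-- the slice neighbourhoods only depend on the orbit of `c` -/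
theorem tubeS_act (g : SU) (c : Cfg N) (η δ : ℝ) :
    tubeS b (b.act g c) η δ = tubeS b c η δ := by
  refine Set.Subset.antisymm ?_ (tubeS_act_subset b g c η δ)
  have h := tubeS_act_subset b g⁻¹ (b.act g c) η δ
  rwa [act_inv_act] at h

theorem tubeS_mono {c : Cfg N} {η η' δ δ' : ℝ} (h : η ≤ η') (h' : δ ≤ δ') :
    tubeS b c η δ ⊆ tubeS b c η' δ' := by
  rintro x ⟨k, y, hy, hn, hd, rfl⟩
  exact ⟨k, y, hy, lt_of_lt_of_le hn h, lt_of_lt_of_le hd h', rfl⟩

theorem act_mem_tubeS {c x : Cfg N} {η δ : ℝ} (g : SU) (hx : x ∈ tubeS b c η δ) :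
    b.act g x ∈ tubeS b c η δ := by
  obtain ⟨h, y, hy, hn, hd, rfl⟩ := hx
  exact ⟨g * h, y, hy, hn, hd, by rw [act_mul]⟩

/-! ## Diagonal form of a point of a stratum -/

/-- the positions as vectors -/
def vp (p : Fin 9 → Fin N → ℝ) (a : Fin N) : V9 := WithLp.toLp 2 fun i => p i a

theorem dg_vp (p : Fin 9 → Fin N → ℝ) : dg b (vp p) = AcomV302.diagCfg b p := rfl

theorem sum_vp {p : Fin 9 → Fin N → ℝ} (hp : ∀ i, ∑ a, p i a = 0) : ∑ a, vp p a = 0 := by
  ext i
  simpa [vp] using hp i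

theorem card_vp (p : Fin 9 → Fin N → ℝ) :
    (Finset.univ.image (vp p)).card = nv p := by
  classical
  have h1 : ((Finset.univ.image (vp p) : Finset V9) : Set V9) =
      (fun v : Fin 9 → ℝ => (WithLp.toLp 2 v : V9)) '' Set.range (pt p) := by
    rw [Finset.coe_image, Finset.coe_univ, Set.image_univ, ← Set.range_comp]
    rfl
  rw [← Set.ncard_coe_finset, h1]
  exact Set.ncard_image_of_injective _ (WithLp.toLp_injective 2)

/-- points with exactly `k+1` clusters are conjugate to `dg b p` with `k+1` distinct positions -/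
theorem exists_dg_Str {k : ℕ} {c : Cfg N} (hc : c ∈ Str b (k + 1)) (hc' : c ∉ Str b k) :
    ∃ (g : SU) (p : Fin N → V9), ∑ a, p a = 0 ∧ b.act g c = dg b p ∧
      (Finset.univ.image p).card = k + 1 := by
  obtain ⟨g, p, hp, hn, he⟩ := hc
  refine ⟨g, vp p, sum_vp hp, he, ?_⟩
  rw [card_vp]
  refine le_antisymm hn ?_
  by_contra h
  exact hc' ⟨g, p, hp, by omega, he⟩

/-! ## Central directions -/

/-- `R⁹ ⊗ centre(k)` at `dg b p` -/
def Cen (p : Fin N → V9) : Submodule ℝ (Cfg N) where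
  carrier := {y | ∀ i a a', (a ≠ a' → Blk304.mat b y i a a' = 0) ∧
    (p a = p a' → Blk304.mat b y i a a = Blk304.mat b y i a' a')}
  add_mem' h1 h2 i a a' := by
    refine ⟨fun h => ?_, fun h => ?_⟩
    · rw [Blk304.mat_add, Matrix.add_apply, (h1 i a a').1 h, (h2 i a a').1 h, add_zero]
    · rw [Blk304.mat_add, Matrix.add_apply, Matrix.add_apply, (h1 i a a').2 h, (h2 i a a').2 h]
  zero_mem' i a a' := by rw [Blk304.mat_zero]; exact ⟨fun _ => rfl, fun _ => rfl⟩
  smul_mem' t y h1 i a a' := by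
    refine ⟨fun h => ?_, fun h => ?_⟩
    · rw [Blk304.mat_smul, Matrix.smul_apply, (h1 i a a').1 h, smul_zero]
    · rw [Blk304.mat_smul, Matrix.smul_apply, Matrix.smul_apply, (h1 i a a').2 h]

theorem mem_Cen {p : Fin N → V9} {y : Cfg N} : y ∈ Cen b p ↔
    ∀ i a a', (a ≠ a' → Blk304.mat b y i a a' = 0) ∧
      (p a = p a' → Blk304.mat b y i a a = Blk304.mat b y i a' a') := Iff.rfl

theorem dg_mem_Cen {p s : Fin N → V9} (hs : ∑ a, s a = 0)
    (h : ∀ a a', p a = p a' → s a = s a') : dg b s ∈ Cen b p := by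
  intro i a a'
  rw [mat_dg b hs]
  refine ⟨fun hne => Matrix.diagonal_apply_ne _ hne, fun heq => ?_⟩
  rw [Matrix.diagonal_apply_eq, Matrix.diagonal_apply_eq, h a a' heq]

theorem mem_Cen_iff {p : Fin N → V9} {y : Cfg N} : y ∈ Cen b p ↔
    ∃ s : Fin N → V9, (∀ a a', p a = p a' → s a = s a') ∧ ∑ a, s a = 0 ∧ y = dg b s := by
  constructor
  · intro h
    have hre : ∀ i a, Blk304.mat b y i a a = ((Blk304.mat b y i a a).re : ℂ) := by
      intro i a
      have h1 : (starRingEnd ℂ) (Blk304.mat b y i a a) = Blk304.mat b y i a a :=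
        congrFun (congrFun (Blk304.mat_herm b y i) a) a
      exact (Complex.conj_eq_iff_re.1 h1).symm
    refine ⟨fun a => WithLp.toLp 2 fun i => (Blk304.mat b y i a a).re, ?_, ?_, ?_⟩
    · intro a a' hpa
      ext i
      simp only
      rw [(h i a a').2 hpa]
    · ext i
      have h1 : (Blk304.mat b y i).trace = ((∑ a, (Blk304.mat b y i a a).re : ℝ) : ℂ) := by
        unfold Matrix.trace
        rw [Complex.ofReal_sum]
        exact Finset.sum_congr rfl fun a _ => hre i a
      rw [Blk304.mat_trace] at h1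
      have h2 := Complex.ofReal_eq_zero.1 h1.symm
      simpa using h2
    · apply Blk304.mat_inj b
      intro i
      have hs : ∑ a, (WithLp.toLp 2 fun i => (Blk304.mat b y i a a).re : V9) = 0 := by
        ext i
        have h1 : (Blk304.mat b y i).trace = ((∑ a, (Blk304.mat b y i a a).re : ℝ) : ℂ) := by
          unfold Matrix.trace
          rw [Complex.ofReal_sum]
          exact Finset.sum_congr rfl fun a _ => hre i a
        rw [Blk304.mat_trace] at h1
        have h2 := Complex.ofReal_eq_zero.1 h1.symm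
        simpa using h2
      rw [mat_dg b hs]
      ext a a'
      by_cases haa : a = a'
      · subst haa
        rw [Matrix.diagonal_apply_eq]
        exact hre i a
      · rw [Matrix.diagonal_apply_ne _ haa, (h i a a').1 haa]
  · rintro ⟨s, hs, hs0, rfl⟩
    exact dg_mem_Cen b hs0 hs

theorem Cen_le_BlkC (p : Fin N → V9) : Cen b p ≤ BlkC b p := by
  intro y hy i a a' h
  exact (hy i a a').1 fun haa => h (by rw [haa])

/-- Hermitian traceless matrix units -/
theorem exists_om {M : Matrix (Fin N) (Fin N) ℂ} (hM : M.IsHermitian) (ht : M.trace = 0) :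
    ∃ om : Fin (N ^ 2 - 1) → ℝ, SlA314.cm b om = M :=
  ⟨Blk304.cf b M, Blk304.hm_cf b hM ht⟩

theorem ctrS_dg {p : Fin N → V9} (hp : ∑ a, p a = 0) : ctrS b (dg b p) = Cen b p := by
  classical
  apply le_antisymm
  · intro y hy i a a'
    have key : ∀ M : Matrix (Fin N) (Fin N) ℂ, M.IsHermitian → M.trace = 0 →
        (∀ c c', p c ≠ p c' → M c c' = 0) → M * Blk304.mat b y i = Blk304.mat b y i * M := by
      intro M hM ht hblk
      obtain ⟨om, hom⟩ := exists_om b hM ht
      have h1 : brx b om (dg b p) = 0 := by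
        rw [Diag304.brx_dg_eq_zero b hp]
        intro c c' hne
        have : Blk304.hm b om = M := hom
        rw [this]
        exact hblk c c' hne
      have h2 := (brx_eq_zero_iff b om y).1 (hy om h1) i
      rw [hom] at h2
      exact h2
    constructor
    · intro haa
      have h1 := key (Matrix.single a a 1 - Matrix.single a' a' 1)
        (by
          unfold Matrix.IsHermitian
          rw [Matrix.conjTranspose_sub, Matrix.conjTranspose_single, Matrix.conjTranspose_single]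
          simp)
        (by rw [Matrix.trace_sub, Matrix.trace_single_eq_same, Matrix.trace_single_eq_same,
              sub_self])
        (by
          intro c c' hne
          have hcc : c ≠ c' := fun h => hne (by rw [h])
          rw [Matrix.sub_apply, Matrix.single_apply, Matrix.single_apply, if_neg, if_neg, sub_zero]
          · rintro ⟨h1, h2⟩; exact hcc (h1.symm.trans h2)
          · rintro ⟨h1, h2⟩; exact hcc (h1.symm.trans h2))
      have h2 := congrFun (congrFun h1 a) a'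
      rw [Matrix.sub_mul, Matrix.mul_sub, Matrix.sub_apply, Matrix.sub_apply,
        Matrix.single_mul_apply_same, Matrix.single_mul_apply_of_ne _ _ _ _ _ haa,
        Matrix.mul_single_apply_same, Matrix.mul_single_apply_of_ne _ _ _ _ _ haa.symm] at h2
      have h3 : 2 * Blk304.mat b y i a a' = 0 := by linear_combination h2
      rcases mul_eq_zero.1 h3 with h4 | h4
      · norm_num at h4
      · exact h4
    · intro hpa
      by_cases haa : a = a'
      · rw [haa]
      have h1 := key (Matrix.single a a' 1 + Matrix.single a' a 1)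
        (by
          unfold Matrix.IsHermitian
          rw [Matrix.conjTranspose_add, Matrix.conjTranspose_single, Matrix.conjTranspose_single,
            add_comm]
          simp)
        (by rw [Matrix.trace_add, Matrix.trace_single_eq_of_ne _ _ _ haa,
              Matrix.trace_single_eq_of_ne _ _ _ (Ne.symm haa), add_zero])
        (by
          intro c c' hne
          rw [Matrix.add_apply, Matrix.single_apply, Matrix.single_apply, if_neg, if_neg, add_zero]
          · rintro ⟨rfl, rfl⟩; exact hne hpa.symm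
          · rintro ⟨rfl, rfl⟩; exact hne hpa)
      have h2 := congrFun (congrFun h1 a) a'
      rw [Matrix.add_mul, Matrix.mul_add, Matrix.add_apply, Matrix.add_apply,
        Matrix.single_mul_apply_same, Matrix.single_mul_apply_of_ne _ _ _ _ _ haa,
        Matrix.mul_single_apply_same, Matrix.mul_single_apply_of_ne _ _ _ _ _ (Ne.symm haa)] at h2
      simpa using h2.symm
  · intro y hy
    obtain ⟨s, hs, hs0, rfl⟩ := (mem_Cen_iff b).1 hy
    intro om hom
    rw [Diag304.brx_dg_eq_zero b hp] at hom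
    rw [Diag304.brx_dg_eq_zero b hs0]
    exact fun a a' hne => hom a a' fun h => hne (hs a a' h)

/-! ## The spaces of 839 -/

theorem comp_eq_row (x : Cfg N) (i : Fin 9) : Bind6839.comp x i = Diag304.row x i := rfl

theorem mem_kc_dg {p : Fin N → V9} (hp : ∑ a, p a = 0) (w : LS839.Colg N) :
    w ∈ Frame839.kc (LS839.actB b) (dg b p) ↔ Diag304.pk b p w.ofLp = w.ofLp := by
  rw [Frame839.mem_kc, LS839.actB_apply, Diag304.brx_dg_eq_zero b hp, ← Diag304.pk_eq_self_iff]

theorem kc_dg {p : Fin N → V9} (hp : ∑ a, p a = 0) :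
    Frame839.kc (LS839.actB b) (dg b p) = (Diag304.colAlg b).kk (Diag304.row (dg b p)) := by
  ext w
  rw [mem_kc_dg b hp, Diag304.mem_kk_row b hp]

/-- `R⁹ ⊗ k` -/
theorem Uk_dg {p : Fin N → V9} (hp : ∑ a, p a = 0) :
    Bind6839.Uk b (dg b p) = BlkC b p := by
  ext y
  rw [Diag304.BlkC_row b hp]
  change (∀ i, Bind6839.comp y i ∈ Frame839.kc (LS839.actB b) (dg b p)) ↔ _
  rw [kc_dg b hp]
  rfl

/-- the transverse directions -/
theorem Zs_dg {p : Fin N → V9} (hp : ∑ a, p a = 0) :
    Bind6839.Zs b (dg b p) = Zt b p := by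
  ext z
  have h1 : z ∈ Bind6839.Zs b (dg b p) ↔
      (∀ i, Bind6839.comp z i ∈ (Frame839.kc (LS839.actB b) (dg b p))ᗮ) ∧
        z ∈ Nor b (dg b p) := by
    unfold Bind6839.Zs
    rw [Submodule.mem_inf, LS839.Nor_eq]
    rfl
  rw [h1, kc_dg b hp, Diag304.mem_Nor_dg b hp, Diag304.mem_Zt]
  refine and_congr (forall_congr' fun i => ?_) Iff.rfl
  rw [comp_eq_row, Diag304.mem_perp_row b hp, Diag304.pk_eq_zero_iff]
  rfl

/-! ## The orthogonal splitting of the slice -/

/-- the projection on the centre only sees the block part -/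
theorem PF_dg {p : Fin N → V9} (hp : ∑ a, p a = 0) {y z : Cfg N} (hz : z ∈ Zt b p) : PF b (dg b p) (y + z) = PF b (dg b p) y := by
  have h1 : PF b (dg b p) z = 0 := by
    unfold PF
    rw [Submodule.starProjection_apply_eq_zero_iff, Submodule.mem_orthogonal]
    intro u hu
    rw [ctrS_dg b hp] at hu
    exact Diag304.inner_BlkC_Zt b (Cen_le_BlkC b p hu) hz
  rw [map_add, h1, add_zero]

/-- block traceless configurations -/
def Tl (p : Fin N → V9) : Submodule ℝ (Cfg N) := BlkC b p ⊓ (Cen b p)ᗮ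

theorem sub_PF_mem_Tl {p : Fin N → V9} (hp : ∑ a, p a = 0) {y : Cfg N} (hy : y ∈ BlkC b p) :
    y - PF b (dg b p) y ∈ Tl b p := by
  refine ⟨Submodule.sub_mem _ hy ?_, ?_⟩
  · have := PF_mem b (dg b p) y
    rw [ctrS_dg b hp] at this
    exact Cen_le_BlkC b p this
  · rw [← ctrS_dg b hp]
    exact Submodule.sub_starProjection_mem_orthogonal y

/-- **The splitting of the slice**: centre, block traceless part, transverse part. -/
theorem split_dg {p : Fin N → V9} (hp : ∑ a, p a = 0) {y : Cfg N} (hy : y ∈ Nor b (dg b p)) :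
    PF b (dg b p) y ∈ Cen b p ∧ prB b p y - PF b (dg b p) y ∈ Tl b p ∧
      y - prB b p y ∈ Zt b p ∧
      ‖y - PF b (dg b p) y‖ ^ 2 = ‖prB b p y - PF b (dg b p) y‖ ^ 2 + ‖y - prB b p y‖ ^ 2 ∧
      ‖y‖ ^ 2 = ‖PF b (dg b p) y‖ ^ 2 + ‖prB b p y - PF b (dg b p) y‖ ^ 2 +
        ‖y - prB b p y‖ ^ 2 := by
  have hB := Diag304.prB_mem b p y
  have hZ := Diag304.sub_prB_mem b hp hy
  have hPF : PF b (dg b p) y = PF b (dg b p) (prB b p y) := by
    have := PF_dg b hp (y := prB b p y) hZ
    rwa [add_sub_cancel] at this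
  have hT := sub_PF_mem_Tl b hp hB
  rw [← hPF] at hT
  have hC : PF b (dg b p) y ∈ Cen b p := by
    rw [← ctrS_dg b hp]; exact PF_mem b _ y
  have i1 : ⟪prB b p y - PF b (dg b p) y, y - prB b p y⟫_ℝ = 0 :=
    Diag304.inner_BlkC_Zt b hT.1 hZ
  have i2 : ⟪PF b (dg b p) y, y - PF b (dg b p) y⟫_ℝ = 0 := by
    have h1 : y - PF b (dg b p) y = (prB b p y - PF b (dg b p) y) + (y - prB b p y) := by abel
    rw [h1, inner_add_right, Diag304.inner_BlkC_Zt b (Cen_le_BlkC b p hC) hZ, add_zero]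
    exact (Submodule.mem_orthogonal _ _).1 hT.2 _ hC
  have e1 : ‖y - PF b (dg b p) y‖ ^ 2 =
      ‖prB b p y - PF b (dg b p) y‖ ^ 2 + ‖y - prB b p y‖ ^ 2 := by
    have h1 : y - PF b (dg b p) y = (prB b p y - PF b (dg b p) y) + (y - prB b p y) := by abel
    conv_lhs => rw [h1]
    rw [norm_add_sq_real, i1]
    ring
  refine ⟨hC, hT, hZ, e1, ?_⟩
  have h2 : y = PF b (dg b p) y + (y - PF b (dg b p) y) := by abel
  have h3 : ‖y‖ ^ 2 = ‖PF b (dg b p) y‖ ^ 2 + ‖y - PF b (dg b p) y‖ ^ 2 := by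
    conv_lhs => rw [h2]
    rw [norm_add_sq_real, i2]
    ring
  rw [h3, e1]
  ring

/-- the slice neighbourhoods in the coordinates of 304 -/
theorem tubeS_dg {p : Fin N → V9} (hp : ∑ a, p a = 0) {η δ : ℝ} {x : Cfg N}
    (hx : x ∈ tubeS b (dg b p) η δ) :
    ∃ (h : SU) (r y z : Cfg N), r ∈ Cen b p ∧ y ∈ Tl b p ∧ z ∈ Zt b p ∧
      ‖r‖ ^ 2 + ‖y‖ ^ 2 + ‖z‖ ^ 2 < η ^ 2 ∧ ‖y‖ < δ ∧ ‖z‖ < δ ∧
      b.act h (dg b p + r + y + z) = x := by
  obtain ⟨h, y, hy, hn, hd, rfl⟩ := hx
  obtain ⟨h1, h2, h3, h4, h5⟩ := split_dg b hp hy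
  have hd0 : 0 < δ := lt_of_le_of_lt (norm_nonneg _) hd
  refine ⟨h, _, _, _, h1, h2, h3, ?_, ?_, ?_, ?_⟩
  · rw [← h5]
    exact pow_lt_pow_left₀ hn (norm_nonneg _) two_ne_zero
  · refine lt_of_le_of_lt ?_ hd
    refine (pow_le_pow_iff_left₀ (norm_nonneg _) (norm_nonneg _) two_ne_zero).1 ?_
    rw [h4]
    nlinarith [sq_nonneg ‖y - prB b p y‖]
  · refine lt_of_le_of_lt ?_ hd
    refine (pow_le_pow_iff_left₀ (norm_nonneg _) (norm_nonneg _) two_ne_zero).1 ?_
    rw [h4]
    nlinarith [sq_nonneg ‖prB b p y - PF b (dg b p) y‖]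
  · congr 1
    abel

/-- **Reduction of the local claim to diagonal `c`.** -/
theorem loc_of_dg {ι : Type*} {l : Filter ι} {m : ι → Set (Cfg N) → ENNReal}
    (hmono : ∀ j S T, S ⊆ T → m j S ≤ m j T) {k : ℕ}
    (hdg : ∀ p : Fin N → V9, ∑ a, p a = 0 → (Finset.univ.image p).card = k + 1 →
      ∃ η > 0, ∀ ε : ENNReal, 0 < ε → ∃ δ > 0, ∀ᶠ j in l, m j (tubeS b (dg b p) η δ) ≤ ε)
    {c : Cfg N} (hc : c ∈ Str b (k + 1)) (hc' : c ∉ Str b k) :
    ∃ η, SlP314.GoodRad b c η ∧ ∀ ε : ENNReal, 0 < ε → ∃ δ > 0,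
      ∀ᶠ j in l, m j (tubeS b c η δ) ≤ ε := by
  obtain ⟨g, p, hp, he, hcard⟩ := exists_dg_Str b hc hc'
  obtain ⟨η, hη, h⟩ := hdg p hp hcard
  obtain ⟨η', hη'⟩ := SlP314.exists_goodRad b c
  refine ⟨min η η', hη'.mono (lt_min hη hη'.pos) (min_le_right _ _), fun ε hε => ?_⟩
  obtain ⟨δ, hδ, hj⟩ := h ε hε
  refine ⟨δ, hδ, hj.mono fun j hm => (hmono j _ _ ?_).trans hm⟩
  rw [← he, tubeS_act]
  exact tubeS_mono b (min_le_left _ _) le_rfl

end Crest.Agent.R330.DiagRed302
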