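import Crest.Agent.R330.Blk2_317
import Crest.Agent.R330.DiagRed_302

/-!
# Row 330, S9-CAPBIND (helper741): the slice at `dg b p` in block coordinates

`e : (Σ q, Fin (k q)) ≃ Fin N`, `D = Dec.ofEquiv e` (317), `p (e ⟨q, i⟩) = R q`, `R` injective.

* `cut_apply`, `embM_same`, `embM_left`, `embM_right`, `eq_sum_embM` : entries, block-diagonal
  matrices.
* `cenM_eq`, `cenCfg_eq_dg` : 317's centre configurations are 304's `dg`.
* `tl` : `(Y_q) ↦ Σ_q embCfg q (Y_q)`; `tlE : PiLp 2 (fun q => Cfg (k q)) ≃ₗᵢ Tl b p`.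
* `blkE : WithLp 2 (Cen b p × PiLp 2 ..) ≃ₗᵢ BlkC b p`; `ukE` : the same for 839's `Uk b (dg b p)`;
  `norE : WithLp 2 (WithLp 2 (Cen b p × PiLp 2 ..) × Zt b p) ≃ₗᵢ Nor b (dg b p)`.
* `act_tl`, `act_Cen`, `act_iota_dg` : equivariance under the block groups.
* `PF_norE`, `norm_sub_PF_norE`, `norm_norE` : 737's centre projection in block coordinates.
* `measurePreserving_ukE`, `measurePreserving_norE` : product measures.
-/

set_option autoImplicit false
set_option linter.unusedSectionVars false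

open MeasureTheory Crest.MathPhysics.MatrixQM
open scoped BigOperators Matrix InnerProductSpace

noncomputable section

namespace Crest.Agent.R330.SlIso741

open Matrix
open Crest.Agent.R330.Blk317
open Crest.Agent.R330.SlB314 (Nor)
open Crest.Agent.R330.Diag304 (dg BlkC Zt)
open Crest.Agent.R330.DiagRed302 (Cen Tl)

local notation "V9" => EuclideanSpace ℝ (Fin 9)

variable {N : ℕ} {ι : Type*} [Fintype ι] {k : ι → ℕ}

/-! ### 1. Entries -/

section entries

variable (e : (Σ q, Fin (k q)) ≃ Fin N)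

theorem cut_apply (q : ι) (M : Matrix (Fin N) (Fin N) ℂ) (i j : Fin (k q)) :
    (Dec.ofEquiv e).cut q M i j = M (e ⟨q, i⟩) (e ⟨q, j⟩) := by
  unfold Dec.cut Dec.ofEquiv
  simp [Matrix.mul_apply, Matrix.conjTranspose_apply, apply_ite star]

theorem embM_same (q : ι) (X : Matrix (Fin (k q)) (Fin (k q)) ℂ) (i j : Fin (k q)) :
    (Dec.ofEquiv e).embM q X (e ⟨q, i⟩) (e ⟨q, j⟩) = X i j := by
  have h := cut_apply e q ((Dec.ofEquiv e).embM q X) i j
  rw [Dec.cut_embM] at h
  exact h.symm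

theorem V_ne {q q' : ι} (h : q' ≠ q) (i : Fin (k q')) (j : Fin (k q)) :
    (Dec.ofEquiv e).V q (e ⟨q', i⟩) j = 0 := by
  change (if e ⟨q', i⟩ = e ⟨q, j⟩ then (1 : ℂ) else 0) = 0
  rw [if_neg]
  intro h1
  have h2 := e.injective h1
  rw [Sigma.mk.injEq] at h2
  exact h h2.1

theorem embM_left {q q' : ι} (h : q' ≠ q) (X : Matrix (Fin (k q)) (Fin (k q)) ℂ)
    (i : Fin (k q')) (a : Fin N) : (Dec.ofEquiv e).embM q X (e ⟨q', i⟩) a = 0 := by
  unfold Dec.embM
  rw [Matrix.mul_assoc, Matrix.mul_apply]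
  exact Finset.sum_eq_zero fun j _ => by rw [V_ne e h, zero_mul]

theorem embM_right {q q' : ι} (h : q' ≠ q) (X : Matrix (Fin (k q)) (Fin (k q)) ℂ)
    (i : Fin (k q')) (a : Fin N) : (Dec.ofEquiv e).embM q X a (e ⟨q', i⟩) = 0 := by
  unfold Dec.embM
  rw [Matrix.mul_apply]
  exact Finset.sum_eq_zero fun j _ => by
    rw [Matrix.conjTranspose_apply, V_ne e h, star_zero, mul_zero]

/-- the cluster of an index -/
def cl (a : Fin N) : ι := (e.symm a).1

theorem cl_apply (q : ι) (i : Fin (k q)) : cl e (e ⟨q, i⟩) = q := by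
  unfold cl
  rw [Equiv.symm_apply_apply]

theorem eq_sum_embM {M : Matrix (Fin N) (Fin N) ℂ}
    (h : ∀ a a', cl e a ≠ cl e a' → M a a' = 0) :
    M = ∑ q, (Dec.ofEquiv e).embM q ((Dec.ofEquiv e).cut q M) := by
  classical
  ext a a'
  obtain ⟨⟨q, i⟩, rfl⟩ := e.surjective a
  obtain ⟨⟨q', j⟩, rfl⟩ := e.surjective a'
  rw [Matrix.sum_apply]
  by_cases hq : q = q'
  · subst hq
    rw [Finset.sum_eq_single q]
    · rw [embM_same, cut_apply]
    · intro q'' _ hne
      exact embM_left e hne.symm _ _ _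
    · intro hn
      exact absurd (Finset.mem_univ _) hn
  · rw [h _ _ (by rw [cl_apply, cl_apply]; exact hq)]
    symm
    refine Finset.sum_eq_zero fun q'' _ => ?_
    by_cases hq' : q = q''
    · subst hq'
      exact embM_right e (Ne.symm hq) _ _ _
    · exact embM_left e hq' _ _ _

theorem cenM_eq (r : ι → ℝ) :
    (Dec.ofEquiv e).cenM r = Matrix.diagonal fun a => ((r (cl e a) : ℝ) : ℂ) := by
  classical
  ext a a'
  obtain ⟨⟨q, i⟩, rfl⟩ := e.surjective a
  obtain ⟨⟨q', j⟩, rfl⟩ := e.surjective a'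
  unfold Dec.cenM
  rw [Matrix.sum_apply]
  by_cases hq : q = q'
  · subst hq
    rw [Finset.sum_eq_single q]
    · rw [Matrix.smul_apply, ← Dec.embM_one, embM_same, Matrix.one_apply]
      by_cases hij : i = j
      · subst hij
        rw [if_pos rfl, Matrix.diagonal_apply_eq, cl_apply, smul_eq_mul, mul_one]
      · rw [if_neg hij, smul_zero, Matrix.diagonal_apply_ne]
        intro h1
        have h2 := e.injective h1
        simp only [Sigma.mk.injEq, heq_eq_eq, true_and] at h2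
        exact hij h2
    · intro q'' _ hne
      rw [Matrix.smul_apply, ← Dec.embM_one, embM_left e hne.symm, smul_zero]
    · intro hn
      exact absurd (Finset.mem_univ _) hn
  · rw [Matrix.diagonal_apply_ne _ (fun h1 => hq (by
      have h2 := e.injective h1
      rw [Sigma.mk.injEq] at h2
      exact h2.1))]
    refine Finset.sum_eq_zero fun q'' _ => ?_
    by_cases hq' : q = q''
    · subst hq'
      rw [Matrix.smul_apply, ← Dec.embM_one, embM_right e (Ne.symm hq), smul_zero]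
    · rw [Matrix.smul_apply, ← Dec.embM_one, embM_left e hq', smul_zero]

end entries

/-! ### 2. Centre configurations -/

section centre

variable (b : ColorBasis N) (e : (Σ q, Fin (k q)) ≃ Fin N)

theorem sum_cl (r : ι → ℝ) : ∑ a, r (cl e a) = ∑ q, (k q : ℝ) * r q := by
  rw [← e.sum_comp fun a => r (cl e a), Fintype.sum_sigma]
  refine Finset.sum_congr rfl fun q _ => ?_
  simp [cl_apply]

theorem cenCfg_eq_dg (S : ι → V9) :
    (Dec.ofEquiv e).cenCfg b (fun i q => S q i) = dg b fun a => S (cl e a) := by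
  unfold Dec.cenCfg
  have h : (fun i => (Dec.ofEquiv e).cenM fun q => S q i) =
      fun i => Matrix.diagonal fun a => ((S (cl e a) i : ℝ) : ℂ) := by
    funext i
    exact cenM_eq e _
  rw [h]
  rfl

end centre

/-! ### 3. Block traceless configurations -/

section blocks

variable (b : ColorBasis N) (bp : ∀ q, ColorBasis (k q)) (e : (Σ q, Fin (k q)) ≃ Fin N)

/-- `(Y_q) ↦ Σ_q embCfg q (Y_q)` -/
def tl : PiLp 2 (fun q => Cfg (k q)) →ₗ[ℝ] Cfg N where
  toFun Y := ∑ q, (Dec.ofEquiv e).embCfg b bp q (Y q)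
  map_add' X Y := by
    rw [← Finset.sum_add_distrib]
    exact Finset.sum_congr rfl fun q _ => by rw [PiLp.add_apply, map_add]
  map_smul' t Y := by
    rw [RingHom.id_apply, Finset.smul_sum]
    exact Finset.sum_congr rfl fun q _ => by rw [PiLp.smul_apply, map_smul]

theorem tl_apply (Y : PiLp 2 (fun q => Cfg (k q))) :
    tl b bp e Y = ∑ q, (Dec.ofEquiv e).embCfg b bp q (Y q) := rfl

theorem mat_zero' (i : Fin 9) : SlA314.mat b (0 : Cfg N) i = 0 := by
  have := SlA314.mat_smul b 0 (0 : Cfg N) i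
  simpa using this

theorem mat_sum' {κ : Type*} (s : Finset κ) (x : κ → Cfg N) (i : Fin 9) :
    SlA314.mat b (∑ q ∈ s, x q) i = ∑ q ∈ s, SlA314.mat b (x q) i := by
  classical
  induction s using Finset.induction_on with
  | empty => simp [mat_zero']
  | insert a s ha ih => rw [Finset.sum_insert ha, Finset.sum_insert ha, SlA314.mat_add, ih]

theorem mat_tl (Y : PiLp 2 (fun q => Cfg (k q))) (i : Fin 9) :
    SlA314.mat b (tl b bp e Y) i =
      ∑ q, (Dec.ofEquiv e).embM q (SlA314.mat (bp q) (Y q) i) := by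
  rw [tl_apply, mat_sum']
  exact Finset.sum_congr rfl fun q _ => Dec.mat_embCfg _ b bp q _ i

theorem norm_tl (Y : PiLp 2 (fun q => Cfg (k q))) : ‖tl b bp e Y‖ = ‖Y‖ := by
  classical
  have h : ‖tl b bp e Y‖ ^ 2 = ‖Y‖ ^ 2 := by
    rw [← real_inner_self_eq_norm_sq, tl_apply, sum_inner, PiLp.norm_sq_eq_of_L2]
    refine Finset.sum_congr rfl fun q _ => ?_
    rw [inner_sum, Finset.sum_eq_single q]
    · rw [LinearIsometry.inner_map_map, real_inner_self_eq_norm_sq]
    · intro q' _ hne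
      exact Dec.inner_embCfg_ne _ b bp hne.symm _ _
    · intro hn
      exact absurd (Finset.mem_univ _) hn
  exact (pow_left_inj₀ (norm_nonneg _) (norm_nonneg _) two_ne_zero).1 h

variable {p : Fin N → V9} {R : ι → V9}

theorem p_eq (hpe : ∀ q i, p (e ⟨q, i⟩) = R q) (a : Fin N) : p a = R (cl e a) := by
  obtain ⟨⟨q, i⟩, rfl⟩ := e.surjective a
  rw [hpe, cl_apply]

theorem tl_mem_BlkC (hpe : ∀ q i, p (e ⟨q, i⟩) = R q) (Y : PiLp 2 (fun q => Cfg (k q))) :
    tl b bp e Y ∈ BlkC b p := by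
  intro i a a' hne
  have h1 : Blk304.mat b (tl b bp e Y) i =
      ∑ q, (Dec.ofEquiv e).embM q (SlA314.mat (bp q) (Y q) i) := mat_tl b bp e Y i
  rw [h1, Matrix.sum_apply]
  obtain ⟨⟨q, j⟩, rfl⟩ := e.surjective a
  obtain ⟨⟨q', j'⟩, rfl⟩ := e.surjective a'
  rw [hpe, hpe] at hne
  have hq : q ≠ q' := fun h => hne (by rw [h])
  refine Finset.sum_eq_zero fun q'' _ => ?_
  by_cases hq' : q = q''
  · subst hq'
    exact embM_right e (Ne.symm hq) _ _ _
  · exact embM_left e hq' _ _ _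

/-- central configurations in the names of 317 -/
theorem mem_Cen_cen (hR : Function.Injective R) (hpe : ∀ q i, p (e ⟨q, i⟩) = R q) {y : Cfg N} :
    y ∈ Cen b p ↔ ∃ S : ι → V9, ∑ q, (k q : ℝ) • S q = 0 ∧
      y = (Dec.ofEquiv e).cenCfg b (fun i q => S q i) := by
  have hsum : ∀ S : ι → V9, ∑ a, S (cl e a) = ∑ q, (k q : ℝ) • S q := by
    intro S
    rw [← e.sum_comp fun a => S (cl e a), Fintype.sum_sigma]
    refine Finset.sum_congr rfl fun q _ => ?_
    simp [cl_apply, Nat.cast_smul_eq_nsmul]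
  constructor
  · intro h
    obtain ⟨s, hs, hs0, rfl⟩ := (DiagRed302.mem_Cen_iff b).1 h
    refine ⟨fun q => if hq : 0 < k q then s (e ⟨q, ⟨0, hq⟩⟩) else 0, ?_, ?_⟩
    · rw [← hsum]
      rw [← hs0]
      refine Finset.sum_congr rfl fun a _ => ?_
      obtain ⟨⟨q, j⟩, rfl⟩ := e.surjective a
      rw [cl_apply, dif_pos (lt_of_le_of_lt (Nat.zero_le _) j.2)]
      exact hs _ _ (by rw [hpe, hpe])
    · rw [cenCfg_eq_dg]
      congr 1
      funext a
      obtain ⟨⟨q, j⟩, rfl⟩ := e.surjective a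
      rw [cl_apply, dif_pos (lt_of_le_of_lt (Nat.zero_le _) j.2)]
      exact hs _ _ (by rw [hpe, hpe])
  · rintro ⟨S, hS, rfl⟩
    rw [cenCfg_eq_dg]
    refine DiagRed302.dg_mem_Cen b (by rw [hsum, hS]) fun a a' h => ?_
    rw [p_eq e hpe, p_eq e hpe] at h
    rw [hR h]

theorem cen_sum {S : ι → V9} (hS : ∑ q, (k q : ℝ) • S q = 0) (i : Fin 9) :
    ∑ q, (k q : ℝ) * S q i = 0 := by
  have h := congrArg (fun v : V9 => v i) hS
  simpa using h

theorem tl_mem_Tl (hR : Function.Injective R) (hpe : ∀ q i, p (e ⟨q, i⟩) = R q)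
    (Y : PiLp 2 (fun q => Cfg (k q))) : tl b bp e Y ∈ Tl b p := by
  refine ⟨tl_mem_BlkC b bp e hpe Y, ?_⟩
  rw [SetLike.mem_coe, Submodule.mem_orthogonal]
  intro u hu
  obtain ⟨S, hS, rfl⟩ := (mem_Cen_cen b e hR hpe).1 hu
  rw [tl_apply, inner_sum]
  exact Finset.sum_eq_zero fun q _ =>
    Dec.inner_cenCfg_embCfg _ b bp (R := fun i q => S q i) (cen_sum hS) q _

theorem exists_tl (hR : Function.Injective R) (hpe : ∀ q i, p (e ⟨q, i⟩) = R q) {y : Cfg N}
    (hy : y ∈ Tl b p) : ∃ Y, tl b bp e Y = y := by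
  classical
  set D := Dec.ofEquiv e with hD
  have hM : ∀ i, SlA314.mat b y i = ∑ q, D.embM q (D.cut q (SlA314.mat b y i)) := by
    intro i
    refine eq_sum_embM e fun a a' hne => ?_
    refine hy.1 i a a' ?_
    rw [p_eq e hpe, p_eq e hpe]
    exact fun h => hne (hR h)
  -- traces of the blocks
  set t : Fin 9 → ι → ℝ := fun i q => (D.cut q (SlA314.mat b y i)).trace.re with ht
  have htr : ∀ i q, (D.cut q (SlA314.mat b y i)).trace = (t i q : ℂ) := by
    intro i q
    have h1 := D.cut_herm q (SlA314.mat_herm b y i)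
    have h2 : star (D.cut q (SlA314.mat b y i)).trace = (D.cut q (SlA314.mat b y i)).trace := by
      rw [← Matrix.trace_conjTranspose, h1.eq]
    exact (Complex.conj_eq_iff_re.1 h2).symm
  have hk0 : ∀ i q, k q = 0 → t i q = 0 := by
    intro i q hq
    have : IsEmpty (Fin (k q)) := by rw [hq]; infer_instance
    simp [ht, Matrix.trace]
  have hsum : ∀ i, ∑ q, (k q : ℝ) * (t i q / k q) = 0 := by
    intro i
    have h1 : ∑ q, (k q : ℝ) * (t i q / k q) = ∑ q, t i q := by
      refine Finset.sum_congr rfl fun q _ => ?_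
      by_cases hq : k q = 0
      · rw [hk0 i q hq]; simp
      · have : (k q : ℝ) ≠ 0 := by exact_mod_cast hq
        field_simp
    rw [h1]
    have h2 := D.sum_trace_cut (SlA314.mat b y i)
    rw [SlA314.mat_trace] at h2
    have h3 : ((∑ q, t i q : ℝ) : ℂ) = 0 := by
      rw [← h2]
      push_cast
      exact Finset.sum_congr rfl fun q _ => (htr i q).symm
    exact_mod_cast h3
  have hu : D.cenCfg b (fun i q => t i q / k q) ∈ Cen b p := by
    refine (mem_Cen_cen b e hR hpe).2 ⟨fun q => WithLp.toLp 2 fun i => t i q / k q, ?_, rfl⟩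
    ext i
    simpa using hsum i
  have h0 := (Submodule.mem_orthogonal _ _).1 hy.2 _ hu
  have h1 : ∀ i q, t i q = 0 := by
    have h2 : (∑ i, ∑ q, (t i q) ^ 2 / k q : ℝ) = 0 := by
      have h3 : ((∑ i, ∑ q, (t i q) ^ 2 / k q : ℝ) : ℂ) = ((0 : ℝ) : ℂ) := by
        rw [← h0, SlA314.inner_eq b]
        push_cast
        refine Finset.sum_congr rfl fun i _ => ?_
        rw [D.mat_cenCfg b hsum]
        unfold Dec.cenM
        rw [Finset.sum_mul, Matrix.trace_sum]
        refine Finset.sum_congr rfl fun q _ => ?_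
        rw [Matrix.smul_mul, Matrix.trace_smul, ← Dec.embM_one, Dec.embM_trace_mul, Matrix.one_mul,
          htr, smul_eq_mul]
        push_cast
        ring
      exact_mod_cast h3
    intro i q
    have h4 := (Finset.sum_eq_zero_iff_of_nonneg (fun i _ => Finset.sum_nonneg fun q _ => by
      positivity)).1 h2 i (Finset.mem_univ i)
    have h5 := (Finset.sum_eq_zero_iff_of_nonneg (fun q _ => by positivity)).1 h4 q
      (Finset.mem_univ q)
    by_cases hq : k q = 0
    · exact hk0 i q hq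
    · have : (k q : ℝ) ≠ 0 := by exact_mod_cast hq
      rw [div_eq_zero_iff] at h5
      rcases h5 with h5 | h5
      · exact pow_eq_zero_iff two_ne_zero |>.1 h5
      · exact absurd h5 this
  refine ⟨WithLp.toLp 2 fun q => Dec.cfgOf (bp q) fun i => D.cut q (SlA314.mat b y i), ?_⟩
  apply SlA314.mat_inj b
  intro i
  rw [mat_tl, hM i]
  refine Finset.sum_congr rfl fun q _ => ?_
  congr 1
  exact Dec.mat_cfgOf (bp q) (X := fun i => D.cut q (SlA314.mat b y i))
    (fun i => D.cut_herm q (SlA314.mat_herm b y i)) (fun i => by rw [htr, h1]; simp) i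

/-- **The block traceless configurations are the tuples of configurations of the blocks.** -/
def tlE (hR : Function.Injective R) (hpe : ∀ q i, p (e ⟨q, i⟩) = R q) :
    PiLp 2 (fun q => Cfg (k q)) ≃ₗᵢ[ℝ] Tl b p :=
  LinearIsometryEquiv.ofSurjective
    { toLinearMap := (tl b bp e).codRestrict (Tl b p) (tl_mem_Tl b bp e hR hpe)
      norm_map' := fun Y => norm_tl b bp e Y }
    (fun y => by
      obtain ⟨Y, hY⟩ := exists_tl b bp e hR hpe y.2
      exact ⟨Y, Subtype.ext hY⟩)

theorem coe_tlE (hR : Function.Injective R) (hpe : ∀ q i, p (e ⟨q, i⟩) = R q)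
    (Y : PiLp 2 (fun q => Cfg (k q))) :
    (tlE b bp e hR hpe Y : Cfg N) = ∑ q, (Dec.ofEquiv e).embCfg b bp q (Y q) := rfl

/-! ### 4. Equivariance -/

theorem act_zero' (g : Matrix.specialUnitaryGroup (Fin N) ℂ) : b.act g (0 : Cfg N) = 0 := by
  rw [← norm_eq_zero, SlA314.act_norm, norm_zero]

theorem act_sum' {κ : Type*} (s : Finset κ) (g : Matrix.specialUnitaryGroup (Fin N) ℂ)
    (x : κ → Cfg N) : b.act g (∑ q ∈ s, x q) = ∑ q ∈ s, b.act g (x q) := by
  classical
  induction s using Finset.induction_on with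
  | empty => simp [act_zero']
  | insert a s ha ih => rw [Finset.sum_insert ha, Finset.sum_insert ha, SlA314.act_add, ih]

/-- the block group acts on its own slot -/
theorem act_tl [DecidableEq ι] (q : ι) (h : Matrix.specialUnitaryGroup (Fin (k q)) ℂ)
    (Y : PiLp 2 (fun q => Cfg (k q))) :
    b.act ((Dec.ofEquiv e).iota q h) (tl b bp e Y) =
      tl b bp e (WithLp.toLp 2 (Function.update Y.ofLp q ((bp q).act h (Y q)))) := by
  rw [tl_apply, tl_apply, act_sum']
  refine Finset.sum_congr rfl fun q' _ => ?_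
  by_cases hq : q' = q
  · subst hq
    rw [Dec.act_embCfg]
    change _ = (Dec.ofEquiv e).embCfg b bp q' (Function.update Y.ofLp q' _ q')
    rw [Function.update_self]
  · rw [Dec.act_embCfg_ne _ _ _ (Ne.symm hq)]
    change _ = (Dec.ofEquiv e).embCfg b bp q' (Function.update Y.ofLp q _ q')
    rw [Function.update_of_ne hq]

/-- the block groups fix the centre directions -/
theorem act_Cen (hR : Function.Injective R) (hpe : ∀ q i, p (e ⟨q, i⟩) = R q) {u : Cfg N}
    (hu : u ∈ Cen b p) (q : ι) (h : Matrix.specialUnitaryGroup (Fin (k q)) ℂ) :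
    b.act ((Dec.ofEquiv e).iota q h) u = u := by
  obtain ⟨S, hS, rfl⟩ := (mem_Cen_cen b e hR hpe).1 hu
  exact Dec.act_cenCfg _ b (R := fun i q => S q i) (cen_sum hS) q h

/-- the block groups are in the stabiliser -/
theorem act_iota_dg (hR : Function.Injective R) (hpe : ∀ q i, p (e ⟨q, i⟩) = R q)
    (hp : ∑ a, p a = 0) (q : ι) (h : Matrix.specialUnitaryGroup (Fin (k q)) ℂ) :
    b.act ((Dec.ofEquiv e).iota q h) (dg b p) = dg b p :=
  act_Cen b e hR hpe (DiagRed302.dg_mem_Cen b hp fun _ _ h => h) q h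

/-! ### 5. The splitting as an isometry -/

/-- an orthogonal sum as an isometry onto a subspace -/
def supE {E : Type*} [NormedAddCommGroup E] [InnerProductSpace ℝ E] {A B C : Submodule ℝ E}
    (hAB : ∀ x ∈ A, ∀ y ∈ B, ⟪x, y⟫_ℝ = 0) (hA : A ≤ C) (hB : B ≤ C)
    (hC : ∀ z ∈ C, ∃ x ∈ A, ∃ y ∈ B, x + y = z) : WithLp 2 (A × B) ≃ₗᵢ[ℝ] C :=
  LinearIsometryEquiv.ofSurjective
    { toFun := fun x => ⟨(x.fst : E) + x.snd, C.add_mem (hA x.fst.2) (hB x.snd.2)⟩
      map_add' := fun x y => by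
        apply Subtype.ext
        simp only [WithLp.add_fst, WithLp.add_snd, Submodule.coe_add]
        abel
      map_smul' := fun t x => by
        apply Subtype.ext
        simp [WithLp.smul_fst, WithLp.smul_snd, smul_add]
      norm_map' := fun x => by
        have h : ‖(x.fst : E) + x.snd‖ ^ 2 = ‖x‖ ^ 2 := by
          rw [norm_add_sq_real, hAB _ x.fst.2 _ x.snd.2, WithLp.prod_norm_sq_eq_of_L2]
          simp
        exact (pow_left_inj₀ (norm_nonneg _) (norm_nonneg _) two_ne_zero).1 h }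
    (fun z => by
      obtain ⟨x, hx, y, hy, h⟩ := hC z z.2
      exact ⟨WithLp.toLp 2 (⟨x, hx⟩, ⟨y, hy⟩), Subtype.ext h⟩)

theorem coe_supE {E : Type*} [NormedAddCommGroup E] [InnerProductSpace ℝ E]
    {A B C : Submodule ℝ E} (hAB : ∀ x ∈ A, ∀ y ∈ B, ⟪x, y⟫_ℝ = 0) (hA : A ≤ C) (hB : B ≤ C)
    (hC : ∀ z ∈ C, ∃ x ∈ A, ∃ y ∈ B, x + y = z) (x : WithLp 2 (A × B)) :
    (supE hAB hA hB hC x : E) = x.fst + x.snd := rfl

/-- centre plus block traceless configurations -/
def cenTlE (hp : ∑ a, p a = 0) : WithLp 2 (Cen b p × Tl b p) ≃ₗᵢ[ℝ] BlkC b p :=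
  supE (fun _ hx _ hy => (Submodule.mem_orthogonal _ _).1 hy.2 _ hx)
    (DiagRed302.Cen_le_BlkC b p) inf_le_left (fun z hz => by
      refine ⟨Strata737.PF b (dg b p) z, ?_, z - Strata737.PF b (dg b p) z,
        DiagRed302.sub_PF_mem_Tl b hp hz, by abel⟩
      have := Strata737.PF_mem b (dg b p) z
      rwa [DiagRed302.ctrS_dg b hp] at this)

/-- an isometry in the second slot of an orthogonal sum -/
def sndE {A B B' : Type*} [NormedAddCommGroup A] [InnerProductSpace ℝ A] [NormedAddCommGroup B]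
    [InnerProductSpace ℝ B] [NormedAddCommGroup B'] [InnerProductSpace ℝ B'] (T : B ≃ₗᵢ[ℝ] B') :
    WithLp 2 (A × B) ≃ₗᵢ[ℝ] WithLp 2 (A × B') :=
  LinearIsometryEquiv.ofSurjective
    { toFun := fun x => WithLp.toLp 2 (x.fst, T x.snd)
      map_add' := fun x y => by
        rw [WithLp.add_fst, WithLp.add_snd, map_add]
        rfl
      map_smul' := fun t x => by
        rw [WithLp.smul_fst, WithLp.smul_snd, map_smul]
        rfl
      norm_map' := fun x => by
        have h : ‖(WithLp.toLp 2 (x.fst, T x.snd) : WithLp 2 (A × B'))‖ ^ 2 = ‖x‖ ^ 2 := by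
          rw [WithLp.prod_norm_sq_eq_of_L2, WithLp.prod_norm_sq_eq_of_L2]
          simp
        exact (pow_left_inj₀ (norm_nonneg _) (norm_nonneg _) two_ne_zero).1 h }
    (fun z => ⟨WithLp.toLp 2 (z.fst, T.symm z.snd), by
      change WithLp.toLp 2 (z.fst, T (T.symm z.snd)) = z
      rw [T.apply_symm_apply]
      rfl⟩)

/-- an isometry in the first slot of an orthogonal sum -/
def fstE {A A' B : Type*} [NormedAddCommGroup A] [InnerProductSpace ℝ A] [NormedAddCommGroup A']
    [InnerProductSpace ℝ A'] [NormedAddCommGroup B] [InnerProductSpace ℝ B] (T : A ≃ₗᵢ[ℝ] A') :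
    WithLp 2 (A × B) ≃ₗᵢ[ℝ] WithLp 2 (A' × B) :=
  LinearIsometryEquiv.ofSurjective
    { toFun := fun x => WithLp.toLp 2 (T x.fst, x.snd)
      map_add' := fun x y => by
        rw [WithLp.add_fst, WithLp.add_snd, map_add]
        rfl
      map_smul' := fun t x => by
        rw [WithLp.smul_fst, WithLp.smul_snd, map_smul]
        rfl
      norm_map' := fun x => by
        have h : ‖(WithLp.toLp 2 (T x.fst, x.snd) : WithLp 2 (A' × B))‖ ^ 2 = ‖x‖ ^ 2 := by
          rw [WithLp.prod_norm_sq_eq_of_L2, WithLp.prod_norm_sq_eq_of_L2]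
          simp
        exact (pow_left_inj₀ (norm_nonneg _) (norm_nonneg _) two_ne_zero).1 h }
    (fun z => ⟨WithLp.toLp 2 (T.symm z.fst, z.snd), by
      change WithLp.toLp 2 (T (T.symm z.fst), z.snd) = z
      rw [T.apply_symm_apply]
      rfl⟩)

/-- **Block coordinates of the block-diagonal configurations.** -/
def blkE (hR : Function.Injective R) (hpe : ∀ q i, p (e ⟨q, i⟩) = R q) (hp : ∑ a, p a = 0) :
    WithLp 2 (Cen b p × PiLp 2 (fun q => Cfg (k q))) ≃ₗᵢ[ℝ] BlkC b p :=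
  (sndE (tlE b bp e hR hpe)).trans (cenTlE b hp)

theorem coe_blkE (hR : Function.Injective R) (hpe : ∀ q i, p (e ⟨q, i⟩) = R q)
    (hp : ∑ a, p a = 0) (x : WithLp 2 (Cen b p × PiLp 2 (fun q => Cfg (k q)))) :
    (blkE b bp e hR hpe hp x : Cfg N) =
      x.fst + ∑ q, (Dec.ofEquiv e).embCfg b bp q (x.snd q) := rfl

/-- **Block coordinates of the normal space.** -/
def norE (hR : Function.Injective R) (hpe : ∀ q i, p (e ⟨q, i⟩) = R q) (hp : ∑ a, p a = 0) :
    WithLp 2 (WithLp 2 (Cen b p × PiLp 2 (fun q => Cfg (k q))) × Zt b p) ≃ₗᵢ[ℝ]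
      Nor b (dg b p) :=
  (fstE (blkE b bp e hR hpe hp)).trans
    (supE (fun _ hx _ hy => Diag304.inner_BlkC_Zt b hx hy) (Diag304.BlkC_le_Nor b hp)
      (Diag304.Zt_le_Nor b hp) (fun z hz => ⟨Diag304.prB b p z, Diag304.prB_mem b p z,
        z - Diag304.prB b p z, Diag304.sub_prB_mem b hp hz, by abel⟩))

theorem coe_norE (hR : Function.Injective R) (hpe : ∀ q i, p (e ⟨q, i⟩) = R q)
    (hp : ∑ a, p a = 0)
    (x : WithLp 2 (WithLp 2 (Cen b p × PiLp 2 (fun q => Cfg (k q))) × Zt b p)) :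
    (norE b bp e hR hpe hp x : Cfg N) =
      x.fst.fst + ∑ q, (Dec.ofEquiv e).embCfg b bp q (x.fst.snd q) + x.snd := rfl

/-- block coordinates of 839's `Uk b c` -/
def ukE (hR : Function.Injective R) (hpe : ∀ q i, p (e ⟨q, i⟩) = R q) (hp : ∑ a, p a = 0) :
    WithLp 2 (Cen b p × PiLp 2 (fun q => Cfg (k q))) ≃ₗᵢ[ℝ] Bind6839.Uk b (dg b p) :=
  (blkE b bp e hR hpe hp).trans (LinearIsometryEquiv.ofEq _ _ (DiagRed302.Uk_dg b hp).symm)

theorem coe_ukE (hR : Function.Injective R) (hpe : ∀ q i, p (e ⟨q, i⟩) = R q)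
    (hp : ∑ a, p a = 0) (x : WithLp 2 (Cen b p × PiLp 2 (fun q => Cfg (k q)))) :
    (ukE b bp e hR hpe hp x : Cfg N) =
      x.fst + ∑ q, (Dec.ofEquiv e).embCfg b bp q (x.snd q) := rfl

/-- the block group in block coordinates -/
theorem act_ukE [DecidableEq ι] (hR : Function.Injective R) (hpe : ∀ q i, p (e ⟨q, i⟩) = R q)
    (hp : ∑ a, p a = 0) (q : ι) (h : Matrix.specialUnitaryGroup (Fin (k q)) ℂ)
    (r : Cen b p) (Y : PiLp 2 (fun q => Cfg (k q))) :
    b.act ((Dec.ofEquiv e).iota q h) (ukE b bp e hR hpe hp (WithLp.toLp 2 (r, Y)) : Cfg N) =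
      ukE b bp e hR hpe hp (WithLp.toLp 2 (r,
        WithLp.toLp 2 (Function.update Y.ofLp q ((bp q).act h (Y q))))) := by
  rw [coe_ukE, coe_ukE, SlA314.act_add]
  congr 1
  · exact act_Cen b e hR hpe r.2 q h
  · exact act_tl b bp e q h Y

/-- **The integral over `R⁹ ⊗ k` in block coordinates.** -/
theorem measurePreserving_ukE (hR : Function.Injective R) (hpe : ∀ q i, p (e ⟨q, i⟩) = R q)
    (hp : ∑ a, p a = 0) :
    MeasurePreserving (fun x : Cen b p × PiLp 2 (fun q => Cfg (k q)) =>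
      ukE b bp e hR hpe hp (WithLp.toLp 2 x)) (volume.prod volume) volume :=
  (ukE b bp e hR hpe hp).measurePreserving.comp (WithLp.volume_preserving_toLp _ _)

theorem measurePreserving_blkE (hR : Function.Injective R) (hpe : ∀ q i, p (e ⟨q, i⟩) = R q)
    (hp : ∑ a, p a = 0) :
    MeasurePreserving (fun x : Cen b p × PiLp 2 (fun q => Cfg (k q)) =>
      blkE b bp e hR hpe hp (WithLp.toLp 2 x)) (volume.prod volume) volume :=
  (blkE b bp e hR hpe hp).measurePreserving.comp (WithLp.volume_preserving_toLp _ _)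

/-! ### 6. The centre projection in block coordinates -/

theorem PF_norE (hR : Function.Injective R) (hpe : ∀ q i, p (e ⟨q, i⟩) = R q)
    (hp : ∑ a, p a = 0)
    (x : WithLp 2 (WithLp 2 (Cen b p × PiLp 2 (fun q => Cfg (k q))) × Zt b p)) :
    Strata737.PF b (dg b p) (norE b bp e hR hpe hp x) = x.fst.fst := by
  rw [coe_norE, DiagRed302.PF_dg b hp x.snd.2, map_add, Strata737.PF_of_mem b]
  · have h1 : Strata737.PF b (dg b p)
        (∑ q, (Dec.ofEquiv e).embCfg b bp q (x.fst.snd q)) = 0 := by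
      unfold Strata737.PF
      rw [Submodule.starProjection_apply_eq_zero_iff, DiagRed302.ctrS_dg b hp]
      exact (tl_mem_Tl b bp e hR hpe x.fst.snd).2
    rw [h1, add_zero]
  · rw [DiagRed302.ctrS_dg b hp]
    exact x.fst.fst.2

theorem norm_sub_PF_norE (hR : Function.Injective R) (hpe : ∀ q i, p (e ⟨q, i⟩) = R q)
    (hp : ∑ a, p a = 0)
    (x : WithLp 2 (WithLp 2 (Cen b p × PiLp 2 (fun q => Cfg (k q))) × Zt b p)) :
    ‖(norE b bp e hR hpe hp x : Cfg N) - Strata737.PF b (dg b p) (norE b bp e hR hpe hp x)‖ ^ 2 =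
      ‖x.fst.snd‖ ^ 2 + ‖x.snd‖ ^ 2 := by
  rw [PF_norE, coe_norE]
  have h1 : (x.fst.fst : Cfg N) + ∑ q, (Dec.ofEquiv e).embCfg b bp q (x.fst.snd q) + x.snd -
      x.fst.fst = tl b bp e x.fst.snd + x.snd := by
    rw [tl_apply]; abel
  rw [h1, norm_add_sq_real,
    Diag304.inner_BlkC_Zt b (tl_mem_BlkC b bp e hpe x.fst.snd) x.snd.2, norm_tl]
  simp

theorem norm_norE (hR : Function.Injective R) (hpe : ∀ q i, p (e ⟨q, i⟩) = R q)
    (hp : ∑ a, p a = 0)
    (x : WithLp 2 (WithLp 2 (Cen b p × PiLp 2 (fun q => Cfg (k q))) × Zt b p)) :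
    ‖(norE b bp e hR hpe hp x : Cfg N)‖ ^ 2 =
      ‖x.fst.fst‖ ^ 2 + ‖x.fst.snd‖ ^ 2 + ‖x.snd‖ ^ 2 := by
  have h := (norE b bp e hR hpe hp).norm_map x
  rw [Submodule.coe_norm] at h
  rw [h, WithLp.prod_norm_sq_eq_of_L2, WithLp.prod_norm_sq_eq_of_L2]

/-- **The integral over the slice in block coordinates.** -/
theorem measurePreserving_norE (hR : Function.Injective R) (hpe : ∀ q i, p (e ⟨q, i⟩) = R q)
    (hp : ∑ a, p a = 0) :
    MeasurePreserving (fun x : (Cen b p × PiLp 2 (fun q => Cfg (k q))) × Zt b p =>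
      norE b bp e hR hpe hp (WithLp.toLp 2 (WithLp.toLp 2 x.1, x.2)))
      ((volume.prod volume).prod volume) volume :=
  ((norE b bp e hR hpe hp).measurePreserving.comp (WithLp.volume_preserving_toLp _ _)).comp
    ((WithLp.volume_preserving_toLp _ _).prod (MeasurePreserving.id _))

end blocks

end Crest.Agent.R330.SlIso741
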