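import Crest.Agent.R330.SlM_712

/-!
# Row 330, S5b-B4: user forms of the slice integration formula (helper712)

Everything for an arbitrary isometric parametrisation `ι : V →ₗᵢ Cfg N` of `Nor b c`.
-/

set_option autoImplicit false
set_option linter.unusedSectionVars false
noncomputable section

open MeasureTheory Metric Set Matrix
open Crest.MathPhysics.MatrixQM
open Crest.Agent.R330.SlA314 Crest.Agent.R330.SlB314
open Crest.Agent.R330.SlD314 Crest.Agent.R330.SlP314
open Crest.Agent.R330.Dbl798 Crest.Agent.R330.SlI712 Crest.Agent.R330.SlK712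
open Crest.Agent.R330.SlJ712 Crest.Agent.R330.SUgrp596 Crest.Agent.R330.SlM712
open scoped ContDiff Topology NNReal InnerProductSpace

namespace Crest.Agent.R330.SlN712

/-! ### change of parametrisation -/

section

variable {E V V' : Type*}
  [NormedAddCommGroup E] [InnerProductSpace ℝ E]
  [NormedAddCommGroup V] [InnerProductSpace ℝ V] [FiniteDimensional ℝ V] [MeasurableSpace V]
  [BorelSpace V]
  [NormedAddCommGroup V'] [InnerProductSpace ℝ V'] [FiniteDimensional ℝ V'] [MeasurableSpace V']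
  [BorelSpace V']

/-- two isometric parametrisations of one subspace differ by an isometry -/
theorem exists_equiv (ι : V →ₗᵢ[ℝ] E) (ι' : V' →ₗᵢ[ℝ] E)
    (h : LinearMap.range ι'.toLinearMap = LinearMap.range ι.toLinearMap) :
    ∃ e : V' ≃ₗᵢ[ℝ] V, ∀ u, ι (e u) = ι' u := by
  refine ⟨ι'.equivRange.trans ((LinearIsometryEquiv.ofEq _ _ h).trans ι.equivRange.symm), ?_⟩
  intro u
  have h1 : ∀ y : LinearMap.range ι.toLinearMap, ι (ι.equivRange.symm y) = (y : E) := by
    intro y
    obtain ⟨v, rfl⟩ := ι.equivRange.surjective y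
    rw [LinearIsometryEquiv.symm_apply_apply]
    rfl
  change ι (ι.equivRange.symm (LinearIsometryEquiv.ofEq _ _ h (ι'.equivRange u))) = ι' u
  rw [h1]
  rfl

variable {G : Type*} [Group G] [TopologicalSpace G] [IsTopologicalGroup G]
  [SecondCountableTopology G] [MeasurableSpace G] [BorelSpace G]
  [FiniteDimensional ℝ E] [MeasurableSpace E] [BorelSpace E]

theorem SliceInt.transfer {act : G → E → E} {c : E} {ι : V →ₗᵢ[ℝ] E} {μ : Measure G} {j : V → ℝ}
    {r0 : ℝ} (H : SliceInt act c ι μ j r0) (ι' : V' →ₗᵢ[ℝ] E) (e : V' ≃ₗᵢ[ℝ] V)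
    (he : ∀ u, ι (e u) = ι' u) : SliceInt act c ι' μ (fun u => j (e u)) r0 where
  iso := H.iso
  meas := H.meas.comp e.continuous.measurable
  pos u hu := H.pos _ (by rwa [e.norm_map])
  tube_meas r := by
    have h1 : SlI712.tube act c ι' r = SlI712.tube act c ι r := by
      ext x
      constructor
      · rintro ⟨g, u, hu, rfl⟩
        exact ⟨g, e u, by rwa [e.norm_map], by rw [he]⟩
      · rintro ⟨g, u, hu, rfl⟩
        refine ⟨g, e.symm u, by rwa [e.symm.norm_map], ?_⟩
        rw [← he, e.apply_symm_apply]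
    rw [h1]
    exact H.tube_meas r
  lint r hr f hf := by
    have h1 : SlI712.tube act c ι' r = SlI712.tube act c ι r := by
      ext x
      constructor
      · rintro ⟨g, u, hu, rfl⟩
        exact ⟨g, e u, by rwa [e.norm_map], by rw [he]⟩
      · rintro ⟨g, u, hu, rfl⟩
        refine ⟨g, e.symm u, by rwa [e.symm.norm_map], ?_⟩
        rw [← he, e.apply_symm_apply]
    rw [h1, H.lint r hr f hf]
    refine lintegral_congr fun g => ?_
    have hmp := e.measurePreserving
    have h2 := hmp.setLIntegral_comp_preimage_emb e.toHomeomorph.measurableEmbedding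
      (fun u => ENNReal.ofReal (j u) * f (act g (c + ι u))) (ball (0 : V) r)
    rw [← h2]
    have h3 : e ⁻¹' ball (0 : V) r = ball (0 : V') r := by
      ext u
      simp
    rw [h3]
    refine lintegral_congr fun u => ?_
    rw [he]

end

/-! ### the gauge action -/

variable {N : ℕ} {b : ColorBasis N} {c : Cfg N} {r0 C : ℝ}

/-- the density of the slice formula -/
def jd (b : ColorBasis N) (c : Cfg N) (C : ℝ) (y : Cfg N) : ℝ := C * jac b c y

theorem contDiff_jd {n : WithTop ℕ∞} : ContDiff ℝ n (jd b c C) :=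
  contDiff_const.mul (contDiff_jac b c)

theorem continuous_jd : Continuous (jd b c C) := continuous_const.mul (continuous_jac b c)

theorem jd_act {g : Matrix.specialUnitaryGroup (Fin N) ℂ} (hg : b.act g c = c) {y : Cfg N}
    (hy : y ∈ Nor b c) : jd b c C (b.act g y) = jd b c C y := by
  unfold jd
  rw [jac_act b hg hy]

end Crest.Agent.R330.SlN712

namespace Crest.Agent.R330.SlM712

open Crest.Agent.R330.SlN712

variable {N : ℕ} {b : ColorBasis N} {c : Cfg N} {r0 C : ℝ}

theorem SRad.mono (H : SRad b c r0 C) {r1 : ℝ} (h0 : 0 < r1) (h : r1 ≤ r0) :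
    SRad b c r1 C where
  pos := h0
  Cpos := H.Cpos
  good := H.good.mono h0 h
  jac_lb u hu := H.jac_lb u (hu.trans_le h)
  jac_ub u hu := H.jac_ub u (hu.trans_le h)
  slice := H.slice.mono h

theorem SRad.jd_lb (H : SRad b c r0 C) {y : Cfg N} (hy : ‖y‖ < r0) : C / 2 < jd b c C y := by
  have h1 := H.jac_lb y hy
  have h2 := H.Cpos
  unfold jd
  nlinarith

theorem SRad.jd_ub (H : SRad b c r0 C) {y : Cfg N} (hy : ‖y‖ < r0) : jd b c C y < 2 * C := by
  have h1 := H.jac_ub y hy
  have h2 := H.Cpos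
  unfold jd
  nlinarith

theorem SRad.jd_pos (H : SRad b c r0 C) {y : Cfg N} (hy : ‖y‖ < r0) : 0 < jd b c C y :=
  lt_trans (half_pos H.Cpos) (H.jd_lb hy)

variable {V : Type*} [NormedAddCommGroup V] [InnerProductSpace ℝ V] [FiniteDimensional ℝ V]
  [MeasurableSpace V] [BorelSpace V] {ι : V →ₗᵢ[ℝ] Cfg N}

/-- the slice formula for every isometric parametrisation of the normal space -/
theorem SRad.sliceInt (H : SRad b c r0 C) (hι : LinearMap.range ι.toLinearMap = Nor b c) :
    SliceInt (G := SU N) b.act c ι (haarSU N) (fun u => jd b c C (ι u)) r0 := by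
  obtain ⟨e, he⟩ := exists_equiv (iota b c) ι (by rw [hι, range_par])
  have h1 := SliceInt.transfer H.slice ι e he
  have h2 : (fun u => C * jac b c (iota b c (e u))) = fun u => jd b c C (ι u) := by
    funext u
    rw [he]
    rfl
  rw [h2] at h1
  exact h1

/-- all nonnegative functions -/
theorem SRad.lintegral_tube (H : SRad b c r0 C)
    (hι : LinearMap.range ι.toLinearMap = Nor b c) {r : ℝ} (hr : r ≤ r0)
    (f : Cfg N → ENNReal) (hf : Measurable f) :
    ∫⁻ x in SlD314.tube b c r, f x = ∫⁻ g, (∫⁻ u in ball (0 : V) r,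
      ENNReal.ofReal (jd b c C (ι u)) * f (b.act g (c + ι u))) ∂(haarSU N) := by
  have h := (H.sliceInt hι).lint r hr f hf
  rwa [tube_eq b c hι] at h

/-- nonnegative functions constant on orbits -/
theorem SRad.lintegral_inv (H : SRad b c r0 C)
    (hι : LinearMap.range ι.toLinearMap = Nor b c) {r : ℝ} (hr : r ≤ r0)
    {f : Cfg N → ENNReal} (hf : Measurable f) (hinv : ∀ g x, f (b.act g x) = f x) :
    ∫⁻ x in SlD314.tube b c r, f x =
      ∫⁻ u in ball (0 : V) r, ENNReal.ofReal (jd b c C (ι u)) * f (c + ι u) := by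
  have h := (H.sliceInt hι).lintegral_inv hr hf (fun g u _ => hinv g _)
  rwa [tube_eq b c hι] at h

section Bochner

variable {X : Type*} [NormedAddCommGroup X] [NormedSpace ℝ X] {h : Cfg N → X}

theorem SRad.integrableOn_iff (H : SRad b c r0 C)
    (hι : LinearMap.range ι.toLinearMap = Nor b c) {r : ℝ} (hr : r ≤ r0)
    (hh : AEStronglyMeasurable h (volume.restrict (SlD314.tube b c r)))
    (hinv : ∀ g x, h (b.act g x) = h x) :
    IntegrableOn h (SlD314.tube b c r) ↔
      IntegrableOn (fun u => jd b c C (ι u) • h (c + ι u)) (ball (0 : V) r) := by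
  rw [← tube_eq b c hι] at hh ⊢
  exact (H.sliceInt hι).integrableOn_iff hr hh (fun g u _ => hinv g _)

/-- **slice formula, Bochner integrals** -/
theorem SRad.setIntegral_inv (H : SRad b c r0 C)
    (hι : LinearMap.range ι.toLinearMap = Nor b c) {r : ℝ} (hr : r ≤ r0)
    (hh : AEStronglyMeasurable h (volume.restrict (SlD314.tube b c r)))
    (hinv : ∀ g x, h (b.act g x) = h x) :
    ∫ x in SlD314.tube b c r, h x =
      ∫ u in ball (0 : V) r, jd b c C (ι u) • h (c + ι u) := by
  rw [← tube_eq b c hι] at hh ⊢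
  exact (H.sliceInt hι).setIntegral_inv hr hh (fun g u _ => hinv g _)

/-- **slice formula** for functions vanishing off the tube -/
theorem SRad.integral_inv (H : SRad b c r0 C)
    (hι : LinearMap.range ι.toLinearMap = Nor b c) {r : ℝ} (hr : r ≤ r0)
    (hh : AEStronglyMeasurable h (volume.restrict (SlD314.tube b c r)))
    (hinv : ∀ g x, h (b.act g x) = h x) (hoff : ∀ x, x ∉ SlD314.tube b c r → h x = 0) :
    ∫ x, h x = ∫ u in ball (0 : V) r, jd b c C (ι u) • h (c + ι u) := by
  rw [← tube_eq b c hι] at hh hoff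
  exact (H.sliceInt hι).integral_inv hr hh (fun g u _ => hinv g _) hoff

theorem SRad.integrable_iff (H : SRad b c r0 C)
    (hι : LinearMap.range ι.toLinearMap = Nor b c) {r : ℝ} (hr : r ≤ r0)
    (hh : AEStronglyMeasurable h (volume.restrict (SlD314.tube b c r)))
    (hinv : ∀ g x, h (b.act g x) = h x) (hoff : ∀ x, x ∉ SlD314.tube b c r → h x = 0) :
    Integrable h ↔ IntegrableOn (fun u => jd b c C (ι u) • h (c + ι u)) (ball (0 : V) r) := by
  rw [← tube_eq b c hι] at hh hoff
  exact (H.sliceInt hι).integrable_iff hr hh (fun g u _ => hinv g _) hoff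

/-- functions vanishing off the tube, integral over the whole slice -/
theorem SRad.integral_inv' (H : SRad b c r0 C)
    (hι : LinearMap.range ι.toLinearMap = Nor b c) {r : ℝ} (hr : r ≤ r0)
    (hh : AEStronglyMeasurable h (volume.restrict (SlD314.tube b c r)))
    (hinv : ∀ g x, h (b.act g x) = h x) (hoff : ∀ x, x ∉ SlD314.tube b c r → h x = 0)
    (hoff' : ∀ u, r ≤ ‖u‖ → h (c + ι u) = 0) :
    ∫ x, h x = ∫ u, jd b c C (ι u) • h (c + ι u) := by
  rw [H.integral_inv hι hr hh hinv hoff]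
  refine setIntegral_eq_integral_of_forall_compl_eq_zero fun u hu => ?_
  rw [hoff' u (by simpa using hu), smul_zero]

end Bochner

/-! ### equivariant functions -/

section Equivariant

variable {F : Type*} [NormedAddCommGroup F] [InnerProductSpace ℂ F] [FiniteDimensional ℂ F]
  {M : FermionRep N F} {R : GaugeAction b M} {φ ψ : Cfg N → F}

theorem inner_inv (hφ : ∀ g x, φ (b.act g x) = R.ρ g (φ x))
    (hψ : ∀ g x, ψ (b.act g x) = R.ρ g (ψ x)) (g : Matrix.specialUnitaryGroup (Fin N) ℂ)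
    (x : Cfg N) : ⟪φ (b.act g x), ψ (b.act g x)⟫_ℂ = ⟪φ x, ψ x⟫_ℂ := by
  rw [hφ, hψ, R.unitary]

theorem norm_inv (hφ : ∀ g x, φ (b.act g x) = R.ρ g (φ x))
    (g : Matrix.specialUnitaryGroup (Fin N) ℂ) (x : Cfg N) : ‖φ (b.act g x)‖ = ‖φ x‖ := by
  have h := inner_inv hφ hφ g x
  rw [inner_self_eq_norm_sq_to_K, inner_self_eq_norm_sq_to_K] at h
  have h2 : ‖φ (b.act g x)‖ ^ 2 = ‖φ x‖ ^ 2 := by exact_mod_cast h
  exact (sq_eq_sq₀ (norm_nonneg _) (norm_nonneg _)).1 h2

/-- **pairing formula**: equivariant functions, one of them vanishing off the tube -/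
theorem SRad.integral_inner (H : SRad b c r0 C)
    (hι : LinearMap.range ι.toLinearMap = Nor b c) {r : ℝ} (hr : r ≤ r0)
    (hφm : AEStronglyMeasurable φ (volume.restrict (SlD314.tube b c r)))
    (hψm : AEStronglyMeasurable ψ (volume.restrict (SlD314.tube b c r)))
    (hφ : ∀ g x, φ (b.act g x) = R.ρ g (φ x)) (hψ : ∀ g x, ψ (b.act g x) = R.ρ g (ψ x))
    (hoff : ∀ x, x ∉ SlD314.tube b c r → ψ x = 0) :
    ∫ x, ⟪φ x, ψ x⟫_ℂ =
      ∫ u in ball (0 : V) r, jd b c C (ι u) • ⟪φ (c + ι u), ψ (c + ι u)⟫_ℂ := by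
  refine H.integral_inv (h := fun x => ⟪φ x, ψ x⟫_ℂ) hι hr (hφm.inner hψm)
    (inner_inv hφ hψ) ?_
  intro x hx
  simp only [hoff x hx, inner_zero_right]

theorem SRad.integrable_inner_iff (H : SRad b c r0 C)
    (hι : LinearMap.range ι.toLinearMap = Nor b c) {r : ℝ} (hr : r ≤ r0)
    (hφm : AEStronglyMeasurable φ (volume.restrict (SlD314.tube b c r)))
    (hψm : AEStronglyMeasurable ψ (volume.restrict (SlD314.tube b c r)))
    (hφ : ∀ g x, φ (b.act g x) = R.ρ g (φ x)) (hψ : ∀ g x, ψ (b.act g x) = R.ρ g (ψ x))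
    (hoff : ∀ x, x ∉ SlD314.tube b c r → ψ x = 0) :
    Integrable (fun x => ⟪φ x, ψ x⟫_ℂ) ↔
      IntegrableOn (fun u => jd b c C (ι u) • ⟪φ (c + ι u), ψ (c + ι u)⟫_ℂ) (ball (0 : V) r) := by
  refine H.integrable_iff (h := fun x => ⟪φ x, ψ x⟫_ℂ) hι hr (hφm.inner hψm)
    (inner_inv hφ hψ) ?_
  intro x hx
  simp only [hoff x hx, inner_zero_right]

/-- mass of an equivariant function in the tube, `lintegral` form -/
theorem SRad.lintegral_norm_sq (H : SRad b c r0 C)
    (hι : LinearMap.range ι.toLinearMap = Nor b c) {r : ℝ} (hr : r ≤ r0)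
    (hφm : Measurable fun x => ‖φ x‖ₑ) (hφ : ∀ g x, φ (b.act g x) = R.ρ g (φ x))
    {S : Set (Cfg N)} (hS : MeasurableSet S) (hSi : ∀ g x, b.act g x ∈ S ↔ x ∈ S) :
    ∫⁻ x in SlD314.tube b c r ∩ S, ‖φ x‖ₑ ^ 2 =
      ∫⁻ u in ball (0 : V) r ∩ (fun u => c + ι u) ⁻¹' S,
        ENNReal.ofReal (jd b c C (ι u)) * ‖φ (c + ι u)‖ₑ ^ 2 := by
  classical
  have hm : Measurable fun x => S.indicator (fun x => ‖φ x‖ₑ ^ 2) x :=
    (hφm.pow_const 2).indicator hS
  have h1 := H.lintegral_inv hι hr hm (fun g x => by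
    by_cases hx : x ∈ S
    · rw [indicator_of_mem hx, indicator_of_mem ((hSi g x).2 hx)]
      simp only [enorm, nnnorm, norm_inv hφ g x]
    · rw [indicator_of_notMem hx, indicator_of_notMem (fun h => hx ((hSi g x).1 h))])
  have hS' : MeasurableSet ((fun u : V => c + ι u) ⁻¹' S) :=
    (ι.continuous.measurable.const_add c) hS
  rw [setLIntegral_indicator hS, inter_comm] at h1
  rw [h1, inter_comm, ← setLIntegral_indicator hS']
  refine lintegral_congr fun u => ?_
  by_cases hu : c + ι u ∈ S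
  · rw [indicator_of_mem hu, indicator_of_mem (by exact hu)]
  · rw [indicator_of_notMem hu, indicator_of_notMem (by exact hu), mul_zero]

end Equivariant

end Crest.Agent.R330.SlM712
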