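import Crest.Agent.R330.CapBind_737
import Crest.Agent.R330.SlIso_741
import Crest.Agent.R330.SlN_712
import Crest.Agent.R330.KEq_823

/-!
# Row 330, S9-CAPBIND (helper737): from the slice coordinates to the tube

`c = dg b p` diagonal.

* `slE` : `Uk b c ⊕ Zs b c = Nor b c` as an isometry, `slι` the parametrisation of the normal
  space, `measurePreserving_slE`.
* `lintegral_tubeS_le` : the mass of `tubeS b c η δ` is bounded by the mass of the slice function
  over `{u ∈ Uk : ‖u‖ < η, ‖u - P_F u‖ < δ} × Zs`.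
* `sliceEstAt_of` : the slice estimate in slice coordinates gives `SliceEstAt`.
-/

set_option autoImplicit false
set_option linter.unusedSectionVars false

open MeasureTheory Filter Topology Set Crest.MathPhysics.MatrixQM
open scoped ContDiff InnerProductSpace ENNReal

noncomputable section

namespace Crest.Agent.R330.CapInt737

open Crest.Agent.R330.Defs478 Crest.Agent.R330.TrialSys796 Crest.Agent.R330.Strata737
  Crest.Agent.R330.SlP314 Crest.Agent.R330.CapBind737 Crest.Agent.R330.SlM712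
  Crest.Agent.R330.SlN712 Crest.Agent.R330.Bind6839 Crest.Agent.R330.Diag304
  Crest.Agent.R330.DiagRed302
open Crest.Agent.R330.SlB314 (Nor Tan)

local notation "V9" => EuclideanSpace ℝ (Fin 9)

variable {N : ℕ} {b : ColorBasis N} {p : Fin N → V9}

/-! ### the slice coordinates -/

variable (b) in
/-- `Uk ⊕ Zs = Nor` -/
def slE (hp : ∑ a, p a = 0) :
    WithLp 2 (Uk b (dg b p) × Zs b (dg b p)) ≃ₗᵢ[ℝ] Nor b (dg b p) :=
  SlIso741.supE
    (fun x hx y hy => by
      rw [Uk_dg b hp] at hx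
      rw [Zs_dg b hp] at hy
      exact Diag304.inner_BlkC_Zt b hx hy)
    (by rw [Uk_dg b hp]; exact Diag304.BlkC_le_Nor b hp)
    (by rw [Zs_dg b hp]; exact Diag304.Zt_le_Nor b hp)
    (fun z hz => ⟨Diag304.prB b p z, by rw [Uk_dg b hp]; exact Diag304.prB_mem b p z,
      z - Diag304.prB b p z, by rw [Zs_dg b hp]; exact Diag304.sub_prB_mem b hp hz, by abel⟩)

theorem coe_slE (hp : ∑ a, p a = 0) (x : WithLp 2 (Uk b (dg b p) × Zs b (dg b p))) :
    (slE b hp x : Cfg N) = x.fst + x.snd := rfl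

variable (b) in
/-- the parametrisation of the normal space -/
def slι (hp : ∑ a, p a = 0) : WithLp 2 (Uk b (dg b p) × Zs b (dg b p)) →ₗᵢ[ℝ] Cfg N :=
  (Nor b (dg b p)).subtypeₗᵢ.comp (slE b hp).toLinearIsometry

theorem slι_apply (hp : ∑ a, p a = 0) (x : WithLp 2 (Uk b (dg b p) × Zs b (dg b p))) :
    slι b hp x = (x.fst : Cfg N) + x.snd := rfl

theorem range_slι (hp : ∑ a, p a = 0) :
    LinearMap.range (slι b hp).toLinearMap = Nor b (dg b p) := by
  ext y
  constructor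
  · rintro ⟨x, rfl⟩
    exact (slE b hp x).2
  · intro hy
    refine ⟨(slE b hp).symm ⟨y, hy⟩, ?_⟩
    show ((slE b hp ((slE b hp).symm ⟨y, hy⟩) : Nor b (dg b p)) : Cfg N) = y
    rw [LinearIsometryEquiv.apply_symm_apply]

/-- `‖u - P_F u‖ ≤ ‖(u + z) - P_F (u + z)‖` -/
theorem sub_PF_le (hp : ∑ a, p a = 0) (u : Uk b (dg b p)) (z : Zs b (dg b p)) :
    ‖(u : Cfg N) - PF b (dg b p) u‖ ≤ ‖((u : Cfg N) + z) - PF b (dg b p) ((u : Cfg N) + z)‖ := by
  have hu : (u : Cfg N) ∈ BlkC b p := by rw [← Uk_dg b hp]; exact u.2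
  have hz : (z : Cfg N) ∈ Zt b p := by rw [← Zs_dg b hp]; exact z.2
  rw [PF_dg b hp hz]
  have hT := (sub_PF_mem_Tl b hp hu).1
  have h1 : ⟪(u : Cfg N) - PF b (dg b p) u, (z : Cfg N)⟫_ℝ = 0 :=
    Diag304.inner_BlkC_Zt b hT hz
  have h2 : ((u : Cfg N) + z) - PF b (dg b p) u = ((u : Cfg N) - PF b (dg b p) u) + z := by abel
  rw [h2]
  refine (pow_le_pow_iff_left₀ (norm_nonneg _) (norm_nonneg _) two_ne_zero).1 ?_
  rw [norm_add_sq_real, h1]
  nlinarith [sq_nonneg ‖(z : Cfg N)‖]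

theorem norm_u_le (hp : ∑ a, p a = 0) (u : Uk b (dg b p)) (z : Zs b (dg b p)) :
    ‖(u : Cfg N)‖ ≤ ‖(u : Cfg N) + z‖ := by
  have hu : (u : Cfg N) ∈ BlkC b p := by rw [← Uk_dg b hp]; exact u.2
  have hz : (z : Cfg N) ∈ Zt b p := by rw [← Zs_dg b hp]; exact z.2
  refine (pow_le_pow_iff_left₀ (norm_nonneg _) (norm_nonneg _) two_ne_zero).1 ?_
  rw [norm_add_sq_real, Diag304.inner_BlkC_Zt b hu hz]
  nlinarith [sq_nonneg ‖(z : Cfg N)‖]

/-- slice points of `tubeS` -/
theorem mem_tubeS_slice {c : Cfg N} {η δ : ℝ} (hg : GoodRad b c η) {y : Cfg N}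
    (hy : y ∈ Nor b c) (hn : ‖y‖ < η) (h : c + y ∈ tubeS b c η δ) : ‖y - PF b c y‖ < δ := by
  obtain ⟨k, y', hy', hn', hd, he⟩ := h
  have hk : b.act k c = c := hg.star k y' y hy' hy hn' hn he
  have h1 : b.act k y' = y := by
    rw [SlA314.act_add, hk] at he
    exact add_left_cancel he
  have h2 : PF b c y = b.act k (PF b c y') := by
    rw [← h1]
    have := DiagRed302.PF_act b k c y'
    rwa [hk] at this
  rw [h2, ← h1, ← SlA314.act_sub, SlA314.act_norm]
  exact hd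

variable (b p) in
/-- block displacements with small internal part -/
def Su (η δ : ℝ) : Set (Uk b (dg b p)) :=
  {u | ‖(u : Cfg N)‖ < η ∧ ‖(u : Cfg N) - PF b (dg b p) u‖ < δ}

theorem isOpen_Su (η δ : ℝ) : IsOpen (Su b p η δ) := by
  refine IsOpen.inter ?_ ?_
  · exact isOpen_lt (continuous_subtype_val.norm) continuous_const
  · refine isOpen_lt (Continuous.norm ?_) continuous_const
    exact continuous_subtype_val.sub ((PF b (dg b p)).continuous.comp continuous_subtype_val)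

variable {F : Type*} [NormedAddCommGroup F] [InnerProductSpace ℂ F] [FiniteDimensional ℂ F]
  {M : FermionRep N F} {R : GaugeAction b M}

/-- **From the tube to the slice.** -/
theorem lintegral_tubeS_le (hp : ∑ a, p a = 0) {r0 C η δ K : ℝ} (hK : 0 ≤ K)
    (H : SRad b (dg b p) r0 C) (hη0 : 0 < η) (hη : η ≤ r0) {φ : Cfg N → F}
    (hφ : IsCoreVec b R φ) {Φ : Uk b (dg b p) × Zs b (dg b p) → F} (hΦ : Continuous Φ)
    (hle : ∀ (u : Uk b (dg b p)) (z : Zs b (dg b p)), ‖(u : Cfg N) + z‖ < η →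
      jd b (dg b p) C ((u : Cfg N) + z) * ‖φ (dg b p + ((u : Cfg N) + z))‖ ^ 2 ≤
        K * ‖Φ (u, z)‖ ^ 2) :
    ∫⁻ x in tubeS b (dg b p) η δ, ‖φ x‖ₑ ^ 2 ≤
      ENNReal.ofReal K * ∫⁻ u in Su b p η δ, ∫⁻ z, ‖Φ (u, z)‖ₑ ^ 2 := by
  classical
  have hgood : GoodRad b (dg b p) η := H.good.mono hη0 hη
  have hopen : IsOpen (tubeS b (dg b p) η δ) := isOpen_tubeS b hgood δ
  have hinter : tubeS b (dg b p) η δ = SlD314.tube b (dg b p) η ∩ tubeS b (dg b p) η δ :=
    (Set.inter_eq_right.2 (tubeS_subset_tube b (dg b p) η δ)).symm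
  have hm : Measurable fun x => ‖φ x‖ₑ := hφ.1.continuous.enorm.measurable
  have h1 := H.lintegral_norm_sq (ι := slι b hp) (range_slι hp) hη hm hφ.2.2
    hopen.measurableSet (fun g x => mem_tubeS_act b g)
  rw [← hinter] at h1
  rw [h1]
  set W : Set (WithLp 2 (Uk b (dg b p) × Zs b (dg b p))) :=
    Metric.ball 0 η ∩ (fun v => dg b p + slι b hp v) ⁻¹' tubeS b (dg b p) η δ with hW
  have hWm : MeasurableSet W := by
    refine Metric.isOpen_ball.measurableSet.inter ?_
    refine (hopen.preimage ?_).measurableSet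
    exact continuous_const.add (slι b hp).continuous
  -- pointwise bound by a product indicator
  set f : Uk b (dg b p) × Zs b (dg b p) → ℝ≥0∞ := fun q =>
    (Su b p η δ).indicator (fun _ => ENNReal.ofReal K * ‖Φ q‖ₑ ^ 2) q.1 with hf
  have hfm : Measurable f := by
    have h2 : Measurable fun q : Uk b (dg b p) × Zs b (dg b p) => ENNReal.ofReal K * ‖Φ q‖ₑ ^ 2 :=
      (hΦ.enorm.measurable.pow_const 2).const_mul _
    have h3 : f = ((Prod.fst : Uk b (dg b p) × Zs b (dg b p) → Uk b (dg b p)) ⁻¹' Su b p η δ).indicator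
        (fun q => ENNReal.ofReal K * ‖Φ q‖ₑ ^ 2) := by
      funext q
      simp only [hf]
      by_cases hq : q.1 ∈ Su b p η δ
      · rw [indicator_of_mem hq, indicator_of_mem (by exact hq)]
      · rw [indicator_of_notMem hq, indicator_of_notMem (by exact hq)]
    rw [h3]
    exact h2.indicator (measurable_fst (isOpen_Su η δ).measurableSet)
  have h2 : ∫⁻ v in W, ENNReal.ofReal (jd b (dg b p) C (slι b hp v)) * ‖φ (dg b p + slι b hp v)‖ₑ ^ 2 ≤
      ∫⁻ v : WithLp 2 (Uk b (dg b p) × Zs b (dg b p)), f (WithLp.ofLp v) := by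
    rw [← lintegral_indicator hWm]
    refine lintegral_mono fun v => ?_
    by_cases hv : v ∈ W
    · rw [indicator_of_mem hv]
      have hv1 : ‖(v.fst : Cfg N) + v.snd‖ < η := by
        have h3 := hv.1
        rw [mem_ball_zero_iff] at h3
        have h4 := (slι b hp).norm_map v
        rw [slι_apply] at h4
        rw [h4]
        exact h3
      have hyN : ((v.fst : Cfg N) + v.snd) ∈ Nor b (dg b p) := (slE b hp v).2
      have hv2 := mem_tubeS_slice hgood hyN hv1 (by exact hv.2)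
      have hS : v.fst ∈ Su b p η δ := by
        refine ⟨(norm_u_le hp _ _).trans_lt hv1, (sub_PF_le hp v.fst v.snd).trans_lt hv2⟩
      have h5 : f (WithLp.ofLp v) = ENNReal.ofReal K * ‖Φ (v.fst, v.snd)‖ₑ ^ 2 := by
        simp only [hf]
        exact indicator_of_mem (by exact hS) _
      rw [h5, slι_apply]
      have h6 := hle v.fst v.snd hv1
      have h7 : ∀ w : F, ‖w‖ₑ ^ 2 = ENNReal.ofReal (‖w‖ ^ 2) := fun w => by
        rw [ENNReal.ofReal_pow (norm_nonneg _), ofReal_norm]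
      rw [h7, h7, ← ENNReal.ofReal_mul hK, ← ENNReal.ofReal_mul (H.jd_pos (hv1.trans_le hη)).le]
      exact ENNReal.ofReal_le_ofReal h6
    · rw [indicator_of_notMem hv]
      exact bot_le
  refine h2.trans ?_
  have h3 : ∫⁻ v : WithLp 2 (Uk b (dg b p) × Zs b (dg b p)), f (WithLp.ofLp v) = ∫⁻ q, f q := by
    have hmp := WithLp.volume_preserving_toLp (Uk b (dg b p)) (Zs b (dg b p))
    have h4 : Measurable fun v : WithLp 2 (Uk b (dg b p) × Zs b (dg b p)) => f (WithLp.ofLp v) :=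
      hfm.comp (WithLp.prod_continuous_ofLp _ _ _).measurable
    rw [← hmp.lintegral_comp h4]
  rw [h3, Measure.volume_eq_prod, lintegral_prod _ hfm.aemeasurable]
  have h4 : ∀ u, ∫⁻ z, f (u, z) = (Su b p η δ).indicator
      (fun u => ENNReal.ofReal K * ∫⁻ z, ‖Φ (u, z)‖ₑ ^ 2) u := by
    intro u
    by_cases hu : u ∈ Su b p η δ
    · rw [indicator_of_mem hu, ← lintegral_const_mul' _ _ ENNReal.ofReal_ne_top]
      refine lintegral_congr fun z => ?_
      simp only [hf]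
      rw [indicator_of_mem (by exact hu)]
    · rw [indicator_of_notMem hu, ← lintegral_zero]
      refine lintegral_congr fun z => ?_
      simp only [hf]
      rw [indicator_of_notMem (by exact hu)]
  simp only [h4]
  rw [lintegral_indicator (isOpen_Su η δ).measurableSet, lintegral_const_mul' _ _
    ENNReal.ofReal_ne_top]

/-- **The slice estimate from its form in slice coordinates**: `c = diagCfg b q = dg b (vp q)`.
For every null sequence one has slice functions `Φ_j` on `Uk × Zs` dominating `√jd φ_j(c + ·)` on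
the ball of radius `η`, whose mass over `Su η δ` is at most `ε` for infinitely many `j`. -/
theorem sliceEstAt_of {G : GammaNine} {m : ℝ} {X : Type*} {T : ℝ → X → Cfg N → F}
    {q : Fin 9 → Fin N → ℝ} (hq : ∀ i, ∑ a, q i a = 0) {r0 C η : ℝ}
    (H : SRad b (dg b (vp q)) r0 C) (hη0 : 0 < η) (hη : η ≤ r0)
    (hest : ∀ (g : ℕ → ℝ) (φ : ℕ → Cfg N → F), Null b M R G m T g φ →
      ∃ (K : ℝ) (Φ : ℕ → Uk b (dg b (vp q)) × Zs b (dg b (vp q)) → F), 0 ≤ K ∧
        (∀ j, Continuous (Φ j)) ∧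
        (∀ j (u : Uk b (dg b (vp q))) (z : Zs b (dg b (vp q))), ‖(u : Cfg N) + z‖ < η →
          jd b (dg b (vp q)) C ((u : Cfg N) + z) *
            ‖φ j (dg b (vp q) + ((u : Cfg N) + z))‖ ^ 2 ≤ K * ‖Φ j (u, z)‖ ^ 2) ∧
        ∀ ε : ℝ≥0∞, 0 < ε → ∃ δ : ℝ, 0 < δ ∧ ∃ᶠ j in atTop,
          ∫⁻ u in Su b (vp q) η δ, ∫⁻ z, ‖Φ j (u, z)‖ₑ ^ 2 ≤ ε) :
    SliceEstAt b M R G m T q := by
  refine ⟨η, H.good.mono hη0 hη, fun g φ hn ε hε => ?_⟩
  obtain ⟨K, Φ, hK, hΦ, hle, h⟩ := hest g φ hn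
  have hε' : 0 < ENNReal.ofReal (ε / (K + 1)) := by
    rw [ENNReal.ofReal_pos]; positivity
  obtain ⟨δ, hδ, hfr⟩ := h _ hε'
  refine ⟨δ, hδ, hfr.mono fun j hj => ?_⟩
  have h1 := lintegral_tubeS_le (δ := δ) (sum_vp hq) hK H hη0 hη (hn.core j) (hΦ j) (hle j)
  have h2 : ∫⁻ x in tubeS b (dg b (vp q)) η δ, ‖φ j x‖ₑ ^ 2 ≤ ENNReal.ofReal ε := by
    refine h1.trans ((mul_le_mul_right hj _).trans ?_)
    rw [← ENNReal.ofReal_mul hK]
    refine ENNReal.ofReal_le_ofReal ?_
    rw [mul_div_assoc', div_le_iff₀ (by positivity)]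
    nlinarith
  rw [mass_eq (hn.core j).1.continuous (hn.core j).2.1] at h2
  exact (ENNReal.ofReal_le_ofReal_iff hε.le).1 h2

end Crest.Agent.R330.CapInt737

end
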