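import Crest.Agent.R330.StrataB_737

/-!
# Row 330, S9-CAPBIND (helper741): gauge reduction of the slice neighbourhoods

* `act_mem_Nor_iff`, `act_mem_ctrS_iff`, `PF_act` : equivariance of `Nor`, `ctrS`, `PF`;
* `tubeS_act` : `tubeS b (act h c) η δ = tubeS b c η δ`; `tubeS_mono`;
* `act_mem_tubeS_iff` : `tubeS` is gauge invariant;
* `loc_of_act` : the local claim of the capture lemma at `act h c` implies the one at `c`
  (`GoodRad` itself is not literally equivariant: the radius is decreased);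
* `exists_sigma` : clusters of `p : Fin N → X` as an equivalence `(Σ q : Fin m, Fin (k q)) ≃ Fin N`
  with `p (e ⟨q, i⟩) = R q`, `R` injective, `0 < k q`.
-/

set_option autoImplicit false
set_option linter.unusedSectionVars false

open Filter Topology Crest.MathPhysics.MatrixQM
open scoped InnerProductSpace ENNReal

namespace Crest.Agent.R330.DiagRedB741

open Crest.Agent.R330.SlA314 Crest.Agent.R330.SlB314
open Crest.Agent.R330.SlP314 Crest.Agent.R330.Strata737

noncomputable section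

variable {N : ℕ} (b : ColorBasis N)

/-! ### equivariance -/

theorem act_mem_Nor {c y : Cfg N} (g : Matrix.specialUnitaryGroup (Fin N) ℂ) (hy : y ∈ Nor b c) :
    b.act g y ∈ Nor b (b.act g c) := by
  rw [mem_Nor] at hy ⊢
  intro om
  have h1 := brx_act b g⁻¹ om (b.act g c)
  rw [act_inv_act] at h1
  have h2 := hy (fun A => ∑ B, b.adjMat g⁻¹ A B * om B)
  rw [h1] at h2
  have h3 := act_inner b g⁻¹ (brx b om (b.act g c)) (b.act g y)
  rw [act_inv_act] at h3
  rw [← h3]
  exact h2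

theorem act_mem_Nor_iff {c y : Cfg N} (g : Matrix.specialUnitaryGroup (Fin N) ℂ) :
    b.act g y ∈ Nor b (b.act g c) ↔ y ∈ Nor b c := by
  constructor
  · intro h
    have h1 := act_mem_Nor b g⁻¹ h
    rwa [act_inv_act, act_inv_act] at h1
  · exact act_mem_Nor b g

theorem act_mem_ctrS_iff {c y : Cfg N} (g : Matrix.specialUnitaryGroup (Fin N) ℂ) :
    b.act g y ∈ ctrS b (b.act g c) ↔ y ∈ ctrS b c := by
  constructor
  · intro h
    have h1 := act_mem_ctrS b g⁻¹ h
    rwa [act_inv_act, act_inv_act] at h1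
  · exact act_mem_ctrS b g

theorem act_sub' (g : Matrix.specialUnitaryGroup (Fin N) ℂ) (x y : Cfg N) :
    b.act g (x - y) = b.act g x - b.act g y := SlA314.act_sub b g x y

theorem PF_act (c y : Cfg N) (g : Matrix.specialUnitaryGroup (Fin N) ℂ) :
    PF b (b.act g c) (b.act g y) = b.act g (PF b c y) := by
  unfold PF
  refine (Submodule.eq_starProjection_of_mem_orthogonal
    (K := ctrS b (b.act g c)) ?_ ?_)
  · exact act_mem_ctrS b g (Submodule.starProjection_apply_mem _ _)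
  · rw [← SlA314.act_sub, Submodule.mem_orthogonal]
    intro u hu
    have h1 : b.act g⁻¹ u ∈ ctrS b c := by
      have h := act_mem_ctrS b g⁻¹ hu
      rwa [act_inv_act] at h
    have h2 : y - (ctrS b c).starProjection y ∈ (ctrS b c)ᗮ :=
      Submodule.sub_starProjection_mem_orthogonal y
    have h3 := (Submodule.mem_orthogonal _ _).1 h2 _ h1
    have h4 := act_inner b g (b.act g⁻¹ u) (y - (ctrS b c).starProjection y)
    rw [act_act_inv] at h4
    rw [h4]
    exact h3

/-- the slice neighbourhoods depend only on the orbit -/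
theorem tubeS_act_le (c : Cfg N) (g : Matrix.specialUnitaryGroup (Fin N) ℂ) (η δ : ℝ) :
    tubeS b c η δ ⊆ tubeS b (b.act g c) η δ := by
  rintro x ⟨h, y, hy, hn, hd, he⟩
  refine ⟨h * g⁻¹, b.act g y, act_mem_Nor b g hy, by rwa [act_norm], ?_, ?_⟩
  · rw [PF_act, ← SlA314.act_sub, act_norm]
    exact hd
  · rw [← SlA314.act_add, SlA314.act_mul, act_inv_act]
    exact he

theorem tubeS_act (c : Cfg N) (g : Matrix.specialUnitaryGroup (Fin N) ℂ) (η δ : ℝ) :
    tubeS b (b.act g c) η δ = tubeS b c η δ := by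
  refine Set.Subset.antisymm ?_ (tubeS_act_le b c g η δ)
  have h := tubeS_act_le b (b.act g c) g⁻¹ η δ
  rwa [act_inv_act] at h

theorem tubeS_mono (c : Cfg N) {η η' δ δ' : ℝ} (hη : η ≤ η') (hδ : δ ≤ δ') :
    tubeS b c η δ ⊆ tubeS b c η' δ' := by
  rintro x ⟨h, y, hy, hn, hd, he⟩
  exact ⟨h, y, hy, hn.trans_le hη, hd.trans_le hδ, he⟩

theorem act_mem_tubeS_iff (c x : Cfg N) (g : Matrix.specialUnitaryGroup (Fin N) ℂ) (η δ : ℝ) :
    b.act g x ∈ tubeS b c η δ ↔ x ∈ tubeS b c η δ := by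
  have key : ∀ (g : Matrix.specialUnitaryGroup (Fin N) ℂ) (x : Cfg N), x ∈ tubeS b c η δ →
      b.act g x ∈ tubeS b c η δ := by
    rintro g x ⟨h, y, hy, hn, hd, he⟩
    exact ⟨g * h, y, hy, hn, hd, by rw [SlA314.act_mul, he]⟩
  constructor
  · intro h
    have h1 := key g⁻¹ _ h
    rwa [act_inv_act] at h1
  · exact key g x

/-- **Gauge reduction of the local claim** of the capture lemma. -/
theorem loc_of_act {ι : Type*} {l : Filter ι} {m : ι → Set (Cfg N) → ℝ≥0∞}
    (hmono : ∀ j S T, S ⊆ T → m j S ≤ m j T) (c : Cfg N)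
    (h : Matrix.specialUnitaryGroup (Fin N) ℂ)
    (hl : ∃ η, GoodRad b (b.act h c) η ∧ ∀ ε : ℝ≥0∞, 0 < ε → ∃ δ > 0,
      ∀ᶠ j in l, m j (tubeS b (b.act h c) η δ) ≤ ε) :
    ∃ η, GoodRad b c η ∧ ∀ ε : ℝ≥0∞, 0 < ε → ∃ δ > 0, ∀ᶠ j in l, m j (tubeS b c η δ) ≤ ε := by
  obtain ⟨η, hη, hε⟩ := hl
  obtain ⟨η₀, hη₀⟩ := exists_goodRad b c
  refine ⟨min η η₀, hη₀.mono (lt_min hη.pos hη₀.pos) (min_le_right _ _), fun ε he => ?_⟩
  obtain ⟨δ, hδ, hj⟩ := hε ε he
  refine ⟨δ, hδ, ?_⟩
  filter_upwards [hj] with j hj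
  refine (hmono j _ _ ?_).trans hj
  rw [tubeS_act]
  exact tubeS_mono b c (min_le_left _ _) le_rfl

/-! ### clusters -/

/-- **Enumeration of the clusters**. -/
theorem exists_sigma {X : Type*} [DecidableEq X] {n m : ℕ} (p : Fin n → X)
    (hm : (Finset.univ.image p).card = m) :
    ∃ (k : Fin m → ℕ) (R : Fin m → X) (e : (Σ q : Fin m, Fin (k q)) ≃ Fin n),
      Function.Injective R ∧ (∀ q, 0 < k q) ∧ ∀ (q : Fin m) (i : Fin (k q)), p (e ⟨q, i⟩) = R q := by
  classical
  have e1 : Fin m ≃ (Finset.univ.image p : Finset X) :=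
    (Fintype.equivFinOfCardEq (by rw [Fintype.card_coe, hm])).symm
  have e2 : ∀ q : Fin m, Fin (Fintype.card {a : Fin n // p a = (e1 q : X)}) ≃
      {a : Fin n // p a = (e1 q : X)} := fun q => (Fintype.equivFin _).symm
  obtain ⟨e3, he3⟩ : ∃ e3 : (Σ q : Fin m, {a : Fin n // p a = (e1 q : X)}) ≃ Fin n,
      ∀ x, e3 x = x.2.1 := ⟨
    { toFun := fun x => x.2.1
      invFun := fun a => ⟨e1.symm ⟨p a, Finset.mem_image_of_mem p (Finset.mem_univ a)⟩, a, by
        rw [Equiv.apply_symm_apply]⟩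
      left_inv := by
        rintro ⟨q, a, ha⟩
        have hq : e1.symm ⟨p a, Finset.mem_image_of_mem p (Finset.mem_univ a)⟩ = q := by
          rw [Equiv.symm_apply_eq]
          exact Subtype.ext ha
        subst hq
        rfl
      right_inv := fun a => rfl }, fun x => rfl⟩
  refine ⟨fun q => Fintype.card {a : Fin n // p a = (e1 q : X)}, fun q => (e1 q : X),
    (Equiv.sigmaCongrRight e2).trans e3, ?_, ?_, ?_⟩
  · exact fun q q' h => e1.injective (Subtype.ext h)
  · intro q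
    obtain ⟨a, -, ha⟩ := Finset.mem_image.1 (e1 q).2
    exact Fintype.card_pos_iff.2 ⟨⟨a, ha⟩⟩
  · intro q i
    change p (e3 ⟨q, e2 q i⟩) = (e1 q : X)
    rw [he3]
    exact (e2 q i).2

end

end Crest.Agent.R330.DiagRedB741
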