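import Crest.Agent.R330.Geo9_692
import Crest.Agent.R330.CapBind_737
import Crest.Agent.R330.DiagRedB_741

/-!
# Row 330, S9-CAPBIND (helper868): the slice estimate is needed only at regular positions

* `exists_perm_su` : every permutation of `Fin N` is realised by an element of `SU(N)`.
* `exists_regular` : a diagonal configuration with at least two clusters is conjugate to
  `cfX b P X`, `X` a regular position of some partition `P : Lam N`.
* `SliceEstC b M R G m T c` : 737's slice estimate at any configuration `c`; `SliceEstC.of_act` :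
  gauge reduction; `SliceEstC.reindex` : fewer amplitudes.
* `sliceEst_of_reg` : `SliceEst` of a family of channels from `SliceEstC` of each member at the
  regular positions of its partition.
-/

set_option autoImplicit false
set_option linter.unusedSectionVars false

open MeasureTheory Filter Topology Set Crest.MathPhysics.MatrixQM
open scoped ContDiff InnerProductSpace ENNReal

noncomputable section

namespace Crest.Agent.R330.CapRed868

open Crest.Agent.R330.Defs478 Crest.Agent.R330.Top478 Crest.Agent.R330.Sec478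
  Crest.Agent.R330.TrialSys796 Crest.Agent.R330.Chan441
  Crest.Agent.R330.AcomV302 Crest.Agent.R330.Strata737 Crest.Agent.R330.SlP314
  Crest.Agent.R330.CapBind737 Crest.Agent.R330.Parts879 Crest.Agent.R330.Geo692
open Crest.Agent.R330.Diag304 (dg)

variable {N : ℕ}

/-! ### permutation matrices -/

theorem exists_perm_su (hN : 0 < N) (b : ColorBasis N) (τ : Equiv.Perm (Fin N)) :
    ∃ g : Matrix.specialUnitaryGroup (Fin N) ℂ,
      ∀ p : Fin N → EuclideanSpace ℝ (Fin 9), ∑ a, p a = 0 →
        b.act g (dg b p) = dg b fun a => p (τ⁻¹ a) := by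
  classical
  set e : ℂ := (((Equiv.Perm.sign τ : ℤˣ) : ℤ) : ℂ) with he
  have hee : e * e = 1 := by
    rw [he]
    rcases Int.units_eq_one_or (Equiv.Perm.sign τ) with h | h <;> rw [h] <;> norm_num
  set d : Fin N → ℂ := fun a => if a = ⟨0, hN⟩ then e else 1 with hd
  have hdd : ∀ a, d a * star (d a) = 1 := by
    intro a
    simp only [hd]
    split_ifs
    · have : star e = e := by
        rw [he]
        simp
      rw [this, hee]
    · simp
  set W : Matrix (Fin N) (Fin N) ℂ := Matrix.diagonal d * (Equiv.Perm.permMatrix ℂ τ⁻¹) with hW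
  have hWapp : ∀ a c, W a c = if a = τ c then d a else 0 := by
    intro a c
    rw [hW, Matrix.diagonal_mul]
    have h1 : (Equiv.Perm.permMatrix ℂ τ⁻¹ : Matrix (Fin N) (Fin N) ℂ) a c =
        if τ⁻¹ a = c then 1 else 0 := by
      rw [Equiv.Perm.permMatrix, PEquiv.toMatrix_apply]
      simp [Equiv.toPEquiv_apply, eq_comm]
    rw [h1]
    by_cases h : a = τ c
    · subst h
      simp
    · have h2 : ¬ (τ⁻¹ a = c) := fun h3 => h (by rw [← h3, sia])
      rw [if_neg h, if_neg h2, mul_zero]
  have hWW : W * star W = 1 := by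
    ext a c
    rw [Matrix.mul_apply]
    simp only [Matrix.star_apply, hWapp]
    by_cases hac : a = c
    · subst hac
      rw [Matrix.one_apply_eq, Finset.sum_eq_single (τ⁻¹ a)]
      · simp only [sia, if_true]
        exact hdd a
      · intro x _ hx
        have : ¬ (a = τ x) := fun h => hx (by rw [h, ias])
        simp [this]
      · intro h
        exact absurd (Finset.mem_univ _) h
    · rw [Matrix.one_apply_ne hac]
      refine Finset.sum_eq_zero fun x _ => ?_
      by_cases h : a = τ x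
      · have h2 : ¬ (c = τ x) := fun h' => hac (h.trans h'.symm)
        simp [h2]
      · simp [h]
  have hdet : W.det = 1 := by
    rw [hW, Matrix.det_mul, Matrix.det_diagonal, Matrix.det_permutation]
    have h1 : ∏ a, d a = e := by
      rw [Finset.prod_eq_single (⟨0, hN⟩ : Fin N)]
      · simp [hd]
      · intro x _ hx
        simp [hd, hx]
      · intro h
        exact absurd (Finset.mem_univ _) h
    rw [h1, Equiv.Perm.sign_inv]
    exact hee
  have hU : W ∈ Matrix.unitaryGroup (Fin N) ℂ := Matrix.mem_unitaryGroup_iff.2 hWW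
  refine ⟨⟨W, Matrix.mem_specialUnitaryGroup_iff.2 ⟨hU, hdet⟩⟩, fun p hp => ?_⟩
  have hp' : ∑ a, p (τ⁻¹ a) = 0 := by
    rw [Equiv.sum_comp τ⁻¹ p]
    exact hp
  apply Blk304.mat_inj b
  intro i
  rw [Blk304.mat_act, Diag304.mat_dg b hp, Diag304.mat_dg b hp']
  have h1 : W * (Matrix.diagonal fun a => ((p a i : ℝ) : ℂ)) =
      (Matrix.diagonal fun a => ((p (τ⁻¹ a) i : ℝ) : ℂ)) * W := by
    ext a c
    rw [Matrix.mul_diagonal, Matrix.diagonal_mul, hWapp]
    by_cases h : a = τ c
    · rw [if_pos h, h, ias, mul_comm]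
    · rw [if_neg h]
      ring
  show W * _ * star W = _
  rw [h1, Matrix.mul_assoc, hWW, Matrix.mul_one]

/-! ### regular positions -/

/-- **A diagonal configuration with at least two clusters is conjugate to a regular position.** -/
theorem exists_regular (b : ColorBasis N) {p : Fin N → EuclideanSpace ℝ (Fin 9)}
    (hp : ∑ a, p a = 0) (h2 : ∃ a a', p a ≠ p a') :
    ∃ (P : Lam N) (X : XS P) (g : Matrix.specialUnitaryGroup (Fin N) ℂ), X ∈ Reg b P ∧
      b.act g (dg b p) = cfX b P X := by
  obtain ⟨P, r, τ, hr, hτ⟩ := exists_label p h2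
  have hN : 0 < N := lt_of_lt_of_le two_pos P.two_le
  have hs : ∑ q, (P.k q : ℝ) • r q = 0 := by
    have h1 : ∑ a : Fin N, r (P.cl a) = ∑ q, (P.k q : ℝ) • r q := by
      rw [← P.eqv.sum_comp, Fintype.sum_sigma]
      refine Finset.sum_congr rfl fun q _ => ?_
      simp [Lam.cl_eqv, ← Nat.cast_smul_eq_nsmul ℝ]
    rw [← h1, ← hp, ← Equiv.sum_comp τ p]
    exact Finset.sum_congr rfl fun a _ => (hτ a).symm
  obtain ⟨X, hX⟩ := exists_pos b P hs
  obtain ⟨g, hg⟩ := exists_perm_su hN b τ⁻¹
  refine ⟨P, X, g, fun q q' h => hr ?_, ?_⟩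
  · rw [← hX q, ← hX q']
    exact h
  · rw [hg p hp, cfX_eq_dg]
    congr 1
    funext a
    rw [inv_inv, hX]
    exact hτ a

/-! ### the slice estimate at one configuration -/

variable {F : Type*} [NormedAddCommGroup F] [InnerProductSpace ℂ F] [FiniteDimensional ℂ F]

/-- 737's slice estimate at the configuration `c`. -/
def SliceEstC (b : ColorBasis N) (M : FermionRep N F) (R : GaugeAction b M) (G : GammaNine)
    (m : ℝ) {X : Type*} (T : ℝ → X → Cfg N → F) (c : Cfg N) : Prop :=
  ∃ η : ℝ, GoodRad b c η ∧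
    ∀ (g : ℕ → ℝ) (φ : ℕ → Cfg N → F), Null b M R G m T g φ → ∀ ε : ℝ, 0 < ε →
      ∃ δ : ℝ, 0 < δ ∧ ∃ᶠ j in atTop, ∫ x in tubeS b c η δ, ‖φ j x‖ ^ 2 ≤ ε

variable {b : ColorBasis N} {M : FermionRep N F} {R : GaugeAction b M} {G : GammaNine} {m : ℝ}

theorem Null.reindex {X Y : Type*} {T : ℝ → X → Cfg N → F} {T' : ℝ → Y → Cfg N → F}
    {g : ℕ → ℝ} {φ : ℕ → Cfg N → F} (h : Null b M R G m T g φ)
    (f : ∀ y, ∃ x, ∀ g, T' g y = T g x) : Null b M R G m T' g φ where
  g_top := h.g_top
  core := h.core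
  en := h.en
  pair y := by
    obtain ⟨x, hx⟩ := f y
    simpa only [hx] using h.pair x

/-- fewer amplitudes -/
theorem SliceEstC.reindex {X Y : Type*} {T : ℝ → X → Cfg N → F} {T' : ℝ → Y → Cfg N → F}
    {c : Cfg N} (h : SliceEstC b M R G m T' c) (f : ∀ y, ∃ x, ∀ g, T' g y = T g x) :
    SliceEstC b M R G m T c := by
  obtain ⟨η, hη, h⟩ := h
  exact ⟨η, hη, fun g φ hn => h g φ (Null.reindex hn f)⟩

/-- gauge reduction -/
theorem SliceEstC.of_act {X : Type*} {T : ℝ → X → Cfg N → F} {c : Cfg N}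
    (q : Matrix.specialUnitaryGroup (Fin N) ℂ) (h : SliceEstC b M R G m T (b.act q c)) :
    SliceEstC b M R G m T c := by
  obtain ⟨η, hη, h⟩ := h
  obtain ⟨η₀, hη₀⟩ := exists_goodRad b c
  refine ⟨min η η₀, hη₀.mono (lt_min hη.pos hη₀.pos) (min_le_right _ _), fun g φ hn ε hε => ?_⟩
  obtain ⟨δ, hδ, hf⟩ := h g φ hn ε hε
  refine ⟨δ, hδ, hf.mono fun j hj => le_trans ?_ hj⟩
  have hc := hn.core j
  refine setIntegral_mono_set (integrableOn_sq hc.1.continuous hc.2.1 _)
    (ae_of_all _ fun x => by positivity) (LE.le.eventuallyLE ?_)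
  rw [DiagRedB741.tubeS_act]
  exact DiagRedB741.tubeS_mono b c (min_le_left _ _) le_rfl

theorem sliceEstAt_iff {X : Type*} {T : ℝ → X → Cfg N → F} {p : Fin 9 → Fin N → ℝ} :
    SliceEstAt b M R G m T p ↔ SliceEstC b M R G m T (diagCfg b p) := Iff.rfl

/-- **The slice estimate of a family from the regular positions of its members.** -/
theorem sliceEst_of_reg {X : Lam N → Type*} {T : ∀ P, ℝ → X P → Cfg N → F}
    (h : ∀ (P : Lam N) (X0 : XS P), X0 ∈ Reg b P → SliceEstC b M R G m (T P) (cfX b P X0)) :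
    SliceEst b M R G m (X := Σ P, X P) (fun g s => T s.1 g s.2) := by
  intro p hp hnv
  rw [sliceEstAt_iff]
  set p' : Fin N → EuclideanSpace ℝ (Fin 9) := fun a => WithLp.toLp 2 fun i => p i a with hp'
  have hs : ∑ a, p' a = 0 := by
    ext i
    simpa [hp'] using hp i
  have hdg : dg b p' = diagCfg b p := rfl
  have h2 : ∃ a a', p' a ≠ p' a' := by
    by_contra hcon
    push Not at hcon
    have h1 : (Set.range (pt p)).Subsingleton := by
      rintro _ ⟨a, rfl⟩ _ ⟨a', rfl⟩
      funext i
      exact congrArg (fun v : EuclideanSpace ℝ (Fin 9) => v i) (hcon a a')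
    have h3 : (Set.range (pt p)).ncard ≤ 1 := by
      rcases h1.eq_empty_or_singleton with h4 | ⟨v, h4⟩
      · rw [h4]
        simp
      · rw [h4, Set.ncard_singleton]
    unfold nv at hnv
    omega
  obtain ⟨P, X0, q, hX0, hq⟩ := exists_regular b hs h2
  refine SliceEstC.of_act q ?_
  rw [← hdg, hq]
  exact (h P X0 hX0).reindex fun y => ⟨⟨P, y⟩, fun g => rfl⟩

/-- **Capture of a family from the regular positions of its members.** -/
theorem capFam_of_reg (hN : 0 < N) (hm : 0 ≤ m) (hm1 : m ≤ 1) {X : Lam N → Type*}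
    {T : ∀ P, ℝ → X P → Cfg N → F}
    (h : ∀ (P : Lam N) (X0 : XS P), X0 ∈ Reg b P → SliceEstC b M R G m (T P) (cfX b P X0)) :
    CapFam b M R G m T :=
  capFam_of hN hm hm1 (sliceEst_of_reg h)

end Crest.Agent.R330.CapRed868

end
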