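import Crest.Agent.R330.Decoup2_924

/-!
# Row 330, S7 (CC) / S9 capture: fibre estimates and their integration (helper924)

`U × Z` : block variables times heavy variables.  The heavy charges `B_α` differentiate only in the
directions of `Z`, their coefficients at `u` are compared with reference coefficients (the abelian
configuration) at distance `s`.

* `fib_real`, `fib_real_odd` : the real inequalities behind the fibre estimate;
* `fibre` , `fibre_odd` : fibrewise form;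
* `op_prod` : the operator on `U × Z` is fibrewise;
* `integral_fib_mono` : integration of fibrewise inequalities.
-/

set_option autoImplicit false
set_option linter.unusedSectionVars false

noncomputable section

namespace Crest.Agent.R330.Decoup924

open MeasureTheory Filter Topology
open scoped ContDiff InnerProductSpace ENNReal
open Crest.Agent.R330.IBP837

/-! ### real inequalities -/

/-- `D` = gradient energy, `S₀`, `S` = reference and actual heavy energies, `M` = `g · mass`,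
`T` = comparison constant times `s²`. -/
theorem fib_real {D S₀ S M C₁ T : ℝ} (hS₀ : 0 ≤ S₀) (_hM : 0 ≤ M)
    (h1 : D ≤ C₁ * (S₀ + M)) (h3 : S₀ ≤ 2 * S + T * D) (hT : 0 ≤ T) (hTC : T * C₁ ≤ 1 / 2) :
    S₀ ≤ 4 * S + 2 * (T * C₁) * M := by
  have h4 : T * D ≤ T * (C₁ * (S₀ + M)) := mul_le_mul_of_nonneg_left h1 hT
  nlinarith

theorem fib_real_odd {D S₀ S M C₁ C₂ T : ℝ} (hS₀ : 0 ≤ S₀) (_hS : 0 ≤ S) (hM : 0 ≤ M)
    (hC₁ : 0 ≤ C₁) (hC₂ : 0 ≤ C₂)
    (h1 : D ≤ C₁ * (S₀ + M)) (h2 : M ≤ C₂ * S₀) (h3 : S₀ ≤ 2 * S + T * D) (hT : 0 ≤ T)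
    (hTC : T * C₁ ≤ 1 / 2) (hTC2 : 2 * (T * C₁) * C₂ ≤ 1 / 2) :
    D ≤ C₁ * (8 * S + 8 * C₂ * S) := by
  have h4 := fib_real hS₀ hM h1 h3 hT hTC
  have h5 : S₀ ≤ 8 * S := by
    have h6 : 2 * (T * C₁) * M ≤ 2 * (T * C₁) * (C₂ * S₀) := by
      refine mul_le_mul_of_nonneg_left h2 ?_
      positivity
    nlinarith
  have h7 : M ≤ 8 * C₂ * S := by nlinarith
  refine h1.trans (mul_le_mul_of_nonneg_left ?_ hC₁)
  linarith

/-! ### fibrewise estimates -/

section fib

variable {F : Type*} [NormedAddCommGroup F] [InnerProductSpace ℂ F]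
  {Z : Type*} [NormedAddCommGroup Z] [NormedSpace ℝ Z] [FiniteDimensional ℝ Z]
  [MeasurableSpace Z] [BorelSpace Z] {ν : Measure Z} [ν.IsAddHaarMeasure]
  {ι A : Type*} [Fintype ι] [Fintype A]

/-- comparison of two heavy operators, squares -/
theorem sq_compare {ez : ι → Z} {β β₀ : A → ι → Z → F →L[ℝ] F} {p p₀ : A → Z → F →L[ℝ] F}
    (hβ : ∀ α i, ContDiff ℝ 1 (β α i)) (hp : ∀ α, ContDiff ℝ 1 (p α))
    (hβ₀ : ∀ α i, ContDiff ℝ 1 (β₀ α i)) (hp₀ : ∀ α, ContDiff ℝ 1 (p₀ α))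
    {ρ : Z → ℝ} (hρ : Continuous ρ) {s K : ℝ} (f : Z → F) (hf : ContDiff ℝ 2 f)
    (hcf : HasCompactSupport f)
    (h3 : ∀ α z, ‖op ez (β α) (p α) f z - op ez (β₀ α) (p₀ α) f z‖ ≤
      K * s * Real.sqrt (dd ez ρ f z)) :
    ∑ α, ∫ z, ‖op ez (β₀ α) (p₀ α) f z‖ ^ 2 ∂ν ≤
      2 * ∑ α, ∫ z, ‖op ez (β α) (p α) f z‖ ^ 2 ∂ν +
        (2 * (Fintype.card A : ℝ) * K ^ 2 * s ^ 2) * ∫ z, dd ez ρ f z ∂ν := by
  have cB : ∀ α, Continuous (op ez (β α) (p α) f) := fun α =>
    (contDiff_op (n := 2) (m := 1) (by norm_num) (hβ α) (hp α) hf).continuous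
  have cB₀ : ∀ α, Continuous (op ez (β₀ α) (p₀ α) f) := fun α =>
    (contDiff_op (n := 2) (m := 1) (by norm_num) (hβ₀ α) (hp₀ α) hf).continuous
  have iD : Integrable (dd ez ρ f) ν :=
    (continuous_dd hρ (cd_one_of_two hf)).integrable_of_hasCompactSupport
      (hasCompactSupport_dd hcf)
  have hα : ∀ α, ∫ z, ‖op ez (β₀ α) (p₀ α) f z‖ ^ 2 ∂ν ≤
      2 * ∫ z, ‖op ez (β α) (p α) f z‖ ^ 2 ∂ν + (2 * K ^ 2 * s ^ 2) * ∫ z, dd ez ρ f z ∂ν := by
    intro α
    have i1 := integrable_sq_of_cont (μ := ν) (cB α) (hasCompactSupport_op hcf)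
    rw [← integral_const_mul, ← integral_const_mul, ← integral_add (i1.const_mul 2)
      (iD.const_mul _)]
    refine integral_mono_of_nonneg (Eventually.of_forall fun z => by positivity)
      ((i1.const_mul 2).add (iD.const_mul _)) (Eventually.of_forall fun z => ?_)
    simp only
    have e1 : ‖op ez (β₀ α) (p₀ α) f z‖ ≤ ‖op ez (β α) (p α) f z‖ +
        ‖op ez (β α) (p α) f z - op ez (β₀ α) (p₀ α) f z‖ := by
      have := norm_sub_le (op ez (β α) (p α) f z)
        (op ez (β α) (p α) f z - op ez (β₀ α) (p₀ α) f z)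
      simpa using this
    have e2 := h3 α z
    have e3 : Real.sqrt (dd ez ρ f z) ^ 2 = dd ez ρ f z := Real.sq_sqrt (dd_nonneg _ _ _ _)
    have e4 : ‖op ez (β α) (p α) f z - op ez (β₀ α) (p₀ α) f z‖ ^ 2 ≤
        K ^ 2 * s ^ 2 * dd ez ρ f z := by
      calc _ ≤ (K * s * Real.sqrt (dd ez ρ f z)) ^ 2 := by
            exact pow_le_pow_left₀ (norm_nonneg _) e2 2
        _ = _ := by rw [mul_pow, mul_pow, e3]
    have e5 : ‖op ez (β₀ α) (p₀ α) f z‖ ^ 2 ≤ (‖op ez (β α) (p α) f z‖ +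
        ‖op ez (β α) (p α) f z - op ez (β₀ α) (p₀ α) f z‖) ^ 2 :=
      pow_le_pow_left₀ (norm_nonneg _) e1 2
    nlinarith [sq_nonneg (‖op ez (β α) (p α) f z‖ -
      ‖op ez (β α) (p α) f z - op ez (β₀ α) (p₀ α) f z‖)]
  calc ∑ α, ∫ z, ‖op ez (β₀ α) (p₀ α) f z‖ ^ 2 ∂ν
      ≤ ∑ α, (2 * ∫ z, ‖op ez (β α) (p α) f z‖ ^ 2 ∂ν +
          (2 * K ^ 2 * s ^ 2) * ∫ z, dd ez ρ f z ∂ν) := Finset.sum_le_sum fun α _ => hα α
    _ = _ := by
        rw [Finset.sum_add_distrib, ← Finset.mul_sum]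
        simp only [Finset.sum_const, Finset.card_univ, nsmul_eq_mul]
        ring

end fib

/-! ### operators on the product -/

section prod

variable {F : Type*} [NormedAddCommGroup F] [InnerProductSpace ℂ F]
  {U Z : Type*} [NormedAddCommGroup U] [NormedSpace ℝ U]
  [NormedAddCommGroup Z] [NormedSpace ℝ Z]
  {ι : Type*} [Fintype ι]

theorem fderiv_snd_apply {Φ : U × Z → F} {u : U} {z : Z} (h : DifferentiableAt ℝ Φ (u, z))
    (w : Z) : fderiv ℝ Φ (u, z) (0, w) = fderiv ℝ (fun z => Φ (u, z)) z w := by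
  have h1 : HasFDerivAt (fun z : Z => (u, z)) (ContinuousLinearMap.inr ℝ U Z) z :=
    hasFDerivAt_prodMk_right u z
  have h2 : HasFDerivAt (fun z => Φ (u, z)) ((fderiv ℝ Φ (u, z)).comp
      (ContinuousLinearMap.inr ℝ U Z)) z := HasFDerivAt.comp z h.hasFDerivAt h1
  rw [h2.fderiv]
  simp

theorem op_prod {ez : ι → Z} {β : ι → U × Z → F →L[ℝ] F} {p : U × Z → F →L[ℝ] F}
    {Φ : U × Z → F} {u : U} {z : Z} (h : DifferentiableAt ℝ Φ (u, z)) :
    op (fun i => ((0 : U), ez i)) β p Φ (u, z) =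
      op ez (fun i z => β i (u, z)) (fun z => p (u, z)) (fun z => Φ (u, z)) z := by
  simp only [op, fderiv_snd_apply h]

theorem dd_prod {ez : ι → Z} {ρ : U × Z → ℝ} {Φ : U × Z → F} {u : U} {z : Z}
    (h : DifferentiableAt ℝ Φ (u, z)) :
    dd (fun i => ((0 : U), ez i)) ρ Φ (u, z) =
      dd ez (fun z => ρ (u, z)) (fun z => Φ (u, z)) z := by
  simp only [dd, fderiv_snd_apply h]

variable [FiniteDimensional ℝ U] [MeasurableSpace U] [BorelSpace U]
  [FiniteDimensional ℝ Z] [MeasurableSpace Z] [BorelSpace Z]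
  {μU : Measure U} {ν : Measure Z} [μU.IsAddHaarMeasure] [ν.IsAddHaarMeasure]

theorem slice_contDiff {n : WithTop ℕ∞} {Φ : U × Z → F} (h : ContDiff ℝ n Φ) (u : U) :
    ContDiff ℝ n (fun z => Φ (u, z)) :=
  h.comp (contDiff_const.prodMk contDiff_id)

theorem slice_hasCompactSupport {Φ : U × Z → F} (h : HasCompactSupport Φ) (u : U) :
    HasCompactSupport (fun z => Φ (u, z)) := by
  have hK : IsCompact ((fun x : U × Z => x.2) '' tsupport Φ) :=
    (show IsCompact (tsupport Φ) from h).image continuous_snd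
  refine HasCompactSupport.intro hK fun z hz => ?_
  by_contra h0
  exact hz ⟨(u, z), subset_tsupport _ h0, rfl⟩

/-- Fubini for continuous compactly supported real functions. -/
theorem integral_prod_cont {q : U × Z → ℝ} (hq : Continuous q) (hc : HasCompactSupport q) :
    ∫ x, q x ∂(μU.prod ν) = ∫ u, ∫ z, q (u, z) ∂ν ∂μU :=
  integral_prod q (hq.integrable_of_hasCompactSupport hc)

/-- integration over `S ×ˢ univ` of a continuous compactly supported function -/
theorem setIntegral_prod_cont {q : U × Z → ℝ} (hq : Continuous q) (hc : HasCompactSupport q)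
    {S : Set U} (_hS : MeasurableSet S) :
    ∫ x in S ×ˢ (Set.univ : Set Z), q x ∂(μU.prod ν) = ∫ u in S, ∫ z, q (u, z) ∂ν ∂μU := by
  have h1 : (μU.prod ν).restrict (S ×ˢ (Set.univ : Set Z)) = (μU.restrict S).prod ν := by
    rw [← Measure.prod_restrict, Measure.restrict_univ]
  rw [h1, integral_prod]
  rw [← h1]
  exact (hq.integrable_of_hasCompactSupport hc).integrableOn

/-- the fibre integral of a continuous compactly supported function is integrable -/
theorem integrable_fib {q : U × Z → ℝ} (hq : Continuous q) (hc : HasCompactSupport q) :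
    Integrable (fun u => ∫ z, q (u, z) ∂ν) μU :=
  (hq.integrable_of_hasCompactSupport (μ := μU.prod ν) hc).integral_prod_left

/-- **integration of a fibrewise inequality** (one inequality between sums of fibre integrals on
a set `S` of base points). -/
theorem integral_fib_mono {q₁ q₂ : U × Z → ℝ} (h₁ : Continuous q₁) (h₂ : Continuous q₂)
    (c₁ : HasCompactSupport q₁) (c₂ : HasCompactSupport q₂) {S : Set U} (hS : MeasurableSet S)
    (h : ∀ u ∈ S, ∫ z, q₁ (u, z) ∂ν ≤ ∫ z, q₂ (u, z) ∂ν) :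
    ∫ x in S ×ˢ (Set.univ : Set Z), q₁ x ∂(μU.prod ν) ≤
      ∫ x in S ×ˢ (Set.univ : Set Z), q₂ x ∂(μU.prod ν) := by
  rw [setIntegral_prod_cont h₁ c₁ hS, setIntegral_prod_cont h₂ c₂ hS]
  exact setIntegral_mono_on (integrable_fib h₁ c₁).integrableOn
    (integrable_fib h₂ c₂).integrableOn hS h

end prod

end Crest.Agent.R330.Decoup924
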