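import Mathlib

/-!
Row 330 (helper756): weak nullity against test functions supported in an open set of full measure
implies weak nullity against all test functions, for sequences bounded in `L²`.
-/

set_option autoImplicit false
set_option linter.unusedSectionVars false

noncomputable section

namespace Crest.Agent.R330.WeakV756

open MeasureTheory Filter Topology Set
open scoped ContDiff InnerProductSpace ENNReal Manifold

variable {R : Type*} [NormedAddCommGroup R] [NormedSpace ℝ R] [FiniteDimensional ℝ R]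
  [MeasurableSpace R] [BorelSpace R] {μ : Measure R} [IsLocallyFiniteMeasure μ]

variable {V : Type*} [NormedAddCommGroup V] [InnerProductSpace ℂ V]

/-- Cauchy–Schwarz for the integral of a pointwise inner product. -/
theorem norm_integral_inner_le {X : Type*} [MeasurableSpace X] {ν : Measure X} {f g : X → V}
    (hf : MemLp f 2 ν) (hg : MemLp g 2 ν) :
    ‖∫ x, ⟪f x, g x⟫_ℂ ∂ν‖ ≤ √(∫ x, ‖f x‖ ^ 2 ∂ν) * √(∫ x, ‖g x‖ ^ 2 ∂ν) := by
  have hpq : (2 : ℝ).HolderConjugate 2 := by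
    rw [Real.holderConjugate_iff]; norm_num
  have h2 : ENNReal.ofReal 2 = 2 := by norm_num
  have h := integral_mul_norm_le_Lp_mul_Lq (μ := ν) hpq (f := f) (g := g)
    (by rw [h2]; exact hf) (by rw [h2]; exact hg)
  calc ‖∫ x, ⟪f x, g x⟫_ℂ ∂ν‖ ≤ ∫ x, ‖⟪f x, g x⟫_ℂ‖ ∂ν := norm_integral_le_integral_norm _
    _ ≤ ∫ x, ‖f x‖ * ‖g x‖ ∂ν := by
        refine integral_mono_of_nonneg (Eventually.of_forall fun x => norm_nonneg _) ?_
          (Eventually.of_forall fun x => norm_inner_le_norm _ _)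
        have := hf.norm.integrable_mul hg.norm
        exact this
    _ ≤ _ := by
        refine h.trans (le_of_eq ?_)
        rw [Real.sqrt_eq_rpow, Real.sqrt_eq_rpow]
        simp

/-- A smooth cut-off between a compact set and an open set. -/
theorem exists_cutoff {K W : Set R} (hK : IsCompact K) (hW : IsOpen W) (h : K ⊆ W) :
    ∃ η : R → ℝ, ContDiff ℝ ∞ η ∧ HasCompactSupport η ∧ tsupport η ⊆ W ∧ (∀ x ∈ K, η x = 1) ∧
      ∀ x, 0 ≤ η x ∧ η x ≤ 1 := by
  obtain ⟨L, hL, hKL, hLW⟩ := exists_compact_between hK hW h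
  obtain ⟨f, h0, h1, h01⟩ := exists_contMDiffMap_zero_one_of_isClosed 𝓘(ℝ, R) (n := ⊤)
    (s := (interior L)ᶜ) (t := K) isOpen_interior.isClosed_compl hK.isClosed
    (Set.disjoint_left.2 fun x hx hx' => hx (hKL hx'))
  have hsupp : Function.support f ⊆ L := by
    intro x hx
    by_contra hxL
    exact hx (h0 fun hx' => hxL (interior_subset hx'))
  have hts : tsupport f ⊆ L := closure_minimal hsupp hL.isClosed
  refine ⟨f, ?_, hL.of_isClosed_subset (isClosed_tsupport _) hts, hts.trans hLW,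
    fun x hx => by simpa using h1 hx, fun x => ⟨(h01 x).1, (h01 x).2⟩⟩
  have := f.contMDiff.contDiff
  simpa using this

/-- Test functions supported in an open set of full measure are `L²`-dense in all test functions. -/
theorem exists_test_near {W : Set R} (hW : IsOpen W) (hW0 : μ Wᶜ = 0) {χ : R → V}
    (hχ : ContDiff ℝ ∞ χ) (hc : HasCompactSupport χ) {ε : ℝ} (hε : 0 < ε) :
    ∃ χ₁ : R → V, ContDiff ℝ ∞ χ₁ ∧ HasCompactSupport χ₁ ∧ tsupport χ₁ ⊆ W ∧
      tsupport χ₁ ⊆ tsupport χ ∧ (∀ x, ‖χ₁ x‖ ≤ ‖χ x‖) ∧ ∫ x, ‖χ x - χ₁ x‖ ^ 2 ∂μ ≤ ε := by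
  obtain ⟨M, hM⟩ := hc.exists_bound_of_continuous hχ.continuous
  have hM0 : 0 ≤ M := (norm_nonneg _).trans (hM 0)
  set T := tsupport χ with hT
  have hTc : IsCompact T := hc
  have hTm : μ T ≠ ⊤ := hTc.measure_lt_top.ne
  set δ : ℝ := ε / (M ^ 2 + 1) with hδ
  have hδ0 : 0 < δ := by positivity
  have hAm : MeasurableSet (T ∩ W) := (isClosed_tsupport _).measurableSet.inter hW.measurableSet
  have hAf : μ (T ∩ W) ≠ ⊤ := ne_top_of_le_ne_top hTm (measure_mono inter_subset_left)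
  obtain ⟨K, hKA, hKc, hK⟩ := hAm.exists_isCompact_sdiff_lt hAf
    (ε := ENNReal.ofReal δ) (by simpa using hδ0)
  obtain ⟨η, hη, hηc, hηW, hη1, hη01⟩ := exists_cutoff hKc hW (hKA.trans inter_subset_right)
  refine ⟨fun x => η x • χ x, hη.smul hχ, hηc.smul_right, ?_, ?_, ?_, ?_⟩
  · exact (tsupport_smul_subset_left η χ).trans hηW
  · exact tsupport_smul_subset_right η χ
  · intro x
    rw [norm_smul, Real.norm_of_nonneg (hη01 x).1]
    exact mul_le_of_le_one_left (norm_nonneg _) (hη01 x).2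
  · have hmeas : MeasurableSet (T \ K) :=
      (isClosed_tsupport _).measurableSet.diff hKc.isClosed.measurableSet
    have hpt : ∀ x, ‖χ x - η x • χ x‖ ^ 2 ≤ (T \ K).indicator (fun _ => M ^ 2) x := by
      intro x
      by_cases hx : x ∈ T \ K
      · rw [indicator_of_mem hx]
        have h1 : χ x - η x • χ x = (1 - η x) • χ x := by rw [sub_smul, one_smul]
        rw [h1, norm_smul, Real.norm_of_nonneg (sub_nonneg.2 (hη01 x).2)]
        have h2 : (1 - η x) * ‖χ x‖ ≤ M :=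
          (mul_le_of_le_one_left (norm_nonneg _) (by linarith [(hη01 x).1])).trans (hM x)
        have h3 : 0 ≤ (1 - η x) * ‖χ x‖ :=
          mul_nonneg (sub_nonneg.2 (hη01 x).2) (norm_nonneg _)
        exact pow_le_pow_left₀ h3 h2 2
      · rw [indicator_of_notMem hx]
        have h0 : χ x - η x • χ x = 0 := by
          by_cases hxT : x ∈ T
          · have hxK : x ∈ K := by
              by_contra hxK
              exact hx ⟨hxT, hxK⟩
            rw [hη1 x hxK, one_smul, sub_self]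
          · rw [image_eq_zero_of_notMem_tsupport hxT, smul_zero, sub_self]
        rw [h0]; simp
    have hfin : μ (T \ K) ≠ ⊤ := ne_top_of_le_ne_top hTm (measure_mono sdiff_subset)
    have hle : μ (T \ K) ≤ ENNReal.ofReal δ := by
      have hsub : T \ K ⊆ ((T ∩ W) \ K) ∪ Wᶜ := by
        intro x hx
        by_cases hxW : x ∈ W
        · exact Or.inl ⟨⟨hx.1, hxW⟩, hx.2⟩
        · exact Or.inr hxW
      calc μ (T \ K) ≤ μ (((T ∩ W) \ K) ∪ Wᶜ) := measure_mono hsub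
        _ ≤ μ ((T ∩ W) \ K) + μ Wᶜ := measure_union_le _ _
        _ ≤ ENNReal.ofReal δ := by rw [hW0, add_zero]; exact hK.le
    have hreal : μ.real (T \ K) ≤ δ := by
      rw [Measure.real]
      exact ENNReal.toReal_le_of_le_ofReal hδ0.le hle
    calc ∫ x, ‖χ x - η x • χ x‖ ^ 2 ∂μ ≤ ∫ x, (T \ K).indicator (fun _ => M ^ 2) x ∂μ := by
          refine integral_mono_of_nonneg (Eventually.of_forall fun x => by positivity) ?_
            (Eventually.of_forall hpt)
          exact (integrable_indicator_iff hmeas).2 (integrableOn_const hfin)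
      _ = M ^ 2 * μ.real (T \ K) := by
          rw [integral_indicator hmeas, setIntegral_const, smul_eq_mul, mul_comm]
      _ ≤ M ^ 2 * δ := by gcongr
      _ ≤ ε := by
          rw [hδ, mul_div_assoc', div_le_iff₀ (by positivity)]
          nlinarith [sq_nonneg M]

/-- **Density step.** A family bounded in `L²` and weakly null against test functions supported in an
open set of full measure is weakly null against all test functions. -/
theorem weak_of_conull {ι : Type*} {l : Filter ι} {a : ι → R → V} (ha : ∀ j, MemLp (a j) 2 μ)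
    {C : ℝ} (hC : ∀ j, ∫ x, ‖a j x‖ ^ 2 ∂μ ≤ C) {W : Set R} (hW : IsOpen W) (hW0 : μ Wᶜ = 0)
    (hw : ∀ χ : R → V, ContDiff ℝ ∞ χ → HasCompactSupport χ → tsupport χ ⊆ W →
      Tendsto (fun j => ∫ x, ⟪χ x, a j x⟫_ℂ ∂μ) l (𝓝 0))
    {χ : R → V} (hχ : ContDiff ℝ ∞ χ) (hc : HasCompactSupport χ) :
    Tendsto (fun j => ∫ x, ⟪χ x, a j x⟫_ℂ ∂μ) l (𝓝 0) := by
  rw [Metric.tendsto_nhds]
  intro ε hε
  set C' : ℝ := max C 0 with hC'
  have hC0 : 0 ≤ C' := le_max_right _ _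
  set δ : ℝ := (ε / 2) ^ 2 / (C' + 1) with hδ
  have hδ0 : 0 < δ := by positivity
  obtain ⟨χ₁, h1, h1c, h1W, -, -, h1d⟩ := exists_test_near (μ := μ) hW hW0 hχ hc hδ0
  have hm : MemLp χ 2 μ := hχ.continuous.memLp_of_hasCompactSupport hc
  have hm1 : MemLp χ₁ 2 μ := h1.continuous.memLp_of_hasCompactSupport h1c
  have hev := (Metric.tendsto_nhds.1 (hw χ₁ h1 h1c h1W)) (ε / 2) (by positivity)
  filter_upwards [hev] with j hj
  rw [dist_zero_right] at hj ⊢
  have hi1 : Integrable (fun x => ⟪χ₁ x, a j x⟫_ℂ) μ := by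
    have := (hm1.norm.integrable_mul (ha j).norm)
    refine this.mono' (hm1.1.inner (ha j).1) (Eventually.of_forall fun x => norm_inner_le_norm _ _)
  have hi2 : Integrable (fun x => ⟪χ x - χ₁ x, a j x⟫_ℂ) μ := by
    have := ((hm.sub hm1).norm.integrable_mul (ha j).norm)
    refine this.mono' ((hm.sub hm1).1.inner (ha j).1)
      (Eventually.of_forall fun x => norm_inner_le_norm _ _)
  have hsplit : ∫ x, ⟪χ x, a j x⟫_ℂ ∂μ
      = ∫ x, ⟪χ₁ x, a j x⟫_ℂ ∂μ + ∫ x, ⟪χ x - χ₁ x, a j x⟫_ℂ ∂μ := by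
    rw [← integral_add hi1 hi2]
    refine integral_congr_ae (Eventually.of_forall fun x => ?_)
    simp only
    rw [← inner_add_left]
    congr 1
    abel
  rw [hsplit]
  have hcs := norm_integral_inner_le (hm.sub hm1) (ha j)
  simp only [Pi.sub_apply] at hcs
  have hb : √(∫ x, ‖χ x - χ₁ x‖ ^ 2 ∂μ) * √(∫ x, ‖a j x‖ ^ 2 ∂μ) ≤ ε / 2 := by
    rw [← Real.sqrt_mul (integral_nonneg fun x => by positivity)]
    refine Real.sqrt_le_iff.2 ⟨by positivity, ?_⟩
    have h2 : ∫ x, ‖a j x‖ ^ 2 ∂μ ≤ C' := (hC j).trans (le_max_left _ _)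
    calc (∫ x, ‖χ x - χ₁ x‖ ^ 2 ∂μ) * ∫ x, ‖a j x‖ ^ 2 ∂μ ≤ δ * C' := by
          gcongr
      _ ≤ (ε / 2) ^ 2 := by
          rw [hδ, div_mul_eq_mul_div, div_le_iff₀ (by positivity)]
          nlinarith [sq_nonneg (ε / 2)]
  calc ‖∫ x, ⟪χ₁ x, a j x⟫_ℂ ∂μ + ∫ x, ⟪χ x - χ₁ x, a j x⟫_ℂ ∂μ‖
      ≤ ‖∫ x, ⟪χ₁ x, a j x⟫_ℂ ∂μ‖ + ‖∫ x, ⟪χ x - χ₁ x, a j x⟫_ℂ ∂μ‖ := norm_add_le _ _
    _ < ε / 2 + ε / 2 := add_lt_add_of_lt_of_le hj (hcs.trans hb)
    _ = ε := by ring

/-- The same with the inner product in the other order. -/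
theorem weak_of_conull' {ι : Type*} {l : Filter ι} {a : ι → R → V} (ha : ∀ j, MemLp (a j) 2 μ)
    {C : ℝ} (hC : ∀ j, ∫ x, ‖a j x‖ ^ 2 ∂μ ≤ C) {W : Set R} (hW : IsOpen W) (hW0 : μ Wᶜ = 0)
    (hw : ∀ χ : R → V, ContDiff ℝ ∞ χ → HasCompactSupport χ → tsupport χ ⊆ W →
      Tendsto (fun j => ∫ x, ⟪a j x, χ x⟫_ℂ ∂μ) l (𝓝 0))
    {χ : R → V} (hχ : ContDiff ℝ ∞ χ) (hc : HasCompactSupport χ) :
    Tendsto (fun j => ∫ x, ⟪a j x, χ x⟫_ℂ ∂μ) l (𝓝 0) := by
  have key : ∀ ψ : R → V, (fun j => ∫ x, ⟪a j x, ψ x⟫_ℂ ∂μ)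
      = fun j => (starRingEnd ℂ) (∫ x, ⟪ψ x, a j x⟫_ℂ ∂μ) := by
    intro ψ
    funext j
    rw [← integral_conj]
    simp only [inner_conj_symm]
  have key' : ∀ ψ : R → V, (fun j => ∫ x, ⟪ψ x, a j x⟫_ℂ ∂μ)
      = fun j => (starRingEnd ℂ) (∫ x, ⟪a j x, ψ x⟫_ℂ ∂μ) := by
    intro ψ
    funext j
    rw [← integral_conj]
    simp only [inner_conj_symm]
  have h0 : ∀ {u : ι → ℂ}, Tendsto u l (𝓝 0) → Tendsto (fun j => (starRingEnd ℂ) (u j)) l (𝓝 0) := by
    intro u hu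
    have := (Complex.continuous_conj.tendsto 0).comp hu
    simpa [Function.comp_def] using this
  rw [key χ]
  refine h0 (weak_of_conull ha hC hW hW0 (fun ψ h1 h2 h3 => ?_) hχ hc)
  rw [key' ψ]
  exact h0 (hw ψ h1 h2 h3)

end Crest.Agent.R330.WeakV756

end
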