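import Crest.Agent.R330.FibProj_837
import Crest.Agent.R330.Amp_406
import Crest.Agent.R330.Fib_924
import Crest.Agent.R330.WeakV_756

/-!
# Row 330, S9 capture, step (h): the slice estimate (helper924)

* `slice_est` : fibre distance to the vacuum (I1), block Hardy inequality (HB), amplitudes → 0 ⟹ for
  every `ε` there is `δ` with the mass of `Φ_j` over `S δ` eventually `≤ ε`.
* `slice_est_amp` : the same with amplitudes bounded in `H¹` and weakly null on a conull open set.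
-/

set_option autoImplicit false
set_option linter.unusedSectionVars false

noncomputable section

namespace Crest.Agent.R330.CapSl924

open MeasureTheory Filter Topology Set
open scoped ContDiff InnerProductSpace ENNReal
open Crest.Agent.R330.FibProj837 Crest.Agent.R330.Decoup924

/-! ### the triangle -/

section main

variable {F : Type*} [NormedAddCommGroup F] [InnerProductSpace ℂ F] [FiniteDimensional ℂ F]
  {U Z : Type*} [NormedAddCommGroup U] [NormedSpace ℝ U] [FiniteDimensional ℝ U]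
  [MeasurableSpace U] [BorelSpace U]
  [NormedAddCommGroup Z] [NormedSpace ℝ Z] [FiniteDimensional ℝ Z] [MeasurableSpace Z]
  [BorelSpace Z] {μ : Measure U} [μ.IsAddHaarMeasure] {ν : Measure Z} [ν.IsAddHaarMeasure]

theorem ofReal_integral_sq {X : Type*} [MeasurableSpace X] {m : Measure X} {f : X → F}
    (hf : Integrable (fun x => ‖f x‖ ^ 2) m) :
    ∫⁻ x, ‖f x‖ₑ ^ 2 ∂m = ENNReal.ofReal (∫ x, ‖f x‖ ^ 2 ∂m) := by
  rw [ofReal_integral_eq_lintegral_ofReal hf (Eventually.of_forall fun x => by positivity)]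
  refine lintegral_congr fun x => ?_
  rw [ENNReal.ofReal_pow (norm_nonneg _), ofReal_norm]

/-- mass over `S` as an iterated integral -/
theorem mass_eq {Φ : U × Z → F} (hΦ : Continuous Φ) (hc : HasCompactSupport Φ) {S : Set U} :
    ∫⁻ u in S, ∫⁻ z, ‖Φ (u, z)‖ₑ ^ 2 ∂ν ∂μ =
      ENNReal.ofReal (∫ u in S, ∫ z, ‖Φ (u, z)‖ ^ 2 ∂ν ∂μ) := by
  have c2 : Continuous fun q => ‖Φ q‖ ^ 2 := hΦ.norm.pow 2
  have s2 : HasCompactSupport fun q => ‖Φ q‖ ^ 2 :=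
    hc.norm.comp_left (g := fun t : ℝ => t ^ 2) (by norm_num)
  have iT : Integrable (fun u => ∫ z, ‖Φ (u, z)‖ ^ 2 ∂ν) μ := integrable_fib c2 s2
  rw [ofReal_integral_eq_lintegral_ofReal iT.integrableOn
    (Eventually.of_forall fun u => integral_nonneg fun z => by positivity)]
  refine lintegral_congr fun u => ?_
  refine ofReal_integral_sq ?_
  have : Continuous fun z => ‖Φ (u, z)‖ ^ 2 := c2.comp (by fun_prop : Continuous fun z : Z => (u, z))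
  refine this.integrable_of_hasCompactSupport ?_
  exact HasCompactSupport.of_support_subset_isCompact (hc.image continuous_snd) fun z hz => by
    refine ⟨(u, z), subset_tsupport _ fun h0 => hz ?_, rfl⟩
    simp [h0]

/-- Pythagoras, split form -/
theorem split_mass {Φ : U × Z → F} (hΦ : Continuous Φ) (hc : HasCompactSupport Φ)
    {gs : U × Z → ℝ} {p : U → F →ₗ[ℂ] F} (hgs : Continuous gs)
    (hg : ∀ u, (∃ z, Φ (u, z) ≠ 0) → MemLp (fun z => gs (u, z)) 2 ν ∧ ∫ z, gs (u, z) ^ 2 ∂ν = 1)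
    (hps : ∀ u, (∃ z, Φ (u, z) ≠ 0) → (p u).IsSymmetric)
    (hpi : ∀ u, (∃ z, Φ (u, z) ≠ 0) → ∀ v, p u (p u v) = p u v)
    (hw : AEStronglyMeasurable (fpr ν gs p Φ) μ) (S : Set U) :
    ∫ u in S, ∫ z, ‖Φ (u, z)‖ ^ 2 ∂ν ∂μ =
      ∫ u in S, ∫ z, ‖Φ (u, z) - fpj ν gs p Φ (u, z)‖ ^ 2 ∂ν ∂μ +
        ∫ u in S, ‖fpr ν gs p Φ u‖ ^ 2 ∂μ := by
  have hpt : ∀ u, ∫ z, ‖Φ (u, z)‖ ^ 2 ∂ν =
      ∫ z, ‖Φ (u, z) - fpj ν gs p Φ (u, z)‖ ^ 2 ∂ν + ‖fpr ν gs p Φ u‖ ^ 2 := by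
    intro u
    by_cases h : ∃ z, Φ (u, z) ≠ 0
    · exact fibre_pythagoras hgs hΦ hc u (hg u h).1 (hg u h).2 (hps u h) (hpi u h)
    · push Not at h
      have h0 : fpr ν gs p Φ u = 0 := fpr_eq_zero h
      simp [h, fpj, h0]
  have c2 : Continuous fun q => ‖Φ q‖ ^ 2 := hΦ.norm.pow 2
  have s2 : HasCompactSupport fun q => ‖Φ q‖ ^ 2 :=
    hc.norm.comp_left (g := fun t : ℝ => t ^ 2) (by norm_num)
  have iT : Integrable (fun u => ∫ z, ‖Φ (u, z)‖ ^ 2 ∂ν) μ := integrable_fib c2 s2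
  have iW : Integrable (fun u => ‖fpr ν gs p Φ u‖ ^ 2) μ := by
    refine iT.mono (hw.norm.pow 2) (Eventually.of_forall fun u => ?_)
    rw [Real.norm_of_nonneg (by positivity),
      Real.norm_of_nonneg (integral_nonneg fun z => by positivity), hpt u]
    have : 0 ≤ ∫ z, ‖Φ (u, z) - fpj ν gs p Φ (u, z)‖ ^ 2 ∂ν :=
      integral_nonneg fun z => by positivity
    linarith
  have iD : Integrable (fun u => ∫ z, ‖Φ (u, z) - fpj ν gs p Φ (u, z)‖ ^ 2 ∂ν) μ := by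
    refine (iT.sub iW).congr (Eventually.of_forall fun u => ?_)
    simp only [Pi.sub_apply]
    rw [hpt u]; ring
  rw [← integral_add iD.integrableOn iW.integrableOn]
  exact integral_congr_ae (Eventually.of_forall fun u => hpt u)

/-- **(h)** the slice estimate, abstract form. -/
theorem slice_est {Φ : ℕ → U × Z → F} (hΦ : ∀ j, Continuous (Φ j))
    (hc : ∀ j, HasCompactSupport (Φ j))
    {gs : ℕ → U × Z → ℝ} {p : ℕ → U → F →ₗ[ℂ] F} (hgs : ∀ j, Continuous (gs j))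
    (hg : ∀ j u, (∃ z, Φ j (u, z) ≠ 0) →
      MemLp (fun z => gs j (u, z)) 2 ν ∧ ∫ z, gs j (u, z) ^ 2 ∂ν = 1)
    (hps : ∀ j u, (∃ z, Φ j (u, z) ≠ 0) → (p j u).IsSymmetric)
    (hpi : ∀ j u, (∃ z, Φ j (u, z) ≠ 0) → ∀ v, p j u (p j u v) = p j u v)
    (hw : ∀ j, AEStronglyMeasurable (fpr ν (gs j) (p j) (Φ j)) μ)
    {g : ℕ → ℝ} (hgt : Tendsto g atTop atTop) {η C K : ℝ} (hη : 0 < η) (hC : 0 ≤ C)
    {S : ℝ → Set U} {A : ℕ → ℝ} (hA : Tendsto A atTop (𝓝 0))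
    (I1 : ∀ δ, 0 < δ → δ ≤ η → ∀ᶠ j in atTop,
      g j * ∫ u in S δ, ∫ z, ‖Φ j (u, z) - fpj ν (gs j) (p j) (Φ j) (u, z)‖ ^ 2 ∂ν ∂μ ≤
        C * (1 + g j * δ ^ 2))
    (HB : ∀ δ, 0 < δ → δ ≤ η → ∀ᶠ j in atTop,
      ∫ u in S δ, ‖fpr ν (gs j) (p j) (Φ j) u‖ ^ 2 ∂μ ≤
        K * A j + C * ((g j) ^ (-(2 / 3 : ℝ)) + δ ^ 2))
    {ε : ℝ≥0∞} (hε : 0 < ε) :
    ∃ δ, 0 < δ ∧ δ ≤ η ∧ ∀ᶠ j in atTop, ∫⁻ u in S δ, ∫⁻ z, ‖Φ j (u, z)‖ₑ ^ 2 ∂ν ∂μ ≤ ε := by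
  obtain ⟨e, he, heε⟩ : ∃ e : ℝ, 0 < e ∧ ENNReal.ofReal e ≤ ε := by
    rcases eq_or_ne ε ⊤ with h | h
    · exact ⟨1, one_pos, by rw [h]; exact le_top⟩
    · exact ⟨ε.toReal, ENNReal.toReal_pos hε.ne' h, by rw [ENNReal.ofReal_toReal h]⟩
  -- choice of `δ`
  obtain ⟨δ, hδ, hδη, hδe⟩ : ∃ δ : ℝ, 0 < δ ∧ δ ≤ η ∧ 2 * C * δ ^ 2 ≤ e / 2 := by
    refine ⟨min η (Real.sqrt (e / (4 * C + 4))), lt_min hη (Real.sqrt_pos.2 (by positivity)),
      min_le_left _ _, ?_⟩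
    have h1 : (min η (Real.sqrt (e / (4 * C + 4)))) ^ 2 ≤ e / (4 * C + 4) := by
      calc (min η (Real.sqrt (e / (4 * C + 4)))) ^ 2 ≤ (Real.sqrt (e / (4 * C + 4))) ^ 2 :=
            pow_le_pow_left₀ (le_min hη.le (Real.sqrt_nonneg _)) (min_le_right _ _) 2
        _ = _ := Real.sq_sqrt (by positivity)
    calc 2 * C * (min η (Real.sqrt (e / (4 * C + 4)))) ^ 2 ≤ 2 * C * (e / (4 * C + 4)) :=
          mul_le_mul_of_nonneg_left h1 (by positivity)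
      _ ≤ e / 2 := by
          rw [mul_div_assoc', div_le_div_iff₀ (by positivity) (by norm_num)]
          nlinarith
  refine ⟨δ, hδ, hδη, ?_⟩
  have t1 : Tendsto (fun j => C * (g j)⁻¹ + K * A j + C * (g j) ^ (-(2 / 3 : ℝ))) atTop (𝓝 0) := by
    have a1 : Tendsto (fun j => C * (g j)⁻¹) atTop (𝓝 0) := by
      simpa using (tendsto_inv_atTop_zero.comp hgt).const_mul C
    have a2 : Tendsto (fun j => K * A j) atTop (𝓝 0) := by simpa using hA.const_mul K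
    have a3 : Tendsto (fun j => C * (g j) ^ (-(2 / 3 : ℝ))) atTop (𝓝 0) := by
      simpa using ((tendsto_rpow_neg_atTop (by norm_num : (0 : ℝ) < 2 / 3)).comp hgt).const_mul C
    simpa using (a1.add a2).add a3
  filter_upwards [I1 δ hδ hδη, HB δ hδ hδη, hgt.eventually_gt_atTop 0,
    t1.eventually (ge_mem_nhds (by positivity : (0 : ℝ) < e / 2))] with j h1 h2 h3 h4
  rw [mass_eq (hΦ j) (hc j)]
  refine (ENNReal.ofReal_le_ofReal ?_).trans heε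
  rw [split_mass (hΦ j) (hc j) (hgs j) (hg j) (hps j) (hpi j) (hw j) (S δ)]
  have h5 : ∫ u in S δ, ∫ z, ‖Φ j (u, z) - fpj ν (gs j) (p j) (Φ j) (u, z)‖ ^ 2 ∂ν ∂μ ≤
      C * (g j)⁻¹ + C * δ ^ 2 := by
    have h6 := mul_le_mul_of_nonneg_left h1 (inv_nonneg.2 h3.le)
    rw [← mul_assoc, inv_mul_cancel₀ h3.ne', one_mul] at h6
    refine h6.trans (le_of_eq ?_)
    field_simp
  nlinarith

/-- **(h) with amplitudes**: (I1) fibre distance to the vacuum, (HB) block Hardy inequality, (I3) the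
amplitudes `a_j` are bounded in `H¹`, supported in one ball, (I4) weakly null on a conull open set. -/
theorem slice_est_amp {R : Type*} [NormedAddCommGroup R] [InnerProductSpace ℝ R]
    [FiniteDimensional ℝ R] [MeasurableSpace R] [BorelSpace R] {Fx : Type*}
    [NormedAddCommGroup Fx] [InnerProductSpace ℂ Fx] [FiniteDimensional ℂ Fx]
    {Φ : ℕ → U × Z → F} (hΦ : ∀ j, Continuous (Φ j)) (hc : ∀ j, HasCompactSupport (Φ j))
    {gs : ℕ → U × Z → ℝ} {p : ℕ → U → F →ₗ[ℂ] F} (hgs : ∀ j, Continuous (gs j))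
    (hg : ∀ j u, (∃ z, Φ j (u, z) ≠ 0) →
      MemLp (fun z => gs j (u, z)) 2 ν ∧ ∫ z, gs j (u, z) ^ 2 ∂ν = 1)
    (hps : ∀ j u, (∃ z, Φ j (u, z) ≠ 0) → (p j u).IsSymmetric)
    (hpi : ∀ j u, (∃ z, Φ j (u, z) ≠ 0) → ∀ v, p j u (p j u v) = p j u v)
    (hw : ∀ j, AEStronglyMeasurable (fpr ν (gs j) (p j) (Φ j)) μ)
    {g : ℕ → ℝ} (hgt : Tendsto g atTop atTop) {η C K ρ : ℝ} (hη : 0 < η) (hC : 0 ≤ C)
    {S : ℝ → Set U}
    (I1 : ∀ δ, 0 < δ → δ ≤ η → ∀ᶠ j in atTop,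
      g j * ∫ u in S δ, ∫ z, ‖Φ j (u, z) - fpj ν (gs j) (p j) (Φ j) (u, z)‖ ^ 2 ∂ν ∂μ ≤
        C * (1 + g j * δ ^ 2))
    {a : ℕ → R → Fx}
    (HB : ∀ δ, 0 < δ → δ ≤ η → ∀ᶠ j in atTop,
      ∫ u in S δ, ‖fpr ν (gs j) (p j) (Φ j) u‖ ^ 2 ∂μ ≤
        K * (∫ r, ‖a j r‖ ^ 2) + C * ((g j) ^ (-(2 / 3 : ℝ)) + δ ^ 2))
    (I3 : ∀ j, ContDiff ℝ 1 (a j)) (I3s : ∀ j, tsupport (a j) ⊆ Metric.closedBall 0 ρ)
    (I30 : ∀ j, ∫ r, ‖a j r‖ ^ 2 ≤ C) (I31 : ∀ j, ∫ r, ‖fderiv ℝ (a j) r‖ ^ 2 ≤ C)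
    {V : Set R} (hV : IsOpen V) (hVn : volume Vᶜ = 0)
    (I4 : ∀ χ : R → Fx, ContDiff ℝ ∞ χ → HasCompactSupport χ → tsupport χ ⊆ V →
      Tendsto (fun j => ∫ r, ⟪χ r, a j r⟫_ℂ) atTop (𝓝 0))
    {ε : ℝ≥0∞} (hε : 0 < ε) :
    ∃ δ, 0 < δ ∧ δ ≤ η ∧ ∀ᶠ j in atTop, ∫⁻ u in S δ, ∫⁻ z, ‖Φ j (u, z)‖ₑ ^ 2 ∂ν ∂μ ≤ ε := by
  have hm : ∀ j, MemLp (a j) 2 volume := fun j =>
    (I3 j).continuous.memLp_of_hasCompactSupport
      (HasCompactSupport.of_support_subset_isCompact (isCompact_closedBall _ _)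
        (subset_closure.trans (I3s j)))
  have hA : Tendsto (fun j => ∫ r, ‖a j r‖ ^ 2) atTop (𝓝 0) :=
    Amp406.amp_null I3 I3s I30 I31 fun χ hχ hcχ =>
      WeakV756.weak_of_conull hm I30 hV hVn I4 hχ hcχ
  exact slice_est hΦ hc hgs hg hps hpi hw hgt hη hC hA I1 HB hε

end main

end Crest.Agent.R330.CapSl924
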