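import Mathlib

/-! Row 330, section 9/11 (helper441): abstract Hilbert space lemmas.

* `exists_limit`, `lsc` : lower semicontinuity by duality along an ultrafilter
  (uses only: trial operators asymptotically contractive, weak decoupling).
* `resolvent_trick` : a vector whose supercharges are `small + weakly decoupled` is close to a
  core vector of small energy (no corrected quasi-modes). -/

set_option autoImplicit false

open Filter Topology
open scoped InnerProductSpace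

namespace Crest.Agent.R330.Lsc441

section LSC

variable {ι : Type*} {H H' V : Type*} [NormedAddCommGroup H] [InnerProductSpace ℂ H]
  [NormedAddCommGroup H'] [InnerProductSpace ℂ H'] [CompleteSpace H']
  [AddCommGroup V] [Module ℂ V]

/-- Bounded families of complex numbers converge along an ultrafilter. -/
theorem exists_lim_of_bdd (U : Ultrafilter ι) (z : ι → ℂ) (C : ℝ)
    (h : ∀ᶠ j in (U : Filter ι), ‖z j‖ ≤ C) :
    ∃ L : ℂ, ‖L‖ ≤ C ∧ Tendsto z (U : Filter ι) (𝓝 L) := by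
  have hc : IsCompact (Metric.closedBall (0 : ℂ) C) := isCompact_closedBall 0 C
  have hle : ((U.map z : Ultrafilter ℂ) : Filter ℂ) ≤ 𝓟 (Metric.closedBall (0 : ℂ) C) := by
    rw [Ultrafilter.coe_map, le_principal_iff]
    exact mem_map.2 (h.mono fun j hj => by simpa [dist_zero_right] using hj)
  obtain ⟨L, hL, hL'⟩ := hc.ultrafilter_le_nhds (U.map z) hle
  exact ⟨L, by simpa [dist_zero_right] using hL, hL'⟩

theorem exists_lim_of_bdd_real (U : Ultrafilter ι) (z : ι → ℝ) (C : ℝ)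
    (h : ∀ᶠ j in (U : Filter ι), |z j| ≤ C) :
    ∃ L : ℝ, Tendsto z (U : Filter ι) (𝓝 L) := by
  have hc : IsCompact (Metric.closedBall (0 : ℝ) C) := isCompact_closedBall 0 C
  have hle : ((U.map z : Ultrafilter ℝ) : Filter ℝ) ≤ 𝓟 (Metric.closedBall (0 : ℝ) C) := by
    rw [Ultrafilter.coe_map, le_principal_iff]
    exact mem_map.2 (h.mono fun j hj => by simpa [dist_zero_right] using hj)
  obtain ⟨L, hL, hL'⟩ := hc.ultrafilter_le_nhds (U.map z) hle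
  exact ⟨L, hL'⟩

/-- Weak limit amplitude along an ultrafilter. `J` embeds test vectors in the limit space, `T j`
are asymptotically contractive trial operators. -/
theorem exists_limit (U : Ultrafilter ι) (J : V →ₗ[ℂ] H') (T : ι → V →ₗ[ℂ] H)
    (hT : ∀ χ : V, ∀ ε : ℝ, 0 < ε → ∀ᶠ j in (U : Filter ι), ‖T j χ‖ ≤ ‖J χ‖ + ε)
    (φ : ι → H) (C : ℝ) (hφ : ∀ᶠ j in (U : Filter ι), ‖φ j‖ ≤ C) :
    ∃ f : H', f ∈ (LinearMap.range J).topologicalClosure ∧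
      (∀ χ, Tendsto (fun j => ⟪φ j, T j χ⟫_ℂ) (U : Filter ι) (𝓝 ⟪f, J χ⟫_ℂ)) ∧
      ∀ ℓ : ℝ, Tendsto (fun j => ‖φ j‖) (U : Filter ι) (𝓝 ℓ) → ‖f‖ ≤ ℓ := by
  classical
  have hNB : (U : Filter ι).NeBot := U.neBot
  -- the limit of norms
  obtain ⟨ℓ₀, hℓ₀⟩ := exists_lim_of_bdd_real U (fun j => ‖φ j‖) C
    (hφ.mono fun j hj => by simpa [abs_of_nonneg (norm_nonneg _)] using hj)
  have hℓ₀0 : 0 ≤ ℓ₀ := ge_of_tendsto' hℓ₀ fun j => norm_nonneg _
  -- the functional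
  have hC0 : ∀ χ, ∃ L : ℂ, ‖L‖ ≤ ℓ₀ * ‖J χ‖ ∧
      Tendsto (fun j => ⟪φ j, T j χ⟫_ℂ) (U : Filter ι) (𝓝 L) := by
    intro χ
    have hb : ∀ᶠ j in (U : Filter ι), ‖⟪φ j, T j χ⟫_ℂ‖ ≤ C * (‖J χ‖ + 1) := by
      filter_upwards [hφ, hT χ 1 one_pos] with j h1 h2
      calc ‖⟪φ j, T j χ⟫_ℂ‖ ≤ ‖φ j‖ * ‖T j χ‖ := norm_inner_le_norm _ _
        _ ≤ C * (‖J χ‖ + 1) := by
          apply mul_le_mul h1 h2 (norm_nonneg _) (le_trans (norm_nonneg _) h1)
    obtain ⟨L, -, hL⟩ := exists_lim_of_bdd U _ _ hb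
    refine ⟨L, ?_, hL⟩
    have hstep : ∀ ε : ℝ, 0 < ε → ‖L‖ ≤ ℓ₀ * (‖J χ‖ + ε) := by
      intro ε hε
      have h1 : Tendsto (fun j => ‖⟪φ j, T j χ⟫_ℂ‖) (U : Filter ι) (𝓝 ‖L‖) := hL.norm
      have h2 : Tendsto (fun j => ‖φ j‖ * (‖J χ‖ + ε)) (U : Filter ι) (𝓝 (ℓ₀ * (‖J χ‖ + ε))) :=
        hℓ₀.mul_const _
      refine le_of_tendsto_of_tendsto h1 h2 ?_
      filter_upwards [hT χ ε hε] with j hj
      exact (norm_inner_le_norm _ _).trans (mul_le_mul_of_nonneg_left hj (norm_nonneg _))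
    have h3 : Tendsto (fun ε : ℝ => ℓ₀ * (‖J χ‖ + ε)) (𝓝[>] 0) (𝓝 (ℓ₀ * (‖J χ‖ + 0))) := by
      apply Tendsto.mono_left _ nhdsWithin_le_nhds
      exact (continuous_const.mul (continuous_const.add continuous_id)).tendsto 0
    have h4 := ge_of_tendsto h3 (eventually_mem_nhdsWithin.mono fun ε hε => hstep ε hε)
    simpa using h4
  choose L hLn hLt using hC0
  have hLadd : ∀ χ ψ, L (χ + ψ) = L χ + L ψ := by
    intro χ ψ
    refine tendsto_nhds_unique (hLt (χ + ψ)) ?_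
    have := (hLt χ).add (hLt ψ)
    refine this.congr fun j => ?_
    rw [map_add, inner_add_right]
  have hLsmul : ∀ (c : ℂ) χ, L (c • χ) = c * L χ := by
    intro c χ
    refine tendsto_nhds_unique (hLt (c • χ)) ?_
    have := (hLt χ).const_mul c
    refine this.congr fun j => ?_
    rw [map_smul, inner_smul_right]
  let Lv : V →ₗ[ℂ] ℂ :=
    { toFun := L
      map_add' := hLadd
      map_smul' := fun c χ => by simpa using hLsmul c χ }
  have hker : LinearMap.ker J ≤ LinearMap.ker Lv := by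
    intro χ hχ
    rw [LinearMap.mem_ker] at hχ ⊢
    have : ‖L χ‖ ≤ 0 := by simpa [hχ] using hLn χ
    exact norm_le_zero_iff.1 this
  -- functional on the range
  let p : Submodule ℂ H' := LinearMap.range J
  have hex : ∀ y : p, ∃ χ, J χ = y := fun y => y.2
  choose s hs using hex
  have hLs : ∀ χ χ', J χ = J χ' → L χ = L χ' := by
    intro χ χ' h
    have h1 : χ - χ' ∈ LinearMap.ker J := by
      rw [LinearMap.mem_ker, map_sub, h, sub_self]
    have h2 := hker h1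
    rw [LinearMap.mem_ker] at h2
    have h3 : Lv χ - Lv χ' = 0 := by rw [← map_sub]; exact h2
    exact sub_eq_zero.1 h3
  let g₀ : p →ₗ[ℂ] ℂ :=
    { toFun := fun y => L (s y)
      map_add' := fun y z => by
        rw [← hLadd]
        apply hLs
        rw [hs, map_add, hs, hs]; rfl
      map_smul' := fun c y => by
        rw [RingHom.id_apply, smul_eq_mul, ← hLsmul]
        apply hLs
        rw [hs, map_smul, hs]; rfl }
  let g : p →L[ℂ] ℂ := LinearMap.mkContinuous g₀ ℓ₀ (fun y => by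
    have := hLn (s y)
    rw [hs] at this
    exact this)
  obtain ⟨G, hG, hGn⟩ := exists_extension_norm_eq p g
  have hGn' : ‖G‖ ≤ ℓ₀ := by
    rw [hGn]; exact LinearMap.mkContinuous_norm_le _ hℓ₀0 _
  let f₀ : H' := (InnerProductSpace.toDual ℂ H').symm G
  have hf₀ : ∀ y : H', ⟪f₀, y⟫_ℂ = G y := fun y => InnerProductSpace.toDual_symm_apply
  let K : Submodule ℂ H' := p.topologicalClosure
  have hKc : IsClosed (K : Set H') := p.isClosed_topologicalClosure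
  haveI : CompleteSpace K := hKc.completeSpace_coe
  let f : H' := K.starProjection f₀
  have hfK : f ∈ K := Submodule.starProjection_apply_mem K f₀
  have hfin : ∀ y ∈ K, ⟪f, y⟫_ℂ = ⟪f₀, y⟫_ℂ := by
    intro y hy
    have h := Submodule.starProjection_inner_eq_zero (K := K) f₀ y hy
    rw [inner_sub_left, sub_eq_zero] at h
    exact h.symm
  have hfn : ‖f‖ ≤ ℓ₀ := by
    calc ‖f‖ ≤ ‖f₀‖ := by
          exact Submodule.norm_starProjection_apply_le K f₀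
      _ = ‖G‖ := by simp [f₀]
      _ ≤ ℓ₀ := hGn'
  refine ⟨f, hfK, ?_, ?_⟩
  · intro χ
    have hmem : J χ ∈ p := ⟨χ, rfl⟩
    have h1 : ⟪f, J χ⟫_ℂ = L χ := by
      rw [hfin _ (p.le_topologicalClosure hmem), hf₀]
      have := hG ⟨J χ, hmem⟩
      rw [this]
      exact hLs _ _ (hs ⟨J χ, hmem⟩)
    rw [h1]; exact hLt χ
  · intro ℓ hℓ
    have : ℓ = ℓ₀ := tendsto_nhds_unique hℓ hℓ₀
    rw [this]; exact hfn

/-- Lower semicontinuity by duality. `A a` = limit charges on test vectors; `h a j` = `Q_a φ_j`;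
`hw` = weak decoupling (DEC). -/
theorem lsc {κ : Type*} [Fintype κ] (U : Ultrafilter ι) (J : V →ₗ[ℂ] H') (T : ι → V →ₗ[ℂ] H)
    (hT : ∀ χ : V, ∀ ε : ℝ, 0 < ε → ∀ᶠ j in (U : Filter ι), ‖T j χ‖ ≤ ‖J χ‖ + ε)
    (A : κ → V →ₗ[ℂ] V) (φ : ι → H) (h : κ → ι → H) (C : ℝ)
    (hφ : ∀ᶠ j in (U : Filter ι), ‖φ j‖ ≤ C)
    (hh : ∀ a, ∀ᶠ j in (U : Filter ι), ‖h a j‖ ≤ C)
    (hw : ∀ a χ, Tendsto (fun j => ⟪h a j, T j χ⟫_ℂ - ⟪φ j, T j (A a χ)⟫_ℂ) (U : Filter ι) (𝓝 0)) :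
    ∃ (f : H') (u : κ → H'), f ∈ (LinearMap.range J).topologicalClosure ∧
      (∀ a, u a ∈ (LinearMap.range J).topologicalClosure) ∧
      (∀ χ, Tendsto (fun j => ⟪φ j, T j χ⟫_ℂ) (U : Filter ι) (𝓝 ⟪f, J χ⟫_ℂ)) ∧
      (∀ a χ, Tendsto (fun j => ⟪h a j, T j χ⟫_ℂ) (U : Filter ι) (𝓝 ⟪u a, J χ⟫_ℂ)) ∧
      (∀ a χ, ⟪u a, J χ⟫_ℂ = ⟪f, J (A a χ)⟫_ℂ) ∧
      (∀ ℓ : ℝ, Tendsto (fun j => ‖φ j‖ ^ 2) (U : Filter ι) (𝓝 ℓ) → ‖f‖ ^ 2 ≤ ℓ) ∧
      (∀ ℓ : ℝ, Tendsto (fun j => ∑ a, ‖h a j‖ ^ 2) (U : Filter ι) (𝓝 ℓ) →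
        ∑ a, ‖u a‖ ^ 2 ≤ ℓ) := by
  have hNB : (U : Filter ι).NeBot := U.neBot
  obtain ⟨f, hfK, hft, hfn⟩ := exists_limit U J T hT φ C hφ
  choose u huK hut hun using fun a => exists_limit U J T hT (h a) C (hh a)
  have hlim : ∀ (ψ : ι → H), (∀ᶠ j in (U : Filter ι), ‖ψ j‖ ≤ C) → ∃ ℓ₀ : ℝ, 0 ≤ ℓ₀ ∧
      Tendsto (fun j => ‖ψ j‖) (U : Filter ι) (𝓝 ℓ₀) := by
    intro ψ hψ
    obtain ⟨ℓ₀, hℓ₀⟩ := exists_lim_of_bdd_real U (fun j => ‖ψ j‖) C
      (hψ.mono fun j hj => by simpa [abs_of_nonneg (norm_nonneg _)] using hj)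
    exact ⟨ℓ₀, ge_of_tendsto' hℓ₀ fun j => norm_nonneg _, hℓ₀⟩
  refine ⟨f, u, hfK, huK, hft, hut, ?_, ?_, ?_⟩
  · intro a χ
    have h1 := (hut a χ).sub (hft (A a χ))
    have h2 := tendsto_nhds_unique h1 (hw a χ)
    exact sub_eq_zero.1 h2
  · intro ℓ hℓ
    obtain ⟨ℓ₀, h0, hℓ₀⟩ := hlim φ hφ
    have h1 : ℓ = ℓ₀ ^ 2 := tendsto_nhds_unique hℓ (hℓ₀.pow 2)
    rw [h1]
    have h2 := hfn ℓ₀ hℓ₀
    exact pow_le_pow_left₀ (norm_nonneg _) h2 2
  · intro ℓ hℓ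
    choose l hl0 hl using fun a => hlim (h a) (hh a)
    have h1 : Tendsto (fun j => ∑ a, ‖h a j‖ ^ 2) (U : Filter ι) (𝓝 (∑ a, l a ^ 2)) :=
      tendsto_finset_sum _ fun a _ => (hl a).pow 2
    have h2 : ℓ = ∑ a, l a ^ 2 := tendsto_nhds_unique hℓ h1
    rw [h2]
    exact Finset.sum_le_sum fun a _ => pow_le_pow_left₀ (norm_nonneg _) (hun a _ (hl a)) 2

end LSC

section Resolvent

variable {H : Type*} [NormedAddCommGroup H] [InnerProductSpace ℂ H]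
  {D : Type*} [AddCommGroup D] [Module ℂ D] {κ : Type*} [Fintype κ]

/-- the form `q(φ) = (1/n) Σ ‖Q_a φ‖²` -/
noncomputable def qf (n : ℝ) (j : D →ₗ[ℂ] H) (Q : κ → D →ₗ[ℂ] D) (φ : D) : ℝ :=
  (1 / n) * ∑ a, ‖j (Q a φ)‖ ^ 2

omit [Fintype κ] in
theorem sum_mul_le_sqrt {κ : Type*} [Fintype κ] (x y : κ → ℝ) :
    ∑ a, x a * y a ≤ Real.sqrt (∑ a, x a ^ 2) * Real.sqrt (∑ a, y a ^ 2) := by
  exact Real.sum_mul_le_sqrt_mul_sqrt _ _ _

/-- RESOLVENT TRICK. A core vector `v` whose charges are `t a + e a` with `t` small in norm and `e`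
only weakly decoupled from energy-bounded vectors, is close to a core vector of small energy. -/
theorem resolvent_trick (n : ℝ) (hn : 0 < n) (hcard : (Fintype.card κ : ℝ) ≤ n)
    (j : D →ₗ[ℂ] H) (Q : κ → D →ₗ[ℂ] D) (Ham : D →ₗ[ℂ] D)
    (hform : ∀ φ ψ, (n : ℂ) * ⟪j φ, j (Ham ψ)⟫_ℂ = ∑ a, ⟪j (Q a φ), j (Q a ψ)⟫_ℂ)
    (C : ℝ) (hC : 0 ≤ C)
    (hSQ : ∀ φ, (1 / n) * ∑ a, qf n j Q (Q a φ) ≤ ‖j (Ham φ)‖ ^ 2 + C * qf n j Q φ)
    (v : D) (hdense : j v ∈ closure (Set.range fun φ => j φ + j (Ham φ)))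
    (t e : κ → H) (hte : ∀ a, j (Q a v) = t a + e a)
    (ε η : ℝ) (hε : 0 ≤ ε) (hη : 0 ≤ η) (ht : (1 / n) * ∑ a, ‖t a‖ ^ 2 ≤ ε ^ 2)
    (he : ∀ a w, ‖⟪e a, j w⟫_ℂ‖ ≤ η * Real.sqrt (‖j w‖ ^ 2 + qf n j Q w)) :
    ∀ τ : ℝ, 0 < τ → ∃ u : D,
      qf n j Q u + ‖j (Ham u)‖ ^ 2 ≤ (ε + Real.sqrt (1 + C) * η + τ) ^ 2 ∧
      ‖j v - j u‖ ≤ ε + Real.sqrt (1 + C) * η + 2 * τ := by
  intro τ hτ
  obtain ⟨_, ⟨u, rfl⟩, hu⟩ := Metric.mem_closure_iff.1 hdense τ hτ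
  rw [dist_eq_norm] at hu
  have hq0 : ∀ φ, 0 ≤ qf n j Q φ := fun φ =>
    mul_nonneg (by positivity) (Finset.sum_nonneg fun a _ => by positivity)
  -- q(u) = Re <u, H u>
  have hqu : (⟪j u, j (Ham u)⟫_ℂ).re = qf n j Q u := by
    have h := hform u u
    have h1 : (∑ a, ⟪j (Q a u), j (Q a u)⟫_ℂ) = ((∑ a, ‖j (Q a u)‖ ^ 2 : ℝ) : ℂ) := by
      push_cast
      exact Finset.sum_congr rfl fun a _ => by rw [inner_self_eq_norm_sq_to_K]; norm_cast
    rw [h1] at h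
    have h2 := congrArg Complex.re h
    rw [Complex.re_ofReal_mul, Complex.ofReal_re] at h2
    unfold qf
    rw [← h2]; field_simp
  set S : ℝ := qf n j Q u + ‖j (Ham u)‖ ^ 2 with hS
  have hS0 : 0 ≤ S := by have := hq0 u; positivity
  -- main estimate
  have hmain : n * ‖⟪j v, j (Ham u)⟫_ℂ‖ ≤ n * ((ε + Real.sqrt (1 + C) * η) * Real.sqrt S) := by
    have h1 : (n : ℂ) * ⟪j v, j (Ham u)⟫_ℂ =
        (∑ a, ⟪t a, j (Q a u)⟫_ℂ) + ∑ a, ⟪e a, j (Q a u)⟫_ℂ := by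
      rw [hform, ← Finset.sum_add_distrib]
      exact Finset.sum_congr rfl fun a _ => by rw [hte, inner_add_left]
    have h2 : n * ‖⟪j v, j (Ham u)⟫_ℂ‖ = ‖(n : ℂ) * ⟪j v, j (Ham u)⟫_ℂ‖ := by
      rw [norm_mul, Complex.norm_real, Real.norm_of_nonneg hn.le]
    rw [h2, h1]
    have h3 : ‖∑ a, ⟪t a, j (Q a u)⟫_ℂ‖ ≤ n * (ε * Real.sqrt S) := by
      calc ‖∑ a, ⟪t a, j (Q a u)⟫_ℂ‖ ≤ ∑ a, ‖t a‖ * ‖j (Q a u)‖ :=
            (norm_sum_le _ _).trans (Finset.sum_le_sum fun a _ => norm_inner_le_norm _ _)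
        _ ≤ Real.sqrt (∑ a, ‖t a‖ ^ 2) * Real.sqrt (∑ a, ‖j (Q a u)‖ ^ 2) :=
            sum_mul_le_sqrt _ _
        _ ≤ Real.sqrt (n * ε ^ 2) * Real.sqrt (n * S) := by
            apply mul_le_mul (Real.sqrt_le_sqrt _) (Real.sqrt_le_sqrt _) (Real.sqrt_nonneg _)
              (Real.sqrt_nonneg _)
            · have := mul_le_mul_of_nonneg_left ht hn.le
              calc ∑ a, ‖t a‖ ^ 2 = n * ((1 / n) * ∑ a, ‖t a‖ ^ 2) := by field_simp
                _ ≤ n * ε ^ 2 := this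
            · calc ∑ a, ‖j (Q a u)‖ ^ 2 = n * qf n j Q u := by unfold qf; field_simp
                _ ≤ n * S := by
                  apply mul_le_mul_of_nonneg_left _ hn.le
                  rw [hS]; have : 0 ≤ ‖j (Ham u)‖ ^ 2 := by positivity
                  linarith
        _ = n * (ε * Real.sqrt S) := by
            rw [Real.sqrt_mul hn.le, Real.sqrt_mul hn.le, Real.sqrt_sq hε]
            have := Real.mul_self_sqrt hn.le
            calc Real.sqrt n * ε * (Real.sqrt n * Real.sqrt S)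
                = (Real.sqrt n * Real.sqrt n) * (ε * Real.sqrt S) := by ring
              _ = n * (ε * Real.sqrt S) := by rw [this]
    have h4 : ‖∑ a, ⟪e a, j (Q a u)⟫_ℂ‖ ≤ n * (Real.sqrt (1 + C) * η * Real.sqrt S) := by
      calc ‖∑ a, ⟪e a, j (Q a u)⟫_ℂ‖
          ≤ ∑ a, η * Real.sqrt (‖j (Q a u)‖ ^ 2 + qf n j Q (Q a u)) :=
            (norm_sum_le _ _).trans (Finset.sum_le_sum fun a _ => he a (Q a u))
        _ = η * ∑ a, 1 * Real.sqrt (‖j (Q a u)‖ ^ 2 + qf n j Q (Q a u)) := by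
            rw [Finset.mul_sum]; simp
        _ ≤ η * (Real.sqrt (∑ _a : κ, (1 : ℝ) ^ 2) *
              Real.sqrt (∑ a, Real.sqrt (‖j (Q a u)‖ ^ 2 + qf n j Q (Q a u)) ^ 2)) :=
            mul_le_mul_of_nonneg_left (sum_mul_le_sqrt _ _) hη
        _ ≤ η * (Real.sqrt n * Real.sqrt (n * ((1 + C) * S))) := by
            apply mul_le_mul_of_nonneg_left _ hη
            apply mul_le_mul (Real.sqrt_le_sqrt _) (Real.sqrt_le_sqrt _) (Real.sqrt_nonneg _)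
              (Real.sqrt_nonneg _)
            · simpa using hcard
            · have h5 : ∀ a, Real.sqrt (‖j (Q a u)‖ ^ 2 + qf n j Q (Q a u)) ^ 2 =
                  ‖j (Q a u)‖ ^ 2 + qf n j Q (Q a u) := fun a =>
                Real.sq_sqrt (by have := hq0 (Q a u); positivity)
              simp_rw [h5]
              rw [Finset.sum_add_distrib]
              have h6 : ∑ a, ‖j (Q a u)‖ ^ 2 = n * qf n j Q u := by unfold qf; field_simp
              have h7 : ∑ a, qf n j Q (Q a u) ≤ n * (‖j (Ham u)‖ ^ 2 + C * qf n j Q u) := by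
                have := mul_le_mul_of_nonneg_left (hSQ u) hn.le
                calc ∑ a, qf n j Q (Q a u) = n * ((1 / n) * ∑ a, qf n j Q (Q a u)) := by
                      field_simp
                  _ ≤ _ := this
              rw [h6]
              have h8 : n * qf n j Q u + n * (‖j (Ham u)‖ ^ 2 + C * qf n j Q u) ≤
                  n * ((1 + C) * S) := by
                rw [← mul_add]
                apply mul_le_mul_of_nonneg_left _ hn.le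
                rw [hS]
                have h9 : 0 ≤ C * ‖j (Ham u)‖ ^ 2 := by positivity
                nlinarith [hq0 u]
              linarith
        _ = n * (Real.sqrt (1 + C) * η * Real.sqrt S) := by
            rw [Real.sqrt_mul hn.le, Real.sqrt_mul (by linarith)]
            have := Real.mul_self_sqrt hn.le
            calc η * (Real.sqrt n * (Real.sqrt n * (Real.sqrt (1 + C) * Real.sqrt S)))
                = (Real.sqrt n * Real.sqrt n) * (Real.sqrt (1 + C) * η * Real.sqrt S) := by ring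
              _ = _ := by rw [this]
    calc ‖(∑ a, ⟪t a, j (Q a u)⟫_ℂ) + ∑ a, ⟪e a, j (Q a u)⟫_ℂ‖
        ≤ n * (ε * Real.sqrt S) + n * (Real.sqrt (1 + C) * η * Real.sqrt S) :=
          (norm_add_le _ _).trans (add_le_add h3 h4)
      _ = _ := by ring
  have hmain' : ‖⟪j v, j (Ham u)⟫_ℂ‖ ≤ (ε + Real.sqrt (1 + C) * η) * Real.sqrt S :=
    le_of_mul_le_mul_left hmain hn
  -- S = Re <u + Hu, Hu>
  have hSeq : S = (⟪j u + j (Ham u), j (Ham u)⟫_ℂ).re := by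
    rw [inner_add_left, Complex.add_re, hqu, hS]
    congr 1
    rw [inner_self_eq_norm_sq_to_K]
    norm_cast
  have hHS : ‖j (Ham u)‖ ≤ Real.sqrt S := by
    apply Real.le_sqrt_of_sq_le
    rw [hS]; linarith [hq0 u]
  have hSle : S ≤ (ε + Real.sqrt (1 + C) * η + τ) * Real.sqrt S := by
    have h1 : S = (⟪j v, j (Ham u)⟫_ℂ).re - (⟪j v - (j u + j (Ham u)), j (Ham u)⟫_ℂ).re := by
      rw [hSeq, ← Complex.sub_re, ← inner_sub_left]
      congr 2
      abel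
    have h2 : (⟪j v, j (Ham u)⟫_ℂ).re ≤ (ε + Real.sqrt (1 + C) * η) * Real.sqrt S :=
      (Complex.re_le_norm _).trans hmain'
    have h3 : -(⟪j v - (j u + j (Ham u)), j (Ham u)⟫_ℂ).re ≤ τ * Real.sqrt S := by
      calc -(⟪j v - (j u + j (Ham u)), j (Ham u)⟫_ℂ).re
          ≤ ‖⟪j v - (j u + j (Ham u)), j (Ham u)⟫_ℂ‖ :=
            (neg_le_abs _).trans (Complex.abs_re_le_norm _)
        _ ≤ ‖j v - (j u + j (Ham u))‖ * ‖j (Ham u)‖ := norm_inner_le_norm _ _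
        _ ≤ τ * Real.sqrt S := mul_le_mul hu.le hHS (norm_nonneg _) hτ.le
    nlinarith
  have hc0 : 0 ≤ ε + Real.sqrt (1 + C) * η + τ := by positivity
  have hsqrt : Real.sqrt S ≤ ε + Real.sqrt (1 + C) * η + τ := by
    by_cases h0 : Real.sqrt S = 0
    · rw [h0]; exact hc0
    · have hpos : 0 < Real.sqrt S := lt_of_le_of_ne (Real.sqrt_nonneg _) (Ne.symm h0)
      have h1 : Real.sqrt S * Real.sqrt S ≤ (ε + Real.sqrt (1 + C) * η + τ) * Real.sqrt S := by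
        rw [Real.mul_self_sqrt hS0]; exact hSle
      exact le_of_mul_le_mul_right h1 hpos
  refine ⟨u, ?_, ?_⟩
  · calc S = Real.sqrt S ^ 2 := (Real.sq_sqrt hS0).symm
      _ ≤ _ := pow_le_pow_left₀ (Real.sqrt_nonneg _) hsqrt 2
  · have h1 : j v - j u = (j v - (j u + j (Ham u))) + j (Ham u) := by abel
    rw [h1]
    calc ‖(j v - (j u + j (Ham u))) + j (Ham u)‖
        ≤ ‖j v - (j u + j (Ham u))‖ + ‖j (Ham u)‖ := norm_add_le _ _
      _ ≤ τ + Real.sqrt S := add_le_add hu.le hHS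
      _ ≤ _ := by linarith

end Resolvent

end Crest.Agent.R330.Lsc441
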