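import Crest.Agent.R330.Haar_596
import Crest.Agent.R330.Brid_837

/-!
# R330 (helper596): weak = strong for the literal charges

* `diracF a V hV` : the operator `dirac a V` (IBP_837) as `FOp`; `dirac_weak_strong`.
* `symG R : Sym (SU N) (Cfg N) F` : the gauge group as symmetry data; `avg` produces core vectors.
* `InvAE R Ψ` : gauge invariance almost everywhere.
* `chargeW_weak_strong` : weak solutions tested on CORE vectors only are strong limits of core
  vectors, for all charges at once. `mem_zset_iff_weak`, `mem_zeroEnergyStates_iff_weak`.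
* `exists_core_close` : the core is dense in the invariant `L²` functions.
-/

set_option autoImplicit false
set_option linter.unusedSectionVars false
set_option linter.unusedVariables false

open MeasureTheory Set Filter Topology Crest.MathPhysics.MatrixQM
open scoped ContDiff InnerProductSpace ENNReal

universe v

noncomputable section
namespace Crest.Agent.R330.WSLit596
open Crest.Agent.R330.SUgrp596 Crest.Agent.R330.Moll596 Crest.Agent.R330.WS596
  Crest.Agent.R330.Haar596 Crest.Agent.R330.IBP837 Crest.Agent.R330.Cov837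
  Crest.Agent.R330.Brid837 Crest.Agent.R330.Defs478

/-! ### `dirac` as a first order expression -/

section dirac

variable {κ : Type*} [Fintype κ] [DecidableEq κ]
  {F : Type*} [NormedAddCommGroup F] [InnerProductSpace ℂ F] [FiniteDimensional ℂ F]

/-- `F` is a complete space -/
theorem complete_F (F : Type*) [NormedAddCommGroup F] [InnerProductSpace ℂ F]
    [FiniteDimensional ℂ F] : CompleteSpace F := FiniteDimensional.complete ℂ F

/-- `dirac a V` as a first order expression -/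
def diracF (a : κ → F →ₗ[ℂ] F) (V : EuclideanSpace ℝ κ → F →ₗ[ℂ] F)
    (hV : ∀ v, Continuous fun x => V x v) : FOp (EuclideanSpace ℝ κ) F where
  A := ∑ k, ((LinearMap.toContinuousLinearMap ((-Complex.I) • a k)).restrictScalars ℝ).comp
    (ContinuousLinearMap.apply ℝ F (EuclideanSpace.single k (1 : ℝ)))
  B := fun x => (LinearMap.toContinuousLinearMap (V x)).restrictScalars ℝ
  contB := by
    have h1 : Continuous fun x => LinearMap.toContinuousLinearMap (V x) := by
      rw [continuous_clm_apply]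
      exact hV
    exact (ContinuousLinearMap.restrictScalarsL ℂ F F ℝ ℝ).continuous.comp h1

theorem diracF_A (a : κ → F →ₗ[ℂ] F) (V : EuclideanSpace ℝ κ → F →ₗ[ℂ] F)
    (hV : ∀ v, Continuous fun x => V x v) (T : EuclideanSpace ℝ κ →L[ℝ] F) :
    (diracF a V hV).A T = ∑ k, (-Complex.I) • a k (T (EuclideanSpace.single k (1 : ℝ))) := by
  simp [diracF]

theorem diracF_op (a : κ → F →ₗ[ℂ] F) (V : EuclideanSpace ℝ κ → F →ₗ[ℂ] F)
    (hV : ∀ v, Continuous fun x => V x v) (φ : EuclideanSpace ℝ κ → F) (x : EuclideanSpace ℝ κ) :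
    (diracF a V hV).op φ x = dirac a V φ x := by
  rw [FOp.op, diracF_A]
  rfl

theorem diracF_adj {a : κ → F →ₗ[ℂ] F} {V : EuclideanSpace ℝ κ → F →ₗ[ℂ] F}
    (hV : ∀ v, Continuous fun x => V x v) (ha : ∀ k, (a k).IsSymmetric)
    (hVs : ∀ x, (V x).IsSymmetric) : Adj (diracF a V hV) (diracF a V hV) where
  A := by
    intro ℓ u v
    rw [diracF_A, diracF_A, inner_sum, sum_inner, ← Finset.sum_neg_distrib]
    refine Finset.sum_congr rfl fun k _ => ?_
    have e1 : ∀ w : F, (ℓ.smulRight w) (EuclideanSpace.single k (1 : ℝ)) =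
        ((ℓ (EuclideanSpace.single k (1 : ℝ)) : ℝ) : ℂ) • w := fun w => by
      rw [ContinuousLinearMap.smulRight_apply, Complex.coe_smul]
    rw [e1, e1, map_smul, map_smul, inner_smul_right, inner_smul_left, inner_smul_right,
      inner_smul_left, ← ha k v u]
    simp only [map_neg, Complex.conj_I, neg_neg, Complex.conj_ofReal]
    ring
  B := fun x u v => (hVs x v u).symm

/-- **weak = strong for operators `dirac a V`** (finite families, equivariance kept) -/
theorem dirac_weak_strong {ι : Type*} [Finite ι] {a : ι → κ → F →ₗ[ℂ] F}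
    {V : ι → EuclideanSpace ℝ κ → F →ₗ[ℂ] F} (hV : ∀ i v, Continuous fun x => V i x v)
    (ha : ∀ i k, (a i k).IsSymmetric) (hVs : ∀ i x, (V i x).IsSymmetric)
    {u : EuclideanSpace ℝ κ → F} (hu : MemLp u 2 volume) {χ : ι → EuclideanSpace ℝ κ → F}
    (hχ : ∀ i, MemLp (χ i) 2 volume)
    (hw : ∀ i, ∀ ψ : EuclideanSpace ℝ κ → F, ContDiff ℝ ∞ ψ → HasCompactSupport ψ →
      ∫ x, ⟪u x, dirac (a i) (V i) ψ x⟫_ℂ = ∫ x, ⟪χ i x, ψ x⟫_ℂ) :
    ∃ φ : ℕ → EuclideanSpace ℝ κ → F, (∀ n, ContDiff ℝ ∞ (φ n)) ∧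
      (∀ n, HasCompactSupport (φ n)) ∧
      (∀ n (g : EuclideanSpace ℝ κ ≃ₗᵢ[ℝ] EuclideanSpace ℝ κ) (T : F →L[ℝ] F),
        (∀ᵐ x, u (g x) = T (u x)) → ∀ x, φ n (g x) = T (φ n x)) ∧
      Tendsto (fun n => eLpNorm (φ n - u) 2 volume) atTop (𝓝 0) ∧
      ∀ i, Tendsto (fun n => eLpNorm (dirac (a i) (V i) (φ n) - χ i) 2 volume) atTop (𝓝 0) := by
  have := complete_F F
  have hw' : ∀ i, Wk (diracF (a i) (V i) (hV i)) u (χ i) := by
    intro i ψ hψ hc
    have h := congrArg (starRingEnd ℂ) (hw i ψ hψ hc)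
    rw [← integral_conj, ← integral_conj] at h
    simpa only [inner_conj_symm, diracF_op] using h
  obtain ⟨φ, h1, h2, h3, h4, h5⟩ := weak_strong
    (fun i => diracF_adj (hV i) (ha i) (hVs i)) hu hχ hw'
  refine ⟨φ, h1, h2, h3, h4, fun i => ?_⟩
  have := h5 i
  simp only [diracF_op] at this
  exact this

end dirac

/-! ### the gauge group -/

variable {N : ℕ} {F : Type v} [NormedAddCommGroup F] [InnerProductSpace ℂ F]
  [FiniteDimensional ℂ F] {b : ColorBasis N} {M : FermionRep N F}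

/-- the gauge group as symmetry data -/
def symG (R : GaugeAction b M) : Sym (SU N) (Cfg N) F where
  L := actL b
  ρ g := LinearMap.toContinuousLinearMap (R.ρ g)
  L_mul g h x := act_mul b g h x
  ρ_mul g h v := by
    show R.ρ (g * h) v = R.ρ g (R.ρ h v)
    rw [map_mul]; rfl
  L_one x := act_one b x
  ρ_one v := by
    show R.ρ 1 v = v
    rw [map_one]; rfl
  L_cont x := by
    have h : Continuous ((fun p : SU N × Cfg N => b.act p.1 p.2) ∘ fun g : SU N => (g, x)) :=
      (act_continuous₂ b).comp (by fun_prop)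
    exact h
  ρ_cont := R.continuous
  ρ_unitary g v w := R.unitary g v w

/-- gauge invariance almost everywhere -/
def InvAE (R : GaugeAction b M) (Ψ : Cfg N → F) : Prop :=
  ∀ g, ∀ᵐ x, Ψ (b.act g x) = R.ρ g (Ψ x)

theorem symG_tr (R : GaugeAction b M) (g : SU N) (φ : Cfg N → F) :
    (symG R).tr g φ = tg R g φ := rfl

theorem isCoreVec_iff_equi {R : GaugeAction b M} {φ : Cfg N → F} :
    IsCoreVec b R φ ↔ ContDiff ℝ ∞ φ ∧ HasCompactSupport φ ∧ (symG R).Equi φ := Iff.rfl

theorem invAE_iff {R : GaugeAction b M} {φ : Cfg N → F} : InvAE R φ ↔ (symG R).EquiAE φ := Iff.rfl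

theorem InvAE.of_core {R : GaugeAction b M} {φ : Cfg N → F} (h : IsCoreVec b R φ) : InvAE R φ :=
  fun g => Eventually.of_forall fun x => h.2.2 g x

/-- the gauge average of a wave function -/
def avgG (R : GaugeAction b M) (φ : Cfg N → F) : Cfg N → F := (symG R).avg φ

theorem core_avgG (R : GaugeAction b M) {φ : Cfg N → F} (h : ContDiff ℝ ∞ φ)
    (hc : HasCompactSupport φ) : IsCoreVec b R (avgG R φ) := by
  have := complete_F F
  exact ⟨(symG R).avg_contDiff h, (symG R).avg_supp hc, (symG R).avg_equi h.continuous⟩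

theorem integral_avgG (R : GaugeAction b M) {u ψ : Cfg N → F} (hu : LocallyIntegrable u)
    (he : InvAE R u) (hψ : Continuous ψ) (hc : HasCompactSupport ψ) :
    ∫ x, ⟪u x, avgG R ψ x⟫_ℂ = ∫ x, ⟪u x, ψ x⟫_ℂ := by
  have := complete_F F
  exact (symG R).integral_inner_avg hu he hψ hc

theorem integral_avgG' (R : GaugeAction b M) {u ψ : Cfg N → F} (hu : LocallyIntegrable u)
    (he : InvAE R u) (hψ : Continuous ψ) (hc : HasCompactSupport ψ) :
    ∫ x, ⟪avgG R ψ x, u x⟫_ℂ = ∫ x, ⟪ψ x, u x⟫_ℂ := by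
  have := complete_F F
  exact (symG R).integral_inner_avg' hu he hψ hc

/-! ### general charges -/

variable {G : GammaNine} {W : Fin 16 → Fin 16 → Fin (N ^ 2 - 1) → Cfg N → ℝ}

theorem vco_cont (M : FermionRep N F) (hW : ∀ α β A, Continuous (W α β A)) (α : Fin 16) (v : F) :
    Continuous fun x => vco M (fun β A => W α β A x) v := by
  simp only [vco_apply]
  refine continuous_finsetSum _ fun A _ => continuous_finsetSum _ fun β _ => ?_
  exact (Complex.continuous_ofReal.comp (hW α β A)).smul continuous_const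

/-- the charge as a first order expression -/
def chF (M : FermionRep N F) (G : GammaNine) (hW : ∀ α β A, Continuous (W α β A)) (α : Fin 16) :
    FOp (Cfg N) F :=
  diracF (dco M G α) (fun x => vco M (fun β A => W α β A x)) (vco_cont M hW α)

theorem chF_op (hW : ∀ α β A, Continuous (W α β A)) (α : Fin 16) (φ : Cfg N → F) :
    (chF M G hW α).op φ = chargeW M G W α φ := funext fun x => diracF_op _ _ _ φ x

theorem chF_adj (hW : ∀ α β A, Continuous (W α β A)) (α : Fin 16) :
    Adj (chF M G hW α) (chF M G hW α) :=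
  diracF_adj _ (dco_symm M G α) (fun x => vco_symm M _)

theorem chF_cov (R : GaugeAction b M) (hW : ∀ α β A, Continuous (W α β A)) (hcov : IsCov b W)
    (α : Fin 16) : (symG R).Cov (chF M G hW α) := by
  intro g φ hφ
  rw [chF_op, chF_op]
  exact chargeW_tg R g hcov α (hφ.differentiable (by simp))

theorem chargeW_avgG (R : GaugeAction b M) (hW : ∀ α β A, Continuous (W α β A))
    (hcov : IsCov b W) (α : Fin 16) {φ : Cfg N → F} (hφ : ContDiff ℝ ∞ φ) :
    chargeW M G W α (avgG R φ) = avgG R (chargeW M G W α φ) := by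
  have := complete_F F
  rw [← chF_op hW, ← chF_op hW]
  exact (symG R).op_avg (chF_cov R hW hcov α) hφ

/-- weak equations tested on the core are weak equations -/
theorem weak_of_core_weak {R : GaugeAction b M} (hW : ∀ α β A, Continuous (W α β A))
    (hcov : IsCov b W) (α : Fin 16) {Ψ χ : Cfg N → F} (hΨ : LocallyIntegrable Ψ)
    (hχ : LocallyIntegrable χ) (hΨi : InvAE R Ψ) (hχi : InvAE R χ)
    (h : ∀ ψ, IsCoreVec b R ψ → ∫ x, ⟪Ψ x, chargeW M G W α ψ x⟫_ℂ = ∫ x, ⟪χ x, ψ x⟫_ℂ)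
    {ψ : Cfg N → F} (hψ : ContDiff ℝ ∞ ψ) (hc : HasCompactSupport ψ) :
    ∫ x, ⟪Ψ x, chargeW M G W α ψ x⟫_ℂ = ∫ x, ⟪χ x, ψ x⟫_ℂ := by
  have h1 := h _ (core_avgG R hψ hc)
  have hcc : Continuous (chargeW M G W α ψ) :=
    continuous_chargeW (fun β A => hW α β A) (hψ.of_le (by norm_cast))
  rw [chargeW_avgG R hW hcov α hψ, integral_avgG R hΨ hΨi hcc (hasCompactSupport_chargeW hc),
    integral_avgG R hχ hχi hψ.continuous hc] at h1
  exact h1

/-- **weak = strong for general covariant charges, tested against all test functions** -/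
theorem chargeW_weak_strong' {R : GaugeAction b M} (hW : ∀ α β A, Continuous (W α β A))
    {Ψ : Cfg N → F} (hΨ : MemLp Ψ 2 volume) (hΨi : InvAE R Ψ)
    {χ : Fin 16 → Cfg N → F} (hχ : ∀ α, MemLp (χ α) 2 volume)
    (h : ∀ α, ∀ ψ : Cfg N → F, ContDiff ℝ ∞ ψ → HasCompactSupport ψ →
      ∫ x, ⟪Ψ x, chargeW M G W α ψ x⟫_ℂ = ∫ x, ⟪χ α x, ψ x⟫_ℂ) :
    ∃ φ : ℕ → Cfg N → F, (∀ n, IsCoreVec b R (φ n)) ∧
      Tendsto (fun n => eLpNorm (φ n - Ψ) 2 volume) atTop (𝓝 0) ∧
      ∀ α, Tendsto (fun n => eLpNorm (chargeW M G W α (φ n) - χ α) 2 volume) atTop (𝓝 0) := by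
  obtain ⟨φ, h1, h2, h3, h4, h5⟩ := dirac_weak_strong (ι := Fin 16) (a := fun α => dco M G α)
    (V := fun α x => vco M (fun β A => W α β A x)) (fun α => vco_cont M hW α)
    (fun α => dco_symm M G α) (fun α x => vco_symm M _) hΨ hχ h
  refine ⟨φ, fun n => ⟨h1 n, h2 n, fun g x => ?_⟩, h4, h5⟩
  have := h3 n (actL b g) ((LinearMap.toContinuousLinearMap (R.ρ g)).restrictScalars ℝ) (hΨi g) x
  exact this

/-- **weak = strong for general covariant charges, tested against core vectors only** -/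
theorem chargeW_weak_strong {R : GaugeAction b M} (hW : ∀ α β A, Continuous (W α β A))
    (hcov : IsCov b W) {Ψ : Cfg N → F} (hΨ : MemLp Ψ 2 volume) (hΨi : InvAE R Ψ)
    {χ : Fin 16 → Cfg N → F} (hχ : ∀ α, MemLp (χ α) 2 volume) (hχi : ∀ α, InvAE R (χ α))
    (h : ∀ α, ∀ ψ, IsCoreVec b R ψ →
      ∫ x, ⟪Ψ x, chargeW M G W α ψ x⟫_ℂ = ∫ x, ⟪χ α x, ψ x⟫_ℂ) :
    ∃ φ : ℕ → Cfg N → F, (∀ n, IsCoreVec b R (φ n)) ∧
      Tendsto (fun n => eLpNorm (φ n - Ψ) 2 volume) atTop (𝓝 0) ∧
      ∀ α, Tendsto (fun n => eLpNorm (chargeW M G W α (φ n) - χ α) 2 volume) atTop (𝓝 0) :=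
  chargeW_weak_strong' hW hΨ hΨi hχ fun α ψ hψ hc =>
    weak_of_core_weak hW hcov α (hΨ.locallyIntegrable (by norm_num))
      ((hχ α).locallyIntegrable (by norm_num)) hΨi (hχi α) (h α) hψ hc

/-- invariance passes to `L²` limits -/
theorem InvAE.of_tendsto {R : GaugeAction b M} {φ : ℕ → Cfg N → F} {Ψ : Cfg N → F}
    (hφ : ∀ n, AEStronglyMeasurable (φ n) volume) (hφi : ∀ n, InvAE R (φ n))
    (hΨ : AEStronglyMeasurable Ψ volume)
    (h : Tendsto (fun n => eLpNorm (φ n - Ψ) 2 volume) atTop (𝓝 0)) : InvAE R Ψ := by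
  intro g
  have hmp := act_measurePreserving b g
  have hT : Continuous (R.ρ g) := LinearMap.continuous_of_finiteDimensional _
  have hm1 : AEStronglyMeasurable (fun x => Ψ (b.act g x)) volume :=
    hΨ.comp_measurePreserving hmp
  have hm2 : AEStronglyMeasurable (fun x => R.ρ g (Ψ x)) volume :=
    hT.comp_aestronglyMeasurable hΨ
  have key : eLpNorm (fun x => Ψ (b.act g x) - R.ρ g (Ψ x)) 2 volume = 0 := by
    have hb : ∀ n, eLpNorm (fun x => Ψ (b.act g x) - R.ρ g (Ψ x)) 2 volume ≤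
        eLpNorm (φ n - Ψ) 2 volume + eLpNorm (φ n - Ψ) 2 volume := by
      intro n
      have e1 : (fun x => Ψ (b.act g x) - R.ρ g (Ψ x)) =ᵐ[volume]
          (fun x => -((φ n - Ψ) (b.act g x))) + fun x => R.ρ g ((φ n - Ψ) x) := by
        filter_upwards [hφi n g] with x hx
        simp only [Pi.add_apply, Pi.sub_apply, map_sub, hx]
        abel
      have hd : AEStronglyMeasurable (φ n - Ψ) volume := (hφ n).sub hΨ
      have hd1 : AEStronglyMeasurable (fun x => -((φ n - Ψ) (b.act g x))) volume :=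
        (hd.comp_measurePreserving hmp).neg
      have hd2 : AEStronglyMeasurable (fun x => R.ρ g ((φ n - Ψ) x)) volume :=
        hT.comp_aestronglyMeasurable hd
      rw [eLpNorm_congr_ae e1]
      refine (eLpNorm_add_le hd1 hd2 (by norm_num)).trans (add_le_add ?_ ?_)
      · have e2 : (fun x => -((φ n - Ψ) (b.act g x))) = -((φ n - Ψ) ∘ b.act g) := rfl
        rw [e2, eLpNorm_neg, eLpNorm_comp_measurePreserving hd hmp]
      · refine eLpNorm_mono fun x => ?_
        rw [norm_rho]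
    have ht := h.add h
    rw [add_zero] at ht
    exact le_antisymm (ge_of_tendsto' ht hb) zero_le
  have key' := (eLpNorm_eq_zero_iff (hm1.sub hm2) (by norm_num)).1 key
  filter_upwards [key'] with x hx
  exact sub_eq_zero.1 hx

theorem core_aesm {R : GaugeAction b M} {φ : Cfg N → F} (h : IsCoreVec b R φ) :
    AEStronglyMeasurable φ volume := h.1.continuous.aestronglyMeasurable

/-- **zero states in weak form** -/
theorem mem_zset_iff_weak {R : GaugeAction b M} {g m : ℝ} {Ψ : Cfg N → F} :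
    Ψ ∈ zset b M R G g m ↔ MemLp Ψ 2 volume ∧ InvAE R Ψ ∧
      ∀ α, ∀ ψ, IsCoreVec b R ψ → ∫ x, ⟪Ψ x, dcharge b M G g m α ψ x⟫_ℂ = 0 := by
  constructor
  · intro h
    refine ⟨h.1, ?_, fun α ψ hψ => zset_weak h α (hψ.1.of_le (by norm_cast)) hψ.2.1⟩
    obtain ⟨hΨ, φ, hφ, h1, -⟩ := h
    exact InvAE.of_tendsto (fun n => core_aesm (hφ n)) (fun n => InvAE.of_core (hφ n)) hΨ.1 h1
  · rintro ⟨hΨ, hi, h⟩
    have hz : ∀ α : Fin 16, MemLp ((fun _ _ => 0 : Fin 16 → Cfg N → F) α) 2 volume :=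
      fun _ => MemLp.zero
    obtain ⟨φ, h1, h2, h3⟩ := chargeW_weak_strong (M := M) (G := G) (R := R)
      (W := wpot b G g m) (fun α β A => wpot_continuous β A) isCov_wpot hΨ hi hz
      (fun α g => Eventually.of_forall fun x => (map_zero _).symm)
      (fun α ψ hψ => by
        rw [← dcharge_eq, h α ψ hψ]
        simp)
    refine ⟨hΨ, φ, h1, h2, fun α => ?_⟩
    refine (h3 α).congr fun n => ?_
    rw [dcharge_eq]
    congr 1
    funext x
    simp

theorem mem_zeroEnergyStates_iff_weak {R : GaugeAction b M} {Ψ : Cfg N → F} :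
    Ψ ∈ zeroEnergyStates b M R G ↔ MemLp Ψ 2 volume ∧ InvAE R Ψ ∧
      ∀ α, ∀ ψ, IsCoreVec b R ψ → ∫ x, ⟪Ψ x, supercharge b M G α ψ x⟫_ℂ = 0 := by
  rw [← zset_one_zero, mem_zset_iff_weak]
  have e : ∀ α ψ, dcharge b M G 1 0 α ψ = supercharge b M G α ψ := fun α ψ =>
    funext fun x => dcharge_one_zero b M G α ψ x
  simp only [e]

/-- the core is dense in the invariant `L²` functions -/
theorem exists_core_tendsto {R : GaugeAction b M} {Ψ : Cfg N → F} (hΨ : MemLp Ψ 2 volume)
    (hi : InvAE R Ψ) : ∃ φ : ℕ → Cfg N → F, (∀ n, IsCoreVec b R (φ n)) ∧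
      Tendsto (fun n => eLpNorm (φ n - Ψ) 2 volume) atTop (𝓝 0) := by
  have := complete_F F
  obtain ⟨φ, h1, h2, h3, h4, -⟩ := weak_strong (κ := Empty) (Q := Empty.elim) (Qd := Empty.elim)
    (fun a => a.elim) hΨ (χ := Empty.elim) (fun a => a.elim) (fun a => a.elim)
  refine ⟨φ, fun n => ⟨h1 n, h2 n, fun g x => ?_⟩, h4⟩
  have := h3 n (actL b g) ((LinearMap.toContinuousLinearMap (R.ρ g)).restrictScalars ℝ) (hi g) x
  exact this

end Crest.Agent.R330.WSLit596
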