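import Crest.Agent.R330.SUgrp_596
import Crest.Agent.R330.WS_596

/-!
# R330 (helper596): group averaging of smooth functions

`Sym G E F`: a compact group `G` acting on `E` by linear isometries `L g` and on `F` by unitary
operators `ρ g`. `tr g φ x = ρ g⁻¹ (φ (L g x))`, `avg φ x = ∫ tr g φ x dg`.
* `avg_contDiff`, `avg_supp`, `avg_equi`: `avg` maps `C_c^∞` into equivariant `C_c^∞`.
* `integral_inner_avg`: `∫ ⟪u, avg ψ⟫ = ∫ ⟪u, ψ⟫` for (a.e.) equivariant locally integrable `u`.
* `op_avg`: `avg` commutes with covariant first order expressions.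
-/

set_option autoImplicit false
set_option linter.unusedSectionVars false
set_option linter.unusedVariables false

open MeasureTheory Set Filter Topology ENNReal
open scoped ContDiff InnerProductSpace

universe v

noncomputable section
namespace Crest.Agent.R330.Haar596
open SUgrp596 Moll596 WS596

/-! ### parametric integrals over a compact space -/

section param

variable {K : Type*} [TopologicalSpace K] [CompactSpace K] [MeasurableSpace K] [BorelSpace K]
  [SecondCountableTopology K] (μ : Measure K) [IsFiniteMeasure μ]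
variable {E : Type} [NormedAddCommGroup E] [NormedSpace ℝ E] [FiniteDimensional ℝ E]

theorem continuous_param {F' : Type*} [NormedAddCommGroup F'] [NormedSpace ℝ F'] {f : K → E → F'}
    (hc : Continuous fun p : K × E => f p.1 p.2) : Continuous fun x => ∫ k, f k x ∂μ := by
  have h : Continuous (Function.uncurry fun (x : E) (k : K) => f k x) :=
    hc.comp continuous_swap
  have := continuous_parametric_integral_of_continuous (μ := μ) h (s := Set.univ) isCompact_univ
  simpa only [Measure.restrict_univ] using this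

theorem integrable_param {F' : Type*} [NormedAddCommGroup F'] {f : K → F'}
    (hc : Continuous f) : Integrable f μ :=
  hc.integrable_of_hasCompactSupport (HasCompactSupport.of_compactSpace _)

theorem hasFDerivAt_param {F' : Type*} [NormedAddCommGroup F'] [NormedSpace ℝ F'] {f : K → E → F'}
    (hd : ∀ k, Differentiable ℝ (f k)) (hc : Continuous fun p : K × E => f p.1 p.2)
    (hc' : Continuous fun p : K × E => fderiv ℝ (f p.1) p.2) (x : E) :
    HasFDerivAt (fun x => ∫ k, f k x ∂μ) (∫ k, fderiv ℝ (f k) x ∂μ) x := by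
  have hK : IsCompact ((Set.univ : Set K) ×ˢ Metric.closedBall x 1) :=
    isCompact_univ.prod (isCompact_closedBall x 1)
  obtain ⟨C, hC⟩ := hK.exists_bound_of_continuousOn hc'.continuousOn
  have hfx : ∀ y : E, Continuous fun k => f k y := fun y =>
    hc.comp (continuous_id.prodMk continuous_const)
  have hfx' : Continuous fun k => fderiv ℝ (f k) x :=
    hc'.comp (continuous_id.prodMk continuous_const)
  refine hasFDerivAt_integral_of_dominated_of_fderiv_le (μ := μ) (F := fun y k => f k y)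
    (F' := fun y k => fderiv ℝ (f k) y) (x₀ := x) (bound := fun _ => C)
    (Metric.closedBall_mem_nhds x one_pos) ?_ ?_ ?_ ?_ ?_ ?_
  · exact Eventually.of_forall fun y => (hfx y).aestronglyMeasurable
  · exact integrable_param μ (hfx x)
  · exact hfx'.aestronglyMeasurable
  · exact Eventually.of_forall fun k y hy => hC (k, y) ⟨mem_univ _, hy⟩
  · exact integrable_const _
  · exact Eventually.of_forall fun k y _ => (hd k y).hasFDerivAt

variable {μ}

/-- smoothness of group averages -/
theorem contDiff_avgR (Lc : K → E →L[ℝ] E) (hL : Continuous Lc) (n : ℕ) :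
    ∀ {F₁ F₂ : Type v} [NormedAddCommGroup F₁] [NormedSpace ℝ F₁] [NormedAddCommGroup F₂]
      [NormedSpace ℝ F₂] (R : K → F₁ →L[ℝ] F₂) (hR : Continuous R) (φ : E → F₁),
      ContDiff ℝ n φ → ContDiff ℝ n fun x => ∫ g, R g (φ (Lc g x)) ∂μ := by
  induction n with
  | zero =>
    intro F₁ F₂ _ _ _ _ R hR φ hφ
    rw [CharP.cast_eq_zero, contDiff_zero] at hφ ⊢
    refine continuous_param μ ?_
    exact (hR.comp continuous_fst).clm_apply (hφ.comp
      ((hL.comp continuous_fst).clm_apply continuous_snd))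
  | succ n ih =>
    intro F₁ F₂ _ _ _ _ R hR φ hφ
    have hφ' : ContDiff ℝ ((n : WithTop ℕ∞) + 1) φ := by exact_mod_cast hφ
    have hdφ : Differentiable ℝ φ := hφ'.differentiable (by simp)
    have hcφ' : Continuous (fderiv ℝ φ) := hφ'.continuous_fderiv (by simp)
    have hfd : ∀ g x, HasFDerivAt (fun x => R g (φ (Lc g x)))
        ((R g).comp ((fderiv ℝ φ (Lc g x)).comp (Lc g))) x := by
      intro g x
      exact (R g).hasFDerivAt.comp x ((hdφ _).hasFDerivAt.comp x (Lc g).hasFDerivAt)
    have hc : Continuous fun p : K × E => R p.1 (φ (Lc p.1 p.2)) :=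
      (hR.comp continuous_fst).clm_apply (hdφ.continuous.comp
        ((hL.comp continuous_fst).clm_apply continuous_snd))
    have hc' : Continuous fun p : K × E => fderiv ℝ (fun x => R p.1 (φ (Lc p.1 x))) p.2 := by
      have e : (fun p : K × E => fderiv ℝ (fun x => R p.1 (φ (Lc p.1 x))) p.2) = fun p =>
          (R p.1).comp ((fderiv ℝ φ (Lc p.1 p.2)).comp (Lc p.1)) := by
        funext p
        exact (hfd p.1 p.2).fderiv
      rw [e]
      refine (hR.comp continuous_fst).clm_comp ((hcφ'.comp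
        ((hL.comp continuous_fst).clm_apply continuous_snd)).clm_comp (hL.comp continuous_fst))
    have hder := hasFDerivAt_param μ (f := fun g x => R g (φ (Lc g x)))
      (fun g x => (hfd g x).differentiableAt) hc hc'
    have hgoal : ContDiff ℝ ((n : WithTop ℕ∞) + 1) fun x => ∫ g, R g (φ (Lc g x)) ∂μ := by
      rw [contDiff_succ_iff_fderiv]
      refine ⟨fun x => (hder x).differentiableAt, fun h => absurd h (by simp), ?_⟩
      have e : fderiv ℝ (fun x => ∫ g, R g (φ (Lc g x)) ∂μ) = fun x =>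
          ∫ g, ((ContinuousLinearMap.compL ℝ E F₁ F₂ (R g)).comp
            ((ContinuousLinearMap.compL ℝ E E F₁).flip (Lc g))) (fderiv ℝ φ (Lc g x)) ∂μ := by
        funext x
        rw [(hder x).fderiv]
        refine integral_congr_ae (Eventually.of_forall fun g => ?_)
        simp only
        rw [(hfd g x).fderiv]
        rfl
      rw [e]
      refine ih _ ?_ _ ((contDiff_succ_iff_fderiv.1 hφ').2.2)
      exact ((ContinuousLinearMap.compL ℝ E F₁ F₂).continuous.comp hR).clm_comp
        ((ContinuousLinearMap.compL ℝ E E F₁).flip.continuous.comp hL)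
    exact_mod_cast hgoal

theorem hasFDerivAt_tw {F₁ F₂ : Type*} [NormedAddCommGroup F₁] [NormedSpace ℝ F₁]
    [NormedAddCommGroup F₂] [NormedSpace ℝ F₂] (L : E →L[ℝ] E) (R : F₁ →L[ℝ] F₂) {φ : E → F₁}
    (hφ : Differentiable ℝ φ) (x : E) : HasFDerivAt (fun x => R (φ (L x)))
      (R.comp ((fderiv ℝ φ (L x)).comp L)) x :=
  R.hasFDerivAt.comp x ((hφ _).hasFDerivAt.comp x L.hasFDerivAt)

theorem fderiv_tw_apply {F₁ F₂ : Type*} [NormedAddCommGroup F₁] [NormedSpace ℝ F₁]
    [NormedAddCommGroup F₂] [NormedSpace ℝ F₂] (L : E →L[ℝ] E) (R : F₁ →L[ℝ] F₂) {φ : E → F₁}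
    (hφ : Differentiable ℝ φ) (x e : E) :
    fderiv ℝ (fun x => R (φ (L x))) x e = R (fderiv ℝ φ (L x) (L e)) := by
  rw [(hasFDerivAt_tw L R hφ x).fderiv]
  rfl

/-- derivative of a group average -/
theorem fderiv_avgR_apply {F₁ F₂ : Type*} [NormedAddCommGroup F₁] [NormedSpace ℝ F₁]
    [NormedAddCommGroup F₂] [NormedSpace ℝ F₂] (Lc : K → E →L[ℝ] E) (hL : Continuous Lc)
    (R : K → F₁ →L[ℝ] F₂) (hR : Continuous R) {φ : E → F₁} (hφ : ContDiff ℝ 1 φ) (x e : E) :
    fderiv ℝ (fun x => ∫ g, R g (φ (Lc g x)) ∂μ) x e =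
      ∫ g, R g (fderiv ℝ φ (Lc g x) (Lc g e)) ∂μ := by
  have hdφ : Differentiable ℝ φ := hφ.differentiable (by simp)
  have hcφ' : Continuous (fderiv ℝ φ) := hφ.continuous_fderiv (by simp)
  have hc : Continuous fun p : K × E => R p.1 (φ (Lc p.1 p.2)) :=
    (hR.comp continuous_fst).clm_apply (hdφ.continuous.comp
      ((hL.comp continuous_fst).clm_apply continuous_snd))
  have hc' : Continuous fun p : K × E => fderiv ℝ (fun x => R p.1 (φ (Lc p.1 x))) p.2 := by
    have e : (fun p : K × E => fderiv ℝ (fun x => R p.1 (φ (Lc p.1 x))) p.2) = fun p =>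
        (R p.1).comp ((fderiv ℝ φ (Lc p.1 p.2)).comp (Lc p.1)) := by
      funext p
      exact (hasFDerivAt_tw (Lc p.1) (R p.1) hdφ p.2).fderiv
    rw [e]
    refine (hR.comp continuous_fst).clm_comp ((hcφ'.comp
      ((hL.comp continuous_fst).clm_apply continuous_snd)).clm_comp (hL.comp continuous_fst))
  have hi : Integrable (fun g => fderiv ℝ (fun x => R g (φ (Lc g x))) x) μ :=
    integrable_param μ (hc'.comp (continuous_id.prodMk continuous_const))
  rw [(hasFDerivAt_param μ (f := fun g x => R g (φ (Lc g x)))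
    (fun g x => (hasFDerivAt_tw (Lc g) (R g) hdφ x).differentiableAt) hc hc' x).fderiv,
    ContinuousLinearMap.integral_apply hi]
  refine integral_congr_ae (Eventually.of_forall fun g => ?_)
  exact fderiv_tw_apply (Lc g) (R g) hdφ x e

end param

/-! ### symmetry data -/

variable (G : Type*) [Group G] [TopologicalSpace G] [IsTopologicalGroup G] [CompactSpace G]
  [SecondCountableTopology G] [MeasurableSpace G] [BorelSpace G]
variable (E : Type) [NormedAddCommGroup E] [InnerProductSpace ℝ E] [FiniteDimensional ℝ E]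
  [MeasurableSpace E] [BorelSpace E]
variable (F : Type v) [NormedAddCommGroup F] [InnerProductSpace ℂ F]

/-- a group acting on `E` by isometries and on `F` by unitary operators -/
structure Sym where
  L : G → E ≃ₗᵢ[ℝ] E
  ρ : G → F →L[ℂ] F
  L_mul : ∀ g h x, L (g * h) x = L g (L h x)
  ρ_mul : ∀ g h v, ρ (g * h) v = ρ g (ρ h v)
  L_one : ∀ x, L 1 x = x
  ρ_one : ∀ v, ρ 1 v = v
  L_cont : ∀ x, Continuous fun g => L g x
  ρ_cont : Continuous ρ
  ρ_unitary : ∀ g v w, ⟪ρ g v, ρ g w⟫_ℂ = ⟪v, w⟫_ℂ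

variable {G E F}
variable (S : Sym G E F)

namespace Sym

/-- translate of a function -/
def tr (g : G) (φ : E → F) (x : E) : F := S.ρ g⁻¹ (φ (S.L g x))

/-- equivariant functions -/
def Equi (φ : E → F) : Prop := ∀ g x, φ (S.L g x) = S.ρ g (φ x)

/-- functions which are equivariant almost everywhere -/
def EquiAE (φ : E → F) : Prop := ∀ g, ∀ᵐ x, φ (S.L g x) = S.ρ g (φ x)

/-- the average -/
def avg (φ : E → F) (x : E) : F := ∫ g, S.tr g φ x ∂(haarP G)

theorem Equi.ae {φ : E → F} (h : S.Equi φ) : S.EquiAE φ := fun g =>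
  Eventually.of_forall fun x => h g x

theorem L_inv_apply (g : G) (x : E) : S.L g⁻¹ (S.L g x) = x := by
  rw [← S.L_mul, inv_mul_cancel, S.L_one]

theorem L_apply_inv (g : G) (x : E) : S.L g (S.L g⁻¹ x) = x := by
  rw [← S.L_mul, mul_inv_cancel, S.L_one]

theorem ρ_inv_apply (g : G) (v : F) : S.ρ g⁻¹ (S.ρ g v) = v := by
  rw [← S.ρ_mul, inv_mul_cancel, S.ρ_one]

theorem ρ_apply_inv (g : G) (v : F) : S.ρ g (S.ρ g⁻¹ v) = v := by
  rw [← S.ρ_mul, mul_inv_cancel, S.ρ_one]

theorem norm_ρ (g : G) (v : F) : ‖S.ρ g v‖ = ‖v‖ := by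
  have h := S.ρ_unitary g v v
  rw [inner_self_eq_norm_sq_to_K, inner_self_eq_norm_sq_to_K] at h
  have h2 : ‖S.ρ g v‖ ^ 2 = ‖v‖ ^ 2 := by exact_mod_cast h
  exact (sq_eq_sq₀ (norm_nonneg _) (norm_nonneg _)).1 h2

/-- `L g` as a continuous linear map, continuous in `g` -/
def Lc (g : G) : E →L[ℝ] E := (S.L g).toContinuousLinearEquiv

theorem Lc_apply (g : G) (x : E) : S.Lc g x = S.L g x := rfl

theorem Lc_cont : Continuous S.Lc := by
  rw [continuous_clm_apply]
  exact S.L_cont

/-- `ρ g⁻¹` as a real continuous linear map -/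
def Rc (g : G) : F →L[ℝ] F := (S.ρ g⁻¹).restrictScalars ℝ

theorem Rc_cont : Continuous S.Rc :=
  (ContinuousLinearMap.restrictScalarsL ℂ F F ℝ ℝ).continuous.comp (S.ρ_cont.comp continuous_inv)

theorem joint_cont : Continuous fun p : G × E => S.L p.1 p.2 :=
  (S.Lc_cont.comp continuous_fst).clm_apply continuous_snd

theorem tr_cont {φ : E → F} (h : Continuous φ) : Continuous fun p : G × E => S.tr p.1 φ p.2 :=
  (S.Rc_cont.comp continuous_fst).clm_apply (h.comp S.joint_cont)

theorem tr_contDiff {φ : E → F} {n : WithTop ℕ∞} (h : ContDiff ℝ n φ) (g : G) :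
    ContDiff ℝ n (S.tr g φ) :=
  (S.Rc g).contDiff.comp (h.comp (S.Lc g).contDiff)

theorem norm_tr (g : G) (φ : E → F) (x : E) : ‖S.tr g φ x‖ = ‖φ (S.L g x)‖ := S.norm_ρ _ _

theorem tr_supp {φ : E → F} (h : HasCompactSupport φ) (g : G) : HasCompactSupport (S.tr g φ) := by
  have h1 : HasCompactSupport fun x => φ (S.L g x) :=
    h.comp_homeomorph (S.L g).toHomeomorph
  exact h1.comp_left (g := fun v => S.ρ g⁻¹ v) (map_zero _)

theorem exists_radius {φ : E → F} (h : HasCompactSupport φ) : ∃ R : ℝ, 0 < R ∧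
    ∀ x, R ≤ ‖x‖ → φ x = 0 := by
  obtain ⟨R, hR⟩ := h.isCompact.isBounded.subset_closedBall (0 : E)
  refine ⟨max R 0 + 1, by positivity, fun x hx => ?_⟩
  by_contra h0
  have h1 := hR (subset_tsupport φ h0)
  rw [mem_closedBall_zero_iff] at h1
  have := le_max_left R 0
  linarith

theorem avg_zero {φ : E → F} {R : ℝ} (h : ∀ x, R ≤ ‖x‖ → φ x = 0) {x : E} (hx : R ≤ ‖x‖) :
    S.avg φ x = 0 := by
  rw [avg, ← integral_zero G F (μ := haarP G)]
  refine integral_congr_ae (Eventually.of_forall fun g => ?_)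
  simp only [tr]
  rw [h _ (by rw [(S.L g).norm_map]; exact hx), map_zero]

theorem avg_supp {φ : E → F} (h : HasCompactSupport φ) : HasCompactSupport (S.avg φ) := by
  obtain ⟨R, hR, h0⟩ := exists_radius h
  refine HasCompactSupport.of_support_subset_isCompact (isCompact_closedBall (0 : E) R) ?_
  intro x hx
  by_contra h'
  apply hx
  apply S.avg_zero h0
  simp only [Metric.mem_closedBall, dist_zero_right, not_le] at h'
  exact h'.le

theorem avg_contDiff {φ : E → F} (h : ContDiff ℝ ∞ φ) : ContDiff ℝ ∞ (S.avg φ) := by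
  rw [contDiff_infty] at h ⊢
  intro n
  exact contDiff_avgR (μ := haarP G) S.Lc S.Lc_cont n S.Rc S.Rc_cont φ (h n)

theorem avg_continuous {φ : E → F} (h : Continuous φ) : Continuous (S.avg φ) :=
  continuous_param (haarP G) (S.tr_cont h)

theorem tr_param {φ : E → F} (h : Continuous φ) (x : E) : Continuous fun g => S.tr g φ x :=
  (S.tr_cont h).comp (continuous_id.prodMk continuous_const)

theorem tr_equi {φ : E → F} (h : S.Equi φ) (g : G) : S.tr g φ = φ := by
  funext x
  rw [tr, h, S.ρ_inv_apply]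

variable [CompleteSpace F]

theorem avg_equi {φ : E → F} (h : Continuous φ) : S.Equi (S.avg φ) := by
  intro k x
  have e1 : S.avg φ (S.L k x) = ∫ g, S.ρ k (S.tr (g * k) φ x) ∂(haarP G) := by
    rw [avg]
    refine integral_congr_ae (Eventually.of_forall fun g => ?_)
    simp only [tr]
    rw [S.L_mul, mul_inv_rev, ← S.ρ_mul, mul_inv_cancel_left]
  rw [e1, integral_mul_right_eq_self (fun g => S.ρ k (S.tr g φ x)) k, avg]
  exact (S.ρ k).integral_comp_comm (integrable_param _ (S.tr_param h x))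

theorem avg_of_equi {φ : E → F} (h : S.Equi φ) : S.avg φ = φ := by
  funext x
  rw [avg]
  simp only [S.tr_equi h, integral_const]
  simp

/-- **averaging is invisible against equivariant functions** -/
theorem integral_inner_avg {u ψ : E → F} (hu : LocallyIntegrable u) (he : S.EquiAE u)
    (hψ : Continuous ψ) (hc : HasCompactSupport ψ) :
    ∫ x, ⟪u x, S.avg ψ x⟫_ℂ = ∫ x, ⟪u x, ψ x⟫_ℂ := by
  obtain ⟨R, hR, h0⟩ := exists_radius hc
  obtain ⟨C, hC⟩ := hc.exists_bound_of_continuous hψ
  have e1 : ∀ x, ⟪u x, S.avg ψ x⟫_ℂ = ∫ g, ⟪u x, S.tr g ψ x⟫_ℂ ∂(haarP G) := fun x => by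
    rw [avg, integral_inner (integrable_param _ (S.tr_param hψ x))]
  simp only [e1]
  -- integrability on the product
  have hm : AEStronglyMeasurable (fun p : E × G => ⟪u p.1, S.tr p.2 ψ p.1⟫_ℂ)
      ((volume : Measure E).prod (haarP G)) := by
    have h1 : AEStronglyMeasurable (fun p : E × G => u p.1) ((volume : Measure E).prod (haarP G)) :=
      hu.aestronglyMeasurable.comp_fst
    have h2 : Continuous fun p : E × G => S.tr p.2 ψ p.1 :=
      (S.tr_cont hψ).comp continuous_swap
    exact h1.inner h2.aestronglyMeasurable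
  have hub : Integrable (fun x => (Metric.ball (0 : E) R).indicator (fun x => C * ‖u x‖) x)
      volume := by
    rw [integrable_indicator_iff measurableSet_ball]
    exact ((hu.integrableOn_isCompact (isCompact_closedBall (0 : E) R)).mono_set
      Metric.ball_subset_closedBall).norm.const_mul C
  have hint : Integrable (fun p : E × G => ⟪u p.1, S.tr p.2 ψ p.1⟫_ℂ)
      ((volume : Measure E).prod (haarP G)) := by
    have h3 : Integrable (fun p : E × G =>
        (Metric.ball (0 : E) R).indicator (fun x => C * ‖u x‖) p.1)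
        ((volume : Measure E).prod (haarP G)) := hub.comp_fst (haarP G)
    refine h3.mono' hm (Eventually.of_forall fun p => ?_)
    by_cases hp : R ≤ ‖p.1‖
    · have : S.tr p.2 ψ p.1 = 0 := by
        rw [tr, h0 _ (by rw [(S.L p.2).norm_map]; exact hp), map_zero]
      rw [this, inner_zero_right, norm_zero]
      refine Set.indicator_nonneg (fun x _ => ?_) _
      exact mul_nonneg ((norm_nonneg _).trans (hC 0)) (norm_nonneg _)
    · rw [Set.indicator_of_mem (by simpa using hp)]
      refine (norm_inner_le_norm _ _).trans ?_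
      rw [S.norm_tr, mul_comm]
      exact mul_le_mul_of_nonneg_right (hC _) (norm_nonneg _)
  rw [integral_integral_swap hint]
  have e2 : ∀ g : G, ∫ x, ⟪u x, S.tr g ψ x⟫_ℂ = ∫ x, ⟪u x, ψ x⟫_ℂ := by
    intro g
    have e3 : ∫ x, ⟪u x, S.tr g ψ x⟫_ℂ = ∫ x, ⟪u (S.L g x), ψ (S.L g x)⟫_ℂ := by
      refine integral_congr_ae ?_
      filter_upwards [he g] with x hx
      rw [hx, tr]
      conv_rhs => rw [← S.ρ_apply_inv g (ψ (S.L g x)), S.ρ_unitary]
    rw [e3]
    exact (S.L g).measurePreserving.integral_comp (S.L g).toHomeomorph.measurableEmbedding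
      (fun x => ⟪u x, ψ x⟫_ℂ)
  simp only [e2, integral_const]
  simp

theorem integral_inner_avg' {u ψ : E → F} (hu : LocallyIntegrable u) (he : S.EquiAE u)
    (hψ : Continuous ψ) (hc : HasCompactSupport ψ) :
    ∫ x, ⟪S.avg ψ x, u x⟫_ℂ = ∫ x, ⟪ψ x, u x⟫_ℂ := by
  have h := congrArg (starRingEnd ℂ) (S.integral_inner_avg hu he hψ hc)
  rw [← integral_conj, ← integral_conj] at h
  simpa only [inner_conj_symm] using h

/-- derivative of the average -/
theorem fderiv_avg {φ : E → F} (h : ContDiff ℝ ∞ φ) (x : E) :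
    fderiv ℝ (S.avg φ) x = ∫ g, fderiv ℝ (S.tr g φ) x ∂(haarP G) := by
  have hc' : Continuous fun p : G × E => fderiv ℝ (S.tr p.1 φ) p.2 := by
    have hfd : ∀ (g : G) x, HasFDerivAt (S.tr g φ)
        ((S.Rc g).comp ((fderiv ℝ φ (S.Lc g x)).comp (S.Lc g))) x := by
      intro g x
      exact (S.Rc g).hasFDerivAt.comp x
        ((h.differentiable (by simp) _).hasFDerivAt.comp x (S.Lc g).hasFDerivAt)
    have e : (fun p : G × E => fderiv ℝ (S.tr p.1 φ) p.2) = fun p =>
        (S.Rc p.1).comp ((fderiv ℝ φ (S.Lc p.1 p.2)).comp (S.Lc p.1)) := by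
      funext p
      exact (hfd p.1 p.2).fderiv
    rw [e]
    exact (S.Rc_cont.comp continuous_fst).clm_comp (((h.continuous_fderiv (by simp)).comp
      ((S.Lc_cont.comp continuous_fst).clm_apply continuous_snd)).clm_comp
      (S.Lc_cont.comp continuous_fst))
  exact (hasFDerivAt_param (haarP G) (f := fun g x => S.tr g φ x)
    (fun g => (S.tr_contDiff h g).differentiable (by simp)) (S.tr_cont h.continuous) hc' x).fderiv

theorem integrable_fderiv_tr {φ : E → F} (h : ContDiff ℝ ∞ φ) (x : E) :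
    Integrable (fun g => fderiv ℝ (S.tr g φ) x) (haarP G) := by
  have hfd : ∀ (g : G) x, fderiv ℝ (S.tr g φ) x =
      ((S.Rc g).comp ((fderiv ℝ φ (S.Lc g x)).comp (S.Lc g))) := by
    intro g x
    exact ((S.Rc g).hasFDerivAt.comp x
      ((h.differentiable (by simp) _).hasFDerivAt.comp x (S.Lc g).hasFDerivAt)).fderiv
  simp only [hfd]
  refine integrable_param _ ?_
  exact S.Rc_cont.clm_comp (((h.continuous_fderiv (by simp)).comp
    (S.Lc_cont.clm_apply continuous_const)).clm_comp S.Lc_cont)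

/-- a covariant first order expression -/
def Cov (Q : FOp E F) : Prop :=
  ∀ g (φ : E → F), ContDiff ℝ ∞ φ → Q.op (S.tr g φ) = S.tr g (Q.op φ)

/-- averages commute with covariant first order expressions -/
theorem op_avg {Q : FOp E F} (hQ : S.Cov Q) {φ : E → F} (h : ContDiff ℝ ∞ φ) :
    Q.op (S.avg φ) = S.avg (Q.op φ) := by
  funext x
  have e1 : S.avg (Q.op φ) x = ∫ g, Q.op (S.tr g φ) x ∂(haarP G) := by
    rw [avg]
    refine integral_congr_ae (Eventually.of_forall fun g => ?_)
    simp only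
    rw [hQ g φ h]
  rw [e1, FOp.op, S.fderiv_avg h x, ← Q.A.integral_comp_comm (S.integrable_fderiv_tr h x)]
  have e2 : Q.B x (S.avg φ x) = ∫ g, Q.B x (S.tr g φ x) ∂(haarP G) := by
    rw [avg, (Q.B x).integral_comp_comm (integrable_param _ (S.tr_param h.continuous x))]
  rw [e2, ← integral_add (Q.A.integrable_comp (S.integrable_fderiv_tr h x))
    ((Q.B x).integrable_comp (integrable_param _ (S.tr_param h.continuous x)))]
  rfl

/-- weak equations against equivariant test functions are weak equations -/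
theorem wk_of_core {Qd : FOp E F} (hQ : S.Cov Qd) {u χ : E → F} (hu : LocallyIntegrable u)
    (hχ : LocallyIntegrable χ) (hue : S.EquiAE u) (hχe : S.EquiAE χ)
    (h : ∀ ψ : E → F, ContDiff ℝ ∞ ψ → HasCompactSupport ψ → S.Equi ψ →
      ∫ x, ⟪Qd.op ψ x, u x⟫_ℂ = ∫ x, ⟪ψ x, χ x⟫_ℂ) : Wk Qd u χ := by
  intro ψ hψ hc
  have h1 := h (S.avg ψ) (S.avg_contDiff hψ) (S.avg_supp hc) (S.avg_equi hψ.continuous)
  rw [S.op_avg hQ hψ, S.integral_inner_avg' hu hue (Qd.op_continuous hψ) (Qd.op_supp hc),
    S.integral_inner_avg' hχ hχe hψ.continuous hc] at h1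
  exact h1

end Sym

end Crest.Agent.R330.Haar596
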