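import Crest.Agent.R330.PW_868
import Crest.Agent.R330.Haar_596
import Crest.Agent.R330.Brid_837
import Crest.Agent.R330.WeitzG_726
import Crest.Agent.R330.Dict_416
import Crest.Agent.R330.FA3_416

/-!
# Row 330 (helper868): the graph core, literally

* `fop` : the charge `Q_α^{g,m}` as a first order expression, `sym R` : the gauge symmetry
* `HQ` : the operator `(1/16) Σ Q_α²`, `HQ_eq` : it is `-1/2 Δ + W`
* `weak_zero` : an invariant `χ ∈ L²` orthogonal to `(1 + H)` of the core vanishes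
* `density` : `{ψ + H ψ}` is dense in the invariant `L²`
-/

set_option autoImplicit false
set_option linter.unusedSectionVars false
set_option linter.unusedVariables false

open MeasureTheory Filter Topology Set Crest.MathPhysics.MatrixQM
open scoped ContDiff InnerProductSpace ENNReal

noncomputable section
namespace Crest.Agent.R330.GCore868
open Moll596 WS596 Haar596 SUgrp596 Defs478 IBP837 Cov837 Brid837
open Weitz726 hiding pd

variable {N : ℕ} {F : Type} [NormedAddCommGroup F] [InnerProductSpace ℂ F]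
  [FiniteDimensional ℂ F]
variable {b : ColorBasis N} {M : FermionRep N F}

/-! ### the charge as a first order expression -/

theorem continuous_vco {W : Fin 16 → Fin (N ^ 2 - 1) → Cfg N → ℝ}
    (hW : ∀ β A, Continuous (W β A)) (v : F) :
    Continuous fun x => vco M (fun β A => W β A x) v := by
  simp only [vco_apply]
  exact continuous_finsetSum _ fun A _ => continuous_finsetSum _ fun β _ =>
    (Complex.continuous_ofReal.comp (hW β A)).smul continuous_const

/-- the charge as a first order expression -/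
def fop (b : ColorBasis N) (M : FermionRep N F) (G : GammaNine) (g m : ℝ) (α : Fin 16) :
    FOp (Cfg N) F where
  A := ∑ k : Fin 9 × Fin (N ^ 2 - 1),
    (((-Complex.I) • (LinearMap.toContinuousLinearMap (dco M G α k))).restrictScalars ℝ).comp
      (ContinuousLinearMap.apply ℝ F (EuclideanSpace.single k (1 : ℝ)))
  B := fun x =>
    (LinearMap.toContinuousLinearMap (vco M fun β A => wpot b G g m α β A x)).restrictScalars ℝ
  contB := by
    refine (ContinuousLinearMap.restrictScalarsL ℂ F F ℝ ℝ).continuous.comp ?_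
    rw [continuous_clm_apply]
    intro v
    exact continuous_vco (fun β A => wpot_continuous β A) v

theorem fop_op (G : GammaNine) (g m : ℝ) (α : Fin 16) (φ : Cfg N → F) :
    (fop b M G g m α).op φ = dcharge b M G g m α φ := by
  funext x
  rw [dcharge_eq, chargeW_apply]
  simp [FOp.op, fop]

/-! ### the gauge symmetry -/

theorem act_cont_left (b : ColorBasis N) (x : Cfg N) :
    Continuous fun g : Matrix.specialUnitaryGroup (Fin N) ℂ => b.act g x := by
  have h : (fun g : Matrix.specialUnitaryGroup (Fin N) ℂ => b.act g x) = fun g =>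
      WithLp.toLp 2 (fun iA : Fin 9 × Fin (N ^ 2 - 1) =>
        ∑ B, b.adjMat g iA.2 B * x (iA.1, B)) := rfl
  rw [h]
  refine (PiLp.continuous_toLp 2 _).comp (continuous_pi fun k => ?_)
  refine continuous_finsetSum _ fun B _ => ?_
  exact (adj_continuous b k.2 B).mul continuous_const

/-- the gauge symmetry -/
def sym (R : GaugeAction b M) : Sym (SU N) (Cfg N) F where
  L := actL b
  ρ := fun g => LinearMap.toContinuousLinearMap (R.ρ g)
  L_mul := fun g h x => act_mul b g h x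
  ρ_mul := fun g h v => by
    show R.ρ (g * h) v = R.ρ g (R.ρ h v)
    rw [map_mul]
    rfl
  L_one := fun x => act_one b x
  ρ_one := fun v => by
    show R.ρ 1 v = v
    rw [map_one]
    rfl
  L_cont := fun x => act_cont_left b x
  ρ_cont := R.continuous
  ρ_unitary := fun g v w => R.unitary g v w

theorem sym_tr (R : GaugeAction b M) (g : SU N) (φ : Cfg N → F) :
    (sym R).tr g φ = tg R g φ := rfl

theorem core_iff (R : GaugeAction b M) (φ : Cfg N → F) :
    IsCoreVec b R φ ↔ ContDiff ℝ ∞ φ ∧ HasCompactSupport φ ∧ (sym R).Equi φ := Iff.rfl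

theorem cov_fop (R : GaugeAction b M) (G : GammaNine) (g m : ℝ) (α : Fin 16) :
    (sym R).Cov (fop b M G g m α) := by
  intro h φ hφ
  rw [fop_op, fop_op, sym_tr, sym_tr]
  exact dcharge_tg R h (hφ.differentiable (by simp))

/-- averages of test functions are core vectors -/
theorem core_avg (R : GaugeAction b M) {φ : Cfg N → F} (hφ : ContDiff ℝ ∞ φ)
    (hc : HasCompactSupport φ) : IsCoreVec b R ((sym R).avg φ) :=
  ⟨(sym R).avg_contDiff hφ, (sym R).avg_supp hc, (sym R).avg_equi hφ.continuous⟩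

theorem dcharge_avg (R : GaugeAction b M) (G : GammaNine) (g m : ℝ) (α : Fin 16)
    {φ : Cfg N → F} (hφ : ContDiff ℝ ∞ φ) :
    dcharge b M G g m α ((sym R).avg φ) = (sym R).avg (dcharge b M G g m α φ) := by
  have h := (sym R).op_avg (cov_fop R G g m α) hφ
  rwa [fop_op, fop_op] at h

/-! ### the operator -/

/-- the operator `(1/16) Σ Q_α²` -/
def HQ (b : ColorBasis N) (M : FermionRep N F) (G : GammaNine) (g m : ℝ) (φ : Cfg N → F)
    (x : Cfg N) : F :=
  (1 / 16 : ℝ) • ∑ α, dcharge b M G g m α (dcharge b M G g m α φ) x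

theorem contDiff_HQ {G : GammaNine} {g m : ℝ} {φ : Cfg N → F} (hφ : ContDiff ℝ ∞ φ) :
    ContDiff ℝ ∞ (HQ b M G g m φ) := by
  unfold HQ
  exact contDiff_const.smul (ContDiff.sum fun α _ => contDiff_dcharge (contDiff_dcharge hφ))

theorem supp_HQ {G : GammaNine} {g m : ℝ} {φ : Cfg N → F} (hc : HasCompactSupport φ) :
    HasCompactSupport (HQ b M G g m φ) := by
  refine HasCompactSupport.intro hc.isCompact fun x hx => ?_
  have h : ∀ α, dcharge b M G g m α (dcharge b M G g m α φ) x = 0 := by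
    intro α
    have h1 : x ∉ tsupport (dcharge b M G g m α (dcharge b M G g m α φ)) := fun h =>
      hx (tsupport_dcharge_subset (tsupport_dcharge_subset h))
    exact image_eq_zero_of_notMem_tsupport h1
  simp [HQ, h]

/-- averaging commutes with `HQ` -/
theorem HQ_avg (R : GaugeAction b M) (G : GammaNine) (g m : ℝ) {φ : Cfg N → F}
    (hφ : ContDiff ℝ ∞ φ) : HQ b M G g m ((sym R).avg φ) = (sym R).avg (HQ b M G g m φ) := by
  funext x
  have h1 : ∀ α, dcharge b M G g m α (dcharge b M G g m α ((sym R).avg φ)) =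
      (sym R).avg (dcharge b M G g m α (dcharge b M G g m α φ)) := fun α => by
    rw [dcharge_avg R G g m α hφ, dcharge_avg R G g m α (contDiff_dcharge hφ)]
  unfold HQ
  simp only [h1]
  unfold Sym.avg
  rw [← integral_finsetSum, ← integral_smul]
  · refine integral_congr_ae (Eventually.of_forall fun h => ?_)
    simp only [Sym.tr]
    rw [← map_sum]
    exact (((sym R).ρ h⁻¹).map_smul_of_tower (1 / 16 : ℝ) _).symm
  · intro α _
    exact integrable_param _ ((sym R).tr_param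
      (contDiff_dcharge (contDiff_dcharge hφ)).continuous x)

/-! ### the operator is `-1/2 Δ + W` -/

open PW868

/-- the coordinate vectors -/
def es (N : ℕ) (k : Fin 9 × Fin (N ^ 2 - 1)) : Cfg N := EuclideanSpace.single k (1 : ℝ)

/-- the zero order part -/
def Wop (b : ColorBasis N) (M : FermionRep N F) (G : GammaNine) (g m : ℝ) (x : Cfg N) :
    F →L[ℂ] F :=
  LinearMap.toContinuousLinearMap (((1 / 16 : ℝ) : ℂ) •
    (((Wsq (wpot b G g m) x / 2 : ℝ) : ℂ) • LinearMap.id + Zop M G (wpot b G g m) x))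

theorem Wop_apply (G : GammaNine) (g m : ℝ) (x : Cfg N) (v : F) :
    Wop b M G g m x v = ((1 / 16 : ℝ) : ℂ) • (((Wsq (wpot b G g m) x / 2 : ℝ) : ℂ) • v +
      Zop M G (wpot b G g m) x v) := rfl

theorem continuous_Wsq {W : Fin 16 → Fin 16 → Fin (N ^ 2 - 1) → Cfg N → ℝ}
    (hW : ∀ α β A, Continuous (W α β A)) : Continuous (Wsq W) := by
  unfold Wsq dp
  exact continuous_finsetSum _ fun α _ => continuous_finsetSum _ fun β _ =>
    continuous_finsetSum _ fun A _ => (hW α β A).mul (hW α β A)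

theorem continuous_Zop {W : Fin 16 → Fin 16 → Fin (N ^ 2 - 1) → Cfg N → ℝ} (G : GammaNine)
    (hW : ∀ α β A, ContDiff ℝ 1 (W α β A)) (v : F) : Continuous fun x => Zop M G W x v := by
  simp only [Zop_apply]
  refine continuous_finsetSum _ fun α _ => continuous_finsetSum _ fun k _ =>
    Continuous.const_smul ?_ _
  exact (cont_lin _).comp (continuous_Th (fun β A => continuous_dW (hW α) k β A) continuous_const)

theorem wc1 (b : ColorBasis N) (G : GammaNine) (g m : ℝ) (α β : Fin 16)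
    (A : Fin (N ^ 2 - 1)) : ContDiff ℝ 1 (wpot b G g m α β A) :=
  wpot_contDiff (n := 1) β A

theorem continuous_Wop (G : GammaNine) (g m : ℝ) : Continuous (Wop b M G g m) := by
  rw [continuous_clm_apply]
  intro v
  simp only [Wop_apply]
  have hs : Continuous (Wsq (wpot b G g m)) := continuous_Wsq fun α β A => wpot_continuous β A
  have hZ : Continuous fun x => Zop M G (wpot b G g m) x v :=
    continuous_Zop G (wc1 b G g m) v
  have h1 : Continuous fun x => ((Wsq (wpot b G g m) x / 2 : ℝ) : ℂ) • v :=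
    (Complex.continuous_ofReal.comp (hs.div_const 2)).smul continuous_const
  exact (h1.add hZ).const_smul _

/-- the trace condition for the derivatives -/
theorem sum_dp_dW {W : Fin 16 → Fin 16 → Fin (N ^ 2 - 1) → Cfg N → ℝ} {G : GammaNine}
    (hW : ∀ α β A, ContDiff ℝ 1 (W α β A)) (hT : TrZ G W) (k : Fin 9 × Fin (N ^ 2 - 1))
    (x : Cfg N) : ∑ α, dp (ug G α k.1 k.2) (dW W α k x) = 0 := by
  simp only [dp_ug, dW]
  have h1 : HasFDerivAt (fun y => ∑ α, ∑ β, G.γ k.1 α β * W α β k.2 y)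
      (∑ α, ∑ β, G.γ k.1 α β • fderiv ℝ (W α β k.2) x) x := by
    refine HasFDerivAt.fun_sum fun α _ => HasFDerivAt.fun_sum fun β _ => ?_
    exact (((hW α β k.2).differentiable (by norm_num)) x).hasFDerivAt.const_mul _
  have h2 : (fun y => ∑ α, ∑ β, G.γ k.1 α β * W α β k.2 y) = fun _ => (0 : ℝ) := by
    funext y
    exact hT k y
  rw [h2] at h1
  have h3 := h1.unique (hasFDerivAt_const (0 : ℝ) x)
  have h4 := DFunLike.congr_fun h3 (EuclideanSpace.single k (1 : ℝ))
  simpa [_root_.sum_apply] using h4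

/-- the fermionic term is symmetric -/
theorem Zop_symm {W : Fin 16 → Fin 16 → Fin (N ^ 2 - 1) → Cfg N → ℝ} {G : GammaNine}
    (hW : ∀ α β A, ContDiff ℝ 1 (W α β A)) (hT : TrZ G W) (x : Cfg N) (v w : F) :
    ⟪Zop M G W x v, w⟫_ℂ = ⟪v, Zop M G W x w⟫_ℂ := by
  simp only [Zop_apply, sum_inner, inner_sum]
  have h1 : ∀ (α : Fin 16) (k : Fin 9 × Fin (N ^ 2 - 1)),
      ⟪(-Complex.I) • dco M G α k (Th M (dW W α k x) v), w⟫_ℂ =
      ⟪v, (-Complex.I) • dco M G α k (Th M (dW W α k x) w)⟫_ℂ +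
        Complex.I * ((dp (ug G α k.1 k.2) (dW W α k x) : ℝ) : ℂ) * ⟪v, w⟫_ℂ := by
    intro α k
    rw [dco_eq, inner_smul_left, inner_smul_right, Th_symm, Th_symm]
    have h2 := Th_anti M (ug G α k.1 k.2) (dW W α k x) w
    have h3 : Th M (dW W α k x) (Th M (ug G α k.1 k.2) w) =
        ((dp (ug G α k.1 k.2) (dW W α k x) : ℝ) : ℂ) • w -
          Th M (ug G α k.1 k.2) (Th M (dW W α k x) w) := by
      rw [← h2]; abel
    rw [h3, inner_sub_right, inner_smul_right]
    simp only [map_neg, Complex.conj_I, neg_neg]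
    ring
  simp only [h1, Finset.sum_add_distrib]
  have h4 : ∑ α, ∑ k : Fin 9 × Fin (N ^ 2 - 1),
      Complex.I * ((dp (ug G α k.1 k.2) (dW W α k x) : ℝ) : ℂ) * ⟪v, w⟫_ℂ = 0 := by
    rw [Finset.sum_comm]
    refine Finset.sum_eq_zero fun k _ => ?_
    rw [← Finset.sum_mul, ← Finset.mul_sum, ← Complex.ofReal_sum, sum_dp_dW hW hT k x]
    simp
  rw [h4, add_zero]

theorem Wop_symm (G : GammaNine) (g m : ℝ) (x : Cfg N) (v w : F) :
    ⟪Wop b M G g m x v, w⟫_ℂ = ⟪v, Wop b M G g m x w⟫_ℂ := by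
  have hZ : ⟪Zop M G (wpot b G g m) x v, w⟫_ℂ = ⟪v, Zop M G (wpot b G g m) x w⟫_ℂ :=
    Zop_symm (wc1 b G g m) (trZ_wpot b G g m) x v w
  rw [Wop_apply, Wop_apply, inner_smul_left, inner_smul_right, inner_add_left, inner_add_right,
    inner_smul_left, inner_smul_right, hZ, Complex.conj_ofReal, Complex.conj_ofReal]

/-! ### identification by polarisation -/

/-- integrability of inner products of continuous functions, one compactly supported -/
theorem int2 {φ ψ : Cfg N → F} (h1 : Continuous φ) (h2 : Continuous ψ)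
    (hc : HasCompactSupport φ) : Integrable fun x => ⟪φ x, ψ x⟫_ℂ :=
  integrable_inner_of_cont h1 h2 (Or.inl hc)

/-- polarisation -/
theorem polar {T : (Cfg N → F) → Cfg N → F}
    (hcont : ∀ φ, ContDiff ℝ ∞ φ → Continuous (T φ))
    (hadd : ∀ φ ψ, ContDiff ℝ ∞ φ → ContDiff ℝ ∞ ψ → T (φ + ψ) = T φ + T ψ)
    (hsmul : ∀ (c : ℂ) φ, ContDiff ℝ ∞ φ → T (c • φ) = c • T φ)
    (hquad : ∀ φ, ContDiff ℝ ∞ φ → HasCompactSupport φ → ∫ x, ⟪φ x, T φ x⟫_ℂ = 0)
    {φ ψ : Cfg N → F} (hφ : ContDiff ℝ ∞ φ) (hφc : HasCompactSupport φ)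
    (hψ : ContDiff ℝ ∞ ψ) (hψc : HasCompactSupport ψ) : ∫ x, ⟪φ x, T ψ x⟫_ℂ = 0 := by
  have key : ∀ ψ : Cfg N → F, ContDiff ℝ ∞ ψ → HasCompactSupport ψ →
      (∫ x, ⟪φ x, T ψ x⟫_ℂ) + ∫ x, ⟪ψ x, T φ x⟫_ℂ = 0 := by
    intro ψ hψ hψc
    have h0 := hquad (φ + ψ) (hφ.add hψ) (hφc.add hψc)
    rw [hadd φ ψ hφ hψ] at h0
    have h1 : ∀ x, ⟪(φ + ψ) x, (T φ + T ψ) x⟫_ℂ =
        (⟪φ x, T φ x⟫_ℂ + ⟪φ x, T ψ x⟫_ℂ) + (⟪ψ x, T φ x⟫_ℂ + ⟪ψ x, T ψ x⟫_ℂ) := by
      intro x
      simp only [Pi.add_apply, inner_add_left, inner_add_right]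
      ring
    simp only [h1] at h0
    have i1 := int2 hφ.continuous (hcont φ hφ) hφc
    have i2 := int2 hφ.continuous (hcont ψ hψ) hφc
    have i3 := int2 hψ.continuous (hcont φ hφ) hψc
    have i4 := int2 hψ.continuous (hcont ψ hψ) hψc
    have i12 : Integrable fun x => ⟪φ x, T φ x⟫_ℂ + ⟪φ x, T ψ x⟫_ℂ := i1.add i2
    have i34 : Integrable fun x => ⟪ψ x, T φ x⟫_ℂ + ⟪ψ x, T ψ x⟫_ℂ := i3.add i4
    rw [integral_add i12 i34, integral_add i1 i2, integral_add i3 i4, hquad φ hφ hφc,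
      hquad ψ hψ hψc] at h0
    linear_combination h0
  have k1 := key ψ hψ hψc
  have k2 := key (Complex.I • ψ) (contDiff_const.smul hψ) (hψc.smul_left (f := fun _ => Complex.I))
  rw [hsmul Complex.I ψ hψ] at k2
  have e1 : ∀ x, ⟪φ x, (Complex.I • T ψ) x⟫_ℂ = Complex.I * ⟪φ x, T ψ x⟫_ℂ := fun x => by
    rw [Pi.smul_apply, inner_smul_right]
  have e2 : ∀ x, ⟪(Complex.I • ψ) x, T φ x⟫_ℂ = -Complex.I * ⟪ψ x, T φ x⟫_ℂ := fun x => by
    rw [Pi.smul_apply, inner_smul_left, Complex.conj_I]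
  simp only [e1, e2] at k2
  rw [integral_const_mul, integral_const_mul] at k2
  have k3 : (∫ x, ⟪φ x, T ψ x⟫_ℂ) - ∫ x, ⟪ψ x, T φ x⟫_ℂ = 0 := by
    have h : Complex.I * ((∫ x, ⟪φ x, T ψ x⟫_ℂ) - ∫ x, ⟪ψ x, T φ x⟫_ℂ) = 0 := by
      linear_combination k2
    exact (mul_eq_zero.mp h).resolve_left Complex.I_ne_zero
  linear_combination (k1 + k3) / 2

/-- the difference of the two operators -/
def Dop (b : ColorBasis N) (M : FermionRep N F) (G : GammaNine) (g m : ℝ) (φ : Cfg N → F)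
    (x : Cfg N) : F := HQ b M G g m φ x - Hop (es N) (Wop b M G g m) φ x

theorem continuous_lap {φ : Cfg N → F} (hφ : ContDiff ℝ ∞ φ) : Continuous (lap (es N) φ) := by
  unfold lap
  exact continuous_finsetSum _ fun k _ =>
    (pd_contDiff (pd_contDiff hφ (es N k)) (es N k)).continuous

theorem continuous_Hop {G : GammaNine} {g m : ℝ} {φ : Cfg N → F} (hφ : ContDiff ℝ ∞ φ) :
    Continuous (Hop (es N) (Wop b M G g m) φ) := by
  unfold Hop
  exact ((continuous_lap hφ).const_smul _).neg.add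
    ((continuous_Wop G g m).clm_apply hφ.continuous)

theorem continuous_Dop {G : GammaNine} {g m : ℝ} {φ : Cfg N → F} (hφ : ContDiff ℝ ∞ φ) :
    Continuous (Dop b M G g m φ) :=
  (contDiff_HQ hφ).continuous.sub (continuous_Hop hφ)

theorem pd_add {φ ψ : Cfg N → F} (hφ : ContDiff ℝ ∞ φ) (hψ : ContDiff ℝ ∞ ψ) (v : Cfg N) :
    pd v (φ + ψ) = pd v φ + pd v ψ := by
  funext x
  unfold pd
  rw [fderiv_add (hφ.differentiable (by simp) x) (hψ.differentiable (by simp) x)]
  rfl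

theorem pd_smul {φ : Cfg N → F} (hφ : ContDiff ℝ ∞ φ) (c : ℂ) (v : Cfg N) :
    pd v (c • φ) = c • pd v φ := by
  funext x
  unfold pd
  rw [fderiv_const_smul (hφ.differentiable (by simp) x) c]
  rfl

theorem lap_add {φ ψ : Cfg N → F} (hφ : ContDiff ℝ ∞ φ) (hψ : ContDiff ℝ ∞ ψ) (x : Cfg N) :
    lap (es N) (φ + ψ) x = lap (es N) φ x + lap (es N) ψ x := by
  unfold lap
  rw [← Finset.sum_add_distrib]
  refine Finset.sum_congr rfl fun k _ => ?_
  rw [pd_add hφ hψ, pd_add (pd_contDiff hφ _) (pd_contDiff hψ _)]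
  rfl

theorem lap_smul {φ : Cfg N → F} (hφ : ContDiff ℝ ∞ φ) (c : ℂ) (x : Cfg N) :
    lap (es N) (c • φ) x = c • lap (es N) φ x := by
  unfold lap
  rw [Finset.smul_sum]
  refine Finset.sum_congr rfl fun k _ => ?_
  rw [pd_smul hφ, pd_smul (pd_contDiff hφ _)]
  rfl

theorem HQ_add {G : GammaNine} {g m : ℝ} {φ ψ : Cfg N → F} (hφ : ContDiff ℝ ∞ φ)
    (hψ : ContDiff ℝ ∞ ψ) (x : Cfg N) :
    HQ b M G g m (φ + ψ) x = HQ b M G g m φ x + HQ b M G g m ψ x := by
  unfold HQ
  rw [← smul_add, ← Finset.sum_add_distrib]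
  congr 1
  refine Finset.sum_congr rfl fun α _ => ?_
  rw [dcharge_add b M G g m α (hφ.differentiable (by simp)) (hψ.differentiable (by simp)),
    dcharge_add b M G g m α ((contDiff_dcharge hφ).differentiable (by simp))
      ((contDiff_dcharge hψ).differentiable (by simp))]
  rfl

theorem HQ_smul {G : GammaNine} {g m : ℝ} {φ : Cfg N → F} (hφ : ContDiff ℝ ∞ φ) (c : ℂ)
    (x : Cfg N) : HQ b M G g m (c • φ) x = c • HQ b M G g m φ x := by
  unfold HQ
  rw [smul_comm c]
  congr 1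
  rw [Finset.smul_sum]
  refine Finset.sum_congr rfl fun α _ => ?_
  rw [dcharge_smul b M G g m α c (hφ.differentiable (by simp)),
    dcharge_smul b M G g m α c ((contDiff_dcharge hφ).differentiable (by simp))]
  rfl

theorem Dop_add {G : GammaNine} {g m : ℝ} {φ ψ : Cfg N → F} (hφ : ContDiff ℝ ∞ φ)
    (hψ : ContDiff ℝ ∞ ψ) : Dop b M G g m (φ + ψ) = Dop b M G g m φ + Dop b M G g m ψ := by
  funext x
  simp only [Dop, Hop, Pi.add_apply, HQ_add hφ hψ, lap_add hφ hψ, map_add, smul_add]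
  abel

theorem Dop_smul {G : GammaNine} {g m : ℝ} {φ : Cfg N → F} (c : ℂ) (hφ : ContDiff ℝ ∞ φ) :
    Dop b M G g m (c • φ) = c • Dop b M G g m φ := by
  funext x
  simp only [Dop, Hop, Pi.smul_apply, HQ_smul hφ, lap_smul hφ, map_smul, smul_sub, smul_add,
    smul_neg]
  rw [smul_comm c]

/-- the quadratic form of `HQ` -/
theorem quad_HQ {G : GammaNine} {g m : ℝ} {φ ψ : Cfg N → F} (hφ : ContDiff ℝ ∞ φ)
    (hψ : ContDiff ℝ ∞ ψ) (hc : HasCompactSupport φ) :
    ∫ x, ⟪φ x, HQ b M G g m ψ x⟫_ℂ =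
      ((1 / 16 : ℝ) : ℂ) * ∑ α, ∫ x, ⟪dcharge b M G g m α φ x, dcharge b M G g m α ψ x⟫_ℂ := by
  have h1 : ∀ α, ∫ x, ⟪dcharge b M G g m α φ x, dcharge b M G g m α ψ x⟫_ℂ =
      ∫ x, ⟪φ x, dcharge b M G g m α (dcharge b M G g m α ψ) x⟫_ℂ := fun α =>
    dcharge_symm (hφ.of_le (by norm_cast)) ((contDiff_dcharge hψ).of_le (by norm_cast))
      (Or.inl hc)
  simp only [h1]
  have i1 : ∀ α, Integrable fun x =>
      ⟪φ x, dcharge b M G g m α (dcharge b M G g m α ψ) x⟫_ℂ := fun α =>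
    int2 hφ.continuous (contDiff_dcharge (contDiff_dcharge hψ)).continuous hc
  rw [← integral_finsetSum _ fun α _ => i1 α, ← integral_const_mul]
  refine integral_congr_ae (Eventually.of_forall fun x => ?_)
  simp only [HQ]
  rw [inner_rsmul_right, inner_sum]

/-- the quadratic form of `Hop` -/
theorem quad_Hop {G : GammaNine} {g m : ℝ} {φ : Cfg N → F} (hφ : ContDiff ℝ ∞ φ)
    (hc : HasCompactSupport φ) :
    ∫ x, ⟪φ x, Hop (es N) (Wop b M G g m) φ x⟫_ℂ =
      ((1 / 2 : ℝ) : ℂ) * (∑ k, ∫ x, ⟪pd (es N k) φ x, pd (es N k) φ x⟫_ℂ) +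
        ∫ x, ⟪φ x, Wop b M G g m x (φ x)⟫_ℂ := by
  have h1 : ∀ k, ∫ x, ⟪pd (es N k) φ x, pd (es N k) φ x⟫_ℂ =
      -∫ x, ⟪φ x, pd (es N k) (pd (es N k) φ) x⟫_ℂ := fun k =>
    ibp (hφ.of_le (by norm_cast)) ((pd_contDiff hφ _).of_le (by norm_cast)) (Or.inl hc) _
  have i1 : ∀ k, Integrable fun x => ⟪φ x, pd (es N k) (pd (es N k) φ) x⟫_ℂ := fun k =>
    int2 hφ.continuous (pd_contDiff (pd_contDiff hφ _) _).continuous hc
  have i2 : Integrable fun x => ⟪φ x, Wop b M G g m x (φ x)⟫_ℂ :=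
    int2 hφ.continuous ((continuous_Wop G g m).clm_apply hφ.continuous) hc
  have i3 : Integrable fun x => ((1 / 2 : ℝ) : ℂ) * ⟪φ x, lap (es N) φ x⟫_ℂ :=
    (int2 hφ.continuous (continuous_lap hφ) hc).const_mul _
  have i3' : Integrable fun x => -(((1 / 2 : ℝ) : ℂ) * ⟪φ x, lap (es N) φ x⟫_ℂ) := i3.neg
  have e1 : ∀ x, ⟪φ x, Hop (es N) (Wop b M G g m) φ x⟫_ℂ =
      -(((1 / 2 : ℝ) : ℂ) * ⟪φ x, lap (es N) φ x⟫_ℂ) + ⟪φ x, Wop b M G g m x (φ x)⟫_ℂ := by
    intro x
    rw [Hop, inner_add_right, inner_neg_right, inner_rsmul_right]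
  simp only [e1]
  rw [integral_add i3' i2, integral_neg, integral_const_mul]
  congr 1
  simp only [h1]
  rw [Finset.sum_neg_distrib, mul_neg]
  congr 2
  rw [← integral_finsetSum _ fun k _ => i1 k]
  refine integral_congr_ae (Eventually.of_forall fun x => ?_)
  simp only [lap]
  rw [inner_sum]

theorem quad_Dop {G : GammaNine} {g m : ℝ} {φ : Cfg N → F} (hφ : ContDiff ℝ ∞ φ)
    (hc : HasCompactSupport φ) : ∫ x, ⟪φ x, Dop b M G g m φ x⟫_ℂ = 0 := by
  have e1 : ∀ x, ⟪φ x, Dop b M G g m φ x⟫_ℂ =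
      ⟪φ x, HQ b M G g m φ x⟫_ℂ - ⟪φ x, Hop (es N) (Wop b M G g m) φ x⟫_ℂ := fun x => by
    rw [Dop, inner_sub_right]
  simp only [e1]
  rw [integral_sub (int2 hφ.continuous (contDiff_HQ hφ).continuous hc)
    (int2 hφ.continuous (continuous_Hop hφ) hc), quad_HQ hφ hφ hc, quad_Hop hφ hc, sub_eq_zero]
  have h := weitz_complex (M := M) (wc1 b G g m) (trZ_wpot b G g m)
    (hφ.of_le (by norm_cast) : ContDiff ℝ 2 φ) hc
  have h2 : ∀ α, dcharge b M G g m α φ = chargeW M G (wpot b G g m) α φ := fun α =>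
    dcharge_eq b M G g m α φ
  simp only [h2]
  rw [h]
  have i1 : Integrable fun x => ((Wsq (wpot b G g m) x / 2 : ℝ) : ℂ) * ⟪φ x, φ x⟫_ℂ := by
    have hs : Continuous (Wsq (wpot b G g m)) := continuous_Wsq fun α β A => wpot_continuous β A
    have := int2 (φ := φ) (ψ := fun x => ((Wsq (wpot b G g m) x / 2 : ℝ) : ℂ) • φ x)
      hφ.continuous ((Complex.continuous_ofReal.comp (hs.div_const 2)).smul hφ.continuous) hc
    refine this.congr (Eventually.of_forall fun x => ?_)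
    simp only
    rw [inner_smul_right]
  have i2 : Integrable fun x => ⟪φ x, Zop M G (wpot b G g m) x (φ x)⟫_ℂ := by
    have hW : Continuous fun x => Wop b M G g m x (φ x) :=
      (continuous_Wop G g m).clm_apply hφ.continuous
    have hs : Continuous (Wsq (wpot b G g m)) := continuous_Wsq fun α β A => wpot_continuous β A
    have h3 : (fun x => Zop M G (wpot b G g m) x (φ x)) = fun x =>
        (16 : ℂ) • Wop b M G g m x (φ x) - ((Wsq (wpot b G g m) x / 2 : ℝ) : ℂ) • φ x := by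
      funext x
      rw [Wop_apply, smul_smul]
      norm_num
    refine int2 hφ.continuous ?_ hc
    rw [h3]
    exact (hW.const_smul _).sub
      ((Complex.continuous_ofReal.comp (hs.div_const 2)).smul hφ.continuous)
  have e2 : ∫ x, ⟪φ x, Wop b M G g m x (φ x)⟫_ℂ = ((1 / 16 : ℝ) : ℂ) *
      ((∫ x, ((Wsq (wpot b G g m) x / 2 : ℝ) : ℂ) * ⟪φ x, φ x⟫_ℂ) +
        ∫ x, ⟪φ x, Zop M G (wpot b G g m) x (φ x)⟫_ℂ) := by
    rw [← integral_add i1 i2, ← integral_const_mul]
    refine integral_congr_ae (Eventually.of_forall fun x => ?_)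
    simp only
    rw [Wop_apply, inner_smul_right, inner_add_right, inner_smul_right]
  rw [e2]
  have e3 : ∀ k, ∫ x, ⟪pd (es N k) φ x, pd (es N k) φ x⟫_ℂ =
      ∫ x, ⟪fderiv ℝ φ x (EuclideanSpace.single k 1), fderiv ℝ φ x (EuclideanSpace.single k 1)⟫_ℂ :=
    fun k => rfl
  simp only [e3]
  generalize (∑ k, ∫ x, ⟪fderiv ℝ φ x (EuclideanSpace.single k 1),
    fderiv ℝ φ x (EuclideanSpace.single k 1)⟫_ℂ : ℂ) = A
  push_cast
  ring

/-- **the operator `(1/16) Σ Q_α²` is `-1/2 Δ + W`** on test functions -/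
theorem HQ_eq (b : ColorBasis N) (M : FermionRep N F) (G : GammaNine) (g m : ℝ)
    {φ : Cfg N → F} (hφ : ContDiff ℝ ∞ φ) (hc : HasCompactSupport φ) :
    HQ b M G g m φ = Hop (es N) (Wop b M G g m) φ := by
  have h1 : ∀ ψ : Cfg N → F, ContDiff ℝ ∞ ψ → HasCompactSupport ψ →
      ∫ x, ⟪Dop b M G g m φ x, ψ x⟫_ℂ = 0 := by
    intro ψ hψ hψc
    have h := polar (T := Dop b M G g m) (fun φ hφ => continuous_Dop hφ)
      (fun φ ψ hφ hψ => Dop_add hφ hψ) (fun c φ hφ => Dop_smul c hφ)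
      (fun φ hφ hc => quad_Dop hφ hc) hψ hψc hφ hc
    have h2 := congrArg (starRingEnd ℂ) h
    rw [← integral_conj, map_zero] at h2
    simpa only [inner_conj_symm] using h2
  have hcs : HasCompactSupport (Dop b M G g m φ) := by
    refine HasCompactSupport.intro hc.isCompact fun x hx => ?_
    have a1 : HQ b M G g m φ x = 0 := by
      have h : ∀ α, dcharge b M G g m α (dcharge b M G g m α φ) x = 0 := fun α =>
        image_eq_zero_of_notMem_tsupport fun h =>
          hx (tsupport_dcharge_subset (tsupport_dcharge_subset h))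
      simp [HQ, h]
    have a2 : ∀ k, pd (es N k) (pd (es N k) φ) x = 0 := by
      intro k
      have hs : ∀ (v : Cfg N) (f : Cfg N → F), tsupport (pd v f) ⊆ tsupport f := by
        intro v f
        refine (closure_mono ?_).trans (tsupport_fderiv_subset ℝ (f := f))
        intro y hy
        rw [Function.mem_support] at hy ⊢
        intro h0
        apply hy
        simp [pd, h0]
      exact image_eq_zero_of_notMem_tsupport fun h => hx (hs _ _ (hs _ _ h))
    have a3 : φ x = 0 := image_eq_zero_of_notMem_tsupport hx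
    simp [Dop, Hop, lap, a1, a2, a3]
  have hL : MemLp (Dop b M G g m φ) 2 volume :=
    (continuous_Dop hφ).memLp_of_hasCompactSupport hcs
  have h2 := ae_zero_of_orth hL h1
  have h3 : Dop b M G g m φ = 0 :=
    (Continuous.ae_eq_iff_eq volume (continuous_Dop hφ) continuous_const).1 h2
  funext x
  exact sub_eq_zero.mp (congrFun h3 x)

/-! ### positivity, weak equation, density -/

/-- the form of `-1/2 Δ + W` is the energy -/
theorem qf_eq (G : GammaNine) (g m : ℝ) {φ : Cfg N → F} (hφ : ContDiff ℝ ∞ φ)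
    (hc : HasCompactSupport φ) :
    PW868.qf (es N) (Wop b M G g m) φ = Defs478.qf b M G g m φ := by
  have h1 := quad_Hop (G := G) (g := g) (m := m) (b := b) (M := M) hφ hc
  rw [← HQ_eq b M G g m hφ hc, quad_HQ hφ hφ hc] at h1
  have h2 := congrArg Complex.re h1
  have n2 : ∀ f : Cfg N → F, (∫ x, ⟪f x, f x⟫_ℂ) = ((∫ x, ‖f x‖ ^ 2 : ℝ) : ℂ) := by
    intro f
    have : ∀ x, ⟪f x, f x⟫_ℂ = ((‖f x‖ ^ 2 : ℝ) : ℂ) := fun x => by
      rw [inner_self_eq_norm_sq_to_K]; norm_cast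
    simp only [this]
    exact integral_ofReal
  have i2 : Integrable fun x => ⟪φ x, Wop b M G g m x (φ x)⟫_ℂ :=
    int2 hφ.continuous ((continuous_Wop G g m).clm_apply hφ.continuous) hc
  have e1 : (∫ x, ⟪φ x, Wop b M G g m x (φ x)⟫_ℂ).re = ∫ x, (⟪φ x, Wop b M G g m x (φ x)⟫_ℂ).re :=
    (integral_re i2).symm
  simp only [n2, ← Complex.ofReal_sum, ← Complex.ofReal_mul, Complex.add_re, Complex.ofReal_re,
    e1] at h2
  unfold PW868.qf Defs478.qf
  rw [← h2]

theorem qf_nonneg (G : GammaNine) (g m : ℝ) (φ : Cfg N → F) : 0 ≤ Defs478.qf b M G g m φ := by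
  unfold Defs478.qf
  exact mul_nonneg (by norm_num) (Finset.sum_nonneg fun α _ =>
    integral_nonneg fun x => by positivity)

/-- **an invariant `χ ∈ L²` orthogonal to `(1 + H)` of the core vanishes** -/
theorem weak_zero (R : GaugeAction b M) (G : GammaNine) (g m : ℝ) {χ : Cfg N → F}
    (hχ : MemLp χ 2 volume) (hE : (sym R).EquiAE χ)
    (h : ∀ φ, IsCoreVec b R φ → ∫ x, ⟪HQ b M G g m φ x + φ x, χ x⟫_ℂ = 0) :
    χ =ᵐ[volume] 0 := by
  have hl : LocallyIntegrable χ := hχ.locallyIntegrable (by norm_num)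
  refine pw (L := (sym R).L) (T := fun k => ((sym R).ρ k).restrictScalars ℝ) (e := es N)
    (W := Wop b M G g m) (continuous_Wop G g m) (fun x v w => Wop_symm G g m x v w) ?_ hχ (fun k => hE k) ?_
  · intro φ hφ
    rw [qf_eq G g m hφ.smooth hφ.supp]
    exact qf_nonneg G g m φ
  · intro ψ hψ hψc
    have h1 := h _ (core_avg R hψ hψc)
    rw [HQ_avg R G g m hψ] at h1
    have i1 : Integrable fun x => ⟪(sym R).avg (HQ b M G g m ψ) x, χ x⟫_ℂ :=
      integrable_inner_left ((sym R).avg_continuous (contDiff_HQ hψ).continuous)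
        ((sym R).avg_supp (supp_HQ hψc)) hl
    have i2 : Integrable fun x => ⟪(sym R).avg ψ x, χ x⟫_ℂ :=
      integrable_inner_left ((sym R).avg_continuous hψ.continuous) ((sym R).avg_supp hψc) hl
    have i3 : Integrable fun x => ⟪HQ b M G g m ψ x, χ x⟫_ℂ :=
      integrable_inner_left (contDiff_HQ hψ).continuous (supp_HQ hψc) hl
    have i4 : Integrable fun x => ⟪ψ x, χ x⟫_ℂ := integrable_inner_left hψ.continuous hψc hl
    simp only [inner_add_left] at h1
    rw [integral_add i1 i2, (sym R).integral_inner_avg' hl hE (contDiff_HQ hψ).continuous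
      (supp_HQ hψc), (sym R).integral_inner_avg' hl hE hψ.continuous hψc,
      ← integral_add i3 i4] at h1
    rw [← h1]
    refine integral_congr_ae (Eventually.of_forall fun x => ?_)
    simp only
    rw [← HQ_eq b M G g m hψ hψc, inner_add_left]

/-! ### the operator on the core -/

open Dict416 FA416

theorem core_dcharge {R : GaugeAction b M} {G : GammaNine} {g m : ℝ} {α : Fin 16}
    {φ : Cfg N → F} (hφ : IsCoreVec b R φ) : IsCoreVec b R (dcharge b M G g m α φ) := by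
  rw [dcharge_eq]
  exact core_chargeW isCov_wpot α (fun β A => wpot_contDiff β A) hφ

theorem core_HQ {R : GaugeAction b M} {G : GammaNine} {g m : ℝ} {φ : Cfg N → F}
    (hφ : IsCoreVec b R φ) : IsCoreVec b R (HQ b M G g m φ) := by
  have h1 : HQ b M G g m φ = ((1 / 16 : ℝ) : ℂ) •
      ∑ α, dcharge b M G g m α (dcharge b M G g m α φ) := by
    funext x
    simp only [HQ, Pi.smul_apply, Finset.sum_apply]
    rw [Complex.coe_smul]
  rw [h1]
  refine cv_smul _ ?_
  have h2 : (∑ α, dcharge b M G g m α (dcharge b M G g m α φ)) ∈ core b R :=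
    Submodule.sum_mem _ fun α _ => core_dcharge (core_dcharge hφ)
  exact h2

variable (b M) in
/-- the operator `(1/16) Σ Q_α²` on the core -/
def HamC (R : GaugeAction b M) (G : GammaNine) (g m : ℝ) : core b R →ₗ[ℂ] core b R where
  toFun φ := ⟨HQ b M G g m φ.1, core_HQ φ.2⟩
  map_add' φ ψ := Subtype.ext (funext fun x => HQ_add φ.2.1 ψ.2.1 x)
  map_smul' c φ := Subtype.ext (funext fun x => HQ_smul φ.2.1 c x)

theorem HamC_val (R : GaugeAction b M) (G : GammaNine) (g m : ℝ) (φ : core b R) :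
    (HamC b M R G g m φ).1 = HQ b M G g m φ.1 := rfl

/-- the form of the operator on the core -/
theorem form_HamC (R : GaugeAction b M) (G : GammaNine) (g m : ℝ) (φ ψ : core b R) :
    (1 / 16 : ℂ) * ∑ α, ∫ x, ⟪dcharge b M G g m α φ.1 x, dcharge b M G g m α ψ.1 x⟫_ℂ =
      ∫ x, ⟪(HamC b M R G g m φ).1 x, ψ.1 x⟫_ℂ := by
  have h := congrArg (starRingEnd ℂ)
    (quad_HQ (b := b) (M := M) (G := G) (g := g) (m := m) ψ.2.1 φ.2.1 ψ.2.2.1)
  rw [← integral_conj, map_mul, map_sum] at h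
  simp only [← integral_conj, inner_conj_symm, Complex.conj_ofReal] at h
  rw [HamC_val, h]
  push_cast
  rfl

/-- limits of core functions are invariant -/
theorem equi_limit (R : GaugeAction b M) {c : Cfg N → F} (hχ : MemLp c 2 volume)
    (φ : ℕ → core b R) (h1 : Tendsto (fun n => eLpNorm ((φ n).1 - c) 2 volume) atTop (𝓝 0)) :
    (sym R).EquiAE c := by
  intro k
  have h2 : ∀ n, eLpNorm (tg R k c - c) 2 volume ≤ 2 * eLpNorm ((φ n).1 - c) 2 volume := by
    intro n
    have hm : AEStronglyMeasurable ((φ n).1 - c) volume := (cv_memLp (φ n).2).1.sub hχ.1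
    have e1 : tg R k c - c = ((φ n).1 - c) - tg R k ((φ n).1 - c) := by
      funext x
      have h3 : tg R k (φ n).1 x = (φ n).1 x := by
        have := congrFun (((isCoreVec_iff R (φ n).1).1 (φ n).2).2.2 k) x
        exact this
      have h4 : tg R k ((φ n).1 - c) x = tg R k (φ n).1 x - tg R k c x := by
        simp [tg]
      simp only [Pi.sub_apply]
      rw [h4, h3]
      abel
    rw [e1, two_mul]
    have hm2 : AEStronglyMeasurable (tg R k ((φ n).1 - c)) volume :=
      (memLp_tg R k ((cv_memLp (φ n).2).sub hχ)).1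
    refine (eLpNorm_sub_le hm hm2 (by norm_num)).trans ?_
    rw [eLpNorm_tg R k hm]
  have h3 : eLpNorm (tg R k c - c) 2 volume = 0 := by
    have h4 : Tendsto (fun n => 2 * eLpNorm ((φ n).1 - c) 2 volume) atTop (𝓝 0) := by
      have := ENNReal.Tendsto.const_mul (a := 2) h1 (Or.inr (by simp))
      simpa using this
    exact le_antisymm (ge_of_tendsto' h4 h2) zero_le
  have h5 : tg R k c - c =ᵐ[volume] 0 := by
    rwa [eLpNorm_eq_zero_iff ((memLp_tg R k hχ).1.sub hχ.1) (by norm_num)] at h3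
  filter_upwards [h5] with x hx
  have h6 : tg R k c x = c x := sub_eq_zero.mp hx
  have h7 : c (b.act k x) = R.ρ k (c x) := by
    rw [← h6]
    exact (rho_apply_inv R k _).symm
  exact h7

/-- functions in the closure of the core are invariant -/
theorem equiAE_of_clo (R : GaugeAction b M) {χ : L2 N F} (h : χ ∈ clo (ιC R)) :
    (sym R).EquiAE (χ : Cfg N → F) := by
  obtain ⟨φ, hφ⟩ := mem_clo_iff.1 h
  have hχ : MemLp (χ : Cfg N → F) 2 volume := Lp.memLp χ
  have e0 : hχ.toLp (χ : Cfg N → F) = χ := Lp.toLp_coeFn χ hχ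
  rw [← e0] at hφ
  exact equi_limit R hχ φ ((tendsto_toLp_iff (fun n => cv_memLp (φ n).2) hχ).1 hφ)

/-- **density of `(1 + H)` of the core** in the closure of the core -/
theorem dense_HamC (R : GaugeAction b M) (G : GammaNine) (g m : ℝ) (φ : core b R) :
    ιC R φ ∈ clo (ιC R + ιC R ∘ₗ HamC b M R G g m) := by
  refine dense_of_weak (ιC R + ιC R ∘ₗ HamC b M R G g m) (fun ψ => ?_) ?_ _ (mem_clo φ)
  · have : (ιC R + ιC R ∘ₗ HamC b M R G g m) ψ = ιC R (ψ + HamC b M R G g m ψ) := by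
      rw [map_add]
      rfl
    rw [this]
    exact mem_clo _
  · intro χ hχ h
    have hχL : MemLp (χ : Cfg N → F) 2 volume := Lp.memLp χ
    have h1 : (χ : Cfg N → F) =ᵐ[volume] 0 := by
      refine weak_zero R G g m hχL (equiAE_of_clo R hχ) fun ψ hψ => ?_
      have h2 := congrArg (starRingEnd ℂ) (h ⟨ψ, hψ⟩)
      rw [inner_conj_symm, map_zero] at h2
      have h3 : (ιC R + ιC R ∘ₗ HamC b M R G g m) ⟨ψ, hψ⟩ =
          (cv_memLp (cv_add (core_HQ (G := G) (g := g) (m := m) hψ) hψ)).toLp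
            (HQ b M G g m ψ + ψ) := by
        have : (ιC R + ιC R ∘ₗ HamC b M R G g m) ⟨ψ, hψ⟩ =
            ιC R (HamC b M R G g m ⟨ψ, hψ⟩ + ⟨ψ, hψ⟩) := by
          rw [map_add, add_comm]
          rfl
        rw [this]
        rfl
      rw [h3, L2.inner_def] at h2
      rw [← h2]
      refine integral_congr_ae ?_
      filter_upwards [MemLp.coeFn_toLp
        (cv_memLp (cv_add (core_HQ (G := G) (g := g) (m := m) hψ) hψ))] with x hx
      rw [hx]
      rfl
    exact (Lp.eq_zero_iff_ae_eq_zero).2 h1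

/-- any operator on the core with the right form is `HamC` -/
theorem eq_HamC (R : GaugeAction b M) (G : GammaNine) (g m : ℝ)
    (Ham : core b R →ₗ[ℂ] core b R)
    (hH : ∀ φ ψ : core b R,
      (1 / 16 : ℂ) * ∑ α, ∫ x, ⟪dcharge b M G g m α φ.1 x, dcharge b M G g m α ψ.1 x⟫_ℂ =
        ∫ x, ⟪(Ham φ).1 x, ψ.1 x⟫_ℂ) : Ham = HamC b M R G g m := by
  refine LinearMap.ext fun φ => ?_
  set η : core b R := Ham φ - HamC b M R G g m φ with hη
  have h1 : ∫ x, ⟪η.1 x, η.1 x⟫_ℂ = 0 := by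
    have e1 := hH φ η
    rw [form_HamC] at e1
    have i1 : Integrable fun x => ⟪(Ham φ).1 x, η.1 x⟫_ℂ :=
      int2 (Ham φ).2.1.continuous η.2.1.continuous (Ham φ).2.2.1
    have i2 : Integrable fun x => ⟪(HamC b M R G g m φ).1 x, η.1 x⟫_ℂ :=
      int2 (HamC b M R G g m φ).2.1.continuous η.2.1.continuous (HamC b M R G g m φ).2.2.1
    have e2 : ∀ x, ⟪η.1 x, η.1 x⟫_ℂ =
        ⟪(Ham φ).1 x, η.1 x⟫_ℂ - ⟪(HamC b M R G g m φ).1 x, η.1 x⟫_ℂ := fun x => by
      rw [← inner_sub_left]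
      rfl
    simp only [e2]
    rw [integral_sub i1 i2, e1, sub_self]
  have h2 : ⟪ιC R η, ιC R η⟫_ℂ = 0 := by rw [inner_ιC]; exact h1
  have h3 : ιC R η = 0 := inner_self_eq_zero.mp h2
  have h4 : η.1 =ᵐ[volume] 0 := by
    have h5 := MemLp.coeFn_toLp (cv_memLp η.2)
    rw [ιC_apply] at h3
    rw [h3] at h5
    exact h5.symm.trans (Lp.coeFn_zero F 2 volume)
  have h5 : η.1 = 0 := (Continuous.ae_eq_iff_eq volume η.2.1.continuous continuous_const).1 h4
  have h6 : η = 0 := Subtype.ext h5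
  exact sub_eq_zero.mp h6

/-- **density**, for every operator on the core with the right form -/
theorem dense_core (R : GaugeAction b M) (G : GammaNine) (g m : ℝ)
    (Ham : core b R →ₗ[ℂ] core b R)
    (hH : ∀ φ ψ : core b R,
      (1 / 16 : ℂ) * ∑ α, ∫ x, ⟪dcharge b M G g m α φ.1 x, dcharge b M G g m α ψ.1 x⟫_ℂ =
        ∫ x, ⟪(Ham φ).1 x, ψ.1 x⟫_ℂ) (φ : core b R) :
    ιC R φ ∈ closure (Set.range fun ψ => ιC R ψ + ιC R (Ham ψ)) := by
  have h := dense_HamC R G g m φ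
  rw [← eq_HamC R G g m Ham hH] at h
  obtain ⟨ψ, hψ⟩ := mem_clo_iff.1 h
  exact mem_closure_of_tendsto hψ (Eventually.of_forall fun n => ⟨ψ n, rfl⟩)

/-- **density**, in integral form -/
theorem density (R : GaugeAction b M) (G : GammaNine) (g m : ℝ)
    (Ham : core b R →ₗ[ℂ] core b R)
    (hH : ∀ φ ψ : core b R,
      (1 / 16 : ℂ) * ∑ α, ∫ x, ⟪dcharge b M G g m α φ.1 x, dcharge b M G g m α ψ.1 x⟫_ℂ =
        ∫ x, ⟪(Ham φ).1 x, ψ.1 x⟫_ℂ) (φ : core b R) (ε : ℝ) (hε : 0 < ε) :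
    ∃ ψ : core b R, ∫ x, ‖φ.1 x - (ψ.1 x + (Ham ψ).1 x)‖ ^ 2 < ε := by
  obtain ⟨_, ⟨ψ, rfl⟩, hd⟩ := Metric.mem_closure_iff.1 (dense_core R G g m Ham hH φ) (Real.sqrt ε)
    (Real.sqrt_pos.2 hε)
  refine ⟨ψ, ?_⟩
  have h1 : ιC R φ - (ιC R ψ + ιC R (Ham ψ)) = ιC R (φ - (ψ + Ham ψ)) := by
    rw [map_sub, map_add]
  have h2 : ∫ x, ‖φ.1 x - (ψ.1 x + (Ham ψ).1 x)‖ ^ 2 = ‖ιC R (φ - (ψ + Ham ψ))‖ ^ 2 := by
    rw [norm_ιC_sq]
    rfl
  rw [h2, ← h1, ← dist_eq_norm]
  exact (Real.lt_sqrt dist_nonneg).1 hd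

end Crest.Agent.R330.GCore868
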