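import Crest.Agent.R330.GapAll_967
import Crest.Agent.R330.GCore_868
import Crest.Agent.R330.Sec_478

/-!
# Row 330 (helper967): (GAP) for all data

`gapZ_lit : 0 ≤ m → GapZ b M R G g m (m / 24)` and `gapAll N : Sec478.GapAll N`.
-/

set_option autoImplicit false
set_option linter.unusedSectionVars false

open MeasureTheory Filter Topology Crest.MathPhysics.MatrixQM
open scoped ContDiff InnerProductSpace ENNReal

noncomputable section

namespace Crest.Agent.R330.GapAllN967

open Crest.Agent.R330.Defs478 Crest.Agent.R330.SDefs726 Crest.Agent.R330.Dict416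
  Crest.Agent.R330.GapAlg916 Crest.Agent.R330.Sec478 Crest.Agent.R330.JQ916

variable {N : ℕ} {F : Type} [NormedAddCommGroup F] [InnerProductSpace ℂ F]
  [FiniteDimensional ℂ F] [Nontrivial F] {b : ColorBasis N} {M : FermionRep N F}

/-- the form of the literal Hamiltonian on the core -/
theorem form_Hc (R : GaugeAction b M) (G : GammaNine) (g m : ℝ) (φ ψ : core b R) :
    (1 / 16 : ℂ) * ∑ α, ∫ x, ⟪dcharge b M G g m α φ.1 x, dcharge b M G g m α ψ.1 x⟫_ℂ =
      ∫ x, ⟪(Hc R G g m φ).1 x, ψ.1 x⟫_ℂ := by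
  have h1 := (SusyL916.susy R G g m).form_eq φ ψ
  have h2 := (SusyL916.susy R G g m).Ham_symm φ ψ
  simp only [inner_ιC, Qc_coe] at h1 h2
  rw [h1, h2]

theorem dens (R : GaugeAction b M) (G : GammaNine) (g m : ℝ) (φ : core b R) :
    ιC R φ ∈ closure (Set.range fun ψ => ιC R ψ + ιC R (Hc R G g m ψ)) :=
  GCore868.dense_core R G g m (Hc R G g m) (form_Hc R G g m) φ

/-- **(GAP)**, literal, for every `g` and every `m ≥ 0`. -/
theorem gapZ_lit (R : GaugeAction b M) (G : GammaNine) (g : ℝ) {m : ℝ} (hm : 0 ≤ m) :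
    GapZ b M R G g m (m / 24) :=
  GapAll967.gapZ_of_dens hm (dens R G g m)

/-- **(GAP) for all data.** -/
theorem gapAll (N : ℕ) : Sec478.GapAll N := by
  intro F _ _ _ _ b M R G g _
  exact gapZ_lit R G g zero_le_one

end Crest.Agent.R330.GapAllN967

end
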