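import Mathlib

/-!
# Row 330 (helper942): lower bound of the kernel by duality (D-LOW), abstract part

`V` the core, `ι : V →ₗ H`, `T : V →ₗ H` the Hamiltonian on the core, `Z` the kernel (a closed
subspace of `H` orthogonal to the range of `T`), gap inequality `δ ‖φ - P φ‖² ≤ ⟨T φ, φ⟩` on the
core, `(ι + T) V` dense.

* `close_of_weak` : if `|⟨T v, u⟩| ≤ η (‖v‖ + ‖T v‖)` on the core then `‖u - P u‖ ≤ (4 + 2/δ) η`.
* `rank_ge_of_close` : almost orthonormal vectors close to `Z` : lower bound of the rank of `Z`.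
-/

set_option autoImplicit false

open Filter Topology
open scoped InnerProductSpace

namespace Crest.Agent.R330.DLow942

section Close

variable {H : Type*} [NormedAddCommGroup H] [InnerProductSpace ℂ H]
variable {V : Type*} [AddCommGroup V] [Module ℂ V]
variable (ι T : V →ₗ[ℂ] H) (Z : Submodule ℂ H) [Z.HasOrthogonalProjection]

/-- **Weakly harmonic vectors are close to the kernel.** -/
theorem close_of_weak {δ η : ℝ} (hδ : 0 < δ) (hη : 0 ≤ η)
    (hsym : ∀ φ, 0 ≤ (⟪T φ, ι φ⟫_ℂ).re)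
    (hTZ : ∀ φ, ∀ z ∈ Z, ⟪T φ, z⟫_ℂ = 0)
    (hgap : ∀ φ, δ * ‖ι φ - Z.starProjection (ι φ)‖ ^ 2 ≤ (⟪T φ, ι φ⟫_ℂ).re)
    (hd : DenseRange (fun φ => ι φ + T φ)) {u : H}
    (hu : ∀ φ, ‖⟪T φ, u⟫_ℂ‖ ≤ η * (‖ι φ‖ + ‖T φ‖)) :
    ‖u - Z.starProjection u‖ ≤ (4 + 2 / δ) * η := by
  set P := Z.starProjection with hP
  set u' := u - P u with hu'
  have hPu' : P u' = 0 := by
    rw [hP, Submodule.starProjection_apply_eq_zero_iff, hu']
    exact Z.sub_starProjection_mem_orthogonal _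
  -- the basic inequality for a core vector
  have key : ∀ φ, ∀ e : ℝ, 0 ≤ e → ‖ι φ + T φ - u'‖ ≤ e →
      ‖ι φ + T φ‖ ^ 2 ≤ e ^ 2 + (2 + 1 / δ) * ((2 * η + e) * ‖ι φ + T φ‖) := by
    intro φ e he hφ
    set f := ι φ + T φ with hf
    have hPT : P (T φ) = 0 := by
      rw [hP, Submodule.starProjection_apply_eq_zero_iff, Submodule.mem_orthogonal']
      exact hTZ φ
    have hPι : ‖P (ι φ)‖ ≤ e := by
      have h1 : P (ι φ) = P (f - u') := by
        rw [map_sub, hPu', sub_zero, hf, map_add, hPT, add_zero]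
      rw [h1]
      exact (Z.norm_starProjection_apply_le _).trans hφ
    have hpyth : ‖ι φ‖ ^ 2 = ‖P (ι φ)‖ ^ 2 + ‖ι φ - P (ι φ)‖ ^ 2 := by
      have h0 : ⟪P (ι φ), ι φ - P (ι φ)⟫_ℂ = 0 :=
        Submodule.inner_right_of_mem_orthogonal (Z.starProjection_apply_mem _)
          (Z.sub_starProjection_mem_orthogonal _)
      have h1 : ι φ = P (ι φ) + (ι φ - P (ι φ)) := by abel
      conv_lhs => rw [h1]
      rw [@norm_add_sq ℂ, h0]
      simp
    have hn : ‖f‖ ^ 2 = ‖ι φ‖ ^ 2 + 2 * (⟪T φ, ι φ⟫_ℂ).re + ‖T φ‖ ^ 2 := by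
      have h7 : (⟪ι φ, T φ⟫_ℂ).re = (⟪T φ, ι φ⟫_ℂ).re := by
        rw [← inner_conj_symm (ι φ) (T φ), Complex.conj_re]
      rw [hf, @norm_add_sq ℂ, ← h7]
      rfl
    have hg := hgap φ
    have hs := hsym φ
    have hιf : ‖ι φ‖ ≤ ‖f‖ := by
      apply le_of_sq_le_sq _ (norm_nonneg _)
      nlinarith [sq_nonneg ‖T φ‖]
    have hTf : ‖T φ‖ ≤ ‖f‖ := by
      apply le_of_sq_le_sq _ (norm_nonneg _)
      nlinarith [sq_nonneg ‖ι φ‖]
    -- `⟨T φ, f⟩`
    have h2 : (⟪T φ, ι φ⟫_ℂ).re + ‖T φ‖ ^ 2 = (⟪T φ, f⟫_ℂ).re := by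
      rw [hf, inner_add_right, Complex.add_re, ← inner_self_eq_norm_sq (𝕜 := ℂ)]
      rfl
    have h3 : ⟪T φ, f⟫_ℂ = ⟪T φ, u⟫_ℂ + ⟪T φ, f - u'⟫_ℂ := by
      have : ⟪T φ, u'⟫_ℂ = ⟪T φ, u⟫_ℂ := by
        rw [hu', inner_sub_right, hTZ φ _ (Z.starProjection_apply_mem _), sub_zero]
      rw [← this, ← inner_add_right]
      congr 1
      abel
    have h4 : (⟪T φ, f⟫_ℂ).re ≤ (2 * η + e) * ‖f‖ := by
      have a1 : (⟪T φ, u⟫_ℂ).re ≤ η * (‖f‖ + ‖f‖) :=
        (Complex.re_le_norm _).trans ((hu φ).trans (by gcongr))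
      have a2 : (⟪T φ, f - u'⟫_ℂ).re ≤ ‖f‖ * e :=
        (Complex.re_le_norm _).trans ((norm_inner_le_norm _ _).trans (by gcongr))
      rw [h3, Complex.add_re]
      linarith
    have h5 : ‖ι φ‖ ^ 2 ≤ e ^ 2 + 1 / δ * (⟪T φ, ι φ⟫_ℂ).re := by
      have a1 : ‖P (ι φ)‖ ^ 2 ≤ e ^ 2 := by gcongr
      have a2 : ‖ι φ - P (ι φ)‖ ^ 2 ≤ 1 / δ * (⟪T φ, ι φ⟫_ℂ).re := by
        rw [one_div, ← div_eq_inv_mul, le_div_iff₀ hδ]
        linarith
      linarith
    have hδ' : 0 < 1 / δ := by positivity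
    have h6 : ‖f‖ ^ 2 ≤ e ^ 2 + (2 + 1 / δ) * ((⟪T φ, ι φ⟫_ℂ).re + ‖T φ‖ ^ 2) := by
      have : 0 ≤ (1 + 1 / δ) * ‖T φ‖ ^ 2 := by positivity
      nlinarith
    rw [h2] at h6
    have : (2 + 1 / δ) * (⟪T φ, f⟫_ℂ).re ≤ (2 + 1 / δ) * ((2 * η + e) * ‖f‖) := by gcongr
    linarith
  -- pass to the limit
  have hex : ∀ n : ℕ, ∃ φ, ‖ι φ + T φ - u'‖ < 1 / ((n : ℝ) + 1) := by
    intro n
    have := Metric.denseRange_iff.1 hd u' (1 / ((n : ℝ) + 1)) (by positivity)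
    obtain ⟨φ, hφ⟩ := this
    exact ⟨φ, by rwa [dist_comm, dist_eq_norm] at hφ⟩
  choose v hv using hex
  have hlim : Tendsto (fun n => ι (v n) + T (v n)) atTop (𝓝 u') := by
    rw [tendsto_iff_norm_sub_tendsto_zero]
    exact squeeze_zero (fun _ => norm_nonneg _) (fun n => (hv n).le)
      tendsto_one_div_add_atTop_nhds_zero_nat
  have hnl : Tendsto (fun n => ‖ι (v n) + T (v n)‖) atTop (𝓝 ‖u'‖) := hlim.norm
  have h0 : Tendsto (fun n : ℕ => 1 / ((n : ℝ) + 1)) atTop (𝓝 0) :=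
    tendsto_one_div_add_atTop_nhds_zero_nat
  have hfin : ‖u'‖ ^ 2 ≤ 0 ^ 2 + (2 + 1 / δ) * ((2 * η + 0) * ‖u'‖) :=
    le_of_tendsto_of_tendsto (hnl.pow 2)
      ((h0.pow 2).add ((((tendsto_const_nhds.add h0)).mul hnl).const_mul _))
      (Eventually.of_forall fun n => key (v n) _ (by positivity) (hv n).le)
  by_cases hz : ‖u'‖ = 0
  · rw [hz]
    positivity
  · have hp : 0 < ‖u'‖ := lt_of_le_of_ne (norm_nonneg _) (Ne.symm hz)
    have : ‖u'‖ * ‖u'‖ ≤ ((4 + 2 / δ) * η) * ‖u'‖ := by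
      have e1 : (2 + 1 / δ) * ((2 * η + 0) * ‖u'‖) = ((4 + 2 / δ) * η) * ‖u'‖ := by ring
      nlinarith
    exact le_of_mul_le_mul_right this hp

/-- Version with the charges: `|⟨Q v, X⟩| ≤ η ‖v‖_graph`. -/
theorem close_of_weak_charge {K : Type*} [NormedAddCommGroup K] [InnerProductSpace ℂ K]
    (Q : V →ₗ[ℂ] K) (hQ : ∀ φ ψ, ⟪Q φ, Q ψ⟫_ℂ = ⟪T φ, ι ψ⟫_ℂ) {δ η : ℝ} (hδ : 0 < δ) (hη : 0 ≤ η)
    (hTZ : ∀ φ, ∀ z ∈ Z, ⟪T φ, z⟫_ℂ = 0)
    (hgap : ∀ φ, δ * ‖ι φ - Z.starProjection (ι φ)‖ ^ 2 ≤ ‖Q φ‖ ^ 2)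
    (hd : DenseRange (fun φ => ι φ + T φ)) {u : V}
    (hu : ∀ φ, ‖⟪Q φ, Q u⟫_ℂ‖ ≤ η * (‖ι φ‖ + ‖T φ‖)) :
    ‖ι u - Z.starProjection (ι u)‖ ≤ (4 + 2 / δ) * η := by
  have hre : ∀ φ, (⟪T φ, ι φ⟫_ℂ).re = ‖Q φ‖ ^ 2 := fun φ => by
    rw [← hQ, ← inner_self_eq_norm_sq (𝕜 := ℂ)]
    rfl
  refine close_of_weak ι T Z hδ hη (fun φ => by rw [hre]; positivity) hTZ
    (fun φ => by rw [hre]; exact hgap φ) hd fun φ => ?_
  rw [← hQ]
  exact hu φ

end Close

/-! ### Counting -/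

section Count

variable {H : Type*} [NormedAddCommGroup H] [InnerProductSpace ℂ H]

/-- A family with an almost diagonal Gram matrix is linearly independent. -/
theorem linearIndependent_of_gram {k : ℕ} {w : Fin k → H} {e : ℝ} (he : (k : ℝ) * e < 1)
    (hw : ∀ i j, ‖⟪w i, w j⟫_ℂ - (if i = j then 1 else 0)‖ ≤ e) : LinearIndependent ℂ w := by
  rw [Fintype.linearIndependent_iff]
  intro c hc
  by_contra hne
  push Not at hne
  obtain ⟨i₀, hi₀⟩ := hne
  obtain ⟨i, -, hi⟩ := Finset.exists_max_image Finset.univ (fun i => ‖c i‖)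
    ⟨i₀, Finset.mem_univ _⟩
  have hpos : 0 < ‖c i‖ := (norm_pos_iff.2 hi₀).trans_le (hi i₀ (Finset.mem_univ _))
  have h1 : ⟪w i, ∑ j, c j • w j⟫_ℂ = 0 := by rw [hc, inner_zero_right]
  rw [inner_sum] at h1
  simp_rw [inner_smul_right] at h1
  have h2 : c i = -∑ j, c j * (⟪w i, w j⟫_ℂ - (if i = j then 1 else 0)) := by
    have : ∑ j, c j * (⟪w i, w j⟫_ℂ - (if i = j then 1 else 0)) =
        ∑ j, c j * ⟪w i, w j⟫_ℂ - c i := by
      simp_rw [mul_sub, Finset.sum_sub_distrib]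
      simp
    rw [this, h1]
    ring
  have h3 : ‖c i‖ ≤ ∑ _j : Fin k, ‖c i‖ * e := by
    conv_lhs => rw [h2, norm_neg]
    refine (norm_sum_le _ _).trans (Finset.sum_le_sum fun j _ => ?_)
    rw [norm_mul]
    have he0 : 0 ≤ e := (norm_nonneg _).trans (hw i i)
    exact mul_le_mul (hi j (Finset.mem_univ _)) (hw i j) (norm_nonneg _) (norm_nonneg _)
  rw [Finset.sum_const, Finset.card_univ, Fintype.card_fin, nsmul_eq_mul] at h3
  nlinarith

/-- **Almost orthonormal vectors close to `Z`** : `k ≤ rank Z`. -/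
theorem rank_ge_of_close (Z : Submodule ℂ H) [Z.HasOrthogonalProjection] {k : ℕ} {u : Fin k → H}
    {e : ℝ} (he0 : 0 ≤ e) (he : (k : ℝ) * (e + e ^ 2) < 1)
    (hu : ∀ i j, ‖⟪u i, u j⟫_ℂ - (if i = j then 1 else 0)‖ ≤ e)
    (hc : ∀ i, ‖u i - Z.starProjection (u i)‖ ≤ e) : (k : Cardinal) ≤ Module.rank ℂ Z := by
  have hg : ∀ i j, ‖⟪Z.starProjection (u i), Z.starProjection (u j)⟫_ℂ -
      (if i = j then 1 else 0)‖ ≤ e + e ^ 2 := by
    intro i j
    have h1 : ⟪u i, u j⟫_ℂ = ⟪Z.starProjection (u i), Z.starProjection (u j)⟫_ℂ +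
        ⟪u i - Z.starProjection (u i), u j - Z.starProjection (u j)⟫_ℂ := by
      have a : ⟪Z.starProjection (u i), u j - Z.starProjection (u j)⟫_ℂ = 0 :=
        Submodule.inner_right_of_mem_orthogonal (Z.starProjection_apply_mem _)
          (Z.sub_starProjection_mem_orthogonal _)
      have b : ⟪u i - Z.starProjection (u i), Z.starProjection (u j)⟫_ℂ = 0 :=
        Submodule.inner_left_of_mem_orthogonal (Z.starProjection_apply_mem _)
          (Z.sub_starProjection_mem_orthogonal _)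
      have c : ⟪u i, u j⟫_ℂ = ⟪Z.starProjection (u i) + (u i - Z.starProjection (u i)),
          Z.starProjection (u j) + (u j - Z.starProjection (u j))⟫_ℂ := by
        congr 1 <;> abel
      rw [c, inner_add_left, inner_add_right, inner_add_right, a, b]
      ring
    have h2 : ⟪Z.starProjection (u i), Z.starProjection (u j)⟫_ℂ - (if i = j then 1 else 0) =
        (⟪u i, u j⟫_ℂ - (if i = j then 1 else 0)) -
        ⟪u i - Z.starProjection (u i), u j - Z.starProjection (u j)⟫_ℂ := by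
      rw [h1]; ring
    rw [h2]
    refine (norm_sub_le _ _).trans (add_le_add (hu i j) ?_)
    refine (norm_inner_le_norm _ _).trans ?_
    rw [pow_two]
    exact mul_le_mul (hc i) (hc j) (norm_nonneg _) he0
  have hli := linearIndependent_of_gram he hg
  have hli' : LinearIndependent ℂ (fun i => (⟨Z.starProjection (u i),
      Z.starProjection_apply_mem _⟩ : Z)) := by
    apply LinearIndependent.of_comp Z.subtype
    exact hli
  have := hli'.cardinal_lift_le_rank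
  simpa using this

/-- **Sequence version**: Gram matrices tend to the identity, distances to `Z n` tend to `0`. -/
theorem eventually_rank_ge (Z : ℕ → Submodule ℂ H) [∀ n, (Z n).HasOrthogonalProjection] {k : ℕ}
    {u : ℕ → Fin k → H}
    (hu : ∀ i j, Tendsto (fun n => ⟪u n i, u n j⟫_ℂ) atTop (𝓝 (if i = j then 1 else 0)))
    (hc : ∀ i, Tendsto (fun n => ‖u n i - (Z n).starProjection (u n i)‖) atTop (𝓝 0)) :
    ∀ᶠ n in atTop, (k : Cardinal) ≤ Module.rank ℂ (Z n) := by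
  set e : ℝ := 1 / (2 * ((k : ℝ) + 1)) with he
  have hk : (0 : ℝ) < (k : ℝ) + 1 := by positivity
  have he0 : 0 < e := by positivity
  have he1 : e ≤ 1 := by
    rw [he, div_le_one (by positivity)]
    have : (0 : ℝ) ≤ k := Nat.cast_nonneg k
    linarith
  have he2 : (k : ℝ) * (e + e ^ 2) < 1 := by
    have h1 : e ^ 2 ≤ e := by nlinarith
    have h2 : (k : ℝ) * (e + e ^ 2) ≤ (k : ℝ) * (2 * e) := by gcongr; linarith
    have h3 : (k : ℝ) * (2 * e) < 1 := by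
      rw [he]
      have : (k : ℝ) * (2 * (1 / (2 * ((k : ℝ) + 1)))) = k / (k + 1) := by
        field_simp
      rw [this, div_lt_one hk]
      linarith
    linarith
  have h1 : ∀ᶠ n in atTop, ∀ i j, ‖⟪u n i, u n j⟫_ℂ - (if i = j then 1 else 0)‖ ≤ e := by
    rw [eventually_all]
    intro i
    rw [eventually_all]
    intro j
    have := (hu i j)
    rw [tendsto_iff_norm_sub_tendsto_zero] at this
    exact (this.eventually (gt_mem_nhds he0)).mono fun n hn => hn.le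
  have h2 : ∀ᶠ n in atTop, ∀ i, ‖u n i - (Z n).starProjection (u n i)‖ ≤ e := by
    rw [eventually_all]
    intro i
    exact ((hc i).eventually (gt_mem_nhds he0)).mono fun n hn => hn.le
  filter_upwards [h1, h2] with n a b
  exact rank_ge_of_close (Z n) he0.le he2 a b

end Count

end Crest.Agent.R330.DLow942
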