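import Crest.Agent.R330.E2_942
import Crest.Agent.R330.DLow_942

/-!
# Row 330 (helper942): D-LOW by duality, for the sixteen charges

`close_of_dual` : `Susy G m ι Q Ham J`, gap inequality and density of `(1 + H) D` : if the vectors
`Q_α u` are small in the dual norm of the form then `u` is close to the kernel.
-/

set_option autoImplicit false

namespace Crest.Agent.R330.DLow942

open Crest.MathPhysics.MatrixQM
open Crest.Agent.R330.GapAlg916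
open scoped InnerProductSpace

variable {D H : Type*} [AddCommGroup D] [Module ℂ D] [NormedAddCommGroup H]
  [InnerProductSpace ℂ H]
variable {G : GammaNine} {m : ℝ} {ι : D →ₗ[ℂ] H} {Q : Fin 16 → D →ₗ[ℂ] D}
  {Ham : D →ₗ[ℂ] D} {J : Fin 9 × Fin 9 → D →ₗ[ℂ] D}

/-- graph norm of the form: `‖w‖² + ⟨w, H w⟩` -/
noncomputable def fn (ι : D →ₗ[ℂ] H) (Ham : D →ₗ[ℂ] D) (w : D) : ℝ :=
  ‖ι w‖ ^ 2 + (⟪ι w, ι (Ham w)⟫_ℂ).re

theorem fn_nonneg (h : Susy G m ι Q Ham J) (w : D) : 0 ≤ fn ι Ham w := by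
  have : 0 ≤ (⟪ι w, ι (Ham w)⟫_ℂ).re := by
    rw [← h.form_self]
    positivity
  unfold fn
  positivity

/-- The charges of a core vector are bounded in the form norm by its graph norm. -/
theorem sum_fn_le (h : Susy G m ι Q Ham J) (hm : 0 ≤ m) (φ : D) :
    ∑ α, fn ι Ham (Q α φ) ≤ (168 + 160 * m ^ 2) * (‖ι φ‖ + ‖ι (Ham φ)‖) ^ 2 := by
  have h1 := E2942.energy_le h hm φ
  have h2 : ∑ α, ‖ι (Q α φ)‖ ^ 2 = 16 * (⟪ι φ, ι (Ham φ)⟫_ℂ).re := by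
    rw [← h.form_self]
    ring
  have h3 : (⟪ι φ, ι (Ham φ)⟫_ℂ).re ≤ ‖ι φ‖ * ‖ι (Ham φ)‖ :=
    (Complex.re_le_norm _).trans (norm_inner_le_norm _ _)
  unfold fn
  rw [Finset.sum_add_distrib, h2]
  have a0 := norm_nonneg (ι φ)
  have b0 := norm_nonneg (ι (Ham φ))
  set a := ‖ι φ‖
  set b := ‖ι (Ham φ)‖
  have e1 : a ^ 2 ≤ (a + b) ^ 2 := by gcongr; linarith
  have e2 : b ^ 2 ≤ (a + b) ^ 2 := by gcongr; linarith
  have e3 : 2 * (a * b) ≤ (a + b) ^ 2 := by nlinarith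
  have e4 : m ^ 2 * a ^ 2 ≤ m ^ 2 * (a + b) ^ 2 := by gcongr
  nlinarith

/-- **D-LOW.** If the vectors `Q_α u` are small in the dual norm of the form, `u` is close to the
kernel `Z`. -/
theorem close_of_dual (h : Susy G m ι Q Ham J) (hm : 0 ≤ m) (Z : Submodule ℂ H)
    [Z.HasOrthogonalProjection] {δ : ℝ} (hδ : 0 < δ)
    (hZ : ∀ φ, ∀ z ∈ Z, ⟪ι (Ham φ), z⟫_ℂ = 0)
    (hgap : ∀ φ, δ * ‖ι φ - Z.starProjection (ι φ)‖ ^ 2 ≤ (⟪ι φ, ι (Ham φ)⟫_ℂ).re)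
    (hd : DenseRange (fun φ => ι φ + ι (Ham φ))) {u : D} {η : ℝ} (hη : 0 ≤ η)
    (hu : ∀ α w, ‖⟪ι w, ι (Q α u)⟫_ℂ‖ ≤ η * Real.sqrt (fn ι Ham w)) :
    ‖ι u - Z.starProjection (ι u)‖ ≤ (4 + 2 / δ) * ((4 + 4 * m) * η) := by
  have hre : ∀ φ, (⟪ι (Ham φ), ι φ⟫_ℂ).re = (⟪ι φ, ι (Ham φ)⟫_ℂ).re := fun φ => by
    rw [h.Ham_symm]
  refine close_of_weak ι (ι ∘ₗ Ham) Z hδ (by positivity) (fun φ => ?_) hZ (fun φ => ?_) hd
    fun φ => ?_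
  · change 0 ≤ (⟪ι (Ham φ), ι φ⟫_ℂ).re
    rw [hre, ← h.form_self]
    positivity
  · change _ ≤ (⟪ι (Ham φ), ι φ⟫_ℂ).re
    rw [hre]
    exact hgap φ
  · change ‖⟪ι (Ham φ), ι u⟫_ℂ‖ ≤ _ * (‖ι φ‖ + ‖ι (Ham φ)‖)
    rw [h.Ham_symm, ← h.form_eq, norm_mul]
    have h1 : ‖∑ α, ⟪ι (Q α φ), ι (Q α u)⟫_ℂ‖ ≤ η * ∑ α, Real.sqrt (fn ι Ham (Q α φ)) := by
      rw [Finset.mul_sum]
      exact (norm_sum_le _ _).trans (Finset.sum_le_sum fun α _ => hu α (Q α φ))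
    -- Cauchy-Schwarz
    have h2 : (∑ α, Real.sqrt (fn ι Ham (Q α φ))) ^ 2 ≤
        16 * ∑ α, fn ι Ham (Q α φ) := by
      have := Finset.sum_mul_sq_le_sq_mul_sq Finset.univ (fun _ : Fin 16 => (1 : ℝ))
        (fun α => Real.sqrt (fn ι Ham (Q α φ)))
      simp only [one_mul, one_pow, Finset.sum_const, Finset.card_univ, Fintype.card_fin,
        nsmul_eq_mul, mul_one] at this
      refine this.trans (le_of_eq ?_)
      push_cast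
      congr 1
      exact Finset.sum_congr rfl fun α _ => Real.sq_sqrt (fn_nonneg h _)
    have h3 : ∑ α, Real.sqrt (fn ι Ham (Q α φ)) ≤
        (64 + 64 * m) * (‖ι φ‖ + ‖ι (Ham φ)‖) := by
      apply le_of_sq_le_sq _ (by positivity)
      refine h2.trans ?_
      have h4 := sum_fn_le h hm φ
      have h5 : 0 ≤ (‖ι φ‖ + ‖ι (Ham φ)‖) ^ 2 := by positivity
      rw [mul_pow]
      have h6 : 16 * (168 + 160 * m ^ 2) ≤ (64 + 64 * m) ^ 2 := by nlinarith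
      nlinarith
    have h7 : ‖(1 / 16 : ℂ)‖ = 1 / 16 := by norm_num
    rw [h7]
    calc 1 / 16 * ‖∑ α, ⟪ι (Q α φ), ι (Q α u)⟫_ℂ‖
        ≤ 1 / 16 * (η * ((64 + 64 * m) * (‖ι φ‖ + ‖ι (Ham φ)‖))) := by
          have := h1.trans (mul_le_mul_of_nonneg_left h3 hη)
          linarith
      _ = (4 + 4 * m) * η * (‖ι φ‖ + ‖ι (Ham φ)‖) := by ring

end Crest.Agent.R330.DLow942
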