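import Crest.Agent.R330.StrUp_796
import Crest.Agent.R330.QM0_363
import Crest.Agent.R330.DLowS_942

/-!
# Row 330, section 11 (helper796): literal `DLow N`

* `Pack b M R G g m`, `PackAll N` : the supersymmetry algebra and the graph core on the core
  vectors (the inputs of the gap).
* `close_lit` : closeness to the kernel by duality, literal charges.
* `dLow_of` : `TrialAll N → GapAll N → PackAll N → DLow N`.
-/

set_option autoImplicit false
set_option linter.unusedSectionVars false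

open MeasureTheory Filter Topology Crest.MathPhysics.MatrixQM
open scoped ContDiff InnerProductSpace ENNReal

noncomputable section

namespace Crest.Agent.R330.StrongLow796

open Crest.Agent.R330.Defs478 Crest.Agent.R330.Top478 Crest.Agent.R330.FA416
  Crest.Agent.R330.Dict416 Crest.Agent.R330.Scale423 Crest.Agent.R330.ScaleD423
  Crest.Agent.R330.TrialSys796 Crest.Agent.R330.StrAbs796 Crest.Agent.R330.StrUp796
  Crest.Agent.R330.StrLow796 Crest.Agent.R330.GapAlg916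

/-! ### Norms and inner products in the closure of the core -/

section clo

variable {V H H' : Type*} [AddCommGroup V] [Module ℂ V] [NormedAddCommGroup H]
  [InnerProductSpace ℂ H] [NormedAddCommGroup H'] [InnerProductSpace ℂ H']

theorem norm_ιc (ι : V →ₗ[ℂ] H) (φ : V) : ‖ιc ι φ‖ = ‖ι φ‖ := rfl

theorem inner_ιc (ι : V →ₗ[ℂ] H) (φ ψ : V) : ⟪ιc ι φ, ιc ι ψ⟫_ℂ = ⟪ι φ, ι ψ⟫_ℂ := rfl

theorem susy_ιc {G : GammaNine} {m : ℝ} {ι : V →ₗ[ℂ] H} {Q : Fin 16 → V →ₗ[ℂ] V}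
    {Ham : V →ₗ[ℂ] V} {J : Fin 9 × Fin 9 → V →ₗ[ℂ] V} (h : Susy G m ι Q Ham J) :
    Susy G m (ιc ι) Q Ham J := ⟨fun α φ ψ => h.symm α φ ψ, h.master, h.comm⟩

/-- Projections on the kernel in the closure and in the space. -/
theorem dist_le_of_ιc [CompleteSpace H] {ι : V →ₗ[ℂ] H} {Q : V →ₗ[ℂ] H'} {u : V}
    [(kerF (ιc ι) Q).HasOrthogonalProjection] {c : ℝ}
    (h : ‖ιc ι u - (kerF (ιc ι) Q).starProjection (ιc ι u)‖ ≤ c) :
    ‖ι u - (kerF ι Q).starProjection (ι u)‖ ≤ c := by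
  set P := (kerF (ιc ι) Q).starProjection (ιc ι u) with hP
  have hPm : ((P : clo ι) : H) ∈ kerF ι Q :=
    (kerF_ιc _).1 (Submodule.starProjection_apply_mem _ _)
  have h3 : ‖ι u - (kerF ι Q).starProjection (ι u)‖ ≤ ‖ι u - (P : H)‖ := by
    rw [Submodule.starProjection_minimal]
    exact ciInf_le ⟨0, by rintro _ ⟨x, rfl⟩; exact norm_nonneg _⟩ (⟨(P : H), hPm⟩ : kerF ι Q)
  exact h3.trans h

theorem dense_ιc {ι : V →ₗ[ℂ] H} {Ham : V →ₗ[ℂ] V}
    (hd : ∀ φ, ι φ ∈ closure (Set.range fun ψ => ι ψ + ι (Ham ψ))) :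
    DenseRange (fun φ => ιc ι φ + ιc ι (Ham φ)) := by
  have hle : clo ι ≤ clo (ι + ι ∘ₗ Ham) := by
    refine Submodule.topologicalClosure_minimal _ ?_ (Submodule.isClosed_topologicalClosure _)
    rintro y ⟨φ, rfl⟩
    have h1 := hd φ
    rw [mem_closure_iff_seq_limit] at h1
    obtain ⟨x, hx, hlim⟩ := h1
    choose ψ hψ using hx
    refine mem_clo_iff.2 ⟨ψ, hlim.congr fun n => ?_⟩
    exact (hψ n).symm
  intro x
  obtain ⟨φ, hφ⟩ := mem_clo_iff.1 (hle x.2)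
  rw [mem_closure_iff_seq_limit]
  exact ⟨fun n => ιc ι (φ n) + ιc ι (Ham (φ n)), fun n => ⟨φ n, rfl⟩,
    tendsto_subtype_rng.2 hφ⟩

/-- **Closeness to the kernel by duality**, abstract form with core not dense. -/
theorem close_abs [CompleteSpace H] {G : GammaNine} {ι : V →ₗ[ℂ] H} {Q : Fin 16 → V →ₗ[ℂ] V}
    {Ham : V →ₗ[ℂ] V} {J : Fin 9 × Fin 9 → V →ₗ[ℂ] V} {QQ : V →ₗ[ℂ] H'}
    (hS : Susy G 1 ι Q Ham J)
    (hQQ : ∀ φ ψ, ⟪QQ φ, QQ ψ⟫_ℂ = ∑ α, ⟪ι (Q α φ), ι (Q α ψ)⟫_ℂ)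
    (hd : ∀ φ, ι φ ∈ closure (Set.range fun ψ => ι ψ + ι (Ham ψ))) {δ : ℝ} (hδ : 0 < δ)
    (hG : Gap ι QQ (16 * δ)) {η : ℝ} (hη : 0 ≤ η) {u : V}
    (hu : ∀ α v, ‖⟪ι (Q α u), ι v⟫_ℂ‖ ≤ η * (‖ι v‖ + ‖QQ v‖)) :
    ‖ι u - (kerF ι QQ).starProjection (ι u)‖ ≤ ((4 + 2 / δ) * 40) * η := by
  have hC : CompleteSpace (clo ι) := (isClosed_clo ι).completeSpace_coe
  have hS' := susy_ιc hS
  have hform2 : ∀ φ ψ, ⟪QQ φ, QQ ψ⟫_ℂ = ⟪(16 : ℂ) • ιc ι (Ham φ), ιc ι ψ⟫_ℂ := by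
    intro φ ψ
    rw [inner_smul_left, inner_ιc, hS.Ham_symm, ← hS.form_eq, hQQ, Complex.conj_ofNat]
    ring
  have hform : ∀ φ, ‖QQ φ‖ ^ 2 = 16 * (⟪ιc ι φ, ιc ι (Ham φ)⟫_ℂ).re := by
    intro φ
    have h1 : (‖QQ φ‖ ^ 2 : ℝ) = (⟪QQ φ, QQ φ⟫_ℂ).re := by
      rw [inner_self_eq_norm_sq_to_K]
      norm_cast
    rw [h1, hform2, inner_smul_left, Complex.conj_ofNat, hS'.Ham_symm]
    simp
  have hfn : ∀ w, DLow942.fn (ιc ι) Ham w = ‖ι w‖ ^ 2 + (1 / 16) * ‖QQ w‖ ^ 2 := fun w => by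
    unfold DLow942.fn
    rw [hform, norm_ιc]
    ring
  have hgap := gap_to_ιc hG
  refine dist_le_of_ιc ((DLow942.close_of_dual hS' zero_le_one (kerF (ιc ι) QQ) hδ
    (fun φ z hz => ?_) (fun φ => ?_) (dense_ιc hd) (u := u) (η := 5 * η) (by positivity)
    (fun α w => ?_)).trans (le_of_eq (by ring)))
  · -- the range of the Hamiltonian is orthogonal to the kernel
    have h1 := AbsLow291.inner_A_kerF (ι := ιc ι) (Q := QQ)
      (A := (16 : ℂ) • (ιc ι ∘ₗ Ham)) (fun φ ψ => hform2 φ ψ) φ hz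
    have h2 : ⟪(16 : ℂ) • ιc ι (Ham φ), z⟫_ℂ = 0 := h1
    rw [inner_smul_left] at h2
    rcases mul_eq_zero.1 h2 with h3 | h3
    · rw [Complex.conj_ofNat] at h3
      norm_num at h3
    · exact h3
  · -- the gap
    have h1 := hgap.proj (by positivity) φ
    rw [hform] at h1
    linarith
  · -- the pairing
    have h1 := hu α w
    rw [norm_inner_symm, hfn, inner_ιc]
    refine h1.trans ?_
    rw [mul_comm 5 η, mul_assoc]
    refine mul_le_mul_of_nonneg_left ?_ hη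
    set s : ℝ := Real.sqrt (‖ι w‖ ^ 2 + (1 / 16) * ‖QQ w‖ ^ 2) with hs
    have h3 : ‖ι w‖ ≤ s := by
      rw [hs]
      refine Real.le_sqrt_of_sq_le ?_
      nlinarith [sq_nonneg ‖QQ w‖]
    have h4 : ‖QQ w‖ / 4 ≤ s := by
      rw [hs]
      refine Real.le_sqrt_of_sq_le ?_
      nlinarith [sq_nonneg ‖ι w‖]
    linarith

end clo

section data

variable {N : ℕ} {F : Type*} [NormedAddCommGroup F] [InnerProductSpace ℂ F]
  [FiniteDimensional ℂ F] {b : ColorBasis N} {M : FermionRep N F} {R : GaugeAction b M}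
  {G : GammaNine}

/-- The supersymmetry algebra and the graph core on core vectors. -/
def Pack (b : ColorBasis N) (M : FermionRep N F) (R : GaugeAction b M) (G : GammaNine)
    (g m : ℝ) : Prop :=
  ∃ (Q : Fin 16 → core b R →ₗ[ℂ] core b R) (Ham : core b R →ₗ[ℂ] core b R)
    (J : Fin 9 × Fin 9 → core b R →ₗ[ℂ] core b R),
    (∀ α φ, (Q α φ : Cfg N → F) = dcharge b M G g m α (φ : Cfg N → F)) ∧
    Susy G m (ιC R) Q Ham J ∧
    ∀ φ : core b R, ιC R φ ∈ closure (Set.range fun ψ => ιC R ψ + ιC R (Ham ψ))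

/-- **Closeness to the kernel by duality**, literal charges. -/
theorem close_lit {g : ℝ} (hP : Pack b M R G g 1) {δ : ℝ} (hδ : 0 < δ)
    (hG : Sec478.GapZ b M R G g 1 δ) {η : ℝ} (hη : 0 ≤ η) {u : core b R}
    (hu : ∀ α v, ‖⟪ιC R (qc R G g 1 α u), ιC R v⟫_ℂ‖ ≤
      η * (‖ιC R v‖ + ‖QC R G g 1 v‖)) :
    ‖ιC R u - (kerF (ιC R) (QC R G g 1)).starProjection (ιC R u)‖ ≤
      ((4 + 2 / δ) * 40) * η := by
  obtain ⟨Q, Ham, J, hQ, hS, hd⟩ := hP
  have hQq : ∀ α, Q α = qc R G g 1 α := fun α => LinearMap.ext fun φ => Subtype.ext (hQ α φ)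
  refine close_abs hS (fun φ ψ => ?_) hd hδ (Lit416.gapZ_iff.1 hG) hη fun α v => ?_
  · rw [PiLp.inner_apply]
    refine Finset.sum_congr rfl fun α _ => ?_
    rw [hQq]
    rfl
  · rw [hQq]
    exact hu α v

/-- **Literal D-low for one set of data.** -/
theorem dLow_data {L : Type*} [NormedAddCommGroup L] [InnerProductSpace ℂ L]
    {X : Type*} [AddCommGroup X] [Module ℂ X] {e : X →ₗ[ℂ] L} {D : Fin 16 → X →ₗ[ℂ] X}
    {T : ℝ → X → Cfg N → F} {K0 : Submodule ℂ L} {d : ℕ} (hTr : IsTrial b M R G e D T)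
    (hFree : IsFree e D K0 d) {δ : ℝ} (hδ : 0 < δ)
    (hG : ∀ᶠ g in atTop, Sec478.GapZ b M R G g 1 δ)
    (hP : ∀ᶠ g in atTop, Pack b M R G g 1) {k : ℕ} (hk : Sec478.DimGe b M R G 1 0 k) :
    ∀ᶠ g in atTop, Sec478.DimGe b M R G g 1 (k + d) := by
  have h := low_of_close (tr_of hTr) (C := (4 + 2 / δ) * 40) (κ' := 1) (by positivity)
    zero_le_one (Eventually.of_forall fun g a φ => norm_qc_le g 1 a φ) ?_ K0 hFree.rank
    hFree.approx (k := k) ?_
  · exact h.mono fun g hg => Lit416.dimGe_iff.2 hg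
  · filter_upwards [hG, hP] with g h1 h2 η hη u hu
    exact close_lit h2 hδ h1 hη hu
  · -- the bound states
    intro ε hε S
    -- radius on which the trial states vanish
    choose r hr0 hr using hTr.far
    obtain ⟨ρ₁, hρ₁, hρS⟩ : ∃ ρ₁ : ℝ, 0 < ρ₁ ∧ ∀ χ ∈ S, ρ₁ ≤ r χ := by
      by_cases hS : S.Nonempty
      · obtain ⟨χ₀, -, hmin⟩ := S.exists_min_image r hS
        exact ⟨r χ₀, hr0 χ₀, hmin⟩
      · exact ⟨1, one_pos, fun χ hχ => absurd ⟨χ, hχ⟩ hS⟩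
    set τ : ℝ := min ε (ε ^ 2 / 16) with hτ
    have hτ0 : 0 < τ := lt_min hε (by positivity)
    obtain ⟨ρ₀, hρ₀, hq⟩ := QM0363.quasi_family hk hτ0
    obtain ⟨g₁, -, hq⟩ := hq (min ρ₀ ρ₁) (lt_min hρ₀ hρ₁) (min_le_left _ _)
    have hfar : ∀ᶠ g in atTop, ∀ χ ∈ S, ∀ x, ‖x‖ < r χ → T g χ x = 0 :=
      (Filter.eventually_all_finset S).2 fun χ _ => hr χ
    have hcore : ∀ᶠ g in atTop, ∀ χ ∈ S, IsCoreVec b R (T g χ) :=
      (Filter.eventually_all_finset S).2 fun χ _ => hTr.core χ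
    filter_upwards [eventually_ge_atTop g₁, hfar, hcore] with g hg hfar hcore
    obtain ⟨w, hw1, hw2, hw3, hw4⟩ := hq g hg
    refine ⟨fun i => ⟨w i, hw1 i⟩, fun i j => ?_, fun i => ?_, fun χ hχ i => ?_⟩
    · rw [inner_ιC]
      exact (hw3 i j).trans (min_le_left _ _)
    · refine le_of_sq_le_sq ?_ hε.le
      rw [norm_QC_sq]
      have h1 := (hw4 i).trans (min_le_right _ _)
      change 16 * qf b M G g 1 (w i) ≤ ε ^ 2
      linarith
    · rw [inner_ιC, coe_Tc (hcore χ hχ)]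
      have h1 : ∀ x, ⟪T g χ x, w i x⟫_ℂ = 0 := fun x => by
        rcases lt_or_ge ‖x‖ ρ₁ with h2 | h2
        · rw [hfar χ hχ x (h2.trans_le (hρS χ hχ)), inner_zero_left]
        · rw [hw2 i x ((min_le_right _ _).trans h2), inner_zero_right]
      simp only [h1, integral_zero, norm_zero]
      exact hε.le

end data

/-- The algebra and the graph core for all data. -/
def PackAll (N : ℕ) : Prop :=
  ∀ (F : Type) [NormedAddCommGroup F] [InnerProductSpace ℂ F] [FiniteDimensional ℂ F]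
    [Nontrivial F] (b : ColorBasis N) (M : FermionRep N F) (R : GaugeAction b M) (G : GammaNine)
    (g : ℝ), 0 < g → Pack b M R G g 1

/-- **Literal D-low.** -/
theorem dLow_of {N : ℕ} (hT : TrialAll N) (hG : Sec478.GapAll N) (hP : PackAll N) :
    Sec478.DLow N := by
  intro F _ _ _ _ b M R G k hk
  obtain ⟨L, _, _, _, X, _, _, e, D, T, K0, -, -, hTr, hFree, -⟩ := hT F b M R G
  have h := dLow_data hTr hFree (δ := 1 / 24) (by norm_num)
    ((eventually_gt_atTop 0).mono fun g hg => hG F b M R G g hg)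
    ((eventually_gt_atTop 0).mono fun g hg => hP F b M R G g hg) hk
  obtain ⟨g₁, hg₁⟩ := eventually_atTop.1 h
  exact ⟨g₁, fun g _ hg => hg₁ g hg.le⟩

end Crest.Agent.R330.StrongLow796

end
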