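import Crest.Agent.R330.S9Top_441
import Crest.Agent.R330.StrongLow_796
import Crest.Agent.R330.AnnHI_245
import Crest.Agent.R330.GapAllN_967

/-!
# Row 330, closing of sections 8 - 11, part B (helper441)

* `packAll` : the algebra and the graph core for all data.
* `top` : the fields `ann`, `dup`, `dlow` of `Close478.StepIn` from `Below N → ChanAll N`,
  capture on balls and tightness.
-/

set_option autoImplicit false

open MeasureTheory Filter Topology Crest.MathPhysics.MatrixQM
open scoped ContDiff InnerProductSpace ENNReal

noncomputable section

namespace Crest.Agent.R330.S9TopB441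

open Crest.Agent.R330.Defs478 Crest.Agent.R330.Top478 Crest.Agent.R330.Sec478
  Crest.Agent.R330.SInd478 Crest.Agent.R330.Close478 Crest.Agent.R330.TrialSys796
  Crest.Agent.R330.Chan441 Crest.Agent.R330.S9Top441

/-- The algebra and the graph core for all data. -/
theorem packAll (N : ℕ) : StrongLow796.PackAll N := by
  intro F _ _ _ _ b M R G g _
  exact ⟨JQ916.Qc R G g 1, JQ916.Hc R G g 1, _, fun α φ => rfl, SusyL916.susy R G g 1,
    GapAllN967.dens R G g 1⟩

/-- **The closing** with everything landed filled in. -/
theorem top {N : ℕ} (hch : Below N → ChanAll N) (hB : HIAll N → BallAll N)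
    (hT : TightAll N) : Top N :=
  top_of' hch AnnHI245.annHIAll_of_sys hB hT fun h =>
    StrongLow796.dLow_of h (GapAllN967.gapAll N) (packAll N)

end Crest.Agent.R330.S9TopB441

end
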