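import Crest.Agent.R330.CapZ_818
import Crest.Agent.R330.S9TopB_441

/-!
# Row 330, S9-CAPZ (helper818): capture on balls for all data

`ballAll_of : HIAll N → S9Top441.BallAll N` and `top`: the fields `ann`, `dup`, `dlow` from
`Below N → ChanAll N` and tightness.
-/

set_option autoImplicit false

open MeasureTheory Filter Topology Crest.MathPhysics.MatrixQM
open scoped ContDiff InnerProductSpace ENNReal

noncomputable section

namespace Crest.Agent.R330.CapZB818

open Crest.Agent.R330.Close478 Crest.Agent.R330.TrialSys796 Crest.Agent.R330.Chan441
  Crest.Agent.R330.S9Top441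

/-- **Capture on balls** for all data. -/
theorem ballAll_of {N : ℕ} (h : HIAll N) : BallAll N := by
  intro F _ _ _ _ b M R G X T hA
  exact CapZ818.capBall_of hA (h F b M R G 1 (by norm_num)) (by norm_num)

/-- The closing with capture on balls filled in. -/
theorem top {N : ℕ} (hch : Below N → ChanAll N) (hT : TightAll N) : Top N :=
  S9TopB441.top hch ballAll_of hT

end Crest.Agent.R330.CapZB818

end
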