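import Crest.Agent.R330.CapZA_818
import Crest.Agent.R330.Chan_441

/-!
# Row 330, leaf S9-CAPZ (helper818): `CapBall` from `CapAnn` and an exterior Hardy inequality

* `hardy_zone` : `HI κ`, `κ > 1/2` bounds the mass of `{2 r ≤ ‖x‖ ≤ D}` by the masses of
  `{‖x‖ ≤ 2 r}` and `{D ≤ ‖x‖ ≤ 2 D}` and the energy.
* `capBall_of : CapAnn b M R G 1 T → HI b M R G κ → 1/2 < κ → CapBall b M R G T`.
-/

set_option autoImplicit false
set_option linter.unusedSectionVars false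

open MeasureTheory Filter Topology Crest.MathPhysics.MatrixQM
open scoped ContDiff InnerProductSpace ENNReal

noncomputable section

namespace Crest.Agent.R330.CapZ818

open Crest.Agent.R330.Defs478 Crest.Agent.R330.QM0363 Crest.Agent.R330.Dict416
  Crest.Agent.R330.CapZA818

variable {N : ℕ} {F : Type*} [NormedAddCommGroup F] [InnerProductSpace ℂ F]
  [FiniteDimensional ℂ F] {b : ColorBasis N} {M : FermionRep N F} {R : GaugeAction b M}
  {G : GammaNine}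

/-! ### The weight -/

/-- `‖x‖` cut off at `r` and `D`. -/
def wt (r D : ℝ) (x : Cfg N) : ℝ := ‖x‖ * ((1 - cut (2 * r) x) * cut (2 * D) x)

theorem wt_inner {r D : ℝ} (hr : 0 < r) {x : Cfg N} (hx : ‖x‖ ≤ r) : wt r D x = 0 := by
  unfold wt
  rw [cut_one (by linarith : (0 : ℝ) < 2 * r) (by linarith : ‖x‖ ≤ 2 * r / 2)]
  ring

theorem wt_outer {r D : ℝ} (hD : 0 < D) {x : Cfg N} (hx : 2 * D ≤ ‖x‖) : wt r D x = 0 := by
  unfold wt
  rw [cut_zero (by linarith : (0 : ℝ) < 2 * D) hx]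
  ring

theorem wt_mid {r D : ℝ} (hr : 0 < r) (hD : 0 < D) {x : Cfg N} (h1 : 2 * r ≤ ‖x‖)
    (h2 : ‖x‖ ≤ D) : wt r D x = ‖x‖ := by
  unfold wt
  rw [cut_zero (by linarith : (0 : ℝ) < 2 * r) h1,
    cut_one (by linarith : (0 : ℝ) < 2 * D) (by linarith : ‖x‖ ≤ 2 * D / 2)]
  ring

theorem wt_nonneg (r D : ℝ) (x : Cfg N) : 0 ≤ wt r D x :=
  mul_nonneg (norm_nonneg _) (mul_nonneg (sub_nonneg.2 (cut_le_one _ x)) (cut_nonneg _ x))

theorem wt_le_norm (r D : ℝ) (x : Cfg N) : wt r D x ≤ ‖x‖ := by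
  unfold wt
  have h1 : (1 - cut (2 * r) x) * cut (2 * D) x ≤ 1 := by
    have h2 := cut_nonneg (2 * r) x
    have h3 := cut_le_one (2 * r) x
    have h4 := cut_nonneg (2 * D) x
    have h5 := cut_le_one (2 * D) x
    nlinarith
  exact mul_le_of_le_one_right (norm_nonneg _) h1

theorem wt_le (r : ℝ) {D : ℝ} (hD : 0 < D) (x : Cfg N) : wt r D x ≤ 2 * D := by
  by_cases hx : 2 * D ≤ ‖x‖
  · rw [wt_outer hD hx]
    linarith
  · push Not at hx
    exact (wt_le_norm r D x).trans hx.le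

theorem wt_mul_le (r : ℝ) {D : ℝ} (hD : 0 < D) (x : Cfg N) : wt r D x * ‖x‖ ≤ 4 * D ^ 2 := by
  by_cases hx : 2 * D ≤ ‖x‖
  · rw [wt_outer hD hx, zero_mul]
    positivity
  · push Not at hx
    calc wt r D x * ‖x‖ ≤ (2 * D) * (2 * D) :=
          mul_le_mul (wt_le r hD x) hx.le (norm_nonneg _) (by linarith)
      _ = 4 * D ^ 2 := by ring

theorem wt_act (b : ColorBasis N) (r D : ℝ) (g : Matrix.specialUnitaryGroup (Fin N) ℂ)
    (x : Cfg N) : wt r D (b.act g x) = wt r D x := by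
  unfold wt
  rw [Col962.norm_act, cut_act, cut_act]

theorem contDiff_wt {r : ℝ} (hr : 0 < r) (D : ℝ) : ContDiff ℝ ∞ (wt (N := N) r D) := by
  rw [contDiff_iff_contDiffAt]
  intro x
  by_cases hx : ‖x‖ < r
  · have h1 : wt (N := N) r D =ᶠ[𝓝 x] fun _ => (0 : ℝ) := by
      have h2 : ∀ᶠ y in 𝓝 x, ‖y‖ < r := (continuous_norm.tendsto x).eventually_lt_const hx
      filter_upwards [h2] with y hy
      exact wt_inner hr hy.le
    exact contDiffAt_const.congr_of_eventuallyEq h1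
  · push Not at hx
    have hx0 : x ≠ 0 := by
      rintro rfl
      rw [norm_zero] at hx
      linarith
    unfold wt
    exact (contDiffAt_norm ℝ hx0).mul
      ((contDiffAt_const.sub (contDiff_cut _).contDiffAt).mul (contDiff_cut _).contDiffAt)

theorem grad_zero_of_eventually {χ : Cfg N → ℝ} {x : Cfg N} {c : ℝ}
    (h : χ =ᶠ[𝓝 x] fun _ => c) : Ims714.grad χ x = 0 := by
  have h2 : HasFDerivAt χ (0 : Cfg N →L[ℝ] ℝ) x :=
    (hasFDerivAt_const c x).congr_of_eventuallyEq h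
  exact HIAnn245.grad_eq_of_hasFDerivAt (χ := χ) (x := x) (v := 0)
    (h2.congr_fderiv (by ext y; simp))

theorem grad_cut_far {L : ℝ} (hL : 0 < L) {x : Cfg N} (hx : L < ‖x‖) :
    Ims714.grad (cut L) x = 0 := by
  refine grad_zero_of_eventually (c := 0) ?_
  have h2 : ∀ᶠ y in 𝓝 x, L < ‖y‖ := (continuous_norm.tendsto x).eventually_const_lt hx
  filter_upwards [h2] with y hy
  exact cut_zero hL hy.le

theorem norm_mul_grad_cut {L : ℝ} (hL : 0 < L) {C : ℝ} (hC0 : 0 ≤ C)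
    (hC : ∀ t, |deriv Real.smoothTransition t| ≤ C) (x : Cfg N) :
    ‖x‖ * ‖Ims714.grad (cut L) x‖ ≤ 8 / 3 * C := by
  by_cases hx : L < ‖x‖
  · rw [grad_cut_far hL hx, norm_zero, mul_zero]
    positivity
  · push Not at hx
    calc ‖x‖ * ‖Ims714.grad (cut L) x‖ ≤ L * (8 / 3 * C / L) :=
          mul_le_mul hx (norm_grad_cut hL hC0 hC x) (norm_nonneg _) hL.le
      _ = 8 / 3 * C := by field_simp

theorem hasFDerivAt_grad {χ : Cfg N → ℝ} {x : Cfg N} (h : DifferentiableAt ℝ χ x) :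
    HasFDerivAt χ (innerSL ℝ (Ims714.grad χ x)) x := by
  have h2 : innerSL ℝ ((InnerProductSpace.toDual ℝ (Cfg N)).symm (fderiv ℝ χ x)) =
      fderiv ℝ χ x := by
    ext v
    simp
  have h3 : HasFDerivAt χ
      (innerSL ℝ ((InnerProductSpace.toDual ℝ (Cfg N)).symm (fderiv ℝ χ x))) x := by
    rw [h2]
    exact h.hasFDerivAt
  rw [HIAnn245.grad_eq_of_hasFDerivAt h3]
  exact h3

theorem grad_mul {f h : Cfg N → ℝ} {x : Cfg N} (hf : DifferentiableAt ℝ f x)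
    (hh : DifferentiableAt ℝ h x) : Ims714.grad (fun y => f y * h y) x =
      f x • Ims714.grad h x + h x • Ims714.grad f x := by
  refine HIAnn245.grad_eq_of_hasFDerivAt ?_
  refine ((hasFDerivAt_grad hf).mul (hasFDerivAt_grad hh)).congr_fderiv ?_
  ext y
  simp

theorem grad_one_sub {f : Cfg N → ℝ} {x : Cfg N} (hf : DifferentiableAt ℝ f x) :
    Ims714.grad (fun y => 1 - f y) x = -Ims714.grad f x := by
  refine HIAnn245.grad_eq_of_hasFDerivAt ?_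
  refine ((hasFDerivAt_grad hf).const_sub 1).congr_fderiv ?_
  ext y
  simp

theorem norm_grad_norm {x : Cfg N} (hx : x ≠ 0) :
    ‖Ims714.grad (fun y : Cfg N => ‖y‖) x‖ = 1 := by
  have h1 : HasFDerivAt (fun y : Cfg N => ‖y‖) (innerSL ℝ (‖x‖⁻¹ • x)) x := by
    have h2 : HasFDerivAt (fun y : Cfg N => ‖y‖ ^ 2) (2 • innerSL ℝ x) x :=
      (hasStrictFDerivAt_norm_sq x).hasFDerivAt
    have hx2 : ‖x‖ ^ 2 ≠ 0 := pow_ne_zero 2 (norm_ne_zero_iff.2 hx)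
    have h3 := h2.sqrt hx2
    refine (h3.congr_fderiv ?_).congr_of_eventuallyEq (Eventually.of_forall fun y => ?_)
    · ext y
      rw [Real.sqrt_sq (norm_nonneg _)]
      simp only [smul_apply, smul_eq_mul, nsmul_eq_mul, innerSL_apply_apply, inner_smul_left]
      simp
      field_simp
    · exact (Real.sqrt_sq (norm_nonneg _)).symm
  rw [HIAnn245.grad_eq_of_hasFDerivAt h1, norm_smul, norm_inv, norm_norm,
    inv_mul_cancel₀ (norm_ne_zero_iff.2 hx)]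

/-- uniform bound of the gradient -/
theorem norm_grad_wt_le {r D : ℝ} (hr : 0 < r) (hD : 0 < D) {C : ℝ} (hC0 : 0 ≤ C)
    (hC : ∀ t, |deriv Real.smoothTransition t| ≤ C) (x : Cfg N) :
    ‖Ims714.grad (wt r D) x‖ ≤ 1 + 16 / 3 * C := by
  by_cases hx : ‖x‖ < r
  · have h1 : wt (N := N) r D =ᶠ[𝓝 x] fun _ => (0 : ℝ) := by
      have h2 : ∀ᶠ y in 𝓝 x, ‖y‖ < r := (continuous_norm.tendsto x).eventually_lt_const hx
      filter_upwards [h2] with y hy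
      exact wt_inner hr hy.le
    rw [grad_zero_of_eventually h1, norm_zero]
    positivity
  · push Not at hx
    have hx0 : x ≠ 0 := by
      rintro rfl
      rw [norm_zero] at hx
      linarith
    have d1 : DifferentiableAt ℝ (cut (N := N) (2 * r)) x :=
      (contDiff_cut _).differentiable (by simp) x
    have d2 : DifferentiableAt ℝ (cut (N := N) (2 * D)) x :=
      (contDiff_cut _).differentiable (by simp) x
    have d1' : DifferentiableAt ℝ (fun y : Cfg N => 1 - cut (2 * r) y) x :=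
      (differentiableAt_const _).sub d1
    have d3 : DifferentiableAt ℝ (fun y : Cfg N => (1 - cut (2 * r) y) * cut (2 * D) y) x :=
      d1'.mul d2
    have d0 : DifferentiableAt ℝ (fun y : Cfg N => ‖y‖) x :=
      (contDiffAt_norm ℝ hx0 (n := 1)).differentiableAt one_ne_zero
    have e1 : Ims714.grad (wt r D) x =
        ‖x‖ • ((1 - cut (2 * r) x) • Ims714.grad (cut (2 * D)) x +
          cut (2 * D) x • -Ims714.grad (cut (2 * r)) x) +
        ((1 - cut (2 * r) x) * cut (2 * D) x) • Ims714.grad (fun y : Cfg N => ‖y‖) x := by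
      unfold wt
      rw [grad_mul d0 d3, grad_mul d1' d2, grad_one_sub d1]
    have hr2 : (0 : ℝ) < 2 * r := by linarith
    have hD2 : (0 : ℝ) < 2 * D := by linarith
    have b1 := norm_mul_grad_cut hD2 hC0 hC x
    have b2 := norm_mul_grad_cut hr2 hC0 hC x
    have c1 := cut_nonneg (2 * r) x
    have c2 := cut_le_one (2 * r) x
    have c3 := cut_nonneg (2 * D) x
    have c4 := cut_le_one (2 * D) x
    rw [e1]
    refine (norm_add_le _ _).trans ?_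
    have n1 : ‖((1 - cut (2 * r) x) * cut (2 * D) x) • Ims714.grad (fun y : Cfg N => ‖y‖) x‖ ≤ 1 := by
      rw [norm_smul, norm_grad_norm hx0, mul_one, Real.norm_of_nonneg (mul_nonneg (by linarith) c3)]
      nlinarith
    have n2 : ‖‖x‖ • ((1 - cut (2 * r) x) • Ims714.grad (cut (2 * D)) x +
          cut (2 * D) x • -Ims714.grad (cut (2 * r)) x)‖ ≤ 16 / 3 * C := by
      rw [norm_smul, norm_norm]
      have h1 : ‖(1 - cut (2 * r) x) • Ims714.grad (cut (2 * D)) x +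
          cut (2 * D) x • -Ims714.grad (cut (2 * r)) x‖ ≤
          ‖Ims714.grad (cut (2 * D)) x‖ + ‖Ims714.grad (cut (2 * r)) x‖ := by
        refine (norm_add_le _ _).trans (add_le_add ?_ ?_)
        · rw [norm_smul, Real.norm_of_nonneg (by linarith)]
          exact mul_le_of_le_one_left (norm_nonneg _) (by linarith)
        · rw [norm_smul, norm_neg, Real.norm_of_nonneg c3]
          exact mul_le_of_le_one_left (norm_nonneg _) c4
      calc ‖x‖ * ‖(1 - cut (2 * r) x) • Ims714.grad (cut (2 * D)) x +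
            cut (2 * D) x • -Ims714.grad (cut (2 * r)) x‖
          ≤ ‖x‖ * (‖Ims714.grad (cut (2 * D)) x‖ + ‖Ims714.grad (cut (2 * r)) x‖) :=
            mul_le_mul_of_nonneg_left h1 (norm_nonneg _)
        _ ≤ 16 / 3 * C := by
            rw [mul_add]
            linarith
    linarith

/-- pointwise bound of the gradient -/
theorem norm_grad_wt_sq {r D : ℝ} (hr : 0 < r) (hD : 0 < D) {C : ℝ} (hC0 : 0 ≤ C)
    (hC : ∀ t, |deriv Real.smoothTransition t| ≤ C) (x : Cfg N) :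
    ‖Ims714.grad (wt r D) x‖ ^ 2 ≤
      {y : Cfg N | 2 * r ≤ ‖y‖ ∧ ‖y‖ ≤ D}.indicator (fun _ => (1 : ℝ)) x +
      (1 + 16 / 3 * C) ^ 2 * ({y : Cfg N | ‖y‖ ≤ 2 * r}.indicator (fun _ => (1 : ℝ)) x +
        {y : Cfg N | D ≤ ‖y‖ ∧ ‖y‖ ≤ 2 * D}.indicator (fun _ => (1 : ℝ)) x) := by
  have i0 : ∀ s : Set (Cfg N), 0 ≤ s.indicator (fun _ => (1 : ℝ)) x := fun s =>
    Set.indicator_nonneg (fun _ _ => zero_le_one) x
  have hu := norm_grad_wt_le hr hD hC0 hC x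
  have hu2 : ‖Ims714.grad (wt r D) x‖ ^ 2 ≤ (1 + 16 / 3 * C) ^ 2 := by gcongr
  by_cases h1 : ‖x‖ ≤ 2 * r
  · have h2 := Set.indicator_of_mem (show x ∈ {y : Cfg N | ‖y‖ ≤ 2 * r} from h1)
      (fun _ => (1 : ℝ))
    rw [h2]
    have h3 := i0 {y : Cfg N | 2 * r ≤ ‖y‖ ∧ ‖y‖ ≤ D}
    have h4 := i0 {y : Cfg N | D ≤ ‖y‖ ∧ ‖y‖ ≤ 2 * D}
    have h5 : 0 ≤ (1 + 16 / 3 * C) ^ 2 *
        {y : Cfg N | D ≤ ‖y‖ ∧ ‖y‖ ≤ 2 * D}.indicator (fun _ => (1 : ℝ)) x :=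
      mul_nonneg (sq_nonneg _) h4
    rw [mul_add, mul_one]
    linarith
  · push Not at h1
    by_cases h2 : ‖x‖ < D
    · have h3 : wt (N := N) r D =ᶠ[𝓝 x] fun y => ‖y‖ := by
        have e1 : ∀ᶠ y in 𝓝 x, ‖y‖ < D := (continuous_norm.tendsto x).eventually_lt_const h2
        have e2 : ∀ᶠ y in 𝓝 x, 2 * r < ‖y‖ :=
          (continuous_norm.tendsto x).eventually_const_lt h1
        filter_upwards [e1, e2] with y h4 h5
        exact wt_mid hr hD h5.le h4.le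
      have hx0 : x ≠ 0 := by
        rintro rfl
        rw [norm_zero] at h1
        linarith
      have h4 : Ims714.grad (wt (N := N) r D) x = Ims714.grad (fun y : Cfg N => ‖y‖) x := by
        unfold Ims714.grad
        rw [h3.fderiv_eq]
      rw [h4, norm_grad_norm hx0, Set.indicator_of_mem
        (show x ∈ {y : Cfg N | 2 * r ≤ ‖y‖ ∧ ‖y‖ ≤ D} from ⟨h1.le, h2.le⟩)]
      have h5 := mul_nonneg (sq_nonneg (1 + 16 / 3 * C))
        (add_nonneg (i0 {y : Cfg N | ‖y‖ ≤ 2 * r}) (i0 {y : Cfg N | D ≤ ‖y‖ ∧ ‖y‖ ≤ 2 * D}))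
      rw [one_pow]
      linarith
    · push Not at h2
      by_cases h3 : ‖x‖ ≤ 2 * D
      · rw [Set.indicator_of_mem
          (show x ∈ {y : Cfg N | D ≤ ‖y‖ ∧ ‖y‖ ≤ 2 * D} from ⟨h2, h3⟩)]
        have h5 := i0 {y : Cfg N | 2 * r ≤ ‖y‖ ∧ ‖y‖ ≤ D}
        have h6 := mul_nonneg (sq_nonneg (1 + 16 / 3 * C)) (i0 {y : Cfg N | ‖y‖ ≤ 2 * r})
        rw [mul_add, mul_one]
        linarith
      · push Not at h3
        have h4 : wt (N := N) r D =ᶠ[𝓝 x] fun _ => (0 : ℝ) := by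
          have e2 : ∀ᶠ y in 𝓝 x, 2 * D < ‖y‖ :=
            (continuous_norm.tendsto x).eventually_const_lt h3
          filter_upwards [e2] with y hy
          exact wt_outer hD hy.le
        rw [grad_zero_of_eventually h4, norm_zero, zero_pow two_ne_zero]
        have h5 := i0 {y : Cfg N | 2 * r ≤ ‖y‖ ∧ ‖y‖ ≤ D}
        have h6 := mul_nonneg (sq_nonneg (1 + 16 / 3 * C))
          (add_nonneg (i0 {y : Cfg N | ‖y‖ ≤ 2 * r}) (i0 {y : Cfg N | D ≤ ‖y‖ ∧ ‖y‖ ≤ 2 * D}))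
        linarith

/-! ### Annuli -/

/-- The mass in an annulus. -/
def ann (f : Cfg N → F) (a B : ℝ) : ℝ := ∫ x in {x : Cfg N | a ≤ ‖x‖ ∧ ‖x‖ ≤ B}, ‖f x‖ ^ 2

theorem measurableSet_ann (a B : ℝ) : MeasurableSet {x : Cfg N | a ≤ ‖x‖ ∧ ‖x‖ ≤ B} :=
  (measurableSet_le measurable_const measurable_norm).inter
    (measurableSet_le measurable_norm measurable_const)

theorem ann_nonneg (f : Cfg N → F) (a B : ℝ) : 0 ≤ ann f a B :=
  integral_nonneg fun _ => sq_nonneg _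

theorem ann_Us {l : ℝ} (hl : 0 < l) (v : Cfg N → F) (a B : ℝ) :
    ann (Scale423.Us l v) a B = ann v (l * a) (l * B) := by
  unfold ann
  rw [← integral_indicator (measurableSet_ann a B), ← integral_indicator (measurableSet_ann _ _)]
  set h : Cfg N → ℝ := {y : Cfg N | l * a ≤ ‖y‖ ∧ ‖y‖ ≤ l * B}.indicator fun y => ‖v y‖ ^ 2 with hh
  have h1 : ∀ x, ({x : Cfg N | a ≤ ‖x‖ ∧ ‖x‖ ≤ B}.indicator
      fun x => ‖Scale423.Us l v x‖ ^ 2) x = Scale423.nrm N l ^ 2 * h (l • x) := by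
    intro x
    have hn : ‖l • x‖ = l * ‖x‖ := by rw [norm_smul, Real.norm_of_nonneg hl.le]
    by_cases hx : a ≤ ‖x‖ ∧ ‖x‖ ≤ B
    · rw [Set.indicator_of_mem (show x ∈ {x : Cfg N | a ≤ ‖x‖ ∧ ‖x‖ ≤ B} from hx), hh,
        Set.indicator_of_mem (show l • x ∈ {y : Cfg N | l * a ≤ ‖y‖ ∧ ‖y‖ ≤ l * B} from
          ⟨by rw [hn]; exact mul_le_mul_of_nonneg_left hx.1 hl.le,
            by rw [hn]; exact mul_le_mul_of_nonneg_left hx.2 hl.le⟩)]
      simp only [Scale423.Us, norm_smul, Complex.norm_real,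
        Real.norm_of_nonneg (Scale423.nrm_pos hl).le, mul_pow]
    · rw [Set.indicator_of_notMem (show x ∉ {x : Cfg N | a ≤ ‖x‖ ∧ ‖x‖ ≤ B} from hx), hh,
        Set.indicator_of_notMem (show l • x ∉ {y : Cfg N | l * a ≤ ‖y‖ ∧ ‖y‖ ≤ l * B} from
          fun h => hx ⟨by rw [Set.mem_setOf_eq, hn] at h; exact le_of_mul_le_mul_left h.1 hl,
            by rw [Set.mem_setOf_eq, hn] at h; exact le_of_mul_le_mul_left h.2 hl⟩), mul_zero]
  simp only [h1]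
  rw [integral_const_mul, Measure.integral_comp_smul volume h l, Scale423.nrm_sq hl,
    abs_of_pos (inv_pos.2 (pow_pos hl _)), smul_eq_mul, ← mul_assoc,
    mul_inv_cancel₀ (pow_pos hl _).ne', one_mul]

theorem ann_split {f : Cfg N → F} (hf : Integrable fun x => ‖f x‖ ^ 2) (a B ρ : ℝ) :
    ∫ x in Metric.ball (0 : Cfg N) ρ, ‖f x‖ ^ 2 ≤ ann f 0 a + ann f a B + ann f B ρ := by
  unfold ann
  rw [← integral_indicator Metric.isOpen_ball.measurableSet,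
    ← integral_indicator (measurableSet_ann _ _), ← integral_indicator (measurableSet_ann _ _),
    ← integral_indicator (measurableSet_ann _ _)]
  have hi : ∀ s : Set (Cfg N), MeasurableSet s → Integrable (s.indicator fun x => ‖f x‖ ^ 2) :=
    fun s hs => hf.indicator hs
  have i1 := hi _ (measurableSet_ann 0 a)
  have i2 := hi _ (measurableSet_ann a B)
  have i3 := hi _ (measurableSet_ann B ρ)
  have i12 : Integrable fun x => {x : Cfg N | 0 ≤ ‖x‖ ∧ ‖x‖ ≤ a}.indicator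
      (fun x => ‖f x‖ ^ 2) x + {x : Cfg N | a ≤ ‖x‖ ∧ ‖x‖ ≤ B}.indicator
      (fun x => ‖f x‖ ^ 2) x := i1.add i2
  rw [← integral_add i1 i2, ← integral_add i12 i3]
  refine integral_mono (hi _ Metric.isOpen_ball.measurableSet) (i12.add i3) fun x => ?_
  have h0 : ∀ s : Set (Cfg N), 0 ≤ s.indicator (fun x => ‖f x‖ ^ 2) x := fun s =>
    Set.indicator_nonneg (fun _ _ => sq_nonneg _) x
  simp only [Pi.add_apply]
  by_cases hx : x ∈ Metric.ball (0 : Cfg N) ρ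
  · rw [Set.indicator_of_mem hx]
    have hx' : ‖x‖ < ρ := by simpa using hx
    by_cases h1 : ‖x‖ ≤ a
    · rw [Set.indicator_of_mem (show x ∈ {x : Cfg N | 0 ≤ ‖x‖ ∧ ‖x‖ ≤ a} from
        ⟨norm_nonneg _, h1⟩)]
      have := h0 {x : Cfg N | a ≤ ‖x‖ ∧ ‖x‖ ≤ B}
      have := h0 {x : Cfg N | B ≤ ‖x‖ ∧ ‖x‖ ≤ ρ}
      linarith
    · push Not at h1
      by_cases h2 : ‖x‖ ≤ B
      · rw [Set.indicator_of_mem (show x ∈ {x : Cfg N | a ≤ ‖x‖ ∧ ‖x‖ ≤ B} from ⟨h1.le, h2⟩)]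
        have := h0 {x : Cfg N | 0 ≤ ‖x‖ ∧ ‖x‖ ≤ a}
        have := h0 {x : Cfg N | B ≤ ‖x‖ ∧ ‖x‖ ≤ ρ}
        linarith
      · push Not at h2
        rw [Set.indicator_of_mem (show x ∈ {x : Cfg N | B ≤ ‖x‖ ∧ ‖x‖ ≤ ρ} from
          ⟨h2.le, hx'.le⟩)]
        have := h0 {x : Cfg N | 0 ≤ ‖x‖ ∧ ‖x‖ ≤ a}
        have := h0 {x : Cfg N | a ≤ ‖x‖ ∧ ‖x‖ ≤ B}
        linarith
  · rw [Set.indicator_of_notMem hx]
    have := h0 {x : Cfg N | 0 ≤ ‖x‖ ∧ ‖x‖ ≤ a}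
    have := h0 {x : Cfg N | a ≤ ‖x‖ ∧ ‖x‖ ≤ B}
    have := h0 {x : Cfg N | B ≤ ‖x‖ ∧ ‖x‖ ≤ ρ}
    linarith

/-! ### The Hardy estimate of the intermediate zone -/

theorem sq_norm_add_le (a c : F) {t : ℝ} (ht : 0 < t) :
    ‖a + c‖ ^ 2 ≤ (1 + 1 / t) * ‖a‖ ^ 2 + (1 + t) * ‖c‖ ^ 2 := by
  have h1 := norm_add_le a c
  have h3 : 2 * ‖a‖ * ‖c‖ ≤ 1 / t * ‖a‖ ^ 2 + t * ‖c‖ ^ 2 := by
    have h4 : 0 ≤ (t * ‖c‖ - ‖a‖) ^ 2 / t := by positivity
    have h5 : (t * ‖c‖ - ‖a‖) ^ 2 / t = t * ‖c‖ ^ 2 - 2 * ‖a‖ * ‖c‖ + 1 / t * ‖a‖ ^ 2 := by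
      field_simp
      ring
    linarith
  calc ‖a + c‖ ^ 2 ≤ (‖a‖ + ‖c‖) ^ 2 := by gcongr
    _ = ‖a‖ ^ 2 + 2 * ‖a‖ * ‖c‖ + ‖c‖ ^ 2 := by ring
    _ ≤ _ := by linarith

theorem hardy_zone {κ : ℝ} (hH : HIAnn245.HI b M R G κ) (hκ : 1 / 2 < κ) :
    ∃ ρ c0 K : ℝ, 0 < ρ ∧ 0 < c0 ∧ 0 ≤ K ∧ ∀ v : Cfg N → F, IsCoreVec b R v →
      ∀ m r D : ℝ, 0 ≤ m → ρ ≤ r → 0 < D →
      c0 * ann v (2 * r) D ≤ K * (ann v 0 (2 * r) + ann v D (2 * D)) +
        K * (D ^ 2 * qf b M G 1 m v + (m * D ^ 2) ^ 2 * ∫ x, ‖v x‖ ^ 2) := by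
  obtain ⟨ρ, hρ, hHI⟩ := hH
  obtain ⟨CM, hCM0, hCM⟩ := exists_mass_bound M G
  obtain ⟨C, hC0, hC⟩ := HIAnn245.exists_sT_bound
  set t : ℝ := κ - 1 / 2 with ht
  have ht0 : 0 < t := by linarith
  set C2 : ℝ := 1 + 16 / 3 * C with hC2
  refine ⟨ρ, κ - (1 + t) / 2, (1 + t) / 2 * C2 ^ 2 + (1 + 1 / t) * (8 + 32 * CM ^ 2), hρ,
    by rw [ht]; linarith, by positivity, fun v hv m r D hm hr hD => ?_⟩
  have hr0 : 0 < r := hρ.trans_le hr
  set u : Cfg N → F := fun y => wt r D y • v y with hu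
  have huc : IsCoreVec b R u := Ims714.isCoreVec_mul (contDiff_wt hr0 D) (wt_act b r D) hv
  have h1 := hHI u huc (fun x hx => by
    show wt r D x • v x = 0
    rw [wt_inner hr0 (hx.le.trans hr), zero_smul])
  have hIv := int_sq hv
  have i1 : Integrable ({x : Cfg N | 2 * r ≤ ‖x‖ ∧ ‖x‖ ≤ D}.indicator fun x => ‖v x‖ ^ 2) :=
    hIv.indicator (measurableSet_ann _ _)
  have i2 : Integrable ({x : Cfg N | 0 ≤ ‖x‖ ∧ ‖x‖ ≤ 2 * r}.indicator fun x => ‖v x‖ ^ 2) :=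
    hIv.indicator (measurableSet_ann _ _)
  have i3 : Integrable ({x : Cfg N | D ≤ ‖x‖ ∧ ‖x‖ ≤ 2 * D}.indicator fun x => ‖v x‖ ^ 2) :=
    hIv.indicator (measurableSet_ann _ _)
  have j1 : ann v (2 * r) D =
      ∫ x, {x : Cfg N | 2 * r ≤ ‖x‖ ∧ ‖x‖ ≤ D}.indicator (fun x => ‖v x‖ ^ 2) x := by
    rw [integral_indicator (measurableSet_ann _ _)]
    rfl
  have j2 : ann v 0 (2 * r) =
      ∫ x, {x : Cfg N | 0 ≤ ‖x‖ ∧ ‖x‖ ≤ 2 * r}.indicator (fun x => ‖v x‖ ^ 2) x := by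
    rw [integral_indicator (measurableSet_ann _ _)]
    rfl
  have j3 : ann v D (2 * D) =
      ∫ x, {x : Cfg N | D ≤ ‖x‖ ∧ ‖x‖ ≤ 2 * D}.indicator (fun x => ‖v x‖ ^ 2) x := by
    rw [integral_indicator (measurableSet_ann _ _)]
    rfl
  -- lower bound of the Hardy term
  have h2 : ann v (2 * r) D ≤ ∫ x, ‖u x‖ ^ 2 / ‖x‖ ^ 2 := by
    have hle : ∀ x, ‖u x‖ ^ 2 / ‖x‖ ^ 2 ≤ ‖v x‖ ^ 2 := by
      intro x
      by_cases hx : ‖x‖ = 0
      · rw [hx]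
        simp
      · rw [div_le_iff₀ (by positivity)]
        have e1 : ‖u x‖ = wt r D x * ‖v x‖ := by
          show ‖wt r D x • v x‖ = _
          rw [norm_smul, Real.norm_of_nonneg (wt_nonneg r D x)]
        rw [e1, mul_pow, mul_comm]
        have := wt_le_norm r D x
        have := wt_nonneg r D x
        gcongr
    have hmeas : AEStronglyMeasurable (fun x => ‖u x‖ ^ 2 / ‖x‖ ^ 2) volume :=
      ((huc.1.continuous.norm.pow 2).measurable.div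
        (continuous_norm.pow 2).measurable).aestronglyMeasurable
    have hint : Integrable fun x => ‖u x‖ ^ 2 / ‖x‖ ^ 2 := by
      refine hIv.mono' hmeas (Eventually.of_forall fun x => ?_)
      rw [Real.norm_of_nonneg (by positivity)]
      exact hle x
    rw [j1]
    refine integral_mono i1 hint fun x => ?_
    by_cases hx : x ∈ {x : Cfg N | 2 * r ≤ ‖x‖ ∧ ‖x‖ ≤ D}
    · simp only
      rw [Set.indicator_of_mem hx]
      have hx0 : 0 < ‖x‖ := lt_of_lt_of_le (by linarith) hx.1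
      have e1 : ‖u x‖ = ‖x‖ * ‖v x‖ := by
        show ‖wt r D x • v x‖ = _
        rw [norm_smul, Real.norm_of_nonneg (wt_nonneg r D x), wt_mid hr0 hD hx.1 hx.2]
      rw [e1, mul_pow, mul_div_cancel_left₀ _ (by positivity)]
    · simp only
      rw [Set.indicator_of_notMem hx]
      positivity
  -- upper bound of the energy
  have h3 : ∀ α : Fin 16, ∫ x, ‖dcharge b M G 1 0 α u x‖ ^ 2 ≤
      (1 + t) / 2 * (ann v (2 * r) D + C2 ^ 2 * (ann v 0 (2 * r) + ann v D (2 * D))) +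
      (1 + 1 / t) * (8 * D ^ 2 * (∫ x, ‖dcharge b M G 1 m α v x‖ ^ 2) +
        32 * CM ^ 2 * (m * D ^ 2) ^ 2 * ∫ x, ‖v x‖ ^ 2) := by
    intro α
    have k1 := int_sq_dcharge G 1 m α hv
    have hrhs : (1 + t) / 2 * (ann v (2 * r) D + C2 ^ 2 * (ann v 0 (2 * r) + ann v D (2 * D))) +
        (1 + 1 / t) * (8 * D ^ 2 * (∫ x, ‖dcharge b M G 1 m α v x‖ ^ 2) +
        32 * CM ^ 2 * (m * D ^ 2) ^ 2 * ∫ x, ‖v x‖ ^ 2) =
        ∫ x, ((1 + t) / 2 *
          ({x : Cfg N | 2 * r ≤ ‖x‖ ∧ ‖x‖ ≤ D}.indicator (fun x => ‖v x‖ ^ 2) x +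
            C2 ^ 2 * ({x : Cfg N | 0 ≤ ‖x‖ ∧ ‖x‖ ≤ 2 * r}.indicator (fun x => ‖v x‖ ^ 2) x +
              {x : Cfg N | D ≤ ‖x‖ ∧ ‖x‖ ≤ 2 * D}.indicator (fun x => ‖v x‖ ^ 2) x)) +
          (1 + 1 / t) * (8 * D ^ 2 * ‖dcharge b M G 1 m α v x‖ ^ 2 +
            32 * CM ^ 2 * (m * D ^ 2) ^ 2 * ‖v x‖ ^ 2)) := by
      have k12 : Integrable fun x =>
          {x : Cfg N | 0 ≤ ‖x‖ ∧ ‖x‖ ≤ 2 * r}.indicator (fun x => ‖v x‖ ^ 2) x +
            {x : Cfg N | D ≤ ‖x‖ ∧ ‖x‖ ≤ 2 * D}.indicator (fun x => ‖v x‖ ^ 2) x := i2.add i3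
      have k13 : Integrable fun x => C2 ^ 2 *
          ({x : Cfg N | 0 ≤ ‖x‖ ∧ ‖x‖ ≤ 2 * r}.indicator (fun x => ‖v x‖ ^ 2) x +
            {x : Cfg N | D ≤ ‖x‖ ∧ ‖x‖ ≤ 2 * D}.indicator (fun x => ‖v x‖ ^ 2) x) :=
        k12.const_mul _
      have k14 : Integrable fun x =>
          {x : Cfg N | 2 * r ≤ ‖x‖ ∧ ‖x‖ ≤ D}.indicator (fun x => ‖v x‖ ^ 2) x + C2 ^ 2 *
          ({x : Cfg N | 0 ≤ ‖x‖ ∧ ‖x‖ ≤ 2 * r}.indicator (fun x => ‖v x‖ ^ 2) x +
            {x : Cfg N | D ≤ ‖x‖ ∧ ‖x‖ ≤ 2 * D}.indicator (fun x => ‖v x‖ ^ 2) x) := i1.add k13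
      have k21 : Integrable fun x => 8 * D ^ 2 * ‖dcharge b M G 1 m α v x‖ ^ 2 :=
        k1.const_mul _
      have k22 : Integrable fun x => 32 * CM ^ 2 * (m * D ^ 2) ^ 2 * ‖v x‖ ^ 2 :=
        hIv.const_mul _
      have k23 : Integrable fun x => 8 * D ^ 2 * ‖dcharge b M G 1 m α v x‖ ^ 2 +
          32 * CM ^ 2 * (m * D ^ 2) ^ 2 * ‖v x‖ ^ 2 := k21.add k22
      rw [integral_add (k14.const_mul _) (k23.const_mul _),
        integral_const_mul, integral_const_mul, integral_add i1 k13,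
        integral_const_mul, integral_add i2 i3, integral_add k21 k22,
        integral_const_mul, integral_const_mul, j1, j2, j3]
    rw [hrhs]
    refine integral_mono (int_sq_dcharge G 1 0 α huc)
      ((((i1.add ((i2.add i3).const_mul _))).const_mul _).add
        (((k1.const_mul _).add (hIv.const_mul _)).const_mul _)) fun x => ?_
    have hwd : DifferentiableAt ℝ (wt (N := N) r D) x :=
      (contDiff_wt hr0 D).differentiable (by simp) x
    have e1 : dcharge b M G 1 0 α u x =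
        (wt r D x • dcharge b M G 1 m α v x + wt r D x • ((m : ℂ) • massT M G α x (v x))) +
          Ims714.kin G M α (Ims714.grad (wt r D) x) (v x) := by
      rw [hu, dop_zero G M b α hwd (cv_diff hv x), dcharge_sub_mass b M G 1 m α v x, smul_sub]
      abel
    have n0 := wt_nonneg r D x
    have n1 : ‖wt r D x • dcharge b M G 1 m α v x‖ ^ 2 ≤
        4 * D ^ 2 * ‖dcharge b M G 1 m α v x‖ ^ 2 := by
      rw [norm_smul, Real.norm_of_nonneg n0, mul_pow]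
      have h5 := wt_le r hD x
      have h6 : wt r D x ^ 2 ≤ (2 * D) ^ 2 := by gcongr
      have h7 : (2 * D) ^ 2 = 4 * D ^ 2 := by ring
      rw [h7] at h6
      exact mul_le_mul_of_nonneg_right h6 (sq_nonneg _)
    have n2 : ‖wt r D x • ((m : ℂ) • massT M G α x (v x))‖ ^ 2 ≤
        16 * CM ^ 2 * (m * D ^ 2) ^ 2 * ‖v x‖ ^ 2 := by
      have h5 : ‖wt r D x • ((m : ℂ) • massT M G α x (v x))‖ ≤
          (4 * CM * (m * D ^ 2)) * ‖v x‖ := by
        rw [norm_smul, Real.norm_of_nonneg n0, norm_smul, Complex.norm_real,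
          Real.norm_of_nonneg hm]
        have h6 := hCM α x (v x)
        have h7 := wt_mul_le r hD x
        calc wt r D x * (m * ‖massT M G α x (v x)‖)
            ≤ wt r D x * (m * (CM * ‖x‖ * ‖v x‖)) := by gcongr
          _ = m * CM * ‖v x‖ * (wt r D x * ‖x‖) := by ring
          _ ≤ m * CM * ‖v x‖ * (4 * D ^ 2) := by gcongr
          _ = _ := by ring
      calc ‖wt r D x • ((m : ℂ) • massT M G α x (v x))‖ ^ 2
          ≤ ((4 * CM * (m * D ^ 2)) * ‖v x‖) ^ 2 := by gcongr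
        _ = _ := by ring
    have n3 : ‖Ims714.kin G M α (Ims714.grad (wt r D) x) (v x)‖ ^ 2 ≤
        1 / 2 * ({x : Cfg N | 2 * r ≤ ‖x‖ ∧ ‖x‖ ≤ D}.indicator (fun x => ‖v x‖ ^ 2) x +
            C2 ^ 2 * ({x : Cfg N | 0 ≤ ‖x‖ ∧ ‖x‖ ≤ 2 * r}.indicator (fun x => ‖v x‖ ^ 2) x +
              {x : Cfg N | D ≤ ‖x‖ ∧ ‖x‖ ≤ 2 * D}.indicator (fun x => ‖v x‖ ^ 2) x)) := by
      rw [Ims714.norm_kin_sq]
      have h5 := norm_grad_wt_sq hr0 hD hC0.le hC x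
      have h6 := mul_le_mul_of_nonneg_right h5 (sq_nonneg ‖v x‖)
      have h7 : ∀ s : Set (Cfg N), s.indicator (fun _ => (1 : ℝ)) x * ‖v x‖ ^ 2 =
          s.indicator (fun x => ‖v x‖ ^ 2) x := by
        intro s
        by_cases hx : x ∈ s
        · rw [Set.indicator_of_mem hx, Set.indicator_of_mem hx, one_mul]
        · rw [Set.indicator_of_notMem hx, Set.indicator_of_notMem hx, zero_mul]
      have h8 : {y : Cfg N | ‖y‖ ≤ 2 * r} = {x : Cfg N | 0 ≤ ‖x‖ ∧ ‖x‖ ≤ 2 * r} := by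
        ext y
        simp
      rw [add_mul, mul_assoc, add_mul, h7, h7, h7, h8] at h6
      rw [mul_assoc]
      exact mul_le_mul_of_nonneg_left h6 (by norm_num)
    have n4 : ‖wt r D x • dcharge b M G 1 m α v x +
        wt r D x • ((m : ℂ) • massT M G α x (v x))‖ ^ 2 ≤
        8 * D ^ 2 * ‖dcharge b M G 1 m α v x‖ ^ 2 +
            32 * CM ^ 2 * (m * D ^ 2) ^ 2 * ‖v x‖ ^ 2 := by
      have h5 := sq_norm_add_le (wt r D x • dcharge b M G 1 m α v x)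
        (wt r D x • ((m : ℂ) • massT M G α x (v x))) one_pos
      linarith
    simp only
    rw [e1]
    refine (sq_norm_add_le _ _ ht0).trans ?_
    have h5 : (1 + t) * ‖Ims714.kin G M α (Ims714.grad (wt r D) x) (v x)‖ ^ 2 ≤
        (1 + t) * (1 / 2 * ({x : Cfg N | 2 * r ≤ ‖x‖ ∧ ‖x‖ ≤ D}.indicator
          (fun x => ‖v x‖ ^ 2) x +
            C2 ^ 2 * ({x : Cfg N | 0 ≤ ‖x‖ ∧ ‖x‖ ≤ 2 * r}.indicator (fun x => ‖v x‖ ^ 2) x +
              {x : Cfg N | D ≤ ‖x‖ ∧ ‖x‖ ≤ 2 * D}.indicator (fun x => ‖v x‖ ^ 2) x))) :=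
      mul_le_mul_of_nonneg_left n3 (by positivity)
    have h6 := mul_le_mul_of_nonneg_left n4 (by positivity : (0 : ℝ) ≤ 1 + 1 / t)
    linarith
  have h4 : qf b M G 1 0 u ≤
      (1 + t) / 2 * (ann v (2 * r) D + C2 ^ 2 * (ann v 0 (2 * r) + ann v D (2 * D))) +
      (1 + 1 / t) * (8 * D ^ 2 * qf b M G 1 m v +
        32 * CM ^ 2 * (m * D ^ 2) ^ 2 * ∫ x, ‖v x‖ ^ 2) := by
    unfold qf
    calc (1 / 16 : ℝ) * ∑ α : Fin 16, ∫ x, ‖dcharge b M G 1 0 α u x‖ ^ 2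
        ≤ (1 / 16 : ℝ) * ∑ α : Fin 16, ((1 + t) / 2 * (ann v (2 * r) D +
          C2 ^ 2 * (ann v 0 (2 * r) + ann v D (2 * D))) +
          (1 + 1 / t) * (8 * D ^ 2 * (∫ x, ‖dcharge b M G 1 m α v x‖ ^ 2) +
          32 * CM ^ 2 * (m * D ^ 2) ^ 2 * ∫ x, ‖v x‖ ^ 2)) :=
          mul_le_mul_of_nonneg_left (Finset.sum_le_sum fun α _ => h3 α) (by norm_num)
      _ = _ := by
          have hsum : ∀ (A c E : ℝ) (X : Fin 16 → ℝ), (1 / 16 : ℝ) * ∑ α : Fin 16,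
              (A + c * (8 * D ^ 2 * X α + E)) =
              A + c * (8 * D ^ 2 * (1 / 16 * ∑ α, X α) + E) := by
            intro A c E X
            rw [Finset.sum_add_distrib, ← Finset.mul_sum, Finset.sum_add_distrib,
              ← Finset.mul_sum]
            simp only [Finset.sum_const, Finset.card_univ, Fintype.card_fin, nsmul_eq_mul]
            push_cast
            ring
          exact hsum _ _ _ _
  have h5 : κ * ann v (2 * r) D ≤ κ * ∫ x, ‖u x‖ ^ 2 / ‖x‖ ^ 2 :=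
    mul_le_mul_of_nonneg_left h2 (by linarith)
  have h6 := (h5.trans h1).trans h4
  have a1 := ann_nonneg v (2 * r) D
  have a2 := ann_nonneg v 0 (2 * r)
  have a3 := ann_nonneg v D (2 * D)
  have q0 := qf_nonneg' b M G 1 m v
  have v0 : 0 ≤ ∫ x, ‖v x‖ ^ 2 := integral_nonneg fun _ => sq_nonneg _
  set I0 := ann v 0 (2 * r) + ann v D (2 * D) with hI0
  set QQ := D ^ 2 * qf b M G 1 m v with hQQ
  set VV := (m * D ^ 2) ^ 2 * ∫ x, ‖v x‖ ^ 2 with hVV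
  have hI0' : 0 ≤ I0 := add_nonneg a2 a3
  have hQQ' : 0 ≤ QQ := by positivity
  have hVV' : 0 ≤ VV := by positivity
  have ht1 : 0 < 1 / t := by positivity
  have g1 : 0 ≤ (1 + 1 / t) * (8 + 32 * CM ^ 2) * I0 := by positivity
  have g2 : 0 ≤ (1 + t) / 2 * C2 ^ 2 * (QQ + VV) := by positivity
  have g3 : 0 ≤ (1 + 1 / t) * (32 * CM ^ 2 * QQ + 8 * VV) := by positivity
  have h7 : 8 * D ^ 2 * qf b M G 1 m v + 32 * CM ^ 2 * (m * D ^ 2) ^ 2 * ∫ x, ‖v x‖ ^ 2 =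
      8 * QQ + 32 * CM ^ 2 * VV := by rw [hQQ, hVV]; ring
  rw [h7] at h6
  nlinarith [h6, g1, g2, g3]

/-! ### The capture property on balls -/

open Crest.Agent.R330.TrialSys796 Crest.Agent.R330.Scale423 Crest.Agent.R330.ScaleD423

theorem capBall_aux {X : Type*} {T : ℝ → X → Cfg N → F} {κ : ℝ}
    (hA : Chan441.CapAnn b M R G 1 T) (hH : HIAnn245.HI b M R G κ) (hκ : 1 / 2 < κ)
    {g : ℕ → ℝ} {φ : ℕ → Cfg N → F} {C : ℝ} (hg : Tendsto g atTop atTop) (hg1 : ∀ j, 1 ≤ g j)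
    (hφ : ∀ j, IsCoreVec b R (φ j)) (hE : ∀ j, En b M G (g j) 1 (φ j) ≤ C)
    (hT : ∀ χ, Tendsto (fun j => ∫ x, ⟪T (g j) χ x, φ j x⟫_ℂ) atTop (𝓝 0))
    (hz : ∀ ψ ∈ zset b M R G 1 0,
      Tendsto (fun j => ∫ x, ⟪Us (g j ^ ((1 : ℝ) / 3)) ψ x, φ j x⟫_ℂ) atTop (𝓝 0)) (ρ₀ : ℝ) :
    Tendsto (fun j => ∫ x in Metric.ball (0 : Cfg N) ρ₀, ‖φ j x‖ ^ 2) atTop (𝓝 0) := by
  have hEn : ∀ j, (∫ x, ‖φ j x‖ ^ 2) + qf b M G (g j) 1 (φ j) ≤ C := hE
  have hq0 : ∀ j, 0 ≤ qf b M G (g j) 1 (φ j) := fun j => qf_nonneg' b M G _ _ _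
  have hn0 : ∀ j, 0 ≤ ∫ x, ‖φ j x‖ ^ 2 := fun j => integral_nonneg fun _ => sq_nonneg _
  have hC0 : 0 ≤ C := by linarith [hEn 0, hq0 0, hn0 0]
  set l : ℕ → ℝ := fun j => g j ^ ((1 : ℝ) / 3) with hl
  have hl1 : ∀ j, 1 ≤ l j := fun j => Real.one_le_rpow (hg1 j) (by norm_num)
  have hl0 : ∀ j, 0 < l j := fun j => zero_lt_one.trans_le (hl1 j)
  have hl3 : ∀ j, l j ^ 3 = g j := fun j => cbrt_pow (zero_lt_one.trans_le (hg1 j))
  have hlt : Tendsto l atTop atTop := (tendsto_rpow_atTop (by norm_num)).comp hg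
  set v : ℕ → Cfg N → F := fun j => Us (l j)⁻¹ (φ j) with hv
  have hvc : ∀ j, IsCoreVec b R (v j) := fun j => core_Us (inv_pos.2 (hl0 j)) (hφ j)
  set m : ℕ → ℝ := fun j => (l j)⁻¹ ^ 2 with hm
  have hm0 : ∀ j, 0 ≤ m j := fun j => sq_nonneg _
  have hm1 : ∀ j, m j ≤ 1 := fun j => by
    have h1 : (l j)⁻¹ ≤ 1 := inv_le_one_of_one_le₀ (hl1 j)
    have h2 : 0 ≤ (l j)⁻¹ := (inv_pos.2 (hl0 j)).le
    exact pow_le_one₀ h2 h1
  have hmt : Tendsto m atTop (𝓝 0) := by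
    have h1 : Tendsto (fun j => (l j)⁻¹ ^ 2) atTop (𝓝 (0 ^ 2)) :=
      (tendsto_inv_atTop_zero.comp hlt).pow 2
    rw [zero_pow two_ne_zero] at h1
    exact h1
  have hqv : ∀ j, qf b M G 1 (m j) (v j) = m j * qf b M G (g j) 1 (φ j) := by
    intro j
    have h0 : (l j)⁻¹ ≠ 0 := (inv_pos.2 (hl0 j)).ne'
    rw [hv]
    simp only
    rw [qf_Us b M G 1 (m j) (inv_pos.2 (hl0 j)) (cv_diff (hφ j))]
    have h1 : (1 : ℝ) / (l j)⁻¹ ^ 3 = g j := by
      rw [inv_pow, one_div, inv_inv, hl3]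
    have h2 : m j / (l j)⁻¹ ^ 2 = 1 := by
      rw [hm]
      exact div_self (pow_ne_zero 2 h0)
    rw [h1, h2]
  have hqv_le : ∀ j, qf b M G 1 (m j) (v j) ≤ m j * C := fun j => by
    rw [hqv j]
    exact mul_le_mul_of_nonneg_left (by linarith [hEn j, hn0 j]) (hm0 j)
  have hqt : Tendsto (fun j => qf b M G 1 (m j) (v j)) atTop (𝓝 0) := by
    refine squeeze_zero (fun j => qf_nonneg' b M G _ _ _) hqv_le ?_
    simpa using hmt.mul_const C
  have hvn : ∀ j, ∫ x, ‖v j x‖ ^ 2 = ∫ x, ‖φ j x‖ ^ 2 := fun j =>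
    integral_norm_sq_Us (inv_pos.2 (hl0 j)) _
  have hvC : ∀ j, ∫ x, ‖v j x‖ ^ 2 ≤ C := fun j => by
    rw [hvn j]
    linarith [hEn j, hq0 j]
  have hφv : ∀ j, φ j = Us (l j) (v j) := fun j => (Us_inv_right (hl0 j) _).symm
  have ho : ∀ ψ ∈ zset b M R G 1 0, Tendsto (fun j => ∫ x, ⟪ψ x, v j x⟫_ℂ) atTop (𝓝 0) := by
    intro ψ hψ
    refine (hz ψ hψ).congr fun j => ?_
    have h1 := integral_inner_Us (hl0 j) ψ (v j)
    rw [← hφv j] at h1
    exact h1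
  have hloc : ∀ r : ℝ, Tendsto (fun j => ann (v j) 0 r) atTop (𝓝 0) := by
    intro r
    refine (local_zero hvc hm0 hm1 hmt hvC hqt ho r).congr fun j => ?_
    unfold ann
    congr 2
    ext x
    simp
  obtain ⟨ρ, c0, K, hρ, hc0, hK, hzone⟩ := hardy_zone (R := R) hH hκ
  have hannφ : ∀ j a B, ann (φ j) a B = ann (v j) (l j * a) (l j * B) := fun j a B => by
    conv_lhs => rw [hφv j]
    exact ann_Us (hl0 j) _ a B
  have hcap : ∀ r B : ℝ, 0 < r → Tendsto (fun j => ann (φ j) r B) atTop (𝓝 0) :=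
    fun r B hr => hA g φ C hg hφ hE hT r B hr
  -- the epsilon argument
  rw [Metric.tendsto_nhds]
  intro ε hε
  obtain ⟨δ, hδ0, hδ⟩ : ∃ δ : ℝ, 0 < δ ∧ K / c0 * ((δ ^ 2 + δ ^ 4) * C) < ε := by
    have h1 : Tendsto (fun δ : ℝ => K / c0 * ((δ ^ 2 + δ ^ 4) * C)) (𝓝[>] 0)
        (𝓝 (K / c0 * ((0 ^ 2 + 0 ^ 4) * C))) := by
      refine Tendsto.mono_left ?_ nhdsWithin_le_nhds
      exact Continuous.tendsto (by fun_prop) 0
    have h2 : K / c0 * (((0 : ℝ) ^ 2 + 0 ^ 4) * C) < ε := by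
      norm_num
      exact hε
    obtain ⟨δ, h3, h4⟩ := ((h1.eventually (gt_mem_nhds h2)).and self_mem_nhdsWithin).exists
    exact ⟨δ, h4, h3⟩
  -- the bound for every j
  have hbd : ∀ j, ∫ x in Metric.ball (0 : Cfg N) ρ₀, ‖φ j x‖ ^ 2 ≤
      ann (v j) 0 (2 * ρ) + (K / c0 * (ann (v j) 0 (2 * ρ) + ann (φ j) δ (2 * δ)) +
        K / c0 * ((δ ^ 2 + δ ^ 4) * C)) + ann (φ j) δ ρ₀ := by
    intro j
    have h1 := ann_split (f := φ j) (int_sq (hφ j)) (2 * ρ / l j) δ ρ₀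
    have e1 : ann (φ j) 0 (2 * ρ / l j) = ann (v j) 0 (2 * ρ) := by
      rw [hannφ, mul_zero, mul_div_cancel₀ _ (hl0 j).ne']
    have e2 : ann (φ j) (2 * ρ / l j) δ = ann (v j) (2 * ρ) (l j * δ) := by
      rw [hannφ, mul_div_cancel₀ _ (hl0 j).ne']
    have e3 : ann (v j) (l j * δ) (2 * (l j * δ)) = ann (φ j) δ (2 * δ) := by
      rw [hannφ]
      congr 1
      ring
    rw [e1, e2] at h1
    have h2 := hzone (v j) (hvc j) (m j) ρ (l j * δ) (hm0 j) le_rfl (mul_pos (hl0 j) hδ0)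
    rw [e3] at h2
    have hml : m j * l j ^ 2 = 1 := by
      rw [hm]
      simp only
      rw [← mul_pow, inv_mul_cancel₀ (hl0 j).ne', one_pow]
    have h3 : (l j * δ) ^ 2 * qf b M G 1 (m j) (v j) ≤ δ ^ 2 * C := by
      calc (l j * δ) ^ 2 * qf b M G 1 (m j) (v j) ≤ (l j * δ) ^ 2 * (m j * C) :=
            mul_le_mul_of_nonneg_left (hqv_le j) (sq_nonneg _)
        _ = (m j * l j ^ 2) * (δ ^ 2 * C) := by ring
        _ = δ ^ 2 * C := by rw [hml, one_mul]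
    have h4 : (m j * (l j * δ) ^ 2) ^ 2 * ∫ x, ‖v j x‖ ^ 2 ≤ δ ^ 4 * C := by
      have h5 : m j * (l j * δ) ^ 2 = δ ^ 2 := by
        calc m j * (l j * δ) ^ 2 = (m j * l j ^ 2) * δ ^ 2 := by ring
          _ = δ ^ 2 := by rw [hml, one_mul]
      rw [h5, ← pow_mul]
      exact mul_le_mul_of_nonneg_left (hvC j) (by positivity)
    have h5 : c0 * ann (v j) (2 * ρ) (l j * δ) ≤
        K * (ann (v j) 0 (2 * ρ) + ann (φ j) δ (2 * δ)) + K * ((δ ^ 2 + δ ^ 4) * C) := by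
      refine h2.trans (add_le_add le_rfl (mul_le_mul_of_nonneg_left ?_ hK))
      linarith
    have h6 : ann (v j) (2 * ρ) (l j * δ) ≤
        K / c0 * (ann (v j) 0 (2 * ρ) + ann (φ j) δ (2 * δ)) +
          K / c0 * ((δ ^ 2 + δ ^ 4) * C) := by
      rw [← mul_add, div_mul_eq_mul_div, le_div_iff₀ hc0, mul_comm]
      rw [mul_add]
      exact h5
    linarith
  have hlim : Tendsto (fun j => ann (v j) 0 (2 * ρ) +
      (K / c0 * (ann (v j) 0 (2 * ρ) + ann (φ j) δ (2 * δ)) +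
        K / c0 * ((δ ^ 2 + δ ^ 4) * C)) + ann (φ j) δ ρ₀) atTop
      (𝓝 (0 + (K / c0 * (0 + 0) + K / c0 * ((δ ^ 2 + δ ^ 4) * C)) + 0)) :=
    ((hloc _).add ((((hloc _).add (hcap δ (2 * δ) hδ0)).const_mul _).add_const _)).add
      (hcap δ ρ₀ hδ0)
  have hlt' : 0 + (K / c0 * (0 + 0) + K / c0 * ((δ ^ 2 + δ ^ 4) * C)) + 0 < ε := by
    simpa using hδ
  filter_upwards [hlim.eventually (gt_mem_nhds hlt')] with j hj
  have h0 : 0 ≤ ∫ x in Metric.ball (0 : Cfg N) ρ₀, ‖φ j x‖ ^ 2 :=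
    integral_nonneg fun _ => sq_nonneg _
  rw [Real.dist_eq, sub_zero, abs_of_nonneg h0]
  exact (hbd j).trans_lt hj

/-- **Capture on balls** from capture on annuli and an exterior Hardy inequality with a constant
`κ > 1/2`. -/
theorem capBall_of {X : Type*} {T : ℝ → X → Cfg N → F} {κ : ℝ}
    (hA : Chan441.CapAnn b M R G 1 T) (hH : HIAnn245.HI b M R G κ) (hκ : 1 / 2 < κ) :
    CapBall b M R G T := by
  intro g φ C hg hφ hE hT hz ρ
  obtain ⟨j0, hj0⟩ := eventually_atTop.1 (hg.eventually_ge_atTop 1)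
  have hs : Tendsto (fun j => j + j0) atTop atTop := tendsto_add_atTop_nat j0
  have h1 := capBall_aux (g := fun j => g (j + j0)) (φ := fun j => φ (j + j0)) hA hH hκ
    (hg.comp hs) (fun j => hj0 _ (by omega)) (fun j => hφ _) (fun j => hE _)
    (fun χ => (hT χ).comp hs) (fun ψ hψ => (hz ψ hψ).comp hs) ρ
  exact (tendsto_add_atTop_iff_nat j0).1 h1

end Crest.Agent.R330.CapZ818

end
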