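import Crest.Agent.R330.Defs_478
import Crest.Agent.R330.Ims_714

/-!
# Row 330, section 7: the moment lemma (helper776)

`V1 = (1/32) Σ (w_{αβ}^A)²` at `(g, m) = (1, 0)` is the quartic potential.  For smooth `φ` with
support in `‖x‖ ≤ ρ`, `g ≥ 1`, `0 ≤ m`, `m² ≤ K g`:
`∫ V1 |∇φ|² + g² ∫ V1² |φ|² + g ∫ V1 |φ|² + g⁻¹ ∫ |∇φ|² ≤ C (q_{g,m}(φ) + ‖φ‖²)`.
No equivariance is used.
-/

set_option autoImplicit false
set_option linter.unusedSectionVars false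

open MeasureTheory Filter Topology
open scoped ContDiff InnerProductSpace ENNReal
open Crest.MathPhysics.MatrixQM
open Crest.Agent.R330.Defs478

noncomputable section

namespace Crest.Agent.R330.Moment776

variable {N : ℕ} {F : Type*} [NormedAddCommGroup F] [InnerProductSpace ℂ F]
  [FiniteDimensional ℂ F]

/-- The sum-of-squares potential of `Q^{g,m}`. -/
def Vsq (b : ColorBasis N) (G : GammaNine) (g m : ℝ) (x : Cfg N) : ℝ :=
  (1 / 32) * ∑ α : Fin 16, ∑ β : Fin 16, ∑ A : Fin (N ^ 2 - 1), (wpot b G g m α β A x) ^ 2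

/-- The quartic potential. -/
def V1 (b : ColorBasis N) (G : GammaNine) (x : Cfg N) : ℝ := Vsq b G 1 0 x

/-- `|∇φ|²`. -/
def gsq (φ : Cfg N → F) (x : Cfg N) : ℝ :=
  ∑ k : Fin 9 × Fin (N ^ 2 - 1), ‖fderiv ℝ φ x (EuclideanSpace.single k 1)‖ ^ 2

/-- The energy inequality, a consequence of (1.1). -/
def Energy (b : ColorBasis N) (M : FermionRep N F) (G : GammaNine) : Prop :=
  ∃ C : ℝ, 0 ≤ C ∧ ∀ g m : ℝ, 0 ≤ g → 0 ≤ m → ∀ φ : Cfg N → F, ContDiff ℝ ∞ φ →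
    HasCompactSupport φ →
    (1 / 2) * (∫ x, gsq φ x) + (∫ x, Vsq b G g m x * ‖φ x‖ ^ 2) ≤
      qf b M G g m φ + ∫ x, C * (g * ‖x‖ + m) * ‖φ x‖ ^ 2

/-! ## The potential -/

section pot

variable (b : ColorBasis N) (G : GammaNine)

theorem wpot_split (g m : ℝ) (α β : Fin 16) (A : Fin (N ^ 2 - 1)) (x : Cfg N) :
    wpot b G g m α β A x = g * wpot b G 1 0 α β A x + m * wpot b G 0 1 α β A x := by
  unfold wpot
  ring

theorem Vsq_nonneg (g m : ℝ) (x : Cfg N) : 0 ≤ Vsq b G g m x := by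
  unfold Vsq
  positivity

theorem V1_nonneg (x : Cfg N) : 0 ≤ V1 b G x := Vsq_nonneg b G 1 0 x

/-- `V_{g,m} ≥ ½ g² V_1 - m² V_{0,1}`. -/
theorem Vsq_ge (g m : ℝ) (x : Cfg N) :
    1 / 2 * g ^ 2 * V1 b G x - m ^ 2 * Vsq b G 0 1 x ≤ Vsq b G g m x := by
  have h : ∀ α β A, 1 / 2 * g ^ 2 * (wpot b G 1 0 α β A x) ^ 2 -
      m ^ 2 * (wpot b G 0 1 α β A x) ^ 2 ≤ (wpot b G g m α β A x) ^ 2 := by
    intro α β A
    rw [wpot_split b G g m]
    nlinarith [sq_nonneg (1 / 2 * (g * wpot b G 1 0 α β A x) + m * wpot b G 0 1 α β A x),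
      sq_nonneg (g * wpot b G 1 0 α β A x + 2 * (m * wpot b G 0 1 α β A x))]
  have h2 : ∑ α : Fin 16, ∑ β : Fin 16, ∑ A : Fin (N ^ 2 - 1),
      (1 / 2 * g ^ 2 * (wpot b G 1 0 α β A x) ^ 2 - m ^ 2 * (wpot b G 0 1 α β A x) ^ 2) ≤
      ∑ α : Fin 16, ∑ β : Fin 16, ∑ A : Fin (N ^ 2 - 1), (wpot b G g m α β A x) ^ 2 :=
    Finset.sum_le_sum fun α _ => Finset.sum_le_sum fun β _ => Finset.sum_le_sum fun A _ => h α β A
  simp only [Finset.sum_sub_distrib, ← Finset.mul_sum] at h2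
  unfold V1 Vsq
  linarith

theorem contDiff_wpot (g m : ℝ) (α β : Fin 16) (A : Fin (N ^ 2 - 1)) {n : WithTop ℕ∞} :
    ContDiff ℝ n (wpot b G g m α β A) := by
  unfold wpot
  have hc : ∀ p : Fin 9 × Fin (N ^ 2 - 1), ContDiff ℝ n fun x : Cfg N => x p := fun p => by
    fun_prop
  refine ContDiff.sub (contDiff_const.mul (ContDiff.sum fun B _ => ContDiff.sum fun C _ =>
    ContDiff.sum fun i _ => ContDiff.sum fun j _ => ?_)) (contDiff_const.mul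
    (ContDiff.sum fun j _ => ?_))
  · exact (((contDiff_const.mul (hc _)).mul (hc _)).mul contDiff_const)
  · exact (contDiff_const.mul (hc _)).mul contDiff_const

theorem contDiff_Vsq (g m : ℝ) {n : WithTop ℕ∞} : ContDiff ℝ n (Vsq b G g m) := by
  unfold Vsq
  exact contDiff_const.mul (ContDiff.sum fun α _ => ContDiff.sum fun β _ => ContDiff.sum fun A _ =>
    (contDiff_wpot b G g m α β A).pow 2)

theorem continuous_Vsq (g m : ℝ) : Continuous (Vsq b G g m) :=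
  (contDiff_Vsq b G g m (n := 0)).continuous

/-- `Σ ‖∇w‖²` over the components of the quartic part. -/
def dwsq (x : Cfg N) : ℝ :=
  ∑ α : Fin 16, ∑ β : Fin 16, ∑ A : Fin (N ^ 2 - 1), ‖fderiv ℝ (wpot b G 1 0 α β A) x‖ ^ 2

theorem continuous_dwsq : Continuous (dwsq b G) := by
  unfold dwsq
  refine continuous_finsetSum _ fun α _ => continuous_finsetSum _ fun β _ =>
    continuous_finsetSum _ fun A _ => ?_
  exact ((contDiff_wpot b G 1 0 α β A (n := 1)).continuous_fderiv one_ne_zero).norm.pow 2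

/-- `|∂_v V_1|² ≤ (1/8) V_1 Σ‖∇w‖² |v|²`. -/
theorem fderiv_V1_sq (x v : Cfg N) :
    (fderiv ℝ (V1 b G) x v) ^ 2 ≤ 1 / 8 * V1 b G x * dwsq b G x * ‖v‖ ^ 2 := by
  set w : Fin 16 × Fin 16 × Fin (N ^ 2 - 1) → Cfg N → ℝ := fun i => wpot b G 1 0 i.1 i.2.1 i.2.2
    with hw
  have hV : V1 b G = fun y => (1 / 32) * ∑ i, (w i y) ^ 2 := by
    funext y
    unfold V1 Vsq
    rw [Fintype.sum_prod_type]
    simp only [Fintype.sum_prod_type, hw]
  have hd : ∀ i, HasFDerivAt (w i) (fderiv ℝ (w i) x) x := fun i =>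
    (((contDiff_wpot b G 1 0 i.1 i.2.1 i.2.2 (n := 1)).differentiable one_ne_zero) x).hasFDerivAt
  have h1 : HasFDerivAt (V1 b G) ((1 / 32 : ℝ) • ∑ i, (2 * w i x) • fderiv ℝ (w i) x) x := by
    rw [hV]
    refine HasFDerivAt.const_mul ?_ _
    refine HasFDerivAt.fun_sum fun i _ => ?_
    have h := (hd i).pow 2
    simpa using h
  rw [h1.fderiv]
  have e1 : ((1 / 32 : ℝ) • ∑ i, (2 * w i x) • fderiv ℝ (w i) x) v =
      (1 / 16) * ∑ i, w i x * fderiv ℝ (w i) x v := by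
    rw [_root_.smul_apply, _root_.sum_apply, smul_eq_mul, Finset.mul_sum, Finset.mul_sum]
    refine Finset.sum_congr rfl fun i _ => ?_
    rw [_root_.smul_apply, smul_eq_mul]
    ring
  rw [e1, mul_pow]
  have h2 := Finset.sum_mul_sq_le_sq_mul_sq Finset.univ (fun i => w i x)
    (fun i => fderiv ℝ (w i) x v)
  have h3 : ∑ i, (fderiv ℝ (w i) x v) ^ 2 ≤ dwsq b G x * ‖v‖ ^ 2 := by
    have : dwsq b G x = ∑ i, ‖fderiv ℝ (w i) x‖ ^ 2 := by
      unfold dwsq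
      rw [Fintype.sum_prod_type]
      simp only [Fintype.sum_prod_type, hw]
    rw [this, Finset.sum_mul]
    refine Finset.sum_le_sum fun i _ => ?_
    have h4 := (fderiv ℝ (w i) x).le_opNorm v
    rw [← mul_pow, ← sq_abs, ← Real.norm_eq_abs]
    gcongr
  have h5 : V1 b G x = (1 / 32) * ∑ i, (w i x) ^ 2 := congrFun hV x
  rw [h5]
  have h6 : (0 : ℝ) ≤ ∑ i, (w i x) ^ 2 := Finset.sum_nonneg fun i _ => sq_nonneg _
  nlinarith [mul_le_mul_of_nonneg_left h3 h6]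

end pot

/-! ## The weight `w = (V_1 + δ)^{1/2}` -/

section weight

variable (b : ColorBasis N) (G : GammaNine)

/-- The weight. -/
def wt (δ : ℝ) (x : Cfg N) : ℝ := Real.sqrt (V1 b G x + δ)

theorem contDiff_wt {δ : ℝ} (hδ : 0 < δ) {n : WithTop ℕ∞} : ContDiff ℝ n (wt b G δ) := by
  unfold wt
  refine ContDiff.sqrt ((contDiff_Vsq b G 1 0).add contDiff_const) fun x => ?_
  have := V1_nonneg b G x
  change Vsq b G 1 0 x + δ ≠ 0
  have h2 : 0 ≤ Vsq b G 1 0 x := Vsq_nonneg b G 1 0 x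
  linarith

theorem wt_sq {δ : ℝ} (hδ : 0 < δ) (x : Cfg N) : wt b G δ x ^ 2 = V1 b G x + δ := by
  unfold wt
  rw [Real.sq_sqrt]
  have := V1_nonneg b G x
  linarith

/-- `|∂_v w|² ≤ (1/32) Σ‖∇w_i‖² |v|²`. -/
theorem fderiv_wt_sq {δ : ℝ} (hδ : 0 < δ) (x v : Cfg N) :
    (fderiv ℝ (wt b G δ) x v) ^ 2 ≤ 1 / 32 * dwsq b G x * ‖v‖ ^ 2 := by
  have hV : HasFDerivAt (V1 b G) (fderiv ℝ (V1 b G) x) x :=
    (((contDiff_Vsq b G 1 0 (n := 1)).differentiable one_ne_zero) x).hasFDerivAt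
  have hp : 0 < V1 b G x + δ := by
    have := V1_nonneg b G x
    linarith
  have h1 : HasFDerivAt (wt b G δ) ((1 / (2 * Real.sqrt (V1 b G x + δ))) • fderiv ℝ (V1 b G) x)
      x := by
    unfold wt
    exact (hV.add_const δ).sqrt hp.ne'
  rw [h1.fderiv, _root_.smul_apply, smul_eq_mul, mul_pow, div_pow, mul_pow, Real.sq_sqrt hp.le]
  have h2 := fderiv_V1_sq b G x v
  have h3 : 0 ≤ dwsq b G x := by unfold dwsq; positivity
  have h4 : 0 ≤ dwsq b G x * ‖v‖ ^ 2 := by positivity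
  have h5 : (fderiv ℝ (V1 b G) x v) ^ 2 ≤ 1 / 8 * (V1 b G x + δ) * dwsq b G x * ‖v‖ ^ 2 := by
    nlinarith
  have h6 : 1 ^ 2 / (2 ^ 2 * (V1 b G x + δ)) * (fderiv ℝ (V1 b G) x v) ^ 2 =
      (fderiv ℝ (V1 b G) x v) ^ 2 / (4 * (V1 b G x + δ)) := by
    field_simp
    ring
  rw [h6, div_le_iff₀ (by positivity)]
  nlinarith

/-- `‖∇w‖² ≤ (d/32) Σ‖∇w_i‖²`. -/
theorem norm_grad_wt_sq {δ : ℝ} (hδ : 0 < δ) (x : Cfg N) :
    ‖Ims714.grad (wt b G δ) x‖ ^ 2 ≤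
      (Fintype.card (Fin 9 × Fin (N ^ 2 - 1)) : ℝ) * (1 / 32 * dwsq b G x) := by
  rw [EuclideanSpace.norm_sq_eq]
  have h : ∀ k ∈ (Finset.univ : Finset (Fin 9 × Fin (N ^ 2 - 1))),
      ‖Ims714.grad (wt b G δ) x k‖ ^ 2 ≤ 1 / 32 * dwsq b G x := by
    intro k _
    rw [Ims714.grad_apply, Real.norm_eq_abs, sq_abs]
    refine (fderiv_wt_sq b G hδ x _).trans (le_of_eq ?_)
    rw [PiLp.norm_single]
    simp
  have h2 := Finset.sum_le_card_nsmul _ _ _ h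
  rw [nsmul_eq_mul] at h2
  exact h2

end weight

/-! ## Support and integrability -/

section supp

variable {b : ColorBasis N} {M : FermionRep N F} {G : GammaNine} {φ : Cfg N → F}

theorem ev_zero {ρ : ℝ} (hs : ∀ x, ρ < ‖x‖ → φ x = 0) {x : Cfg N} (hx : ρ < ‖x‖) :
    φ =ᶠ[𝓝 x] fun _ => 0 := by
  have h : IsOpen {y : Cfg N | ρ < ‖y‖} := isOpen_lt continuous_const continuous_norm
  filter_upwards [h.mem_nhds hx] with y hy
  exact hs y hy

theorem fderiv_zero {ρ : ℝ} (hs : ∀ x, ρ < ‖x‖ → φ x = 0) {x : Cfg N} (hx : ρ < ‖x‖) :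
    fderiv ℝ φ x = 0 := by
  rw [(ev_zero hs hx).fderiv_eq]
  simp

theorem dcharge_zero {g m : ℝ} {α : Fin 16} {ρ : ℝ} (hs : ∀ x, ρ < ‖x‖ → φ x = 0) {x : Cfg N}
    (hx : ρ < ‖x‖) : dcharge b M G g m α φ x = 0 := by
  unfold dcharge Defs478.kin
  rw [fderiv_zero hs hx, hs x hx]
  simp

theorem gsq_zero {ρ : ℝ} (hs : ∀ x, ρ < ‖x‖ → φ x = 0) {x : Cfg N} (hx : ρ < ‖x‖) :
    gsq φ x = 0 := by
  unfold gsq
  rw [fderiv_zero hs hx]
  simp

theorem gsq_nonneg (x : Cfg N) : 0 ≤ gsq φ x := by unfold gsq; positivity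

theorem continuous_gsq (hφ : ContDiff ℝ 1 φ) : Continuous (gsq φ) := by
  unfold gsq
  exact continuous_finsetSum _ fun k _ =>
    ((hφ.continuous_fderiv one_ne_zero).clm_apply continuous_const).norm.pow 2

theorem cs_of_zero {f : Cfg N → ℝ} {ρ : ℝ} (h : ∀ x : Cfg N, ρ < ‖x‖ → f x = 0) :
    HasCompactSupport f :=
  HasCompactSupport.intro (isCompact_closedBall (0 : Cfg N) ρ) fun x hx => h x (by
    rw [mem_closedBall_zero_iff, not_le] at hx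
    exact hx)

theorem int_of_zero {f : Cfg N → ℝ} (hf : Continuous f) {ρ : ℝ}
    (h : ∀ x : Cfg N, ρ < ‖x‖ → f x = 0) : Integrable f :=
  hf.integrable_of_hasCompactSupport (cs_of_zero h)

/-- the endomorphism field of `dcharge` -/
def Wend (b : ColorBasis N) (M : FermionRep N F) (G : GammaNine) (g m : ℝ) (α : Fin 16)
    (x : Cfg N) : F →ₗ[ℂ] F :=
  ∑ A : Fin (N ^ 2 - 1), ∑ β : Fin 16, ((wpot b G g m α β A x : ℝ) : ℂ) • M.θ β A

theorem dcharge_eq_dop (g m : ℝ) (α : Fin 16) (φ : Cfg N → F) (x : Cfg N) :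
    dcharge b M G g m α φ x = Ims714.dop G M α (Wend b M G g m α) φ x := by
  unfold dcharge Defs478.kin Ims714.dop Wend
  simp only [LinearMap.sum_apply, LinearMap.smul_apply]

end supp

/-! ## The moment lemma -/

section main

variable {b : ColorBasis N} {M : FermionRep N F} {G : GammaNine}

/-- The energy inequality for functions supported in a ball. -/
theorem energy_ball (hE : Energy b M G) {ρ K : ℝ} (hρ : 0 ≤ ρ) (hK : 0 ≤ K) : ∃ C : ℝ, 0 ≤ C ∧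
    ∀ g m : ℝ, 1 ≤ g → 0 ≤ m → m ^ 2 ≤ K * g → ∀ φ : Cfg N → F, ContDiff ℝ ∞ φ →
    (∀ x, ρ < ‖x‖ → φ x = 0) →
    (1 / 2) * (∫ x, gsq φ x) + 1 / 2 * g ^ 2 * (∫ x, V1 b G x * ‖φ x‖ ^ 2) ≤
      qf b M G g m φ + C * g * ∫ x, ‖φ x‖ ^ 2 := by
  obtain ⟨C, hC, hE⟩ := hE
  obtain ⟨B, hB⟩ := (isCompact_closedBall (0 : Cfg N) ρ).exists_bound_of_continuousOn
    (continuous_Vsq b G 0 1).continuousOn
  have hB0 : 0 ≤ B := (norm_nonneg _).trans (hB 0 (by simp [hρ]))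
  refine ⟨C * (ρ + (1 + K)) + K * B, by positivity, fun g m hg hm hm1 φ hφ hs => ?_⟩
  have hmK : m ≤ (1 + K) * g := by nlinarith [sq_nonneg (m - 1)]
  have hcs : HasCompactSupport φ :=
    HasCompactSupport.intro (isCompact_closedBall (0 : Cfg N) ρ) fun x hx => hs x (by
      rw [mem_closedBall_zero_iff, not_le] at hx
      exact hx)
  have h1 := hE g m (by linarith) hm φ hφ hcs
  have hφc := hφ.continuous
  have i1 : Integrable fun x => V1 b G x * ‖φ x‖ ^ 2 :=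
    int_of_zero (ρ := ρ) ((continuous_Vsq b G 1 0).mul (hφc.norm.pow 2)) fun x hx => by
      simp [hs x hx]
  have i2 : Integrable fun x => Vsq b G g m x * ‖φ x‖ ^ 2 :=
    int_of_zero (ρ := ρ) ((continuous_Vsq b G g m).mul (hφc.norm.pow 2)) fun x hx => by
      simp [hs x hx]
  have i3 : Integrable fun x => ‖φ x‖ ^ 2 :=
    int_of_zero (ρ := ρ) (hφc.norm.pow 2) fun x hx => by simp [hs x hx]
  have i4 : Integrable fun x => C * (g * ‖x‖ + m) * ‖φ x‖ ^ 2 :=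
    int_of_zero (ρ := ρ) (by fun_prop) fun x hx => by simp [hs x hx]
  have h2 : 1 / 2 * g ^ 2 * (∫ x, V1 b G x * ‖φ x‖ ^ 2) ≤
      (∫ x, Vsq b G g m x * ‖φ x‖ ^ 2) + K * g * B * ∫ x, ‖φ x‖ ^ 2 := by
    rw [← integral_const_mul, ← integral_const_mul, ← integral_add i2 (i3.const_mul _)]
    refine integral_mono (i1.const_mul _) (i2.add (i3.const_mul _)) fun x => ?_
    simp only
    by_cases hx : ρ < ‖x‖
    · simp [hs x hx]
    · have h3 := hB x (by rw [mem_closedBall_zero_iff]; exact not_lt.1 hx)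
      rw [Real.norm_eq_abs, abs_of_nonneg (Vsq_nonneg b G 0 1 x)] at h3
      have h4 := Vsq_ge b G g m x
      have h5 : m ^ 2 * Vsq b G 0 1 x ≤ K * g * B :=
        mul_le_mul hm1 h3 (Vsq_nonneg b G 0 1 x) (by positivity)
      have h6 : 0 ≤ ‖φ x‖ ^ 2 := sq_nonneg _
      nlinarith
  have h7 : ∫ x, C * (g * ‖x‖ + m) * ‖φ x‖ ^ 2 ≤
      C * (ρ + (1 + K)) * g * ∫ x, ‖φ x‖ ^ 2 := by
    rw [← integral_const_mul]
    refine integral_mono i4 (i3.const_mul _) fun x => ?_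
    simp only
    by_cases hx : ρ < ‖x‖
    · simp [hs x hx]
    · have h6 : 0 ≤ ‖φ x‖ ^ 2 := sq_nonneg _
      have h8 : g * ‖x‖ + m ≤ (ρ + (1 + K)) * g := by
        nlinarith [not_lt.1 hx, norm_nonneg x]
      have h9 : C * (g * ‖x‖ + m) ≤ C * ((ρ + (1 + K)) * g) := mul_le_mul_of_nonneg_left h8 hC
      nlinarith
  have h11 : (C * (ρ + (1 + K)) + K * B) * g * (∫ x, ‖φ x‖ ^ 2) =
      C * (ρ + (1 + K)) * g * (∫ x, ‖φ x‖ ^ 2) + K * g * B * ∫ x, ‖φ x‖ ^ 2 := by ring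
  rw [h11]
  linarith

/-- `q(χ φ) ≤ 2 S q(φ) + B ‖φ‖²`. -/
theorem qf_mul_le {g m ρ S B : ℝ} {χ : Cfg N → ℝ} {φ : Cfg N → F} (hχ : ContDiff ℝ ∞ χ)
    (hφ : ContDiff ℝ ∞ φ) (hs : ∀ x, ρ < ‖x‖ → φ x = 0)
    (h1 : ∀ x, ‖x‖ ≤ ρ → χ x ^ 2 ≤ S) (h2 : ∀ x, ‖x‖ ≤ ρ → ‖Ims714.grad χ x‖ ^ 2 ≤ B) :
    qf b M G g m (fun x => χ x • φ x) ≤ 2 * S * qf b M G g m φ + B * ∫ x, ‖φ x‖ ^ 2 := by
  have hχφ : ContDiff ℝ ∞ fun x => χ x • φ x := hχ.smul hφ
  have hs' : ∀ x, ρ < ‖x‖ → χ x • φ x = 0 := fun x hx => by rw [hs x hx, smul_zero]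
  have i3 : Integrable fun x => ‖φ x‖ ^ 2 :=
    int_of_zero (ρ := ρ) (hφ.continuous.norm.pow 2) fun x hx => by simp [hs x hx]
  have iQ : ∀ α, Integrable fun x => ‖dcharge b M G g m α φ x‖ ^ 2 := fun α =>
    int_of_zero (ρ := ρ) ((continuous_dcharge b M G g m α (hφ.of_le (by simp))).norm.pow 2)
      fun x hx => by simp [dcharge_zero hs hx]
  have iQ' : ∀ α, Integrable fun x => ‖dcharge b M G g m α (fun x => χ x • φ x) x‖ ^ 2 := fun α =>
    int_of_zero (ρ := ρ) ((continuous_dcharge b M G g m α (hχφ.of_le (by simp))).norm.pow 2)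
      fun x hx => by simp [dcharge_zero (φ := fun x => χ x • φ x) hs' hx]
  have h3 : ∀ α, ∫ x, ‖dcharge b M G g m α (fun x => χ x • φ x) x‖ ^ 2 ≤
      2 * S * (∫ x, ‖dcharge b M G g m α φ x‖ ^ 2) + B * ∫ x, ‖φ x‖ ^ 2 := by
    intro α
    rw [← integral_const_mul, ← integral_const_mul,
      ← integral_add ((iQ α).const_mul _) (i3.const_mul _)]
    refine integral_mono (iQ' α) (((iQ α).const_mul _).add (i3.const_mul _)) fun x => ?_
    simp only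
    by_cases hx : ρ < ‖x‖
    · rw [dcharge_zero (φ := fun x => χ x • φ x) hs' hx, dcharge_zero hs hx, hs x hx]
      simp
    · rw [dcharge_eq_dop, dcharge_eq_dop]
      have h4 := Ims714.normSq_dop_mul_le G M α (Wend b M G g m α) (χ := χ) (φ := φ) (x := x)
        (hχ.differentiable (by simp) x) (hφ.differentiable (by simp) x) (t := 1) one_pos
      have h5 := h1 x (not_lt.1 hx)
      have h6 := h2 x (not_lt.1 hx)
      have h7 : 0 ≤ ‖Ims714.dop G M α (Wend b M G g m α) φ x‖ ^ 2 := sq_nonneg _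
      have h8 : 0 ≤ ‖φ x‖ ^ 2 := sq_nonneg _
      nlinarith
  unfold qf
  calc (1 / 16 : ℝ) * ∑ α, ∫ x, ‖dcharge b M G g m α (fun x => χ x • φ x) x‖ ^ 2
      ≤ (1 / 16 : ℝ) * ∑ α : Fin 16, (2 * S * (∫ x, ‖dcharge b M G g m α φ x‖ ^ 2) +
          B * ∫ x, ‖φ x‖ ^ 2) :=
        mul_le_mul_of_nonneg_left (Finset.sum_le_sum fun α _ => h3 α) (by norm_num)
    _ = _ := by
        rw [Finset.sum_add_distrib, ← Finset.mul_sum, Finset.sum_const, Finset.card_univ,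
          Fintype.card_fin, nsmul_eq_mul]
        push_cast
        ring

/-- `χ² |∇φ|² ≤ 2 |∇(χφ)|² + 2 |∇χ|² |φ|²`. -/
theorem gsq_mul_ge {χ : Cfg N → ℝ} {φ : Cfg N → F} {x : Cfg N} (hχ : DifferentiableAt ℝ χ x)
    (hφ : DifferentiableAt ℝ φ x) : χ x ^ 2 * gsq φ x ≤
      2 * gsq (fun y => χ y • φ y) x + 2 * (‖Ims714.grad χ x‖ ^ 2 * ‖φ x‖ ^ 2) := by
  have hfd : ∀ u : Cfg N, fderiv ℝ (fun y => χ y • φ y) x u =
      χ x • fderiv ℝ φ x u + (fderiv ℝ χ x u) • φ x := by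
    intro u
    rw [fderiv_fun_smul hχ hφ]
    simp [ContinuousLinearMap.smulRight_apply]
  unfold gsq
  rw [Finset.mul_sum, Finset.mul_sum, EuclideanSpace.norm_sq_eq, Finset.sum_mul,
    Finset.mul_sum, ← Finset.sum_add_distrib]
  refine Finset.sum_le_sum fun k _ => ?_
  rw [Real.norm_eq_abs, sq_abs]
  have e : χ x • fderiv ℝ φ x (EuclideanSpace.single k 1) =
      fderiv ℝ (fun y => χ y • φ y) x (EuclideanSpace.single k 1) -
        (fderiv ℝ χ x (EuclideanSpace.single k 1)) • φ x := by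
    rw [hfd]; abel
  have e2 : χ x ^ 2 * ‖fderiv ℝ φ x (EuclideanSpace.single k 1)‖ ^ 2 =
      ‖χ x • fderiv ℝ φ x (EuclideanSpace.single k 1)‖ ^ 2 := by
    rw [norm_smul, mul_pow, Real.norm_eq_abs, sq_abs]
  have e3 : Ims714.grad χ x k ^ 2 * ‖φ x‖ ^ 2 =
      ‖(fderiv ℝ χ x (EuclideanSpace.single k 1)) • φ x‖ ^ 2 := by
    rw [norm_smul, mul_pow, Real.norm_eq_abs, sq_abs, Ims714.grad_apply]
  rw [e2, e3, e]
  have h := norm_sub_le (fderiv ℝ (fun y => χ y • φ y) x (EuclideanSpace.single k 1))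
    ((fderiv ℝ χ x (EuclideanSpace.single k 1)) • φ x)
  have h0 := norm_nonneg (fderiv ℝ (fun y => χ y • φ y) x (EuclideanSpace.single k 1) -
    (fderiv ℝ χ x (EuclideanSpace.single k 1)) • φ x)
  nlinarith [sq_nonneg (‖fderiv ℝ (fun y => χ y • φ y) x (EuclideanSpace.single k 1)‖ -
    ‖(fderiv ℝ χ x (EuclideanSpace.single k 1)) • φ x‖)]

theorem qf_nonneg (g m : ℝ) (φ : Cfg N → F) : 0 ≤ qf b M G g m φ := by
  unfold qf
  have : ∀ α, 0 ≤ ∫ x, ‖dcharge b M G g m α φ x‖ ^ 2 := fun α =>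
    integral_nonneg fun x => sq_nonneg _
  have h2 : 0 ≤ ∑ α, ∫ x, ‖dcharge b M G g m α φ x‖ ^ 2 := Finset.sum_nonneg fun α _ => this α
  positivity

set_option maxHeartbeats 1000000 in
/-- **The moment lemma.** -/
theorem moment (hE : Energy b M G) {ρ K : ℝ} (hρ : 0 ≤ ρ) (hK : 0 ≤ K) : ∃ C : ℝ, 0 ≤ C ∧
    ∀ g m : ℝ, 1 ≤ g → 0 ≤ m → m ^ 2 ≤ K * g → ∀ φ : Cfg N → F, ContDiff ℝ ∞ φ →
    (∀ x, ρ < ‖x‖ → φ x = 0) →
    (∫ x, V1 b G x * gsq φ x) + g ^ 2 * (∫ x, V1 b G x ^ 2 * ‖φ x‖ ^ 2) +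
        g * (∫ x, V1 b G x * ‖φ x‖ ^ 2) + g⁻¹ * (∫ x, gsq φ x) ≤
      C * (qf b M G g m φ + ∫ x, ‖φ x‖ ^ 2) := by
  obtain ⟨C0, hC0, hEB⟩ := energy_ball hE hρ hK
  obtain ⟨S, hS⟩ := (isCompact_closedBall (0 : Cfg N) ρ).exists_bound_of_continuousOn
    (continuous_Vsq b G 1 0).continuousOn
  have hS0 : 0 ≤ S := (norm_nonneg _).trans (hS 0 (by simp [hρ]))
  obtain ⟨D, hD⟩ := (isCompact_closedBall (0 : Cfg N) ρ).exists_bound_of_continuousOn
    (continuous_dwsq b G).continuousOn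
  have hD0 : 0 ≤ D := (norm_nonneg _).trans (hD 0 (by simp [hρ]))
  set d : ℝ := (Fintype.card (Fin 9 × Fin (N ^ 2 - 1)) : ℝ) with hd
  have hd0 : 0 ≤ d := Nat.cast_nonneg _
  set B : ℝ := d * (1 / 32 * D) with hB
  have hB0 : 0 ≤ B := by positivity
  set C1 : ℝ := 2 * (S + 1) + B + C0 * (2 + 2 * C0 + 1) with hC1
  have hC10 : 0 ≤ C1 := by positivity
  refine ⟨4 * C1 + 2 * B + 2 * C1 + (2 + 2 * C0) + (2 + 2 * C0), by positivity,
    fun g m hg hm hm1 φ hφ hs => ?_⟩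
  have hg0 : 0 < g := by linarith
  set δ : ℝ := 1 / g ^ 2 with hδ
  have hδ0 : 0 < δ := by positivity
  have hδ1 : δ ≤ 1 := by
    rw [hδ, div_le_one (by positivity)]
    nlinarith
  have hφc := hφ.continuous
  set q := qf b M G g m φ with hq
  have hq0 : 0 ≤ q := qf_nonneg g m φ
  set n := ∫ x, ‖φ x‖ ^ 2 with hn
  have hn0 : 0 ≤ n := integral_nonneg fun x => sq_nonneg _
  set v := ∫ x, V1 b G x * ‖φ x‖ ^ 2 with hv
  have hv0 : 0 ≤ v := integral_nonneg fun x => mul_nonneg (V1_nonneg b G x) (sq_nonneg _)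
  have iV : Integrable fun x => V1 b G x * ‖φ x‖ ^ 2 :=
    int_of_zero (ρ := ρ) ((continuous_Vsq b G 1 0).mul (hφc.norm.pow 2)) fun x hx => by
      simp [hs x hx]
  have iN : Integrable fun x => ‖φ x‖ ^ 2 :=
    int_of_zero (ρ := ρ) (hφc.norm.pow 2) fun x hx => by simp [hs x hx]
  -- step 1
  have s1 : g * v ≤ 2 * q + 2 * C0 * n := by
    have h := hEB g m hg hm hm1 φ hφ hs
    have h0 : 0 ≤ ∫ x, gsq φ x := integral_nonneg fun x => gsq_nonneg x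
    have h1 : 1 / 2 * g ^ 2 * v ≤ q + C0 * g * n := by linarith
    have h2 : g * (g * v) ≤ g * (2 * q + 2 * C0 * n) := by nlinarith
    exact le_of_mul_le_mul_left h2 hg0
  have s0 : g⁻¹ * (∫ x, gsq φ x) ≤ 2 * q + 2 * C0 * n := by
    have h := hEB g m hg hm hm1 φ hφ hs
    have h1 : (∫ x, gsq φ x) ≤ 2 * q + 2 * C0 * n * g := by
      nlinarith [mul_nonneg (sq_nonneg g) hv0]
    rw [inv_mul_le_iff₀ hg0]
    nlinarith
  -- step 2
  set χ := wt b G δ with hχ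
  have hχs : ContDiff ℝ ∞ χ := contDiff_wt b G hδ0
  have hχb : ∀ x : Cfg N, ‖x‖ ≤ ρ → χ x ^ 2 ≤ S + 1 := fun x hx => by
    rw [hχ, wt_sq b G hδ0]
    have h := hS x (by rw [mem_closedBall_zero_iff]; exact hx)
    have h2 := (Real.norm_eq_abs _ ▸ le_abs_self (Vsq b G 1 0 x)).trans h
    change Vsq b G 1 0 x + δ ≤ S + 1
    linarith
  have hχg : ∀ x : Cfg N, ‖x‖ ≤ ρ → ‖Ims714.grad χ x‖ ^ 2 ≤ B := fun x hx => by
    refine (norm_grad_wt_sq b G hδ0 x).trans ?_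
    have h := hD x (by rw [mem_closedBall_zero_iff]; exact hx)
    have h2 := (Real.norm_eq_abs _ ▸ le_abs_self (dwsq b G x)).trans h
    rw [hB]
    gcongr
  set ψ : Cfg N → F := fun x => χ x • φ x with hψ
  have hψs : ContDiff ℝ ∞ ψ := hχs.smul hφ
  have hψ0 : ∀ x, ρ < ‖x‖ → ψ x = 0 := fun x hx => by rw [hψ]; simp [hs x hx]
  have s2 : qf b M G g m ψ ≤ 2 * (S + 1) * q + B * n := qf_mul_le hχs hφ hs hχb hχg
  have hψn : ∀ x, ‖ψ x‖ ^ 2 = (V1 b G x + δ) * ‖φ x‖ ^ 2 := fun x => by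
    rw [hψ]
    simp only
    rw [norm_smul, mul_pow, Real.norm_eq_abs, sq_abs, hχ, wt_sq b G hδ0]
  have s3 : ∫ x, ‖ψ x‖ ^ 2 = v + δ * n := by
    rw [hv, hn, ← integral_const_mul, ← integral_add iV (iN.const_mul δ)]
    refine integral_congr_ae (Eventually.of_forall fun x => ?_)
    simp only
    rw [hψn]
    ring
  have s4 := hEB g m hg hm hm1 ψ hψs hψ0
  rw [s3] at s4
  have hgδ : g * δ ≤ 1 := by
    rw [hδ]
    rw [mul_one_div, div_le_one (by positivity)]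
    nlinarith
  have s5 : C0 * g * (v + δ * n) ≤ C0 * (2 * q + (2 * C0 + 1) * n) := by
    have : g * (v + δ * n) ≤ 2 * q + (2 * C0 + 1) * n := by nlinarith
    calc C0 * g * (v + δ * n) = C0 * (g * (v + δ * n)) := by ring
      _ ≤ _ := mul_le_mul_of_nonneg_left this hC0
  have s6 : (1 / 2) * (∫ x, gsq ψ x) + 1 / 2 * g ^ 2 * (∫ x, V1 b G x * ‖ψ x‖ ^ 2) ≤
      C1 * (q + n) := by
    rw [hC1]
    nlinarith [mul_nonneg hC0 hq0, mul_nonneg hC0 hn0, mul_nonneg hB0 hq0,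
      mul_nonneg (mul_nonneg hC0 hC0) hq0, mul_nonneg hS0 hn0]
  have hA0 : 0 ≤ ∫ x, gsq ψ x := integral_nonneg fun x => gsq_nonneg x
  have hP0 : 0 ≤ ∫ x, V1 b G x * ‖ψ x‖ ^ 2 :=
    integral_nonneg fun x => mul_nonneg (V1_nonneg b G x) (sq_nonneg _)
  have s7 : ∫ x, gsq ψ x ≤ 2 * C1 * (q + n) := by nlinarith [mul_nonneg (sq_nonneg g) hP0]
  have s8 : g ^ 2 * ∫ x, V1 b G x * ‖ψ x‖ ^ 2 ≤ 2 * C1 * (q + n) := by nlinarith
  -- the gradient term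
  have iG : Integrable fun x => gsq φ x :=
    int_of_zero (ρ := ρ) (continuous_gsq (hφ.of_le (by simp))) fun x hx => gsq_zero hs hx
  have iVG : Integrable fun x => V1 b G x * gsq φ x :=
    int_of_zero (ρ := ρ) ((continuous_Vsq b G 1 0).mul (continuous_gsq (hφ.of_le (by simp))))
      fun x hx => by rw [gsq_zero hs hx, mul_zero]
  have iGψ : Integrable fun x => gsq ψ x :=
    int_of_zero (ρ := ρ) (continuous_gsq (hψs.of_le (by simp))) fun x hx => gsq_zero hψ0 hx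
  have s9 : ∫ x, V1 b G x * gsq φ x ≤ 2 * (∫ x, gsq ψ x) + 2 * B * n := by
    rw [hn, ← integral_const_mul, ← integral_const_mul,
      ← integral_add (iGψ.const_mul _) (iN.const_mul _)]
    refine integral_mono iVG ((iGψ.const_mul _).add (iN.const_mul _)) fun x => ?_
    simp only
    by_cases hx : ρ < ‖x‖
    · rw [gsq_zero hs hx, gsq_zero hψ0 hx, hs x hx]
      simp
    · have hsum := gsq_mul_ge (χ := χ) (φ := φ) (x := x) (hχs.differentiable (by simp) x)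
        (hφ.differentiable (by simp) x)
      have h3 := hχg x (not_lt.1 hx)
      have h4 : V1 b G x * gsq φ x ≤ χ x ^ 2 * gsq φ x := by
        rw [hχ, wt_sq b G hδ0]
        nlinarith [gsq_nonneg (φ := φ) x]
      have h5 : ‖Ims714.grad χ x‖ ^ 2 * ‖φ x‖ ^ 2 ≤ B * ‖φ x‖ ^ 2 :=
        mul_le_mul_of_nonneg_right h3 (sq_nonneg _)
      linarith
  -- the quartic term
  have iV2 : Integrable fun x => V1 b G x ^ 2 * ‖φ x‖ ^ 2 :=
    int_of_zero (ρ := ρ) (((continuous_Vsq b G 1 0).pow 2).mul (hφc.norm.pow 2)) fun x hx => by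
      simp [hs x hx]
  have iVψ : Integrable fun x => V1 b G x * ‖ψ x‖ ^ 2 :=
    int_of_zero (ρ := ρ) ((continuous_Vsq b G 1 0).mul (hψs.continuous.norm.pow 2)) fun x hx => by
      simp [hψ0 x hx]
  have s10 : ∫ x, V1 b G x ^ 2 * ‖φ x‖ ^ 2 ≤ ∫ x, V1 b G x * ‖ψ x‖ ^ 2 := by
    refine integral_mono iV2 iVψ fun x => ?_
    simp only
    rw [hψn]
    have h1 := V1_nonneg b G x
    have h2 : 0 ≤ ‖φ x‖ ^ 2 := sq_nonneg _
    nlinarith [mul_nonneg (mul_nonneg h1 hδ0.le) h2]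
  have s11 : g ^ 2 * ∫ x, V1 b G x ^ 2 * ‖φ x‖ ^ 2 ≤ 2 * C1 * (q + n) :=
    (mul_le_mul_of_nonneg_left s10 (sq_nonneg g)).trans s8
  have s12 : (∫ x, V1 b G x * gsq φ x) ≤ (4 * C1 + 2 * B) * (q + n) := by
    nlinarith [mul_nonneg hB0 hq0]
  have s13 : g * v ≤ (2 + 2 * C0) * (q + n) := by nlinarith [mul_nonneg hC0 hq0]
  have s14 : g⁻¹ * (∫ x, gsq φ x) ≤ (2 + 2 * C0) * (q + n) := by nlinarith [mul_nonneg hC0 hq0]
  have e : (4 * C1 + 2 * B + 2 * C1 + (2 + 2 * C0) + (2 + 2 * C0)) * (q + n) =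
      (4 * C1 + 2 * B) * (q + n) + 2 * C1 * (q + n) + (2 + 2 * C0) * (q + n) +
        (2 + 2 * C0) * (q + n) := by ring
  rw [e]
  linarith

end main

end Crest.Agent.R330.Moment776

end
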