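import Crest.Agent.R330.TrialSys_796
import Crest.Agent.R330.QM0_363
import Crest.Agent.R330.Moment_776

/-!
# Row 330, S9-CAPZERO (helper974): capture at the deepest stratum

* `GlobHardy b M R G` : the global Hardy inequality of `Q^{1,0}` with finitely many zero states.
* `ball_le` : `∫_{|x| < δ} |φ|² ≤ K (l⁻² + δ²) En + K Σ |⟨U_l ψ_i, cut φ⟩|²`, `g = l³`.
* `CapAnn b M R G T` : the capture property on annuli.
* `capBall_of` : `CapBall` from `CapAnn` and `GlobHardy`.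
-/

set_option autoImplicit false
set_option linter.unusedSectionVars false

open MeasureTheory Filter Topology Crest.MathPhysics.MatrixQM
open scoped ContDiff InnerProductSpace ENNReal

noncomputable section

namespace Crest.Agent.R330.CapZero974

open Crest.Agent.R330.Defs478 Crest.Agent.R330.Scale423 Crest.Agent.R330.ScaleD423
  Crest.Agent.R330.TrialSys796 Crest.Agent.R330.QM0363

variable {N : ℕ} {F : Type*} [NormedAddCommGroup F] [InnerProductSpace ℂ F]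
  [FiniteDimensional ℂ F]

/-- The global Hardy inequality of `Q^{1,0}` with finitely many zero states. -/
def GlobHardy (b : ColorBasis N) (M : FermionRep N F) (R : GaugeAction b M) (G : GammaNine) :
    Prop :=
  ∃ (n : ℕ) (ψ : Fin n → Cfg N → F) (c : ℝ), 0 < c ∧ (∀ i, ψ i ∈ zset b M R G 1 0) ∧
    ∀ φ : Cfg N → F, IsCoreVec b R φ →
      c * ∫ x, (1 + ‖x‖ ^ 2)⁻¹ * ‖φ x - ∑ i, (∫ y, ⟪ψ i y, φ y⟫_ℂ) • ψ i x‖ ^ 2 ≤
        qf b M G 1 0 φ

/-- The capture property on annuli. -/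
def CapAnn (b : ColorBasis N) (M : FermionRep N F) (R : GaugeAction b M) (G : GammaNine)
    {X : Type*} (T : ℝ → X → Cfg N → F) : Prop :=
  ∀ (a B : ℝ), 0 < a → ∀ (g : ℕ → ℝ) (φ : ℕ → Cfg N → F) (C : ℝ), Tendsto g atTop atTop →
    (∀ j, IsCoreVec b R (φ j)) → (∀ j, En b M G (g j) 1 (φ j) ≤ C) →
    (∀ χ, Tendsto (fun j => ∫ x, ⟪T (g j) χ x, φ j x⟫_ℂ) atTop (𝓝 0)) →
    Tendsto (fun j => ∫ x in {x : Cfg N | a ≤ ‖x‖ ∧ ‖x‖ ≤ B}, ‖φ j x‖ ^ 2) atTop (𝓝 0)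

/-! ### 1. Elementary estimates -/

theorem int_sq_nonneg (f : Cfg N → F) : 0 ≤ ∫ x, ‖f x‖ ^ 2 := integral_nonneg fun _ => sq_nonneg _

theorem exists_rad {φ : Cfg N → F} (h : HasCompactSupport φ) :
    ∃ ρ : ℝ, ∀ x, ρ < ‖x‖ → φ x = 0 := by
  obtain ⟨ρ, hρ⟩ := h.isBounded.exists_norm_le
  refine ⟨ρ, fun x hx => ?_⟩
  by_contra hn
  exact absurd (hρ x (subset_tsupport φ hn)) (not_le.2 hx)

theorem integrable_inner_of {f h : Cfg N → F} (hf : MemLp f 2 volume) (hh : MemLp h 2 volume) :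
    Integrable fun x => ⟪f x, h x⟫_ℂ := by
  have h1 := L2.integrable_inner (𝕜 := ℂ) (hf.toLp f) (hh.toLp h)
  refine h1.congr ?_
  filter_upwards [hf.coeFn_toLp, hh.coeFn_toLp] with x hx hx'
  rw [hx, hx']

/-- removing the mass term -/
theorem qf_massless_le (b : ColorBasis N) (M : FermionRep N F) {R : GaugeAction b M}
    (G : GammaNine) {CM : ℝ} (hCM0 : 0 < CM)
    (hCM : ∀ (α : Fin 16) (x : Cfg N) (v : F), ‖massT M G α x v‖ ≤ CM * ‖x‖ * ‖v‖)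
    (g : ℝ) {v : Cfg N → F} (hv : IsCoreVec b R v) (hv1 : ∀ x, 1 ≤ ‖x‖ → v x = 0) :
    qf b M G g 0 v ≤ 2 * qf b M G g 1 v + 2 * CM ^ 2 * ∫ x, ‖v x‖ ^ 2 := by
  have h1 : ∀ α : Fin 16, ∫ x, ‖dcharge b M G g 0 α v x‖ ^ 2 ≤
      2 * (∫ x, ‖dcharge b M G g 1 α v x‖ ^ 2) + 2 * CM ^ 2 * ∫ x, ‖v x‖ ^ 2 := by
    intro α
    rw [← integral_const_mul, ← integral_const_mul,
      ← integral_add ((int_sq_dcharge G g 1 α hv).const_mul 2) ((int_sq hv).const_mul _)]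
    refine integral_mono (int_sq_dcharge G g 0 α hv)
      (((int_sq_dcharge G g 1 α hv).const_mul 2).add ((int_sq hv).const_mul _)) fun x => ?_
    have h2 := dcharge_sub_mass b M G g 1 α v x
    have h3 : dcharge b M G g 0 α v x = dcharge b M G g 1 α v x + massT M G α x (v x) := by
      rw [h2]; simp
    have h4 : ‖massT M G α x (v x)‖ ≤ CM * ‖v x‖ := by
      by_cases hx : 1 ≤ ‖x‖
      · have := hCM α x (v x)
        rw [hv1 x hx, norm_zero, mul_zero] at this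
        rw [hv1 x hx, norm_zero, mul_zero]
        exact this
      · push Not at hx
        refine (hCM α x (v x)).trans ?_
        have : CM * ‖x‖ ≤ CM := by nlinarith
        exact mul_le_mul_of_nonneg_right this (norm_nonneg _)
    have h5 : ‖dcharge b M G g 0 α v x‖ ≤ ‖dcharge b M G g 1 α v x‖ + CM * ‖v x‖ := by
      rw [h3]
      exact (norm_add_le _ _).trans (add_le_add le_rfl h4)
    have h6 : ‖dcharge b M G g 0 α v x‖ ^ 2 ≤ (‖dcharge b M G g 1 α v x‖ + CM * ‖v x‖) ^ 2 :=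
      pow_le_pow_left₀ (norm_nonneg _) h5 2
    simp only
    nlinarith [sq_nonneg (‖dcharge b M G g 1 α v x‖ - CM * ‖v x‖)]
  unfold qf
  calc (1 / 16 : ℝ) * ∑ α : Fin 16, ∫ x, ‖dcharge b M G g 0 α v x‖ ^ 2
      ≤ (1 / 16 : ℝ) * ∑ α : Fin 16, (2 * (∫ x, ‖dcharge b M G g 1 α v x‖ ^ 2) +
          2 * CM ^ 2 * ∫ x, ‖v x‖ ^ 2) :=
        mul_le_mul_of_nonneg_left (Finset.sum_le_sum fun α _ => h1 α) (by norm_num)
    _ = _ := by
        rw [Finset.sum_add_distrib, ← Finset.mul_sum, Finset.sum_const, Finset.card_univ,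
          Fintype.card_fin, nsmul_eq_mul]
        push_cast
        ring

/-- the cut-off vector has bounded massless energy -/
theorem exists_cut_energy (b : ColorBasis N) (M : FermionRep N F) (R : GaugeAction b M)
    (G : GammaNine) : ∃ K : ℝ, 0 < K ∧ ∀ (g : ℝ) (φ : Cfg N → F), IsCoreVec b R φ →
      qf b M G g 0 (fun y => cut 1 y • φ y) ≤ K * En b M G g 1 φ := by
  obtain ⟨CM, hCM0, hCM⟩ := exists_mass_bound (N := N) M G
  obtain ⟨C, hC0, hC⟩ := HIAnn245.exists_sT_bound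
  refine ⟨4 + 2 * (8 / 3 * C) ^ 2 + 2 * CM ^ 2, by positivity, fun g φ hφ => ?_⟩
  have hv := core_cut (b := b) (R := R) 1 hφ
  obtain ⟨ρ, hρ⟩ := exists_rad hφ.2.1
  have h1 := Moment776.qf_mul_le (b := b) (M := M) (G := G) (g := g) (m := 1) (ρ := ρ) (S := 1)
    (B := (8 / 3 * C) ^ 2) (contDiff_cut (N := N) 1) hφ.1 hρ
    (fun x _ => by
      have h1 := cut_nonneg (N := N) 1 x
      have h2 := cut_le_one (N := N) 1 x
      nlinarith)
    (fun x _ => by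
      have h1 := norm_grad_cut (N := N) one_pos hC0.le hC x
      rw [div_one] at h1
      exact pow_le_pow_left₀ (norm_nonneg _) h1 2)
  have h2 := qf_massless_le b M (R := R) G hCM0 hCM g hv fun x hx => by
    rw [cut_zero one_pos hx, zero_smul]
  have h3 : ∫ x, ‖cut 1 x • φ x‖ ^ 2 ≤ ∫ x, ‖φ x‖ ^ 2 := by
    refine integral_mono (int_sq hv) (int_sq hφ) fun x => ?_
    simp only [norm_smul, Real.norm_eq_abs, abs_of_nonneg (cut_nonneg (N := N) 1 x)]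
    have : cut 1 x * ‖φ x‖ ≤ ‖φ x‖ := mul_le_of_le_one_left (norm_nonneg _) (cut_le_one 1 x)
    exact pow_le_pow_left₀ (mul_nonneg (cut_nonneg 1 x) (norm_nonneg _)) this 2
  have hq : 0 ≤ qf b M G g 1 φ := QM0363.qf_nonneg b M G g 1 φ
  have hn := int_sq_nonneg φ
  unfold En
  have h4 : 2 * CM ^ 2 * ∫ x, ‖cut 1 x • φ x‖ ^ 2 ≤ 2 * CM ^ 2 * ∫ x, ‖φ x‖ ^ 2 :=
    mul_le_mul_of_nonneg_left h3 (by positivity)
  have h5 : 0 ≤ (8 / 3 * C) ^ 2 * qf b M G g 1 φ := by positivity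
  have h6 : 0 ≤ CM ^ 2 * qf b M G g 1 φ := by positivity
  nlinarith

theorem measurableSet_near (r : ℝ) : MeasurableSet (Metric.ball (0 : Cfg N) r) :=
  measurableSet_ball

theorem near_eq (f : Cfg N → F) (hf : Integrable fun x => ‖f x‖ ^ 2) (r : ℝ) :
    ∫ x in Metric.ball (0 : Cfg N) r, ‖f x‖ ^ 2 =
      (∫ x, ‖f x‖ ^ 2) - ∫ x in {y : Cfg N | r ≤ ‖y‖}, ‖f x‖ ^ 2 := by
  have h1 : {y : Cfg N | r ≤ ‖y‖} = (Metric.ball (0 : Cfg N) r)ᶜ := by
    ext y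
    simp
  rw [h1, ← integral_add_compl (measurableSet_near r) hf]
  ring

/-- scaling of the mass of a ball -/
theorem integral_near_Us {l : ℝ} (hl : 0 < l) {Ψ : Cfg N → F} (h : MemLp Ψ 2 volume) (ρ : ℝ) :
    ∫ x in Metric.ball (0 : Cfg N) ρ, ‖Us l Ψ x‖ ^ 2 =
      ∫ x in Metric.ball (0 : Cfg N) (ρ * l), ‖Ψ x‖ ^ 2 := by
  rw [near_eq _ (int_sq_memLp (Us_memLp hl h)), near_eq _ (int_sq_memLp h),
    integral_norm_sq_Us hl, integral_far_Us hl]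

/-! ### 2. The ball estimate -/

theorem sq_norm_sum_le {n : ℕ} (f : Fin n → F) : ‖∑ i, f i‖ ^ 2 ≤ n * ∑ i, ‖f i‖ ^ 2 := by
  have h1 : ‖∑ i, f i‖ ^ 2 ≤ (∑ i, ‖f i‖) ^ 2 :=
    pow_le_pow_left₀ (norm_nonneg _) (norm_sum_le _ _) 2
  refine h1.trans ?_
  have := sq_sum_le_card_mul_sum_sq (s := (Finset.univ : Finset (Fin n))) (f := fun i => ‖f i‖)
  simpa using this

/-- **The mass of a small ball**, coupling `g = l³`. -/
theorem ball_le {b : ColorBasis N} {M : FermionRep N F} {R : GaugeAction b M} {G : GammaNine}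
    {n : ℕ} {ψ : Fin n → Cfg N → F} {c : ℝ} (hc : 0 < c) (hψ : ∀ i, MemLp (ψ i) 2 volume)
    (hH : ∀ φ : Cfg N → F, IsCoreVec b R φ →
      c * ∫ x, (1 + ‖x‖ ^ 2)⁻¹ * ‖φ x - ∑ i, (∫ y, ⟪ψ i y, φ y⟫_ℂ) • ψ i x‖ ^ 2 ≤
        qf b M G 1 0 φ) :
    ∃ K : ℝ, 0 < K ∧ ∀ g : ℝ, 0 < g → ∀ φ : Cfg N → F, IsCoreVec b R φ → ∀ δ : ℝ, 0 < δ →
      δ ≤ 1 / 2 → ∫ x in Metric.ball (0 : Cfg N) δ, ‖φ x‖ ^ 2 ≤
        K * (((g ^ ((1 : ℝ) / 3)) ^ 2)⁻¹ + δ ^ 2) * En b M G g 1 φ +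
          K * ∑ i, ‖∫ x, ⟪Us (g ^ ((1 : ℝ) / 3)) (ψ i) x, cut 1 x • φ x⟫_ℂ‖ ^ 2 := by
  obtain ⟨K1, hK1, hcut⟩ := exists_cut_energy b M R G
  set S : ℝ := ∑ i, ∫ x, ‖ψ i x‖ ^ 2 with hS
  have hS0 : 0 ≤ S := Finset.sum_nonneg fun i _ => int_sq_nonneg _
  refine ⟨2 * K1 / c + 2 * n * S + 1, by positivity, fun g hg φ hφ δ hδ hδ1 => ?_⟩
  set l : ℝ := g ^ ((1 : ℝ) / 3) with hl
  have hl0 : 0 < l := Real.rpow_pos_of_pos hg _
  set v : Cfg N → F := fun y => cut 1 y • φ y with hv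
  have hvc : IsCoreVec b R v := core_cut 1 hφ
  set u : Cfg N → F := Us l⁻¹ v with hu
  have huc : IsCoreVec b R u := core_Us (inv_pos.2 hl0) hvc
  have hvu : v = Us l u := (Us_inv_right hl0 v).symm
  have hum : MemLp u 2 volume := Dict416.cv_memLp huc
  set a : Fin n → ℂ := fun i => ∫ y, ⟪ψ i y, u y⟫_ℂ with ha
  have hae : ∀ i, a i = ∫ x, ⟪Us l (ψ i) x, v x⟫_ℂ := fun i => by
    rw [hvu, integral_inner_Us hl0]
  -- the projection
  set p : Cfg N → F := fun x => ∑ i, a i • ψ i x with hp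
  have hpm : MemLp p 2 volume := memLp_finsetSum _ fun i _ => (hψ i).const_smul (a i)
  have hwm : MemLp (fun x => u x - p x) 2 volume := hum.sub hpm
  have hwi : Integrable fun x => ‖u x - p x‖ ^ 2 := int_sq_memLp hwm
  have hE : 0 ≤ En b M G g 1 φ :=
    add_nonneg (int_sq_nonneg φ) (QM0363.qf_nonneg b M G g 1 φ)
  -- Hardy
  have h1 : c * ∫ x, (1 + ‖x‖ ^ 2)⁻¹ * ‖u x - p x‖ ^ 2 ≤ K1 * En b M G g 1 φ * (l ^ 2)⁻¹ := by
    have h2 := hH u huc
    have h3 : l ^ 2 * qf b M G 1 0 u ≤ K1 * En b M G g 1 φ := by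
      rw [hu, hl, ← qf_coupling b M G hg (cv_diff hvc)]
      exact hcut g φ hφ
    have h4 : qf b M G 1 0 u ≤ K1 * En b M G g 1 φ * (l ^ 2)⁻¹ := by
      rw [← div_eq_mul_inv, le_div_iff₀ (by positivity)]
      linarith
    exact h2.trans h4
  have hwi' : Integrable fun x => (1 + ‖x‖ ^ 2)⁻¹ * ‖u x - p x‖ ^ 2 := by
    refine hwi.bdd_mul (c := 1) ?_ (Eventually.of_forall fun x => ?_)
    · refine Continuous.aestronglyMeasurable ?_
      exact (continuous_const.add (continuous_norm.pow 2)).inv₀ fun x =>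
        (by positivity : (0 : ℝ) < 1 + ‖x‖ ^ 2).ne'
    · rw [Real.norm_of_nonneg (by positivity)]
      exact inv_le_one_of_one_le₀ (by nlinarith [sq_nonneg ‖x‖])
  -- the weight on the ball
  have h5 : ∫ x in Metric.ball (0 : Cfg N) (δ * l), ‖u x - p x‖ ^ 2 ≤
      (1 + (δ * l) ^ 2) * ∫ x, (1 + ‖x‖ ^ 2)⁻¹ * ‖u x - p x‖ ^ 2 := by
    have h6 : ∫ x in Metric.ball (0 : Cfg N) (δ * l), ‖u x - p x‖ ^ 2 ≤
        ∫ x in Metric.ball (0 : Cfg N) (δ * l),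
          (1 + (δ * l) ^ 2) * ((1 + ‖x‖ ^ 2)⁻¹ * ‖u x - p x‖ ^ 2) := by
      refine setIntegral_mono_on hwi.integrableOn (hwi'.const_mul _).integrableOn
        (measurableSet_near _) fun x hx => ?_
      have hx' : ‖x‖ < δ * l := by simpa using hx
      have h7 : ‖x‖ ^ 2 ≤ (δ * l) ^ 2 := pow_le_pow_left₀ (norm_nonneg _) hx'.le 2
      have h8 : 1 ≤ (1 + (δ * l) ^ 2) * (1 + ‖x‖ ^ 2)⁻¹ := by
        rw [← div_eq_mul_inv, le_div_iff₀ (by positivity)]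
        linarith
      calc ‖u x - p x‖ ^ 2 = 1 * ‖u x - p x‖ ^ 2 := (one_mul _).symm
        _ ≤ (1 + (δ * l) ^ 2) * (1 + ‖x‖ ^ 2)⁻¹ * ‖u x - p x‖ ^ 2 :=
          mul_le_mul_of_nonneg_right h8 (sq_nonneg _)
        _ = _ := by ring
    refine h6.trans ?_
    rw [integral_const_mul]
    refine mul_le_mul_of_nonneg_left ?_ (by positivity)
    exact setIntegral_le_integral hwi' (Eventually.of_forall fun x => by positivity)
  -- the projection part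
  have h9 : ∫ x, ‖p x‖ ^ 2 ≤ n * S * ∑ i, ‖a i‖ ^ 2 := by
    have h10 : ∫ x, ‖p x‖ ^ 2 ≤ ∫ x, (n : ℝ) * ∑ i, ‖a i‖ ^ 2 * ‖ψ i x‖ ^ 2 := by
      refine integral_mono (int_sq_memLp hpm) ?_ fun x => ?_
      · exact (integrable_finsetSum _ fun i _ => (int_sq_memLp (hψ i)).const_mul _).const_mul _
      · refine (sq_norm_sum_le _).trans ?_
        simp only [norm_smul, mul_pow]
        exact le_rfl
    refine h10.trans ?_
    rw [integral_const_mul, integral_finsetSum _ fun i _ => (int_sq_memLp (hψ i)).const_mul _,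
      mul_assoc]
    refine mul_le_mul_of_nonneg_left ?_ (Nat.cast_nonneg n)
    rw [Finset.mul_sum]
    refine Finset.sum_le_sum fun i _ => ?_
    rw [integral_const_mul, mul_comm]
    refine mul_le_mul_of_nonneg_right ?_ (sq_nonneg _)
    exact Finset.single_le_sum (f := fun i => ∫ x, ‖ψ i x‖ ^ 2) (fun i _ => int_sq_nonneg _)
      (Finset.mem_univ i)
  -- the ball
  have h11 : ∫ x in Metric.ball (0 : Cfg N) δ, ‖φ x‖ ^ 2 =
      ∫ x in Metric.ball (0 : Cfg N) (δ * l), ‖u x‖ ^ 2 := by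
    rw [← integral_near_Us hl0 hum, ← hvu]
    refine setIntegral_congr_fun (measurableSet_near _) fun x hx => ?_
    have hx' : ‖x‖ < δ := by simpa using hx
    simp only [hv]
    rw [cut_one one_pos (by linarith), one_smul]
  have h12 : ∫ x in Metric.ball (0 : Cfg N) (δ * l), ‖u x‖ ^ 2 ≤
      2 * (∫ x in Metric.ball (0 : Cfg N) (δ * l), ‖u x - p x‖ ^ 2) + 2 * ∫ x, ‖p x‖ ^ 2 := by
    have i1 := (int_sq_memLp hum).integrableOn (s := Metric.ball (0 : Cfg N) (δ * l))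
    have i2 := hwi.integrableOn (s := Metric.ball (0 : Cfg N) (δ * l))
    have i3 := (int_sq_memLp hpm).integrableOn (s := Metric.ball (0 : Cfg N) (δ * l))
    have h13 : ∫ x in Metric.ball (0 : Cfg N) (δ * l), ‖u x‖ ^ 2 ≤
        ∫ x in Metric.ball (0 : Cfg N) (δ * l), (2 * ‖u x - p x‖ ^ 2 + 2 * ‖p x‖ ^ 2) := by
      refine integral_mono i1 ((i2.const_mul 2).add (i3.const_mul 2)) fun x => ?_
      have h14 : ‖u x‖ ≤ ‖u x - p x‖ + ‖p x‖ := by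
        simpa using norm_add_le (u x - p x) (p x)
      have h15 : ‖u x‖ ^ 2 ≤ (‖u x - p x‖ + ‖p x‖) ^ 2 :=
        pow_le_pow_left₀ (norm_nonneg _) h14 2
      simp only
      nlinarith [sq_nonneg (‖u x - p x‖ - ‖p x‖)]
    rw [integral_add (i2.const_mul 2) (i3.const_mul 2), integral_const_mul,
      integral_const_mul] at h13
    have h16 : ∫ x in Metric.ball (0 : Cfg N) (δ * l), ‖p x‖ ^ 2 ≤ ∫ x, ‖p x‖ ^ 2 :=
      setIntegral_le_integral (int_sq_memLp hpm) (Eventually.of_forall fun x => sq_nonneg _)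
    linarith
  -- assembly
  rw [h11]
  refine h12.trans ?_
  set I : ℝ := ∫ x, (1 + ‖x‖ ^ 2)⁻¹ * ‖u x - p x‖ ^ 2 with hI
  set E : ℝ := En b M G g 1 φ with hEd
  set A : ℝ := ∑ i, ‖a i‖ ^ 2 with hA
  have hA0 : 0 ≤ A := Finset.sum_nonneg fun i _ => sq_nonneg _
  have hAe : ∑ i, ‖∫ x, ⟪Us l (ψ i) x, cut 1 x • φ x⟫_ℂ‖ ^ 2 = A := by
    rw [hA]
    exact Finset.sum_congr rfl fun i _ => by rw [hae i]
  rw [hAe]
  have h17 : I ≤ K1 / c * E * (l ^ 2)⁻¹ := by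
    have h18 : I * c ≤ K1 * E * (l ^ 2)⁻¹ := by linarith
    have h19 : I ≤ K1 * E * (l ^ 2)⁻¹ / c := by rwa [le_div_iff₀ hc]
    calc I ≤ K1 * E * (l ^ 2)⁻¹ / c := h19
      _ = _ := by ring
  have h20 : (1 + (δ * l) ^ 2) * I ≤ K1 / c * ((l ^ 2)⁻¹ + δ ^ 2) * E := by
    calc (1 + (δ * l) ^ 2) * I ≤ (1 + (δ * l) ^ 2) * (K1 / c * E * (l ^ 2)⁻¹) :=
          mul_le_mul_of_nonneg_left h17 (by positivity)
      _ = K1 / c * ((l ^ 2)⁻¹ + δ ^ 2 * (l ^ 2 * (l ^ 2)⁻¹)) * E := by ring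
      _ = _ := by rw [mul_inv_cancel₀ (by positivity), mul_one]
  have h21 : 0 ≤ ((l ^ 2)⁻¹ + δ ^ 2) * E := by positivity
  have h22 : 0 ≤ K1 / c * A := by positivity
  have h23 : 0 ≤ n * S * (((l ^ 2)⁻¹ + δ ^ 2) * E) := by positivity
  have h24 : (2 * K1 / c + 2 * n * S + 1) * ((l ^ 2)⁻¹ + δ ^ 2) * E =
      2 * (K1 / c * ((l ^ 2)⁻¹ + δ ^ 2) * E) + 2 * (n * S * (((l ^ 2)⁻¹ + δ ^ 2) * E)) +
        ((l ^ 2)⁻¹ + δ ^ 2) * E := by ring
  have h25 : (2 * K1 / c + 2 * n * S + 1) * A = 2 * (K1 / c * A) + 2 * (n * S * A) + A := by ring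
  rw [h24, h25]
  linarith

/-! ### 3. Sequences -/

/-- **No mass near the origin** for sequences which are asymptotically orthogonal to the scaled
zero states. -/
theorem near_null {b : ColorBasis N} {M : FermionRep N F} {R : GaugeAction b M} {G : GammaNine}
    (hH : GlobHardy b M R G) {g : ℕ → ℝ} {φ : ℕ → Cfg N → F} {C : ℝ}
    (hg : Tendsto g atTop atTop) (hφ : ∀ j, IsCoreVec b R (φ j))
    (hE : ∀ j, En b M G (g j) 1 (φ j) ≤ C)
    (h0 : ∀ ψ ∈ zset b M R G 1 0,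
      Tendsto (fun j => ∫ x, ⟪Us (g j ^ ((1 : ℝ) / 3)) ψ x, φ j x⟫_ℂ) atTop (𝓝 0))
    {ε : ℝ} (hε : 0 < ε) :
    ∃ δ : ℝ, 0 < δ ∧ ∀ᶠ j in atTop, ∫ x in Metric.ball (0 : Cfg N) δ, ‖φ j x‖ ^ 2 ≤ ε := by
  obtain ⟨n, ψ, c, hc, hψ, hH⟩ := hH
  have hψ2 : ∀ i, MemLp (ψ i) 2 volume := fun i => (hψ i).1
  obtain ⟨K, hK, hb⟩ := ball_le hc hψ2 hH
  have hC0 : 0 ≤ C := le_trans (add_nonneg (int_sq_nonneg (φ 0))
    (QM0363.qf_nonneg b M G (g 0) 1 (φ 0))) (hE 0)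
  have hn : ∀ j, ∫ x, ‖φ j x‖ ^ 2 ≤ C := fun j =>
    le_trans (le_add_of_nonneg_right (QM0363.qf_nonneg b M G (g j) 1 (φ j))) (hE j)
  have hgl : Tendsto (fun j => g j ^ ((1 : ℝ) / 3)) atTop atTop :=
    (tendsto_rpow_atTop (by norm_num : (0 : ℝ) < 1 / 3)).comp hg
  -- the pairings with the cut-off functions
  have hpair : ∀ i, Tendsto (fun j => ∫ x, ⟪Us (g j ^ ((1 : ℝ) / 3)) (ψ i) x,
      cut 1 x • φ j x⟫_ℂ) atTop (𝓝 0) := by
    intro i
    have h1 : Tendsto (fun j => ∫ x, ⟪Us (g j ^ ((1 : ℝ) / 3)) (ψ i) x,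
        φ j x - cut 1 x • φ j x⟫_ℂ) atTop (𝓝 0) := by
      rw [Metric.tendsto_atTop']
      intro ε hε
      obtain ⟨l1, hl1, h2⟩ := pair_far_Us (hψ2 i) (ρ := 1 / 2) (ε := ε / (2 * (Real.sqrt C + 1)))
        (by norm_num) (by positivity)
      obtain ⟨n0, hn0⟩ := eventually_atTop.1 (hgl.eventually_ge_atTop l1)
      refine ⟨n0, fun j hj => ?_⟩
      have hvm : MemLp (fun x => φ j x - cut 1 x • φ j x) 2 volume :=
        (Dict416.cv_memLp (hφ j)).sub (Dict416.cv_memLp (core_cut 1 (hφ j)))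
      have h3 := h2 _ (hn0 j hj.le) (fun x => φ j x - cut 1 x • φ j x) hvm fun x hx => by
        rw [cut_one one_pos hx.le, one_smul, sub_self]
      have h4 : ∫ x, ‖φ j x - cut 1 x • φ j x‖ ^ 2 ≤ C := by
        refine le_trans ?_ (hn j)
        refine integral_mono (int_sq_memLp hvm) (int_sq (hφ j)) fun x => ?_
        have h5 : φ j x - cut 1 x • φ j x = (1 - cut 1 x) • φ j x := by
          rw [sub_smul, one_smul]
        have h6 : 0 ≤ 1 - cut (N := N) 1 x := sub_nonneg.2 (cut_le_one 1 x)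
        simp only [h5, norm_smul, Real.norm_eq_abs, abs_of_nonneg h6]
        have h7 : (1 - cut 1 x) * ‖φ j x‖ ≤ ‖φ j x‖ :=
          mul_le_of_le_one_left (norm_nonneg _) (by linarith [cut_nonneg (N := N) 1 x])
        exact pow_le_pow_left₀ (mul_nonneg h6 (norm_nonneg _)) h7 2
      rw [dist_zero_right]
      refine lt_of_le_of_lt h3 ?_
      have h8 : Real.sqrt (∫ x, ‖φ j x - cut 1 x • φ j x‖ ^ 2) ≤ Real.sqrt C :=
        Real.sqrt_le_sqrt h4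
      have h9 : 0 ≤ Real.sqrt C := Real.sqrt_nonneg _
      calc ε / (2 * (Real.sqrt C + 1)) * Real.sqrt (∫ x, ‖φ j x - cut 1 x • φ j x‖ ^ 2)
          ≤ ε / (2 * (Real.sqrt C + 1)) * Real.sqrt C :=
            mul_le_mul_of_nonneg_left h8 (by positivity)
        _ = ε * (Real.sqrt C / (2 * (Real.sqrt C + 1))) := by ring
        _ < ε * 1 := by
            refine mul_lt_mul_of_pos_left ?_ hε
            rw [div_lt_one (by positivity)]
            linarith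
        _ = ε := mul_one ε
    have h2 := (h0 (ψ i) (hψ i)).sub h1
    rw [sub_zero] at h2
    refine h2.congr' ?_
    filter_upwards [hg.eventually_gt_atTop 0] with j hj
    have hl0 : 0 < g j ^ ((1 : ℝ) / 3) := Real.rpow_pos_of_pos hj _
    have hm1 := Us_memLp hl0 (hψ2 i)
    have hm2 := Dict416.cv_memLp (hφ j)
    have hm3 : MemLp (fun x => φ j x - cut 1 x • φ j x) 2 volume :=
      hm2.sub (Dict416.cv_memLp (core_cut 1 (hφ j)))
    rw [← integral_sub (integrable_inner_of hm1 hm2) (integrable_inner_of hm1 hm3)]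
    refine integral_congr_ae (Eventually.of_forall fun x => ?_)
    simp only
    rw [← inner_sub_right, sub_sub_cancel]
  -- choice of the radius
  obtain ⟨δ, hδ0, hδ1, hδ2⟩ : ∃ δ : ℝ, 0 < δ ∧ δ ≤ 1 / 2 ∧ K * δ ^ 2 * C ≤ ε / 4 := by
    refine ⟨min (1 / 2) (ε / (4 * (K * C + 1))), by positivity, min_le_left _ _, ?_⟩
    set δ := min (1 / 2) (ε / (4 * (K * C + 1)))
    have h1 : δ ≤ ε / (4 * (K * C + 1)) := min_le_right _ _
    have h2 : δ ≤ 1 / 2 := min_le_left _ _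
    have h3 : 0 < δ := by positivity
    rw [le_div_iff₀ (by positivity)] at h1
    have h4 : 0 ≤ K * C := by positivity
    nlinarith
  refine ⟨δ, hδ0, ?_⟩
  have hlim : Tendsto (fun j => K * (((g j ^ ((1 : ℝ) / 3)) ^ 2)⁻¹) * C +
      K * ∑ i, ‖∫ x, ⟪Us (g j ^ ((1 : ℝ) / 3)) (ψ i) x, cut 1 x • φ j x⟫_ℂ‖ ^ 2) atTop
      (𝓝 (K * 0 * C + K * ∑ i : Fin n, (0 : ℝ))) := by
    refine Tendsto.add ?_ ?_
    · refine Tendsto.mul_const _ (Tendsto.const_mul _ ?_)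
      exact tendsto_inv_atTop_zero.comp ((tendsto_pow_atTop two_ne_zero).comp hgl)
    · refine Tendsto.const_mul _ (tendsto_finsetSum _ fun i _ => ?_)
      have := ((hpair i).norm).pow 2
      simpa using this
  have hlim' : K * 0 * C + K * ∑ i : Fin n, (0 : ℝ) < ε / 2 := by
    simp
    exact hε
  filter_upwards [hlim.eventually_lt_const hlim', hg.eventually_gt_atTop 0] with j hj hj0
  refine (hb (g j) hj0 (φ j) (hφ j) δ hδ0 hδ1).trans ?_
  have h1 : K * (((g j ^ ((1 : ℝ) / 3)) ^ 2)⁻¹ + δ ^ 2) * En b M G (g j) 1 (φ j) ≤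
      K * (((g j ^ ((1 : ℝ) / 3)) ^ 2)⁻¹ + δ ^ 2) * C :=
    mul_le_mul_of_nonneg_left (hE j) (by positivity)
  have h2 : K * (((g j ^ ((1 : ℝ) / 3)) ^ 2)⁻¹ + δ ^ 2) * C =
      K * (((g j ^ ((1 : ℝ) / 3)) ^ 2)⁻¹) * C + K * δ ^ 2 * C := by ring
  rw [h2] at h1
  linarith

/-- **`CapBall` from the capture on annuli and the global Hardy inequality.** -/
theorem capBall_of {b : ColorBasis N} {M : FermionRep N F} {R : GaugeAction b M} {G : GammaNine}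
    {X : Type*} {T : ℝ → X → Cfg N → F} (hA : CapAnn b M R G T) (hH : GlobHardy b M R G) :
    CapBall b M R G T := by
  intro g φ C hg hφ hE hT h0 ρ
  rw [Metric.tendsto_atTop']
  intro ε hε
  obtain ⟨δ, hδ, h1⟩ := near_null hH hg hφ hE h0 (half_pos hε)
  have h2 := hA δ ρ hδ g φ C hg hφ hE hT
  have h3 : ∀ᶠ j in atTop, ∫ x in {x : Cfg N | δ ≤ ‖x‖ ∧ ‖x‖ ≤ ρ}, ‖φ j x‖ ^ 2 < ε / 2 :=
    h2.eventually_lt_const (half_pos hε)
  obtain ⟨n0, hn0⟩ := eventually_atTop.1 (h1.and h3)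
  refine ⟨n0, fun j hj => ?_⟩
  obtain ⟨h4, h5⟩ := hn0 j hj.le
  have hi := int_sq (hφ j)
  rw [dist_zero_right, Real.norm_of_nonneg (integral_nonneg fun x => sq_nonneg _)]
  have hm : MeasurableSet {x : Cfg N | δ ≤ ‖x‖ ∧ ‖x‖ ≤ ρ} :=
    ((isClosed_le continuous_const continuous_norm).inter
      (isClosed_le continuous_norm continuous_const)).measurableSet
  have h6 : ∫ x in Metric.ball (0 : Cfg N) ρ, ‖φ j x‖ ^ 2 ≤
      ∫ x in Metric.ball (0 : Cfg N) δ ∪ {x : Cfg N | δ ≤ ‖x‖ ∧ ‖x‖ ≤ ρ}, ‖φ j x‖ ^ 2 := by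
    refine setIntegral_mono_set hi.integrableOn (Eventually.of_forall fun x => sq_nonneg _) ?_
    refine Eventually.of_forall fun x hx => ?_
    have hx0 : x ∈ Metric.ball (0 : Cfg N) ρ := hx
    have hx' : ‖x‖ < ρ := by simpa using hx0
    rcases lt_or_ge ‖x‖ δ with h | h
    · exact Or.inl (by simpa using h)
    · exact Or.inr ⟨h, hx'.le⟩
  have h7 : ∫ x in Metric.ball (0 : Cfg N) δ ∪ {x : Cfg N | δ ≤ ‖x‖ ∧ ‖x‖ ≤ ρ}, ‖φ j x‖ ^ 2 =
      (∫ x in Metric.ball (0 : Cfg N) δ, ‖φ j x‖ ^ 2) +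
        ∫ x in {x : Cfg N | δ ≤ ‖x‖ ∧ ‖x‖ ≤ ρ}, ‖φ j x‖ ^ 2 := by
    refine setIntegral_union ?_ hm hi.integrableOn hi.integrableOn
    rw [Set.disjoint_left]
    intro x hx hx'
    have h8 : ‖x‖ < δ := by simpa using hx
    exact absurd hx'.1 (not_le.2 h8)
  linarith

end Crest.Agent.R330.CapZero974

end
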