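import Crest.Agent.R330.WS_596
import Crest.Agent.R330.Rem_365

/-!
# R330 (helper566), S10-LIM: one symmetric channel of the limit system

`Chan S E F` : a finite family `Q α` of first order expressions (596's `FOp`) on functions `E → F`,
covariant under a finite group `S` acting by linear isometries `O s` of `E` and unitaries `U s` of
`F`; `Z` closed null invariant set.

* `X` : smooth compactly supported equivariant functions with support off `Z`;
* `L` : the closed subspace of equivariant elements of `L²`;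
* `e : X → L` (dense range), `D α : X → X`;
* `uniq_sym` : uniqueness of weak zero modes in `L` from uniqueness of weak zero modes in `L²`
  (tested by all smooth compactly supported functions off `Z`);
* `approx_sym` : symmetrisation of approximating sequences.
-/

set_option autoImplicit false
set_option linter.unusedSectionVars false
set_option linter.unusedVariables false
set_option maxHeartbeats 400000

open MeasureTheory Set Filter Topology ENNReal
open scoped ContDiff InnerProductSpace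

noncomputable section
namespace Crest.Agent.R330.Chan566
open Moll596 WS596

variable {S : Type*} [Group S] [Fintype S]
variable {E : Type*} [NormedAddCommGroup E] [InnerProductSpace ℝ E] [FiniteDimensional ℝ E]
  [MeasurableSpace E] [BorelSpace E]
variable {F : Type*} [NormedAddCommGroup F] [InnerProductSpace ℂ F] [FiniteDimensional ℂ F]

/-- a unitary as a real linear map -/
def ul (u : F ≃ₗᵢ[ℂ] F) : F →L[ℝ] F := (u : F →L[ℂ] F).restrictScalars ℝ

@[simp] theorem ul_apply (u : F ≃ₗᵢ[ℂ] F) (v : F) : ul u v = u v := rfl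

variable (S E F) in
/-- symmetric channel -/
structure Chan where
  Q : ℝ → Fin 16 → FOp E F
  O : S →* (E ≃ₗᵢ[ℝ] E)
  U : S →* (F ≃ₗᵢ[ℂ] F)
  Z : Set E
  hB : ∀ m α, ContDiff ℝ ∞ (Q m α).B
  Ac : ∀ m α (c : ℂ) (ℓ : E →L[ℝ] F), (Q m α).A (c • ℓ) = c • (Q m α).A ℓ
  Bc : ∀ m α x (c : ℂ) (v : F), (Q m α).B x (c • v) = c • (Q m α).B x v
  closed : IsClosed Z
  null : (volume : Measure E) Z = 0
  ZO : ∀ s x, x ∈ Z → O s x ∈ Z
  covA : ∀ m α s (ℓ : E →L[ℝ] F),
    (Q m α).A (ul (U s) ∘L ℓ ∘L ((O s⁻¹ : E ≃ₗᵢ[ℝ] E) : E →L[ℝ] E)) = U s ((Q m α).A ℓ)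
  covB : ∀ m α s x (v : F), (Q m α).B (O s x) (U s v) = U s ((Q m α).B x v)

variable (C : Chan S E F)

namespace Chan

theorem O_inv (s : S) (x : E) : C.O s⁻¹ (C.O s x) = x := by
  have : (C.O s⁻¹ * C.O s) x = x := by
    rw [← map_mul, inv_mul_cancel, map_one]; rfl
  exact this

theorem O_inv' (s : S) (x : E) : C.O s (C.O s⁻¹ x) = x := by
  have := C.O_inv s⁻¹ x
  rwa [inv_inv] at this

theorem U_inv (s : S) (v : F) : C.U s⁻¹ (C.U s v) = v := by
  have : (C.U s⁻¹ * C.U s) v = v := by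
    rw [← map_mul, inv_mul_cancel, map_one]; rfl
  exact this

theorem U_inv' (s : S) (v : F) : C.U s (C.U s⁻¹ v) = v := by
  have := C.U_inv s⁻¹ v
  rwa [inv_inv] at this

theorem mem_Z_iff (s : S) (x : E) : C.O s x ∈ C.Z ↔ x ∈ C.Z := by
  refine ⟨fun h => ?_, C.ZO s x⟩
  have := C.ZO s⁻¹ _ h
  rwa [C.O_inv] at this

/-- translate of a function by a group element -/
def tr (s : S) (ψ : E → F) (x : E) : F := C.U s⁻¹ (ψ (C.O s x))

theorem tr_smooth {s : S} {ψ : E → F} (h : ContDiff ℝ ∞ ψ) : ContDiff ℝ ∞ (C.tr s ψ) := by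
  have h1 : ContDiff ℝ ∞ fun x => ψ (C.O s x) :=
    h.comp ((C.O s).toContinuousLinearEquiv.contDiff)
  exact (ul (C.U s⁻¹)).contDiff.comp h1

theorem tr_tsupport {s : S} {ψ : E → F} {x : E} (hx : x ∈ tsupport (C.tr s ψ)) :
    C.O s x ∈ tsupport ψ := by
  have h1 : tsupport (C.tr s ψ) ⊆ (C.O s) ⁻¹' tsupport ψ := by
    refine closure_minimal ?_ ((isClosed_tsupport ψ).preimage (C.O s).continuous)
    intro y hy
    apply subset_tsupport
    intro h0
    apply hy
    simp only [tr, h0, map_zero]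
  exact h1 hx

theorem tr_cpt {s : S} {ψ : E → F} (h : HasCompactSupport ψ) : HasCompactSupport (C.tr s ψ) := by
  have h1 : IsCompact ((C.O s) ⁻¹' tsupport ψ) :=
    (C.O s).toHomeomorph.isCompact_preimage.2 h
  exact h1.of_isClosed_subset (isClosed_tsupport _) fun x hx => C.tr_tsupport hx

theorem op_tr (m : ℝ) (α : Fin 16) (s : S) {ψ : E → F} (h : ContDiff ℝ ∞ ψ) (x : E) :
    (C.Q m α).op (C.tr s ψ) x = C.tr s ((C.Q m α).op ψ) x := by
  have hd : DifferentiableAt ℝ ψ (C.O s x) := h.differentiable (by simp) _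
  have h1 : HasFDerivAt (C.tr s ψ)
      (ul (C.U s⁻¹) ∘L (fderiv ℝ ψ (C.O s x)) ∘L ((C.O s : E ≃ₗᵢ[ℝ] E) : E →L[ℝ] E)) x := by
    have e1 : HasFDerivAt (fun y => C.O s y) ((C.O s : E ≃ₗᵢ[ℝ] E) : E →L[ℝ] E) x :=
      ((C.O s : E ≃ₗᵢ[ℝ] E) : E →L[ℝ] E).hasFDerivAt
    exact (ul (C.U s⁻¹)).hasFDerivAt.comp x (hd.hasFDerivAt.comp x e1)
  have h2 := C.covA m α s⁻¹ (fderiv ℝ ψ (C.O s x))
  rw [inv_inv] at h2
  have h3 := C.covB m α s⁻¹ (C.O s x) (ψ (C.O s x))
  rw [C.O_inv] at h3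
  rw [FOp.op, h1.fderiv, h2, tr, tr, h3, FOp.op, map_add]

/-! ### the test space -/

/-- smooth compactly supported functions with support off `Z` -/
structure Test (ψ : E → F) : Prop where
  smooth : ContDiff ℝ ∞ ψ
  cpt : HasCompactSupport ψ
  off : ∀ x ∈ tsupport ψ, x ∉ C.Z

theorem op_smooth (m : ℝ) (α : Fin 16) {ψ : E → F} (h : ContDiff ℝ ∞ ψ) : ContDiff ℝ ∞ ((C.Q m α).op ψ) := by
  have h1 : ContDiff ℝ ∞ (fderiv ℝ ψ) := h.fderiv_right (by simp)
  exact ((C.Q m α).A.contDiff.comp h1).add ((C.hB m α).clm_apply h)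

theorem op_tsupport (m : ℝ) (α : Fin 16) (ψ : E → F) : tsupport ((C.Q m α).op ψ) ⊆ tsupport ψ := by
  refine closure_minimal ?_ (isClosed_tsupport ψ)
  intro x hx
  by_contra h0
  apply hx
  have h1 : ψ x = 0 := image_eq_zero_of_notMem_tsupport h0
  have h2 : fderiv ℝ ψ x = 0 := by
    by_contra h3
    exact h0 (tsupport_fderiv_subset ℝ (subset_tsupport _ h3))
  rw [FOp.op, h1, h2, map_zero, map_zero, add_zero]

variable {C} in
theorem Test.op {ψ : E → F} (h : C.Test ψ) (m : ℝ) (α : Fin 16) : C.Test ((C.Q m α).op ψ) :=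
  ⟨C.op_smooth m α h.smooth, (C.Q m α).op_supp h.cpt, fun x hx => h.off x (C.op_tsupport m α ψ hx)⟩

variable {C} in
theorem Test.tr {ψ : E → F} (h : C.Test ψ) (s : S) : C.Test (C.tr s ψ) :=
  ⟨C.tr_smooth h.smooth, C.tr_cpt h.cpt, fun x hx hz =>
    h.off _ (C.tr_tsupport hx) (C.ZO s x hz)⟩

variable {C} in
theorem Test.add {ψ φ : E → F} (h : C.Test ψ) (h' : C.Test φ) : C.Test (fun x => ψ x + φ x) :=
  ⟨h.smooth.add h'.smooth, h.cpt.add h'.cpt, fun x hx => by
    have := tsupport_add ψ φ hx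
    rcases this with h1 | h1
    · exact h.off x h1
    · exact h'.off x h1⟩

variable {C} in
theorem Test.smul {ψ : E → F} (h : C.Test ψ) (c : ℂ) : C.Test (fun x => c • ψ x) := by
  have hsub : tsupport (fun x => c • ψ x) ⊆ tsupport ψ := by
    refine closure_minimal ?_ (isClosed_tsupport ψ)
    intro x hx
    apply subset_tsupport
    intro h0
    apply hx
    simp only [h0, smul_zero]
  exact ⟨h.smooth.const_smul c, h.cpt.of_isClosed_subset (isClosed_tsupport _) hsub,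
    fun x hx => h.off x (hsub hx)⟩

theorem Test.zero : C.Test (fun _ : E => (0 : F)) :=
  ⟨contDiff_const, HasCompactSupport.zero, fun x hx => by simp [tsupport] at hx⟩

variable {C} in
theorem Test.sum {ι : Type*} (t : Finset ι) {ψ : ι → E → F} (h : ∀ i ∈ t, C.Test (ψ i)) :
    C.Test (fun x => ∑ i ∈ t, ψ i x) := by
  classical
  induction t using Finset.induction_on with
  | empty => simpa using Test.zero C
  | insert a t ha ih =>
    simp only [Finset.sum_insert ha]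
    exact (h a (Finset.mem_insert_self a t)).add
      (ih fun i hi => h i (Finset.mem_insert_of_mem hi))

variable {C} in
theorem Test.memLp {ψ : E → F} (h : C.Test ψ) : MemLp ψ 2 (volume : Measure E) :=
  h.smooth.continuous.memLp_of_hasCompactSupport h.cpt

/-- equivariant functions -/
def Eqv (ψ : E → F) : Prop := ∀ s x, ψ (C.O s x) = C.U s (ψ x)

theorem tr_of_eqv {ψ : E → F} (h : C.Eqv ψ) (s : S) : C.tr s ψ = ψ := by
  funext x
  rw [tr, h, C.U_inv]

theorem eqv_of_tr {ψ : E → F} (h : ∀ s, C.tr s ψ = ψ) : C.Eqv ψ := by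
  intro s x
  have := congrFun (h s) x
  rw [tr] at this
  rw [← this, C.U_inv']

/-- **the test space of the channel** -/
def X : Submodule ℂ (E → F) where
  carrier := {χ | C.Test χ ∧ C.Eqv χ}
  add_mem' := by
    rintro a b ⟨h1, h2⟩ ⟨h3, h4⟩
    refine ⟨h1.add h3, fun s x => ?_⟩
    simp only [Pi.add_apply, h2 s x, h4 s x, map_add]
  zero_mem' := ⟨Test.zero C, fun s x => by simp⟩
  smul_mem' := by
    rintro c a ⟨h1, h2⟩
    refine ⟨h1.smul c, fun s x => ?_⟩
    simp only [Pi.smul_apply, h2 s x, map_smul]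

theorem mem_X {χ : E → F} : χ ∈ C.X ↔ C.Test χ ∧ C.Eqv χ := Iff.rfl

theorem op_add (m : ℝ) (α : Fin 16) {ψ φ : E → F} (h : ContDiff ℝ ∞ ψ) (h' : ContDiff ℝ ∞ φ) (x : E) :
    (C.Q m α).op (fun y => ψ y + φ y) x = (C.Q m α).op ψ x + (C.Q m α).op φ x := by
  have h1 : DifferentiableAt ℝ ψ x := h.differentiable (by simp) x
  have h2 : DifferentiableAt ℝ φ x := h'.differentiable (by simp) x
  rw [FOp.op, fderiv_fun_add h1 h2, FOp.op, FOp.op, map_add, map_add]
  abel

theorem op_csmul (m : ℝ) (α : Fin 16) (c : ℂ) {ψ : E → F} (h : ContDiff ℝ ∞ ψ) (x : E) :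
    (C.Q m α).op (fun y => c • ψ y) x = c • (C.Q m α).op ψ x := by
  have h1 : DifferentiableAt ℝ ψ x := h.differentiable (by simp) x
  rw [FOp.op, fderiv_fun_const_smul h1 c, FOp.op, C.Ac, C.Bc, smul_add]

theorem op_sum (m : ℝ) (α : Fin 16) {ι : Type*} (t : Finset ι) {ψ : ι → E → F}
    (h : ∀ i, ContDiff ℝ ∞ (ψ i)) (x : E) :
    (C.Q m α).op (fun y => ∑ i ∈ t, ψ i y) x = ∑ i ∈ t, (C.Q m α).op (ψ i) x := by
  classical
  induction t using Finset.induction_on with
  | empty =>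
    simp only [Finset.sum_empty]
    rw [FOp.op]
    simp
  | insert a t ha ih =>
    simp only [Finset.sum_insert ha]
    rw [C.op_add m α (h a) (ContDiff.sum fun i _ => h i), ih]

/-- **the charges of the channel** -/
def D (m : ℝ) (α : Fin 16) : C.X →ₗ[ℂ] C.X where
  toFun χ := ⟨(C.Q m α).op χ.1, χ.2.1.op m α, C.eqv_of_tr fun s => by
    funext x
    rw [← C.op_tr m α s χ.2.1.smooth, C.tr_of_eqv χ.2.2]⟩
  map_add' χ χ' := by
    apply Subtype.ext
    funext x
    exact C.op_add m α χ.2.1.smooth χ'.2.1.smooth x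
  map_smul' c χ := by
    apply Subtype.ext
    funext x
    exact C.op_csmul m α c χ.2.1.smooth x

@[simp] theorem D_apply (m : ℝ) (α : Fin 16) (χ : C.X) : ((C.D m α χ : C.X) : E → F) = (C.Q m α).op χ.1 := rfl

/-- radial multiplication on the test space -/
def W (w : ℝ → ℝ) (hw : ContDiff ℝ ∞ w) : C.X →ₗ[ℂ] C.X where
  toFun χ := ⟨fun x => w (‖x‖ ^ 2) • χ.1 x, by
    have hsub : tsupport (fun x => w (‖x‖ ^ 2) • χ.1 x) ⊆ tsupport χ.1 := by
      refine closure_minimal ?_ (isClosed_tsupport χ.1)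
      intro x hx
      apply subset_tsupport
      intro h0
      apply hx
      simp only [h0, smul_zero]
    have hs : ContDiff ℝ ∞ fun x : E => w (‖x‖ ^ 2) := hw.comp (contDiff_norm_sq ℝ)
    refine ⟨⟨hs.smul χ.2.1.smooth, χ.2.1.cpt.of_isClosed_subset (isClosed_tsupport _) hsub,
      fun x hx => χ.2.1.off x (hsub hx)⟩, fun s x => ?_⟩
    have h1 := map_smul (ul (C.U s)) (w (‖x‖ ^ 2)) (χ.1 x)
    simp only [ul_apply] at h1
    show w (‖C.O s x‖ ^ 2) • χ.1 (C.O s x) = C.U s (w (‖x‖ ^ 2) • χ.1 x)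
    rw [LinearIsometryEquiv.norm_map, χ.2.2 s x, h1]⟩
  map_add' χ χ' := by
    apply Subtype.ext
    funext x
    exact smul_add _ _ _
  map_smul' c χ := by
    apply Subtype.ext
    funext x
    exact smul_comm _ _ _

@[simp] theorem W_apply (w : ℝ → ℝ) (hw : ContDiff ℝ ∞ w) (χ : C.X) (x : E) :
    ((C.W w hw χ : C.X) : E → F) x = w (‖x‖ ^ 2) • χ.1 x := rfl

/-! ### the space of equivariant `L²` functions -/

theorem mp (s : S) : MeasurePreserving (C.O s) (volume : Measure E) volume :=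
  (C.O s).measurePreserving

/-- composition with the isometry, on `L²` -/
def cO (s : S) : Lp F 2 (volume : Measure E) →L[ℂ] Lp F 2 (volume : Measure E) :=
  (Lp.compMeasurePreservingₗᵢ ℂ (C.O s) (C.mp s)).toContinuousLinearMap

/-- the unitary, on `L²` -/
def cU (s : S) : Lp F 2 (volume : Measure E) →L[ℂ] Lp F 2 (volume : Measure E) :=
  ContinuousLinearMap.compLpL 2 volume (C.U s : F →L[ℂ] F)

theorem cO_coe (s : S) (f : Lp F 2 (volume : Measure E)) :
    (C.cO s f : E → F) =ᵐ[volume] fun x => f (C.O s x) :=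
  Lp.coeFn_compMeasurePreserving f (C.mp s)

theorem cU_coe (s : S) (f : Lp F 2 (volume : Measure E)) :
    (C.cU s f : E → F) =ᵐ[volume] fun x => C.U s (f x) :=
  ContinuousLinearMap.coeFn_compLpL _ f

/-- **the space of the channel** -/
def L : Submodule ℂ (Lp F 2 (volume : Measure E)) where
  carrier := {f | ∀ s, C.cO s f = C.cU s f}
  add_mem' := by
    intro a b h1 h2 s
    rw [map_add, map_add, h1 s, h2 s]
  zero_mem' := fun s => by simp
  smul_mem' := by
    intro c a h s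
    rw [map_smul, map_smul, h s]

theorem mem_L {f : Lp F 2 (volume : Measure E)} :
    f ∈ C.L ↔ ∀ s, (fun x => f (C.O s x)) =ᵐ[volume] fun x => C.U s (f x) := by
  refine forall_congr' fun s => ?_
  constructor
  · intro h
    exact (C.cO_coe s f).symm.trans ((by rw [h] : (C.cO s f : E → F) =ᵐ[volume] C.cU s f).trans
      (C.cU_coe s f))
  · intro h
    apply Lp.ext
    exact (C.cO_coe s f).trans (h.trans (C.cU_coe s f).symm)

theorem isClosed_L : IsClosed (C.L : Set (Lp F 2 (volume : Measure E))) := by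
  have : (C.L : Set (Lp F 2 (volume : Measure E))) = ⋂ s, {f | C.cO s f = C.cU s f} := by
    ext f
    simp only [Set.mem_iInter, Set.mem_ofPred_eq]
    exact Iff.rfl
  rw [this]
  exact isClosed_iInter fun s => isClosed_eq (C.cO s).continuous (C.cU s).continuous

instance : CompleteSpace C.L := C.isClosed_L.completeSpace_coe

/-- **embedding of the test space** -/
def e : C.X →ₗ[ℂ] C.L where
  toFun χ := ⟨(χ.2.1.memLp).toLp χ.1, C.mem_L.2 fun s => by
    have h1 := (χ.2.1.memLp).coeFn_toLp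
    have h2 := (C.mp s).quasiMeasurePreserving.ae_eq_comp h1
    filter_upwards [h1, h2] with x hx hx2
    simp only [Function.comp_apply] at hx2
    rw [hx2, hx, χ.2.2 s x]⟩
  map_add' χ χ' := by
    apply Subtype.ext
    exact MemLp.toLp_add χ.2.1.memLp χ'.2.1.memLp
  map_smul' c χ := by
    apply Subtype.ext
    exact MemLp.toLp_const_smul c χ.2.1.memLp

theorem e_coe (χ : C.X) : ((C.e χ : C.L) : Lp F 2 (volume : Measure E)) = (χ.2.1.memLp).toLp χ.1 :=
  rfl

theorem e_ae (χ : C.X) : (((C.e χ : C.L) : Lp F 2 (volume : Measure E)) : E → F) =ᵐ[volume] χ.1 :=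
  (χ.2.1.memLp).coeFn_toLp

theorem inner_e (f : C.L) (χ : C.X) :
    ⟪f, C.e χ⟫_ℂ = ∫ x, ⟪(f : Lp F 2 (volume : Measure E)) x, χ.1 x⟫_ℂ := by
  have : ⟪f, C.e χ⟫_ℂ = ⟪(f : Lp F 2 (volume : Measure E)), (C.e χ : Lp F 2 (volume : Measure E))⟫_ℂ :=
    rfl
  rw [this, L2.inner_def]
  refine integral_congr_ae ?_
  filter_upwards [C.e_ae χ] with x hx
  rw [hx]

theorem inner_e_e (χ χ' : C.X) : ⟪C.e χ, C.e χ'⟫_ℂ = ∫ x, ⟪χ.1 x, χ'.1 x⟫_ℂ := by
  rw [C.inner_e]
  refine integral_congr_ae ?_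
  filter_upwards [C.e_ae χ] with x hx
  rw [hx]

/-! ### symmetrisation -/

/-- group average -/
def avg (ψ : E → F) (x : E) : F := ((Fintype.card S : ℝ)⁻¹ : ℝ) • ∑ s, C.tr s ψ x

theorem tr_tr (s t : S) (ψ : E → F) : C.tr t (C.tr s ψ) = C.tr (s * t) ψ := by
  funext x
  simp only [tr]
  rw [mul_inv_rev, map_mul, map_mul]
  rfl

theorem avg_eqv (ψ : E → F) : C.Eqv (C.avg ψ) := by
  refine C.eqv_of_tr fun t => ?_
  funext x
  have h1 : C.tr t (C.avg ψ) x = ((Fintype.card S : ℝ)⁻¹ : ℝ) • ∑ s, C.tr t (C.tr s ψ) x := by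
    simp only [tr, avg]
    have := map_smul (ul (C.U t⁻¹)) ((Fintype.card S : ℝ)⁻¹ : ℝ)
      (∑ s, C.U s⁻¹ (ψ (C.O s (C.O t x))))
    simp only [ul_apply] at this
    rw [this, map_sum]
  rw [h1, avg]
  congr 1
  simp only [C.tr_tr]
  exact Fintype.sum_equiv (Equiv.mulRight t) _ _ fun s => rfl

variable {C} in
theorem Test.avg {ψ : E → F} (h : C.Test ψ) : C.Test (C.avg ψ) := by
  have h1 : C.Test (fun x => ∑ s, C.tr s ψ x) := Test.sum _ fun s _ => h.tr s
  have h2 := h1.smul ((Fintype.card S : ℝ)⁻¹ : ℝ)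
  have e1 : (fun x => (((Fintype.card S : ℝ)⁻¹ : ℝ) : ℂ) • ∑ s, C.tr s ψ x) = C.avg ψ := by
    funext x
    rw [Chan.avg, Complex.coe_smul]
  rwa [e1] at h2

/-- the average as an element of the test space -/
def sym {ψ : E → F} (h : C.Test ψ) : C.X := ⟨C.avg ψ, h.avg, C.avg_eqv ψ⟩

theorem op_avg (m : ℝ) (α : Fin 16) {ψ : E → F} (h : ContDiff ℝ ∞ ψ) (x : E) :
    (C.Q m α).op (C.avg ψ) x = C.avg ((C.Q m α).op ψ) x := by
  have e1 : C.avg ψ = fun x => (((Fintype.card S : ℝ)⁻¹ : ℝ) : ℂ) • ∑ s, C.tr s ψ x := by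
    funext x
    rw [Chan.avg, Complex.coe_smul]
  rw [e1, C.op_csmul m α _ (ContDiff.sum fun s _ => C.tr_smooth h),
    C.op_sum m α _ fun s => C.tr_smooth h, avg, Complex.coe_smul]
  congr 1
  exact Finset.sum_congr rfl fun s _ => C.op_tr m α s h x

theorem D_sym (m : ℝ) (α : Fin 16) {ψ : E → F} (h : C.Test ψ) :
    C.D m α (C.sym h) = C.sym (h.op m α) := by
  apply Subtype.ext
  funext x
  exact C.op_avg m α h.smooth x

theorem inner_tr (f : C.L) (s : S) {ψ : E → F} (h : MemLp ψ 2 (volume : Measure E)) :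
    ∫ x, ⟪(f : Lp F 2 (volume : Measure E)) x, C.tr s ψ x⟫_ℂ
      = ∫ x, ⟪(f : Lp F 2 (volume : Measure E)) x, ψ x⟫_ℂ := by
  have h1 := C.mem_L.1 f.2 s
  have e1 : ∫ x, ⟪(f : Lp F 2 (volume : Measure E)) x, C.tr s ψ x⟫_ℂ
      = ∫ x, ⟪(f : Lp F 2 (volume : Measure E)) (C.O s x), ψ (C.O s x)⟫_ℂ := by
    refine integral_congr_ae ?_
    filter_upwards [h1] with x hx
    rw [hx, tr, ← (C.U s).inner_map_map _ (C.U s⁻¹ (ψ (C.O s x))), C.U_inv']
  rw [e1]
  exact (C.mp s).integral_comp (C.O s).toHomeomorph.measurableEmbedding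
    (fun x => ⟪(f : Lp F 2 (volume : Measure E)) x, ψ x⟫_ℂ)

theorem integrable_inner {f g : E → F} (hf : MemLp f 2 (volume : Measure E))
    (hg : MemLp g 2 (volume : Measure E)) : Integrable fun x => ⟪f x, g x⟫_ℂ := by
  refine (L2.integrable_inner (𝕜 := ℂ) (hf.toLp f) (hg.toLp g)).congr ?_
  filter_upwards [hf.coeFn_toLp, hg.coeFn_toLp] with x h1 h2
  rw [h1, h2]

theorem memLp_tr (s : S) {ψ : E → F} (h : MemLp ψ 2 (volume : Measure E)) :
    MemLp (C.tr s ψ) 2 (volume : Measure E) :=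
  ContinuousLinearMap.comp_memLp' (C.U s⁻¹ : F →L[ℂ] F) (h.comp_measurePreserving (C.mp s))

theorem inner_avg (f : C.L) {ψ : E → F} (h : MemLp ψ 2 (volume : Measure E)) :
    ∫ x, ⟪(f : Lp F 2 (volume : Measure E)) x, C.avg ψ x⟫_ℂ
      = ∫ x, ⟪(f : Lp F 2 (volume : Measure E)) x, ψ x⟫_ℂ := by
  have hf : MemLp ((f : Lp F 2 (volume : Measure E)) : E → F) 2 volume := Lp.memLp _
  have hc : (Fintype.card S : ℂ) ≠ 0 := by
    exact_mod_cast (Fintype.card_pos (α := S)).ne'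
  calc ∫ x, ⟪(f : Lp F 2 (volume : Measure E)) x, C.avg ψ x⟫_ℂ
      = ∫ x, (Fintype.card S : ℂ)⁻¹ *
          ∑ s, ⟪(f : Lp F 2 (volume : Measure E)) x, C.tr s ψ x⟫_ℂ := by
        congr 1
        funext x
        rw [avg, inner_rsmul_right, inner_sum]
        push_cast
        rfl
    _ = (Fintype.card S : ℂ)⁻¹ *
          ∑ s, ∫ x, ⟪(f : Lp F 2 (volume : Measure E)) x, C.tr s ψ x⟫_ℂ := by
        rw [integral_const_mul, integral_finsetSum _ fun s _ =>
          integrable_inner hf (C.memLp_tr s h)]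
    _ = _ := by
        rw [Finset.sum_congr rfl fun s _ => C.inner_tr f s h]
        rw [Finset.sum_const, Finset.card_univ, nsmul_eq_mul, ← mul_assoc, inv_mul_cancel₀ hc,
          one_mul]

/-! ### hypothesis (e), uniqueness part -/

/-- **uniqueness in the symmetric space** from uniqueness of weak zero modes off `Z` -/
theorem uniq_sym (m : ℝ) {Φ₀ : Lp F 2 (volume : Measure E)}
    (huniq : ∀ f : Lp F 2 (volume : Measure E),
      (∀ ψ : E → F, C.Test ψ → ∀ α, ∫ x, ⟪f x, (C.Q m α).op ψ x⟫_ℂ = 0) → ∃ c : ℂ, f = c • Φ₀)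
    (f : C.L) (hf : ∀ (χ : C.X) (α : Fin 16), ⟪f, C.e (C.D m α χ)⟫_ℂ = 0) :
    ∃ c : ℂ, (f : Lp F 2 (volume : Measure E)) = c • Φ₀ := by
  refine huniq f fun ψ hψ α => ?_
  have h1 := hf (C.sym hψ) α
  rw [C.D_sym, C.inner_e] at h1
  have h2 := C.inner_avg f (hψ.op m α).memLp
  rw [← h2]
  exact h1

end Chan
end Crest.Agent.R330.Chan566
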