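import Crest.Agent.R330.Decay2_968
import Crest.Agent.R330.IBP_837
import Crest.Agent.R330.Rellich_893

/-!
# Row 330, S9 (helper968): local limits of core functions

* `op_symm` : integration by parts for formally symmetric `FOp`.
* `LC f u` : convergence in `L²` of every ball; `eqv_of_lc`, `pair_of_lc`.
* `Ker Q S Ψ` : zero states; `sol_of_lim` : local limits of core functions with `Q_a f_n → 0` are
  solutions; `Ker.sol`, `Sol.ker`.
-/

set_option autoImplicit false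
set_option linter.unusedSectionVars false
set_option linter.unusedVariables false

open MeasureTheory Set Filter Topology ENNReal
open scoped ContDiff InnerProductSpace

noncomputable section

namespace Crest.Agent.R330.Decay968

open Moll596 WS596

variable {E : Type*} [NormedAddCommGroup E] [InnerProductSpace ℝ E] [FiniteDimensional ℝ E]
  [MeasurableSpace E] [BorelSpace E]
variable {F : Type*} [NormedAddCommGroup F] [InnerProductSpace ℂ F] [CompleteSpace F]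
variable {κ : Type*} [Fintype κ]
variable {Q : κ → FOp E F} {S : Set ((E ≃ₗᵢ[ℝ] E) × (F →L[ℝ] F))} {u : E → F}
  {k R₀ : ℝ}

/-! ### Integration by parts -/

theorem clm_decomp (L : E →L[ℝ] F) : L = ∑ i, (innerSL ℝ (stdOrthonormalBasis ℝ E i)).smulRight
    (L (stdOrthonormalBasis ℝ E i)) := by
  ext x
  have h := (stdOrthonormalBasis ℝ E).sum_repr' x
  conv_lhs => rw [← h]
  rw [map_sum, sum_apply]
  refine Finset.sum_congr rfl fun i _ => ?_
  simp

/-- **Integration by parts.** -/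
theorem op_symm {P : FOp E F} (hP : Adj P P) {φ ψ : E → F} (hφ : ContDiff ℝ ∞ φ)
    (hφc : HasCompactSupport φ) (hψ : ContDiff ℝ ∞ ψ) (hψc : HasCompactSupport ψ) :
    ∫ x, ⟪P.op ψ x, φ x⟫_ℂ = ∫ x, ⟪ψ x, P.op φ x⟫_ℂ := by
  set e := stdOrthonormalBasis ℝ E with he
  set ℓ : Fin (Module.finrank ℝ E) → (E →L[ℝ] ℝ) := fun i => innerSL ℝ (e i) with hℓ
  have hdψ : ∀ i, Continuous fun x => fderiv ℝ ψ x (e i) := fun i =>
    (hψ.continuous_fderiv (by simp)).clm_apply continuous_const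
  have hdφ : ∀ i, Continuous fun x => fderiv ℝ φ x (e i) := fun i =>
    (hφ.continuous_fderiv (by simp)).clm_apply continuous_const
  have hsr : ∀ i (f : E → F), Continuous f → Continuous fun x => P.A ((ℓ i).smulRight (f x)) :=
    fun i f hf => P.A.continuous.comp
      ((ContinuousLinearMap.smulRightL ℝ E F (ℓ i)).continuous.comp hf)
  -- the function `A(ℓ_i ⊗ φ)`
  have hAφ : ∀ i, ContDiff ℝ 1 fun x => P.A ((ℓ i).smulRight (φ x)) := fun i =>
    (P.A.contDiff.comp ((ContinuousLinearMap.smulRightL ℝ E F (ℓ i)).contDiff.comp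
      (hφ.of_le (by simp))))
  have hdA : ∀ i x v, fderiv ℝ (fun x => P.A ((ℓ i).smulRight (φ x))) x v =
      P.A ((ℓ i).smulRight (fderiv ℝ φ x v)) := fun i x v => by
    have h1 : HasFDerivAt φ (fderiv ℝ φ x) x := (hφ.differentiable (by simp) x).hasFDerivAt
    have h2 := (P.A.hasFDerivAt).comp x
      (((ContinuousLinearMap.smulRightL ℝ E F (ℓ i)).hasFDerivAt).comp x h1)
    have h3 : fderiv ℝ (fun x => P.A ((ℓ i).smulRight (φ x))) x = _ := h2.fderiv
    rw [h3]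
    rfl
  have iψ : ∀ i, Integrable fun x => ⟪P.A ((ℓ i).smulRight (fderiv ℝ ψ x (e i))), φ x⟫_ℂ :=
    fun i => by
      refine Continuous.integrable_of_hasCompactSupport ((hsr i _ (hdψ i)).inner hφ.continuous) ?_
      exact hφc.mono' (fun x hx => subset_tsupport _ fun h0 => hx (by simp only [h0,
        inner_zero_right]))
  have iφ : ∀ i, Integrable fun x => ⟪ψ x, P.A ((ℓ i).smulRight (fderiv ℝ φ x (e i)))⟫_ℂ :=
    fun i => by
      refine Continuous.integrable_of_hasCompactSupport (hψ.continuous.inner (hsr i _ (hdφ i))) ?_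
      exact hψc.mono' (fun x hx => subset_tsupport _ fun h0 => hx (by simp only [h0,
        inner_zero_left]))
  have hBφ : Continuous fun x => P.B x (φ x) := P.contB.clm_apply hφ.continuous
  have hBψ : Continuous fun x => P.B x (ψ x) := P.contB.clm_apply hψ.continuous
  have iB : Integrable fun x => ⟪P.B x (ψ x), φ x⟫_ℂ := by
    refine Continuous.integrable_of_hasCompactSupport (hBψ.inner hφ.continuous) ?_
    exact hφc.mono' (fun x hx => subset_tsupport _ fun h0 => hx (by simp only [h0,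
      inner_zero_right]))
  have iB' : Integrable fun x => ⟪ψ x, P.B x (φ x)⟫_ℂ := by
    refine Continuous.integrable_of_hasCompactSupport (hψ.continuous.inner hBφ) ?_
    exact hψc.mono' (fun x hx => subset_tsupport _ fun h0 => hx (by simp only [h0,
      inner_zero_left]))
  have e1 : ∀ x, ⟪P.op ψ x, φ x⟫_ℂ =
      ∑ i, ⟪P.A ((ℓ i).smulRight (fderiv ℝ ψ x (e i))), φ x⟫_ℂ + ⟪P.B x (ψ x), φ x⟫_ℂ := fun x => by
    rw [FOp.op, inner_add_left]
    congr 1
    conv_lhs => rw [clm_decomp (fderiv ℝ ψ x)]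
    rw [map_sum, sum_inner]
  have e2 : ∀ x, ⟪ψ x, P.op φ x⟫_ℂ =
      ∑ i, ⟪ψ x, P.A ((ℓ i).smulRight (fderiv ℝ φ x (e i)))⟫_ℂ + ⟪ψ x, P.B x (φ x)⟫_ℂ := fun x => by
    rw [FOp.op, inner_add_right]
    congr 1
    conv_lhs => rw [clm_decomp (fderiv ℝ φ x)]
    rw [map_sum, inner_sum]
  simp only [e1, e2]
  rw [integral_add (integrable_finsetSum _ fun i _ => iψ i) iB,
    integral_add (integrable_finsetSum _ fun i _ => iφ i) iB', integral_finsetSum _ fun i _ => iψ i,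
    integral_finsetSum _ fun i _ => iφ i]
  congr 1
  · refine Finset.sum_congr rfl fun i _ => ?_
    have h1 : ∀ x, ⟪P.A ((ℓ i).smulRight (fderiv ℝ ψ x (e i))), φ x⟫_ℂ =
        -⟪fderiv ℝ ψ x (e i), P.A ((ℓ i).smulRight (φ x))⟫_ℂ := fun x => by
      rw [hP.A, neg_neg]
    simp only [h1]
    rw [integral_neg, IBP837.ibp (hψ.of_le (by simp)) (hAφ i) (Or.inl hψc) (e i), neg_neg]
    simp only [hdA]
  · refine integral_congr_ae (Eventually.of_forall fun x => ?_)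
    simp only
    rw [hP.B]

/-! ### Local limits -/

/-- Convergence in `L²` of every ball. -/
def LC (f : ℕ → E → F) (u : E → F) : Prop :=
  ∀ R : ℝ, Tendsto (fun n => ∫⁻ x in {x | ‖x‖ ≤ R}, ‖f n x - u x‖ₑ ^ 2) atTop (𝓝 0)

theorem measurableSet_cball (R : ℝ) : MeasurableSet {x : E | ‖x‖ ≤ R} :=
  measurableSet_le measurable_norm measurable_const

theorem enorm_sq_eq (v : F) : ‖v‖ₑ ^ 2 = ENNReal.ofReal (‖v‖ ^ 2) := by
  rw [← ofReal_norm, ENNReal.ofReal_pow (norm_nonneg _)]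

theorem enorm_add_sq_le (v w : F) : ‖v + w‖ₑ ^ 2 ≤ 2 * ‖v‖ₑ ^ 2 + 2 * ‖w‖ₑ ^ 2 := by
  have h2 : (2 : ℝ≥0∞) = ENNReal.ofReal 2 := by norm_num
  rw [enorm_sq_eq, enorm_sq_eq, enorm_sq_eq, h2, ← ENNReal.ofReal_mul (by norm_num),
    ← ENNReal.ofReal_mul (by norm_num), ← ENNReal.ofReal_add (by positivity) (by positivity)]
  refine ENNReal.ofReal_le_ofReal ?_
  have h3 := norm_add_le v w
  have h4 := norm_nonneg (v + w)
  have h5 : ‖v + w‖ ^ 2 ≤ (‖v‖ + ‖w‖) ^ 2 := pow_le_pow_left₀ h4 h3 2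
  nlinarith [sq_nonneg (‖v‖ - ‖w‖)]

theorem lintegral_add_sq_le {μ : Measure E} {f g : E → F} (hf : AEStronglyMeasurable f μ) :
    ∫⁻ x, ‖f x + g x‖ₑ ^ 2 ∂μ ≤ 2 * ∫⁻ x, ‖f x‖ₑ ^ 2 ∂μ + 2 * ∫⁻ x, ‖g x‖ₑ ^ 2 ∂μ := by
  rw [← lintegral_const_mul' _ _ (by norm_num), ← lintegral_const_mul' _ _ (by norm_num),
    ← lintegral_add_left' ((hf.enorm.pow_const 2).const_mul 2)]
  exact lintegral_mono fun x => enorm_add_sq_le _ _

/-- Symmetries pass to local limits. -/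
theorem eqv_of_lc {f : ℕ → E → F} (hf : ∀ n, Continuous (f n)) (hu : AEStronglyMeasurable u volume)
    (h : LC f u) (g : E ≃ₗᵢ[ℝ] E) (T : F →L[ℝ] F) (hs : ∀ n x, f n (g x) = T (f n x)) :
    ∀ᵐ x, u (g x) = T (u x) := by
  have hug : AEStronglyMeasurable (fun x => u (g x)) volume :=
    hu.comp_measurePreserving g.measurePreserving
  have hTu : AEStronglyMeasurable (fun x => T (u x)) volume := T.continuous.comp_aestronglyMeasurable hu
  have key : ∀ R : ℝ, ∫⁻ x in {x | ‖x‖ ≤ R}, ‖u (g x) - T (u x)‖ₑ ^ 2 = 0 := fun R => by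
    have hle : ∀ n, ∫⁻ x in {x | ‖x‖ ≤ R}, ‖u (g x) - T (u x)‖ₑ ^ 2 ≤
        2 * (∫⁻ x in {x | ‖x‖ ≤ R}, ‖f n x - u x‖ₑ ^ 2) +
          2 * (ENNReal.ofReal (‖T‖ ^ 2) * ∫⁻ x in {x | ‖x‖ ≤ R}, ‖f n x - u x‖ₑ ^ 2) := fun n => by
      have e : ∀ x, u (g x) - T (u x) = (u (g x) - f n (g x)) + T (f n x - u x) := fun x => by
        rw [map_sub, ← hs n x]
        abel
      simp only [e]
      refine (lintegral_add_sq_le ((hug.sub ((hf n).comp g.continuous).aestronglyMeasurable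
        ).restrict)).trans ?_
      refine add_le_add (mul_le_mul_right ?_ 2) (mul_le_mul_right ?_ 2)
      · have h1 : ∫⁻ x in {x | ‖x‖ ≤ R}, ‖u (g x) - f n (g x)‖ₑ ^ 2 =
            ∫⁻ x in {x | ‖x‖ ≤ R}, ‖u x - f n x‖ₑ ^ 2 := by
          have h2 := (g.measurePreserving).setLIntegral_comp_preimage_emb
            g.toHomeomorph.measurableEmbedding (fun x => ‖u x - f n x‖ₑ ^ 2) {x | ‖x‖ ≤ R}
          rw [← h2]
          congr 2
          ext x
          simp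
        refine (le_of_eq h1).trans ?_
        refine le_of_eq (lintegral_congr fun x => ?_)
        rw [← enorm_neg, neg_sub]
      · rw [← lintegral_const_mul' _ _ ENNReal.ofReal_ne_top]
        refine lintegral_mono fun x => ?_
        rw [enorm_sq_eq, enorm_sq_eq, ← ENNReal.ofReal_mul (by positivity), ← mul_pow]
        exact ENNReal.ofReal_le_ofReal (pow_le_pow_left₀ (norm_nonneg _) (T.le_opNorm _) 2)
    have ht : Tendsto (fun n => 2 * (∫⁻ x in {x | ‖x‖ ≤ R}, ‖f n x - u x‖ₑ ^ 2) +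
          2 * (ENNReal.ofReal (‖T‖ ^ 2) * ∫⁻ x in {x | ‖x‖ ≤ R}, ‖f n x - u x‖ₑ ^ 2)) atTop (𝓝 0) := by
      have h1 := ENNReal.Tendsto.const_mul (a := 2) (h R) (Or.inr (by norm_num))
      have h2 := ENNReal.Tendsto.const_mul (a := 2) (ENNReal.Tendsto.const_mul
        (a := ENNReal.ofReal (‖T‖ ^ 2)) (h R) (Or.inr ENNReal.ofReal_ne_top)) (Or.inr (by norm_num))
      simpa using h1.add h2
    exact le_antisymm (ge_of_tendsto' ht hle) zero_le
  have hae : ∀ n : ℕ, ∀ᵐ x, x ∈ {x : E | ‖x‖ ≤ n} → u (g x) = T (u x) := fun n => by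
    have h1 := (lintegral_eq_zero_iff' ((hug.sub hTu).enorm.pow_const 2).restrict).1 (key n)
    rw [← ae_restrict_iff' (measurableSet_cball _)]
    filter_upwards [h1] with x hx
    have h2 : ‖u (g x) - T (u x)‖ₑ = 0 := by
      simpa using hx
    rwa [enorm_eq_zero, sub_eq_zero] at h2
  filter_upwards [ae_all_iff.2 hae] with x hx
  obtain ⟨n, hn⟩ := exists_nat_ge ‖x‖
  exact hx n hn

/-- Pairings with test functions pass to local limits. -/
theorem pair_of_lc {f : ℕ → E → F} (hf : ∀ n, Continuous (f n)) (hu : AEStronglyMeasurable u volume)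
    (h : LC f u) (hul : LocallyIntegrable u volume) {ψ : E → F} (hψ : Continuous ψ)
    (hψc : HasCompactSupport ψ) :
    Tendsto (fun n => ∫ x, ⟪ψ x, f n x⟫_ℂ) atTop (𝓝 (∫ x, ⟪ψ x, u x⟫_ℂ)) := by
  obtain ⟨R, hR⟩ : ∃ R : ℝ, ∀ x, R < ‖x‖ → ψ x = 0 := by
    obtain ⟨R, hR⟩ := hψc.isCompact.isBounded.exists_norm_le
    refine ⟨R, fun x hx => ?_⟩
    by_contra h0
    exact absurd (hR x (subset_tsupport _ h0)) (not_le.2 hx)
  have i1 : ∀ n, Integrable fun x => ⟪ψ x, f n x⟫_ℂ := fun n =>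
    integrable_inner_left hψ hψc ((hf n).locallyIntegrable)
  have i2 : Integrable fun x => ⟪ψ x, u x⟫_ℂ := integrable_inner_left hψ hψc hul
  rw [tendsto_iff_norm_sub_tendsto_zero]
  set A : ℝ≥0∞ := (∫⁻ x, ‖ψ x‖ₑ ^ 2) ^ (1 / 2 : ℝ) with hA
  have hAfin : A ≠ ⊤ := by
    rw [hA]
    refine ENNReal.rpow_ne_top_of_nonneg (by norm_num) ?_
    exact n2_ne_top (hψ.memLp_of_hasCompactSupport hψc)
  have hkey : ∀ n, ENNReal.ofReal ‖(∫ x, ⟪ψ x, f n x⟫_ℂ) - ∫ x, ⟪ψ x, u x⟫_ℂ‖ ≤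
      A * (∫⁻ x in {x | ‖x‖ ≤ R}, ‖f n x - u x‖ₑ ^ 2) ^ (1 / 2 : ℝ) := fun n => by
    rw [← integral_sub (i1 n) i2]
    have e : ∀ x, ⟪ψ x, f n x⟫_ℂ - ⟪ψ x, u x⟫_ℂ = ⟪ψ x, f n x - u x⟫_ℂ := fun x =>
      (inner_sub_right _ _ _).symm
    simp only [e]
    rw [ofReal_norm]
    refine (enorm_integral_le_lintegral_enorm _).trans ?_
    have h1 : ∫⁻ x, ‖⟪ψ x, f n x - u x⟫_ℂ‖ₑ ≤
        ∫⁻ x in {x | ‖x‖ ≤ R}, ‖ψ x‖ₑ * ‖f n x - u x‖ₑ := by
      rw [← lintegral_indicator (measurableSet_cball R)]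
      refine lintegral_mono fun x => ?_
      by_cases hx : ‖x‖ ≤ R
      · rw [indicator_of_mem (show x ∈ {x | ‖x‖ ≤ R} from hx)]
        rw [← ofReal_norm, ← ofReal_norm, ← ofReal_norm, ← ENNReal.ofReal_mul (norm_nonneg _)]
        exact ENNReal.ofReal_le_ofReal (norm_inner_le_norm _ _)
      · rw [hR x (not_le.1 hx), inner_zero_left]
        simp
    refine h1.trans ?_
    have h2 := ENNReal.lintegral_mul_le_Lp_mul_Lq ((volume : Measure E).restrict {x | ‖x‖ ≤ R})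
      (Real.HolderConjugate.two_two) (f := fun x => ‖ψ x‖ₑ) (g := fun x => ‖f n x - u x‖ₑ)
      hψ.aestronglyMeasurable.enorm.restrict
      (((hf n).aestronglyMeasurable.sub hu).enorm.restrict)
    refine h2.trans ?_
    simp only [ENNReal.rpow_two]
    rw [hA]
    gcongr
    exact Measure.restrict_le_self
  have ht : Tendsto (fun n => A * (∫⁻ x in {x | ‖x‖ ≤ R}, ‖f n x - u x‖ₑ ^ 2) ^ (1 / 2 : ℝ))
      atTop (𝓝 0) := by
    have h1 := (ENNReal.continuous_rpow_const (y := (1 / 2 : ℝ))).continuousAt.tendsto.comp (h R)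
    have h2 : ((0 : ℝ≥0∞)) ^ (1 / 2 : ℝ) = 0 := ENNReal.zero_rpow_of_pos (by norm_num)
    rw [h2] at h1
    have h3 := ENNReal.Tendsto.const_mul (a := A) h1 (Or.inr hAfin)
    rw [mul_zero] at h3
    exact h3
  have h0 := tendsto_of_tendsto_of_tendsto_of_le_of_le tendsto_const_nhds ht
    (fun _ => zero_le) hkey
  have h6 := (ENNReal.tendsto_toReal (by simp : (0 : ℝ≥0∞) ≠ ⊤)).comp h0
  simpa [Function.comp_def, ENNReal.toReal_ofReal (norm_nonneg _)] using h6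

/-! ### Zero states and solutions -/

/-- Zero states. -/
structure Ker (Q : κ → FOp E F) (S : Set ((E ≃ₗᵢ[ℝ] E) × (F →L[ℝ] F))) (Ψ : E → F) : Prop where
  memLp : MemLp Ψ 2 volume
  app : ∃ φ : ℕ → E → F, (∀ n, Core S (φ n)) ∧
    Tendsto (fun n => eLpNorm (fun x => φ n x - Ψ x) 2 volume) atTop (𝓝 0) ∧
    ∀ a, Tendsto (fun n => eLpNorm ((Q a).op (φ n)) 2 volume) atTop (𝓝 0)

theorem jw_le_one (x : E) : jw x ≤ 1 := by
  rw [jw]
  refine ENNReal.ofReal_le_one.2 ?_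
  rw [div_le_one (by positivity)]
  have : (0 : ℝ) ≤ ‖x‖ ^ 2 := by positivity
  linarith

/-- Functions with finite weighted norm are locally integrable. -/
theorem locInt_of_jw (hu : AEStronglyMeasurable u volume)
    (hfin : ∫⁻ x, jw x * ‖u x‖ₑ ^ 2 ≠ ⊤) : LocallyIntegrable u volume :=
  Sol.locInt (Q := fun a : Empty => (a.elim : FOp E F)) (S := ∅)
    ⟨hu, hfin, fun a => a.elim, fun p hp => absurd hp (Set.notMem_empty p)⟩

/-- Cauchy-Schwarz. -/
theorem enorm_integral_inner_le {μ : Measure E} {f g : E → F} (hf : AEStronglyMeasurable f μ)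
    (hg : AEStronglyMeasurable g μ) : ‖∫ x, ⟪f x, g x⟫_ℂ ∂μ‖ₑ ≤
      (∫⁻ x, ‖f x‖ₑ ^ 2 ∂μ) ^ (1 / 2 : ℝ) * (∫⁻ x, ‖g x‖ₑ ^ 2 ∂μ) ^ (1 / 2 : ℝ) := by
  refine (enorm_integral_le_lintegral_enorm _).trans ?_
  have h1 : ∫⁻ x, ‖⟪f x, g x⟫_ℂ‖ₑ ∂μ ≤ ∫⁻ x, ‖f x‖ₑ * ‖g x‖ₑ ∂μ := by
    refine lintegral_mono fun x => ?_
    rw [← ofReal_norm, ← ofReal_norm, ← ofReal_norm, ← ENNReal.ofReal_mul (norm_nonneg _)]
    exact ENNReal.ofReal_le_ofReal (norm_inner_le_norm _ _)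
  refine h1.trans ?_
  have h2 := ENNReal.lintegral_mul_le_Lp_mul_Lq μ
    (Real.HolderConjugate.two_two) (f := fun x => ‖f x‖ₑ) (g := fun x => ‖g x‖ₑ)
    hf.enorm hg.enorm
  refine h2.trans ?_
  simp only [ENNReal.rpow_two]
  exact le_rfl

theorem tendsto_half {α : Type*} {l : Filter α} {a : α → ℝ≥0∞} (h : Tendsto a l (𝓝 0)) :
    Tendsto (fun n => a n ^ (1 / 2 : ℝ)) l (𝓝 0) := by
  have h1 := (ENNReal.continuous_rpow_const (y := (1 / 2 : ℝ))).continuousAt.tendsto.comp h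
  have h2 : ((0 : ℝ≥0∞)) ^ (1 / 2 : ℝ) = 0 := ENNReal.zero_rpow_of_pos (by norm_num)
  rw [h2] at h1
  exact h1

/-- Pairings with square integrable functions which go to zero. -/
theorem tendsto_pair_zero {ψ : E → F} (hψ : MemLp ψ 2 volume) {g : ℕ → E → F}
    (hg : ∀ n, AEStronglyMeasurable (g n) volume)
    (h : Tendsto (fun n => ∫⁻ x, ‖g n x‖ₑ ^ 2) atTop (𝓝 0)) :
    Tendsto (fun n => ∫ x, ⟪ψ x, g n x⟫_ℂ) atTop (𝓝 0) := by
  rw [tendsto_zero_iff_enorm_tendsto_zero]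
  have h1 := ENNReal.Tendsto.const_mul (a := (∫⁻ x, ‖ψ x‖ₑ ^ 2) ^ (1 / 2 : ℝ)) (tendsto_half h)
    (Or.inr (ENNReal.rpow_ne_top_of_nonneg (by norm_num) (n2_ne_top hψ)))
  rw [mul_zero] at h1
  exact tendsto_of_tendsto_of_tendsto_of_le_of_le tendsto_const_nhds h1 (fun _ => zero_le)
    fun n => enorm_integral_inner_le hψ.1 (hg n)

/-- **Local limits of core functions with `Q_a f_n → 0` are solutions.** -/
theorem sol_of_lim (hQ : ∀ a, Adj (Q a) (Q a)) {f : ℕ → E → F} (hf : ∀ n, Core S (f n))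
    (hu : AEStronglyMeasurable u volume) (hfin : ∫⁻ x, jw x * ‖u x‖ₑ ^ 2 ≠ ⊤) (h : LC f u)
    (hq : ∀ a, Tendsto (fun n => ∫⁻ x, ‖(Q a).op (f n) x‖ₑ ^ 2) atTop (𝓝 0)) : Sol Q S u where
  meas := hu
  fin := hfin
  weak a ψ hψ hψc := by
    have h1 := pair_of_lc (fun n => (hf n).smooth.continuous) hu h (locInt_of_jw hu hfin)
      ((Q a).op_continuous hψ) ((Q a).op_supp hψc)
    have h2 : ∀ n, ∫ x, ⟪(Q a).op ψ x, f n x⟫_ℂ = ∫ x, ⟪ψ x, (Q a).op (f n) x⟫_ℂ := fun n =>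
      op_symm (hQ a) (hf n).smooth (hf n).supp hψ hψc
    simp only [h2] at h1
    have h3 := tendsto_pair_zero (hψ.continuous.memLp_of_hasCompactSupport hψc)
      (fun n => ((Q a).op_continuous (hf n).smooth).aestronglyMeasurable) (hq a)
    have h4 := tendsto_nhds_unique h1 h3
    rw [h4]
    simp
  eqv p hp := eqv_of_lc (fun n => (hf n).smooth.continuous) hu h p.1 p.2 fun n x =>
    (hf n).eqv p hp x

theorem jw_int_ne_top {Ψ : E → F} (h : MemLp Ψ 2 volume) : ∫⁻ x, jw x * ‖Ψ x‖ₑ ^ 2 ≠ ⊤ := by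
  refine ne_top_of_le_ne_top (n2_ne_top h) (lintegral_mono fun x => ?_)
  exact mul_le_of_le_one_left zero_le (jw_le_one x)

theorem Ker.sol (hQ : ∀ a, Adj (Q a) (Q a)) {Ψ : E → F} (h : Ker Q S Ψ) : Sol Q S Ψ := by
  obtain ⟨φ, h1, h2, h3⟩ := h.app
  refine sol_of_lim hQ h1 h.memLp.1 (jw_int_ne_top h.memLp) (fun R => ?_) fun a => ?_
  · have h4 := (ENNReal.continuous_pow 2).continuousAt.tendsto.comp h2
    simp only [ne_eq, OfNat.ofNat_ne_zero, not_false_eq_true, zero_pow, Function.comp_def,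
      sq_eLpNorm] at h4
    exact tendsto_of_tendsto_of_tendsto_of_le_of_le tendsto_const_nhds h4 (fun _ => zero_le)
      fun n => setLIntegral_le_lintegral _ _
  · have h4 := (ENNReal.continuous_pow 2).continuousAt.tendsto.comp (h3 a)
    simpa only [ne_eq, OfNat.ofNat_ne_zero, not_false_eq_true, zero_pow, Function.comp_def,
      sq_eLpNorm] using h4

theorem Sol.ker (hQ : ∀ a, Adj (Q a) (Q a)) (h : Sol Q S u) (hu : MemLp u 2 volume) :
    Ker Q S u := by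
  obtain ⟨φ, hφs, hφc, hφe, hφ1, hφ2⟩ := weak_strong hQ hu (χ := fun _ _ => (0 : F))
    (fun _ => MemLp.zero) h.weak
  refine ⟨hu, φ, fun n => ⟨hφs n, hφc n, fun p hp => hφe n p.1 p.2 (h.eqv p hp)⟩, hφ1,
    fun a => ?_⟩
  simpa only [sub_zero] using hφ2 a

end Crest.Agent.R330.Decay968

end
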