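import Crest.Agent.R330.ChHardy_718
import Crest.Agent.R330.Chan_566
import Crest.Agent.R330.Chan_441
import Crest.Agent.R330.HardyG_968

/-!
# Row 330, S9-CHHARDY (helper718): 566's channel has the fields of 441's `IsLim`

* `cdD_sq_eq`, `hardy_test'` : (sq), (hardy) for any orthonormal basis of a Euclidean space.
* `Free C ob a` : the massless charges of `C` are `Σ_k (-i) a_k ∂_k` in the orthonormal basis `ob`.
* `symm`, `sq`, `hardy` : the fields of `IsLim` for `C.e`, `C.D`, `Wt C`.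
* `IsLim.comap` : the limit system with another space of generators `π : X' → X` (surjective).
-/

set_option autoImplicit false
set_option linter.unusedSectionVars false

open MeasureTheory Set Filter Topology ENNReal
open scoped ContDiff InnerProductSpace

noncomputable section

namespace Crest.Agent.R330.ChBind718

open Crest.Agent.R330.WDH245 Crest.Agent.R330.WS596 Crest.Agent.R330.Chan566
  Crest.Agent.R330.Chan441 Crest.Agent.R330.TrialSys796

variable {κ : Type*} [Fintype κ] [DecidableEq κ]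
variable {E : Type*} [NormedAddCommGroup E] [InnerProductSpace ℝ E] [FiniteDimensional ℝ E]
  [MeasurableSpace E] [BorelSpace E]
variable {F : Type*} [NormedAddCommGroup F] [InnerProductSpace ℂ F] [FiniteDimensional ℂ F]
variable {e : κ → E} {a a' : κ → F →ₗ[ℂ] F}

theorem two_le_infty : (2 : WithTop ℕ∞) ≤ ((⊤ : ℕ∞) : WithTop ℕ∞) := by
  rw [show (2 : WithTop ℕ∞) = ((2 : ℕ∞) : WithTop ℕ∞) from rfl]
  exact WithTop.coe_le_coe.2 le_top

theorem cD_smooth {ψ : E → F} (hψ : ContDiff ℝ ∞ ψ) : ContDiff ℝ ∞ (cD e a ψ) := by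
  unfold cD
  refine ContDiff.sum fun k _ => ContDiff.const_smul _ ?_
  exact contDiff_lin (a k) ((hψ.fderiv_right (m := ∞) (by simp)).clm_apply contDiff_const)

/-- The second derivatives. -/
def d2 (e : κ → E) (ψ : E → F) (k l : κ) (x : E) : F := fderiv ℝ (fderiv ℝ ψ) x (e k) (e l)

theorem d2_symm {ψ : E → F} (hψ : ContDiff ℝ ∞ ψ) (k l : κ) (x : E) :
    d2 e ψ k l x = d2 e ψ l k x := by
  have h2 : ContDiff ℝ 2 ψ := hψ.of_le two_le_infty
  have hsym : IsSymmSndFDerivAt ℝ ψ x := h2.contDiffAt.isSymmSndFDerivAt (by simp)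
  exact hsym.eq _ _

theorem fderiv_cD' {ψ : E → F} (hψ : ContDiff ℝ ∞ ψ) (k : κ) (x : E) :
    fderiv ℝ (cD e a ψ) x (e k) = ∑ l, (-Complex.I) • a l (d2 e ψ k l x) := by
  have hd : ContDiff ℝ ∞ (fderiv ℝ ψ) := hψ.fderiv_right (m := ∞) (by simp)
  have hdl : ∀ l, DifferentiableAt ℝ (fun y => a l (fderiv ℝ ψ y (e l))) x := fun l =>
    (contDiff_lin (a l) (hd.clm_apply contDiff_const)).differentiable (by simp) x
  have h1 : fderiv ℝ (cD e a ψ) x =
      ∑ l, fderiv ℝ (fun y => (-Complex.I) • a l (fderiv ℝ ψ y (e l))) x := by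
    unfold cD
    exact fderiv_fun_sum fun l _ => (hdl l).const_smul _
  rw [h1, sum_apply]
  refine Finset.sum_congr rfl fun l _ => ?_
  have h2 : fderiv ℝ (fun y => (-Complex.I) • a l (fderiv ℝ ψ y (e l))) x =
      (-Complex.I) • fderiv ℝ (fun y => a l (fderiv ℝ ψ y (e l))) x :=
    fderiv_fun_const_smul (hdl l) _
  rw [h2, smul_apply]
  congr 1
  rw [fderiv_lin (a l) ((hd.clm_apply contDiff_const).differentiable (by simp) x)]
  congr 1
  rw [fderiv_clm_apply (hd.differentiable (by simp) x) (differentiableAt_const _)]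
  simp [d2]

/-- `D² ψ = -½ Σ ∂_k² ψ`. -/
theorem cD_sq' (ha : Cliff a) {ψ : E → F} (hψ : ContDiff ℝ ∞ ψ) (x : E) :
    cD e a (cD e a ψ) x = (-(1 / 2) : ℂ) • ∑ k, d2 e ψ k k x := by
  have e1 : cD e a (cD e a ψ) x = -∑ k, ∑ l, a k (a l (d2 e ψ k l x)) := by
    conv_lhs => unfold cD
    rw [← Finset.sum_neg_distrib]
    refine Finset.sum_congr rfl fun k _ => ?_
    have := fderiv_cD' (e := e) (a := a) hψ k x
    unfold cD at this
    rw [this, map_sum, Finset.smul_sum, ← Finset.sum_neg_distrib]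
    refine Finset.sum_congr rfl fun l _ => ?_
    rw [map_smul, smul_smul, neg_mul_neg, Complex.I_mul_I, neg_one_smul]
  have e2 : (2 : ℂ) • ∑ k, ∑ l, a k (a l (d2 e ψ k l x)) = ∑ k, d2 e ψ k k x := by
    rw [two_smul]
    nth_rewrite 2 [Finset.sum_comm]
    rw [← Finset.sum_add_distrib]
    refine Finset.sum_congr rfl fun k _ => ?_
    rw [← Finset.sum_add_distrib]
    have e3 : ∀ l, a k (a l (d2 e ψ k l x)) + a l (a k (d2 e ψ l k x)) =
        if k = l then d2 e ψ k k x else 0 := by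
      intro l
      rw [d2_symm hψ l k x]
      have h := LinearMap.congr_fun (ha.anti k l) (d2 e ψ k l x)
      rw [LinearMap.add_apply, LinearMap.comp_apply, LinearMap.comp_apply] at h
      rw [h]
      by_cases hkl : k = l
      · subst hkl; simp
      · simp [hkl]
    rw [Finset.sum_congr rfl fun l _ => e3 l]
    simp
  have e4 : ∑ k, ∑ l, a k (a l (d2 e ψ k l x)) = (1 / 2 : ℂ) • ∑ k, d2 e ψ k k x := by
    rw [← e2, smul_smul]
    norm_num
  rw [e1, e4, neg_smul]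

/-- (sq) the squares agree. -/
theorem cD_sq_eq' (ha : Cliff a) (ha' : Cliff a') {ψ : E → F} (hψ : ContDiff ℝ ∞ ψ) :
    cD e a (cD e a ψ) = cD e a' (cD e a' ψ) := by
  funext x
  rw [cD_sq' ha hψ, cD_sq' ha' hψ]

/-- (hardy) in any orthonormal basis. -/
theorem hardy_test' (ob : OrthonormalBasis κ ℝ E) {b : Fin 16 → κ → F →ₗ[ℂ] F}
    (hb : ∀ α, Cliff (b α)) (hκ : 9 ≤ Fintype.card κ)
    {φ : E → F} (hφ : ContDiff ℝ ∞ φ) (hc : HasCompactSupport φ)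
    {w : ℝ → ℝ} (hw : ∀ t, 0 ≤ t → w t ^ 2 * t ≤ 1) :
    49 / 8 * ∫ x, ‖w (‖x‖ ^ 2) • φ x‖ ^ 2 ≤ 1 / 16 * ∑ α, ∫ x, ‖cD ob (b α) φ x‖ ^ 2 := by
  let _ : InnerProductSpace ℝ F := InnerProductSpace.complexToReal
  obtain ⟨h1, h2⟩ := Hardy151.hardy (μ := (volume : Measure E)) (v := ob)
    (c := 0) (hφ.of_le (by simp)) hc ob.orthonormal (by omega)
  have hr : ∀ x, Hardy151.r2 ob 0 x = ‖x‖ ^ 2 := by
    intro x
    unfold Hardy151.r2 Hardy151.yc
    have := ob.sum_sq_norm_inner_right x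
    simp only [Real.norm_eq_abs, sq_abs] at this
    simpa using this
  simp only [hr] at h1 h2
  have h2' : ∑ α, ∫ x, ‖cD ob (b α) φ x‖ ^ 2 =
      8 * ∫ x, ∑ k, ‖fderiv ℝ φ x (ob k)‖ ^ 2 := by
    have h : ∀ α, ∫ x, ‖cD ob (b α) φ x‖ ^ 2 =
        1 / 2 * ∫ x, ∑ k, ‖fderiv ℝ φ x (ob k)‖ ^ 2 := fun α =>
      integral_cD_sq (hb α) (hφ.of_le two_le_infty) hc
    simp only [h, Finset.sum_const, Finset.card_univ, nsmul_eq_mul, Fintype.card_fin]
    push_cast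
    ring
  have hne : Nonempty κ := Fintype.card_pos_iff.1 (by omega)
  have hκ' : (9 : ℝ) ≤ Fintype.card κ := by exact_mod_cast hκ
  have h3 : ∫ x, ‖w (‖x‖ ^ 2) • φ x‖ ^ 2 ≤ ∫ x, ‖φ x‖ ^ 2 / ‖x‖ ^ 2 := by
    refine integral_mono_of_nonneg (Eventually.of_forall fun x => sq_nonneg _) h1 ?_
    have h0 : ∀ᵐ x : E, x ≠ 0 := by
      obtain ⟨k⟩ := hne
      have : Nontrivial E := ⟨⟨ob k, 0, ob.orthonormal.ne_zero k⟩⟩
      have : (volume : Measure E) {0} = 0 := measure_singleton 0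
      rw [ae_iff]
      simp
    filter_upwards [h0] with x hx
    rw [norm_smul, mul_pow, Real.norm_eq_abs, sq_abs]
    have hx2 : 0 < ‖x‖ ^ 2 := by positivity
    rw [le_div_iff₀ hx2]
    have := hw (‖x‖ ^ 2) hx2.le
    nlinarith [sq_nonneg ‖φ x‖]
  have hA : (49 : ℝ) ≤ 4 * (((Fintype.card κ : ℝ) - 2) / 2) ^ 2 := by nlinarith
  have h4 : 0 ≤ ∫ x, ‖φ x‖ ^ 2 / ‖x‖ ^ 2 := integral_nonneg fun x => by positivity
  rw [h2']
  nlinarith [mul_le_mul_of_nonneg_right hA h4]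

/-! ### 566's channel -/

variable {S : Type*} [Group S] [Fintype S]

section chan

variable (C : Chan566.Chan S E F)

/-- radial multiplication, junk value `0` when `w` is not smooth -/
def Wt (w : ℝ → ℝ) : C.X →ₗ[ℂ] C.X := by
  classical
  exact if hw : ContDiff ℝ ∞ w then C.W w hw else 0

theorem Wt_eq {w : ℝ → ℝ} (hw : ContDiff ℝ ∞ w) : Wt C w = C.W w hw := by
  unfold Wt
  rw [dif_pos hw]

theorem norm_e_sq (χ : C.X) : ‖C.e χ‖ ^ 2 = ∫ x, ‖χ.1 x‖ ^ 2 := by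
  have h1 := C.inner_e_e χ χ
  have h0 : ⟪C.e χ, C.e χ⟫_ℂ = ((‖C.e χ‖ ^ 2 : ℝ) : ℂ) := by
    have := inner_self_eq_norm_sq_to_K (𝕜 := ℂ) (C.e χ)
    refine this.trans ?_
    push_cast; rfl
  have h2 : ∀ x, ⟪χ.1 x, χ.1 x⟫_ℂ = ((‖χ.1 x‖ ^ 2 : ℝ) : ℂ) := fun x => by
    rw [inner_self_eq_norm_sq_to_K (𝕜 := ℂ)]; push_cast; rfl
  simp only [h0, h2] at h1
  rw [integral_complex_ofReal] at h1
  exact_mod_cast h1

theorem separable : TopologicalSpace.SeparableSpace C.L := by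
  have : Fact ((2 : ℝ≥0∞) ≠ ⊤) := ⟨by norm_num⟩
  have : SecondCountableTopology (Lp F 2 (volume : Measure E)) := inferInstance
  exact inferInstance

/-- the field `symm` -/
theorem symm {m : ℝ} {α : Fin 16} (hadj : Adj (C.Q m α) (C.Q m α)) (χ χ' : C.X) :
    ⟪C.e (C.D m α χ), C.e χ'⟫_ℂ = ⟪C.e χ, C.e (C.D m α χ')⟫_ℂ := by
  rw [C.inner_e_e, C.inner_e_e]
  exact Decay968.op_symm hadj χ'.2.1.smooth χ'.2.1.cpt χ.2.1.smooth χ.2.1.cpt

/-- the massless charges of `C` are the free ones -/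
def Free (ob : OrthonormalBasis κ ℝ E) (b : Fin 16 → κ → F →ₗ[ℂ] F) : Prop :=
  (∀ α, Cliff (b α)) ∧ 9 ≤ Fintype.card κ ∧
    ∀ α (ψ : E → F), ContDiff ℝ ∞ ψ → ∀ x, (C.Q 0 α).op ψ x = cD ob (b α) ψ x

variable {C} {ob : OrthonormalBasis κ ℝ E} {b : Fin 16 → κ → F →ₗ[ℂ] F}

theorem Free.op (h : Free C ob b) (α : Fin 16) {ψ : E → F} (hψ : ContDiff ℝ ∞ ψ) :
    (C.Q 0 α).op ψ = cD ob (b α) ψ := funext fun x => h.2.2 α ψ hψ x

theorem Free.op_sq (h : Free C ob b) (α β : Fin 16) {ψ : E → F} (hψ : ContDiff ℝ ∞ ψ) :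
    (C.Q 0 α).op ((C.Q 0 α).op ψ) = (C.Q 0 β).op ((C.Q 0 β).op ψ) := by
  rw [h.op α hψ, h.op β hψ, h.op α (cD_smooth hψ), h.op β (cD_smooth hψ)]
  exact cD_sq_eq' (h.1 α) (h.1 β) hψ

/-- the field `sq` -/
theorem Free.sq (h : Free C ob b) (α β : Fin 16) (χ : C.X) :
    C.D 0 α (C.D 0 α χ) = C.D 0 β (C.D 0 β χ) :=
  Subtype.ext (h.op_sq α β χ.2.1.smooth)

/-- the field `hardy` -/
theorem Free.hardy (h : Free C ob b) (w : ℝ → ℝ) (hw : ContDiff ℝ ∞ w)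
    (hw1 : ∀ t, 0 ≤ t → w t ^ 2 * t ≤ 1) (χ : C.X) :
    49 / 8 * ‖C.e (Wt C w χ)‖ ^ 2 ≤ 1 / 16 * ∑ α, ‖C.e (C.D 0 α χ)‖ ^ 2 := by
  have h1 := hardy_test' ob h.1 h.2.1 χ.2.1.smooth χ.2.1.cpt hw1
  rw [Wt_eq C hw]
  simp only [norm_e_sq]
  have e1 : ∀ α, ∫ x, ‖((C.D 0 α χ : C.X) : E → F) x‖ ^ 2 = ∫ x, ‖cD ob (b α) χ.1 x‖ ^ 2 :=
    fun α => by
      rw [C.D_apply, h.op α χ.2.1.smooth]
  simp only [e1]
  exact h1

/-- the limit system of one channel -/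
theorem isLim (h : Free C ob b) (hadj : ∀ m α, Adj (C.Q m α) (C.Q m α)) (hd : DenseRange C.e)
    (hws : ∀ (f : C.L) (u : Fin 16 → C.L),
      (∀ χ α, ⟪C.e (C.D 0 α χ), f⟫_ℂ = ⟪C.e χ, u α⟫_ℂ) →
      ∀ ε : ℝ, 0 < ε → ∃ χ, ‖C.e χ - f‖ ≤ ε ∧ ∀ α, ‖C.e (C.D 0 α χ) - u α‖ ≤ ε)
    {K0 : Submodule ℂ C.L} (hf : IsFree C.e (C.D 1) K0 1) : IsLim C.e C.D (Wt C) K0 1 where
  dense := hd
  sep := separable C
  symm m α χ χ' := ChBind718.symm C (hadj m α) χ χ'
  sq := h.sq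
  ws := hws
  hardy := h.hardy
  free := hf

end chan

/-! ### Change of the space of generators -/

theorem IsLim.comap {L : Type*} [NormedAddCommGroup L] [InnerProductSpace ℂ L]
    {X : Type*} [AddCommGroup X] [Module ℂ X] {X' : Type*} [AddCommGroup X'] [Module ℂ X']
    {e : X →ₗ[ℂ] L} {D : ℝ → Fin 16 → X →ₗ[ℂ] X} {W : (ℝ → ℝ) → X →ₗ[ℂ] X}
    {K0 : Submodule ℂ L} {d : ℕ} (h : IsLim e D W K0 d)
    {D' : ℝ → Fin 16 → X' →ₗ[ℂ] X'} {W' : (ℝ → ℝ) → X' →ₗ[ℂ] X'}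
    (π : X' →ₗ[ℂ] X) (hπ : Function.Surjective π)
    (hD : ∀ m α χ, π (D' m α χ) = D m α (π χ))
    (hW : ∀ w, ContDiff ℝ ∞ w → ∀ χ, π (W' w χ) = W w (π χ))
    (hsq : ∀ α β χ, D' 0 α (D' 0 α χ) = D' 0 β (D' 0 β χ)) :
    IsLim (e ∘ₗ π) D' W' K0 d where
  dense := by
    have h1 : Set.range (e ∘ₗ π) = Set.range e := by
      rw [LinearMap.coe_comp, Set.range_comp, hπ.range_eq, Set.image_univ]
    unfold DenseRange
    rw [h1]
    exact h.dense
  sep := h.sep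
  symm m α χ χ' := by
    simp only [LinearMap.comp_apply, hD]
    exact h.symm m α _ _
  sq := hsq
  ws f u hf ε hε := by
    obtain ⟨χ, h1, h2⟩ := h.ws f u (fun χ α => by
      obtain ⟨χ', rfl⟩ := hπ χ
      have := hf χ' α
      simp only [LinearMap.comp_apply, hD] at this
      exact this) ε hε
    obtain ⟨χ', rfl⟩ := hπ χ
    exact ⟨χ', h1, fun α => by simpa only [LinearMap.comp_apply, hD] using h2 α⟩
  hardy w hw hw1 χ := by
    simp only [LinearMap.comp_apply, hD, hW w hw]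
    exact h.hardy w hw hw1 (π χ)
  free :=
    { rank := h.free.rank
      uniq := fun f hf => h.free.uniq f fun χ α => by
        obtain ⟨χ', rfl⟩ := hπ χ
        have := hf χ' α
        simp only [LinearMap.comp_apply, hD] at this
        exact this
      approx := fun f hf ε hε => by
        obtain ⟨χ, h1, h2⟩ := h.free.approx f hf ε hε
        obtain ⟨χ', rfl⟩ := hπ χ
        exact ⟨χ', h1, fun α => by simpa only [LinearMap.comp_apply, hD] using h2 α⟩ }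

end Crest.Agent.R330.ChBind718

end
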