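import Crest.Agent.R330.Sec_478
import Crest.Agent.R330.Scale_423

/-!
# Row 330: the interface of sections 8, 9 with sections 10, 11 (helper796)

Definitions only (frozen).

* `En` : the energy `‖φ‖² + q_{g,m}(φ)`.
* `IsTrial b M R G e D T` : the trial states `T_g χ`, `χ ∈ X`, of a limit system `(L, X, e, D)`:
  core vectors for large `g`; (a) Gram matrices converge; (b) dual estimate; (far) supported away
  from the origin.
* `IsFree e D K0 d` : the free model: `K0` has dimension `d`, contains every weak zero state, and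
  its elements are limits of zero sequences of `X`.
* `CapBall b M R G T` : (c) the capture property.
* `Tight b M G` : (d) tightness at infinity.
* `TrialAll N` : such data exist for all representations, with `d = p(N) - 1`.
-/

set_option autoImplicit false

open MeasureTheory Filter Topology Crest.MathPhysics.MatrixQM
open scoped ContDiff InnerProductSpace ENNReal

noncomputable section

namespace Crest.Agent.R330.TrialSys796

open Crest.Agent.R330.Defs478 Crest.Agent.R330.Top478 Crest.Agent.R330.Sec478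
  Crest.Agent.R330.Scale423

variable {N : ℕ} {F : Type*} [NormedAddCommGroup F] [InnerProductSpace ℂ F]
  [FiniteDimensional ℂ F]

/-- The energy `‖φ‖² + q_{g,m}(φ)`. -/
def En (b : ColorBasis N) (M : FermionRep N F) (G : GammaNine) (g m : ℝ) (φ : Cfg N → F) : ℝ :=
  (∫ x, ‖φ x‖ ^ 2) + qf b M G g m φ

/-- The trial states of a limit system `(L, X, e, D)`. -/
structure IsTrial (b : ColorBasis N) (M : FermionRep N F) (R : GaugeAction b M) (G : GammaNine)
    {L : Type*} [NormedAddCommGroup L] [InnerProductSpace ℂ L] {X : Type*} [AddCommGroup X]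
    [Module ℂ X] (e : X →ₗ[ℂ] L) (D : Fin 16 → X →ₗ[ℂ] X) (T : ℝ → X → Cfg N → F) : Prop where
  /-- `T_g χ` is a core vector for large `g`. -/
  core : ∀ χ, ∀ᶠ g in atTop, IsCoreVec b R (T g χ)
  /-- (a) asymptotic isometry. -/
  iso : ∀ χ χ', Tendsto (fun g => ∫ x, ⟪T g χ x, T g χ' x⟫_ℂ) atTop (𝓝 ⟪e χ, e χ'⟫_ℂ)
  /-- (b) the dual estimate. -/
  dual : ∀ χ α, ∀ ε : ℝ, 0 < ε → ∀ᶠ g in atTop, ∀ φ : Cfg N → F, IsCoreVec b R φ →
    ‖∫ x, ⟪φ x, dcharge b M G g 1 α (T g χ) x - T g (D α χ) x⟫_ℂ‖ ≤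
      ε * Real.sqrt (En b M G g 1 φ)
  /-- (far) no mass near the origin. -/
  far : ∀ χ, ∃ δ : ℝ, 0 < δ ∧ ∀ᶠ g in atTop, ∀ x, ‖x‖ < δ → T g χ x = 0

/-- The free model. -/
structure IsFree {L : Type*} [NormedAddCommGroup L] [InnerProductSpace ℂ L] {X : Type*}
    [AddCommGroup X] [Module ℂ X] (e : X →ₗ[ℂ] L) (D : Fin 16 → X →ₗ[ℂ] X)
    (K0 : Submodule ℂ L) (d : ℕ) : Prop where
  /-- The dimension. -/
  rank : Module.rank ℂ K0 = d
  /-- (e1) weak zero states are in `K0`. -/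
  uniq : ∀ f : L, (∀ χ α, ⟪e (D α χ), f⟫_ℂ = 0) → f ∈ K0
  /-- (e2) the elements of `K0` are limits of zero sequences. -/
  approx : ∀ f ∈ K0, ∀ ε : ℝ, 0 < ε → ∃ χ, ‖e χ - f‖ ≤ ε ∧ ∀ α, ‖e (D α χ)‖ ≤ ε

/-- (c) The capture property on balls. -/
def CapBall (b : ColorBasis N) (M : FermionRep N F) (R : GaugeAction b M) (G : GammaNine)
    {X : Type*} (T : ℝ → X → Cfg N → F) : Prop :=
  ∀ (g : ℕ → ℝ) (φ : ℕ → Cfg N → F) (C : ℝ), Tendsto g atTop atTop →
    (∀ j, IsCoreVec b R (φ j)) → (∀ j, En b M G (g j) 1 (φ j) ≤ C) →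
    (∀ χ, Tendsto (fun j => ∫ x, ⟪T (g j) χ x, φ j x⟫_ℂ) atTop (𝓝 0)) →
    (∀ ψ ∈ zset b M R G 1 0,
      Tendsto (fun j => ∫ x, ⟪Us (g j ^ ((1 : ℝ) / 3)) ψ x, φ j x⟫_ℂ) atTop (𝓝 0)) →
    ∀ ρ : ℝ, Tendsto (fun j => ∫ x in Metric.ball (0 : Cfg N) ρ, ‖φ j x‖ ^ 2) atTop (𝓝 0)

/-- (d) Tightness at infinity, uniform in the coupling. -/
def Tight (b : ColorBasis N) (M : FermionRep N F) (R : GaugeAction b M) (G : GammaNine) : Prop :=
  ∃ C g₀ : ℝ, ∀ g : ℝ, g₀ ≤ g → ∀ φ : Cfg N → F, IsCoreVec b R φ →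
    ∫ x, ‖x‖ ^ 2 * ‖φ x‖ ^ 2 ≤ C * En b M G g 1 φ

/-- Trial systems with capture exist for all data. -/
def TrialAll (N : ℕ) : Prop :=
  ∀ (F : Type) [NormedAddCommGroup F] [InnerProductSpace ℂ F] [FiniteDimensional ℂ F]
    [Nontrivial F] (b : ColorBasis N) (M : FermionRep N F) (R : GaugeAction b M) (G : GammaNine),
    ∃ (L : Type) (_ : NormedAddCommGroup L) (_ : InnerProductSpace ℂ L) (_ : CompleteSpace L)
      (X : Type) (_ : AddCommGroup X) (_ : Module ℂ X) (e : X →ₗ[ℂ] L)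
      (D : Fin 16 → X →ₗ[ℂ] X) (T : ℝ → X → Cfg N → F) (K0 : Submodule ℂ L),
      DenseRange e ∧ TopologicalSpace.SeparableSpace L ∧ IsTrial b M R G e D T ∧
        IsFree e D K0 (pN N - 1) ∧ CapBall b M R G T

/-- Tightness for all data. -/
def TightAll (N : ℕ) : Prop :=
  ∀ (F : Type) [NormedAddCommGroup F] [InnerProductSpace ℂ F] [FiniteDimensional ℂ F]
    [Nontrivial F] (b : ColorBasis N) (M : FermionRep N F) (R : GaugeAction b M) (G : GammaNine),
    Tight b M R G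

end Crest.Agent.R330.TrialSys796

end
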