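import Crest.Agent.R330.Chan_566
import Crest.Agent.R330.TrialSys_796

/-!
# R330 (helper566), S10-LIM part 2: density and the free model of one symmetric channel

* `exists_close` / `denseRange_e` : the test space is dense in `L`;
* `norm_e_sym_sub_le`, `norm_e_sym_le` : symmetrisation does not increase `L²` norms;
* `isFree` : 796's `IsFree` with `K0 = ℂ ∙ Φ`, `d = 1`, from uniqueness of weak zero modes tested off
  `Z` and one approximating sequence (no symmetry in the hypotheses).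
-/

set_option autoImplicit false
set_option linter.unusedSectionVars false
set_option linter.unusedVariables false
set_option maxHeartbeats 400000

open MeasureTheory Set Filter Topology ENNReal
open scoped ContDiff InnerProductSpace

noncomputable section
namespace Crest.Agent.R330.Chan566
open Moll596 WS596

variable {S : Type*} [Group S] [Fintype S]
variable {E : Type*} [NormedAddCommGroup E] [InnerProductSpace ℝ E] [FiniteDimensional ℝ E]
  [MeasurableSpace E] [BorelSpace E]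
variable {F : Type*} [NormedAddCommGroup F] [InnerProductSpace ℂ F] [FiniteDimensional ℂ F]
variable (C : Chan S E F)

namespace Chan

/-! ### density -/

/-- the compact exhaustion of the complement of `Z` -/
def Kn (δ R : ℝ) : Set E := {x | ‖x‖ ≤ R ∧ ∀ z ∈ C.Z, δ ≤ dist x z}

theorem isClosed_Kn (δ R : ℝ) : IsClosed (C.Kn δ R) := by
  have h1 : C.Kn δ R = {x | ‖x‖ ≤ R} ∩ ⋂ z ∈ C.Z, {x | δ ≤ dist x z} := by
    ext x
    simp [Kn]
  rw [h1]
  refine (isClosed_le continuous_norm continuous_const).inter ?_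
  exact isClosed_biInter fun z _ =>
    isClosed_le continuous_const (continuous_id.dist continuous_const)

theorem mem_Kn_iff (δ R : ℝ) (s : S) (x : E) : C.O s x ∈ C.Kn δ R ↔ x ∈ C.Kn δ R := by
  have key : ∀ (s : S) (x : E), x ∈ C.Kn δ R → C.O s x ∈ C.Kn δ R := by
    intro s x hx
    refine ⟨by rw [LinearIsometryEquiv.norm_map]; exact hx.1, fun z hz => ?_⟩
    have h1 := hx.2 _ (C.ZO s⁻¹ z hz)
    have h2 : dist x (C.O s⁻¹ z) = dist (C.O s x) z := by
      rw [← (C.O s).dist_map x, C.O_inv']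
    rwa [h2] at h1
  refine ⟨fun h => ?_, key s x⟩
  have := key s⁻¹ _ h
  rwa [C.O_inv] at this

theorem exists_mem_Kn {x : E} (hx : x ∉ C.Z) :
    ∃ n₀ : ℕ, ∀ n : ℕ, n₀ ≤ n → x ∈ C.Kn (1 / ((n : ℝ) + 1)) (n : ℝ) := by
  obtain ⟨ε, hε, hb⟩ := Metric.isOpen_iff.1 C.closed.isOpen_compl x hx
  obtain ⟨n₁, hn₁⟩ := exists_nat_gt (1 / ε)
  obtain ⟨n₂, hn₂⟩ := exists_nat_gt ‖x‖
  refine ⟨max n₁ n₂, fun n hn => ⟨?_, fun z hz => ?_⟩⟩
  · have : (n₂ : ℝ) ≤ n := by exact_mod_cast (le_max_right _ _).trans hn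
    linarith
  · have h1 : (n₁ : ℝ) ≤ n := by exact_mod_cast (le_max_left _ _).trans hn
    have h2 : ε ≤ dist x z := by
      by_contra h3
      have : z ∈ Metric.ball x ε := by
        rw [Metric.mem_ball, dist_comm]; exact not_le.1 h3
      exact hb this hz
    refine le_trans ?_ h2
    rw [div_le_iff₀ (by positivity)]
    rw [div_lt_iff₀ hε] at hn₁
    nlinarith

theorem tendsto_cutoff {u : E → F} (hu : MemLp u 2 (volume : Measure E)) :
    Tendsto (fun n : ℕ => eLpNorm (fun x => (C.Kn (1 / ((n : ℝ) + 1)) (n : ℝ)).indicator u x - u x)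
      2 volume) atTop (𝓝 0) := by
  refine tendsto_of_sq ?_
  have h0 : ∀ n : ℕ, eLpNorm (fun x => (C.Kn (1 / ((n : ℝ) + 1)) (n : ℝ)).indicator u x - u x)
      2 volume ^ 2 = ∫⁻ x, ‖(C.Kn (1 / ((n : ℝ) + 1)) (n : ℝ)).indicator u x - u x‖ₑ ^ 2 := by
    intro n
    exact sq_eLpNorm _
  simp only [h0]
  have hz : (0 : ℝ≥0∞) = ∫⁻ x : E, 0 := by simp
  rw [hz]
  have hfin : ∫⁻ x, ‖u x‖ₑ ^ 2 ≠ ⊤ := by
    rw [← sq_eLpNorm u]
    exact ENNReal.pow_ne_top hu.2.ne
  refine tendsto_lintegral_of_dominated_convergence' (fun x => ‖u x‖ₑ ^ 2) (fun n => ?_)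
    (fun n => ?_) hfin ?_
  · exact (((hu.1.indicator (C.isClosed_Kn _ _).measurableSet).sub hu.1).enorm).pow_const 2
  · refine Eventually.of_forall fun x => ?_
    by_cases hx : x ∈ C.Kn (1 / ((n : ℝ) + 1)) (n : ℝ)
    · show ‖(C.Kn (1 / ((n : ℝ) + 1)) (n : ℝ)).indicator u x - u x‖ₑ ^ 2 ≤ ‖u x‖ₑ ^ 2
      rw [Set.indicator_of_mem hx, sub_self]
      simp
    · show ‖(C.Kn (1 / ((n : ℝ) + 1)) (n : ℝ)).indicator u x - u x‖ₑ ^ 2 ≤ ‖u x‖ₑ ^ 2
      rw [Set.indicator_of_notMem hx, zero_sub, enorm_neg]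
  · have hZ : ∀ᵐ x : E, x ∉ C.Z := by
      rw [ae_iff]
      simpa using C.null
    filter_upwards [hZ] with x hx
    obtain ⟨n₀, hn₀⟩ := C.exists_mem_Kn hx
    refine tendsto_const_nhds.congr' ?_
    filter_upwards [eventually_ge_atTop n₀] with n hn
    rw [Set.indicator_of_mem (hn₀ n hn)]
    simp

/-- **density of the test space** -/
theorem exists_close (f : C.L) {ε : ℝ} (hε : 0 < ε) : ∃ χ : C.X, ‖C.e χ - f‖ ≤ ε := by
  set u : E → F := ((f : Lp F 2 (volume : Measure E)) : E → F) with hu_def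
  have hu : MemLp u 2 (volume : Measure E) := Lp.memLp _
  have hε2 : ENNReal.ofReal (ε / 2) ≠ 0 := by simpa using hε
  obtain ⟨n, hn⟩ := ((C.tendsto_cutoff hu).eventually
    (ge_mem_nhds (pos_iff_ne_zero.2 hε2))).exists
  set δ : ℝ := 1 / ((n : ℝ) + 1) with hδ
  have hδ0 : 0 < δ := by positivity
  set K : Set E := C.Kn δ (n : ℝ) with hK
  set g : E → F := K.indicator u with hg
  have hKm : MeasurableSet K := (C.isClosed_Kn _ _).measurableSet
  have hgm : MemLp g 2 (volume : Measure E) := hu.indicator hKm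
  obtain ⟨r₀, hr₀, hr⟩ := exists_mol_close hgm hε2
  set r : ℝ := min r₀ (δ / 2) with hr_def
  have hrpos : 0 < r := lt_min hr₀ (by positivity)
  have hker : MolK r (ker r : E → ℝ) := molK_ker hrpos
  have hcl := hr r (min_le_left _ _) _ hker
  set χ : E → F := mol (ker r) g with hχ
  have hgl : LocallyIntegrable g := hgm.locallyIntegrable (by norm_num)
  have hsm : ContDiff ℝ ∞ χ := mol_contDiff hker hgl
  -- support
  have hsupp : ∀ x, χ x ≠ 0 → ∃ y ∈ K, ‖x - y‖ < r := by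
    intro x hx
    by_contra hcon
    push Not at hcon
    apply hx
    rw [hχ, mol, ← integral_zero E F (μ := volume)]
    refine integral_congr_ae (Eventually.of_forall fun y => ?_)
    dsimp only
    by_cases hy : y ∈ K
    · rw [hker.small _ (hcon y hy), zero_smul]
    · rw [hg, Set.indicator_of_notMem hy, smul_zero]
  have hrd : r ≤ δ / 2 := min_le_right _ _
  have hsub1 : Function.support χ ⊆ {x | ∀ z ∈ C.Z, δ / 2 ≤ dist x z} := by
    intro x hx z hz
    obtain ⟨y, hy, hxy⟩ := hsupp x hx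
    have h1 := hy.2 z hz
    have h2 : dist y z ≤ dist y x + dist x z := dist_triangle _ _ _
    have h3 : dist y x < r := by rw [dist_comm, dist_eq_norm]; exact hxy
    linarith
  have hcl1 : IsClosed {x : E | ∀ z ∈ C.Z, δ / 2 ≤ dist x z} := by
    have : {x : E | ∀ z ∈ C.Z, δ / 2 ≤ dist x z} = ⋂ z ∈ C.Z, {x | δ / 2 ≤ dist x z} := by
      ext x; simp
    rw [this]
    exact isClosed_biInter fun z _ =>
      isClosed_le continuous_const (continuous_id.dist continuous_const)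
  have hoff : ∀ x ∈ tsupport χ, x ∉ C.Z := by
    intro x hx hz
    have := closure_minimal hsub1 hcl1 hx x hz
    rw [dist_self] at this
    linarith
  have hcpt : HasCompactSupport χ := by
    refine HasCompactSupport.of_support_subset_isCompact
      (isCompact_closedBall (0 : E) ((n : ℝ) + r)) ?_
    intro x hx
    obtain ⟨y, hy, hxy⟩ := hsupp x hx
    rw [Metric.mem_closedBall, dist_zero_right]
    have h1 : ‖x‖ ≤ ‖x - y‖ + ‖y‖ := by
      have := norm_add_le (x - y) y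
      simpa using this
    have := hy.1
    linarith
  have heqv : C.Eqv χ := by
    intro s x
    refine mol_equivariant hker hgl (C.O s) (ul (C.U s)) ?_ x
    filter_upwards [C.mem_L.1 f.2 s] with y hy
    by_cases hyK : y ∈ K
    · have h2 : C.O s y ∈ K := (C.mem_Kn_iff δ n s y).2 hyK
      rw [hg, Set.indicator_of_mem h2, Set.indicator_of_mem hyK]
      exact hy
    · have h2 : C.O s y ∉ K := fun h => hyK ((C.mem_Kn_iff δ n s y).1 h)
      rw [hg, Set.indicator_of_notMem h2, Set.indicator_of_notMem hyK, map_zero]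
  refine ⟨⟨χ, ⟨hsm, hcpt, hoff⟩, heqv⟩, ?_⟩
  have hT : MemLp χ 2 (volume : Measure E) := hsm.continuous.memLp_of_hasCompactSupport hcpt
  have h1 : ‖C.e ⟨χ, ⟨hsm, hcpt, hoff⟩, heqv⟩ - f‖ = (eLpNorm (fun x => χ x - u x) 2 volume).toReal := by
    have h2 : ‖C.e ⟨χ, ⟨hsm, hcpt, hoff⟩, heqv⟩ - f‖ =
        ‖hT.toLp χ - (f : Lp F 2 (volume : Measure E))‖ := rfl
    have h3 : (f : Lp F 2 (volume : Measure E)) = hu.toLp u := by
      apply Lp.ext
      exact (hu.coeFn_toLp).symm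
    rw [h2, h3, ← MemLp.toLp_sub, Lp.norm_toLp]
    rfl
  rw [h1]
  have h4 : eLpNorm (fun x => χ x - u x) 2 volume ≤ ENNReal.ofReal ε := by
    have e1 : (fun x => χ x - u x) = (fun x => (χ x - g x) + (g x - u x)) := by
      funext x; abel
    rw [e1]
    refine (eLpNorm_add_le (hT.1.sub hgm.1) (hgm.1.sub hu.1) (by norm_num)).trans ?_
    refine (add_le_add hcl hn).trans ?_
    rw [← ENNReal.ofReal_add (by positivity) (by positivity)]
    exact ENNReal.ofReal_le_ofReal (by linarith)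
  exact ENNReal.toReal_le_of_le_ofReal hε.le h4

theorem denseRange_e : DenseRange C.e := by
  intro f
  rw [Metric.mem_closure_range_iff]
  intro ε hε
  obtain ⟨χ, hχ⟩ := C.exists_close f (ε := ε / 2) (by positivity)
  refine ⟨χ, ?_⟩
  rw [dist_comm, dist_eq_norm]
  linarith

/-! ### symmetrisation is a contraction -/

theorem eLpNorm_tr (s : S) {ψ : E → F} (h : AEStronglyMeasurable ψ (volume : Measure E)) :
    eLpNorm (C.tr s ψ) 2 volume = eLpNorm ψ 2 volume := by
  have h1 : eLpNorm (C.tr s ψ) 2 volume = eLpNorm (fun x => ψ (C.O s x)) 2 volume := by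
    refine eLpNorm_congr_norm_ae (Eventually.of_forall fun x => ?_)
    simp [tr]
  rw [h1]
  exact eLpNorm_comp_measurePreserving h (C.mp s)

theorem eLpNorm_avg_le {ψ : E → F} (h : AEStronglyMeasurable ψ (volume : Measure E)) :
    eLpNorm (C.avg ψ) 2 volume ≤ eLpNorm ψ 2 volume := by
  have hc : (0 : ℝ) < Fintype.card S := by exact_mod_cast Fintype.card_pos
  have hm : ∀ s, AEStronglyMeasurable (C.tr s ψ) (volume : Measure E) := fun s =>
    (ul (C.U s⁻¹)).continuous.comp_aestronglyMeasurable (h.comp_measurePreserving (C.mp s))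
  have e1 : C.avg ψ = ((Fintype.card S : ℝ)⁻¹ : ℝ) • ∑ s, C.tr s ψ := by
    funext x
    simp [avg, Finset.sum_apply]
  rw [e1, eLpNorm_const_smul]
  have h2 : eLpNorm (∑ s, C.tr s ψ) 2 volume ≤ ∑ s : S, eLpNorm (C.tr s ψ) 2 volume :=
    eLpNorm_sum_le (fun s _ => hm s) (by norm_num)
  have h3 : ∑ s : S, eLpNorm (C.tr s ψ) 2 volume = (Fintype.card S : ℝ≥0∞) * eLpNorm ψ 2 volume := by
    rw [Finset.sum_congr rfl fun s _ => C.eLpNorm_tr s h]
    simp [Finset.sum_const, Finset.card_univ]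
  have h4 : ‖((Fintype.card S : ℝ)⁻¹ : ℝ)‖ₑ * (Fintype.card S : ℝ≥0∞) = 1 := by
    have : ‖((Fintype.card S : ℝ)⁻¹ : ℝ)‖ₑ = ENNReal.ofReal ((Fintype.card S : ℝ)⁻¹) :=
      Real.enorm_of_nonneg (by positivity)
    rw [this, ← ENNReal.ofReal_natCast, ← ENNReal.ofReal_mul (by positivity),
      inv_mul_cancel₀ hc.ne', ENNReal.ofReal_one]
  calc ‖((Fintype.card S : ℝ)⁻¹ : ℝ)‖ₑ * eLpNorm (∑ s, C.tr s ψ) 2 volume
      ≤ ‖((Fintype.card S : ℝ)⁻¹ : ℝ)‖ₑ * ((Fintype.card S : ℝ≥0∞) * eLpNorm ψ 2 volume) := by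
        gcongr
        exact h2.trans h3.le
    _ = eLpNorm ψ 2 volume := by rw [← mul_assoc, h4, one_mul]

theorem norm_e (χ : C.X) : ‖C.e χ‖ = (eLpNorm χ.1 2 volume).toReal := by
  have h1 : ‖C.e χ‖ = ‖(χ.2.1.memLp).toLp χ.1‖ := rfl
  rw [h1, Lp.norm_toLp]

theorem norm_e_sym_le {ψ : E → F} (h : C.Test ψ) :
    ‖C.e (C.sym h)‖ ≤ (eLpNorm ψ 2 volume).toReal := by
  rw [norm_e]
  exact ENNReal.toReal_mono h.memLp.2.ne (C.eLpNorm_avg_le h.memLp.1)

theorem norm_e_D_sym_le (m : ℝ) (α : Fin 16) {ψ : E → F} (h : C.Test ψ) :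
    ‖C.e (C.D m α (C.sym h))‖ ≤ (eLpNorm ((C.Q m α).op ψ) 2 volume).toReal := by
  rw [C.D_sym]
  exact C.norm_e_sym_le (h.op m α)

theorem avg_sub_ae (f : C.L) (ψ : E → F) :
    (fun x => C.avg ψ x - ((f : Lp F 2 (volume : Measure E)) : E → F) x) =ᵐ[volume]
      C.avg (fun x => ψ x - ((f : Lp F 2 (volume : Measure E)) : E → F) x) := by
  have h1 : ∀ᵐ x : E, ∀ s, ((f : Lp F 2 (volume : Measure E)) : E → F) (C.O s x) =
      C.U s (((f : Lp F 2 (volume : Measure E)) : E → F) x) :=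
    ae_all_iff.2 fun s => C.mem_L.1 f.2 s
  filter_upwards [h1] with x hx
  have hc : (Fintype.card S : ℝ) ≠ 0 := by exact_mod_cast (Fintype.card_pos (α := S)).ne'
  have h2 : ∀ s, C.tr s (fun x => ψ x - ((f : Lp F 2 (volume : Measure E)) : E → F) x) x =
      C.tr s ψ x - ((f : Lp F 2 (volume : Measure E)) : E → F) x := by
    intro s
    simp only [tr]
    rw [hx s, map_sub, C.U_inv]
  simp only [avg]
  rw [Finset.sum_congr rfl fun s _ => h2 s, Finset.sum_sub_distrib, smul_sub, Finset.sum_const,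
    Finset.card_univ, ← Nat.cast_smul_eq_nsmul ℝ, smul_smul, inv_mul_cancel₀ hc, one_smul]

theorem norm_e_sym_sub_le (f : C.L) {ψ : E → F} (h : C.Test ψ) :
    ‖C.e (C.sym h) - f‖ ≤
      (eLpNorm (fun x => ψ x - ((f : Lp F 2 (volume : Measure E)) : E → F) x) 2 volume).toReal := by
  set u : E → F := ((f : Lp F 2 (volume : Measure E)) : E → F) with hu_def
  have hu : MemLp u 2 (volume : Measure E) := Lp.memLp _
  have hT : MemLp (C.avg ψ) 2 (volume : Measure E) := h.avg.memLp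
  have h1 : ‖C.e (C.sym h) - f‖ = (eLpNorm (fun x => C.avg ψ x - u x) 2 volume).toReal := by
    have h2 : ‖C.e (C.sym h) - f‖ = ‖hT.toLp (C.avg ψ) - (f : Lp F 2 (volume : Measure E))‖ := rfl
    have h3 : (f : Lp F 2 (volume : Measure E)) = hu.toLp u := by
      apply Lp.ext
      exact (hu.coeFn_toLp).symm
    rw [h2, h3, ← MemLp.toLp_sub, Lp.norm_toLp]
    rfl
  rw [h1, eLpNorm_congr_ae (C.avg_sub_ae f ψ)]
  exact ENNReal.toReal_mono (h.memLp.sub hu).2.ne (C.eLpNorm_avg_le (h.memLp.1.sub hu.1))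

/-! ### the free model of one channel -/

/-- **796's `IsFree` for one channel**, `K0 = ℂ ∙ Φ` -/
theorem isFree (m : ℝ) (Φ : C.L) (hΦ : Φ ≠ 0)
    (huniq : ∀ f : Lp F 2 (volume : Measure E),
      (∀ ψ : E → F, C.Test ψ → ∀ α, ∫ x, ⟪f x, (C.Q m α).op ψ x⟫_ℂ = 0) →
        ∃ c : ℂ, f = c • (Φ : Lp F 2 (volume : Measure E)))
    (happ : ∀ ε : ℝ, 0 < ε → ∃ ψ : E → F, C.Test ψ ∧
      eLpNorm (fun x => ψ x - ((Φ : Lp F 2 (volume : Measure E)) : E → F) x) 2 volume
        ≤ ENNReal.ofReal ε ∧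
      ∀ α, eLpNorm ((C.Q m α).op ψ) 2 volume ≤ ENNReal.ofReal ε) :
    TrialSys796.IsFree C.e (C.D m) (Submodule.span ℂ {Φ}) 1 where
  rank := by
    have h1 : Module.rank ℂ (Submodule.span ℂ {Φ}) = 1 := by
      have h2 := Module.finrank_eq_rank ℂ (Submodule.span ℂ {Φ})
      rw [finrank_span_singleton hΦ] at h2
      simpa using h2.symm
    rw [h1]
    simp
  uniq := by
    intro f hf
    obtain ⟨c, hc⟩ := C.uniq_sym m huniq f fun χ α => by
      have := hf χ α
      exact (inner_eq_zero_symm (𝕜 := ℂ) (x := C.e (C.D m α χ)) (y := f)).1 this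
    rw [Submodule.mem_span_singleton]
    refine ⟨c, ?_⟩
    apply Subtype.ext
    exact hc.symm
  approx := by
    intro f hf ε hε
    obtain ⟨c, rfl⟩ := Submodule.mem_span_singleton.1 hf
    obtain ⟨ψ, hψ, h1, h2⟩ := happ (ε / (1 + ‖c‖)) (by positivity)
    refine ⟨c • C.sym hψ, ?_, fun α => ?_⟩
    · have h3 := (C.norm_e_sym_sub_le Φ hψ).trans
        (ENNReal.toReal_le_of_le_ofReal (by positivity) h1)
      rw [map_smul, ← smul_sub, norm_smul]
      calc ‖c‖ * ‖C.e (C.sym hψ) - Φ‖ ≤ ‖c‖ * (ε / (1 + ‖c‖)) := by gcongr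
        _ ≤ ε := by
          rw [mul_div_assoc', div_le_iff₀ (by positivity)]
          nlinarith [norm_nonneg c]
    · have h3 := (C.norm_e_D_sym_le m α hψ).trans
        (ENNReal.toReal_le_of_le_ofReal (by positivity) (h2 α))
      rw [map_smul, map_smul, norm_smul]
      calc ‖c‖ * ‖C.e (C.D m α (C.sym hψ))‖ ≤ ‖c‖ * (ε / (1 + ‖c‖)) := by gcongr
        _ ≤ ε := by
          rw [mul_div_assoc', div_le_iff₀ (by positivity)]
          nlinarith [norm_nonneg c]

instance instSeparable : TopologicalSpace.SeparableSpace C.L := by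
  have : Fact ((1 : ℝ≥0∞) ≤ 2) := ⟨by norm_num⟩
  have : Fact ((2 : ℝ≥0∞) ≠ ⊤) := ⟨by norm_num⟩
  have : SecondCountableTopology (Lp F 2 (volume : Measure E)) := inferInstance
  infer_instance

end Chan
end Crest.Agent.R330.Chan566
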