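import Mathlib
import Crest.Agent.R330.Pou_365
import Crest.Agent.R330.Chan_566
import Crest.Agent.R330.Chan_441
import Crest.Agent.R330.IBP_837

/-!
# Row 330, S10-LIM (helper365): weak = strong for 566's channel, transfer to free generators

* `symm_chan`, `sep_chan`, `ws_chan` : the fields `symm`, `sep`, `ws` of 441's `IsLim` for 566's
  `Chan`, all masses.
* `IsLim.pull` : transfer of `IsLim` along a surjection `π : X' → X`.
* `Gen C B` : pairs `(i, ψ)`, `ψ` a test function supported in the open set `B i`; `π` : the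
  symmetrisation `Gen →₀ ℂ → C.X`, surjective if the `B i` cover the complement of `Z`.
-/

set_option autoImplicit false
set_option linter.unusedSectionVars false
set_option linter.unusedVariables false

open MeasureTheory Set Filter Topology
open scoped ContDiff InnerProductSpace

noncomputable section

namespace Crest.Agent.R330.ChanWS365

open Crest.Agent.R330.WS596 Crest.Agent.R330.WSOff365 Crest.Agent.R330.Pou365
  Crest.Agent.R330.Rem365 Crest.Agent.R330.MCut365 Crest.Agent.R330.Chan566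
  Crest.Agent.R330.TrialSys796

/-! ### Transfer along a surjection -/

theorem IsFree.pull {L : Type*} [NormedAddCommGroup L] [InnerProductSpace ℂ L] {X X' : Type*}
    [AddCommGroup X] [Module ℂ X] [AddCommGroup X'] [Module ℂ X'] {e : X →ₗ[ℂ] L}
    {D : Fin 16 → X →ₗ[ℂ] X} {K0 : Submodule ℂ L} {d : ℕ} (h : IsFree e D K0 d)
    {π : X' →ₗ[ℂ] X} (hπ : Function.Surjective π) {e' : X' →ₗ[ℂ] L} {D' : Fin 16 → X' →ₗ[ℂ] X'}
    (he : ∀ χ, e' χ = e (π χ)) (hD : ∀ α χ, π (D' α χ) = D α (π χ)) : IsFree e' D' K0 d where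
  rank := h.rank
  uniq f hf := h.uniq f fun χ α => by
    obtain ⟨χ', rfl⟩ := hπ χ
    rw [← hD, ← he]
    exact hf χ' α
  approx f hf ε hε := by
    obtain ⟨χ, h1, h2⟩ := h.approx f hf ε hε
    obtain ⟨χ', rfl⟩ := hπ χ
    refine ⟨χ', by rw [he]; exact h1, fun α => ?_⟩
    rw [he, hD]
    exact h2 α

theorem IsLim.pull {L : Type*} [NormedAddCommGroup L] [InnerProductSpace ℂ L] {X X' : Type*}
    [AddCommGroup X] [Module ℂ X] [AddCommGroup X'] [Module ℂ X'] {e : X →ₗ[ℂ] L}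
    {D : ℝ → Fin 16 → X →ₗ[ℂ] X} {W : (ℝ → ℝ) → X →ₗ[ℂ] X} {K0 : Submodule ℂ L} {d : ℕ}
    (h : Chan441.IsLim e D W K0 d) {π : X' →ₗ[ℂ] X} (hπ : Function.Surjective π)
    {e' : X' →ₗ[ℂ] L} {D' : ℝ → Fin 16 → X' →ₗ[ℂ] X'} {W' : (ℝ → ℝ) → X' →ₗ[ℂ] X'}
    (he : ∀ χ, e' χ = e (π χ)) (hD : ∀ m α χ, π (D' m α χ) = D m α (π χ))
    (hW : ∀ w, ContDiff ℝ ∞ w → ∀ χ, π (W' w χ) = W w (π χ))
    (hsq : ∀ α β χ, D' 0 α (D' 0 α χ) = D' 0 β (D' 0 β χ)) : Chan441.IsLim e' D' W' K0 d where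
  dense := by
    have h1 : (e' : X' → L) = e ∘ π := funext he
    rw [h1]
    have h2 := h.dense
    unfold DenseRange at h2 ⊢
    rwa [range_comp, hπ.range_eq, image_univ]
  sep := h.sep
  symm m α χ χ' := by
    rw [he, he, he, he, hD, hD]
    exact h.symm m α _ _
  sq := hsq
  ws f k hf ε hε := by
    obtain ⟨χ, h1, h2⟩ := h.ws f k (fun χ α => by
      obtain ⟨χ', rfl⟩ := hπ χ
      rw [← hD, ← he, ← he]
      exact hf χ' α) ε hε
    obtain ⟨χ', rfl⟩ := hπ χ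
    refine ⟨χ', by rw [he]; exact h1, fun α => ?_⟩
    rw [he, hD]
    exact h2 α
  hardy w hw hw2 χ := by
    simp only [he, hD, hW w hw]
    exact h.hardy w hw hw2 _
  free := IsFree.pull h.free hπ he (hD 1)

/-! ### Weak = strong for 566's channel -/

variable {S : Type*} [Group S] [Fintype S]
variable {E : Type*} [NormedAddCommGroup E] [InnerProductSpace ℝ E] [FiniteDimensional ℝ E]
  [MeasurableSpace E] [BorelSpace E]
variable {F : Type*} [NormedAddCommGroup F] [InnerProductSpace ℂ F] [FiniteDimensional ℂ F]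
variable {V : Type*} [NormedAddCommGroup V] [InnerProductSpace ℝ V] [FiniteDimensional ℝ V]
  [MeasurableSpace V] [BorelSpace V]
variable (C : Chan S E F)

theorem inner_eL (χ : C.X) (f : C.L) :
    ⟪C.e χ, f⟫_ℂ = ∫ x, ⟪χ.1 x, (f : Lp F 2 (volume : Measure E)) x⟫_ℂ := by
  have h0 : ⟪C.e χ, f⟫_ℂ =
      ⟪(C.e χ : Lp F 2 (volume : Measure E)), (f : Lp F 2 (volume : Measure E))⟫_ℂ := rfl
  rw [h0, L2.inner_def]
  refine integral_congr_ae ?_
  filter_upwards [C.e_ae χ] with x hx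
  rw [hx]

theorem norm_eL_sub (χ : C.X) (f : C.L) :
    ‖C.e χ - f‖ = (eLpNorm (fun x => χ.1 x - (f : Lp F 2 (volume : Measure E)) x) 2
      volume).toReal := by
  have h0 : ‖C.e χ - f‖ =
      ‖(C.e χ : Lp F 2 (volume : Measure E)) - (f : Lp F 2 (volume : Measure E))‖ := rfl
  rw [h0, Lp.norm_def]
  congr 1
  refine eLpNorm_congr_ae ?_
  filter_upwards [Lp.coeFn_sub (C.e χ : Lp F 2 (volume : Measure E))
    (f : Lp F 2 (volume : Measure E)), C.e_ae χ] with x h1 h2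
  rw [h1, Pi.sub_apply, h2]

/-- Coordinates of a derivative. -/
theorem sum_smulRight (ℓ : E →L[ℝ] F) :
    ∑ k, (innerSL ℝ (stdOrthonormalBasis ℝ E k)).smulRight (ℓ (stdOrthonormalBasis ℝ E k)) = ℓ := by
  ext x
  rw [sum_apply]
  simp only [ContinuousLinearMap.smulRight_apply, innerSL_apply_apply]
  conv_rhs => rw [← (stdOrthonormalBasis ℝ E).sum_repr' x, map_sum]
  simp only [map_smul]

/-- The symbol as a continuous real linear map. -/
def symb (Q : FOp E F) (k : Fin (Module.finrank ℝ E)) : F →L[ℝ] F :=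
  Q.A ∘L (ContinuousLinearMap.smulRightL ℝ E F (innerSL ℝ (stdOrthonormalBasis ℝ E k)))

theorem symb_apply (Q : FOp E F) (k : Fin (Module.finrank ℝ E)) (v : F) :
    symb Q k v = Q.A ((innerSL ℝ (stdOrthonormalBasis ℝ E k)).smulRight v) := rfl

/-- Integration by parts for an adjoint pair. -/
theorem inner_op {Q Qd : FOp E F} (hadj : Adj Q Qd) {φ ψ : E → F} (hφ : ContDiff ℝ ∞ φ)
    (hφc : HasCompactSupport φ) (hψ : ContDiff ℝ ∞ ψ) (hψc : HasCompactSupport ψ) :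
    ∫ x, ⟪Qd.op ψ x, φ x⟫_ℂ = ∫ x, ⟪ψ x, Q.op φ x⟫_ℂ := by
  set b := stdOrthonormalBasis ℝ E with hb
  have hφ1 : ContDiff ℝ 1 φ := hφ.of_le (by exact_mod_cast le_top)
  have hψ1 : ContDiff ℝ 1 ψ := hψ.of_le (by exact_mod_cast le_top)
  have hg : ∀ k, ContDiff ℝ 1 fun x => symb Q k (φ x) := fun k => (symb Q k).contDiff.comp hφ1
  have hgd : ∀ k x, fderiv ℝ (fun x => symb Q k (φ x)) x (b k) = symb Q k (fderiv ℝ φ x (b k)) := by
    intro k x
    have h1 : DifferentiableAt ℝ φ x := hφ.differentiable (by simp) x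
    have h2 : HasFDerivAt (fun x => symb Q k (φ x)) ((symb Q k) ∘L (fderiv ℝ φ x)) x :=
      (symb Q k).hasFDerivAt.comp x h1.hasFDerivAt
    rw [h2.fderiv]
    rfl
  have e1 : ∀ x, ⟪Qd.op ψ x, φ x⟫_ℂ = (∑ k, -⟪fderiv ℝ ψ x (b k), symb Q k (φ x)⟫_ℂ) +
      ⟪ψ x, Q.B x (φ x)⟫_ℂ := by
    intro x
    have h1 : Qd.A (fderiv ℝ ψ x) =
        ∑ k, Qd.A ((innerSL ℝ (b k)).smulRight (fderiv ℝ ψ x (b k))) := by
      rw [← map_sum, hb, sum_smulRight]
    rw [FOp.op, inner_add_left, h1, sum_inner, hadj.B]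
    congr 1
    refine Finset.sum_congr rfl fun k _ => ?_
    rw [symb_apply, hadj.A, neg_neg]
  have e2 : ∀ x, ⟪ψ x, Q.op φ x⟫_ℂ =
      (∑ k, ⟪ψ x, fderiv ℝ (fun x => symb Q k (φ x)) x (b k)⟫_ℂ) + ⟪ψ x, Q.B x (φ x)⟫_ℂ := by
    intro x
    have h1 : Q.A (fderiv ℝ φ x) =
        ∑ k, Q.A ((innerSL ℝ (b k)).smulRight (fderiv ℝ φ x (b k))) := by
      rw [← map_sum, hb, sum_smulRight]
    rw [FOp.op, inner_add_right, h1, inner_sum]
    congr 1
    refine Finset.sum_congr rfl fun k _ => ?_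
    rw [hgd, symb_apply]
  have i1 : ∀ k, Integrable fun x => -⟪fderiv ℝ ψ x (b k), symb Q k (φ x)⟫_ℂ := fun k =>
    (IBP837.integrable_inner_of_cont (IBP837.fderiv_apply_continuous hψ1 _) (hg k).continuous
      (Or.inl (IBP837.hasCompactSupport_fderiv_apply hψc _))).neg
  have i2 : ∀ k, Integrable fun x => ⟪ψ x, fderiv ℝ (fun x => symb Q k (φ x)) x (b k)⟫_ℂ :=
    fun k => IBP837.integrable_inner_of_cont hψ.continuous
      (IBP837.fderiv_apply_continuous (hg k) _) (Or.inl hψc)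
  have i3 : Integrable fun x => ⟪ψ x, Q.B x (φ x)⟫_ℂ :=
    IBP837.integrable_inner_of_cont hψ.continuous (Q.contB.clm_apply hφ.continuous) (Or.inl hψc)
  simp only [e1, e2]
  rw [integral_add (integrable_finsetSum _ fun k _ => i1 k) i3,
    integral_add (integrable_finsetSum _ fun k _ => i2 k) i3,
    integral_finsetSum _ fun k _ => i1 k, integral_finsetSum _ fun k _ => i2 k]
  congr 1
  refine Finset.sum_congr rfl fun k _ => ?_
  rw [integral_neg, IBP837.ibp hψ1 (hg k) (Or.inl hψc), neg_neg]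

theorem symm_chan {m : ℝ} {α : Fin 16} (hadj : Adj (C.Q m α) (C.Q m α)) (χ χ' : C.X) :
    ⟪C.e (C.D m α χ), C.e χ'⟫_ℂ = ⟪C.e χ, C.e (C.D m α χ')⟫_ℂ := by
  rw [C.inner_e_e, C.inner_e_e]
  exact inner_op hadj χ'.2.1.smooth χ'.2.1.cpt χ.2.1.smooth χ.2.1.cpt

theorem sep_chan : TopologicalSpace.SeparableSpace C.L := by
  have : Fact ((2 : ENNReal) ≠ ⊤) := ⟨by norm_num⟩
  have : SecondCountableTopology (Lp F 2 (volume : Measure E)) := inferInstance
  infer_instance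

theorem cov_chan (m : ℝ) (α : Fin 16) : Cov C.O C.U (C.Q m α) := by
  have h1 : ∀ (s : S) (ψ : E → F), tw C.O C.U s ψ = C.tr s ψ := by
    intro s ψ
    funext x
    rw [tw, Chan.tr, inv_apply_U]
  intro s ψ hψ x
  rw [h1, h1]
  exact C.op_tr m α s hψ x

/-- **The field `ws`.** -/
theorem ws_chan {m : ℝ} (hadj : ∀ α, Adj (C.Q m α) (C.Q m α)) {κ : Type*} {A : Finset κ}
    {L : κ → E →L[ℝ] V} {c : κ → V} (hZ : C.Z = flats A L c)
    (hL : ∀ a ∈ A, Function.Surjective (L a)) (hV : 3 ≤ Module.finrank ℝ V)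
    (hmc : ∀ (s : S) δ x, mcut A L c δ (C.O s x) = mcut A L c δ x)
    (f : C.L) (h : Fin 16 → C.L)
    (hf : ∀ (χ : C.X) α, ⟪C.e (C.D m α χ), f⟫_ℂ = ⟪C.e χ, h α⟫_ℂ) {ε : ℝ} (hε : 0 < ε) :
    ∃ χ : C.X, ‖C.e χ - f‖ ≤ ε ∧ ∀ α, ‖C.e (C.D m α χ) - h α‖ ≤ ε := by
  have hu : ∀ k : C.L, MemLp ((k : Lp F 2 (volume : Measure E)) : E → F) 2 volume :=
    fun k => Lp.memLp _
  obtain ⟨φ, h1, h2, h3, h4, h5, h6⟩ := ws_off_sym C.O C.U hadj (fun α => cov_chan C m α) (hu f)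
    (χ := fun α => ((h α : Lp F 2 (volume : Measure E)) : E → F)) (fun α => hu (h α))
    (fun s => C.mem_L.1 f.2 s) (fun α s => C.mem_L.1 (h α).2 s) hL hV hmc
    (fun s x => by rw [← hZ]; exact C.mem_Z_iff s x)
    (fun α ψ hψ hψc hψd hψs => by
      have hX : ψ ∈ C.X := ⟨⟨hψ, hψc, fun x hx hz => Set.disjoint_left.1 hψd hx (hZ ▸ hz)⟩, hψs⟩
      have h7 := hf ⟨ψ, hX⟩ α
      rw [inner_eL, inner_eL] at h7
      exact h7)
  have hX : ∀ n, φ n ∈ C.X := fun n =>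
    ⟨⟨h1 n, h2 n, fun x hx hz => Set.disjoint_left.1 (h3 n) hx (hZ ▸ hz)⟩, h4 n⟩
  have hε' : (0 : ENNReal) < ENNReal.ofReal ε := ENNReal.ofReal_pos.2 hε
  have e1 := h5.eventually_le_const hε'
  have e2 : ∀ᶠ n in atTop, ∀ α, eLpNorm (fun x => (C.Q m α).op (φ n) x -
      (h α : Lp F 2 (volume : Measure E)) x) 2 volume ≤ ENNReal.ofReal ε :=
    eventually_all.2 fun α => (h6 α).eventually_le_const hε'
  obtain ⟨n, hn1, hn2⟩ := (e1.and e2).exists
  refine ⟨⟨φ n, hX n⟩, ?_, fun α => ?_⟩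
  · rw [norm_eL_sub]
    exact ENNReal.toReal_le_of_le_ofReal hε.le hn1
  · rw [norm_eL_sub]
    exact ENNReal.toReal_le_of_le_ofReal hε.le (hn2 α)

/-! ### Free generators -/

variable {ι : Type*} (B : ι → Set E)

/-- Generators: test functions supported in one of the open sets. -/
def Gen : Type _ := Σ i : ι, {ψ : E → F // C.Test ψ ∧ tsupport ψ ⊆ B i}

variable {C B}

/-- The charge on generators. -/
def Gen.D (m : ℝ) (α : Fin 16) (γ : Gen C B) : Gen C B :=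
  ⟨γ.1, (C.Q m α).op γ.2.1, γ.2.2.1.op m α, (C.op_tsupport m α γ.2.1).trans γ.2.2.2⟩

variable (C B)

/-- The map to the test space of the channel. -/
def proj : (Gen C B →₀ ℂ) →ₗ[ℂ] C.X := Finsupp.linearCombination ℂ fun γ => C.sym γ.2.2.1

/-- The charge on the free space. -/
def DG (m : ℝ) (α : Fin 16) : (Gen C B →₀ ℂ) →ₗ[ℂ] (Gen C B →₀ ℂ) :=
  Finsupp.lmapDomain ℂ ℂ (Gen.D m α)

theorem proj_single (γ : Gen C B) (a : ℂ) :
    proj C B (Finsupp.single γ a) = a • C.sym γ.2.2.1 := by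
  rw [proj, Finsupp.linearCombination_single]

theorem proj_DG (m : ℝ) (α : Fin 16) (χ : Gen C B →₀ ℂ) :
    proj C B (DG C B m α χ) = C.D m α (proj C B χ) := by
  induction χ using Finsupp.induction_linear with
  | zero => simp only [map_zero]
  | add f g hf hg => simp only [map_add, hf, hg]
  | single γ a =>
    rw [DG, Finsupp.lmapDomain_apply, Finsupp.mapDomain_single, proj_single, proj_single, map_smul,
      C.D_sym]
    rfl

theorem sq_DG {m : ℝ} {α β : Fin 16} (h : ∀ ψ : E → F, ContDiff ℝ ∞ ψ →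
      (C.Q m α).op ((C.Q m α).op ψ) = (C.Q m β).op ((C.Q m β).op ψ)) (χ : Gen C B →₀ ℂ) :
    DG C B m α (DG C B m α χ) = DG C B m β (DG C B m β χ) := by
  induction χ using Finsupp.induction_linear with
  | zero => simp only [map_zero]
  | add f g hf hg => simp only [map_add, hf, hg]
  | single γ a =>
    simp only [DG, Finsupp.lmapDomain_apply, Finsupp.mapDomain_single]
    congr 1
    obtain ⟨i, ψ, hψ⟩ := γ
    simp only [Gen.D]
    congr 2
    exact h ψ hψ.1.smooth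

theorem proj_surjective (hB : ∀ i, IsOpen (B i)) (hc : ∀ x, x ∉ C.Z → ∃ i, x ∈ B i) :
    Function.Surjective (proj C B) := by
  intro χ
  obtain ⟨s, ψ, h1, h2, h3, h4⟩ := exists_rep hB χ.2.1.smooth χ.2.1.cpt
    (fun x hx => mem_iUnion.2 (hc x (χ.2.1.off x hx)))
  have ht : ∀ i, C.Test (ψ i) := fun i =>
    ⟨h1 i, h2 i, fun x hx => χ.2.1.off x (mem_of_mem_inter_right (h3 i hx))⟩
  have hs : ∀ i, tsupport (ψ i) ⊆ B i := fun i => (h3 i).trans inter_subset_left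
  let γ : ι → Gen C B := fun i => ⟨i, ψ i, ht i, hs i⟩
  have hγ : ∀ i, proj C B (Finsupp.single (γ i) (1 : ℂ)) = C.sym (ht i) := fun i => by
    rw [proj_single, one_smul]
  refine ⟨∑ i ∈ s, Finsupp.single (γ i) (1 : ℂ), ?_⟩
  rw [map_sum, Finset.sum_congr rfl fun i _ => hγ i]
  apply Subtype.ext
  funext x
  have h5 : ((∑ i ∈ s, C.sym (ht i) : C.X) : E → F) x = ∑ i ∈ s, C.avg (ψ i) x := by
    rw [Submodule.coe_sum, Finset.sum_apply]
    rfl
  rw [h5]
  have h6 : ∀ t : S, C.tr t χ.1 x = χ.1 x := fun t => by rw [C.tr_of_eqv χ.2.2]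
  have h7 : ∀ t : S, ∑ i ∈ s, C.tr t (ψ i) x = χ.1 x := fun t => by
    rw [← h6 t]
    unfold Chan.tr
    rw [h4, map_sum]
  unfold Chan.avg
  rw [← Finset.smul_sum, Finset.sum_comm, Finset.sum_congr rfl fun t _ => h7 t, Finset.sum_const,
    Finset.card_univ, ← Nat.cast_smul_eq_nsmul ℝ, smul_smul, inv_mul_cancel₀ (by positivity),
    one_smul]

/-- Decomposition of an element of the test space into test functions supported in balls. -/
theorem surj {reg : Set E} {r : E → ℝ} (hreg : ∀ x, x ∉ C.Z → x ∈ reg ∧ 0 < r x) (χ : C.X) :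
    ∃ (s : Finset reg) (ψ : reg → E → F), (∀ c, C.Test (ψ c) ∧
      tsupport (ψ c) ⊆ Metric.ball (c : E) (r c)) ∧ (∀ x, χ.1 x = ∑ c ∈ s, ψ c x) ∧
      ∑ c ∈ s, C.avg (ψ c) = χ.1 := by
  obtain ⟨s, ψ, h1, h2, h3, h4⟩ := exists_rep (U := fun c : reg => Metric.ball (c : E) (r c))
    (fun c => Metric.isOpen_ball) χ.2.1.smooth χ.2.1.cpt
    (fun x hx => mem_iUnion.2 ⟨⟨x, (hreg x (χ.2.1.off x hx)).1⟩,
      Metric.mem_ball_self (hreg x (χ.2.1.off x hx)).2⟩)
  refine ⟨s, ψ, fun c => ⟨⟨h1 c, h2 c, fun x hx => χ.2.1.off x (mem_of_mem_inter_right (h3 c hx))⟩,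
    (h3 c).trans inter_subset_left⟩, h4, ?_⟩
  funext x
  rw [Finset.sum_apply]
  have h6 : ∀ t : S, C.tr t χ.1 x = χ.1 x := fun t => by rw [C.tr_of_eqv χ.2.2]
  have h7 : ∀ t : S, ∑ i ∈ s, C.tr t (ψ i) x = χ.1 x := fun t => by
    rw [← h6 t]
    unfold Chan.tr
    rw [h4, map_sum]
  unfold Chan.avg
  rw [← Finset.smul_sum, Finset.sum_comm, Finset.sum_congr rfl fun t _ => h7 t, Finset.sum_const,
    Finset.card_univ, ← Nat.cast_smul_eq_nsmul ℝ, smul_smul, inv_mul_cancel₀ (by positivity),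
    one_smul]

end Crest.Agent.R330.ChanWS365

end
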