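import Crest.Agent.R330.Cliff3_442

/-!
# Row 330 (helper442): factorisation of modules

* `stepM`, `exists_T` : the intertwiner depends linearly on the vacuum vector.
* `CRep.pull` : pull back along a linear isometry.
* `exists_parity` : the parity operator of an irreducible module with vacuum vector.
* `exists_factor` : `T : F →ₗ F₂ →ₗ F`, `T h Ω₂ = h`, `θ (ι y) (T h g) = T h (θ₂ y g)`,
  `θ x (T h g) = T (θ x h) (Γ₂ g)` for `x` orthogonal to the range of `ι`, isometric.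
-/

set_option autoImplicit false
set_option linter.unusedSectionVars false

open scoped InnerProductSpace

noncomputable section

namespace Crest.Agent.R330.Cliff442

variable {V V₂ F F' F₂ : Type*} [NormedAddCommGroup V] [InnerProductSpace ℝ V]
  [NormedAddCommGroup V₂] [InnerProductSpace ℝ V₂]
  [NormedAddCommGroup F] [InnerProductSpace ℂ F] [NormedAddCommGroup F'] [InnerProductSpace ℂ F']
  [NormedAddCommGroup F₂] [InnerProductSpace ℂ F₂] {ι : Type*}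

namespace CRep

/-- The extension of an intertwiner over the pair `a, b`. -/
def stepM (M : CRep V F) (M' : CRep V F') (a b : V) : (F →ₗ[ℂ] F') →ₗ[ℂ] (F →ₗ[ℂ] F') where
  toFun J₁ := J₁ ∘ₗ ((1 / 2 : ℂ) • (M.ann a b ∘ₗ M.cre a b)) +
    M'.cre a b ∘ₗ J₁ ∘ₗ ((1 / 2 : ℂ) • M.ann a b)
  map_add' J K := by
    ext f
    simp only [LinearMap.add_apply, LinearMap.comp_apply, map_add]
    abel
  map_smul' c J := by
    ext f
    simp only [LinearMap.add_apply, LinearMap.comp_apply, LinearMap.smul_apply, map_smul,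
      RingHom.id_apply]
    module

variable (M : CRep V F) (M' : CRep V F')

theorem stepM_apply (a b : V) (J₁ : F →ₗ[ℂ] F') (f : F) :
    stepM M M' a b J₁ f = J₁ ((1 / 2 : ℂ) • M.ann a b (M.cre a b f)) +
      M'.cre a b (J₁ ((1 / 2 : ℂ) • M.ann a b f)) := rfl

variable {M M'}

theorem stepM_spec {K : Submodule ℝ V} {W : Submodule ℂ F} {W' : Submodule ℂ F'} {a b : V}
    (hp : Pr a b) (ha : a ∈ K) (hb : b ∈ K) (hW : M.InvOn K W) (hW' : M'.InvOn K W')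
    (J₁ : F →ₗ[ℂ] F') (h1 : ∀ f, J₁ f ∈ M'.vac W' a b)
    (h2 : ∀ x ∈ perp K a b, ∀ f ∈ M.vac W a b, J₁ (M.θ x f) = M'.θ x (J₁ f)) :
    (∀ f ∈ M.vac W a b, stepM M M' a b J₁ f = J₁ f) ∧ (∀ f, stepM M M' a b J₁ f ∈ W') ∧
      (∀ x ∈ K, ∀ f ∈ W, stepM M M' a b J₁ (M.θ x f) = M'.θ x (stepM M M' a b J₁ f)) := by
  set J : F →ₗ[ℂ] F' := stepM M M' a b J₁ with hJ
  have hJa : ∀ f, J f = J₁ ((1 / 2 : ℂ) • M.ann a b (M.cre a b f)) +
      M'.cre a b (J₁ ((1 / 2 : ℂ) • M.ann a b f)) := fun f => rfl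
  have hk : ∀ f, M'.ann a b (J₁ f) = 0 := fun f => (M'.mem_vac.1 (h1 f)).2
  have hJW : ∀ f, J₁ f ∈ W' := fun f => (M'.mem_vac.1 (h1 f)).1
  have hann : ∀ f, J (M.ann a b f) = M'.ann a b (J f) := by
    intro f
    rw [hJa, hJa, map_add, hk, ann_sq hp, smul_zero, map_zero, map_zero, add_zero, zero_add]
    have e1 := ann_cre_self (M := M) hp (M.ann a b f)
    rw [ann_sq hp, map_zero, add_zero] at e1
    have e2 := ann_cre_self (M := M') hp (J₁ ((1 / 2 : ℂ) • M.ann a b f))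
    rw [hk, map_zero, add_zero] at e2
    rw [e1, e2]
    simp only [map_smul, smul_smul]
    norm_num
  have hcre : ∀ f, J (M.cre a b f) = M'.cre a b (J f) := by
    intro f
    rw [hJa, hJa, map_add, cre_sq hp, cre_sq hp, map_zero, smul_zero, map_zero, zero_add, add_zero]
  have hperp : ∀ x ∈ perp K a b, ∀ f ∈ W, J (M.θ x f) = M'.θ x (J f) := by
    intro x hx f hf
    have e1 : M.ann a b (M.cre a b (M.θ x f)) = M.θ x (M.ann a b (M.cre a b f)) := by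
      rw [M.th_cre_perp hx.2.1 hx.2.2, map_neg, M.th_ann_perp hx.2.1 hx.2.2, neg_neg]
    have e2 : M.ann a b (M.θ x f) = -M.θ x (M.ann a b f) := M.th_ann_perp hx.2.1 hx.2.2 f
    have e3 : (1 / 2 : ℂ) • M.θ x (M.ann a b (M.cre a b f)) =
        M.θ x ((1 / 2 : ℂ) • M.ann a b (M.cre a b f)) := (map_smul _ _ _).symm
    have e4 : (1 / 2 : ℂ) • M.θ x (M.ann a b f) =
        M.θ x ((1 / 2 : ℂ) • M.ann a b f) := (map_smul _ _ _).symm
    rw [hJa, hJa, e1, e2, map_add, smul_neg, map_neg, map_neg, e3, e4,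
      h2 x hx _ (Submodule.smul_mem _ _ (hW.ann_cre_mem hp ha hb hf)),
      h2 x hx _ (Submodule.smul_mem _ _ (hW.ann_mem hp ha hb hf)),
      M'.th_cre_perp hx.2.1 hx.2.2, neg_neg]
  refine ⟨fun f hf => ?_, fun f => ?_, fun x hx f hf => ?_⟩
  · have h3 := (M.mem_vac.1 hf).2
    have e1 := ann_cre_self (M := M) hp f
    rw [h3, map_zero, add_zero] at e1
    rw [hJa, h3, e1, smul_zero, map_zero, map_zero, add_zero, smul_smul]
    norm_num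
  · rw [hJa]
    exact W'.add_mem (hJW _) (hW'.cre hp ha hb (hJW _))
  · have e : x = ⟪x, a⟫_ℝ • a + ⟪x, b⟫_ℝ • b + (x - ⟪x, a⟫_ℝ • a - ⟪x, b⟫_ℝ • b) := by abel
    have hy := exists_split hp ha hb hx
    have ea : J (M.θ a f) = M'.θ a (J f) := by
      rw [th_u (M := M) hp ha hb, th_u (M := M') hp ha hb, map_smul, map_add, hann, hcre]
    have eb : J (M.θ b f) = M'.θ b (J f) := by
      rw [th_v (M := M) hp ha hb, th_v (M := M') hp ha hb, map_smul, map_sub, hann, hcre]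
    rw [e, M.add, M.add, M.smul, M.smul, M'.add, M'.add, M'.smul, M'.smul]
    simp only [LinearMap.add_apply, LinearMap.smul_apply, map_add, map_smul]
    rw [ea, eb, hperp _ hy f hf]

theorem stepM_inner {K : Submodule ℝ V} {W : Submodule ℂ F} {a b : V}
    (hp : Pr a b) (ha : a ∈ K) (hb : b ∈ K) (hW : M.InvOn K W)
    (J₁ J₂ : F →ₗ[ℂ] F') (h1 : ∀ f, M'.ann a b (J₁ f) = 0) (h2 : ∀ f, M'.ann a b (J₂ f) = 0)
    (c : ℂ) (hc : ∀ f ∈ M.vac W a b, ∀ g ∈ M.vac W a b, ⟪J₁ f, J₂ g⟫_ℂ = c * ⟪f, g⟫_ℂ) :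
    ∀ f ∈ W, ∀ g ∈ W, ⟪stepM M M' a b J₁ f, stepM M M' a b J₂ g⟫_ℂ = c * ⟪f, g⟫_ℂ := by
  intro f hf g hg
  have ef : f = (1 / 2 : ℂ) • M.ann a b (M.cre a b f) +
      M.cre a b ((1 / 2 : ℂ) • M.ann a b f) := by
    rw [map_smul]; exact split hp f
  have eg : g = (1 / 2 : ℂ) • M.ann a b (M.cre a b g) +
      M.cre a b ((1 / 2 : ℂ) • M.ann a b g) := by
    rw [map_smul]; exact split hp g
  have k1 : ∀ h : F, M.ann a b ((1 / 2 : ℂ) • M.ann a b h) = 0 := fun h => by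
    rw [map_smul, ann_sq hp, smul_zero]
  have e1 := inner_split (M := M) hp (f₁ := (1 / 2 : ℂ) • M.ann a b f)
    (k1 (M.cre a b f)) (k1 (M.cre a b g)) (k1 g)
  rw [← ef, ← eg] at e1
  have e2 := inner_split (M := M') hp (f₁ := J₁ ((1 / 2 : ℂ) • M.ann a b f))
    (h1 ((1 / 2 : ℂ) • M.ann a b (M.cre a b f))) (h2 ((1 / 2 : ℂ) • M.ann a b (M.cre a b g)))
    (h2 ((1 / 2 : ℂ) • M.ann a b g))
  rw [← stepM_apply, ← stepM_apply] at e2
  rw [e1, e2, hc _ (Submodule.smul_mem _ _ (hW.ann_cre_mem hp ha hb hf)) _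
    (Submodule.smul_mem _ _ (hW.ann_cre_mem hp ha hb hg)),
    hc _ (Submodule.smul_mem _ _ (hW.ann_mem hp ha hb hf)) _
    (Submodule.smul_mem _ _ (hW.ann_mem hp ha hb hg))]
  ring

/-- **The intertwiner is linear in the vacuum vector.** -/
theorem exists_T (M' : CRep V F') {u v : ι → V} {K : Submodule ℝ V} {W : Submodule ℂ F}
    (s : Finset ι) (hp : Prs u v s) (hK : ∀ k ∈ s, u k ∈ K ∧ v k ∈ K) (hspan : perpS K u v s = ⊥)
    (hW : M.InvOn K W) {Ω : F} (hΩ : Ω ∈ M.vacS W u v s) (h0 : ‖Ω‖ = 1) :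
    ∃ T : F' →ₗ[ℂ] F →ₗ[ℂ] F', ∀ W' : Submodule ℂ F', M'.InvOn K W' → ∀ h ∈ M'.vacS W' u v s,
      T h Ω = h ∧ (∀ f, T h f ∈ W') ∧ (∀ x ∈ K, ∀ f ∈ W, T h (M.θ x f) = M'.θ x (T h f)) ∧
      ((∀ f ∈ M.vacS W u v s, f = ⟪Ω, f⟫_ℂ • Ω) → ∀ h' ∈ M'.vacS W' u v s,
        ∀ f ∈ W, ∀ g ∈ W, ⟪T h f, T h' g⟫_ℂ = ⟪h, h'⟫_ℂ * ⟪f, g⟫_ℂ) := by
  classical
  induction s using Finset.induction_on generalizing K W with
  | empty =>
    rw [perpS_empty] at hspan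
    rw [vacS_empty] at hΩ
    set T : F' →ₗ[ℂ] F →ₗ[ℂ] F' :=
      { toFun := fun h => (innerSL ℂ Ω).toLinearMap.smulRight h
        map_add' := fun h h' => by
          ext f
          simp
        map_smul' := fun c h => by
          ext f
          simp only [LinearMap.smulRight_apply, RingHom.id_apply, LinearMap.smul_apply]
          rw [smul_comm] } with hT
    have hTa : ∀ h f, T h f = ⟪Ω, f⟫_ℂ • h := fun _ _ => rfl
    refine ⟨T, fun W' hW' h hh => ⟨?_, fun f => ?_, fun x hx f hf => ?_,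
      fun hl h' hh' f hf g hg => ?_⟩⟩
    · rw [hTa, inner_self_c, h0]
      simp
    · rw [hTa]
      exact W'.smul_mem _ hh.1
    · rw [hspan] at hx
      rw [(Submodule.mem_bot ℝ).1 hx, M.zero, M'.zero]
      simp
    · rw [vacS_empty] at hl
      have e1 : ⟪f, g⟫_ℂ = starRingEnd ℂ ⟪Ω, f⟫_ℂ * ⟪Ω, g⟫_ℂ := by
        conv_lhs => rw [hl f hf, hl g hg]
        rw [inner_smul_left, inner_smul_right, inner_self_c, h0]
        simp
      rw [hTa, hTa, inner_smul_left, inner_smul_right, e1]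
      ring
  | insert a s ha ih =>
    have ham : a ∈ insert a s := Finset.mem_insert_self a s
    have hpa := hp.pr a ham
    obtain ⟨hua, hva⟩ := hK a ham
    rw [vacS_insert'] at hΩ
    rw [perpS_insert'] at hspan
    obtain ⟨T₁, hT₁⟩ := ih (K := perp K (u a) (v a)) (W := M.vac W (u a) (v a))
      (hp.mono (Finset.subset_insert a s)) (mem_perp_of_notMem ha hp hK) hspan
      (hW.vac hpa hua hva) hΩ
    refine ⟨stepM M M' (u a) (v a) ∘ₗ T₁, fun W' hW' h hh => ?_⟩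
    rw [vacS_insert'] at hh
    obtain ⟨j1, j2, j3, j4⟩ := hT₁ (M'.vac W' (u a) (v a)) (hW'.vac hpa hua hva) h hh
    obtain ⟨g1, g2, g3⟩ := stepM_spec hpa hua hva hW hW' (T₁ h) j2 j3
    have hΩ1 : Ω ∈ M.vac W (u a) (v a) := (M.mem_vacS.1 hΩ).1
    refine ⟨?_, g2, g3, fun hl h' hh' => ?_⟩
    · rw [LinearMap.comp_apply, g1 Ω hΩ1, j1]
    · rw [vacS_insert'] at hl hh'
      obtain ⟨-, i2, -, -⟩ := hT₁ (M'.vac W' (u a) (v a)) (hW'.vac hpa hua hva) h' hh'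
      exact stepM_inner hpa hua hva hW (T₁ h) (T₁ h') (fun f => (M'.mem_vac.1 (j2 f)).2)
        (fun f => (M'.mem_vac.1 (i2 f)).2) _ (j4 hl h' hh')

/-! ### Pull back -/

/-- The pull back of a module along a linear isometry. -/
def pull (M : CRep V F) (i : V₂ →ₗᵢ[ℝ] V) : CRep V₂ F where
  θ y := M.θ (i y)
  add x y := by rw [map_add, M.add]
  smul r x := by rw [map_smul, M.smul]
  symm x f g := M.symm _ f g
  anti x y := by rw [M.anti, i.inner_map_map]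

theorem pull_θ (M : CRep V F) (i : V₂ →ₗᵢ[ℝ] V) (y : V₂) : (M.pull i).θ y = M.θ (i y) := rfl

theorem pull_ann (M : CRep V F) (i : V₂ →ₗᵢ[ℝ] V) (x y : V₂) :
    (M.pull i).ann x y = M.ann (i x) (i y) := rfl

theorem pull_cre (M : CRep V F) (i : V₂ →ₗᵢ[ℝ] V) (x y : V₂) :
    (M.pull i).cre x y = M.cre (i x) (i y) := rfl

/-- The module with `-θ`. -/
def opp (M : CRep V F) : CRep V F where
  θ y := -M.θ y
  add x y := by rw [M.add, neg_add]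
  smul r x := by rw [M.smul, smul_neg]
  symm x f g := by
    rw [LinearMap.neg_apply, LinearMap.neg_apply, inner_neg_left, inner_neg_right, M.symm]
  anti x y := by rw [neg_mul_neg, neg_mul_neg, M.anti]

theorem opp_ann (M : CRep V F) (x y : V) (f : F) : M.opp.ann x y f = -M.ann x y f := by
  rw [ann_apply, ann_apply]
  change -M.θ x f + Complex.I • (-M.θ y f) = _
  module

/-- A vacuum vector of a module: unit, killed by the annihilation operators of pairs which span. -/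
structure Vac (M : CRep V F) (u v : ι → V) (s : Finset ι) (Ω : F) : Prop where
  prs : Prs u v s
  span : ∀ x : V, (∀ k ∈ s, ⟪x, u k⟫_ℝ = 0 ∧ ⟪x, v k⟫_ℝ = 0) → x = 0
  kill : ∀ k ∈ s, M.ann (u k) (v k) Ω = 0
  norm : ‖Ω‖ = 1

/-- Irreducible modules. -/
def Irr (M : CRep V F) : Prop := M.IrrOn ⊤ ⊤

theorem invOn_top (M : CRep V F) (K : Submodule ℝ V) : M.InvOn K ⊤ := fun _ _ _ _ => trivial

section vac

variable {u v : ι → V} {s : Finset ι} {Ω : F}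

theorem Vac.perpS_top (h : M.Vac u v s Ω) : perpS ⊤ u v s = (⊥ : Submodule ℝ V) := by
  rw [eq_bot_iff]
  intro x hx
  rw [Submodule.mem_bot]
  exact h.span x hx.2

theorem Vac.mem (h : M.Vac u v s Ω) : Ω ∈ M.vacS ⊤ u v s := ⟨trivial, h.kill⟩

theorem Vac.ne_zero (h : M.Vac u v s Ω) : Ω ≠ 0 := fun e => by
  have := h.norm
  rw [e, norm_zero] at this
  exact zero_ne_one this

theorem Vac.line (h : M.Vac u v s Ω) (hI : M.Irr) {f : F}
    (hf : ∀ k ∈ s, M.ann (u k) (v k) f = 0) : f = ⟪Ω, f⟫_ℂ • Ω :=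
  vac_line hI h.prs (fun _ _ => ⟨trivial, trivial⟩) h.perpS_top h.mem h.norm ⟨trivial, hf⟩

/-- Intertwiner of an irreducible module with vacuum vector into a module with a killed vector. -/
theorem Vac.exists_map (h : M.Vac u v s Ω) (hI : M.Irr) (M' : CRep V F') :
    ∃ T : F' →ₗ[ℂ] F →ₗ[ℂ] F', ∀ h₁ : F', (∀ k ∈ s, M'.ann (u k) (v k) h₁ = 0) →
      T h₁ Ω = h₁ ∧ (∀ x f, T h₁ (M.θ x f) = M'.θ x (T h₁ f)) ∧
      (∀ h₂ : F', (∀ k ∈ s, M'.ann (u k) (v k) h₂ = 0) →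
        ∀ f g, ⟪T h₁ f, T h₂ g⟫_ℂ = ⟪h₁, h₂⟫_ℂ * ⟪f, g⟫_ℂ) := by
  obtain ⟨T, hT⟩ := exists_T (M := M) M' (K := ⊤) (W := ⊤) s h.prs
    (fun _ _ => ⟨trivial, trivial⟩) h.perpS_top (M.invOn_top ⊤) h.mem h.norm
  refine ⟨T, fun h₁ hh₁ => ?_⟩
  obtain ⟨t1, -, t3, t4⟩ := hT ⊤ (M'.invOn_top ⊤) h₁ ⟨trivial, hh₁⟩
  refine ⟨t1, fun x f => t3 x trivial f trivial, fun h₂ hh₂ f g => ?_⟩
  exact t4 (fun f hf => h.line hI hf.2) h₂ ⟨trivial, hh₂⟩ f trivial g trivial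

/-- Uniqueness. -/
theorem Irr.ext (hI : M.Irr) {J J' : F →ₗ[ℂ] F'} (h1 : ∀ x f, J (M.θ x f) = M'.θ x (J f))
    (h2 : ∀ x f, J' (M.θ x f) = M'.θ x (J' f)) {Ω : F} (h0 : Ω ≠ 0) (h : J Ω = J' Ω) : J = J' := by
  ext f
  exact inter_unique (M := M) (M' := M') hI (fun x _ f _ => h1 x f) (fun x _ f _ => h2 x f)
    (Ω := Ω) trivial h0 h f trivial

/-- **Parity operator.** -/
theorem Vac.exists_parity (h : M.Vac u v s Ω) (hI : M.Irr) :
    ∃ Γ : F →ₗ[ℂ] F, Γ Ω = Ω ∧ (∀ x f, Γ (M.θ x f) = -M.θ x (Γ f)) ∧ (∀ f, Γ (Γ f) = f) ∧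
      (∀ f g, ⟪Γ f, Γ g⟫_ℂ = ⟪f, g⟫_ℂ) ∧ (∀ f g, ⟪Γ f, g⟫_ℂ = ⟪f, Γ g⟫_ℂ) := by
  obtain ⟨T, hT⟩ := h.exists_map hI M.opp
  have hk : ∀ k ∈ s, M.opp.ann (u k) (v k) Ω = 0 := fun k hk => by
    rw [opp_ann, h.kill k hk, neg_zero]
  obtain ⟨t1, t2, t3⟩ := hT Ω hk
  have t4 := t3 Ω hk
  have g1 : ∀ x f, T Ω (M.θ x f) = -M.θ x (T Ω f) := fun x f => t2 x f
  have g2 : (T Ω) ∘ₗ (T Ω) = LinearMap.id := by
    refine Irr.ext (M := M) (M' := M) hI (fun x f => ?_) (fun x f => rfl) h.ne_zero ?_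
    · rw [LinearMap.comp_apply, LinearMap.comp_apply, g1, map_neg, g1, neg_neg]
    · rw [LinearMap.comp_apply, t1, t1]
      rfl
  have g3 : ∀ f, T Ω (T Ω f) = f := fun f => LinearMap.congr_fun g2 f
  have g4 : ∀ f g, ⟪T Ω f, T Ω g⟫_ℂ = ⟪f, g⟫_ℂ := fun f g => by
    rw [t4, inner_self_c, h.norm]
    simp
  refine ⟨T Ω, t1, g1, g3, g4, fun f g => ?_⟩
  conv_lhs => rw [← g3 g]
  rw [g4]

/-- **Factorisation.** `M₂` is an irreducible module of `V₂` with vacuum vector `Ω₂`, `i` an isometric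
embedding `V₂ → V`.  For `h` in the vacuum space of `i` the map `T h : F₂ → F` is the intertwiner
with `T h Ω₂ = h`. -/
theorem Vac.exists_factor {u v : ι → V₂} {s : Finset ι} {M₂ : CRep V₂ F₂} {Ω₂ : F₂}
    (h : M₂.Vac u v s Ω₂) (hI : M₂.Irr) (M : CRep V F) (i : V₂ →ₗᵢ[ℝ] V) {Γ : F₂ →ₗ[ℂ] F₂}
    (hΓ : Γ Ω₂ = Ω₂) (hΓθ : ∀ x f, Γ (M₂.θ x f) = -M₂.θ x (Γ f)) :
    ∃ T : F →ₗ[ℂ] F₂ →ₗ[ℂ] F, ∀ h₁ : F, (∀ k ∈ s, M.ann (i (u k)) (i (v k)) h₁ = 0) →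
      T h₁ Ω₂ = h₁ ∧ (∀ y g, T h₁ (M₂.θ y g) = M.θ (i y) (T h₁ g)) ∧
      (∀ h₂ : F, (∀ k ∈ s, M.ann (i (u k)) (i (v k)) h₂ = 0) →
        ∀ f g, ⟪T h₁ f, T h₂ g⟫_ℂ = ⟪h₁, h₂⟫_ℂ * ⟪f, g⟫_ℂ) ∧
      (∀ x : V, (∀ y, ⟪x, i y⟫_ℝ = 0) → (∀ k ∈ s, M.ann (i (u k)) (i (v k)) (M.θ x h₁) = 0) ∧
        ∀ g, M.θ x (T h₁ g) = T (M.θ x h₁) (Γ g)) := by
  obtain ⟨T, hT⟩ := h.exists_map hI (M.pull i)
  refine ⟨T, fun h₁ hh₁ => ?_⟩
  obtain ⟨t1, t2, t3⟩ := hT h₁ hh₁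
  refine ⟨t1, t2, t3, fun x hx => ?_⟩
  have hk : ∀ k ∈ s, M.ann (i (u k)) (i (v k)) (M.θ x h₁) = 0 := fun k hk => by
    rw [M.th_ann_perp (hx _) (hx _), hh₁ k hk, map_zero, neg_zero]
  refine ⟨hk, fun g => ?_⟩
  obtain ⟨r1, r2, -⟩ := hT (M.θ x h₁) hk
  have hΓ2 : Γ ∘ₗ Γ = LinearMap.id := by
    refine Irr.ext (M := M₂) (M' := M₂) hI (fun x f => ?_) (fun x f => rfl) h.ne_zero ?_
    · rw [LinearMap.comp_apply, LinearMap.comp_apply, hΓθ, map_neg, hΓθ, neg_neg]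
    · rw [LinearMap.comp_apply, hΓ, hΓ]
      rfl
  have key : M.θ x ∘ₗ T h₁ ∘ₗ Γ = T (M.θ x h₁) := by
    refine Irr.ext (M := M₂) (M' := M.pull i) hI (fun y f => ?_) (fun y f => r2 y f) h.ne_zero ?_
    · simp only [LinearMap.comp_apply]
      rw [hΓθ, map_neg, t2, map_neg]
      have e := M.comm_apply (u := x) (v := i y) (hx y) (T h₁ (Γ f))
      rw [pull_θ] at *
      rw [e, neg_neg]
    · simp only [LinearMap.comp_apply]
      rw [hΓ, t1, r1]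
  rw [← key]
  simp only [LinearMap.comp_apply]
  have e := LinearMap.congr_fun hΓ2 g
  rw [LinearMap.comp_apply, LinearMap.id_apply] at e
  rw [e]

end vac

end CRep

end Crest.Agent.R330.Cliff442

end
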