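import Mathlib
import Crest.Agent.R330.IBP_837
import Crest.Agent.R330.FreeA_122
import Crest.Agent.R330.FreeB_122
import Crest.Agent.R330.FreeC_122

/-!
Row 330 (helper122): part D.  Main theorem for oscillator systems: the weak `L²` zero modes
(tested off a removable set) are exactly `gs • e`, `C_αk e = 0`.
-/

set_option autoImplicit false
set_option linter.unusedSectionVars false

noncomputable section

namespace Crest.Agent.R330.FreeD122

open MeasureTheory Filter Topology Crest.Agent.R330.IBP837 Crest.Agent.R330.FreeA122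
  Crest.Agent.R330.FreeB122 Crest.Agent.R330.FreeC122
open scoped ContDiff InnerProductSpace ENNReal

section Main

variable {ι κ : Type*} [Fintype ι] [Fintype κ] [DecidableEq κ]
  {F : Type*} [NormedAddCommGroup F] [InnerProductSpace ℂ F] [FiniteDimensional ℂ F]
  (S : OscSys ι κ F)

theorem lin_symm (α : ι) (x : EuclideanSpace ℝ κ) : (lin (S.v α) x).IsSymmetric := by
  intro u w
  simp only [lin_apply, sum_inner, inner_sum, inner_smul_left, inner_smul_right,
    Complex.conj_ofReal]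
  exact Finset.sum_congr rfl fun l _ => by rw [S.v_symm α l u w]

theorem gauss_eq_tf (e : F) : (fun x => (S.gs x : ℂ) • e) = S.tf 0 e 0 := by
  funext x
  unfold OscSys.tf
  rw [OscSys.G_eq]
  simp [pw, ph]

theorem gauss_memLp (e : F) : MemLp (fun x => (S.gs x : ℂ) • e) 2 volume := by
  rw [gauss_eq_tf]; exact S.memLp_tf 0 e 0

theorem gauss_smooth (e : F) : ContDiff ℝ ∞ (fun x => (S.gs x : ℂ) • e) := by
  rw [gauss_eq_tf]; exact S.tf_smooth 0 e 0

/-- the Gaussian state over the kernel of the annihilators is killed by every charge -/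
theorem D_gauss {e : F} (he : ∀ α k, S.C α k e = 0) (α : ι) (x : EuclideanSpace ℝ κ) :
    S.D α (fun x => (S.gs x : ℂ) • e) x = 0 := by
  rw [gauss_eq_tf, OscSys.D_G]
  unfold OscSys.tf
  simp [he]

theorem weak_gauss {e : F} (he : ∀ α k, S.C α k e = 0) (α : ι) :
    WeakZ ∅ (S.a α) (lin (S.v α)) (fun x => (S.gs x : ℂ) • e) := by
  intro ψ hψ hc _
  rw [← dirac_symm (S.a_symm α) (lin_symm S α) (fun w => (lin_smooth (S.v α) w).continuous)
    ((gauss_smooth S e).of_le (by simp)) (hψ.of_le (by simp)) (Or.inr hc)]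
  have h0 : ∀ x, ⟪dirac (S.a α) (lin (S.v α)) (fun x => (S.gs x : ℂ) • e) x, ψ x⟫_ℂ = 0 := by
    intro x
    have h1 : dirac (S.a α) (lin (S.v α)) (fun x => (S.gs x : ℂ) • e) x = 0 := D_gauss S he α x
    rw [h1, inner_zero_left]
  rw [integral_congr_ae (Eventually.of_forall h0), integral_zero]

/-- the integrated second order equation -/
theorem second_order {f : EuclideanSpace ℝ κ → F} (hf : MemLp f 2 volume)
    (h : ∀ α, WeakZ ∅ (S.a α) (lin (S.v α)) f) (k : EuclideanSpace ℝ κ) (e : F) :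
    ∫ x, ⟪f x, S.G k x •
      ((((S.c : ℂ) * (∑ j, (k j : ℂ) ^ 2 + 2 * Complex.I * ∑ j, (S.om j : ℂ) * k j * x j)) • e) +
        S.M e)⟫_ℂ = 0 := by
  have h1 : ∀ α, ∫ x, ⟪f x, S.D α (S.D α (S.tf k e 0)) x⟫_ℂ = 0 := by
    intro α
    rw [OscSys.D_G]
    refine weak_extend (h α) (S.tf_smooth k _ _) ?_ ?_
    · exact integrable_inner_of_memLp hf (S.memLp_D_tf α k _ _)
    · intro l
      refine integrable_inner_of_memLp hf ?_
      have : (fun x => S.a α l (S.tf k (∑ j, (k j : ℂ) • S.a α j e) (fun j => S.C α j e) x)) =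
          S.tf k (S.a α l (∑ j, (k j : ℂ) • S.a α j e)) (fun j => S.a α l (S.C α j e)) := by
        funext x
        unfold OscSys.tf
        simp only [map_smul, map_add, map_sum]
      rw [this]
      exact S.memLp_tf k _ _
  have h2 : ∀ x, ⟪f x, S.G k x •
      ((((S.c : ℂ) * (∑ j, (k j : ℂ) ^ 2 + 2 * Complex.I * ∑ j, (S.om j : ℂ) * k j * x j)) • e) +
        S.M e)⟫_ℂ = ∑ α, ⟪f x, S.D α (S.D α (S.tf k e 0)) x⟫_ℂ := by
    intro x
    rw [← S.DD_G k e x, inner_sum]
  simp only [h2]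
  rw [integral_finsetSum]
  · exact Finset.sum_eq_zero fun α _ => h1 α
  · intro α _
    rw [OscSys.D_G]
    exact integrable_inner_of_memLp hf (S.memLp_D_tf α k _ _)

theorem M_symm : (S.M).IsSymmetric := by
  rw [LinearMap.isSymmetric_iff_inner_map_self_real]
  intro w
  have h := S.inner_M w
  have h2 : ⟪S.M w, w⟫_ℂ = (starRingEnd ℂ) ⟪w, S.M w⟫_ℂ := (inner_conj_symm _ _).symm
  rw [h2, h, Complex.conj_ofReal, Complex.conj_ofReal]

theorem M_zero_iff (w : F) : S.M w = 0 ↔ ∀ α k, S.C α k w = 0 := by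
  constructor
  · intro h0 α k
    have h := S.inner_M w
    rw [h0, inner_zero_right] at h
    have h1 : (∑ k, ∑ α, (1 / (2 * S.om k)) * ‖S.C α k w‖ ^ 2 : ℝ) = 0 := by
      exact_mod_cast h.symm
    have h2 : ∀ k, 0 ≤ ∑ α, (1 / (2 * S.om k)) * ‖S.C α k w‖ ^ 2 := fun k =>
      Finset.sum_nonneg fun α _ => by have := S.om_pos k; positivity
    have h3 := (Finset.sum_eq_zero_iff_of_nonneg (fun k _ => h2 k)).mp h1 k (Finset.mem_univ k)
    have h4 := (Finset.sum_eq_zero_iff_of_nonneg
      (fun α _ => by have := S.om_pos k; positivity)).mp h3 α (Finset.mem_univ α)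
    have h5 : (1 / (2 * S.om k)) ≠ 0 := by have := S.om_pos k; positivity
    have h6 : ‖S.C α k w‖ ^ 2 = 0 := by
      rcases mul_eq_zero.mp h4 with h7 | h7
      · exact absurd h7 h5
      · exact h7
    simpa using h6
  · intro h
    have h1 : ∀ w, 0 ≤ (⟪S.M w, w⟫_ℂ).re := by
      intro w
      have h2 : ⟪S.M w, w⟫_ℂ = (starRingEnd ℂ) ⟪w, S.M w⟫_ℂ := (inner_conj_symm _ _).symm
      rw [h2, S.inner_M w, Complex.conj_ofReal, Complex.ofReal_re]
      exact Finset.sum_nonneg fun k _ => Finset.sum_nonneg fun α _ => by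
        have := S.om_pos k; positivity
    -- Cauchy-Schwarz for the positive form
    have h3 : ∑ α, ∑ k, S.a α k (S.C α k w) = 0 := by simp [h]
    have h4 : ∑ α, ∑ k, S.a α k (S.C α k w) =
        Complex.I • (∑ α, ∑ j, (S.om j : ℂ) • S.a α j (S.a α j w)) +
          ∑ α, ∑ j, S.a α j (S.v α j w) := by
      rw [Finset.smul_sum, ← Finset.sum_add_distrib]
      refine Finset.sum_congr rfl fun α _ => ?_
      rw [Finset.smul_sum, ← Finset.sum_add_distrib]
      refine Finset.sum_congr rfl fun j _ => ?_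
      simp only [OscSys.C, LinearMap.add_apply, LinearMap.smul_apply, map_add, map_smul, smul_smul]
    rw [h4, S.sum_aa w] at h3
    rw [S.M_apply]
    have h5 : ∑ α, ∑ j, S.a α j (S.v α j w) =
        -(Complex.I • ((S.c * ∑ j, S.om j : ℝ) : ℂ) • w) := by
      rw [eq_neg_iff_add_eq_zero, add_comm]; exact h3
    rw [h5, smul_neg, smul_smul, Complex.I_mul_I, neg_one_smul]
    simp

theorem eigen_nonneg {lam : ℝ} {e : F} (he : S.M e = (lam : ℂ) • e) (hne : e ≠ 0) : 0 ≤ lam := by
  have h := S.inner_M e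
  rw [he, inner_smul_right, inner_self_eq_norm_sq_to_K] at h
  have h1 : lam * ‖e‖ ^ 2 = ∑ k, ∑ α, (1 / (2 * S.om k)) * ‖S.C α k e‖ ^ 2 := by
    apply Complex.ofReal_injective
    rw [← h, Complex.ofReal_mul, Complex.ofReal_pow]
    rfl
  have h2 : 0 ≤ ∑ k, ∑ α, (1 / (2 * S.om k)) * ‖S.C α k e‖ ^ 2 :=
    Finset.sum_nonneg fun k _ => Finset.sum_nonneg fun α _ => by
      have := S.om_pos k; positivity
  rw [← h1] at h2
  have h3 : 0 < ‖e‖ ^ 2 := by have := norm_pos_iff.mpr hne; positivity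
  exact nonneg_of_mul_nonneg_left h2 h3

/-- projection of a square integrable zero mode on one eigenvector of `M` -/
theorem char_eq {f : EuclideanSpace ℝ κ → F} (hf : MemLp f 2 volume)
    (h : ∀ α, WeakZ ∅ (S.a α) (lin (S.v α)) f) {lam : ℝ} {e : F}
    (he : S.M e = (lam : ℂ) • e) (k : EuclideanSpace ℝ κ) :
    ∫ x, (((S.gs x : ℝ) : ℂ) * ⟪f x, e⟫_ℂ) *
      ((((1 / 2) * ∑ l, k l ^ 2 + lam / (2 * S.c) : ℝ) : ℂ) +
        Complex.I * ∑ l, ((S.om l * k l : ℝ) : ℂ) * x l) * pw k x = 0 := by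
  have h1 := second_order S hf h k e
  have h2 : ∀ x, ⟪f x, S.G k x •
      ((((S.c : ℂ) * (∑ j, (k j : ℂ) ^ 2 + 2 * Complex.I * ∑ j, (S.om j : ℂ) * k j * x j)) • e) +
        S.M e)⟫_ℂ = (2 * S.c : ℂ) * ((((S.gs x : ℝ) : ℂ) * ⟪f x, e⟫_ℂ) *
      ((((1 / 2) * ∑ l, k l ^ 2 + lam / (2 * S.c) : ℝ) : ℂ) +
        Complex.I * ∑ l, ((S.om l * k l : ℝ) : ℂ) * x l) * pw k x) := by
    intro x
    rw [he, ← add_smul, smul_smul, inner_smul_right, S.G_eq]
    have hc : (S.c : ℂ) ≠ 0 := by exact_mod_cast S.c_pos.ne'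
    have e1 : ∑ j, (S.om j : ℂ) * k j * x j = ∑ l, ((S.om l * k l : ℝ) : ℂ) * x l := by
      refine Finset.sum_congr rfl fun j _ => ?_
      push_cast; rfl
    rw [e1]
    push_cast
    field_simp
    ring
  simp only [h2] at h1
  rw [integral_const_mul] at h1
  have hc : (2 * S.c : ℂ) ≠ 0 := by
    have : (S.c : ℂ) ≠ 0 := by exact_mod_cast S.c_pos.ne'
    exact mul_ne_zero two_ne_zero this
  exact (mul_eq_zero.mp h1).resolve_left hc

theorem integrable_gf {f : EuclideanSpace ℝ κ → F} (hf : MemLp f 2 volume) (e : F) :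
    Integrable (fun x => ((S.gs x : ℝ) : ℂ) * ⟪f x, e⟫_ℂ) := by
  have h := integrable_inner_of_memLp hf (gauss_memLp S e)
  refine h.congr (Eventually.of_forall fun x => ?_)
  simp only [inner_smul_right]

theorem integrable_xgf {f : EuclideanSpace ℝ κ → F} (hf : MemLp f 2 volume) (e : F) (l : κ) :
    Integrable (fun x : EuclideanSpace ℝ κ => (x l : ℂ) * (((S.gs x : ℝ) : ℂ) * ⟪f x, e⟫_ℂ)) := by
  have h := integrable_inner_of_memLp hf (S.memLp_tf 0 0 (fun j => if j = l then e else 0))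
  refine h.congr (Eventually.of_forall fun x => ?_)
  have : S.tf 0 0 (fun j => if j = l then e else 0) x = ((S.gs x : ℂ) * (x l : ℂ)) • e := by
    unfold OscSys.tf
    rw [OscSys.G_eq]
    have h1 : (0 : F) + ∑ j, (x j : ℂ) • (if j = l then e else 0) = (x l : ℂ) • e := by
      simp only [smul_ite, smul_zero, Finset.sum_ite_eq', Finset.mem_univ, if_true, zero_add]
    have h2 : pw 0 x = 1 := by simp [pw, ph]
    rw [h1, h2, mul_one, smul_smul]
  simp only [this, inner_smul_right]
  ring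

/-- **Main theorem.**  Square integrable weak zero modes tested off a removable set. -/
theorem zero_mode {Z : Set (EuclideanSpace ℝ κ)} (hZ : Cuts Z)
    {f : EuclideanSpace ℝ κ → F} (hf : MemLp f 2 volume)
    (h : ∀ α, WeakZ Z (S.a α) (lin (S.v α)) f) :
    ∃ e : F, (∀ α k, S.C α k e = 0) ∧ f =ᵐ[volume] fun x => (S.gs x : ℂ) • e := by
  have h0 : ∀ α, WeakZ ∅ (S.a α) (lin (S.v α)) f := fun α =>
    weakZ_remove hZ (fun w => lin_smooth (S.v α) w) hf (h α)
  have hM := M_symm S
  set b := hM.eigenvectorBasis (rfl : Module.finrank ℂ F = Module.finrank ℂ F) with hb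
  set ev := hM.eigenvalues (rfl : Module.finrank ℂ F = Module.finrank ℂ F) with hev
  have hbe : ∀ i, S.M (b i) = ((ev i : ℝ) : ℂ) • b i := fun i =>
    hM.apply_eigenvectorBasis rfl i
  have hbn : ∀ i, b i ≠ 0 := fun i => by
    have := b.norm_eq_one i
    intro h1; rw [h1, norm_zero] at this; exact zero_ne_one this
  -- the gaussian integral
  have hgi : ∀ i, Integrable (fun x => ((S.gs x : ℝ) : ℂ) * ⟪(S.gs x : ℂ) • b i, b i⟫_ℂ) :=
    fun i => integrable_gf S (gauss_memLp S (b i)) (b i)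
  have hginn : ∀ i x, ((S.gs x : ℝ) : ℂ) * ⟪(S.gs x : ℂ) • b i, b i⟫_ℂ = ((S.gs x ^ 2 : ℝ) : ℂ) := by
    intro i x
    rw [inner_smul_left, inner_self_eq_norm_sq_to_K, b.norm_eq_one i]
    simp [pow_two]
  -- coefficients
  have key : ∀ i, ∃ c : ℂ, (ev i ≠ 0 → c = 0) ∧
      ∀ᵐ x ∂(volume : Measure (EuclideanSpace ℝ κ)), ⟪f x, b i⟫_ℂ = c * ((S.gs x : ℝ) : ℂ) := by
    intro i
    by_cases hi : ev i = 0
    · have hgint : Integrable (fun x => ((S.gs x ^ 2 : ℝ) : ℂ)) :=
        (hgi i).congr (Eventually.of_forall fun x => hginn i x)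
      have hpos : (0 : ℝ) < ∫ x, S.gs x ^ 2 := by
        have h1 : Integrable (fun x => S.gs x ^ 2) := by
          have := hgint.re
          refine this.congr (Eventually.of_forall fun x => ?_)
          exact Complex.ofReal_re _
        rw [integral_pos_iff_support_of_nonneg (fun x => sq_nonneg _) h1]
        have h2 : Function.support (fun x => S.gs x ^ 2) = Set.univ := by
          ext x
          simp [(S.gs_pos x).ne']
        rw [h2]
        exact Measure.measure_univ_pos.mpr (NeZero.ne _)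
      set J : ℝ := ∫ x, S.gs x ^ 2 with hJ
      set c : ℂ := (∫ x, ((S.gs x : ℝ) : ℂ) * ⟪f x, b i⟫_ℂ) / (J : ℂ) with hcdef
      have hJne : (J : ℂ) ≠ 0 := by exact_mod_cast hpos.ne'
      have hCi : ∀ α k, S.C α k (b i) = 0 := by
        apply (M_zero_iff S (b i)).mp
        rw [hbe i, hi]; simp
      have hG := char_eq S (gauss_memLp S (b i)) (weak_gauss S hCi) (hbe i)
      have hF := char_eq S hf h0 (hbe i)
      simp only [hginn] at hG
      have hgi1 := integrable_gf S hf (b i)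
      have hgi2 := integrable_xgf S hf (b i)
      have hgi3 : ∀ l, Integrable (fun x : EuclideanSpace ℝ κ =>
          (x l : ℂ) * ((S.gs x ^ 2 : ℝ) : ℂ)) := by
        intro l
        refine (integrable_xgf S (gauss_memLp S (b i)) (b i) l).congr
          (Eventually.of_forall fun x => ?_)
        simp only [hginn]
      refine ⟨c, fun h1 => absurd hi h1, ?_⟩
      have h1 := transport (lam := ev i / (2 * S.c)) S.om_pos
        (g := fun x => ((S.gs x : ℝ) : ℂ) * ⟪f x, b i⟫_ℂ - c * ((S.gs x ^ 2 : ℝ) : ℂ))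
        (hgi1.sub (hgint.const_mul c)) ?_ (Or.inr ⟨by rw [hi, zero_div], ?_⟩) ?_
      · filter_upwards [h1] with x hx
        have h2 : ((S.gs x : ℝ) : ℂ) ≠ 0 := by exact_mod_cast (S.gs_pos x).ne'
        have h3 : ((S.gs x : ℝ) : ℂ) * ⟪f x, b i⟫_ℂ - c * ((S.gs x ^ 2 : ℝ) : ℂ) = 0 := hx
        apply mul_left_cancel₀ h2
        rw [sub_eq_zero.mp h3]
        push_cast; ring
      · intro l
        refine ((hgi2 l).sub ((hgi3 l).const_mul c)).congr (Eventually.of_forall fun x => ?_)
        simp only [Pi.sub_apply]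
        ring
      · have hJc : ∫ x, ((S.gs x ^ 2 : ℝ) : ℂ) = (J : ℂ) := integral_complex_ofReal
        rw [integral_sub hgi1 (hgint.const_mul c), integral_const_mul, hJc,
          hcdef, div_mul_cancel₀ _ hJne, sub_self]
      · intro k
        have hpwi : ∀ (g : EuclideanSpace ℝ κ → ℂ), Integrable g →
            (∀ l, Integrable (fun x : EuclideanSpace ℝ κ => (x l : ℂ) * g x)) →
            Integrable (fun x => g x * ((((1 / 2) * ∑ l, k l ^ 2 + ev i / (2 * S.c) : ℝ) : ℂ) +
              Complex.I * ∑ l, ((S.om l * k l : ℝ) : ℂ) * x l) * pw k x) := by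
          intro g hg hxg
          have h4 : Integrable (fun x => g x *
              ((((1 / 2) * ∑ l, k l ^ 2 + ev i / (2 * S.c) : ℝ) : ℂ) +
              Complex.I * ∑ l, ((S.om l * k l : ℝ) : ℂ) * x l)) := by
            have h5 : Integrable (fun x => ((((1 / 2) * ∑ l, k l ^ 2 + ev i / (2 * S.c) : ℝ) : ℂ)) *
                g x + ∑ l, (Complex.I * ((S.om l * k l : ℝ) : ℂ)) * ((x l : ℂ) * g x)) :=
              (hg.const_mul _).add (integrable_finsetSum _ fun l _ => (hxg l).const_mul _)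
            refine h5.congr (Eventually.of_forall fun x => ?_)
            simp only []
            rw [mul_add, mul_comm (g x)]
            congr 1
            rw [Finset.mul_sum, Finset.mul_sum]
            refine Finset.sum_congr rfl fun l _ => ?_
            ring
          have h6 := h4.bdd_mul (c := 1) (continuous_pw k).aestronglyMeasurable
            (Eventually.of_forall fun x => (norm_pw k x).le)
          refine h6.congr (Eventually.of_forall fun x => ?_)
          simp only []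
          ring
        have h5 := hpwi _ hgi1 hgi2
        have h6 := hpwi _ hgint hgi3
        have h7 : ∀ x, (((S.gs x : ℝ) : ℂ) * ⟪f x, b i⟫_ℂ - c * ((S.gs x ^ 2 : ℝ) : ℂ)) *
            ((((1 / 2) * ∑ l, k l ^ 2 + ev i / (2 * S.c) : ℝ) : ℂ) +
              Complex.I * ∑ l, ((S.om l * k l : ℝ) : ℂ) * x l) * pw k x =
            (((S.gs x : ℝ) : ℂ) * ⟪f x, b i⟫_ℂ) *
            ((((1 / 2) * ∑ l, k l ^ 2 + ev i / (2 * S.c) : ℝ) : ℂ) +
              Complex.I * ∑ l, ((S.om l * k l : ℝ) : ℂ) * x l) * pw k x -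
            c * (((S.gs x ^ 2 : ℝ) : ℂ) *
            ((((1 / 2) * ∑ l, k l ^ 2 + ev i / (2 * S.c) : ℝ) : ℂ) +
              Complex.I * ∑ l, ((S.om l * k l : ℝ) : ℂ) * x l) * pw k x) := by
          intro x; ring
        simp only [h7]
        rw [integral_sub h5 (h6.const_mul c), integral_const_mul, hF, hG, mul_zero, sub_zero]
    · refine ⟨0, fun _ => rfl, ?_⟩
      have hpos : 0 < ev i / (2 * S.c) := by
        have h1 := eigen_nonneg S (hbe i) (hbn i)
        have h2 := S.c_pos
        have h3 : 0 < ev i := lt_of_le_of_ne h1 (Ne.symm hi)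
        positivity
      have h1 := transport S.om_pos (integrable_gf S hf (b i)) (integrable_xgf S hf (b i))
        (Or.inl hpos) (char_eq S hf h0 (hbe i))
      filter_upwards [h1] with x hx
      have h2 : ((S.gs x : ℝ) : ℂ) ≠ 0 := by exact_mod_cast (S.gs_pos x).ne'
      have h3 : ((S.gs x : ℝ) : ℂ) * ⟪f x, b i⟫_ℂ = 0 := hx
      rw [(mul_eq_zero.mp h3).resolve_left h2, zero_mul]
  choose c hc0 hc using key
  refine ⟨∑ i, (starRingEnd ℂ) (c i) • b i, ?_, ?_⟩
  · intro α k
    rw [map_sum]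
    refine Finset.sum_eq_zero fun i _ => ?_
    by_cases hi : ev i = 0
    · have hCi : ∀ α k, S.C α k (b i) = 0 := by
        apply (M_zero_iff S (b i)).mp
        rw [hbe i, hi]; simp
      rw [map_smul, hCi α k, smul_zero]
    · rw [hc0 i hi, map_zero, zero_smul, map_zero]
  · have hall : ∀ᵐ x ∂(volume : Measure (EuclideanSpace ℝ κ)),
        ∀ i, ⟪f x, b i⟫_ℂ = c i * ((S.gs x : ℝ) : ℂ) := ae_all_iff.mpr hc
    filter_upwards [hall] with x hx
    rw [← b.sum_repr' (f x), Finset.smul_sum]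
    refine Finset.sum_congr rfl fun i _ => ?_
    rw [smul_smul]
    congr 1
    rw [← inner_conj_symm, hx i, map_mul, Complex.conj_ofReal, mul_comm]


end Main

end Crest.Agent.R330.FreeD122
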