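import Mathlib
import Crest.Agent.R330.IBP_837
import Crest.Agent.R330.FreeA_122
import Crest.Agent.R330.FreeB_122
import Crest.Agent.R330.FreeC_122
import Crest.Agent.R330.FreeD_122
import Crest.Agent.R330.Rem_365

/-!
Row 330 (helper122): part E.  Cut-offs near finite unions of flats of codimension `≥ 3`
(`Cuts`), and approximation of the Gaussian zero mode by test functions off the removed set.
-/

set_option autoImplicit false
set_option linter.unusedSectionVars false

noncomputable section

namespace Crest.Agent.R330.FreeE122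

open MeasureTheory Filter Topology Set Crest.Agent.R330.IBP837 Crest.Agent.R330.FreeA122
  Crest.Agent.R330.FreeB122 Crest.Agent.R330.FreeC122 Crest.Agent.R330.FreeD122
open scoped ContDiff InnerProductSpace ENNReal NNReal

section cuts

variable {κ : Type*} [Fintype κ] [DecidableEq κ]

/-- nothing removed -/
def cutsEmpty : Cuts (∅ : Set (EuclideanSpace ℝ κ)) where
  ζ _ _ := 1
  smooth _ := contDiff_const
  nonneg _ _ := zero_le_one
  le_one _ _ := le_rfl
  disj _ := disjoint_empty _
  lim := Eventually.of_forall fun _ => tendsto_const_nhds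
  grad R l := by
    have h : eLpNorm (fun x : EuclideanSpace ℝ κ =>
      (Metric.closedBall (0 : EuclideanSpace ℝ κ) R).indicator
      (fun x => fderiv ℝ (fun _ : EuclideanSpace ℝ κ => (1 : ℝ)) x
        (EuclideanSpace.single l 1)) x) 2 volume = 0 := by
      have : (fun x : EuclideanSpace ℝ κ =>
        (Metric.closedBall (0 : EuclideanSpace ℝ κ) R).indicator
        (fun x => fderiv ℝ (fun _ : EuclideanSpace ℝ κ => (1 : ℝ)) x
        (EuclideanSpace.single l 1)) x) = fun _ => 0 := by
        funext x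
        by_cases hx : x ∈ Metric.closedBall (0 : EuclideanSpace ℝ κ) R
        · rw [indicator_of_mem hx]; simp
        · rw [indicator_of_notMem hx]
      rw [this]; simp
    exact tendsto_const_nhds.congr fun n => h.symm

/-- smaller sets -/
def cutsMono {Z Z' : Set (EuclideanSpace ℝ κ)} (C : Cuts Z') (h : Z ⊆ Z') : Cuts Z where
  ζ := C.ζ
  smooth := C.smooth
  nonneg := C.nonneg
  le_one := C.le_one
  disj n := (C.disj n).mono_right h
  lim := C.lim
  grad := C.grad

/-- unions -/
def cutsUnion {Z Z' : Set (EuclideanSpace ℝ κ)} (C : Cuts Z) (C' : Cuts Z') : Cuts (Z ∪ Z') where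
  ζ n x := C.ζ n x * C'.ζ n x
  smooth n := (C.smooth n).mul (C'.smooth n)
  nonneg n x := mul_nonneg (C.nonneg n x) (C'.nonneg n x)
  le_one n x := mul_le_one₀ (C.le_one n x) (C'.nonneg n x) (C'.le_one n x)
  disj n := by
    refine disjoint_union_right.2 ⟨(C.disj n).mono_left ?_, (C'.disj n).mono_left ?_⟩
    · exact tsupport_mul_subset_left
    · exact tsupport_mul_subset_right
  lim := by
    filter_upwards [C.lim, C'.lim] with x h h'
    simpa using h.mul h'
  grad R l := by
    have hb : ∀ n, eLpNorm (fun x => (Metric.closedBall (0 : EuclideanSpace ℝ κ) R).indicator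
        (fun x => fderiv ℝ (fun y => C.ζ n y * C'.ζ n y) x (EuclideanSpace.single l 1)) x) 2 volume ≤
        eLpNorm (fun x => (Metric.closedBall (0 : EuclideanSpace ℝ κ) R).indicator
        (fun x => fderiv ℝ (C'.ζ n) x (EuclideanSpace.single l 1)) x) 2 volume +
        eLpNorm (fun x => (Metric.closedBall (0 : EuclideanSpace ℝ κ) R).indicator
        (fun x => fderiv ℝ (C.ζ n) x (EuclideanSpace.single l 1)) x) 2 volume := by
      intro n
      have hm : ∀ (ζ : EuclideanSpace ℝ κ → ℝ), ContDiff ℝ ∞ ζ → AEStronglyMeasurable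
          (fun x => (Metric.closedBall (0 : EuclideanSpace ℝ κ) R).indicator
          (fun x => ‖fderiv ℝ ζ x (EuclideanSpace.single l 1)‖) x) volume := by
        intro ζ hζ
        have h1 : Continuous fun x => fderiv ℝ ζ x (EuclideanSpace.single l 1) :=
          (hζ.continuous_fderiv (by simp)).clm_apply continuous_const
        exact h1.norm.aestronglyMeasurable.indicator Metric.isClosed_closedBall.measurableSet
      have e : ∀ (ζ : EuclideanSpace ℝ κ → ℝ),
          eLpNorm (fun x => (Metric.closedBall (0 : EuclideanSpace ℝ κ) R).indicator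
          (fun x => fderiv ℝ ζ x (EuclideanSpace.single l 1)) x) 2 volume =
          eLpNorm (fun x => (Metric.closedBall (0 : EuclideanSpace ℝ κ) R).indicator
          (fun x => ‖fderiv ℝ ζ x (EuclideanSpace.single l 1)‖) x) 2 volume := by
        intro ζ
        refine eLpNorm_congr_norm_ae (Eventually.of_forall fun x => ?_)
        by_cases hx : x ∈ Metric.closedBall (0 : EuclideanSpace ℝ κ) R
        · rw [indicator_of_mem hx, indicator_of_mem hx, norm_norm]
        · rw [indicator_of_notMem hx, indicator_of_notMem hx]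
      rw [e (C'.ζ n), e (C.ζ n)]
      refine le_trans ?_ (eLpNorm_add_le (hm _ (C'.smooth n)) (hm _ (C.smooth n)) (by norm_num))
      refine eLpNorm_mono_real fun x => ?_
      simp only [Pi.add_apply]
      by_cases hx : x ∈ Metric.closedBall (0 : EuclideanSpace ℝ κ) R
      · rw [indicator_of_mem hx, indicator_of_mem hx, indicator_of_mem hx]
        have h1 : fderiv ℝ (fun y => C.ζ n y * C'.ζ n y) x =
            C.ζ n x • fderiv ℝ (C'.ζ n) x + C'.ζ n x • fderiv ℝ (C.ζ n) x :=
          fderiv_fun_mul ((C.smooth n).differentiable (by simp) x)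
            ((C'.smooth n).differentiable (by simp) x)
        rw [h1]
        simp only [add_apply, FunLike.coe_smul, Pi.smul_apply, smul_eq_mul]
        refine (norm_add_le _ _).trans ?_
        rw [norm_mul, norm_mul, Real.norm_of_nonneg (C.nonneg n x),
          Real.norm_of_nonneg (C'.nonneg n x)]
        exact add_le_add (mul_le_of_le_one_left (norm_nonneg _) (C.le_one n x))
          (mul_le_of_le_one_left (norm_nonneg _) (C'.le_one n x))
      · rw [indicator_of_notMem hx, indicator_of_notMem hx, indicator_of_notMem hx]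
        simp
    refine tendsto_of_tendsto_of_tendsto_of_le_of_le tendsto_const_nhds
      (by simpa using (C'.grad R l).add (C.grad R l)) (fun _ => bot_le) hb

/-- **one flat of codimension `≥ 3`** -/
def cutsFlat {V : Type*} [NormedAddCommGroup V] [InnerProductSpace ℝ V] [FiniteDimensional ℝ V]
    [MeasurableSpace V] [BorelSpace V]
    (L : EuclideanSpace ℝ κ →L[ℝ] V) (hL : Function.Surjective L)
    (hV : 3 ≤ Module.finrank ℝ V) (c : V) : Cuts {x : EuclideanSpace ℝ κ | L x = c} where
  ζ n := Rem365.fcut L c (1 / ((n : ℝ) + 1))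
  smooth n := Rem365.fcut_smooth L c _
  nonneg n x := Rem365.fcut_nonneg L c _ x
  le_one n x := Rem365.fcut_le_one L c _ x
  disj n := by
    have hn : (0 : ℝ) < 1 / ((n : ℝ) + 1) := by positivity
    rw [Set.disjoint_left]
    intro x hx hxc
    have hopen : IsOpen {y : EuclideanSpace ℝ κ | ‖L y - c‖ < 1 / ((n : ℝ) + 1)} :=
      isOpen_lt (by fun_prop) continuous_const
    have h1 : Rem365.fcut L c (1 / ((n : ℝ) + 1)) =ᶠ[𝓝 x] 0 := by
      filter_upwards [hopen.mem_nhds (show ‖L x - c‖ < 1 / ((n : ℝ) + 1) by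
        rw [show L x = c from hxc, sub_self, norm_zero]; exact hn)] with y hy
      exact Rem365.fcut_zero hn (le_of_lt hy)
    exact (notMem_tsupport_iff_eventuallyEq.mpr h1) hx
  lim := by
    have h0 := Rem365.flat_null L hL (by omega) c
    have h1 : ∀ᵐ x ∂(volume : Measure (EuclideanSpace ℝ κ)), L x ≠ c := by
      rw [ae_iff]
      simpa using h0
    filter_upwards [h1] with x hx
    have hpos : 0 < ‖L x - c‖ := norm_pos_iff.mpr (sub_ne_zero.mpr hx)
    have h2 : Tendsto (fun n : ℕ => 2 * (1 / ((n : ℝ) + 1))) atTop (𝓝 0) := by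
      simpa using (tendsto_one_div_add_atTop_nhds_zero_nat (𝕜 := ℝ)).const_mul 2
    apply tendsto_const_nhds.congr'
    filter_upwards [h2.eventually (gt_mem_nhds hpos)] with n hn
    exact (Rem365.fcut_one (by positivity) hn.le).symm
  grad R l := by
    obtain ⟨C, hC0, hC⟩ := Rem365.fcut_fderiv L
    obtain ⟨K, hK0, hK⟩ := Rem365.tube_vol L hL R
    set d := Module.finrank ℝ V with hd
    -- pointwise bound by an indicator
    have hb : ∀ n : ℕ, eLpNorm (fun x => (Metric.closedBall (0 : EuclideanSpace ℝ κ) R).indicator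
        (fun x => fderiv ℝ (Rem365.fcut L c (1 / ((n : ℝ) + 1))) x (EuclideanSpace.single l 1)) x)
        2 volume ≤ ENNReal.ofReal (C / (1 / ((n : ℝ) + 1))) *
          (ENNReal.ofReal (K * (2 * (1 / ((n : ℝ) + 1))) ^ d)) ^ (1 / 2 : ℝ) := by
      intro n
      have hn : (0 : ℝ) < 1 / ((n : ℝ) + 1) := by positivity
      set A : Set (EuclideanSpace ℝ κ) := {x | ‖x‖ ≤ R ∧ ‖L x - c‖ ≤ 2 * (1 / ((n : ℝ) + 1))}
        with hA
      have hAm : MeasurableSet A := by
        apply MeasurableSet.inter
        · exact (isClosed_le continuous_norm continuous_const).measurableSet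
        · exact (isClosed_le (L.continuous.sub continuous_const).norm
            continuous_const).measurableSet
      have h1 : eLpNorm (fun x => (Metric.closedBall (0 : EuclideanSpace ℝ κ) R).indicator
        (fun x => fderiv ℝ (Rem365.fcut L c (1 / ((n : ℝ) + 1))) x (EuclideanSpace.single l 1)) x)
        2 volume ≤ eLpNorm (A.indicator fun _ => C / (1 / ((n : ℝ) + 1))) 2 volume := by
        refine eLpNorm_mono_real fun x => ?_
        by_cases hx : x ∈ Metric.closedBall (0 : EuclideanSpace ℝ κ) R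
        · rw [indicator_of_mem hx]
          have h2 := (fderiv ℝ (Rem365.fcut L c (1 / ((n : ℝ) + 1))) x).le_opNorm
            (EuclideanSpace.single l 1)
          rw [EuclideanSpace.norm_single, norm_one, mul_one] at h2
          refine h2.trans ((hC c _ hn x).trans ?_)
          by_cases hx2 : ‖L x - c‖ ≤ 2 * (1 / ((n : ℝ) + 1))
          · have hxA : x ∈ A := ⟨by simpa using hx, hx2⟩
            rw [indicator_of_mem hxA, indicator_of_mem (show x ∈ {x | ‖L x - c‖ ≤ _} from hx2)]
          · rw [indicator_of_notMem (show x ∉ {x | ‖L x - c‖ ≤ _} from hx2)]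
            exact indicator_nonneg (fun _ _ => by positivity) x
        · rw [indicator_of_notMem hx, norm_zero]
          exact indicator_nonneg (fun _ _ => by positivity) x
      refine h1.trans ?_
      rw [eLpNorm_indicator_const hAm (by norm_num) (by norm_num)]
      refine mul_le_mul' ?_ ?_
      · rw [Real.enorm_eq_ofReal_abs, abs_of_nonneg (by positivity)]
      · have h3 := hK c (2 * (1 / ((n : ℝ) + 1))) (by positivity)
        have h4 : (1 / (2 : ℝ≥0∞).toReal) = (1 / 2 : ℝ) := by norm_num
        rw [h4]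
        exact ENNReal.rpow_le_rpow h3 (by norm_num)
    refine tendsto_of_tendsto_of_tendsto_of_le_of_le tendsto_const_nhds ?_ (fun _ => bot_le) hb
    -- the bound tends to zero
    have h5 : ∀ n : ℕ, ENNReal.ofReal (C / (1 / ((n : ℝ) + 1))) *
          (ENNReal.ofReal (K * (2 * (1 / ((n : ℝ) + 1))) ^ d)) ^ (1 / 2 : ℝ) ≤
        ENNReal.ofReal (C * Real.sqrt (K * 2 ^ d) * Real.sqrt (1 / ((n : ℝ) + 1))) := by
      intro n
      have hn : (0 : ℝ) < 1 / ((n : ℝ) + 1) := by positivity
      have hn1 : 1 / ((n : ℝ) + 1) ≤ 1 := by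
        rw [div_le_one (by positivity)]
        have : (0 : ℝ) ≤ n := Nat.cast_nonneg n
        linarith
      rw [ENNReal.ofReal_rpow_of_nonneg (by positivity) (by norm_num), ← ENNReal.ofReal_mul
        (by positivity)]
      apply ENNReal.ofReal_le_ofReal
      rw [← Real.sqrt_eq_rpow, mul_pow]
      have h6 : Real.sqrt (K * (2 ^ d * (1 / ((n : ℝ) + 1)) ^ d)) ≤
          Real.sqrt (K * 2 ^ d) * (Real.sqrt (1 / ((n : ℝ) + 1)) * (1 / ((n : ℝ) + 1))) := by
        rw [← mul_assoc K, Real.sqrt_mul (by positivity)]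
        apply mul_le_mul_of_nonneg_left _ (Real.sqrt_nonneg _)
        have h7 : (1 / ((n : ℝ) + 1)) ^ d ≤ (1 / ((n : ℝ) + 1)) ^ 3 :=
          pow_le_pow_of_le_one hn.le hn1 hV
        calc Real.sqrt ((1 / ((n : ℝ) + 1)) ^ d) ≤ Real.sqrt ((1 / ((n : ℝ) + 1)) ^ 3) :=
              Real.sqrt_le_sqrt h7
          _ = Real.sqrt (1 / ((n : ℝ) + 1)) * (1 / ((n : ℝ) + 1)) := by
              rw [show (1 / ((n : ℝ) + 1)) ^ 3 = (1 / ((n : ℝ) + 1)) * (1 / ((n : ℝ) + 1)) ^ 2
                by ring, Real.sqrt_mul hn.le, Real.sqrt_sq hn.le]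
      calc C / (1 / ((n : ℝ) + 1)) * Real.sqrt (K * (2 ^ d * (1 / ((n : ℝ) + 1)) ^ d))
          ≤ C / (1 / ((n : ℝ) + 1)) *
            (Real.sqrt (K * 2 ^ d) * (Real.sqrt (1 / ((n : ℝ) + 1)) * (1 / ((n : ℝ) + 1)))) :=
            mul_le_mul_of_nonneg_left h6 (by positivity)
        _ = C * Real.sqrt (K * 2 ^ d) * Real.sqrt (1 / ((n : ℝ) + 1)) := by
            field_simp
    refine tendsto_of_tendsto_of_tendsto_of_le_of_le tendsto_const_nhds ?_ (fun _ => bot_le) h5
    have h8 : Tendsto (fun n : ℕ => C * Real.sqrt (K * 2 ^ d) * Real.sqrt (1 / ((n : ℝ) + 1)))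
        atTop (𝓝 0) := by
      have h9 := ((Real.continuous_sqrt.tendsto 0).comp
        (tendsto_one_div_add_atTop_nhds_zero_nat (𝕜 := ℝ))).const_mul (C * Real.sqrt (K * 2 ^ d))
      simpa [Function.comp_def] using h9
    have h10 := ENNReal.tendsto_ofReal h8
    simpa using h10

/-- **finite unions of flats of codimension `≥ 3`** -/
theorem exists_cuts {α : Type*} {V : Type*} [NormedAddCommGroup V] [InnerProductSpace ℝ V]
    [FiniteDimensional ℝ V] [MeasurableSpace V] [BorelSpace V] (hV : 3 ≤ Module.finrank ℝ V)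
    (L : α → EuclideanSpace ℝ κ →L[ℝ] V) (c : α → V) (A : Finset α)
    (hL : ∀ a ∈ A, Function.Surjective (L a)) :
    Nonempty (Cuts (⋃ a ∈ A, {x : EuclideanSpace ℝ κ | L a x = c a})) := by
  classical
  induction A using Finset.induction_on with
  | empty => exact ⟨cutsMono cutsEmpty (by simp)⟩
  | insert a A _ ih =>
    obtain ⟨C⟩ := ih fun b hb => hL b (Finset.mem_insert_of_mem hb)
    refine ⟨cutsMono (cutsUnion (cutsFlat (L a) (hL a (Finset.mem_insert_self _ _)) hV (c a)) C)
      ?_⟩
    intro x hx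
    simp only [mem_iUnion, Finset.mem_insert, mem_ofPred_eq, exists_prop, mem_union] at hx ⊢
    obtain ⟨b, hb | hb, h⟩ := hx
    · subst hb; exact Or.inl h
    · exact Or.inr ⟨b, hb, h⟩

end cuts

section approx

variable {ι κ : Type*} [Fintype ι] [Fintype κ] [DecidableEq κ]
  {F : Type*} [NormedAddCommGroup F] [InnerProductSpace ℂ F] [FiniteDimensional ℂ F]
  (S : OscSys ι κ F)

theorem D_cut {χ : EuclideanSpace ℝ κ → ℝ} (hχ : ContDiff ℝ ∞ χ) {e : F}
    (he : ∀ α k, S.C α k e = 0) (α : ι) (x : EuclideanSpace ℝ κ) :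
    S.D α (fun y => χ y • ((S.gs y : ℂ) • e)) x =
      ∑ l, (-Complex.I) • ((fderiv ℝ χ x (EuclideanSpace.single l 1)) •
        S.a α l ((S.gs x : ℂ) • e)) := by
  unfold OscSys.D
  rw [dirac_leibniz ((hχ.differentiable (by simp)) x)
    (((gauss_smooth S e).differentiable (by simp)) x)]
  have h1 : dirac (S.a α) (lin (S.v α)) (fun x => (S.gs x : ℂ) • e) x = 0 := D_gauss S he α x
  rw [h1, smul_zero, zero_add]

theorem gs_le_one (x : EuclideanSpace ℝ κ) : S.gs x ≤ 1 := by
  unfold OscSys.gs
  rw [Real.exp_le_one_iff]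
  have h : 0 ≤ ∑ k, S.om k * x k ^ 2 :=
    Finset.sum_nonneg fun k _ => mul_nonneg (S.om_pos k).le (sq_nonneg _)
  linarith

/-- **Approximation.** The Gaussian zero mode is a limit of real cut-offs of itself, supported off
the removed set, with small charges. -/
theorem approx {Z : Set (EuclideanSpace ℝ κ)} (C : Cuts Z) :
    ∃ χ : ℕ → EuclideanSpace ℝ κ → ℝ, (∀ n, ContDiff ℝ ∞ (χ n)) ∧
      (∀ n, HasCompactSupport (χ n)) ∧ (∀ n, Disjoint (tsupport (χ n)) Z) ∧
      (∀ n x, 0 ≤ χ n x ∧ χ n x ≤ 1) ∧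
      ∀ e : F, (∀ α k, S.C α k e = 0) →
        Tendsto (fun n => eLpNorm (fun x => χ n x • ((S.gs x : ℂ) • e) - (S.gs x : ℂ) • e) 2
          volume) atTop (𝓝 0) ∧
        ∀ α, Tendsto (fun n => eLpNorm (S.D α (fun x => χ n x • ((S.gs x : ℂ) • e))) 2 volume)
          atTop (𝓝 0) := by
  obtain ⟨K, hK⟩ := cutInf_grad (κ := κ)
  -- choose the index of the cut-off near `Z`
  have hm : ∀ n : ℕ, ∃ m : ℕ, n ≤ m ∧ ∀ l : κ, eLpNorm (fun x =>
      (Metric.closedBall (0 : EuclideanSpace ℝ κ) (2 * ((n : ℝ) + 1))).indicator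
      (fun x => fderiv ℝ (C.ζ m) x (EuclideanSpace.single l 1)) x) 2 volume ≤
        ENNReal.ofReal (1 / ((n : ℝ) + 1)) := by
    intro n
    have h1 : ∀ l : κ, ∀ᶠ m in atTop, eLpNorm (fun x =>
      (Metric.closedBall (0 : EuclideanSpace ℝ κ) (2 * ((n : ℝ) + 1))).indicator
      (fun x => fderiv ℝ (C.ζ m) x (EuclideanSpace.single l 1)) x) 2 volume ≤
        ENNReal.ofReal (1 / ((n : ℝ) + 1)) := by
      intro l
      have hpos : (0 : ℝ≥0∞) < ENNReal.ofReal (1 / ((n : ℝ) + 1)) :=
        ENNReal.ofReal_pos.mpr (by positivity)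
      exact ((C.grad _ l).eventually (gt_mem_nhds hpos)).mono fun _ h => h.le
    have h2 := (eventually_all.mpr h1).and (eventually_ge_atTop n)
    obtain ⟨m, hm1, hm2⟩ := h2.exists
    exact ⟨m, hm2, hm1⟩
  choose M hMn hM using hm
  have hMt : Tendsto M atTop atTop := tendsto_atTop_mono hMn tendsto_id
  set χ : ℕ → EuclideanSpace ℝ κ → ℝ := fun n x => cutInf κ n x * C.ζ (M n) x with hχ
  have hsm : ∀ n, ContDiff ℝ ∞ (χ n) := fun n => (cutInf_smooth n).mul (C.smooth _)
  have hbd : ∀ n x, 0 ≤ χ n x ∧ χ n x ≤ 1 := fun n x =>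
    ⟨mul_nonneg (cutInf_nonneg n x) (C.nonneg _ x),
      mul_le_one₀ (cutInf_le_one n x) (C.nonneg _ x) (C.le_one _ x)⟩
  refine ⟨χ, hsm, fun n => (cutInf_compact n).mul_right, fun n => ?_, hbd, fun e he => ⟨?_, ?_⟩⟩
  · exact (C.disj (M n)).mono_left tsupport_mul_subset_right
  · -- L² convergence
    have hmem := gauss_memLp S e
    have hlim : ∀ᵐ x ∂(volume : Measure (EuclideanSpace ℝ κ)), Tendsto (fun n => χ n x) atTop
        (𝓝 1) := by
      filter_upwards [C.lim] with x hx
      have h1 : Tendsto (fun n => cutInf κ n x) atTop (𝓝 1) := by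
        apply tendsto_const_nhds.congr'
        obtain ⟨n0, hn0⟩ := exists_nat_ge ‖x‖
        filter_upwards [eventually_ge_atTop n0] with n hn
        have : (n0 : ℝ) ≤ n := by exact_mod_cast hn
        rw [cutInf_eq_one (by linarith)]
      simpa using h1.mul (hx.comp hMt)
    have h3 : Tendsto (fun n => ∫⁻ x, ‖χ n x • ((S.gs x : ℂ) • e) - (S.gs x : ℂ) • e‖ₑ ^ (2 : ℝ))
        atTop (𝓝 0) := by
      have h4 : Tendsto (fun n => ∫⁻ x, ‖χ n x • ((S.gs x : ℂ) • e) - (S.gs x : ℂ) • e‖ₑ ^ (2 : ℝ))
          atTop (𝓝 (∫⁻ _x : EuclideanSpace ℝ κ, 0)) := by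
        refine tendsto_lintegral_of_dominated_convergence'
          (fun x => ‖(S.gs x : ℂ) • e‖ₑ ^ (2 : ℝ)) (fun n => ?_) (fun n => ?_) ?_ ?_
        · have hc : Continuous fun x => χ n x • ((S.gs x : ℂ) • e) - (S.gs x : ℂ) • e :=
            (((hsm n).continuous).smul (gauss_smooth S e).continuous).sub
              (gauss_smooth S e).continuous
          exact (hc.enorm.measurable.pow_const _).aemeasurable
        · refine Eventually.of_forall fun x => ?_
          refine ENNReal.rpow_le_rpow ?_ (by norm_num)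
          have h5 : χ n x • ((S.gs x : ℂ) • e) - (S.gs x : ℂ) • e =
              (χ n x - 1) • ((S.gs x : ℂ) • e) := by rw [sub_smul, one_smul]
          rw [h5, enorm_smul]
          have h6 : ‖χ n x - 1‖ₑ ≤ 1 := by
            rw [Real.enorm_eq_ofReal_abs]
            rw [show (1 : ℝ≥0∞) = ENNReal.ofReal 1 by simp]
            apply ENNReal.ofReal_le_ofReal
            rw [abs_le]; constructor <;> linarith [(hbd n x).1, (hbd n x).2]
          calc ‖χ n x - 1‖ₑ * ‖(S.gs x : ℂ) • e‖ₑ ≤ 1 * ‖(S.gs x : ℂ) • e‖ₑ :=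
                mul_le_mul' h6 le_rfl
            _ = _ := one_mul _
        · have := (eLpNorm_lt_top_iff_lintegral_rpow_enorm_lt_top (by norm_num) (by norm_num)).mp
            hmem.2
          simpa using this.ne
        · filter_upwards [hlim] with x hx
          have h5 : Tendsto (fun n => χ n x • ((S.gs x : ℂ) • e) - (S.gs x : ℂ) • e) atTop
              (𝓝 0) := by
            have h6 := (hx.smul_const ((S.gs x : ℂ) • e)).sub_const ((S.gs x : ℂ) • e)
            simpa using h6
          have h7 := (continuous_enorm.tendsto (0 : F)).comp h5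
          have h8 := ((ENNReal.continuous_rpow_const (y := (2 : ℝ))).tendsto _).comp h7
          simpa [Function.comp_def] using h8
      simpa using h4
    have h9 : ∀ n, eLpNorm (fun x => χ n x • ((S.gs x : ℂ) • e) - (S.gs x : ℂ) • e) 2 volume =
        (∫⁻ x, ‖χ n x • ((S.gs x : ℂ) • e) - (S.gs x : ℂ) • e‖ₑ ^ (2 : ℝ)) ^ (1 / 2 : ℝ) := by
      intro n
      rw [eLpNorm_eq_lintegral_rpow_enorm_toReal (by norm_num) (by norm_num)]
      norm_num
    simp only [h9]
    have h10 := ((ENNReal.continuous_rpow_const (y := (1 / 2 : ℝ))).tendsto _).comp h3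
    simpa [Function.comp_def] using h10
  · intro α
    have hball : ∀ (n : ℕ) (x : EuclideanSpace ℝ κ),
        x ∉ Metric.closedBall (0 : EuclideanSpace ℝ κ) (2 * ((n : ℝ) + 1)) → cutInf κ n x = 0 := by
      intro n x hx
      have hn : (0 : ℝ) < (n : ℝ) + 1 := by positivity
      unfold cutInf
      have h2 : (2 : ℝ) ≤ dist ((1 / ((n : ℝ) + 1)) • x) 0 := by
        rw [dist_zero_right, norm_smul, Real.norm_eq_abs, abs_of_pos (by positivity)]
        rw [mem_closedBall_zero_iff, not_le] at hx
        rw [one_div, le_inv_mul_iff₀ hn]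
        linarith
      exact (bump κ).zero_of_le_dist h2
    have hK0 : ∀ (n : ℕ), 0 ≤ |K| / ((n : ℝ) + 1) := fun n => by positivity
    have hKle : ∀ (n : ℕ), K / ((n : ℝ) + 1) ≤ |K| / ((n : ℝ) + 1) := fun n =>
      div_le_div_of_nonneg_right (le_abs_self K) (by positivity)
    have hagl : ∀ l x, S.a α l ((S.gs x : ℂ) • e) = (S.gs x : ℂ) • S.a α l e := fun l x => by
      rw [map_smul]
    have hb : ∀ n : ℕ, eLpNorm (S.D α (fun x => χ n x • ((S.gs x : ℂ) • e))) 2 volume ≤
        ∑ l, (ENNReal.ofReal (1 / ((n : ℝ) + 1)) * ENNReal.ofReal ‖S.a α l e‖ +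
          ENNReal.ofReal (|K| / ((n : ℝ) + 1)) *
            eLpNorm (fun x => (S.gs x : ℂ) • S.a α l e) 2 volume) := by
      intro n
      set B := Metric.closedBall (0 : EuclideanSpace ℝ κ) (2 * ((n : ℝ) + 1)) with hB
      set p : κ → EuclideanSpace ℝ κ → ℝ := fun l x =>
        B.indicator (fun x => ‖fderiv ℝ (C.ζ (M n)) x (EuclideanSpace.single l 1)‖) x *
          ‖S.a α l e‖ with hp
      set q : κ → EuclideanSpace ℝ κ → ℝ := fun l x =>
        (|K| / ((n : ℝ) + 1)) * ‖(S.gs x : ℂ) • S.a α l e‖ with hq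
      have hpt : ∀ x, ‖S.D α (fun x => χ n x • ((S.gs x : ℂ) • e)) x‖ ≤ ∑ l, (p l x + q l x) := by
        intro x
        rw [D_cut S (hsm n) he α x]
        refine (norm_sum_le _ _).trans (Finset.sum_le_sum fun l _ => ?_)
        rw [norm_smul, norm_neg, Complex.norm_I, one_mul, norm_smul, hagl]
        have h1 : fderiv ℝ (χ n) x = cutInf κ n x • fderiv ℝ (C.ζ (M n)) x +
            C.ζ (M n) x • fderiv ℝ (cutInf κ n) x :=
          fderiv_fun_mul ((cutInf_smooth n).differentiable (by simp) x)
            ((C.smooth (M n)).differentiable (by simp) x)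
        have h2 : ‖fderiv ℝ (χ n) x (EuclideanSpace.single l 1)‖ ≤
            B.indicator (fun x => ‖fderiv ℝ (C.ζ (M n)) x (EuclideanSpace.single l 1)‖) x +
              |K| / ((n : ℝ) + 1) := by
          rw [h1]
          simp only [add_apply, FunLike.coe_smul, Pi.smul_apply, smul_eq_mul]
          refine (norm_add_le _ _).trans (add_le_add ?_ ?_)
          · rw [norm_mul, Real.norm_of_nonneg (cutInf_nonneg n x)]
            by_cases hx : x ∈ B
            · rw [indicator_of_mem hx]
              exact mul_le_of_le_one_left (norm_nonneg _) (cutInf_le_one n x)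
            · rw [indicator_of_notMem hx, hball n x hx, zero_mul]
          · rw [norm_mul, Real.norm_of_nonneg (C.nonneg _ x)]
            refine (mul_le_of_le_one_left (norm_nonneg _) (C.le_one _ x)).trans ?_
            rw [Real.norm_eq_abs]
            exact (hK n x l).trans (hKle n)
        refine (mul_le_mul_of_nonneg_right h2 (norm_nonneg _)).trans ?_
        rw [add_mul]
        refine add_le_add ?_ le_rfl
        simp only [hp]
        apply mul_le_mul_of_nonneg_left _ (indicator_nonneg (fun _ _ => norm_nonneg _) x)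
        rw [norm_smul, Complex.norm_real, Real.norm_of_nonneg (S.gs_pos x).le]
        exact mul_le_of_le_one_left (norm_nonneg _) (gs_le_one S x)
      have hζc : ∀ l, Continuous fun x =>
          fderiv ℝ (C.ζ (M n)) x (EuclideanSpace.single l 1) := fun l =>
        ((C.smooth (M n)).continuous_fderiv (by simp)).clm_apply continuous_const
      have hpm : ∀ l, AEStronglyMeasurable (p l) volume := fun l =>
        ((hζc l).norm.aestronglyMeasurable.indicator
          Metric.isClosed_closedBall.measurableSet).mul_const _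
      have hqm : ∀ l, AEStronglyMeasurable (q l) volume := fun l =>
        (continuous_const.mul (gauss_smooth S (S.a α l e)).continuous.norm).aestronglyMeasurable
      refine (eLpNorm_mono_real hpt).trans ?_
      have h3 : (fun x => ∑ l, (p l x + q l x)) = ∑ l, (p l + q l) := by
        funext x; simp [Finset.sum_apply]
      rw [h3]
      refine (eLpNorm_sum_le (fun l _ => (hpm l).add (hqm l)) (by norm_num)).trans ?_
      refine Finset.sum_le_sum fun l _ => ?_
      refine (eLpNorm_add_le (hpm l) (hqm l) (by norm_num)).trans (add_le_add ?_ ?_)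
      · have h4 : p l = ‖S.a α l e‖ • (fun x => B.indicator
            (fun x => ‖fderiv ℝ (C.ζ (M n)) x (EuclideanSpace.single l 1)‖) x) := by
          funext x
          simp only [hp, Pi.smul_apply, smul_eq_mul]
          ring
        rw [h4, eLpNorm_const_smul, mul_comm, Real.enorm_eq_ofReal_abs,
          abs_of_nonneg (norm_nonneg _)]
        refine mul_le_mul' ?_ le_rfl
        refine le_trans (le_of_eq ?_) (hM n l)
        refine eLpNorm_congr_norm_ae (Eventually.of_forall fun x => ?_)
        by_cases hx : x ∈ B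
        · rw [indicator_of_mem hx, indicator_of_mem hx, norm_norm]
        · rw [indicator_of_notMem hx, indicator_of_notMem hx]
      · have h4 : q l = (|K| / ((n : ℝ) + 1)) • (fun x => ‖(S.gs x : ℂ) • S.a α l e‖) := rfl
        rw [h4, eLpNorm_const_smul, eLpNorm_norm, Real.enorm_eq_ofReal_abs,
          abs_of_nonneg (hK0 n)]
    refine tendsto_of_tendsto_of_tendsto_of_le_of_le tendsto_const_nhds ?_ (fun _ => bot_le) hb
    have h5 : Tendsto (fun n : ℕ => ENNReal.ofReal (1 / ((n : ℝ) + 1))) atTop (𝓝 0) := by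
      have := ENNReal.tendsto_ofReal (tendsto_one_div_add_atTop_nhds_zero_nat (𝕜 := ℝ))
      simpa using this
    have h6 : Tendsto (fun n : ℕ => ENNReal.ofReal (|K| / ((n : ℝ) + 1))) atTop (𝓝 0) := by
      have h7 : Tendsto (fun n : ℕ => |K| / ((n : ℝ) + 1)) atTop (𝓝 0) := by
        have h1 := (tendsto_one_div_add_atTop_nhds_zero_nat (𝕜 := ℝ)).const_mul |K|
        simpa [div_eq_mul_inv] using h1
      have := ENNReal.tendsto_ofReal h7
      simpa using this
    have h8 : Tendsto (fun n : ℕ => ∑ l, (ENNReal.ofReal (1 / ((n : ℝ) + 1)) *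
        ENNReal.ofReal ‖S.a α l e‖ + ENNReal.ofReal (|K| / ((n : ℝ) + 1)) *
            eLpNorm (fun x => (S.gs x : ℂ) • S.a α l e) 2 volume)) atTop
        (𝓝 (∑ l : κ, (0 * ENNReal.ofReal ‖S.a α l e‖ +
          0 * eLpNorm (fun x => (S.gs x : ℂ) • S.a α l e) 2 volume))) := by
      refine tendsto_finsetSum _ fun l _ => ?_
      refine Tendsto.add ?_ ?_
      · exact ENNReal.Tendsto.mul_const h5 (Or.inr ENNReal.ofReal_ne_top)
      · exact ENNReal.Tendsto.mul_const h6 (Or.inr (gauss_memLp S _).2.ne)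
    simpa using h8

end approx

end Crest.Agent.R330.FreeE122
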