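import Mathlib
import Crest.Agent.R330.IBP_837
import Crest.Agent.R330.FreeA_122
import Crest.Agent.R330.FreeB_122
import Crest.Agent.R330.FreeC_122
import Crest.Agent.R330.FreeD_122
import Crest.Agent.R330.FreeE_122
import Crest.Agent.R330.Defs_478
import Crest.Agent.R330.VId_87
import Crest.Agent.R330.Cliff4_442

/-!
Row 330 (helper122): the free massive model of `p` relative positions.

* `Light p F` : fermions `θ_α^a`, `α : Fin 16`, `a : Fin p`, irreducible on `F`.
* `freeD L G m α φ x` : the free charges on `EuclideanSpace ℝ (Fin 9 × Fin p)`, literally the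
  charges `dcharge` of 478 with the quartic part dropped.
* `LVac L G e` : `e` is a vacuum of the complex structure `Γ ⊗ 1` (as `IsGVac` of 478).
* `gs p m x = exp(-(m/2) Σ |c_j| (x_j^a)²)`.
* `exists_xi`, `xi_line` : the vacuum line.
* `freeD_gauss` : `gs • ξ` is killed by all charges.
* `free_unique` : **the square integrable weak zero modes, tested off a removable set, are the
  multiples of `gs • ξ`.**
* `free_approx` : approximation of `gs • ξ` by real cut-offs of itself off the removed set.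
-/

set_option autoImplicit false
set_option linter.unusedSectionVars false

noncomputable section

namespace Crest.Agent.R330.Free122

open MeasureTheory Filter Topology Crest.MathPhysics.MatrixQM Crest.Agent.R330.IBP837
  Crest.Agent.R330.FreeB122 Crest.Agent.R330.FreeC122 Crest.Agent.R330.FreeD122
  Crest.Agent.R330.FreeE122 Crest.Agent.R330.Defs478
open scoped ContDiff InnerProductSpace ENNReal

/-- irreducible fermions of `p` relative positions -/
structure Light (p : ℕ) (F : Type*) [NormedAddCommGroup F] [InnerProductSpace ℂ F] where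
  θ : Fin 16 → Fin p → (F →ₗ[ℂ] F)
  symm : ∀ α a, (θ α a).IsSymmetric
  anti : ∀ α a β b, θ α a ∘ₗ θ β b + θ β b ∘ₗ θ α a =
    if α = β ∧ a = b then (LinearMap.id : F →ₗ[ℂ] F) else 0
  irr : ∀ W : Submodule ℂ F, (∀ α a, ∀ v ∈ W, θ α a v ∈ W) → W = ⊥ ∨ W = ⊤

variable {p : ℕ} {F : Type*} [NormedAddCommGroup F] [InnerProductSpace ℂ F]
  [FiniteDimensional ℂ F] (L : Light p F) (G : GammaNine)

/-- The free charges of mass `m`. -/
def freeD (L : Light p F) (G : GammaNine) (m : ℝ) (α : Fin 16)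
    (φ : EuclideanSpace ℝ (Fin 9 × Fin p) → F) (x : EuclideanSpace ℝ (Fin 9 × Fin p)) : F :=
  (∑ i : Fin 9, ∑ A : Fin p, ∑ β : Fin 16,
    (-Complex.I * (G.γ i α β : ℂ)) • L.θ β A (fderiv ℝ φ x (EuclideanSpace.single (i, A) 1))) +
  ∑ A : Fin p, ∑ β : Fin 16,
    ((-(m * ∑ j : Fin 9, cc j * x (j, A) * (Gam G * G.γ j) α β) : ℝ) : ℂ) • L.θ β A (φ x)

/-- `e` is a vacuum of the complex structure `Γ ⊗ 1`. -/
def LVac (L : Light p F) (G : GammaNine) (e : F) : Prop :=
  ∀ (α : Fin 16) (A : Fin p),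
    L.θ α A e = Complex.I • ∑ β : Fin 16, ((Gam G β α : ℝ) : ℂ) • L.θ β A e

/-- the Gaussian -/
def gs (p : ℕ) (m : ℝ) (x : EuclideanSpace ℝ (Fin 9 × Fin p)) : ℝ :=
  Real.exp (-(1 / 2) * ∑ k : Fin 9 × Fin p, m * |cc k.1| * x k ^ 2)

theorem cc_ne (j : Fin 9) : cc j ≠ 0 := by
  unfold cc; split_ifs <;> norm_num

/-- quadratic identity: `Σ_α {P θ^b, Q θ^b'}_α = δ tr(Pᵀ Q)` -/
theorem quad_id (P Q : Matrix (Fin 16) (Fin 16) ℝ) (b b' : Fin p) (w : F) :
    ∑ α, ((∑ β, ((P α β : ℝ) : ℂ) • L.θ β b (∑ γ, ((Q α γ : ℝ) : ℂ) • L.θ γ b' w)) +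
      (∑ γ, ((Q α γ : ℝ) : ℂ) • L.θ γ b' (∑ β, ((P α β : ℝ) : ℂ) • L.θ β b w))) =
    if b = b' then (((P.transpose * Q).trace : ℝ) : ℂ) • w else 0 := by
  have h1 : ∀ α, ((∑ β, ((P α β : ℝ) : ℂ) • L.θ β b (∑ γ, ((Q α γ : ℝ) : ℂ) • L.θ γ b' w)) +
      (∑ γ, ((Q α γ : ℝ) : ℂ) • L.θ γ b' (∑ β, ((P α β : ℝ) : ℂ) • L.θ β b w))) =
      ∑ β, ∑ γ, ((P α β : ℂ) * (Q α γ : ℂ)) • (if β = γ ∧ b = b' then w else 0) := by
    intro α
    have e1 : ∑ γ, ((Q α γ : ℝ) : ℂ) • L.θ γ b' (∑ β, ((P α β : ℝ) : ℂ) • L.θ β b w) =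
        ∑ β, ∑ γ, ((P α β : ℂ) * (Q α γ : ℂ)) • L.θ γ b' (L.θ β b w) := by
      rw [Finset.sum_comm]
      refine Finset.sum_congr rfl fun γ _ => ?_
      rw [map_sum, Finset.smul_sum]
      refine Finset.sum_congr rfl fun β _ => ?_
      rw [map_smul, smul_smul, mul_comm]
    have e2 : ∑ β, ((P α β : ℝ) : ℂ) • L.θ β b (∑ γ, ((Q α γ : ℝ) : ℂ) • L.θ γ b' w) =
        ∑ β, ∑ γ, ((P α β : ℂ) * (Q α γ : ℂ)) • L.θ β b (L.θ γ b' w) := by
      refine Finset.sum_congr rfl fun β _ => ?_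
      rw [map_sum, Finset.smul_sum]
      refine Finset.sum_congr rfl fun γ _ => ?_
      rw [map_smul, smul_smul]
    rw [e1, e2, ← Finset.sum_add_distrib]
    refine Finset.sum_congr rfl fun β _ => ?_
    rw [← Finset.sum_add_distrib]
    refine Finset.sum_congr rfl fun γ _ => ?_
    rw [← smul_add]
    congr 1
    have := congrArg (fun T : F →ₗ[ℂ] F => T w) (L.anti β b γ b')
    simp only [LinearMap.add_apply, LinearMap.comp_apply] at this
    rw [this]
    split_ifs <;> rfl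
  simp only [h1]
  by_cases hb : b = b'
  · simp only [hb, and_true, if_true, smul_ite, smul_zero, Finset.sum_ite_eq, Finset.mem_univ]
    rw [Matrix.trace]
    simp only [Matrix.diag_apply, Matrix.mul_apply, Matrix.transpose_apply]
    rw [Finset.sum_comm]
    push_cast
    simp only [Finset.sum_smul]
  · simp [hb]

/-- trace of five gamma matrices -/
theorem tr_five (j l : Fin 9) : ((G.γ j).transpose * (Gam G * G.γ l)).trace = 0 := by
  obtain ⟨a, h0, h1, h2, hj, hl⟩ : ∃ a : Fin 9, a ≠ 0 ∧ a ≠ 1 ∧ a ≠ 2 ∧ a ≠ j ∧ a ≠ l := by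
    revert j l; decide
  have hsq : G.γ a * G.γ a = 1 := Gam962.sq_one G a
  have hX : G.γ a * (G.γ j * (Gam G * G.γ l)) = -((G.γ j * (Gam G * G.γ l)) * G.γ a) := by
    have e0 := Gam962.anti G h0
    have e1 := Gam962.anti G h1
    have e2 := Gam962.anti G h2
    have ej := Gam962.anti G hj
    have el := Gam962.anti G hl
    unfold Gam
    calc G.γ a * (G.γ j * (G.γ 0 * G.γ 1 * G.γ 2 * G.γ l))
        = (G.γ a * G.γ j) * (G.γ 0 * G.γ 1 * G.γ 2 * G.γ l) := by noncomm_ring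
      _ = -(G.γ j * (G.γ a * G.γ 0) * (G.γ 1 * G.γ 2 * G.γ l)) := by rw [ej]; noncomm_ring
      _ = G.γ j * G.γ 0 * (G.γ a * G.γ 1) * (G.γ 2 * G.γ l) := by rw [e0]; noncomm_ring
      _ = -(G.γ j * G.γ 0 * G.γ 1 * (G.γ a * G.γ 2) * G.γ l) := by rw [e1]; noncomm_ring
      _ = G.γ j * G.γ 0 * G.γ 1 * G.γ 2 * (G.γ a * G.γ l) := by rw [e2]; noncomm_ring
      _ = -(G.γ j * (G.γ 0 * G.γ 1 * G.γ 2 * G.γ l) * G.γ a) := by rw [el]; noncomm_ring
  rw [G.symm]
  have h : (G.γ j * (Gam G * G.γ l)).trace = -(G.γ j * (Gam G * G.γ l)).trace := by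
    calc (G.γ j * (Gam G * G.γ l)).trace
        = (G.γ a * (G.γ a * (G.γ j * (Gam G * G.γ l)))).trace := by
          rw [← Matrix.mul_assoc (G.γ a) (G.γ a), hsq, Matrix.one_mul]
      _ = -(G.γ a * ((G.γ j * (Gam G * G.γ l)) * G.γ a)).trace := by
          rw [hX, Matrix.mul_neg, Matrix.trace_neg]
      _ = -(G.γ j * (Gam G * G.γ l)).trace := by
          rw [Matrix.trace_mul_comm, Matrix.mul_assoc, hsq, Matrix.mul_one]
  linarith

/-- the oscillator system of the free model -/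
def sys (L : Light p F) (G : GammaNine) {m : ℝ} (hm : 0 < m) :
    OscSys (Fin 16) (Fin 9 × Fin p) F where
  a α k := ∑ β, ((G.γ k.1 α β : ℝ) : ℂ) • L.θ β k.2
  v α k := ∑ β, ((-(m * cc k.1 * (Gam G * G.γ k.1) α β) : ℝ) : ℂ) • L.θ β k.2
  om k := m * |cc k.1|
  c := 8
  om_pos k := mul_pos hm (abs_pos.mpr (cc_ne _))
  c_pos := by norm_num
  a_symm α k := by
    intro x y
    simp only [LinearMap.sum_apply, LinearMap.smul_apply, sum_inner, inner_sum, inner_smul_left,
      inner_smul_right, Complex.conj_ofReal]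
    exact Finset.sum_congr rfl fun β _ => by rw [L.symm β k.2 x y]
  v_symm α k := by
    intro x y
    simp only [LinearMap.sum_apply, LinearMap.smul_apply, sum_inner, inner_sum, inner_smul_left,
      inner_smul_right, Complex.conj_ofReal]
    exact Finset.sum_congr rfl fun β _ => by rw [L.symm β k.2 x y]
  aa k l w := by
    have h := quad_id L (G.γ k.1) (G.γ l.1) k.2 l.2 w
    simp only [LinearMap.sum_apply, LinearMap.smul_apply]
    rw [h, G.symm, VId87.tr2]
    unfold VId87.dl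
    by_cases h2 : k.2 = l.2
    · by_cases h1 : k.1 = l.1
      · have : k = l := Prod.ext h1 h2
        simp only [this, if_true]
        norm_num
      · have : k ≠ l := fun h => h1 (by rw [h])
        simp [h1, h2, this]
    · have : k ≠ l := fun h => h2 (by rw [h])
      simp [h2, this]
  av k l w := by
    have h := quad_id L (G.γ k.1) (-((m * cc l.1) • (Gam G * G.γ l.1))) k.2 l.2 w
    simp only [LinearMap.sum_apply, LinearMap.smul_apply]
    have e : ∀ α β, (-((m * cc l.1) • (Gam G * G.γ l.1))) α β =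
        -(m * cc l.1 * (Gam G * G.γ l.1) α β) := fun α β => by
      simp [Matrix.neg_apply, Matrix.smul_apply]
    simp only [e] at h
    rw [h, Matrix.mul_neg, Matrix.trace_neg, Matrix.mul_smul, Matrix.trace_smul, tr_five]
    simp
  vv k l w := by
    have h := quad_id L (-((m * cc k.1) • (Gam G * G.γ k.1)))
      (-((m * cc l.1) • (Gam G * G.γ l.1))) k.2 l.2 w
    simp only [LinearMap.sum_apply, LinearMap.smul_apply]
    have e : ∀ (l : Fin 9 × Fin p) (α β), (-((m * cc l.1) • (Gam G * G.γ l.1))) α β =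
        -(m * cc l.1 * (Gam G * G.γ l.1) α β) := fun l α β => by
      simp [Matrix.neg_apply, Matrix.smul_apply]
    simp only [e] at h
    rw [h, Matrix.transpose_neg, Matrix.neg_mul, Matrix.mul_neg, neg_neg, Matrix.transpose_smul,
      Matrix.smul_mul, Matrix.mul_smul, Matrix.trace_smul, Matrix.trace_smul, VId87.tr_Gam_Gam]
    unfold VId87.dl
    by_cases h2 : k.2 = l.2
    · by_cases h1 : k.1 = l.1
      · have : k = l := Prod.ext h1 h2
        subst this
        simp only [if_true, smul_eq_mul, mul_one]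
        congr 2
        rw [mul_pow, sq_abs]
        ring
      · have : k ≠ l := fun h => h1 (by rw [h])
        simp [h1, h2, this]
    · have : k ≠ l := fun h => h2 (by rw [h])
      simp [h2, this]

theorem gs_eq {m : ℝ} (hm : 0 < m) (x : EuclideanSpace ℝ (Fin 9 × Fin p)) :
    (sys L G hm).gs x = gs p m x := rfl

theorem freeD_eq {m : ℝ} (hm : 0 < m) (α : Fin 16) (φ : EuclideanSpace ℝ (Fin 9 × Fin p) → F)
    (x : EuclideanSpace ℝ (Fin 9 × Fin p)) :
    freeD L G m α φ x = (sys L G hm).D α φ x := by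
  unfold freeD OscSys.D dirac lin sys
  simp only [LinearMap.sum_apply, LinearMap.smul_apply]
  congr 1
  · rw [Fintype.sum_prod_type]
    refine Finset.sum_congr rfl fun i _ => Finset.sum_congr rfl fun A _ => ?_
    rw [Finset.smul_sum]
    refine Finset.sum_congr rfl fun β _ => ?_
    rw [smul_smul]
  · rw [Fintype.sum_prod_type_right]
    refine Finset.sum_congr rfl fun A _ => ?_
    simp only [Finset.smul_sum, smul_smul]
    rw [Finset.sum_comm]
    refine Finset.sum_congr rfl fun β _ => ?_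
    rw [← Finset.sum_smul]
    congr 1
    rw [Finset.mul_sum, ← Finset.sum_neg_distrib]
    push_cast
    refine Finset.sum_congr rfl fun j _ => ?_
    ring

/-! ### the vacuum condition -/

theorem Gam_transpose : (Gam G).transpose = -Gam G := by
  have e01 := Gam962.anti G (show (0 : Fin 9) ≠ 1 by decide)
  have e02 := Gam962.anti G (show (0 : Fin 9) ≠ 2 by decide)
  have e12 := Gam962.anti G (show (1 : Fin 9) ≠ 2 by decide)
  unfold Gam
  rw [Matrix.transpose_mul, Matrix.transpose_mul, G.symm, G.symm, G.symm]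
  calc G.γ 2 * (G.γ 1 * G.γ 0) = -(G.γ 2 * (G.γ 0 * G.γ 1)) := by rw [e01]; noncomm_ring
    _ = -((G.γ 2 * G.γ 0) * G.γ 1) := by noncomm_ring
    _ = (G.γ 0 * G.γ 2) * G.γ 1 := by rw [e02]; noncomm_ring
    _ = G.γ 0 * (G.γ 2 * G.γ 1) := by noncomm_ring
    _ = -(G.γ 0 * G.γ 1 * G.γ 2) := by
        have : G.γ 2 * G.γ 1 = -(G.γ 1 * G.γ 2) := by rw [e12, neg_neg]
        rw [this]; noncomm_ring

theorem Gam_sq : Gam G * Gam G = -1 := by
  have h : (Gam G).transpose * Gam G = 1 := by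
    unfold Gam
    rw [Matrix.transpose_mul, Matrix.transpose_mul, G.symm, G.symm, G.symm]
    have h0 := Gam962.sq_one G 0
    have h1 := Gam962.sq_one G 1
    have h2 := Gam962.sq_one G 2
    calc G.γ 2 * (G.γ 1 * G.γ 0) * (G.γ 0 * G.γ 1 * G.γ 2)
        = G.γ 2 * (G.γ 1 * (G.γ 0 * G.γ 0) * G.γ 1) * G.γ 2 := by noncomm_ring
      _ = 1 := by rw [h0, Matrix.mul_one, h1, Matrix.mul_one, h2]
  rw [Gam_transpose, Matrix.neg_mul] at h
  rw [← h, neg_neg]

/-- the sign of `c_j` -/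
def sg (j : Fin 9) : ℝ := if (j : ℕ) < 3 then 1 else -1

theorem cc_sg (j : Fin 9) : cc j = |cc j| * sg j := by
  unfold cc sg
  split_ifs
  · norm_num
  · rw [abs_neg, abs_of_pos (by norm_num)]; ring

theorem gam_Gam (j : Fin 9) : G.γ j * Gam G = sg j • (Gam G * G.γ j) := by
  have e01 := Gam962.anti G (show (0 : Fin 9) ≠ 1 by decide)
  have e02 := Gam962.anti G (show (0 : Fin 9) ≠ 2 by decide)
  have e12 := Gam962.anti G (show (1 : Fin 9) ≠ 2 by decide)
  have h0 := Gam962.sq_one G 0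
  have h1 := Gam962.sq_one G 1
  have h2 := Gam962.sq_one G 2
  by_cases hj : (j : ℕ) < 3
  · have hs : sg j = 1 := by unfold sg; rw [if_pos hj]
    rw [hs, one_smul]
    have hall : ∀ j : Fin 9, (j : ℕ) < 3 → j = 0 ∨ j = 1 ∨ j = 2 := by decide
    have hj' := hall j hj
    unfold Gam
    rcases hj' with rfl | rfl | rfl
    · calc G.γ 0 * (G.γ 0 * G.γ 1 * G.γ 2) = -(G.γ 0 * (G.γ 1 * G.γ 0) * G.γ 2) := by
            rw [e01]; noncomm_ring
        _ = -(G.γ 0 * G.γ 1 * (G.γ 0 * G.γ 2)) := by noncomm_ring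
        _ = G.γ 0 * G.γ 1 * G.γ 2 * G.γ 0 := by rw [e02]; noncomm_ring
    · have e10 : G.γ 1 * G.γ 0 = -(G.γ 0 * G.γ 1) := by rw [e01, neg_neg]
      calc G.γ 1 * (G.γ 0 * G.γ 1 * G.γ 2) = (G.γ 1 * G.γ 0) * (G.γ 1 * G.γ 2) := by noncomm_ring
        _ = G.γ 0 * G.γ 1 * G.γ 2 * G.γ 1 := by rw [e10, e12]; noncomm_ring
    · have e20 : G.γ 2 * G.γ 0 = -(G.γ 0 * G.γ 2) := by rw [e02, neg_neg]
      have e21 : G.γ 2 * G.γ 1 = -(G.γ 1 * G.γ 2) := by rw [e12, neg_neg]
      calc G.γ 2 * (G.γ 0 * G.γ 1 * G.γ 2) = (G.γ 2 * G.γ 0) * (G.γ 1 * G.γ 2) := by noncomm_ring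
        _ = -(G.γ 0 * (G.γ 2 * G.γ 1) * G.γ 2) := by rw [e20]; noncomm_ring
        _ = G.γ 0 * G.γ 1 * G.γ 2 * G.γ 2 := by rw [e21]; noncomm_ring
  · have hs : sg j = -1 := by unfold sg; rw [if_neg hj]
    rw [hs, neg_one_smul]
    have hj0 : j ≠ 0 := by rintro rfl; exact hj (by decide)
    have hj1 : j ≠ 1 := by rintro rfl; exact hj (by decide)
    have hj2 : j ≠ 2 := by rintro rfl; exact hj (by decide)
    have e0 := Gam962.anti G hj0
    have e1 := Gam962.anti G hj1
    have e2 := Gam962.anti G hj2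
    unfold Gam
    calc G.γ j * (G.γ 0 * G.γ 1 * G.γ 2) = (G.γ j * G.γ 0) * (G.γ 1 * G.γ 2) := by noncomm_ring
      _ = -(G.γ 0 * (G.γ j * G.γ 1) * G.γ 2) := by rw [e0]; noncomm_ring
      _ = G.γ 0 * G.γ 1 * (G.γ j * G.γ 2) := by rw [e1]; noncomm_ring
      _ = -(G.γ 0 * G.γ 1 * G.γ 2 * G.γ j) := by rw [e2]; noncomm_ring

/-- the annihilators `θ_β - i Σ Γ_γβ θ_γ` -/
def B (L : Light p F) (G : GammaNine) (β : Fin 16) (b : Fin p) : F →ₗ[ℂ] F :=
  L.θ β b - Complex.I • ∑ γ, ((Gam G γ β : ℝ) : ℂ) • L.θ γ b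

theorem B_apply (β : Fin 16) (b : Fin p) (w : F) :
    B L G β b w = L.θ β b w - Complex.I • ∑ γ, ((Gam G γ β : ℝ) : ℂ) • L.θ γ b w := by
  simp [B, LinearMap.sum_apply]

theorem LVac_iff_B (e : F) : LVac L G e ↔ ∀ β b, B L G β b e = 0 := by
  unfold LVac
  simp only [B_apply, sub_eq_zero]

theorem C_eq {m : ℝ} (hm : 0 < m) (α : Fin 16) (k : Fin 9 × Fin p) (w : F) :
    (sys L G hm).C α k w = (Complex.I * ((m * |cc k.1| : ℝ) : ℂ)) •
      ∑ β, ((G.γ k.1 α β : ℝ) : ℂ) • B L G β k.2 w := by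
  have h1 : ∑ β, ((G.γ k.1 α β : ℝ) : ℂ) • B L G β k.2 w =
      (∑ β, ((G.γ k.1 α β : ℝ) : ℂ) • L.θ β k.2 w) +
      (Complex.I * (sg k.1 : ℂ)) • ∑ β, (((Gam G * G.γ k.1) α β : ℝ) : ℂ) • L.θ β k.2 w := by
    simp only [B_apply, smul_sub, Finset.sum_sub_distrib]
    rw [sub_eq_add_neg]
    congr 1
    have h2 : ∀ γ, ∑ β, G.γ k.1 α β * Gam G γ β = -(sg k.1 * (Gam G * G.γ k.1) α γ) := by
      intro γ
      have h3 : (G.γ k.1 * (Gam G).transpose) α γ = ∑ β, G.γ k.1 α β * Gam G γ β := by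
        simp [Matrix.mul_apply, Matrix.transpose_apply]
      rw [← h3, Gam_transpose, Matrix.mul_neg, gam_Gam]
      simp [Matrix.neg_apply, Matrix.smul_apply]
    have h4 : ∑ β, ((G.γ k.1 α β : ℝ) : ℂ) •
        (Complex.I • ∑ γ, ((Gam G γ β : ℝ) : ℂ) • L.θ γ k.2 w) =
        Complex.I • ∑ γ, ((∑ β, G.γ k.1 α β * Gam G γ β : ℝ) : ℂ) • L.θ γ k.2 w := by
      simp only [Finset.smul_sum, smul_smul]
      rw [Finset.sum_comm]
      refine Finset.sum_congr rfl fun γ _ => ?_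
      rw [← Finset.sum_smul]
      congr 1
      push_cast
      rw [Finset.mul_sum]
      refine Finset.sum_congr rfl fun β _ => ?_
      ring
    rw [h4]
    simp only [h2]
    simp only [Finset.smul_sum, smul_smul, ← Finset.sum_neg_distrib]
    refine Finset.sum_congr rfl fun γ _ => ?_
    rw [← neg_smul]
    congr 1
    push_cast
    ring
  rw [h1, smul_add, smul_smul]
  have h5 : (sys L G hm).C α k w = (Complex.I * ((m * |cc k.1| : ℝ) : ℂ)) •
      (∑ β, ((G.γ k.1 α β : ℝ) : ℂ) • L.θ β k.2 w) +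
      ∑ β, ((-(m * cc k.1 * (Gam G * G.γ k.1) α β) : ℝ) : ℂ) • L.θ β k.2 w := by
    unfold OscSys.C sys
    simp only [LinearMap.add_apply, LinearMap.smul_apply, LinearMap.sum_apply]
  rw [h5]
  congr 1
  rw [Finset.smul_sum]
  refine Finset.sum_congr rfl fun β _ => ?_
  rw [smul_smul]
  congr 1
  conv_lhs => rw [cc_sg k.1]
  push_cast
  have hI : Complex.I * (((m : ℝ) : ℂ) * ((|cc k.1| : ℝ) : ℂ)) * (Complex.I * ((sg k.1 : ℝ) : ℂ)) =
      -(((m : ℝ) : ℂ) * ((|cc k.1| : ℝ) : ℂ) * ((sg k.1 : ℝ) : ℂ)) := by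
    linear_combination (((m : ℝ) : ℂ) * ((|cc k.1| : ℝ) : ℂ) * ((sg k.1 : ℝ) : ℂ)) * Complex.I_mul_I
  rw [hI]
  ring

theorem LVac_iff_C {m : ℝ} (hm : 0 < m) (e : F) :
    LVac L G e ↔ ∀ α k, (sys L G hm).C α k e = 0 := by
  rw [LVac_iff_B]
  constructor
  · intro h α k
    rw [C_eq]
    simp [h]
  · intro h β b
    have h1 : ∀ α, ∑ β, ((G.γ 0 α β : ℝ) : ℂ) • B L G β b e = 0 := by
      intro α
      have h2 := h α (0, b)
      rw [C_eq] at h2
      have h3 : (Complex.I * ((m * |cc (0 : Fin 9)| : ℝ) : ℂ)) ≠ 0 := by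
        apply mul_ne_zero Complex.I_ne_zero
        exact_mod_cast (mul_pos hm (abs_pos.mpr (cc_ne 0))).ne'
      exact (smul_eq_zero.mp h2).resolve_left h3
    have h4 : ∑ α, ((G.γ 0 β α : ℝ) : ℂ) • ∑ γ, ((G.γ 0 α γ : ℝ) : ℂ) • B L G γ b e = 0 :=
      Finset.sum_eq_zero fun α _ => by rw [h1 α, smul_zero]
    have h5 : ∑ α, ((G.γ 0 β α : ℝ) : ℂ) • ∑ γ, ((G.γ 0 α γ : ℝ) : ℂ) • B L G γ b e =
        ∑ γ, (((G.γ 0 * G.γ 0) β γ : ℝ) : ℂ) • B L G γ b e := by
      simp only [Finset.smul_sum, smul_smul]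
      rw [Finset.sum_comm]
      refine Finset.sum_congr rfl fun γ _ => ?_
      rw [← Finset.sum_smul, Matrix.mul_apply]
      push_cast
      rfl
    rw [h5, Gam962.sq_one] at h4
    simpa [Matrix.one_apply, Finset.sum_ite_eq] using h4

/-! ### the vacuum line -/

/-- the Clifford representation of 442 -/
def rep (L : Light p F) : Cliff442.CRep (EuclideanSpace ℝ (Fin 16 × Fin p)) F where
  θ u := ∑ q : Fin 16 × Fin p, ((u q : ℝ) : ℂ) • L.θ q.1 q.2
  add u v := by
    rw [← Finset.sum_add_distrib]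
    refine Finset.sum_congr rfl fun q _ => ?_
    rw [← add_smul]; simp
  smul r u := by
    rw [Finset.smul_sum]
    refine Finset.sum_congr rfl fun q _ => ?_
    rw [smul_smul]; simp
  symm u f g := by
    simp only [LinearMap.sum_apply, LinearMap.smul_apply, sum_inner, inner_sum, inner_smul_left,
      inner_smul_right, Complex.conj_ofReal]
    exact Finset.sum_congr rfl fun q _ => by rw [L.symm q.1 q.2 f g]
  anti u v := by
    ext f
    simp only [LinearMap.add_apply, Module.End.mul_apply, LinearMap.smul_apply,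
      Module.End.one_apply, LinearMap.sum_apply, map_sum, map_smul, Finset.smul_sum, smul_smul]
    have e1 : ∑ x : Fin 16 × Fin p, ∑ y : Fin 16 × Fin p,
        (((v x : ℝ) : ℂ) * ((u y : ℝ) : ℂ)) • L.θ y.1 y.2 (L.θ x.1 x.2 f) =
        ∑ x : Fin 16 × Fin p, ∑ y : Fin 16 × Fin p,
        (((u x : ℝ) : ℂ) * ((v y : ℝ) : ℂ)) • L.θ x.1 x.2 (L.θ y.1 y.2 f) := by
      rw [Finset.sum_comm]
      refine Finset.sum_congr rfl fun x _ => Finset.sum_congr rfl fun y _ => ?_
      rw [mul_comm]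
    rw [e1, ← Finset.sum_add_distrib]
    have e2 : ∀ x : Fin 16 × Fin p, (∑ y : Fin 16 × Fin p,
        (((u x : ℝ) : ℂ) * ((v y : ℝ) : ℂ)) • L.θ x.1 x.2 (L.θ y.1 y.2 f)) +
        (∑ y : Fin 16 × Fin p,
        (((u x : ℝ) : ℂ) * ((v y : ℝ) : ℂ)) • L.θ y.1 y.2 (L.θ x.1 x.2 f)) =
        (((u x : ℝ) : ℂ) * ((v x : ℝ) : ℂ)) • f := by
      intro x
      rw [← Finset.sum_add_distrib]
      have e3 : ∀ y : Fin 16 × Fin p,
          (((u x : ℝ) : ℂ) * ((v y : ℝ) : ℂ)) • L.θ x.1 x.2 (L.θ y.1 y.2 f) +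
          (((u x : ℝ) : ℂ) * ((v y : ℝ) : ℂ)) • L.θ y.1 y.2 (L.θ x.1 x.2 f) =
          if x = y then (((u x : ℝ) : ℂ) * ((v y : ℝ) : ℂ)) • f else 0 := by
        intro y
        rw [← smul_add]
        have := congrArg (fun T : F →ₗ[ℂ] F => T f) (L.anti x.1 x.2 y.1 y.2)
        simp only [LinearMap.add_apply, LinearMap.comp_apply] at this
        rw [this]
        by_cases h : x = y
        · subst h; simp
        · have h' : ¬ (x.1 = y.1 ∧ x.2 = y.2) := fun h2 => h (Prod.ext h2.1 h2.2)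
          simp [h, h']
      simp only [e3, Finset.sum_ite_eq, Finset.mem_univ, if_true]
    simp only [e2]
    rw [← Finset.sum_smul]
    congr 1
    rw [PiLp.inner_apply]
    push_cast
    refine Finset.sum_congr rfl fun x _ => ?_
    simp [mul_comm]

theorem rep_single (q : Fin 16 × Fin p) (f : F) :
    (rep L).θ (EuclideanSpace.single q 1) f = L.θ q.1 q.2 f := by
  simp only [rep, LinearMap.sum_apply, LinearMap.smul_apply]
  rw [Finset.sum_eq_single q]
  · simp
  · intro b _ hb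
    simp [hb]
  · simp

/-- `Γ ⊗ 1` -/
def GA (p : ℕ) (G : GammaNine) :
    EuclideanSpace ℝ (Fin 16 × Fin p) →ₗ[ℝ] EuclideanSpace ℝ (Fin 16 × Fin p) where
  toFun x := WithLp.toLp 2 fun q => ∑ α, Gam G q.1 α * x (α, q.2)
  map_add' x y := by
    ext q
    simp [mul_add, Finset.sum_add_distrib]
  map_smul' r x := by
    ext q
    simp only [PiLp.smul_apply, smul_eq_mul, RingHom.id_apply, Finset.mul_sum]
    exact Finset.sum_congr rfl fun α _ => by ring

theorem GA_apply (x : EuclideanSpace ℝ (Fin 16 × Fin p)) (q : Fin 16 × Fin p) :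
    GA p G x q = ∑ α, Gam G q.1 α * x (α, q.2) := rfl

theorem GA_skew : Cliff442.Skew (GA p G) := by
  intro x y
  rw [PiLp.inner_apply, PiLp.inner_apply, Fintype.sum_prod_type_right,
    Fintype.sum_prod_type_right, ← Finset.sum_neg_distrib]
  refine Finset.sum_congr rfl fun A _ => ?_
  simp only [GA_apply, RCLike.inner_apply, conj_trivial, Finset.mul_sum, Finset.sum_mul]
  rw [Finset.sum_comm, ← Finset.sum_neg_distrib]
  refine Finset.sum_congr rfl fun α _ => ?_
  rw [← Finset.sum_neg_distrib]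
  refine Finset.sum_congr rfl fun β _ => ?_
  have h : Gam G β α = -Gam G α β := by
    have := congrFun (congrFun (Gam_transpose G) α) β
    simpa [Matrix.transpose_apply] using this
  rw [h]; ring

theorem GA_sq (x : EuclideanSpace ℝ (Fin 16 × Fin p)) : GA p G (GA p G x) = -x := by
  ext q
  simp only [GA_apply, PiLp.neg_apply, Finset.mul_sum]
  rw [Finset.sum_comm]
  have h : ∀ β, ∑ α, Gam G q.1 α * (Gam G α β * x (β, q.2)) = (Gam G * Gam G) q.1 β * x (β, q.2) := by
    intro β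
    rw [Matrix.mul_apply, Finset.sum_mul]
    exact Finset.sum_congr rfl fun α _ => by ring
  simp only [h, Gam_sq]
  simp [Matrix.neg_apply, Matrix.one_apply, Finset.sum_ite_eq]

theorem LVac_iff_rep (e : F) :
    LVac L G e ↔ ∀ x, (rep L).θ x e = Complex.I • (rep L).θ (GA p G x) e := by
  have hs : ∀ q : Fin 16 × Fin p, (rep L).θ (GA p G (EuclideanSpace.single q 1)) e =
      ∑ β, ((Gam G β q.1 : ℝ) : ℂ) • L.θ β q.2 e := by
    intro q
    simp only [rep, LinearMap.sum_apply, LinearMap.smul_apply]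
    rw [Fintype.sum_prod_type]
    refine Finset.sum_congr rfl fun β _ => ?_
    rw [Finset.sum_eq_single q.2]
    · congr 2
      rw [GA_apply, Finset.sum_eq_single q.1]
      · simp
      · intro α _ hα
        have : (α, q.2) ≠ q := fun h => hα (by rw [← h])
        simp [this]
      · simp
    · intro b _ hb
      have h0 : GA p G (EuclideanSpace.single q 1) (β, b) = 0 := by
        rw [GA_apply]
        refine Finset.sum_eq_zero fun α _ => ?_
        have : (α, b) ≠ q := fun h => hb (by rw [← h])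
        simp [this]
      rw [h0]; simp
    · simp
  constructor
  · intro h x
    have hx : x = ∑ q, (x q) • EuclideanSpace.single q (1 : ℝ) := by
      ext r
      simp only [WithLp.ofLp_sum, Finset.sum_apply, WithLp.ofLp_smul, Pi.smul_apply, smul_eq_mul]
      rw [Finset.sum_eq_single r]
      · simp
      · intro b _ hb
        simp [Ne.symm hb]
      · simp
    rw [hx]
    simp only [map_sum, map_smul, (rep L).sum, (rep L).smul, LinearMap.sum_apply,
      LinearMap.smul_apply, Finset.smul_sum]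
    refine Finset.sum_congr rfl fun q _ => ?_
    rw [rep_single, hs, smul_comm]
    rw [← h q.1 q.2]
  · intro h α A
    have := h (EuclideanSpace.single (α, A) 1)
    rw [rep_single, hs] at this
    exact this

theorem rep_irr : (rep L).Irr := by
  refine ⟨fun _ _ _ _ => trivial, fun W _ hW => ?_⟩
  apply L.irr W
  intro α a v hv
  have := hW (EuclideanSpace.single (α, a) 1) trivial v hv
  rwa [rep_single] at this

/-- **the vacuum line exists and is a line** -/
theorem exists_xi [Nontrivial F] : ∃ ξ : F, ‖ξ‖ = 1 ∧ LVac L G ξ ∧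
    ∀ e, LVac L G e → e = ⟪ξ, e⟫_ℂ • ξ := by
  obtain ⟨n, u, v, lam, hNF⟩ := (GA_skew (p := p) G).exists_NF
  have hlam : ∀ k ∈ Finset.range n, lam k = 1 := by
    intro k hk
    have h1 : GA p G (GA p G (u k)) = -(lam k ^ 2) • u k := by
      rw [hNF.au k hk, map_smul, hNF.av k hk, smul_smul]
      congr 1; ring
    rw [GA_sq] at h1
    have h2 : (1 - lam k ^ 2) • u k = 0 := by
      rw [sub_smul, one_smul]
      have : u k = (lam k ^ 2) • u k := by
        have := congrArg Neg.neg h1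
        rw [neg_neg, neg_smul, neg_neg] at this
        exact this
      rw [← this, sub_self]
    have h3 : u k ≠ 0 := by
      intro h0
      have := (hNF.prs.pr k hk).1
      rw [h0, norm_zero] at this
      exact zero_ne_one this
    have h4 := (smul_eq_zero.mp h2).resolve_right h3
    have h5 := hNF.pos k hk
    nlinarith
  have hiff : ∀ e, LVac L G e ↔
      ∀ k ∈ Finset.range n, (rep L).ann (u k) (v k) e = 0 := by
    intro e
    rw [LVac_iff_rep]
    constructor
    · intro h k hk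
      rw [Cliff442.CRep.ann_apply, h (u k), hNF.au k hk, hlam k hk, neg_smul, one_smul,
        (rep L).neg, LinearMap.neg_apply, smul_neg, neg_add_cancel]
    · intro h x
      have hx0 : ∀ k ∈ Finset.range n, (rep L).θ (u k) e = -(Complex.I • (rep L).θ (v k) e) := by
        intro k hk
        have := h k hk
        rw [Cliff442.CRep.ann_apply] at this
        exact eq_neg_of_add_eq_zero_left this
      have hproj := hNF.ker _ (hNF.prs.proj_mem x)
      have hxe : x = ∑ l ∈ Finset.range n, (⟪x, u l⟫_ℝ • u l + ⟪x, v l⟫_ℝ • v l) := by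
        have h1 := congrArg (GA p G) hproj
        rw [GA_sq, map_zero, neg_eq_zero, sub_eq_zero] at h1
        exact h1
      rw [hxe]
      simp only [map_sum, map_add, map_smul, (rep L).sum, (rep L).add, (rep L).smul,
        LinearMap.sum_apply, LinearMap.add_apply, LinearMap.smul_apply, Finset.smul_sum]
      refine Finset.sum_congr rfl fun k hk => ?_
      rw [hNF.au k hk, hNF.av k hk, hlam k hk, neg_smul, one_smul, one_smul, (rep L).neg,
        LinearMap.neg_apply, hx0 k hk]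
      match_scalars
      linear_combination ((⟪x, v k⟫_ℝ : ℝ) : ℂ) * Complex.I_sq
  have hperp : Cliff442.CRep.perpS ⊤ u v (Finset.range n) = ⊥ := by
    rw [eq_bot_iff]
    intro x hx
    have h1 := hNF.ker x (fun k hk => hx.2 k hk)
    have h2 := congrArg (GA p G) h1
    rw [GA_sq, map_zero, neg_eq_zero] at h2
    exact (Submodule.mem_bot ℝ).mpr h2
  obtain ⟨ξ, hξ, hn⟩ := Cliff442.CRep.exists_vac (M := rep L) (K := ⊤) (W := ⊤)
    (fun _ _ _ _ => trivial) hNF.prs (fun _ _ => ⟨trivial, trivial⟩) top_ne_bot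
  refine ⟨ξ, hn, (hiff ξ).mpr hξ.2, fun e he => ?_⟩
  exact Cliff442.CRep.vac_line (M := rep L) (K := ⊤) (W := ⊤) (rep_irr L) hNF.prs
    (fun _ _ => ⟨trivial, trivial⟩) hperp hξ hn ⟨trivial, (hiff e).mp he⟩

/-! ### the zero mode of the free model -/

section final

variable {m : ℝ}

theorem gs_pos (x : EuclideanSpace ℝ (Fin 9 × Fin p)) : 0 < gs p m x := Real.exp_pos _

theorem gs_le_one (hm : 0 < m) (x : EuclideanSpace ℝ (Fin 9 × Fin p)) : gs p m x ≤ 1 := by
  unfold gs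
  rw [Real.exp_le_one_iff]
  have h : 0 ≤ ∑ k : Fin 9 × Fin p, m * |cc k.1| * x k ^ 2 :=
    Finset.sum_nonneg fun k _ => by positivity
  linarith

theorem gs_smooth (p : ℕ) (m : ℝ) : ContDiff ℝ ∞ (gs p m) := by
  unfold gs
  apply Real.contDiff_exp.comp
  apply contDiff_const.mul
  apply ContDiff.sum
  intro k _
  exact contDiff_const.mul ((EuclideanSpace.proj (𝕜 := ℝ) k).contDiff.pow 2)

theorem gauss_smooth (p : ℕ) (m : ℝ) (e : F) : ContDiff ℝ ∞ (fun x => (gs p m x : ℂ) • e) :=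
  (Complex.ofRealCLM.contDiff.comp (gs_smooth p m)).smul contDiff_const

include L G in
theorem gauss_memLp (hm : 0 < m) (e : F) : MemLp (fun x => (gs p m x : ℂ) • e) 2 volume :=
  FreeD122.gauss_memLp (sys L G hm) e

/-- the Gaussian over a vacuum vector is killed by all charges -/
theorem freeD_gauss (hm : 0 < m) {e : F} (he : LVac L G e) (α : Fin 16)
    (x : EuclideanSpace ℝ (Fin 9 × Fin p)) :
    freeD L G m α (fun x => (gs p m x : ℂ) • e) x = 0 := by
  rw [freeD_eq L G hm]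
  exact D_gauss (sys L G hm) ((LVac_iff_C L G hm e).mp he) α x

/-- symmetry of the free charges -/
theorem freeD_symm (hm : 0 < m) (α : Fin 16) {φ ψ : EuclideanSpace ℝ (Fin 9 × Fin p) → F}
    (hφ : ContDiff ℝ 1 φ) (hψ : ContDiff ℝ 1 ψ) (hc : HasCompactSupport φ ∨ HasCompactSupport ψ) :
    ∫ x, ⟪freeD L G m α φ x, ψ x⟫_ℂ = ∫ x, ⟪φ x, freeD L G m α ψ x⟫_ℂ := by
  simp only [freeD_eq L G hm]
  exact dirac_symm ((sys L G hm).a_symm α) (lin_symm (sys L G hm) α)
    (fun w => (lin_smooth ((sys L G hm).v α) w).continuous) hφ hψ hc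

/-- **Uniqueness**: square integrable weak zero modes of the free model, tested off a removable
set. -/
theorem free_unique (hm : 0 < m) {Z : Set (EuclideanSpace ℝ (Fin 9 × Fin p))} (hZ : Cuts Z)
    {f : EuclideanSpace ℝ (Fin 9 × Fin p) → F} (hf : MemLp f 2 volume)
    (h : ∀ (α : Fin 16) (ψ : EuclideanSpace ℝ (Fin 9 × Fin p) → F), ContDiff ℝ ∞ ψ →
      HasCompactSupport ψ → Disjoint (tsupport ψ) Z → ∫ x, ⟪f x, freeD L G m α ψ x⟫_ℂ = 0) :
    ∃ e : F, LVac L G e ∧ f =ᵐ[volume] fun x => (gs p m x : ℂ) • e := by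
  obtain ⟨e, he, hfe⟩ := zero_mode (sys L G hm) hZ hf (fun α ψ h1 h2 h3 => by
    have := h α ψ h1 h2 h3
    simp only [freeD_eq L G hm] at this
    exact this)
  exact ⟨e, (LVac_iff_C L G hm e).mpr he, hfe⟩

/-- the same with a chosen vacuum vector -/
theorem free_unique' (hm : 0 < m) {Z : Set (EuclideanSpace ℝ (Fin 9 × Fin p))} (hZ : Cuts Z)
    {ξ : F} (hξ : ∀ e, LVac L G e → e = ⟪ξ, e⟫_ℂ • ξ)
    {f : EuclideanSpace ℝ (Fin 9 × Fin p) → F} (hf : MemLp f 2 volume)
    (h : ∀ (α : Fin 16) (ψ : EuclideanSpace ℝ (Fin 9 × Fin p) → F), ContDiff ℝ ∞ ψ →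
      HasCompactSupport ψ → Disjoint (tsupport ψ) Z → ∫ x, ⟪f x, freeD L G m α ψ x⟫_ℂ = 0) :
    ∃ c : ℂ, f =ᵐ[volume] fun x => c • ((gs p m x : ℂ) • ξ) := by
  obtain ⟨e, he, hfe⟩ := free_unique L G hm hZ hf h
  refine ⟨⟪ξ, e⟫_ℂ, hfe.trans (Eventually.of_forall fun x => ?_)⟩
  simp only []
  rw [smul_comm, ← hξ e he]

/-- **Approximation** of the zero mode by real cut-offs of itself off the removed set. -/
theorem free_approx (hm : 0 < m) {Z : Set (EuclideanSpace ℝ (Fin 9 × Fin p))} (hZ : Cuts Z) :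
    ∃ χ : ℕ → EuclideanSpace ℝ (Fin 9 × Fin p) → ℝ, (∀ n, ContDiff ℝ ∞ (χ n)) ∧
      (∀ n, HasCompactSupport (χ n)) ∧ (∀ n, Disjoint (tsupport (χ n)) Z) ∧
      (∀ n x, 0 ≤ χ n x ∧ χ n x ≤ 1) ∧
      ∀ e : F, LVac L G e →
        Tendsto (fun n => eLpNorm (fun x => χ n x • ((gs p m x : ℂ) • e) - (gs p m x : ℂ) • e) 2
          volume) atTop (𝓝 0) ∧
        ∀ α, Tendsto (fun n => eLpNorm (freeD L G m α
          (fun x => χ n x • ((gs p m x : ℂ) • e))) 2 volume) atTop (𝓝 0) := by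
  obtain ⟨χ, h1, h2, h3, h4, h5⟩ := approx (sys L G hm) hZ
  refine ⟨χ, h1, h2, h3, h4, fun e he => ?_⟩
  obtain ⟨h6, h7⟩ := h5 e ((LVac_iff_C L G hm e).mp he)
  refine ⟨h6, fun α => ?_⟩
  have h8 : ∀ φ : EuclideanSpace ℝ (Fin 9 × Fin p) → F, freeD L G m α φ =
      (sys L G hm).D α φ := fun φ => funext fun x => freeD_eq L G hm α φ x
  simp only [h8]
  exact h7 α

end final

end Crest.Agent.R330.Free122
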