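import Crest.Agent.R330.ChBind_718
import Crest.Agent.R330.Chan2_566
import Crest.Agent.R330.ChanWS_365
import Crest.Agent.R330.Free_122

/-!
# Row 330, S10-LIM (helper718): the limit system of one channel with the free charges

`isLim_free` : if `C` is a channel (566) on `EuclideanSpace ℝ (Fin 9 × Fin p)`, `1 ≤ p`, whose
charges are the free charges of 122, with finitely many removed flats of codimension `≥ 3`, then
441's `IsLim C.e C.D (Wt C) (ℂ ∙ Φ) 1` holds, `Φ` the class of the Gaussian zero mode.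
-/

set_option autoImplicit false
set_option linter.unusedSectionVars false

open MeasureTheory Set Filter Topology ENNReal
open scoped ContDiff InnerProductSpace

noncomputable section

namespace Crest.Agent.R330.ChFree718

open Crest.MathPhysics.MatrixQM
open Crest.Agent.R330.WDH245 Crest.Agent.R330.WS596 Crest.Agent.R330.Chan566
  Crest.Agent.R330.Chan441 Crest.Agent.R330.TrialSys796 Crest.Agent.R330.ChBind718
  Crest.Agent.R330.Free122 Crest.Agent.R330.FreeB122 Crest.Agent.R330.WSOff365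
  Crest.Agent.R330.MCut365 Crest.Agent.R330.Defs478

variable {p : ℕ} {F : Type*} [NormedAddCommGroup F] [InnerProductSpace ℂ F]
  [FiniteDimensional ℂ F]

/-- the coefficients of the free charges -/
def aco (Lt : Light p F) (G : GammaNine) (α : Fin 16) (k : Fin 9 × Fin p) : F →ₗ[ℂ] F :=
  ∑ β : Fin 16, ((G.γ k.1 α β : ℝ) : ℂ) • Lt.θ β k.2

theorem aco_apply (Lt : Light p F) (G : GammaNine) (α : Fin 16) (k : Fin 9 × Fin p) (v : F) :
    aco Lt G α k v = ∑ β : Fin 16, ((G.γ k.1 α β : ℝ) : ℂ) • Lt.θ β k.2 v := by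
  simp [aco]

/-- `(γ_i γ_j)_αα = δ_ij` -/
theorem gam_diag (G : GammaNine) (i j : Fin 9) (α : Fin 16) :
    ∑ β : Fin 16, G.γ i α β * G.γ j α β = if i = j then 1 else 0 := by
  have h1 : ∀ i j, ∑ β : Fin 16, G.γ i α β * G.γ j α β = (G.γ i * G.γ j) α α := by
    intro i j
    rw [Matrix.mul_apply]
    refine Finset.sum_congr rfl fun β _ => ?_
    have := congrFun (congrFun (G.symm j) β) α
    rw [Matrix.transpose_apply] at this
    rw [this]
  have h2 : (G.γ i * G.γ j) α α = (G.γ j * G.γ i) α α := by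
    rw [← h1, ← h1]
    exact Finset.sum_congr rfl fun β _ => mul_comm _ _
  have h3 := congrFun (congrFun (G.clifford i j) α) α
  rw [Matrix.add_apply, ← h2] at h3
  rw [h1]
  by_cases hij : i = j
  · rw [if_pos hij] at h3 ⊢
    have h4 : (2 : Matrix (Fin 16) (Fin 16) ℝ) α α = 2 := by
      have : (2 : Matrix (Fin 16) (Fin 16) ℝ) = (1 : Matrix (Fin 16) (Fin 16) ℝ) + 1 := by norm_num
      rw [this, Matrix.add_apply, Matrix.one_apply_eq]; norm_num
    rw [h4] at h3
    linarith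
  · rw [if_neg hij] at h3 ⊢
    rw [Matrix.zero_apply] at h3
    linarith

theorem aco_cliff (Lt : Light p F) (G : GammaNine) (α : Fin 16) : Cliff (aco Lt G α) where
  symm k := by
    intro v w
    rw [aco_apply, aco_apply, sum_inner, inner_sum]
    refine Finset.sum_congr rfl fun β _ => ?_
    rw [inner_smul_left, inner_smul_right, Complex.conj_ofReal, Lt.symm β k.2 v w]
  anti k l := by
    ext v
    rw [LinearMap.add_apply, LinearMap.comp_apply, LinearMap.comp_apply]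
    have e1 : ∀ k l : Fin 9 × Fin p, aco Lt G α k (aco Lt G α l v) =
        ∑ β, ∑ β', (((G.γ k.1 α β : ℝ) : ℂ) * ((G.γ l.1 α β' : ℝ) : ℂ)) •
          Lt.θ β k.2 (Lt.θ β' l.2 v) := by
      intro k l
      rw [aco_apply]
      refine Finset.sum_congr rfl fun β _ => ?_
      rw [aco_apply, map_sum, Finset.smul_sum]
      refine Finset.sum_congr rfl fun β' _ => ?_
      rw [map_smul, smul_smul]
    rw [e1 k l, e1 l k]
    nth_rewrite 2 [Finset.sum_comm]
    rw [← Finset.sum_add_distrib]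
    have e2 : ∀ β β', (((G.γ k.1 α β : ℝ) : ℂ) * ((G.γ l.1 α β' : ℝ) : ℂ)) •
          Lt.θ β k.2 (Lt.θ β' l.2 v) +
        (((G.γ l.1 α β' : ℝ) : ℂ) * ((G.γ k.1 α β : ℝ) : ℂ)) • Lt.θ β' l.2 (Lt.θ β k.2 v) =
        if β = β' then (if k.2 = l.2 then
          (((G.γ k.1 α β : ℝ) : ℂ) * ((G.γ l.1 α β : ℝ) : ℂ)) • v else 0) else 0 := by
      intro β β'
      have h := LinearMap.congr_fun (Lt.anti β k.2 β' l.2) v
      rw [LinearMap.add_apply, LinearMap.comp_apply, LinearMap.comp_apply] at h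
      rw [mul_comm ((G.γ l.1 α β' : ℝ) : ℂ), ← smul_add, h]
      by_cases h1 : β = β'
      · subst h1
        by_cases h2 : k.2 = l.2
        · simp [h2]
        · simp [h2]
      · simp [h1]
    have e3 : ∀ β, ∑ β', (((G.γ k.1 α β : ℝ) : ℂ) * ((G.γ l.1 α β' : ℝ) : ℂ)) •
          Lt.θ β k.2 (Lt.θ β' l.2 v) +
        ∑ β', (((G.γ l.1 α β' : ℝ) : ℂ) * ((G.γ k.1 α β : ℝ) : ℂ)) •
          Lt.θ β' l.2 (Lt.θ β k.2 v) =
        if k.2 = l.2 then (((G.γ k.1 α β : ℝ) : ℂ) * ((G.γ l.1 α β : ℝ) : ℂ)) • v else 0 := by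
      intro β
      rw [← Finset.sum_add_distrib, Finset.sum_congr rfl fun β' _ => e2 β β']
      simp
    rw [Finset.sum_congr rfl fun β _ => e3 β]
    by_cases h2 : k.2 = l.2
    · simp only [if_pos h2]
      rw [← Finset.sum_smul]
      have h3 : ∑ β, (((G.γ k.1 α β : ℝ) : ℂ) * ((G.γ l.1 α β : ℝ) : ℂ)) =
          ((if k.1 = l.1 then 1 else 0 : ℝ) : ℂ) := by
        rw [← gam_diag G k.1 l.1 α]
        push_cast
        rfl
      rw [h3]
      by_cases h1 : k.1 = l.1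
      · have : k = l := Prod.ext h1 h2
        simp [this]
      · have : k ≠ l := fun h => h1 (by rw [h])
        simp [h1, this]
    · have : k ≠ l := fun h => h2 (by rw [h])
      simp [h2, this]

/-- the massless free charges -/
theorem freeD_zero (Lt : Light p F) (G : GammaNine) (α : Fin 16)
    (φ : EuclideanSpace ℝ (Fin 9 × Fin p) → F) (x : EuclideanSpace ℝ (Fin 9 × Fin p)) :
    freeD Lt G 0 α φ x = cD (EuclideanSpace.basisFun (Fin 9 × Fin p) ℝ) (aco Lt G α) φ x := by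
  unfold freeD cD
  have e1 : ∑ A : Fin p, ∑ β : Fin 16,
      ((-((0 : ℝ) * ∑ j : Fin 9, cc j * x (j, A) * (Gam G * G.γ j) α β) : ℝ) : ℂ) •
        Lt.θ β A (φ x) = 0 := by
    simp
  rw [e1, add_zero, Fintype.sum_prod_type]
  refine Finset.sum_congr rfl fun i _ => Finset.sum_congr rfl fun A _ => ?_
  rw [aco_apply, Finset.smul_sum]
  refine Finset.sum_congr rfl fun β _ => ?_
  rw [smul_smul, EuclideanSpace.basisFun_apply]

variable {S : Type*} [Group S] [Fintype S]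

/-- 566's channels with the free charges satisfy `Free`. -/
theorem free_of {C : Chan566.Chan S (EuclideanSpace ℝ (Fin 9 × Fin p)) F} (hp : 1 ≤ p)
    {Lt : Light p F} {G : GammaNine}
    (hQ : ∀ m α (ψ : EuclideanSpace ℝ (Fin 9 × Fin p) → F), ContDiff ℝ ∞ ψ →
      (C.Q m α).op ψ = freeD Lt G m α ψ) :
    Free C (EuclideanSpace.basisFun (Fin 9 × Fin p) ℝ) (aco Lt G) := by
  refine ⟨fun α => aco_cliff Lt G α, ?_, fun α ψ hψ x => ?_⟩
  · rw [Fintype.card_prod, Fintype.card_fin, Fintype.card_fin]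
    omega
  · rw [hQ 0 α ψ hψ, freeD_zero]

/-- **The limit system of one channel.** -/
theorem isLim_free (hp : 1 ≤ p) (C : Chan566.Chan S (EuclideanSpace ℝ (Fin 9 × Fin p)) F)
    {Lt : Light p F} {G : GammaNine}
    (hQ : ∀ m α (ψ : EuclideanSpace ℝ (Fin 9 × Fin p) → F), ContDiff ℝ ∞ ψ →
      (C.Q m α).op ψ = freeD Lt G m α ψ)
    (hadj : ∀ m α, Adj (C.Q m α) (C.Q m α))
    {ι : Type*} {A : Finset ι} {V : Type*} [NormedAddCommGroup V] [InnerProductSpace ℝ V]
    [FiniteDimensional ℝ V] [MeasurableSpace V] [BorelSpace V]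
    {L : ι → EuclideanSpace ℝ (Fin 9 × Fin p) →L[ℝ] V} {c : ι → V} (hZ : C.Z = flats A L c)
    (hL : ∀ a ∈ A, Function.Surjective (L a)) (hV : 3 ≤ Module.finrank ℝ V)
    (hmc : ∀ (s : S) δ x, mcut A L c δ (C.O s x) = mcut A L c δ x)
    {ξ : F} (hξ0 : ξ ≠ 0) (hξ : LVac Lt G ξ) (hline : ∀ e, LVac Lt G e → e = ⟪ξ, e⟫_ℂ • ξ)
    (hgs : ∀ s x, gs p 1 (C.O s x) = gs p 1 x) (hU : ∀ s, C.U s ξ = ξ) :
    ∃ Φ : C.L, (((Φ : Lp F 2 (volume : Measure (EuclideanSpace ℝ (Fin 9 × Fin p)))) :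
        EuclideanSpace ℝ (Fin 9 × Fin p) → F) =ᵐ[volume] fun x => (gs p 1 x : ℂ) • ξ) ∧
      IsLim C.e C.D (Wt C) (Submodule.span ℂ {Φ}) 1 := by
  have hm : (0 : ℝ) < 1 := one_pos
  have hg : MemLp (fun x => (gs p 1 x : ℂ) • ξ) 2 volume := gauss_memLp Lt G hm ξ
  have hΦL : hg.toLp _ ∈ C.L := by
    rw [C.mem_L]
    intro s
    have h1 := hg.coeFn_toLp
    have h2 := (C.mp s).quasiMeasurePreserving.ae_eq_comp h1
    filter_upwards [h1, h2] with x hx hx2
    simp only [Function.comp_apply] at hx2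
    rw [hx2, hx, hgs s x, map_smul, hU s]
  set Φ : C.L := ⟨hg.toLp _, hΦL⟩ with hΦ
  have hΦae : (((Φ : Lp F 2 (volume : Measure (EuclideanSpace ℝ (Fin 9 × Fin p)))) :
      EuclideanSpace ℝ (Fin 9 × Fin p) → F) =ᵐ[volume] fun x => (gs p 1 x : ℂ) • ξ) :=
    hg.coeFn_toLp
  obtain ⟨hcut⟩ := FreeE122.exists_cuts hV L c A hL
  have hZ' : C.Z = ⋃ a ∈ A, {x | L a x = c a} := hZ
  have hdis : ∀ ψ : EuclideanSpace ℝ (Fin 9 × Fin p) → F,
      Disjoint (tsupport ψ) (⋃ a ∈ A, {x | L a x = c a}) → ∀ x ∈ tsupport ψ, x ∉ C.Z := by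
    intro ψ h x hx hx'
    rw [hZ'] at hx'
    exact Set.disjoint_left.1 h hx hx'
  have hΦ0 : Φ ≠ 0 := by
    intro h0
    have h1 : (hg.toLp _ : Lp F 2 (volume : Measure (EuclideanSpace ℝ (Fin 9 × Fin p)))) = 0 := by
      have := congrArg Subtype.val h0
      exact this
    have h2 : (fun x => (gs p 1 x : ℂ) • ξ) =ᵐ[volume] (0 : EuclideanSpace ℝ (Fin 9 × Fin p) → F) := by
      have h3 := hg.coeFn_toLp
      rw [h1] at h3
      exact h3.symm.trans (Lp.coeFn_zero _ _ _)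
    have h4 : (fun x => (gs p 1 x : ℂ) • ξ) = (0 : EuclideanSpace ℝ (Fin 9 × Fin p) → F) :=
      (gauss_smooth p 1 ξ).continuous.ae_eq_iff_eq volume continuous_zero |>.1 h2
    have h5 := congrFun h4 0
    simp only [Pi.zero_apply, smul_eq_zero] at h5
    rcases h5 with h5 | h5
    · exact (gs_pos (p := p) (m := 1) 0).ne' (by exact_mod_cast h5)
    · exact hξ0 h5
  have hfree : IsFree C.e (C.D 1) (Submodule.span ℂ {Φ}) 1 := by
    refine C.isFree 1 Φ hΦ0 (fun f hf => ?_) (fun ε hε => ?_)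
    · obtain ⟨k, hk⟩ := free_unique' Lt G hm hcut hline (f := f) (Lp.memLp f)
        (fun α ψ h1 h2 h3 => by
          have := hf ψ ⟨h1, h2, hdis ψ h3⟩ α
          rw [hQ 1 α ψ h1] at this
          exact this)
      refine ⟨k, ?_⟩
      apply Lp.ext
      filter_upwards [hk, hΦae, Lp.coeFn_smul k (Φ : Lp F 2 (volume : Measure
        (EuclideanSpace ℝ (Fin 9 × Fin p))))] with x h1 h2 h3
      rw [h1, h3, Pi.smul_apply, h2]
    · obtain ⟨χ, h1, h2, h3, _, h5⟩ := free_approx Lt G hm hcut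
      obtain ⟨h6, h7⟩ := h5 ξ hξ
      have hε' : (0 : ENNReal) < ENNReal.ofReal ε := ENNReal.ofReal_pos.2 hε
      have e1 := h6.eventually_le_const hε'
      have e2 : ∀ᶠ n in atTop, ∀ α, eLpNorm (freeD Lt G 1 α
          (fun x => χ n x • ((gs p 1 x : ℂ) • ξ))) 2 volume ≤ ENNReal.ofReal ε :=
        eventually_all.2 fun α => (h7 α).eventually_le_const hε'
      obtain ⟨n, hn1, hn2⟩ := (e1.and e2).exists
      have hs : ContDiff ℝ ∞ (fun x => χ n x • ((gs p 1 x : ℂ) • ξ)) :=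
        (h1 n).smul (gauss_smooth p 1 ξ)
      have ht : tsupport (fun x => χ n x • ((gs p 1 x : ℂ) • ξ)) ⊆ tsupport (χ n) :=
        tsupport_smul_subset_left (χ n) (fun x => (gs p 1 x : ℂ) • ξ)
      refine ⟨fun x => χ n x • ((gs p 1 x : ℂ) • ξ), ⟨hs, (h2 n).smul_right,
        hdis _ ((h3 n).mono_left ht)⟩, ?_, fun α => ?_⟩
      · refine (eLpNorm_congr_ae ?_).trans_le hn1
        filter_upwards [hΦae] with x hx
        rw [hx]
      · rw [hQ 1 α _ hs]
        exact hn2 α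
  refine ⟨Φ, hΦae, ChBind718.isLim (free_of hp hQ) hadj C.denseRange_e
    (fun f u hf ε hε => ?_) hfree⟩
  exact ChanWS365.ws_chan C (hadj 0) hZ hL hV hmc f u hf hε

end Crest.Agent.R330.ChFree718

end
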