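import Mathlib
import Crest.Agent.R330.ChanWS_365

/-!
# Row 330, S10-LIM (helper365): `ws` for a channel whose flats are only invariant as a set

* `ws_chan'` : `ws_chan` without the permutation hypothesis: the flats `L a ∘ O s`, `a ∈ A`, `s ∈ S`,
  have the same union and are permuted by the group.
* `surj_test` : a test function is a finite sum of test functions supported in balls.
-/

set_option autoImplicit false
set_option linter.unusedSectionVars false
set_option linter.unusedVariables false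

open MeasureTheory Set Filter Topology
open scoped ContDiff InnerProductSpace

noncomputable section

namespace Crest.Agent.R330.ChanWS365

open Crest.Agent.R330.WS596 Crest.Agent.R330.WSOff365 Crest.Agent.R330.Pou365
  Crest.Agent.R330.Rem365 Crest.Agent.R330.MCut365 Crest.Agent.R330.Chan566

variable {S : Type*} [Group S] [Fintype S]
variable {E : Type*} [NormedAddCommGroup E] [InnerProductSpace ℝ E] [FiniteDimensional ℝ E]
  [MeasurableSpace E] [BorelSpace E]
variable {F : Type*} [NormedAddCommGroup F] [InnerProductSpace ℂ F] [FiniteDimensional ℂ F]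
variable {V : Type*} [NormedAddCommGroup V] [InnerProductSpace ℝ V] [FiniteDimensional ℝ V]
  [MeasurableSpace V] [BorelSpace V]
variable (C : Chan S E F)

/-- The translated flats. -/
def LO {κ : Type*} (L : κ → E →L[ℝ] V) (q : S × κ) : E →L[ℝ] V :=
  (L q.2) ∘L ((C.O q.1 : E ≃ₗᵢ[ℝ] E) : E →L[ℝ] E)

theorem LO_apply {κ : Type*} (L : κ → E →L[ℝ] V) (q : S × κ) (x : E) :
    LO C L q x = L q.2 (C.O q.1 x) := rfl

theorem mem_flats {κ : Type*} {A : Finset κ} {L : κ → E →L[ℝ] V} {c : κ → V} {x : E} :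
    x ∈ flats A L c ↔ ∃ a ∈ A, L a x = c a := by
  simp only [flats, mem_iUnion, mem_ofPred_eq, exists_prop]

theorem flats_LO {κ : Type*} {A : Finset κ} {L : κ → E →L[ℝ] V} {c : κ → V}
    (hZ : C.Z = flats A L c) :
    C.Z = flats ((Finset.univ : Finset S) ×ˢ A) (LO C L) fun q => c q.2 := by
  ext x
  rw [mem_flats]
  constructor
  · intro hx
    rw [hZ, mem_flats] at hx
    obtain ⟨a, ha, h⟩ := hx
    refine ⟨(1, a), Finset.mem_product.2 ⟨Finset.mem_univ _, ha⟩, ?_⟩
    rw [LO_apply, map_one]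
    exact h
  · rintro ⟨⟨s, a⟩, hq, h⟩
    rw [← C.mem_Z_iff s x, hZ, mem_flats]
    exact ⟨a, (Finset.mem_product.1 hq).2, h⟩

theorem mcut_LO {κ : Type*} {A : Finset κ} {L : κ → E →L[ℝ] V} {c : κ → V} (t : S) (δ : ℝ)
    (x : E) :
    mcut ((Finset.univ : Finset S) ×ˢ A) (LO C L) (fun q => c q.2) δ (C.O t x) =
      mcut ((Finset.univ : Finset S) ×ˢ A) (LO C L) (fun q => c q.2) δ x := by
  refine mcut_comp (τ := fun q : S × κ => (q.1 * t, q.2)) ⟨?_, ?_, ?_⟩ (fun q _ y => ?_) δ x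
  · intro q hq
    have h1 := Finset.mem_product.1 (Finset.mem_coe.1 hq)
    exact Finset.mem_coe.2 (Finset.mem_product.2 ⟨Finset.mem_univ _, h1.2⟩)
  · intro q _ q' _ h
    have h1 := congrArg Prod.fst h
    have h2 := congrArg Prod.snd h
    simp only [mul_left_inj] at h1
    exact Prod.ext h1 h2
  · intro q hq
    have h1 := Finset.mem_product.1 (Finset.mem_coe.1 hq)
    refine ⟨(q.1 * t⁻¹, q.2), Finset.mem_coe.2 (Finset.mem_product.2 ⟨Finset.mem_univ _, h1.2⟩), ?_⟩
    simp only [inv_mul_cancel_right]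
  · simp only [LO_apply]
    rw [map_mul]
    rfl

/-- **The field `ws`**, no permutation hypothesis. -/
theorem ws_chan' {m : ℝ} (hadj : ∀ α, Adj (C.Q m α) (C.Q m α)) {κ : Type*} {A : Finset κ}
    {L : κ → E →L[ℝ] V} {c : κ → V} (hZ : C.Z = flats A L c)
    (hL : ∀ a ∈ A, Function.Surjective (L a)) (hV : 3 ≤ Module.finrank ℝ V)
    (f : C.L) (h : Fin 16 → C.L)
    (hf : ∀ (χ : C.X) α, ⟪C.e (C.D m α χ), f⟫_ℂ = ⟪C.e χ, h α⟫_ℂ) {ε : ℝ} (hε : 0 < ε) :
    ∃ χ : C.X, ‖C.e χ - f‖ ≤ ε ∧ ∀ α, ‖C.e (C.D m α χ) - h α‖ ≤ ε :=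
  ws_chan C hadj (flats_LO C hZ)
    (fun q hq => (hL q.2 (Finset.mem_product.1 hq).2).comp (C.O q.1).surjective) hV
    (fun s δ x => mcut_LO C s δ x) f h hf hε

/-- Decomposition of a test function into test functions supported in balls. -/
theorem surj_test {reg : Set E} {r : E → ℝ} (hreg : ∀ x, x ∉ C.Z → x ∈ reg ∧ 0 < r x)
    {ψ : E → F} (hψ : C.Test ψ) :
    ∃ (s : Finset reg) (φ : reg → E → F), (∀ c, C.Test (φ c) ∧
      tsupport (φ c) ⊆ Metric.ball (c : E) (r c)) ∧ ∀ x, ψ x = ∑ c ∈ s, φ c x := by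
  obtain ⟨s, φ, h1, h2, h3, h4⟩ := exists_rep (U := fun c : reg => Metric.ball (c : E) (r c))
    (fun c => Metric.isOpen_ball) hψ.smooth hψ.cpt
    (fun x hx => mem_iUnion.2 ⟨⟨x, (hreg x (hψ.off x hx)).1⟩,
      Metric.mem_ball_self (hreg x (hψ.off x hx)).2⟩)
  exact ⟨s, φ, fun c => ⟨⟨h1 c, h2 c, fun x hx => hψ.off x (mem_of_mem_inter_right (h3 c hx))⟩,
    (h3 c).trans inter_subset_left⟩, h4⟩

end Crest.Agent.R330.ChanWS365

end
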