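import Crest.Agent.R330.TDef_414
import Crest.Agent.R330.TCore_944
import Crest.Agent.R330.ChanWS2_365
import Crest.Agent.R330.ChFree_718

/-!
# Row 330, S10-LIM (helper718): the removed flats of one channel and their symmetries

Over 414's `C : Chn b p S`:

* `Zc C = {X | ¬ C.BReg X}` is a finite union of flats of codimension six (`Zc_eq`), closed, null;
  `exists_breg`.
* `adC_cen` : `Ad_(w s) (cen t) = cen (o s t)`; `mem_kk_iff`; `adC_mem_kk`;
  `breg_O`, `reg_O` : `C.BReg (C.O s X) ↔ C.BReg X`, `C.Reg (C.O s X) ↔ C.Reg X`.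
* `gs_O` : the Gaussian of the free model is invariant under `C.O s`.
* `isLim_free'` : `isLim_free` without hypothesis on the cut-offs.
-/

set_option autoImplicit false
set_option linter.unusedSectionVars false

open MeasureTheory Set Filter Topology ENNReal
open scoped ContDiff InnerProductSpace

noncomputable section

namespace Crest.Agent.R330.ChFlat718

open Crest.MathPhysics.MatrixQM
open Crest.Agent.R330.Defs478 Crest.Agent.R330.LS839 Crest.Agent.R330.Frame839
  Crest.Agent.R330.Clus839 Crest.Agent.R330.Bind6839 Crest.Agent.R330.TDef414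
  Crest.Agent.R330.TCore944 Crest.Agent.R330.WSOff365 Crest.Agent.R330.Free122

variable {N p : ℕ} {b : ColorBasis N} {S : Type} [Group S] [Fintype S] (C : Chn b p S)

/-! ### the removed set -/

/-- The removed set. -/
def Zc : Set (Pos p) := {X | ¬ C.BReg X}

instance instJ : Fintype C.J := C.hJ

theorem mem_Zc {X : Pos p} : X ∈ Zc C ↔ ∃ a, C.Lf a X = 0 := by
  unfold Zc Chn.BReg
  simp

theorem Zc_eq : Zc C = flats (Finset.univ : Finset C.J) C.Lf 0 := by
  ext X
  rw [mem_Zc, ChanWS365.mem_flats]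
  simp

theorem isClosed_Zc : IsClosed (Zc C) := by
  have h := C.isOpen_breg
  have : Zc C = {X | C.BReg X}ᶜ := rfl
  rw [this]
  exact h.isClosed_compl

theorem finrank_six : Module.finrank ℝ (EuclideanSpace ℝ (Fin 6)) = 6 := by simp

theorem null_Zc : (volume : Measure (Pos p)) (Zc C) = 0 := by
  have h : Zc C = ⋃ a, {X | C.Lf a X = 0} := by
    ext X
    rw [mem_Zc]
    simp
  rw [h]
  refine measure_iUnion_null fun a => ?_
  exact Rem365.flat_null (C.Lf a) (C.Lf_surj a) (by rw [finrank_six]; norm_num) 0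

theorem exists_breg : ∃ X, C.BReg X := by
  by_contra h
  push Not at h
  have h1 : Zc C = Set.univ := by
    ext X
    simp [Zc, h X]
  have h2 := null_Zc C
  rw [h1] at h2
  exact (isOpen_univ.measure_pos (volume : Measure (Pos p)) ⟨0, trivial⟩).ne' h2

theorem exists_breg_ball {X : Pos p} {r : ℝ} (hr : 0 < r) : ∃ Y, ‖Y - X‖ < r ∧ C.BReg Y := by
  by_contra h
  push Not at h
  have h1 : Metric.ball X r ⊆ Zc C := by
    intro Y hY
    exact h Y (by rwa [← mem_ball_iff_norm])
  have h2 := measure_mono_null h1 (null_Zc C)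
  exact (Metric.isOpen_ball.measure_pos (volume : Measure (Pos p))
    ⟨X, Metric.mem_ball_self hr⟩).ne' h2

/-! ### the symmetries -/

/-- a position with a single component -/
def sing (i : Fin 9) (t : EuclideanSpace ℝ (Fin p)) : Pos p := mkp fun j => if j = i then t else 0

theorem pcomp_sing (i : Fin 9) (t : EuclideanSpace ℝ (Fin p)) : pcomp (sing i t) i = t := by
  unfold sing
  rw [pcomp_mkp, if_pos rfl]

theorem adC_cen (s : S) (t : EuclideanSpace ℝ (Fin p)) :
    adC b (C.w s) (C.cen t) = C.cen (C.o s t) := by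
  have h := congrArg (fun x : Cfg N => comp x 0) (C.act_w s (sing 0 t))
  simp only [comp_actg, comp_cfOf, pcomp_lift9, pcomp_sing] at h
  exact h

/-- covariance of the bracket -/
theorem adC_br (g : Matrix.specialUnitaryGroup (Fin N) ℂ) (u v : Colg N) :
    adC b g ((colAlg b).br u v) = (colAlg b).br (adC b g u) (adC b g v) := by
  have h := congrArg (fun x : Cfg N => comp x 0) (act_actB (b := b) g u (mkc fun _ => v))
  simp only [comp_actg, comp_act, comp_mkc] at h
  exact h

theorem adC_inv (g : Matrix.specialUnitaryGroup (Fin N) ℂ) (u : Colg N) :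
    adC b g (adC b g⁻¹ u) = u := by
  rw [← adC_mul, mul_inv_cancel, adC_one]

theorem adC_inv' (g : Matrix.specialUnitaryGroup (Fin N) ℂ) (u : Colg N) :
    adC b g⁻¹ (adC b g u) = u := by
  rw [← adC_mul, inv_mul_cancel, adC_one]

/-- `kk` is the centraliser of the centre. -/
theorem mem_kk_iff (u : Colg N) : u ∈ C.kk ↔ ∀ t, (colAlg b).br (C.cen t) u = 0 := by
  constructor
  · intro hu t
    exact C.cen_comm t u hu
  · intro hu
    obtain ⟨X, hX⟩ := exists_breg C
    refine (C.breg_iff X).1 hX u fun i _ => ?_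
    rw [(colAlg b).anti, hu, neg_zero]

theorem adC_mem_kk (s : S) {u : Colg N} (hu : u ∈ C.kk) : adC b (C.w s) u ∈ C.kk := by
  rw [mem_kk_iff] at hu ⊢
  intro t
  have h1 := adC_br (b := b) (C.w s) (C.cen ((C.o s).symm t)) u
  rw [hu, map_zero, adC_cen, (C.o s).apply_symm_apply] at h1
  exact h1.symm

theorem adC_inv_cen (s : S) (t : EuclideanSpace ℝ (Fin p)) :
    adC b (C.w s)⁻¹ (C.cen t) = C.cen ((C.o s).symm t) := by
  have h := adC_cen C s ((C.o s).symm t)
  rw [(C.o s).apply_symm_apply] at h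
  rw [← h, adC_inv']

theorem adC_inv_mem_kk (s : S) {u : Colg N} (hu : u ∈ C.kk) : adC b (C.w s)⁻¹ u ∈ C.kk := by
  rw [mem_kk_iff] at hu ⊢
  intro t
  have h1 := adC_br (b := b) (C.w s)⁻¹ (C.cen (C.o s t)) u
  rw [hu, map_zero, adC_inv_cen, (C.o s).symm_apply_apply] at h1
  exact h1.symm

theorem pcomp_O (s : S) (X : Pos p) (i : Fin 9) : pcomp (C.O s X) i = C.o s (pcomp X i) := rfl

theorem breg_O_of (s : S) {X : Pos p} (h : C.BReg X) : C.BReg (C.O s X) := by
  rw [Chn.breg_iff] at h ⊢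
  intro u hu
  have h1 : adC b (C.w s)⁻¹ u ∈ C.kk := by
    refine h _ fun i hi => ?_
    have h2 := hu i hi
    rw [pcomp_O] at h2
    have h3 := adC_br (b := b) (C.w s)⁻¹ u (C.cen (C.o s (pcomp X i)))
    rw [h2, map_zero, adC_inv_cen, (C.o s).symm_apply_apply] at h3
    exact h3.symm
  have h4 := adC_mem_kk C s h1
  rwa [adC_inv] at h4

theorem O_mul (s t : S) (X : Pos p) : C.O (s * t) X = C.O s (C.O t X) := by
  unfold Chn.O
  rw [map_mul]
  rfl

theorem O_one (X : Pos p) : C.O 1 X = X := by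
  unfold Chn.O
  rw [map_one]
  rfl

theorem O_inv (s : S) (X : Pos p) : C.O s⁻¹ (C.O s X) = X := by
  rw [← O_mul, inv_mul_cancel, O_one]

theorem breg_O (s : S) (X : Pos p) : C.BReg (C.O s X) ↔ C.BReg X := by
  refine ⟨fun h => ?_, breg_O_of C s⟩
  have := breg_O_of C s⁻¹ h
  rwa [O_inv] at this

theorem reg_O_of (s : S) {X : Pos p} (h : C.Reg X) : C.Reg (C.O s X) := by
  unfold Chn.Reg at h ⊢
  refine le_antisymm (fun u hu => ?_) fun u hu => ?_
  · have h1 : adC b (C.w s)⁻¹ u ∈ kc (actB b) (C.cf X) := by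
      rw [kc_eq, ColAlg.mem_kk] at hu ⊢
      intro i
      have h2 := hu i
      rw [Chn.comp_cf, pcomp_O] at h2
      have h3 := adC_br (b := b) (C.w s)⁻¹ (C.cen (C.o s (pcomp X i))) u
      rw [h2, map_zero, adC_inv_cen, (C.o s).symm_apply_apply] at h3
      exact h3.symm
    rw [h] at h1
    have h4 := adC_mem_kk C s h1
    rwa [adC_inv] at h4
  · rw [kc_eq, ColAlg.mem_kk]
    intro i
    rw [Chn.comp_cf]
    exact C.cen_comm _ u hu

theorem reg_O (s : S) (X : Pos p) : C.Reg (C.O s X) ↔ C.Reg X := by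
  refine ⟨fun h => ?_, reg_O_of C s⟩
  have := reg_O_of C s⁻¹ h
  rwa [O_inv] at this

/-- `C.O` as a homomorphism. -/
def Oh : S →* (Pos p ≃ₗᵢ[ℝ] Pos p) where
  toFun := C.O
  map_one' := by
    ext1 X
    exact O_one C X
  map_mul' s t := by
    ext1 X
    exact O_mul C s t X

/-! ### the Gaussian -/

theorem gs_eq_pcomp (m : ℝ) (X : Pos p) :
    gs p m X = Real.exp (-(1 / 2) * ∑ i : Fin 9, m * |cc i| * ‖pcomp X i‖ ^ 2) := by
  unfold gs
  congr 2
  rw [Fintype.sum_prod_type]
  refine Finset.sum_congr rfl fun i _ => ?_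
  rw [EuclideanSpace.norm_sq_eq, Finset.mul_sum]
  refine Finset.sum_congr rfl fun A _ => ?_
  rw [Real.norm_eq_abs, sq_abs]
  rfl

theorem gs_O (m : ℝ) (s : S) (X : Pos p) : gs p m (C.O s X) = gs p m X := by
  rw [gs_eq_pcomp, gs_eq_pcomp]
  congr 2
  refine Finset.sum_congr rfl fun i _ => ?_
  rw [pcomp_O, LinearIsometryEquiv.norm_map]

/-! ### the limit system -/

open Crest.Agent.R330.WS596 Crest.Agent.R330.Chan441 in
/-- **The limit system of one channel**, the symmetries only have to preserve `Z`. -/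
theorem isLim_free' {S : Type*} [Group S] [Fintype S] {F : Type*} [NormedAddCommGroup F]
    [InnerProductSpace ℂ F] [FiniteDimensional ℂ F] (hp : 1 ≤ p)
    (C : Chan566.Chan S (EuclideanSpace ℝ (Fin 9 × Fin p)) F)
    {Lt : Light p F} {G : GammaNine}
    (hQ : ∀ m α (ψ : EuclideanSpace ℝ (Fin 9 × Fin p) → F), ContDiff ℝ ∞ ψ →
      (C.Q m α).op ψ = freeD Lt G m α ψ)
    (hadj : ∀ m α, Adj (C.Q m α) (C.Q m α))
    {ι : Type*} {A : Finset ι} {V : Type*} [NormedAddCommGroup V] [InnerProductSpace ℝ V]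
    [FiniteDimensional ℝ V] [MeasurableSpace V] [BorelSpace V]
    {L : ι → EuclideanSpace ℝ (Fin 9 × Fin p) →L[ℝ] V} {c : ι → V} (hZ : C.Z = flats A L c)
    (hL : ∀ a ∈ A, Function.Surjective (L a)) (hV : 3 ≤ Module.finrank ℝ V)
    {ξ : F} (hξ0 : ξ ≠ 0) (hξ : LVac Lt G ξ) (hline : ∀ e, LVac Lt G e → e = ⟪ξ, e⟫_ℂ • ξ)
    (hgs : ∀ s x, gs p 1 (C.O s x) = gs p 1 x) (hU : ∀ s, C.U s ξ = ξ) :
    ∃ Φ : C.L, (((Φ : Lp F 2 (volume : Measure (EuclideanSpace ℝ (Fin 9 × Fin p)))) :
        EuclideanSpace ℝ (Fin 9 × Fin p) → F) =ᵐ[volume] fun x => (gs p 1 x : ℂ) • ξ) ∧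
      IsLim C.e C.D (ChBind718.Wt C) (Submodule.span ℂ {Φ}) 1 :=
  ChFree718.isLim_free hp C hQ hadj (ChanWS365.flats_LO C hZ)
    (fun q hq => (hL q.2 (Finset.mem_product.1 hq).2).comp (C.O q.1).surjective) hV
    (fun s δ x => ChanWS365.mcut_LO C s δ x) hξ0 hξ hline hgs hU

end Crest.Agent.R330.ChFlat718

end
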