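import Crest.Agent.R330.WDH_245

/-!
# Row 330, S9-CHHARDY (helper718): the free massless charges on test functions

`a : κ → F →ₗ F` with `a_k` symmetric and `a_k a_l + a_l a_k = δ_kl` (`WDH245.Cliff`),
`dirac a 0 ψ = Σ_k (-i) a_k ∂_k ψ` on `ℝ^κ`.

* `dirac_sq` : `D² ψ = -½ Δ ψ`; `dirac_sq_eq` : (sq) the squares of two such operators agree.
* `sum_dirac_sq` : `Σ_α ∫ ‖D_α φ‖² = (card I / 2) ∫ |∇φ|²`.
* `hardy_test` : (hardy) `(49/8) ∫ ‖w(|x|²) φ‖² ≤ (1/16) Σ_α ∫ ‖D_α φ‖²` if `w(t)² t ≤ 1`.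
-/

set_option autoImplicit false
set_option linter.unusedSectionVars false

open MeasureTheory Set Filter Topology ENNReal
open scoped ContDiff InnerProductSpace

noncomputable section

namespace Crest.Agent.R330.ChHardy718

open Crest.Agent.R330.IBP837 Crest.Agent.R330.WDH245

variable {κ : Type*} [Fintype κ] [DecidableEq κ]
variable {F : Type*} [NormedAddCommGroup F] [InnerProductSpace ℂ F] [FiniteDimensional ℂ F]
variable {a a' : κ → F →ₗ[ℂ] F} {V : EuclideanSpace ℝ κ → F →ₗ[ℂ] F}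

/-- The standard orthonormal family. -/
def eb (κ : Type*) [Fintype κ] [DecidableEq κ] (k : κ) : EuclideanSpace ℝ κ :=
  EuclideanSpace.single k 1

theorem eb_orthonormal : Orthonormal ℝ (eb κ) := EuclideanSpace.orthonormal_single

theorem dirac_eq_cD (hV : ∀ x, V x = 0) (ψ : EuclideanSpace ℝ κ → F) (x : EuclideanSpace ℝ κ) :
    dirac a V ψ x = cD (eb κ) a ψ x := by
  unfold dirac cD eb
  rw [hV x, LinearMap.zero_apply, add_zero]

theorem cD_contDiff {ψ : EuclideanSpace ℝ κ → F} (hψ : ContDiff ℝ ∞ ψ) :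
    ContDiff ℝ ∞ (cD (eb κ) a ψ) := by
  unfold cD
  refine ContDiff.sum fun k _ => ContDiff.const_smul _ ?_
  exact contDiff_lin (a k) ((hψ.fderiv_right (m := ∞) (by simp)).clm_apply contDiff_const)

/-- The second derivatives. -/
def dd (ψ : EuclideanSpace ℝ κ → F) (k l : κ) (x : EuclideanSpace ℝ κ) : F :=
  fderiv ℝ (fderiv ℝ ψ) x (eb κ k) (eb κ l)

theorem dd_symm {ψ : EuclideanSpace ℝ κ → F} (hψ : ContDiff ℝ ∞ ψ) (k l : κ)
    (x : EuclideanSpace ℝ κ) : dd ψ k l x = dd ψ l k x := by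
  have h2 : ContDiff ℝ 2 ψ := hψ.of_le
    (show ((2 : ℕ∞) : WithTop ℕ∞) ≤ ((⊤ : ℕ∞) : WithTop ℕ∞) from WithTop.coe_le_coe.2 le_top)
  have hsym : IsSymmSndFDerivAt ℝ ψ x := h2.contDiffAt.isSymmSndFDerivAt (by simp)
  exact hsym.eq _ _

theorem fderiv_cD {ψ : EuclideanSpace ℝ κ → F} (hψ : ContDiff ℝ ∞ ψ) (k : κ)
    (x : EuclideanSpace ℝ κ) :
    fderiv ℝ (cD (eb κ) a ψ) x (eb κ k) = ∑ l, (-Complex.I) • a l (dd ψ k l x) := by
  have hd : ContDiff ℝ ∞ (fderiv ℝ ψ) := hψ.fderiv_right (m := ∞) (by simp)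
  have hdl : ∀ l, DifferentiableAt ℝ (fun y => a l (fderiv ℝ ψ y (eb κ l))) x := fun l =>
    (contDiff_lin (a l) (hd.clm_apply contDiff_const)).differentiable (by simp) x
  have h1 : fderiv ℝ (cD (eb κ) a ψ) x =
      ∑ l, fderiv ℝ (fun y => (-Complex.I) • a l (fderiv ℝ ψ y (eb κ l))) x := by
    unfold cD
    exact fderiv_fun_sum fun l _ => (hdl l).const_smul _
  rw [h1, ContinuousLinearMap.sum_apply]
  refine Finset.sum_congr rfl fun l _ => ?_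
  have h2 : fderiv ℝ (fun y => (-Complex.I) • a l (fderiv ℝ ψ y (eb κ l))) x =
      (-Complex.I) • fderiv ℝ (fun y => a l (fderiv ℝ ψ y (eb κ l))) x :=
    fderiv_fun_const_smul (hdl l) _
  rw [h2, ContinuousLinearMap.smul_apply]
  congr 1
  rw [fderiv_lin (a l) ((hd.clm_apply contDiff_const).differentiable (by simp) x)]
  congr 1
  rw [fderiv_clm_apply (hd.differentiable (by simp) x) (differentiableAt_const _)]
  simp [dd]

/-- `D² ψ = -½ Δ ψ`. -/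
theorem cD_sq (ha : Cliff a) {ψ : EuclideanSpace ℝ κ → F} (hψ : ContDiff ℝ ∞ ψ)
    (x : EuclideanSpace ℝ κ) :
    cD (eb κ) a (cD (eb κ) a ψ) x = (-(1 / 2) : ℂ) • ∑ k, dd ψ k k x := by
  have e1 : cD (eb κ) a (cD (eb κ) a ψ) x = -∑ k, ∑ l, a k (a l (dd ψ k l x)) := by
    conv_lhs => unfold cD
    rw [← Finset.sum_neg_distrib]
    refine Finset.sum_congr rfl fun k _ => ?_
    have := fderiv_cD (a := a) hψ k x
    unfold cD at this
    rw [this, map_sum, Finset.smul_sum, ← Finset.sum_neg_distrib]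
    refine Finset.sum_congr rfl fun l _ => ?_
    rw [map_smul, smul_smul, neg_mul_neg, Complex.I_mul_I, neg_one_smul]
  have e2 : (2 : ℂ) • ∑ k, ∑ l, a k (a l (dd ψ k l x)) = ∑ k, dd ψ k k x := by
    rw [two_smul]
    nth_rewrite 2 [Finset.sum_comm]
    rw [← Finset.sum_add_distrib]
    refine Finset.sum_congr rfl fun k _ => ?_
    rw [← Finset.sum_add_distrib]
    have e3 : ∀ l, a k (a l (dd ψ k l x)) + a l (a k (dd ψ l k x)) =
        if k = l then dd ψ k k x else 0 := by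
      intro l
      rw [dd_symm hψ l k x]
      have h := LinearMap.congr_fun (ha.anti k l) (dd ψ k l x)
      rw [LinearMap.add_apply, LinearMap.comp_apply, LinearMap.comp_apply] at h
      rw [h]
      by_cases hkl : k = l
      · subst hkl; simp
      · simp [hkl]
    rw [Finset.sum_congr rfl fun l _ => e3 l]
    simp
  have e4 : ∑ k, ∑ l, a k (a l (dd ψ k l x)) = (1 / 2 : ℂ) • ∑ k, dd ψ k k x := by
    rw [← e2, smul_smul]
    norm_num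
  rw [e1, e4, neg_smul]

/-- (sq) the squares agree. -/
theorem cD_sq_eq (ha : Cliff a) (ha' : Cliff a') {ψ : EuclideanSpace ℝ κ → F}
    (hψ : ContDiff ℝ ∞ ψ) :
    cD (eb κ) a (cD (eb κ) a ψ) = cD (eb κ) a' (cD (eb κ) a' ψ) := by
  funext x
  rw [cD_sq ha hψ, cD_sq ha' hψ]

theorem dirac_sq_eq {V' : EuclideanSpace ℝ κ → F →ₗ[ℂ] F} (hV : ∀ x, V x = 0)
    (hV' : ∀ x, V' x = 0) (ha : Cliff a) (ha' : Cliff a') {ψ : EuclideanSpace ℝ κ → F}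
    (hψ : ContDiff ℝ ∞ ψ) :
    dirac a V (dirac a V ψ) = dirac a' V' (dirac a' V' ψ) := by
  have h1 : ∀ φ : EuclideanSpace ℝ κ → F, dirac a V φ = cD (eb κ) a φ := fun φ =>
    funext fun x => dirac_eq_cD hV φ x
  have h2 : ∀ φ : EuclideanSpace ℝ κ → F, dirac a' V' φ = cD (eb κ) a' φ := fun φ =>
    funext fun x => dirac_eq_cD hV' φ x
  rw [h1, h1, h2, h2]
  exact cD_sq_eq ha ha' hψ

/-- `Σ_α ∫ ‖D_α φ‖² = (card I / 2) ∫ |∇φ|²`. -/
theorem sum_cD_sq {I : Type*} [Fintype I] {b : I → κ → F →ₗ[ℂ] F} (hb : ∀ α, Cliff (b α))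
    {φ : EuclideanSpace ℝ κ → F} (hφ : ContDiff ℝ ∞ φ) (hc : HasCompactSupport φ) :
    ∑ α, ∫ x, ‖cD (eb κ) (b α) φ x‖ ^ 2 =
      (Fintype.card I : ℝ) / 2 * ∫ x, ∑ k, ‖fderiv ℝ φ x (eb κ k)‖ ^ 2 := by
  have h2 : ContDiff ℝ 2 φ := hφ.of_le
    (show ((2 : ℕ∞) : WithTop ℕ∞) ≤ ((⊤ : ℕ∞) : WithTop ℕ∞) from WithTop.coe_le_coe.2 le_top)
  have h : ∀ α, ∫ x, ‖cD (eb κ) (b α) φ x‖ ^ 2 =
      1 / 2 * ∫ x, ∑ k, ‖fderiv ℝ φ x (eb κ k)‖ ^ 2 := fun α => integral_cD_sq (hb α) h2 hc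
  simp only [h, Finset.sum_const, Finset.card_univ, nsmul_eq_mul]
  ring

theorem r2_eb (x : EuclideanSpace ℝ κ) : Hardy151.r2 (eb κ) 0 x = ‖x‖ ^ 2 := by
  unfold Hardy151.r2 Hardy151.yc eb
  rw [EuclideanSpace.norm_sq_eq]
  refine Finset.sum_congr rfl fun k _ => ?_
  rw [EuclideanSpace.inner_single_left]
  simp

/-- Hardy's inequality for the massless free charges. -/
theorem hardy_sum {I : Type*} [Fintype I] {b : I → κ → F →ₗ[ℂ] F} (hb : ∀ α, Cliff (b α))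
    (hκ : 3 ≤ Fintype.card κ)
    {φ : EuclideanSpace ℝ κ → F} (hφ : ContDiff ℝ ∞ φ) (hc : HasCompactSupport φ) :
    Integrable (fun x => ‖φ x‖ ^ 2 / ‖x‖ ^ 2) volume ∧
    (Fintype.card I : ℝ) / 2 * (((Fintype.card κ : ℝ) - 2) / 2) ^ 2 *
        ∫ x, ‖φ x‖ ^ 2 / ‖x‖ ^ 2 ≤ ∑ α, ∫ x, ‖cD (eb κ) (b α) φ x‖ ^ 2 := by
  let _ : InnerProductSpace ℝ F := InnerProductSpace.complexToReal
  obtain ⟨h1, h2⟩ := Hardy151.hardy (μ := (volume : Measure (EuclideanSpace ℝ κ))) (v := eb κ)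
    (c := 0) (hφ.of_le (by simp)) hc eb_orthonormal hκ
  simp only [r2_eb] at h1 h2
  refine ⟨h1, ?_⟩
  rw [sum_cD_sq hb hφ hc, mul_assoc]
  exact mul_le_mul_of_nonneg_left h2 (by positivity)

/-- (hardy) -/
theorem hardy_test {I : Type*} [Fintype I] {b : I → κ → F →ₗ[ℂ] F} (hb : ∀ α, Cliff (b α))
    (hI : Fintype.card I = 16) (hκ : 9 ≤ Fintype.card κ)
    {φ : EuclideanSpace ℝ κ → F} (hφ : ContDiff ℝ ∞ φ) (hc : HasCompactSupport φ)
    {w : ℝ → ℝ} (hw : ∀ t, 0 ≤ t → w t ^ 2 * t ≤ 1) :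
    49 / 8 * ∫ x, ‖w (‖x‖ ^ 2) • φ x‖ ^ 2 ≤ 1 / 16 * ∑ α, ∫ x, ‖cD (eb κ) (b α) φ x‖ ^ 2 := by
  obtain ⟨h1, h2⟩ := hardy_sum hb (by omega) hφ hc
  have hne : Nonempty κ := Fintype.card_pos_iff.1 (by omega)
  have hκ' : (9 : ℝ) ≤ Fintype.card κ := by exact_mod_cast hκ
  have h3 : ∫ x, ‖w (‖x‖ ^ 2) • φ x‖ ^ 2 ≤ ∫ x, ‖φ x‖ ^ 2 / ‖x‖ ^ 2 := by
    refine integral_mono_of_nonneg (Eventually.of_forall fun x => sq_nonneg _) h1 ?_
    have h0 : ∀ᵐ x : EuclideanSpace ℝ κ, x ≠ 0 := by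
      have : (volume : Measure (EuclideanSpace ℝ κ)) {0} = 0 := by
        have : Nontrivial (EuclideanSpace ℝ κ) := inferInstance
        exact measure_singleton 0
      rw [ae_iff]
      simpa using this
    filter_upwards [h0] with x hx
    rw [norm_smul, mul_pow, Real.norm_eq_abs, sq_abs]
    have hx2 : 0 < ‖x‖ ^ 2 := by positivity
    rw [le_div_iff₀ hx2]
    have := hw (‖x‖ ^ 2) hx2.le
    nlinarith [sq_nonneg ‖φ x‖]
  have hA : (49 : ℝ) ≤ 4 * (((Fintype.card κ : ℝ) - 2) / 2) ^ 2 := by nlinarith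
  have h4 : 0 ≤ ∫ x, ‖φ x‖ ^ 2 / ‖x‖ ^ 2 := integral_nonneg fun x => by positivity
  rw [hI] at h2
  have h5 : (16 : ℝ) / 2 * (((Fintype.card κ : ℝ) - 2) / 2) ^ 2 * ∫ x, ‖φ x‖ ^ 2 / ‖x‖ ^ 2 ≤
    ∑ α, ∫ x, ‖cD (eb κ) (b α) φ x‖ ^ 2 := by exact_mod_cast h2
  nlinarith [mul_le_mul_of_nonneg_right hA h4]

end Crest.Agent.R330.ChHardy718

end
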