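import Crest.Agent.R330.ChU_879
import Crest.Agent.R330.ChFlat_718
import Crest.Agent.R330.ChSys_399

/-!
# Row 330: the literal limit channel (helper879)

* `limC C R G : Chan566.Chan S (Pos p) (C.Fx M G)`.
* `limC_match`, `limC_adj`, `limC_sq`, `limC_isLim`.
* `chanLit` : the bundled channel from the statements on generators.
-/

set_option autoImplicit false
set_option linter.unusedSectionVars false

noncomputable section

namespace Crest.Agent.R330.ChLit879

open MeasureTheory Filter Topology Crest.MathPhysics.MatrixQM Crest.Agent.R330.IBP837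
  Crest.Agent.R330.FreeC122 Crest.Agent.R330.Defs478 Crest.Agent.R330.Free122
  Crest.Agent.R330.TDef414 Crest.Agent.R330.FreeFx122 Crest.Agent.R330.FreeQ122
  Crest.Agent.R330.ChU879 Crest.Agent.R330.ChFlat718 Crest.Agent.R330.ChSys399
  Crest.Agent.R330.WS596
open scoped ContDiff InnerProductSpace ENNReal

variable {N p : ℕ} {b : ColorBasis N} {S : Type} [Group S] [Fintype S] (C : Chn b p S)
  {F : Type} [NormedAddCommGroup F] [InnerProductSpace ℂ F] [FiniteDimensional ℂ F]
  [Nontrivial F] {M : FermionRep N F} (R : GaugeAction b M) (G : GammaNine)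

/-- **The limit channel.** -/
def limC : Chan566.Chan S (Pos p) (C.Fx M G) where
  Q := freeFOp (fxLight C M G) G
  O := OF C
  U := UF C R G
  Z := Zc C
  hB m α := freeFOp_smooth _ G m α
  Ac m α c ℓ := freeFOp_Ac _ G m α c ℓ
  Bc m α x c v := freeFOp_Bc _ G m α x c v
  closed := isClosed_Zc C
  null := null_Zc C
  ZO s X hX h := hX ((breg_O C s X).1 h)
  covA := covA_UF C R G
  covB := covB_UF C R G

theorem limC_op (m : ℝ) (α : Fin 16) (ψ : Pos p → C.Fx M G) :
    ((limC C R G).Q m α).op ψ = C.Dx M G m α ψ := by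
  rw [← freeD_eq_Dx]
  funext x
  exact freeFOp_op (fxLight C M G) G m α ψ x

theorem limC_match : Match R (limC C R G) where
  hO _ _ := rfl
  hU _ _ := rfl
  hZ _ := Iff.rfl
  hQ m α ψ _ := limC_op C R G m α ψ

theorem limC_adj (m : ℝ) (α : Fin 16) :
    Adj ((limC C R G).Q m α) ((limC C R G).Q m α) where
  A ℓ u v := by
    change ⟪v, (freeFOp (fxLight C M G) G m α).A (ℓ.smulRight u)⟫_ℂ =
      -⟪(freeFOp (fxLight C M G) G m α).A (ℓ.smulRight v), u⟫_ℂ
    rw [freeFOp_A, freeFOp_A, inner_sum, sum_inner, ← Finset.sum_neg_distrib]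
    refine Finset.sum_congr rfl fun k _ => ?_
    rw [ContinuousLinearMap.smulRight_apply, ContinuousLinearMap.smulRight_apply]
    simp only [kA, LinearMap.sum_apply, LinearMap.smul_apply, inner_sum, sum_inner,
      inner_smul_left, inner_smul_right, ← Finset.sum_neg_distrib]
    refine Finset.sum_congr rfl fun β _ => ?_
    have h1 : ∀ w : C.Fx M G, (fxLight C M G).θ β k.2 (ℓ (EuclideanSpace.single k 1) • w) =
        ((ℓ (EuclideanSpace.single k 1) : ℝ) : ℂ) • (fxLight C M G).θ β k.2 w := fun w => by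
      rw [← Complex.coe_smul, map_smul]
    rw [h1, h1, inner_smul_right, inner_smul_left, ← (fxLight C M G).symm β k.2 v u]
    simp only [map_mul, map_neg, Complex.conj_ofReal, Complex.conj_I]
    ring
  B x u v := by
    change ⟪v, (freeFOp (fxLight C M G) G m α).B x u⟫_ℂ =
      ⟪(freeFOp (fxLight C M G) G m α).B x v, u⟫_ℂ
    rw [freeFOp_B, freeFOp_B, inner_sum, sum_inner]
    refine Finset.sum_congr rfl fun k _ => ?_
    simp only [pV, LinearMap.sum_apply, LinearMap.smul_apply, inner_sum, sum_inner,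
      inner_smul_left, inner_smul_right, Complex.conj_ofReal]
    refine congrArg _ (Finset.sum_congr rfl fun β _ => ?_)
    rw [(fxLight C M G).symm β k.2 v u]

theorem limC_hQ (m : ℝ) (α : Fin 16) (ψ : EuclideanSpace ℝ (Fin 9 × Fin p) → C.Fx M G)
    (_ : ContDiff ℝ ∞ ψ) : ((limC C R G).Q m α).op ψ = freeD (fxLight C M G) G m α ψ := by
  rw [limC_op, freeD_eq_Dx]

theorem limC_sq (hp : 1 ≤ p) (α β : Fin 16) (ψ : Pos p → C.Fx M G) (hψ : ContDiff ℝ ∞ ψ) :
    ((limC C R G).Q 0 α).op (((limC C R G).Q 0 α).op ψ) =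
      ((limC C R G).Q 0 β).op (((limC C R G).Q 0 β).op ψ) :=
  (ChFree718.free_of hp (limC_hQ C R G)).op_sq α β hψ

/-- **The limit system.** -/
theorem limC_isLim (hp : 1 ≤ p) :
    ∃ K0 : Submodule ℂ (limC C R G).L,
      Chan441.IsLim (L := (limC C R G).L) (limC C R G).e (limC C R G).D
        (ChBind718.Wt (limC C R G)) K0 1 := by
  obtain ⟨ξ, h1, h2, -, h4⟩ := exists_xi_fx C M G
  have h0 : ξ ≠ 0 := fun h => by
    rw [h, norm_zero] at h1
    exact zero_ne_one h1
  obtain ⟨Φ, -, h⟩ := isLim_free' hp (limC C R G) (limC_hQ C R G) (limC_adj C R G)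
    (A := Finset.univ) (L := C.Lf) (c := 0) (Zc_eq C) (fun a _ => C.Lf_surj a)
    (by rw [finrank_six]; norm_num) h0 h2 h4 (fun s X => gs_O C 1 s X)
    (fun s => UF_xi C R G s h2)
  exact ⟨_, h⟩

variable {C R G}

/-- **One literal channel**: from charts and the statements (T1)-(T5) on generators. -/
theorem exists_chan (hp : 1 ≤ p) (P : TPack C M R G) (hCh : ChartT C) (hC : CoreT P)
    (hS : SuppT P) (hR : RadT P) (hG : GramT P) (hD : DualT P) :
    ∃ K : Chan441.Chan b M R G, ∃ hX : K.X = XX C M G,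
      ∀ g (χ : XX C M G), K.T g (hX ▸ χ) = TT P g χ := by
  obtain ⟨K0, h⟩ := limC_isLim C R G hp (M := M)
  exact ⟨chanOf P (limC_match C R G) hCh hC hS hR hG hD (fun _ hw => ChBind718.Wt_eq _ hw)
    (limC_sq C R G hp) h, rfl, fun g χ => rfl⟩

/-- The literal channel. -/
def chanLit (hp : 1 ≤ p) (P : TPack C M R G) (hCh : ChartT C) (hC : CoreT P)
    (hS : SuppT P) (hR : RadT P) (hG : GramT P) (hD : DualT P) : Chan441.Chan b M R G :=
  chanOf P (limC_match C R G) hCh hC hS hR hG hD (fun _ hw => ChBind718.Wt_eq _ hw)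
    (limC_sq C R G hp) (limC_isLim C R G hp).choose_spec

theorem chanLit_X (hp : 1 ≤ p) (P : TPack C M R G) (hCh : ChartT C) (hC : CoreT P)
    (hS : SuppT P) (hR : RadT P) (hG : GramT P) (hD : DualT P) :
    (chanLit hp P hCh hC hS hR hG hD).X = XX C M G := rfl

theorem chanLit_T (hp : 1 ≤ p) (P : TPack C M R G) (hCh : ChartT C) (hC : CoreT P)
    (hS : SuppT P) (hR : RadT P) (hG : GramT P) (hD : DualT P) (g : ℝ) (χ : XX C M G) :
    (chanLit hp P hCh hC hS hR hG hD).T g χ = TT P g χ := rfl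

end Crest.Agent.R330.ChLit879

end
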