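import Crest.Agent.R330.Sec_478

/-!
# Row 330, S10-SUM: direct sum of channel systems (helper718)

* `card_parts_ge_two` : the number of partitions of `N` with at least two parts is `p(N) - 1`.
* abstract lemmas on `PiLp 2` of finitely many Hilbert spaces.
-/

set_option autoImplicit false

open MeasureTheory Filter Topology Crest.MathPhysics.MatrixQM
open scoped ContDiff InnerProductSpace ENNReal

noncomputable section

namespace Crest.Agent.R330.ChSum718

open Crest.Agent.R330.Defs478 Crest.Agent.R330.Top478 Crest.Agent.R330.Sec478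

/-! ## counting partitions -/

/-- Channels: partitions with at least two parts. -/
abbrev Chan (N : ℕ) := {l : Nat.Partition N // 2 ≤ Multiset.card l.parts}

theorem eq_indiscrete {N : ℕ} (hN : 1 ≤ N) (l : Nat.Partition N)
    (h : ¬ 2 ≤ Multiset.card l.parts) : l = Nat.Partition.indiscrete N := by
  have h0 : Multiset.card l.parts ≠ 0 := by
    intro h0
    have h1 := l.parts_sum
    rw [Multiset.card_eq_zero.1 h0] at h1
    simp at h1
    omega
  have h1 : Multiset.card l.parts = 1 := by omega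
  obtain ⟨a, ha⟩ := Multiset.card_eq_one.1 h1
  have h2 := l.parts_sum
  rw [ha, Multiset.sum_singleton] at h2
  apply Nat.Partition.ext
  rw [Nat.Partition.indiscrete_parts (by omega), ha, h2]

theorem card_chan {N : ℕ} (hN : 1 ≤ N) : Fintype.card (Chan N) = pN N - 1 := by
  have h1 : ¬ 2 ≤ Multiset.card (Nat.Partition.indiscrete N).parts := by
    rw [Nat.Partition.indiscrete_parts (by omega)]
    simp
  have h2 : Fintype.card {l : Nat.Partition N // ¬ 2 ≤ Multiset.card l.parts} = 1 := by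
    rw [Fintype.card_eq_one_iff]
    exact ⟨⟨_, h1⟩, fun y => Subtype.ext (eq_indiscrete hN y.1 y.2)⟩
  have h3 := Fintype.card_subtype_compl (fun l : Nat.Partition N => 2 ≤ Multiset.card l.parts)
  have h4 := Fintype.card_subtype_le (fun l : Nat.Partition N => 2 ≤ Multiset.card l.parts)
  unfold pN
  unfold Chan
  rw [h2] at h3
  omega

/-! ## finite Hilbert sums -/

section pi

variable {ι : Type} [Fintype ι] {L : ι → Type} [∀ i, NormedAddCommGroup (L i)]
  [∀ i, InnerProductSpace ℂ (L i)]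

/-- The product of subspaces as a subspace of the Hilbert sum. -/
def piSub (K : ∀ i, Submodule ℂ (L i)) : Submodule ℂ (PiLp 2 L) where
  carrier := {f | ∀ i, f i ∈ K i}
  add_mem' h1 h2 i := (K i).add_mem (h1 i) (h2 i)
  zero_mem' i := (K i).zero_mem
  smul_mem' c _ h i := (K i).smul_mem c (h i)

omit [Fintype ι] in
theorem mem_piSub {K : ∀ i, Submodule ℂ (L i)} {f : PiLp 2 L} :
    f ∈ piSub K ↔ ∀ i, f i ∈ K i := Iff.rfl

/-- The product of subspaces is the product. -/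
def piSubEquiv (K : ∀ i, Submodule ℂ (L i)) : piSub K ≃ₗ[ℂ] (∀ i, K i) where
  toFun f i := ⟨f.1 i, f.2 i⟩
  map_add' _ _ := rfl
  map_smul' _ _ := rfl
  invFun f := ⟨WithLp.toLp 2 fun i => (f i : L i), fun i => (f i).2⟩
  left_inv f := by
    ext
    rfl
  right_inv f := by
    ext
    rfl

theorem finrank_piSub {K : ∀ i, Submodule ℂ (L i)} [∀ i, FiniteDimensional ℂ (K i)] :
    Module.finrank ℂ (piSub K) = ∑ i, Module.finrank ℂ (K i) := by
  rw [(piSubEquiv K).finrank_eq, Module.finrank_pi_fintype]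

theorem finrank_piSub_one {K : ∀ i, Submodule ℂ (L i)}
    (h : ∀ i, Module.finrank ℂ (K i) = 1) :
    Module.finrank ℂ (piSub K) = Fintype.card ι := by
  have : ∀ i, FiniteDimensional ℂ (K i) := fun i =>
    FiniteDimensional.of_finrank_pos (by rw [h i]; exact one_pos)
  rw [finrank_piSub]
  simp [h]

end pi

/-! ## one channel -/

section sys

variable {N : ℕ} {F : Type} [NormedAddCommGroup F] [InnerProductSpace ℂ F]
  [FiniteDimensional ℂ F]

/-- The energy `∫ |φ|² + q_{g,1}(φ)`. -/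
def En (b : ColorBasis N) (M : FermionRep N F) (G : GammaNine) (g : ℝ) (φ : Cfg N → F) : ℝ :=
  (∫ x, ‖φ x‖ ^ 2) + qf b M G g 1 φ

/-- A system of trial states. -/
structure Sys (b : ColorBasis N) (M : FermionRep N F) (R : GaugeAction b M) (G : GammaNine)
    (L : Type) [NormedAddCommGroup L] [InnerProductSpace ℂ L] (X : Type) [AddCommGroup X]
    [Module ℂ X] where
  /-- the amplitudes as vectors -/
  e : X →ₗ[ℂ] L
  dense : DenseRange e
  /-- the limit charges -/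
  D : Fin 16 → X →ₗ[ℂ] X
  /-- the trial states -/
  T : ℝ → X → Cfg N → F
  core_T : ∀ g : ℝ, 0 < g → ∀ χ, IsCoreVec b R (T g χ)
  gram : ∀ χ χ', Tendsto (fun g : ℝ => ∫ x, ⟪T g χ x, T g χ' x⟫_ℂ) atTop (𝓝 ⟪e χ, e χ'⟫_ℂ)
  dual : ∀ (χ : X) (α : Fin 16) (ε : ℝ), 0 < ε → ∀ᶠ g : ℝ in atTop, ∀ φ : Cfg N → F,
    IsCoreVec b R φ →
    ‖∫ x, ⟪φ x, dcharge b M G g 1 α (T g χ) x - T g (D α χ) x⟫_ℂ‖ ≤ ε * √(En b M G g φ)
  far : ∀ χ, ∃ δ : ℝ, 0 < δ ∧ ∀ g : ℝ, 0 < g → ∀ x, ‖x‖ < δ → T g χ x = 0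
  /-- the zero modes of the limit charges -/
  K0 : Submodule ℂ L
  uniq : ∀ f : L, (∀ (χ : X) (α : Fin 16), ⟪f, e (D α χ)⟫_ℂ = 0) → f ∈ K0
  approx : ∀ f ∈ K0, ∃ χ : ℕ → X, Tendsto (fun n => e (χ n)) atTop (𝓝 f) ∧
    ∀ α, Tendsto (fun n => e (D α (χ n))) atTop (𝓝 0)

variable {b : ColorBasis N} {M : FermionRep N F} {R : GaugeAction b M} {G : GammaNine}

theorem core_cont {φ : Cfg N → F} (h : IsCoreVec b R φ) : Continuous φ := h.1.continuous

theorem core_inner_int {φ ψ : Cfg N → F} (hφ : IsCoreVec b R φ) (hψ : Continuous ψ) :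
    Integrable (fun x => ⟪φ x, ψ x⟫_ℂ) := by
  refine ((core_cont hφ).inner hψ).integrable_of_hasCompactSupport ?_
  refine hφ.2.1.mono fun x hx => ?_
  rw [Function.mem_support] at hx ⊢
  intro h
  exact hx (by simp [h])

theorem sum_core {κ : Type} (s : Finset κ) {f : κ → Cfg N → F}
    (h : ∀ i ∈ s, IsCoreVec b R (f i)) : IsCoreVec b R (fun x => ∑ i ∈ s, f i x) := by
  have h1 : (fun x => ∑ i ∈ s, f i x) = ∑ i ∈ s, f i := by
    funext x
    simp
  rw [h1]
  exact Submodule.sum_mem (core b R) h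

theorem dcharge_sum {κ : Type} (s : Finset κ) {f : κ → Cfg N → F}
    (h : ∀ i ∈ s, Differentiable ℝ (f i)) (g m : ℝ) (α : Fin 16) (x : Cfg N) :
    dcharge b M G g m α (fun x => ∑ i ∈ s, f i x) x = ∑ i ∈ s, dcharge b M G g m α (f i) x := by
  classical
  induction s using Finset.induction_on with
  | empty =>
    have h0 := dcharge_smul b M G g m α (0 : ℂ) (φ := (0 : Cfg N → F)) (by fun_prop)
    have h1 := congrFun h0 x
    have h2 : (fun x => ∑ i ∈ (∅ : Finset κ), f i x) = (0 : Cfg N → F) := by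
      funext y
      simp
    rw [h2, Finset.sum_empty]
    simpa using h1
  | insert i s hi ih =>
    have h1 : (fun x => ∑ j ∈ insert i s, f j x) = f i + fun x => ∑ j ∈ s, f j x := by
      funext y
      simp [Finset.sum_insert hi]
    rw [h1, dcharge_add b M G g m α (h i (Finset.mem_insert_self i s))
      (Differentiable.fun_sum fun j hj => h j (Finset.mem_insert_of_mem hj)),
      Finset.sum_insert hi]
    rw [← ih fun j hj => h j (Finset.mem_insert_of_mem hj)]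
    rfl

variable {ι : Type} [Fintype ι] {L X : ι → Type} [∀ i, NormedAddCommGroup (L i)]
  [∀ i, InnerProductSpace ℂ (L i)] [∀ i, AddCommGroup (X i)] [∀ i, Module ℂ (X i)]

/-- The amplitudes of the sum. -/
def eSum (S : ∀ i, Sys b M R G (L i) (X i)) : (∀ i, X i) →ₗ[ℂ] PiLp 2 L where
  toFun χ := WithLp.toLp 2 fun i => (S i).e (χ i)
  map_add' χ χ' := by
    ext i
    simp
  map_smul' c χ := by
    ext i
    simp

omit [Fintype ι] in
theorem eSum_apply (S : ∀ i, Sys b M R G (L i) (X i)) (χ : ∀ i, X i) (i : ι) :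
    eSum S χ i = (S i).e (χ i) := rfl

/-- The charges of the sum. -/
def DSum (S : ∀ i, Sys b M R G (L i) (X i)) (α : Fin 16) : (∀ i, X i) →ₗ[ℂ] (∀ i, X i) where
  toFun χ i := (S i).D α (χ i)
  map_add' χ χ' := by
    funext i
    simp
  map_smul' c χ := by
    funext i
    simp

/-- The trial states of the sum. -/
def TSum (S : ∀ i, Sys b M R G (L i) (X i)) (g : ℝ) (χ : ∀ i, X i) (x : Cfg N) : F :=
  ∑ i, (S i).T g (χ i) x

theorem core_TSum (S : ∀ i, Sys b M R G (L i) (X i)) {g : ℝ} (hg : 0 < g) (χ : ∀ i, X i) :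
    IsCoreVec b R (TSum S g χ) := sum_core _ fun i _ => (S i).core_T g hg (χ i)

theorem inner_TSum (S : ∀ i, Sys b M R G (L i) (X i)) {g : ℝ} (hg : 0 < g) (χ χ' : ∀ i, X i) :
    ∫ x, ⟪TSum S g χ x, TSum S g χ' x⟫_ℂ =
      ∑ i, ∑ j, ∫ x, ⟪(S i).T g (χ i) x, (S j).T g (χ' j) x⟫_ℂ := by
  have h1 : ∀ x, ⟪TSum S g χ x, TSum S g χ' x⟫_ℂ =
      ∑ i, ∑ j, ⟪(S i).T g (χ i) x, (S j).T g (χ' j) x⟫_ℂ := fun x => by
    simp only [TSum, sum_inner, inner_sum]
    exact Finset.sum_comm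
  simp only [h1]
  have h2 : ∀ i j, Integrable fun x => ⟪(S i).T g (χ i) x, (S j).T g (χ' j) x⟫_ℂ := fun i j =>
    core_inner_int ((S i).core_T g hg _) (core_cont ((S j).core_T g hg _))
  rw [integral_finsetSum _ fun i _ => integrable_finsetSum _ fun j _ => h2 i j]
  exact Finset.sum_congr rfl fun i _ => integral_finsetSum _ fun j _ => h2 i j

theorem gram_TSum (S : ∀ i, Sys b M R G (L i) (X i))
    (horth : ∀ i j, i ≠ j → ∀ χ χ', Tendsto (fun g : ℝ => ∫ x, ⟪(S i).T g χ x, (S j).T g χ' x⟫_ℂ)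
      atTop (𝓝 0)) (χ χ' : ∀ i, X i) :
    Tendsto (fun g : ℝ => ∫ x, ⟪TSum S g χ x, TSum S g χ' x⟫_ℂ) atTop
      (𝓝 ⟪eSum S χ, eSum S χ'⟫_ℂ) := by
  classical
  have h1 : ⟪eSum S χ, eSum S χ'⟫_ℂ =
      ∑ i, ∑ j, if i = j then ⟪(S i).e (χ i), (S i).e (χ' i)⟫_ℂ else 0 := by
    rw [PiLp.inner_apply]
    simp [eSum_apply]
  have h2 : Tendsto (fun g : ℝ => ∑ i, ∑ j, ∫ x, ⟪(S i).T g (χ i) x, (S j).T g (χ' j) x⟫_ℂ)
      atTop (𝓝 ⟪eSum S χ, eSum S χ'⟫_ℂ) := by
    rw [h1]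
    refine tendsto_finsetSum _ fun i _ => tendsto_finsetSum _ fun j _ => ?_
    by_cases hij : i = j
    · subst hij
      simpa using (S i).gram (χ i) (χ' i)
    · simpa [hij] using horth i j hij (χ i) (χ' j)
  refine h2.congr' ?_
  filter_upwards [eventually_gt_atTop 0] with g hg
  exact (inner_TSum S hg χ χ').symm

theorem dual_TSum (S : ∀ i, Sys b M R G (L i) (X i)) (χ : ∀ i, X i) (α : Fin 16) (ε : ℝ)
    (hε : 0 < ε) : ∀ᶠ g : ℝ in atTop, ∀ φ : Cfg N → F, IsCoreVec b R φ →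
      ‖∫ x, ⟪φ x, dcharge b M G g 1 α (TSum S g χ) x - TSum S g (DSum S α χ) x⟫_ℂ‖ ≤
        ε * √(En b M G g φ) := by
  have hc : (0 : ℝ) < Fintype.card ι + 1 := by positivity
  have h1 : ∀ i, ∀ᶠ g : ℝ in atTop, ∀ φ : Cfg N → F, IsCoreVec b R φ →
      ‖∫ x, ⟪φ x, dcharge b M G g 1 α ((S i).T g (χ i)) x - (S i).T g ((S i).D α (χ i)) x⟫_ℂ‖ ≤
        ε / (Fintype.card ι + 1) * √(En b M G g φ) := fun i => (S i).dual (χ i) α _ (by positivity)
  filter_upwards [eventually_all.2 h1, eventually_gt_atTop 0] with g hg hg0 φ hφ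
  have h2 : ∀ x, ⟪φ x, dcharge b M G g 1 α (TSum S g χ) x - TSum S g (DSum S α χ) x⟫_ℂ =
      ∑ i, ⟪φ x, dcharge b M G g 1 α ((S i).T g (χ i)) x - (S i).T g ((S i).D α (χ i)) x⟫_ℂ := by
    intro x
    have h3 : dcharge b M G g 1 α (TSum S g χ) x =
        ∑ i, dcharge b M G g 1 α ((S i).T g (χ i)) x :=
      dcharge_sum _ (fun i _ => cv_diff ((S i).core_T g hg0 (χ i))) g 1 α x
    rw [h3]
    change ⟪φ x, ∑ i, _ - ∑ i, (S i).T g ((S i).D α (χ i)) x⟫_ℂ = _
    rw [← Finset.sum_sub_distrib, inner_sum]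
  simp only [h2]
  have h4 : ∀ i, Integrable fun x => ⟪φ x, dcharge b M G g 1 α ((S i).T g (χ i)) x -
      (S i).T g ((S i).D α (χ i)) x⟫_ℂ := fun i => core_inner_int hφ
    ((continuous_dcharge b M G g 1 α (cv_c1 ((S i).core_T g hg0 (χ i)))).sub
      (core_cont ((S i).core_T g hg0 _)))
  rw [integral_finsetSum _ fun i _ => h4 i]
  have hs : 0 ≤ √(En b M G g φ) := Real.sqrt_nonneg _
  calc ‖∑ i, ∫ x, ⟪φ x, dcharge b M G g 1 α ((S i).T g (χ i)) x -
        (S i).T g ((S i).D α (χ i)) x⟫_ℂ‖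
      ≤ ∑ _i : ι, ε / (Fintype.card ι + 1) * √(En b M G g φ) :=
        (norm_sum_le _ _).trans (Finset.sum_le_sum fun i _ => hg i φ hφ)
    _ = (Fintype.card ι : ℝ) / (Fintype.card ι + 1) * (ε * √(En b M G g φ)) := by
        rw [Finset.sum_const, Finset.card_univ, nsmul_eq_mul]
        ring
    _ ≤ 1 * (ε * √(En b M G g φ)) := by
        refine mul_le_mul_of_nonneg_right ?_ (by positivity)
        rw [div_le_one hc]
        linarith
    _ = _ := one_mul _

theorem far_TSum (S : ∀ i, Sys b M R G (L i) (X i)) (χ : ∀ i, X i) :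
    ∃ δ : ℝ, 0 < δ ∧ ∀ g : ℝ, 0 < g → ∀ x, ‖x‖ < δ → TSum S g χ x = 0 := by
  have h1 : ∀ i, ∀ᶠ δ : ℝ in 𝓝[>] 0, ∀ g : ℝ, 0 < g → ∀ x, ‖x‖ < δ → (S i).T g (χ i) x = 0 := by
    intro i
    obtain ⟨δ₀, h0, h1⟩ := (S i).far (χ i)
    filter_upwards [Ioo_mem_nhdsGT h0] with δ hδ g hg x hx
    exact h1 g hg x (hx.trans hδ.2)
  obtain ⟨δ, h2, h3⟩ := ((eventually_all.2 h1).and self_mem_nhdsWithin).exists
  exact ⟨δ, h3, fun g hg x hx => Finset.sum_eq_zero fun i _ => h2 i g hg x hx⟩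

omit [Fintype ι] in
theorem dense_eSum (S : ∀ i, Sys b M R G (L i) (X i)) : DenseRange (eSum S) := by
  have h1 : DenseRange (Pi.map fun i => ((S i).e : X i → L i)) :=
    DenseRange.piMap fun i => (S i).dense
  have h2 : (eSum S : (∀ i, X i) → PiLp 2 L) =
      (PiLp.homeomorph 2 L).symm ∘ Pi.map fun i => ((S i).e : X i → L i) := rfl
  rw [h2]
  exact (PiLp.homeomorph 2 L).symm.surjective.denseRange.comp h1
    (PiLp.homeomorph 2 L).symm.continuous

theorem uniq_eSum (S : ∀ i, Sys b M R G (L i) (X i)) (f : PiLp 2 L)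
    (h : ∀ (χ : ∀ i, X i) (α : Fin 16), ⟪f, eSum S (DSum S α χ)⟫_ℂ = 0) :
    f ∈ piSub fun i => (S i).K0 := by
  classical
  intro i
  refine (S i).uniq (f i) fun χ α => ?_
  have h1 := h (Pi.single i χ) α
  rw [PiLp.inner_apply, Finset.sum_eq_single i] at h1
  · simpa [eSum_apply, DSum] using h1
  · intro j _ hj
    simp [eSum_apply, DSum, Pi.single_eq_of_ne hj]
  · intro hi
    exact absurd (Finset.mem_univ i) hi

omit [Fintype ι] in
theorem approx_eSum (S : ∀ i, Sys b M R G (L i) (X i)) (f : PiLp 2 L)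
    (hf : f ∈ piSub fun i => (S i).K0) : ∃ χ : ℕ → ∀ i, X i,
      Tendsto (fun n => eSum S (χ n)) atTop (𝓝 f) ∧
      ∀ α, Tendsto (fun n => eSum S (DSum S α (χ n))) atTop (𝓝 0) := by
  choose χ h1 h2 using fun i => (S i).approx (f i) (hf i)
  refine ⟨fun n i => χ i n, ?_, fun α => ?_⟩
  · rw [(PiLp.homeomorph 2 L).isInducing.tendsto_nhds_iff]
    exact tendsto_pi_nhds.2 h1
  · rw [(PiLp.homeomorph 2 L).isInducing.tendsto_nhds_iff]
    exact tendsto_pi_nhds.2 fun i => h2 i α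

/-- **The direct sum of systems.** -/
def Sys.sum (S : ∀ i, Sys b M R G (L i) (X i))
    (horth : ∀ i j, i ≠ j → ∀ χ χ', Tendsto (fun g : ℝ => ∫ x, ⟪(S i).T g χ x, (S j).T g χ' x⟫_ℂ)
      atTop (𝓝 0)) : Sys b M R G (PiLp 2 L) (∀ i, X i) where
  e := eSum S
  dense := dense_eSum S
  D := DSum S
  T := TSum S
  core_T _ hg χ := core_TSum S hg χ
  gram := gram_TSum S horth
  dual := dual_TSum S
  far := far_TSum S
  K0 := piSub fun i => (S i).K0
  uniq := uniq_eSum S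
  approx := approx_eSum S

theorem Sys.sum_finrank (S : ∀ i, Sys b M R G (L i) (X i))
    (horth : ∀ i j, i ≠ j → ∀ χ χ', Tendsto (fun g : ℝ => ∫ x, ⟪(S i).T g χ x, (S j).T g χ' x⟫_ℂ)
      atTop (𝓝 0)) (h : ∀ i, Module.finrank ℂ (S i).K0 = 1) :
    Module.finrank ℂ (Sys.sum S horth).K0 = Fintype.card ι := finrank_piSub_one h

end sys

end Crest.Agent.R330.ChSum718

end
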