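import Crest.Agent.R330.FreeFx2_122
import Crest.Agent.R330.FactG_161

/-!
# Row 330: the permutations of equal clusters on the amplitude space (helper879)

* `adC_cen`, `adC_stab`, `adC_orbit` : the adjoint action on the centre `C.cen`.
* `rho_gan`, `rho_mem_vacOf`, `rho_mem_Fx`, `rho_mem_Fl` : the light spaces are preserved.
* `ext_Fx` : two covariant maps which agree on the vacuum agree on `C.Fx`.
* `stab_fix` : the stabiliser of a regular configuration acts trivially on `C.Fx`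
  (the field `TPack.stab_fix`); `rho_orbit`.
* `UF : S →* (C.Fx M G ≃ₗᵢ[ℂ] C.Fx M G)`, `OF : S →* (Pos p ≃ₗᵢ[ℝ] Pos p)`, `UF_thx`, `UF_xi`.
* `oM`, `OF_eq`, `lift_UF`, `covA_UF`, `covB_UF` : the fields of `Chan566.Chan`.
-/

set_option autoImplicit false
set_option linter.unusedSectionVars false

noncomputable section

namespace Crest.Agent.R330.ChU879

open MeasureTheory Filter Topology Crest.MathPhysics.MatrixQM Crest.Agent.R330.IBP837
  Crest.Agent.R330.FreeC122 Crest.Agent.R330.Defs478 Crest.Agent.R330.Free122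
  Crest.Agent.R330.TDef414 Crest.Agent.R330.FactI161 Crest.Agent.R330.SInd478
  Crest.Agent.R330.LS839 Crest.Agent.R330.Bind6839 Crest.Agent.R330.TCore944
  Crest.Agent.R330.FreeFx122 Crest.Agent.R330.FreeQ122
open Crest.Agent.R330.Frame839 (kc)
open scoped ContDiff InnerProductSpace ENNReal

variable {N p : ℕ} {b : ColorBasis N} {S : Type} [Group S] [Fintype S] (C : Chn b p S)
  {F : Type*} [NormedAddCommGroup F] [InnerProductSpace ℂ F] [FiniteDimensional ℂ F]
  {M : FermionRep N F} (R : GaugeAction b M) (G : GammaNine)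

/-! ### the adjoint action on the centre -/

/-- the representatives act on the centre through `C.o` -/
theorem adC_cen (s : S) (t : EuclideanSpace ℝ (Fin p)) :
    adC b (C.w s) (C.cen t) = C.cen (C.o s t) := by
  have h := C.act_w s (mkp fun _ => t)
  have h1 := congrArg (fun x => comp x 0) h
  exact h1

/-- the centre is fixed by the stabiliser of a regular configuration -/
theorem adC_stab {h : Matrix.specialUnitaryGroup (Fin N) ℂ} {X : Pos p} (hX : C.Reg X)
    (hh : b.act h (C.cf X) = C.cf X) (t : EuclideanSpace ℝ (Fin p)) :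
    adC b h (C.cen t) = C.cen t := by
  have hX' : kc (actB b) (C.cf X) = C.kk := hX
  refine adC_cenk hh ⟨?_, fun v hv => ?_⟩
  · rw [hX']
    exact C.cen_mem t
  · rw [hX'] at hv
    have h1 := SlB314.cm_br b (C.cen t).ofLp v.ofLp
    have h2 : (colAlg b).br (C.cen t) v = 0 := C.cen_comm t v hv
    have h3 : SlA314.cm b ((colAlg b).br (C.cen t) v).ofLp = 0 := by
      rw [h2]
      have h4 := SlA314.cm_smul b 0 (0 : Fin (N ^ 2 - 1) → ℝ)
      simpa using h4
    have h5 : (-Complex.I) • (SlA314.cm b (C.cen t).ofLp * SlA314.cm b v.ofLp -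
        SlA314.cm b v.ofLp * SlA314.cm b (C.cen t).ofLp) = 0 := h1.symm.trans h3
    rcases smul_eq_zero.1 h5 with h6 | h6
    · simp at h6
    · exact (sub_eq_zero.1 h6).symm

theorem act_inv_of {h : Matrix.specialUnitaryGroup (Fin N) ℂ} {x y : Cfg N}
    (hh : b.act h x = y) : b.act h⁻¹ y = x := by
  rw [← hh, SlA314.act_inv_act]

/-- group elements which map a regular configuration to a regular configuration -/
theorem exists_orbit {h : Matrix.specialUnitaryGroup (Fin N) ℂ} {X X' : Pos p} (hX : C.Reg X)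
    (hX' : C.Reg X') (hh : b.act h (C.cf X) = C.cf X') :
    ∃ s, X' = C.O s X ∧ b.act ((C.w s)⁻¹ * h) (C.cf X) = C.cf X := by
  obtain ⟨s, hs⟩ := C.orbit X X' h hX hX' hh
  refine ⟨s, hs, ?_⟩
  have h1 : b.act ((C.w s)⁻¹ * h) (C.cf X) = b.act (C.w s)⁻¹ (b.act h (C.cf X)) :=
    SlA314.act_mul b _ _ _
  rw [h1, hh]
  refine act_inv_of ?_
  rw [hs]
  exact C.act_w s X

theorem adC_orbit {h : Matrix.specialUnitaryGroup (Fin N) ℂ} {X X' : Pos p} (hX : C.Reg X)
    (hX' : C.Reg X') (hh : b.act h (C.cf X) = C.cf X') :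
    ∃ s, X' = C.O s X ∧ ∀ t, adC b h (C.cen t) = C.cen (C.o s t) := by
  obtain ⟨s, hs, hk⟩ := exists_orbit C hX hX' hh
  refine ⟨s, hs, fun t => ?_⟩
  have h1 := adC_stab C hX hk t
  rw [adC_mul] at h1
  have h2 := congrArg (adC b (C.w s)) h1
  rwa [← adC_mul, mul_inv_cancel, adC_one, adC_cen] at h2

/-! ### the light spaces -/

theorem rho_gan (h : Matrix.specialUnitaryGroup (Fin N) ℂ) (α : Fin 16) (u : Colg N) (f : F) :
    R.ρ h (gan M G α u f) = gan M G α (adC b h u) (R.ρ h f) := by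
  unfold gan
  simp only [LinearMap.sub_apply, LinearMap.smul_apply, LinearMap.sum_apply, map_sub, map_smul,
    map_sum, rho_thv R]

theorem rho_mem_vacOf {h : Matrix.specialUnitaryGroup (Fin N) ℂ} {K : Submodule ℝ (Colg N)}
    (hK : ∀ u ∈ K, adC b h⁻¹ u ∈ K) {f : F} (hf : f ∈ vacOf M G K) :
    R.ρ h f ∈ vacOf M G K := by
  intro α u hu
  have h1 := rho_gan R G h α (adC b h⁻¹ u) f
  rw [← adC_mul, mul_inv_cancel, adC_one, hf α _ (hK u hu), map_zero] at h1
  exact h1.symm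

/-- if `Ad h` maps `K` into `K`, then `Ad h⁻¹` maps `Kᗮ` into `Kᗮ` -/
theorem adC_inv_orth {h : Matrix.specialUnitaryGroup (Fin N) ℂ} {K : Submodule ℝ (Colg N)}
    (hK : ∀ u ∈ K, adC b h u ∈ K) {u : Colg N} (hu : u ∈ Kᗮ) : adC b h⁻¹ u ∈ Kᗮ := by
  rw [Submodule.mem_orthogonal] at hu ⊢
  intro v hv
  have h1 := adC_inner (b := b) h v (adC b h⁻¹ u)
  rw [← adC_mul, mul_inv_cancel, adC_one] at h1
  rw [← h1]
  exact hu _ (hK v hv)

theorem rho_mem_Fx_of {h : Matrix.specialUnitaryGroup (Fin N) ℂ}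
    {τ : EuclideanSpace ℝ (Fin p) → EuclideanSpace ℝ (Fin p)}
    (hh : ∀ t, adC b h (C.cen t) = C.cen (τ t)) {f : F} (hf : f ∈ C.Fx M G) :
    R.ρ h f ∈ C.Fx M G := by
  refine rho_mem_vacOf R G (fun u hu => adC_inv_orth ?_ hu) hf
  rintro _ ⟨t, rfl⟩
  exact ⟨τ t, (hh t).symm⟩

theorem rho_mem_Fx (s : S) {f : F} (hf : f ∈ C.Fx M G) : R.ρ (C.w s) f ∈ C.Fx M G :=
  rho_mem_Fx_of C R G (adC_cen C s) hf

theorem rho_orbit_mem_Fx {h : Matrix.specialUnitaryGroup (Fin N) ℂ} {X X' : Pos p}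
    (hX : C.Reg X) (hX' : C.Reg X') (hh : b.act h (C.cf X) = C.cf X') {f : F}
    (hf : f ∈ C.Fx M G) : R.ρ h f ∈ C.Fx M G := by
  obtain ⟨s, -, hs⟩ := adC_orbit C hX hX' hh
  exact rho_mem_Fx_of C R G hs hf

theorem adC_kk {h : Matrix.specialUnitaryGroup (Fin N) ℂ} {X X' : Pos p}
    (hX : C.Reg X) (hX' : C.Reg X') (hh : b.act h (C.cf X) = C.cf X') {u : Colg N}
    (hu : u ∈ C.kk) : adC b h u ∈ C.kk := by
  have h1 : kc (actB b) (C.cf X) = C.kk := hX
  have h2 : kc (actB b) (C.cf X') = C.kk := hX'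
  rw [← h1, Frame839.mem_kc] at hu
  rw [← h2, Frame839.mem_kc]
  have h3 := act_actB (b := b) h u (C.cf X)
  rw [hu, hh] at h3
  rw [← h3]
  have h4 := SlA314.act_smul b h (0 : ℝ) (0 : Cfg N)
  simpa using h4

theorem rho_orbit_mem_Fl {h : Matrix.specialUnitaryGroup (Fin N) ℂ} {X X' : Pos p}
    (hX : C.Reg X) (hX' : C.Reg X') (hh : b.act h (C.cf X) = C.cf X') {f : F}
    (hf : f ∈ C.Fl M G) : R.ρ h f ∈ C.Fl M G :=
  rho_mem_vacOf R G (fun _ hu => adC_inv_orth (fun _ hv => adC_kk C hX hX' hh hv) hu) hf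

/-! ### rigidity on the amplitude space -/

/-- two covariant maps which agree on the vacuum agree on `C.Fx` -/
theorem ext_Fx [Nontrivial F] {A B : F →ₗ[ℂ] F}
    {τ : EuclideanSpace ℝ (Fin p) → EuclideanSpace ℝ (Fin p)}
    (hA : ∀ β t, ∀ f ∈ C.Fx M G, A (thv M β (C.cen t) f) = thv M β (C.cen (τ t)) (A f))
    (hB : ∀ β t, ∀ f ∈ C.Fx M G, B (thv M β (C.cen t) f) = thv M β (C.cen (τ t)) (B f))
    (hξ : ∀ Ω : F, IsGVac M G Ω → A Ω = B Ω) : ∀ f ∈ C.Fx M G, A f = B f := by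
  obtain ⟨ξ, h1, -, h3, -⟩ := exists_xi_fx C M G
  let W : Submodule ℂ (C.Fx M G) :=
    LinearMap.ker ((A - B) ∘ₗ (C.Fx M G).subtype)
  have hW : ∀ f : C.Fx M G, f ∈ W ↔ A (f : F) = B f := fun f => by
    rw [LinearMap.mem_ker]
    exact sub_eq_zero
  have hinv : ∀ α a, ∀ v ∈ W, (fxLight C M G).θ α a v ∈ W := fun α a v hv => by
    rw [hW] at hv ⊢
    have e1 := hA α (EuclideanSpace.single a 1) v v.2
    have e2 := hB α (EuclideanSpace.single a 1) v v.2
    rw [fxLight_θ, thx_coe, e1, e2, hv]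
  rcases (fxLight C M G).irr W hinv with h | h
  · exfalso
    have h5 : ξ ∈ W := (hW ξ).2 (hξ _ h3)
    rw [h, Submodule.mem_bot] at h5
    rw [h5, norm_zero] at h1
    exact zero_ne_one h1
  · intro f hf
    have h5 : (⟨f, hf⟩ : C.Fx M G) ∈ W := by
      rw [h]
      trivial
    exact (hW _).1 h5

/-- **The stabiliser of a regular configuration acts trivially on the amplitude space**
(`TPack.stab_fix`). -/
theorem stab_fix [Nontrivial F] {h : Matrix.specialUnitaryGroup (Fin N) ℂ} {X : Pos p}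
    (hX : C.Reg X) (hh : b.act h (C.cf X) = C.cf X) : ∀ f ∈ C.Fx M G, R.ρ h f = f := by
  refine ext_Fx C G (A := R.ρ h) (B := LinearMap.id) (τ := id) (fun β t f _ => ?_)
    (fun β t f _ => rfl) fun Ω hΩ => rho_gvac R hΩ h
  rw [rho_thv, adC_stab C hX hh]
  rfl

/-- on the amplitude space a group element which maps a regular configuration to a regular
configuration acts as a representative -/
theorem rho_orbit [Nontrivial F] {h : Matrix.specialUnitaryGroup (Fin N) ℂ} {X X' : Pos p}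
    (hX : C.Reg X) (hX' : C.Reg X') (hh : b.act h (C.cf X) = C.cf X') :
    ∃ s, X' = C.O s X ∧ ∀ f ∈ C.Fx M G, R.ρ h f = R.ρ (C.w s) f := by
  obtain ⟨s, hs, hk⟩ := adC_orbit C hX hX' hh
  refine ⟨s, hs, ext_Fx C G (τ := C.o s) (fun β t f _ => ?_) (fun β t f _ => ?_) fun Ω hΩ => ?_⟩
  · rw [rho_thv, hk]
  · rw [rho_thv, adC_cen]
  · rw [rho_gvac R hΩ, rho_gvac R hΩ]

theorem rho_one [Nontrivial F] {f : F} (hf : f ∈ C.Fx M G) : R.ρ (C.w 1) f = f := by
  refine ext_Fx C G (A := R.ρ (C.w 1)) (B := LinearMap.id) (τ := id) (fun β t f _ => ?_)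
    (fun β t f _ => rfl) (fun Ω hΩ => rho_gvac R hΩ _) f hf
  rw [rho_thv, adC_cen, map_one]
  rfl

theorem rho_mul [Nontrivial F] (s s' : S) {f : F} (hf : f ∈ C.Fx M G) :
    R.ρ (C.w (s * s')) f = R.ρ (C.w s) (R.ρ (C.w s') f) := by
  refine ext_Fx C G (A := R.ρ (C.w (s * s'))) (B := R.ρ (C.w s) ∘ₗ R.ρ (C.w s'))
    (τ := C.o (s * s')) (fun β t f _ => ?_) (fun β t f _ => ?_) (fun Ω hΩ => ?_) f hf
  · rw [rho_thv, adC_cen]
  · rw [LinearMap.comp_apply, rho_thv, rho_thv, adC_cen, adC_cen, map_mul]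
    rfl
  · rw [LinearMap.comp_apply, rho_gvac R hΩ, rho_gvac R hΩ, rho_gvac R hΩ]

/-! ### the two homomorphisms -/

/-- the unitary of a permutation on the amplitude space -/
def uf [Nontrivial F] (s : S) : C.Fx M G ≃ₗᵢ[ℂ] C.Fx M G where
  toFun f := ⟨R.ρ (C.w s) f, rho_mem_Fx C R G s f.2⟩
  map_add' f f' := Subtype.ext (map_add _ _ _)
  map_smul' c f := Subtype.ext (map_smul _ _ _)
  invFun f := ⟨R.ρ (C.w s⁻¹) f, rho_mem_Fx C R G s⁻¹ f.2⟩
  left_inv f := Subtype.ext (by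
    change R.ρ (C.w s⁻¹) (R.ρ (C.w s) f) = f
    rw [← rho_mul C R G _ _ f.2, inv_mul_cancel, rho_one C R G f.2])
  right_inv f := Subtype.ext (by
    change R.ρ (C.w s) (R.ρ (C.w s⁻¹) f) = f
    rw [← rho_mul C R G _ _ f.2, mul_inv_cancel, rho_one C R G f.2])
  norm_map' f := by
    change ‖R.ρ (C.w s) f‖ = ‖(f : F)‖
    have h1 := R.unitary (C.w s) (f : F) f
    have h2 : ‖R.ρ (C.w s) f‖ ^ 2 = ‖(f : F)‖ ^ 2 := by
      have h3 := inner_self_eq_norm_sq_to_K (𝕜 := ℂ) (R.ρ (C.w s) f)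
      have h4 := inner_self_eq_norm_sq_to_K (𝕜 := ℂ) (f : F)
      rw [h1, h4] at h3
      exact_mod_cast h3.symm
    exact (sq_eq_sq₀ (norm_nonneg _) (norm_nonneg _)).1 h2

/-- **The permutations of equal clusters on the amplitude space.** -/
def UF [Nontrivial F] : S →* (C.Fx M G ≃ₗᵢ[ℂ] C.Fx M G) where
  toFun := uf C R G
  map_one' := by
    ext f
    exact rho_one C R G f.2
  map_mul' s s' := by
    ext f
    exact rho_mul C R G s s' f.2

theorem UF_coe [Nontrivial F] (s : S) (f : C.Fx M G) :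
    ((UF C R G s f : C.Fx M G) : F) = R.ρ (C.w s) f := rfl

/-- **The permutations of equal clusters on the positions.** -/
def OF : S →* (Pos p ≃ₗᵢ[ℝ] Pos p) where
  toFun s := C.O s
  map_one' := by
    ext X q
    change (C.o 1 (pcomp X q.1)) q.2 = X q
    rw [map_one]
    rfl
  map_mul' s s' := by
    ext X q
    change (C.o (s * s') (pcomp X q.1)) q.2 = (C.o s (pcomp (C.O s' X) q.1)) q.2
    rw [map_mul]
    rfl

theorem OF_apply (s : S) (X : Pos p) : OF C s X = C.O s X := rfl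

theorem UF_thx [Nontrivial F] (s : S) (β : Fin 16) (t : EuclideanSpace ℝ (Fin p))
    (f : C.Fx M G) : UF C R G s (C.thx M G β t f) = C.thx M G β (C.o s t) (UF C R G s f) := by
  apply Subtype.ext
  rw [UF_coe, thx_coe, thx_coe, UF_coe, rho_thv, adC_cen]

/-- the vacuum is fixed -/
theorem UF_xi [Nontrivial F] (s : S) {e : C.Fx M G} (he : LVac (fxLight C M G) G e) :
    UF C R G s e = e := Subtype.ext (rho_xi C M G R he _)

/-! ### the fields of the limit channel -/

/-- the matrix of a permutation -/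
def oM (s : S) : Matrix (Fin p) (Fin p) ℝ := fun a c => C.o s (EuclideanSpace.single c 1) a

theorem o_apply (s : S) (t : EuclideanSpace ℝ (Fin p)) (a : Fin p) :
    C.o s t a = ∑ c, oM C s a c * t c := by
  have ht : t = ∑ c, (t c) • EuclideanSpace.single c (1 : ℝ) := by
    ext r
    simp only [WithLp.ofLp_sum, Finset.sum_apply, WithLp.ofLp_smul, Pi.smul_apply, smul_eq_mul]
    rw [Finset.sum_eq_single r]
    · simp
    · intro c _ hc
      simp [Ne.symm hc]
    · simp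
  conv_lhs => rw [ht]
  rw [map_sum]
  simp only [map_smul, WithLp.ofLp_sum, Finset.sum_apply, WithLp.ofLp_smul, Pi.smul_apply,
    smul_eq_mul]
  exact Finset.sum_congr rfl fun c _ => mul_comm _ _

theorem oM_orth (s : S) : (oM C s).transpose * oM C s = 1 := by
  ext a c
  rw [Matrix.mul_apply]
  have h1 := (C.o s).inner_map_map (EuclideanSpace.single c (1 : ℝ))
    (EuclideanSpace.single a (1 : ℝ))
  rw [PiLp.inner_apply] at h1
  have h2 : ⟪(EuclideanSpace.single c (1 : ℝ) : EuclideanSpace ℝ (Fin p)),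
      EuclideanSpace.single a 1⟫_ℝ = (1 : Matrix (Fin p) (Fin p) ℝ) a c := by
    rw [EuclideanSpace.inner_single_left, Matrix.one_apply]
    by_cases hac : a = c
    · subst hac
      simp
    · simp [hac, Ne.symm hac]
  rw [h2] at h1
  rw [← h1]
  exact Finset.sum_congr rfl fun r _ => rfl

theorem OF_eq (s : S) : OF C s = isoO (oM C s) (oM_orth C s) := by
  ext X q
  rw [isoO_apply, OF_apply]
  change C.o s (pcomp X q.1) q.2 = _
  rw [o_apply]
  rfl

/-- 122's lift -/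
theorem lift_UF [Nontrivial F] (s : S) : Lift (fxLight C M G) (oM C s) (UF C R G s) where
  orth := oM_orth C s
  cov α a v := by
    rw [fxLight_θ, UF_thx]
    apply Subtype.ext
    rw [thx_coe, thv_cen, Submodule.coe_sum]
    refine Finset.sum_congr rfl fun c _ => ?_
    rw [Submodule.coe_smul, fxLight_θ, thx_coe]
    rfl

/-- `Chan566.Chan.covA` -/
theorem covA_UF [Nontrivial F] (m : ℝ) (α : Fin 16) (s : S)
    (ℓ : Pos p →L[ℝ] C.Fx M G) :
    (freeFOp (fxLight C M G) G m α).A (Chan566.ul (UF C R G s) ∘L ℓ ∘L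
      ((OF C s⁻¹ : Pos p ≃ₗᵢ[ℝ] Pos p) : Pos p →L[ℝ] Pos p)) =
      UF C R G s ((freeFOp (fxLight C M G) G m α).A ℓ) := by
  have h1 := covA G (lift_UF C R G s) m α ℓ
  have h2 : (OF C s⁻¹ : Pos p ≃ₗᵢ[ℝ] Pos p) = (isoO (oM C s) (oM_orth C s)).symm := by
    rw [map_inv, OF_eq]
    rfl
  rw [h2]
  exact h1

/-- `Chan566.Chan.covB` -/
theorem covB_UF [Nontrivial F] (m : ℝ) (α : Fin 16) (s : S) (X : Pos p) (v : C.Fx M G) :
    (freeFOp (fxLight C M G) G m α).B (OF C s X) (UF C R G s v) =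
      UF C R G s ((freeFOp (fxLight C M G) G m α).B X v) := by
  rw [OF_eq]
  exact covB G (lift_UF C R G s) m α X v

end Crest.Agent.R330.ChU879
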