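import Crest.Agent.R330.FreeFx_122
import Crest.Agent.R330.FactG_161

/-!
Row 330 (helper122): the vacuum line of the amplitude space `C.Fx M G`, invariant under the gauge
group.
-/

set_option autoImplicit false
set_option linter.unusedSectionVars false

noncomputable section

namespace Crest.Agent.R330.FreeFx122

open MeasureTheory Filter Topology Crest.MathPhysics.MatrixQM Crest.Agent.R330.IBP837
  Crest.Agent.R330.FreeC122 Crest.Agent.R330.Defs478 Crest.Agent.R330.Free122
  Crest.Agent.R330.TDef414 Crest.Agent.R330.FactI161 Crest.Agent.R330.SInd478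
open scoped ContDiff InnerProductSpace ENNReal

variable {N p : ℕ} {b : ColorBasis N} {S : Type} [Group S] [Fintype S] (C : Chn b p S)
  {F : Type*} [NormedAddCommGroup F] [InnerProductSpace ℂ F] [FiniteDimensional ℂ F]
  (M : FermionRep N F) (G : GammaNine)

theorem nontrivial_Fx [Nontrivial F] : Nontrivial (C.Fx M G) := by
  obtain ⟨Ω, h1, hΩ⟩ := FactI161.exists_gvac M G
  refine ⟨⟨⟨Ω, isGVac_mem_Fx C M G hΩ⟩, 0, fun h => ?_⟩⟩
  have h2 : Ω = 0 := congrArg Subtype.val h
  rw [h2, norm_zero] at h1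
  exact zero_ne_one h1

/-- **the vacuum line of the amplitude space** -/
theorem exists_xi_fx [Nontrivial F] : ∃ ξ : C.Fx M G, ‖ξ‖ = 1 ∧ LVac (fxLight C M G) G ξ ∧
    IsGVac M G (ξ : F) ∧ ∀ e, LVac (fxLight C M G) G e → e = ⟪ξ, e⟫_ℂ • ξ := by
  have := nontrivial_Fx C M G
  obtain ⟨ξ, h1, h2, h3⟩ := Free122.exists_xi (L := fxLight C M G) (G := G)
  exact ⟨ξ, h1, h2, (LVac_iff_isGVac C M G ξ).1 h2, h3⟩

/-- the vacua of the amplitude space are gauge invariant -/
theorem rho_xi (R : GaugeAction b M) {e : C.Fx M G} (he : LVac (fxLight C M G) G e)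
    (g : Matrix.specialUnitaryGroup (Fin N) ℂ) : R.ρ g (e : F) = e :=
  FactI161.rho_gvac R ((LVac_iff_isGVac C M G e).1 he) g

end Crest.Agent.R330.FreeFx122
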