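import Mathlib
import Crest.Agent.R330.Free_122
import Crest.Agent.R330.Chan_566

/-!
Row 330 (helper122): the free charges as first order expressions (`FOp` of 596), covariance under
the symmetries of the positions, squares of the massless charges.
-/

set_option autoImplicit false
set_option linter.unusedSectionVars false

noncomputable section

namespace Crest.Agent.R330.FreeQ122

open MeasureTheory Filter Topology Crest.MathPhysics.MatrixQM Crest.Agent.R330.IBP837
  Crest.Agent.R330.FreeB122 Crest.Agent.R330.FreeC122 Crest.Agent.R330.FreeD122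
  Crest.Agent.R330.FreeE122 Crest.Agent.R330.Defs478 Crest.Agent.R330.Free122
  Crest.Agent.R330.WS596
open scoped ContDiff InnerProductSpace ENNReal

variable {p : ℕ} {F : Type*} [NormedAddCommGroup F] [InnerProductSpace ℂ F]
  [FiniteDimensional ℂ F] (L : Light p F) (G : GammaNine)

/-- a complex linear map of the finite dimensional space as a real continuous linear map -/
def rl (T : F →ₗ[ℂ] F) : F →L[ℝ] F := (LinearMap.toContinuousLinearMap T).restrictScalars ℝ

@[simp] theorem rl_apply (T : F →ₗ[ℂ] F) (v : F) : rl T v = T v := rfl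

/-- the kinetic symbol of the charge -/
def kA (α : Fin 16) (k : Fin 9 × Fin p) : F →ₗ[ℂ] F :=
  ∑ β, (-Complex.I * (G.γ k.1 α β : ℂ)) • L.θ β k.2

/-- the potential matrices of the charge -/
def pV (m : ℝ) (α : Fin 16) (k : Fin 9 × Fin p) : F →ₗ[ℂ] F :=
  ∑ β, ((-(m * cc k.1 * (Gam G * G.γ k.1) α β) : ℝ) : ℂ) • L.θ β k.2

/-- the free charge as a first order expression -/
def freeFOp (m : ℝ) (α : Fin 16) : FOp (EuclideanSpace ℝ (Fin 9 × Fin p)) F where
  A := ∑ k : Fin 9 × Fin p, (rl (kA L G α k)) ∘L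
    (ContinuousLinearMap.apply ℝ F (EuclideanSpace.single k (1 : ℝ)))
  B x := ∑ k : Fin 9 × Fin p, (x k) • rl (pV L G m α k)
  contB := by
    refine continuous_finsetSum _ fun k _ => ?_
    exact ((EuclideanSpace.proj (𝕜 := ℝ) k).continuous).smul continuous_const

theorem freeFOp_A (m : ℝ) (α : Fin 16) (ℓ : EuclideanSpace ℝ (Fin 9 × Fin p) →L[ℝ] F) :
    (freeFOp L G m α).A ℓ = ∑ k, kA L G α k (ℓ (EuclideanSpace.single k 1)) := by
  simp [freeFOp]

theorem freeFOp_B (m : ℝ) (α : Fin 16) (x : EuclideanSpace ℝ (Fin 9 × Fin p)) (v : F) :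
    (freeFOp L G m α).B x v = ∑ k, ((x k : ℝ) : ℂ) • pV L G m α k v := by
  simp [freeFOp]

theorem freeFOp_op (m : ℝ) (α : Fin 16) (φ : EuclideanSpace ℝ (Fin 9 × Fin p) → F)
    (x : EuclideanSpace ℝ (Fin 9 × Fin p)) :
    (freeFOp L G m α).op φ x = freeD L G m α φ x := by
  unfold FOp.op freeD
  rw [freeFOp_A, freeFOp_B]
  congr 1
  · rw [Fintype.sum_prod_type]
    refine Finset.sum_congr rfl fun i _ => Finset.sum_congr rfl fun A _ => ?_
    simp only [kA, LinearMap.sum_apply, LinearMap.smul_apply]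
  · rw [Fintype.sum_prod_type_right]
    refine Finset.sum_congr rfl fun A _ => ?_
    simp only [pV, LinearMap.sum_apply, LinearMap.smul_apply, Finset.smul_sum, smul_smul]
    rw [Finset.sum_comm]
    refine Finset.sum_congr rfl fun β _ => ?_
    rw [← Finset.sum_smul]
    congr 1
    rw [Finset.mul_sum, ← Finset.sum_neg_distrib]
    push_cast
    refine Finset.sum_congr rfl fun j _ => ?_
    ring

theorem freeFOp_smooth (m : ℝ) (α : Fin 16) : ContDiff ℝ ∞ (freeFOp L G m α).B := by
  show ContDiff ℝ ∞ fun x : EuclideanSpace ℝ (Fin 9 × Fin p) => ∑ k, (x k) • rl (pV L G m α k)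
  apply ContDiff.sum
  intro k _
  exact ((EuclideanSpace.proj (𝕜 := ℝ) k).contDiff).smul contDiff_const

theorem freeFOp_Ac (m : ℝ) (α : Fin 16) (c : ℂ)
    (ℓ : EuclideanSpace ℝ (Fin 9 × Fin p) →L[ℝ] F) :
    (freeFOp L G m α).A (c • ℓ) = c • (freeFOp L G m α).A ℓ := by
  rw [freeFOp_A, freeFOp_A, Finset.smul_sum]
  refine Finset.sum_congr rfl fun k _ => ?_
  rw [_root_.smul_apply, map_smul]

theorem freeFOp_Bc (m : ℝ) (α : Fin 16) (x : EuclideanSpace ℝ (Fin 9 × Fin p)) (c : ℂ) (v : F) :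
    (freeFOp L G m α).B x (c • v) = c • (freeFOp L G m α).B x v := by
  rw [freeFOp_B, freeFOp_B, Finset.smul_sum]
  refine Finset.sum_congr rfl fun k _ => ?_
  rw [map_smul, smul_comm]

/-! ### symmetries -/

/-- a symmetry of the positions with its lift to the fermions -/
structure Lift (L : Light p F) (O : Matrix (Fin p) (Fin p) ℝ) (U : F ≃ₗᵢ[ℂ] F) : Prop where
  orth : O.transpose * O = 1
  cov : ∀ α a v, U (L.θ α a v) = ∑ b, ((O b a : ℝ) : ℂ) • L.θ α b (U v)

variable {L}

theorem Lift.orth' {O : Matrix (Fin p) (Fin p) ℝ} {U : F ≃ₗᵢ[ℂ] F} (h : Lift L O U) :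
    O * O.transpose = 1 := mul_eq_one_comm.mp h.orth

/-- the isometry `(x_j^a) ↦ (Σ_b O_ab x_j^b)` -/
def isoO (O : Matrix (Fin p) (Fin p) ℝ) (h : O.transpose * O = 1) :
    EuclideanSpace ℝ (Fin 9 × Fin p) ≃ₗᵢ[ℝ] EuclideanSpace ℝ (Fin 9 × Fin p) := by
  have h' : O * O.transpose = 1 := mul_eq_one_comm.mp h
  have key : ∀ (P Q : Matrix (Fin p) (Fin p) ℝ), Q * P = 1 →
      ∀ (x : EuclideanSpace ℝ (Fin 9 × Fin p)) (q : Fin 9 × Fin p),
      ∑ b, Q q.2 b * ∑ c, P b c * x (q.1, c) = x q := by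
    intro P Q hQP x q
    simp only [Finset.mul_sum]
    rw [Finset.sum_comm]
    have e : ∀ c, ∑ b, Q q.2 b * (P b c * x (q.1, c)) = (Q * P) q.2 c * x (q.1, c) := by
      intro c
      rw [Matrix.mul_apply, Finset.sum_mul]
      exact Finset.sum_congr rfl fun b _ => by ring
    simp only [e, hQP]
    simp [Matrix.one_apply, Finset.sum_ite_eq]
  exact
  { toLinearEquiv :=
    { toFun := fun x => WithLp.toLp 2 fun q => ∑ b, O q.2 b * x (q.1, b)
      map_add' := fun x y => by
        ext q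
        simp [mul_add, Finset.sum_add_distrib]
      map_smul' := fun r x => by
        ext q
        simp only [PiLp.smul_apply, smul_eq_mul, RingHom.id_apply, Finset.mul_sum]
        exact Finset.sum_congr rfl fun α _ => by ring
      invFun := fun x => WithLp.toLp 2 fun q => ∑ b, O.transpose q.2 b * x (q.1, b)
      left_inv := fun x => by
        ext q
        exact key O O.transpose h x q
      right_inv := fun x => by
        ext q
        exact key O.transpose O h' x q }
    norm_map' := fun x => by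
      rw [EuclideanSpace.norm_eq, EuclideanSpace.norm_eq]
      congr 1
      simp only [Real.norm_eq_abs, sq_abs]
      rw [Fintype.sum_prod_type, Fintype.sum_prod_type]
      refine Finset.sum_congr rfl fun j _ => ?_
      show ∑ a, (∑ b, O a b * x (j, b)) ^ 2 = ∑ a, x (j, a) ^ 2
      have e1 : ∀ a, (∑ b, O a b * x (j, b)) ^ 2 =
          ∑ b, ∑ c, (O a b * O a c) * (x (j, b) * x (j, c)) := by
        intro a
        rw [sq, Finset.sum_mul_sum]
        exact Finset.sum_congr rfl fun b _ => Finset.sum_congr rfl fun c _ => by ring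
      simp only [e1]
      rw [Finset.sum_comm]
      refine Finset.sum_congr rfl fun b _ => ?_
      rw [Finset.sum_comm]
      have e2 : ∀ c, ∑ a, O a b * O a c * (x (j, b) * x (j, c)) =
          (O.transpose * O) b c * (x (j, b) * x (j, c)) := by
        intro c
        rw [Matrix.mul_apply, Finset.sum_mul]
        rfl
      simp only [e2, h]
      simp [Matrix.one_apply, Finset.sum_ite_eq, sq] }

theorem isoO_apply (O : Matrix (Fin p) (Fin p) ℝ) (h : O.transpose * O = 1)
    (x : EuclideanSpace ℝ (Fin 9 × Fin p)) (q : Fin 9 × Fin p) :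
    isoO O h x q = ∑ b, O q.2 b * x (q.1, b) := rfl

theorem isoO_symm_apply (O : Matrix (Fin p) (Fin p) ℝ) (h : O.transpose * O = 1)
    (x : EuclideanSpace ℝ (Fin 9 × Fin p)) (q : Fin 9 × Fin p) :
    (isoO O h).symm x q = ∑ b, O b q.2 * x (q.1, b) := rfl

theorem isoO_symm_single (O : Matrix (Fin p) (Fin p) ℝ) (h : O.transpose * O = 1)
    (j : Fin 9) (a : Fin p) :
    (isoO O h).symm (EuclideanSpace.single (j, a) 1) =
      ∑ b, O a b • EuclideanSpace.single (j, b) (1 : ℝ) := by
  ext q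
  rw [isoO_symm_apply]
  simp only [WithLp.ofLp_sum, Finset.sum_apply, WithLp.ofLp_smul, Pi.smul_apply, smul_eq_mul]
  obtain ⟨i, c⟩ := q
  by_cases hi : i = j
  · subst hi
    rw [Finset.sum_eq_single a, Finset.sum_eq_single c]
    · simp
    · intro b _ hb
      simp [Ne.symm hb]
    · simp
    · intro b _ hb
      simp [hb]
    · simp
  · have h1 : ∀ b c' : Fin p, (EuclideanSpace.single (j, b) (1 : ℝ) :
        EuclideanSpace ℝ (Fin 9 × Fin p)) (i, c') = 0 := by
      intro b c'
      simp [hi]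
    simp [hi]

/-- covariance of the kinetic part -/
theorem covA {O : Matrix (Fin p) (Fin p) ℝ} {U : F ≃ₗᵢ[ℂ] F} (h : Lift L O U) (m : ℝ)
    (α : Fin 16) (ℓ : EuclideanSpace ℝ (Fin 9 × Fin p) →L[ℝ] F) :
    (freeFOp L G m α).A (Chan566.ul U ∘L ℓ ∘L
      (((isoO O h.orth).symm : EuclideanSpace ℝ (Fin 9 × Fin p) ≃ₗᵢ[ℝ] _) :
        EuclideanSpace ℝ (Fin 9 × Fin p) →L[ℝ] EuclideanSpace ℝ (Fin 9 × Fin p))) =
      U ((freeFOp L G m α).A ℓ) := by
  rw [freeFOp_A, freeFOp_A, map_sum, Fintype.sum_prod_type, Fintype.sum_prod_type]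
  refine Finset.sum_congr rfl fun j _ => ?_
  have h1 : ∀ a, kA L G α (j, a) ((Chan566.ul U ∘L ℓ ∘L
      (((isoO O h.orth).symm : EuclideanSpace ℝ (Fin 9 × Fin p) ≃ₗᵢ[ℝ] _) :
        EuclideanSpace ℝ (Fin 9 × Fin p) →L[ℝ] EuclideanSpace ℝ (Fin 9 × Fin p)))
          (EuclideanSpace.single (j, a) 1)) =
      ∑ b, ((O a b : ℝ) : ℂ) • kA L G α (j, a) (U (ℓ (EuclideanSpace.single (j, b) 1))) := by
    intro a
    have e : (Chan566.ul U ∘L ℓ ∘L
      (((isoO O h.orth).symm : EuclideanSpace ℝ (Fin 9 × Fin p) ≃ₗᵢ[ℝ] _) :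
        EuclideanSpace ℝ (Fin 9 × Fin p) →L[ℝ] EuclideanSpace ℝ (Fin 9 × Fin p)))
          (EuclideanSpace.single (j, a) 1) = U (ℓ ((isoO O h.orth).symm
            (EuclideanSpace.single (j, a) 1))) := rfl
    rw [e, isoO_symm_single, map_sum, map_sum, map_sum]
    refine Finset.sum_congr rfl fun b _ => ?_
    rw [map_smul, ← Complex.coe_smul, map_smul, map_smul]
  have h2 : ∀ b, U (kA L G α (j, b) (ℓ (EuclideanSpace.single (j, b) 1))) =
      ∑ a, ((O a b : ℝ) : ℂ) • kA L G α (j, a) (U (ℓ (EuclideanSpace.single (j, b) 1))) := by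
    intro b
    simp only [kA, LinearMap.sum_apply, LinearMap.smul_apply, map_sum, map_smul, h.cov,
      Finset.smul_sum]
    rw [Finset.sum_comm]
    refine Finset.sum_congr rfl fun a _ => Finset.sum_congr rfl fun β _ => ?_
    rw [smul_comm]
  simp only [h1, h2]
  rw [Finset.sum_comm]

/-- covariance of the potential part -/
theorem covB {O : Matrix (Fin p) (Fin p) ℝ} {U : F ≃ₗᵢ[ℂ] F} (h : Lift L O U) (m : ℝ)
    (α : Fin 16) (x : EuclideanSpace ℝ (Fin 9 × Fin p)) (v : F) :
    (freeFOp L G m α).B (isoO O h.orth x) (U v) = U ((freeFOp L G m α).B x v) := by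
  rw [freeFOp_B, freeFOp_B, map_sum, Fintype.sum_prod_type, Fintype.sum_prod_type]
  refine Finset.sum_congr rfl fun j _ => ?_
  have h2 : ∀ b, U (((x (j, b) : ℝ) : ℂ) • pV L G m α (j, b) v) =
      ∑ a, ((O a b * x (j, b) : ℝ) : ℂ) • pV L G m α (j, a) (U v) := by
    intro b
    simp only [pV, LinearMap.sum_apply, LinearMap.smul_apply, map_sum, map_smul, h.cov,
      Finset.smul_sum]
    rw [Finset.sum_comm]
    refine Finset.sum_congr rfl fun a _ => Finset.sum_congr rfl fun β _ => ?_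
    simp only [smul_smul]
    congr 1
    push_cast
    ring
  simp only [h2, isoO_apply]
  rw [Finset.sum_comm]
  refine Finset.sum_congr rfl fun a _ => ?_
  rw [← Finset.sum_smul]
  push_cast
  rfl

/-- the vacuum line is preserved -/
theorem Lift.LVac {O : Matrix (Fin p) (Fin p) ℝ} {U : F ≃ₗᵢ[ℂ] F} (h : Lift L O U) {e : F}
    (he : LVac L G e) : LVac L G (U e) := by
  -- `θ_α^a (U e) = Σ_b O_ab U (θ_α^b e)`
  have key : ∀ α a v, L.θ α a (U v) = ∑ b, ((O a b : ℝ) : ℂ) • U (L.θ α b v) := by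
    intro α a v
    simp only [h.cov, Finset.smul_sum, smul_smul]
    rw [Finset.sum_comm]
    have e1 : ∀ c, ∑ b, (((O a b : ℝ) : ℂ) * ((O c b : ℝ) : ℂ)) • L.θ α c (U v) =
        (((O * O.transpose) a c : ℝ) : ℂ) • L.θ α c (U v) := by
      intro c
      rw [← Finset.sum_smul, Matrix.mul_apply]
      push_cast
      rfl
    simp only [e1, h.orth']
    simp [Matrix.one_apply, Finset.sum_ite_eq]
  intro α A
  rw [key]
  have h1 : ∀ b, U (L.θ α b e) = Complex.I • ∑ β, ((Gam G β α : ℝ) : ℂ) • U (L.θ β b e) := by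
    intro b
    conv_lhs => rw [he α b]
    rw [map_smul, map_sum]
    simp only [map_smul]
  have h2 : ∑ b, ((O A b : ℝ) : ℂ) • U (L.θ α b e) =
      Complex.I • ∑ β, ((Gam G β α : ℝ) : ℂ) • ∑ b, ((O A b : ℝ) : ℂ) • U (L.θ β b e) := by
    simp only [h1]
    simp only [Finset.smul_sum, smul_smul]
    rw [Finset.sum_comm]
    refine Finset.sum_congr rfl fun β _ => Finset.sum_congr rfl fun b _ => ?_
    congr 1
    ring
  rw [h2]
  simp only [key]

/-- the Gaussian is invariant -/
theorem gs_isoO (O : Matrix (Fin p) (Fin p) ℝ) (h : O.transpose * O = 1) (m : ℝ)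
    (x : EuclideanSpace ℝ (Fin 9 × Fin p)) : gs p m (isoO O h x) = gs p m x := by
  unfold gs
  congr 2
  rw [Fintype.sum_prod_type, Fintype.sum_prod_type]
  refine Finset.sum_congr rfl fun j _ => ?_
  simp only [isoO_apply, ← Finset.mul_sum]
  congr 1
  have e1 : ∀ a, (∑ b, O a b * x (j, b)) ^ 2 =
      ∑ b, ∑ c, (O a b * O a c) * (x (j, b) * x (j, c)) := by
    intro a
    rw [sq, Finset.sum_mul_sum]
    exact Finset.sum_congr rfl fun b _ => Finset.sum_congr rfl fun c _ => by ring
  simp only [e1]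
  rw [Finset.sum_comm]
  refine Finset.sum_congr rfl fun b _ => ?_
  rw [Finset.sum_comm]
  have e2 : ∀ c, ∑ a, O a b * O a c * (x (j, b) * x (j, c)) =
      (O.transpose * O) b c * (x (j, b) * x (j, c)) := by
    intro c
    rw [Matrix.mul_apply, Finset.sum_mul]
    rfl
  simp only [e2, h]
  simp [Matrix.one_apply, Finset.sum_ite_eq, sq]

/-! ### symmetry for every mass -/

variable (L)

theorem freeD_dirac (m : ℝ) (α : Fin 16) (φ : EuclideanSpace ℝ (Fin 9 × Fin p) → F)
    (x : EuclideanSpace ℝ (Fin 9 × Fin p)) :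
    freeD L G m α φ x = dirac (fun k => ∑ β, ((G.γ k.1 α β : ℝ) : ℂ) • L.θ β k.2)
      (lin (pV L G m α)) φ x := by
  rw [← freeFOp_op]
  unfold FOp.op dirac
  rw [freeFOp_A, freeFOp_B, lin_apply]
  congr 1
  refine Finset.sum_congr rfl fun k _ => ?_
  simp only [kA, LinearMap.sum_apply, LinearMap.smul_apply, Finset.smul_sum, smul_smul]

theorem freeD_symm_all (m : ℝ) (α : Fin 16) {φ ψ : EuclideanSpace ℝ (Fin 9 × Fin p) → F}
    (hφ : ContDiff ℝ 1 φ) (hψ : ContDiff ℝ 1 ψ) (hc : HasCompactSupport φ ∨ HasCompactSupport ψ) :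
    ∫ x, ⟪freeD L G m α φ x, ψ x⟫_ℂ = ∫ x, ⟪φ x, freeD L G m α ψ x⟫_ℂ := by
  simp only [freeD_dirac]
  refine dirac_symm (fun k => ?_) (fun x => ?_) (fun w => (lin_smooth (pV L G m α) w).continuous)
    hφ hψ hc
  · intro u w
    simp only [LinearMap.sum_apply, LinearMap.smul_apply, sum_inner, inner_sum, inner_smul_left,
      inner_smul_right, Complex.conj_ofReal]
    exact Finset.sum_congr rfl fun β _ => by rw [L.symm β k.2 u w]
  · intro u w
    simp only [lin_apply, pV, LinearMap.sum_apply, LinearMap.smul_apply, sum_inner, inner_sum,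
      inner_smul_left, inner_smul_right, Complex.conj_ofReal]
    exact Finset.sum_congr rfl fun k _ => by
      congr 1
      exact Finset.sum_congr rfl fun β _ => by rw [L.symm β k.2 u w]

end Crest.Agent.R330.FreeQ122
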