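import Crest.Agent.R330.ChSys_399
import Crest.Agent.R330.ChFlat_718
import Crest.Agent.R330.FreeFx2_122
import Crest.Agent.R330.FreeQ_122
import Crest.Agent.R330.ChU_879

/-!
# R330 (helper566), S10-LIM: the literal limit channel of `C : TDef414.Chn b p S`

`U : S →* (C.Fx M G ≃ₗᵢ[ℂ] C.Fx M G)` is any homomorphism with
`(U s f : F) = R.ρ (C.w s) f`.

* `om C s` : the matrix of `C.o s`; `isoO_om : isoO (om C s) _ X = C.O s X`.
* `lift_U` : 122's `Lift`.
* `limC` : the channel; `match_limC : ChSys399.Match R (limC ..)`; `adj_limC`; `sq_limC`.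
* `exists_isLim` : `Chan441.IsLim (limC ..).e (limC ..).D (ChBind718.Wt _) K0 1`.
* `exists_chan` : the bundled channel of 399.
-/

set_option autoImplicit false
set_option linter.unusedSectionVars false
set_option linter.unusedVariables false

open MeasureTheory Filter Topology Crest.MathPhysics.MatrixQM
open scoped ContDiff InnerProductSpace ENNReal

noncomputable section

namespace Crest.Agent.R330.ChanLit566

open Crest.Agent.R330.Defs478 Crest.Agent.R330.TDef414 Crest.Agent.R330.FreeFx122
  Crest.Agent.R330.FreeQ122 Crest.Agent.R330.Free122 Crest.Agent.R330.ChFlat718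
  Crest.Agent.R330.Chan441 Crest.Agent.R330.ChSys399 Crest.Agent.R330.WS596
  Crest.Agent.R330.LS839 Crest.Agent.R330.Bind6839

variable {N p : ℕ} {b : ColorBasis N} {S : Type} [Group S] [Fintype S] (C : Chn b p S)

/-! ### the matrix of a permutation -/

/-- the matrix of `C.o s` -/
def om (s : S) : Matrix (Fin p) (Fin p) ℝ := fun a c => C.o s (EuclideanSpace.single c 1) a

theorem o_apply (s : S) (t : EuclideanSpace ℝ (Fin p)) (a : Fin p) :
    C.o s t a = ∑ c, om C s a c * t c := by
  have ht : t = ∑ c, (t c) • EuclideanSpace.single c (1 : ℝ) := by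
    ext r
    simp only [WithLp.ofLp_sum, Finset.sum_apply, WithLp.ofLp_smul, Pi.smul_apply, smul_eq_mul]
    rw [Finset.sum_eq_single r]
    · simp
    · intro b _ hb
      simp [Ne.symm hb]
    · simp
  conv_lhs => rw [ht]
  rw [map_sum]
  simp only [map_smul, WithLp.ofLp_sum, Finset.sum_apply, WithLp.ofLp_smul, Pi.smul_apply,
    smul_eq_mul]
  exact Finset.sum_congr rfl fun c _ => mul_comm _ _

theorem om_orth (s : S) : (om C s).transpose * om C s = 1 := by
  ext a c
  have h := (C.o s).inner_map_map (EuclideanSpace.single a (1 : ℝ)) (EuclideanSpace.single c 1)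
  have e : ⟪(EuclideanSpace.single a (1 : ℝ) : EuclideanSpace ℝ (Fin p)),
      EuclideanSpace.single c 1⟫_ℝ = if a = c then 1 else 0 := by
    rw [EuclideanSpace.inner_single_left]
    by_cases hac : a = c
    · subst hac; simp
    · simp [hac]
  rw [e] at h
  rw [Matrix.mul_apply, Matrix.one_apply, ← h, PiLp.inner_apply]
  refine Finset.sum_congr rfl fun d _ => ?_
  simp [om, Matrix.transpose_apply, mul_comm]

theorem isoO_om (s : S) : isoO (om C s) (om_orth C s) = C.O s := by
  ext1 X
  ext q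
  rw [isoO_apply]
  have h : C.O s X q = C.o s (pcomp X q.1) q.2 := rfl
  rw [h, o_apply]
  rfl

theorem isoO_om_symm (s : S) : (isoO (om C s) (om_orth C s)).symm = C.O s⁻¹ := by
  rw [isoO_om]
  ext1 X
  rw [LinearIsometryEquiv.symm_apply_eq]
  have := O_inv C s⁻¹ X
  rw [inv_inv] at this
  exact this.symm

variable {F : Type*} [NormedAddCommGroup F] [InnerProductSpace ℂ F] [FiniteDimensional ℂ F]
variable {M : FermionRep N F} {R : GaugeAction b M} {G : GammaNine}

theorem o_single (s : S) (a : Fin p) : C.o s (EuclideanSpace.single a 1) =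
    ∑ c, om C s c a • EuclideanSpace.single c (1 : ℝ) := by
  ext r
  simp only [WithLp.ofLp_sum, Finset.sum_apply, WithLp.ofLp_smul, Pi.smul_apply, smul_eq_mul]
  rw [Finset.sum_eq_single r]
  · simp [om]
  · intro b _ hb
    simp [Ne.symm hb]
  · simp

theorem lift_U {U : S →* (C.Fx M G ≃ₗᵢ[ℂ] C.Fx M G)}
    (hU : ∀ s (f : C.Fx M G), ((U s f : C.Fx M G) : F) = R.ρ (C.w s) (f : F)) (s : S) :
    Lift (fxLight C M G) (om C s) (U s) where
  orth := om_orth C s
  cov α a v := by
    apply Subtype.ext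
    rw [hU, fxLight_θ, thx_coe, FactI161.rho_thv, adC_cen]
    rw [thv_cen]
    rw [AddSubmonoidClass.coe_finsetSum]
    refine Finset.sum_congr rfl fun c _ => ?_
    rw [Submodule.coe_smul, fxLight_θ, thx_coe, hU]
    rfl

/-! ### the channel -/

/-- **the literal limit channel** -/
def limC (U : S →* (C.Fx M G ≃ₗᵢ[ℂ] C.Fx M G))
    (hU : ∀ s (f : C.Fx M G), ((U s f : C.Fx M G) : F) = R.ρ (C.w s) (f : F)) :
    Chan566.Chan S (Pos p) (C.Fx M G) where
  Q m α := freeFOp (fxLight C M G) G m α
  O := Oh C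
  U := U
  Z := Zc C
  hB m α := freeFOp_smooth _ G m α
  Ac m α c ℓ := freeFOp_Ac _ G m α c ℓ
  Bc m α x c v := freeFOp_Bc _ G m α x c v
  closed := isClosed_Zc C
  null := null_Zc C
  ZO s X hX := fun h => hX ((breg_O C s X).1 h)
  covA m α s ℓ := by
    have h := covA (G := G) (lift_U C (R := R) hU s) m α ℓ
    have e : (isoO (om C s) (lift_U C (R := R) hU s).orth).symm = Oh C s⁻¹ := isoO_om_symm C s
    rw [e] at h
    exact h
  covB m α s X v := by
    have h := covB (G := G) (lift_U C (R := R) hU s) m α X v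
    have e : isoO (om C s) (lift_U C (R := R) hU s).orth = Oh C s := isoO_om C s
    rw [e] at h
    exact h

variable (U : S →* (C.Fx M G ≃ₗᵢ[ℂ] C.Fx M G))
    (hU : ∀ s (f : C.Fx M G), ((U s f : C.Fx M G) : F) = R.ρ (C.w s) (f : F))

theorem hQ_limC (m : ℝ) (α : Fin 16) (ψ : Pos p → C.Fx M G) :
    ((limC C U hU).Q m α).op ψ = freeD (fxLight C M G) G m α ψ := by
  funext X
  exact freeFOp_op _ G m α ψ X

theorem adj_limC (m : ℝ) (α : Fin 16) : Adj ((limC C U hU).Q m α) ((limC C U hU).Q m α) where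
  A ℓ u v := by
    show ⟪v, (freeFOp (fxLight C M G) G m α).A (ℓ.smulRight u)⟫_ℂ =
      -⟪(freeFOp (fxLight C M G) G m α).A (ℓ.smulRight v), u⟫_ℂ
    rw [freeFOp_A, freeFOp_A, inner_sum, sum_inner, ← Finset.sum_neg_distrib]
    refine Finset.sum_congr rfl fun k _ => ?_
    have h1 : ∀ w : C.Fx M G, (ℓ.smulRight w : Pos p →L[ℝ] C.Fx M G) (EuclideanSpace.single k 1) =
        ((ℓ (EuclideanSpace.single k 1) : ℝ) : ℂ) • w := fun w => by
      rw [ContinuousLinearMap.smulRight_apply, Complex.coe_smul]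
    rw [h1, h1, map_smul, map_smul, inner_smul_left, inner_smul_right, Complex.conj_ofReal,
      ← mul_neg]
    congr 1
    simp only [kA, LinearMap.sum_apply, LinearMap.smul_apply, sum_inner, inner_sum,
      inner_smul_left, inner_smul_right, map_mul, map_neg, Complex.conj_I, Complex.conj_ofReal]
    rw [← Finset.sum_neg_distrib]
    refine Finset.sum_congr rfl fun β _ => ?_
    rw [(fxLight C M G).symm β k.2 v u]
    ring
  B X u v := by
    show ⟪v, (freeFOp (fxLight C M G) G m α).B X u⟫_ℂ =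
      ⟪(freeFOp (fxLight C M G) G m α).B X v, u⟫_ℂ
    rw [freeFOp_B, freeFOp_B, inner_sum, sum_inner]
    refine Finset.sum_congr rfl fun k _ => ?_
    rw [inner_smul_left, inner_smul_right, Complex.conj_ofReal]
    congr 1
    simp only [pV, LinearMap.sum_apply, LinearMap.smul_apply, sum_inner, inner_sum,
      inner_smul_left, inner_smul_right, Complex.conj_ofReal]
    refine Finset.sum_congr rfl fun β _ => ?_
    rw [(fxLight C M G).symm β k.2 v u]

theorem sq_limC (hp : 1 ≤ p) (α β : Fin 16) (ψ : Pos p → C.Fx M G) (hψ : ContDiff ℝ ∞ ψ) :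
    ((limC C U hU).Q 0 α).op (((limC C U hU).Q 0 α).op ψ) =
      ((limC C U hU).Q 0 β).op (((limC C U hU).Q 0 β).op ψ) := by
  have h := ChFree718.free_of (C := limC C U hU) hp (fun m α ψ _ => hQ_limC C U hU m α ψ)
  exact h.op_sq α β hψ

/-- the limit channel matches the geometry -/
theorem match_limC {F : Type} [NormedAddCommGroup F] [InnerProductSpace ℂ F]
    [FiniteDimensional ℂ F] {M : FermionRep N F} {R : GaugeAction b M} {G : GammaNine}
    (U : S →* (C.Fx M G ≃ₗᵢ[ℂ] C.Fx M G))
    (hU : ∀ s (f : C.Fx M G), ((U s f : C.Fx M G) : F) = R.ρ (C.w s) (f : F)) :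
    Match R (limC C U hU) where
  hO s X := rfl
  hU s f := hU s f
  hZ X := Iff.rfl
  hQ m α ψ hψ := by rw [hQ_limC, freeD_eq_Dx]

/-- **the limit system** -/
theorem exists_isLim [Nontrivial F] (hp : 1 ≤ p) :
    ∃ K0 : Submodule ℂ (limC C U hU).L,
      IsLim (L := (limC C U hU).L) (limC C U hU).e (limC C U hU).D
        (ChBind718.Wt (limC C U hU)) K0 1 := by
  obtain ⟨ξ, h1, h2, h3, h4⟩ := exists_xi_fx C M G
  obtain ⟨Φ, -, h⟩ := isLim_free' hp (limC C U hU) (Lt := fxLight C M G) (G := G)
    (fun m α ψ _ => hQ_limC C U hU m α ψ) (adj_limC C U hU)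
    (A := (Finset.univ : Finset C.J)) (L := C.Lf) (c := 0) (Zc_eq C)
    (fun a _ => C.Lf_surj a) (by rw [finrank_six]; norm_num)
    (ξ := ξ) (fun h0 => by rw [h0, norm_zero] at h1; exact zero_ne_one h1) h2 h4
    (fun s X => gs_O C 1 s X)
    (fun s => Subtype.ext ((hU s ξ).trans (rho_xi C M G R h2 (C.w s))))
  exact ⟨_, h⟩

/-! ### the bundled channel -/

section final

variable {F : Type} [NormedAddCommGroup F] [InnerProductSpace ℂ F] [FiniteDimensional ℂ F]
  [Nontrivial F] {M : FermionRep N F} (R : GaugeAction b M) (G : GammaNine)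

/-- **The limit channel of `C`.** -/
def limCh : Chan566.Chan S (Pos p) (C.Fx M G) :=
  limC C (ChU879.UF C R G) (R := R) fun _ _ => rfl

theorem match_limCh : Match R (limCh C R G) := match_limC C _ _

theorem exists_isLim_ch (hp : 1 ≤ p) : ∃ K0 : Submodule ℂ (limCh C R G).L,
    IsLim (L := (limCh C R G).L) (limCh C R G).e (limCh C R G).D
      (ChBind718.Wt (limCh C R G)) K0 1 := exists_isLim C _ _ hp

variable {C} {R} {G}

/-- **The channel of 441 from the statements (T1)-(T5) on generators and the existence of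
charts.** -/
def chanT (hp : 1 ≤ p) (P : TPack C M R G) (hCh : ChartT C) (hC : CoreT P) (hS : SuppT P)
    (hR : RadT P) (hG : GramT P) (hD : DualT P) : Chan441.Chan b M R G :=
  chanOf P (match_limCh C R G) hCh hC hS hR hG hD
    (W := ChBind718.Wt (limCh C R G)) (K0 := Classical.choose (exists_isLim_ch C R G hp))
    (fun w hw => ChBind718.Wt_eq (limCh C R G) hw)
    (fun α β ψ hψ => sq_limC C _ _ hp α β ψ hψ)
    (Classical.choose_spec (exists_isLim_ch C R G hp))

theorem chanT_X (hp : 1 ≤ p) (P : TPack C M R G) (hCh : ChartT C) (hC : CoreT P)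
    (hS : SuppT P) (hR : RadT P) (hG : GramT P) (hD : DualT P) :
    (chanT hp P hCh hC hS hR hG hD).X = XX C M G := rfl

theorem chanT_T (hp : 1 ≤ p) (P : TPack C M R G) (hCh : ChartT C) (hC : CoreT P)
    (hS : SuppT P) (hR : RadT P) (hG : GramT P) (hD : DualT P) :
    (chanT hp P hCh hC hS hR hG hD).T = fun g χ => TT P g χ := rfl

end final

end Crest.Agent.R330.ChanLit566

end
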