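import Crest.Agent.R330.GeoInj_815
import Crest.Agent.R330.Conc_815
import Crest.Agent.R330.Chan_441

/-!
# Row 330, S8-G2 (helper815): different channels are asymptotically orthogonal

* `ConcCh b P T` : every family `T g χ` concentrates, as `g → ∞`, on the orbits of a compact set of
  regular positions of the channel `P`.
* `bdd_of_isChan` : bounded in `L²`, from `core` and `iso` of `IsChan`.
* `orth_of_conc` : `Orth T T'` for different channels.
-/

set_option autoImplicit false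
set_option linter.unusedSectionVars false

open MeasureTheory Filter Topology Crest.MathPhysics.MatrixQM
open scoped ContDiff InnerProductSpace ENNReal BigOperators

noncomputable section

namespace Crest.Agent.R330.OrthCh815

open Crest.Agent.R330.Defs478 Crest.Agent.R330.Parts879 Crest.Agent.R330.Geo692
  Crest.Agent.R330.GeoInj815 Crest.Agent.R330.Conc815 Crest.Agent.R330.Chan441

variable {N : ℕ} {F : Type*} [NormedAddCommGroup F] [InnerProductSpace ℂ F]
  [FiniteDimensional ℂ F] (b : ColorBasis N)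

/-- Every family `T g χ` concentrates on the orbits of a compact set of regular positions. -/
def ConcCh (P : Lam N) {X : Type*} (T : ℝ → X → Cfg N → F) : Prop :=
  ∀ χ : X, ∃ K : Set (XS P), IsCompact K ∧ K ⊆ Reg b P ∧
    Conc atTop (fun g => T g χ) (orbK b P K)

variable {b} {M : FermionRep N F} {R : GaugeAction b M} {G : GammaNine}

theorem memLp_core {φ : Cfg N → F} (h : IsCoreVec b R φ) : MemLp φ 2 volume :=
  h.1.continuous.memLp_of_hasCompactSupport h.2.1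

theorem integral_inner_self (φ : Cfg N → F) :
    ∫ x, ⟪φ x, φ x⟫_ℂ = ((∫ x, ‖φ x‖ ^ 2 : ℝ) : ℂ) := by
  rw [← integral_complex_ofReal]
  refine integral_congr_ae (Eventually.of_forall fun x => ?_)
  change ⟪φ x, φ x⟫_ℂ = ((‖φ x‖ ^ 2 : ℝ) : ℂ)
  rw [inner_self_eq_norm_sq_to_K]
  push_cast
  rfl

/-- Boundedness in `L²` from `core` and `iso`. -/
theorem bdd_of_iso {L : Type*} [NormedAddCommGroup L] [InnerProductSpace ℂ L] {X : Type*}
    (T : ℝ → X → Cfg N → F) (χ : X) (v : L)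
    (hc : ∀ᶠ g in atTop, IsCoreVec b R (T g χ))
    (hi : Tendsto (fun g => ∫ x, ⟪T g χ x, T g χ x⟫_ℂ) atTop (𝓝 ⟪v, v⟫_ℂ)) :
    Bdd atTop (fun g => T g χ) := by
  refine ⟨‖v‖ ^ 2 + 1, by positivity, ?_⟩
  have h1 : Tendsto (fun g => ∫ x, ‖T g χ x‖ ^ 2) atTop (𝓝 (‖v‖ ^ 2)) := by
    have h2 := (Complex.continuous_re.tendsto _).comp hi
    have h3 : (⟪v, v⟫_ℂ).re = ‖v‖ ^ 2 := by
      rw [inner_self_eq_norm_sq_to_K]
      norm_cast
    rw [h3] at h2
    refine h2.congr fun g => ?_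
    change (∫ x, ⟪T g χ x, T g χ x⟫_ℂ).re = _
    rw [integral_inner_self, Complex.ofReal_re]
  have h4 : ∀ᶠ g in atTop, ∫ x, ‖T g χ x‖ ^ 2 < ‖v‖ ^ 2 + 1 :=
    h1.eventually_lt tendsto_const_nhds (by linarith)
  filter_upwards [hc, h4] with g hg1 hg2
  exact ⟨memLp_core hg1, hg2.le⟩

/-- Boundedness in `L²` for a channel. -/
theorem bdd_of_isChan {L : Type*} [NormedAddCommGroup L] [InnerProductSpace ℂ L] {X : Type*}
    [AddCommGroup X] [Module ℂ X] {e : X →ₗ[ℂ] L} {D : ℝ → Fin 16 → X →ₗ[ℂ] X}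
    {W : (ℝ → ℝ) → X →ₗ[ℂ] X} {T : ℝ → X → Cfg N → F} (h : IsChan b M R G e D W T) (χ : X) :
    Bdd atTop (fun g => T g χ) := bdd_of_iso T χ (e χ) (h.core χ) (h.iso χ χ)

/-- **Different channels are asymptotically orthogonal.** -/
theorem orth_of_conc {P Q : Lam N} (hPQ : P ≠ Q) {X Y : Type*} {T : ℝ → X → Cfg N → F}
    {T' : ℝ → Y → Cfg N → F} (hT : ConcCh b P T) (hT' : ConcCh b Q T')
    (hb : ∀ χ, Bdd atTop (fun g => T g χ)) (hb' : ∀ χ, Bdd atTop (fun g => T' g χ)) :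
    Orth T T' := by
  intro χ χ'
  obtain ⟨K, hK, hKr, hc⟩ := hT χ
  obtain ⟨K', hK', hKr', hc'⟩ := hT' χ'
  exact inner_tendsto_zero (isCompact_orbK b hK) (isCompact_orbK b hK').isClosed
    (disjoint_orbK b hPQ hKr hKr') hc hc' (hb χ) (hb' χ')

/-- The same for two literal channels. -/
theorem orth_of_chan {P Q : Lam N} (hPQ : P ≠ Q) (C C' : Chan b M R G)
    (hT : ConcCh b P C.T) (hT' : ConcCh b Q C'.T) : Orth C.T C'.T :=
  orth_of_conc hPQ hT hT' (fun χ => bdd_of_isChan C.chan χ) (fun χ => bdd_of_isChan C'.chan χ)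

/-- `ConcCh` for a linear family from generators: sums. -/
theorem ConcCh.add {P : Lam N} {φ ψ : ℝ → Cfg N → F}
    (hφ : ∃ K : Set (XS P), IsCompact K ∧ K ⊆ Reg b P ∧ Conc atTop φ (orbK b P K))
    (hψ : ∃ K : Set (XS P), IsCompact K ∧ K ⊆ Reg b P ∧ Conc atTop ψ (orbK b P K))
    (hbφ : Bdd atTop φ) (hbψ : Bdd atTop ψ) :
    ∃ K : Set (XS P), IsCompact K ∧ K ⊆ Reg b P ∧
      Conc atTop (fun g => φ g + ψ g) (orbK b P K) := by
  obtain ⟨K, hK, hKr, hc⟩ := hφ
  obtain ⟨K', hK', hKr', hc'⟩ := hψ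
  have h1 : orbK b P K ⊆ orbK b P (K ∪ K') := by
    rintro x ⟨g, X, hX, rfl⟩
    exact ⟨g, X, Or.inl hX, rfl⟩
  have h2 : orbK b P K' ⊆ orbK b P (K ∪ K') := by
    rintro x ⟨g, X, hX, rfl⟩
    exact ⟨g, X, Or.inr hX, rfl⟩
  exact ⟨K ∪ K', hK.union hK', Set.union_subset hKr hKr',
    (hc.mono hbφ h1).add (hc'.mono hbψ h2) hbφ hbψ⟩

end Crest.Agent.R330.OrthCh815

end
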