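import Crest.Agent.R330.LitC_974
import Crest.Agent.R330.OrthCh_815
import Crest.Agent.R330.Chn_692

/-!
# Row 330, S8-G2 (helper974): different channels are asymptotically orthogonal, literally

* `CC b P φ` : bounded in `L²` and concentrated on the orbits of a compact set of regular
  positions of the channel `P`; stable under sums and multiples.
* `concCh_TT` : 815's `ConcCh` for 414's trial map `TT` over 692's geometry `chn b P`.
* **`orth_TT`** : `Orth` of the trial maps of two different channels.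
-/

set_option autoImplicit false
set_option linter.unusedSectionVars false

open MeasureTheory Filter Topology Crest.MathPhysics.MatrixQM
open scoped ContDiff InnerProductSpace ENNReal

noncomputable section

namespace Crest.Agent.R330.ConcT974

open Crest.Agent.R330.Defs478 Crest.Agent.R330.Parts879 Crest.Agent.R330.Geo692
  Crest.Agent.R330.GeoInj815 Crest.Agent.R330.Conc815 Crest.Agent.R330.Chan441
  Crest.Agent.R330.TDef414 Crest.Agent.R330.OrthCh815

section abstract

variable {E : Type*} [NormedAddCommGroup E] [MeasureSpace E] [BorelSpace E]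
  {F : Type*} [NormedAddCommGroup F] [InnerProductSpace ℂ F] {ι : Type*} {l : Filter ι}

theorem bdd_zero : Bdd l (fun (_ : ι) => (0 : E → F)) :=
  ⟨0, le_rfl, Eventually.of_forall fun _ => ⟨MemLp.zero, by simp⟩⟩

theorem conc_zero (K : Set E) : Conc l (fun (_ : ι) => (0 : E → F)) K := by
  intro ρ _
  simp only [Pi.zero_apply, norm_zero, ne_eq, OfNat.ofNat_ne_zero, not_false_eq_true, zero_pow,
    integral_zero]
  exact tendsto_const_nhds

theorem bdd_add {φ ψ : ι → E → F} (h1 : Bdd l φ) (h2 : Bdd l ψ) :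
    Bdd l (fun g => φ g + ψ g) := by
  obtain ⟨C1, hC1, hb1⟩ := h1
  obtain ⟨C2, hC2, hb2⟩ := h2
  refine ⟨2 * C1 + 2 * C2, by positivity, ?_⟩
  filter_upwards [hb1, hb2] with g hg1 hg2
  refine ⟨hg1.1.add hg2.1, ?_⟩
  have i1 := sq_int hg1.1
  have i2 := sq_int hg2.1
  calc ∫ x, ‖(φ g + ψ g) x‖ ^ 2 ≤ ∫ x, (2 * ‖φ g x‖ ^ 2 + 2 * ‖ψ g x‖ ^ 2) := by
        refine integral_mono_of_nonneg (Eventually.of_forall fun x => by positivity)
          ((i1.const_mul 2).add (i2.const_mul 2)) (Eventually.of_forall fun x => ?_)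
        have h4 : ‖φ g x + ψ g x‖ ≤ ‖φ g x‖ + ‖ψ g x‖ := norm_add_le _ _
        have h5 : ‖φ g x + ψ g x‖ ^ 2 ≤ (‖φ g x‖ + ‖ψ g x‖) ^ 2 :=
          pow_le_pow_left₀ (norm_nonneg _) h4 2
        change ‖φ g x + ψ g x‖ ^ 2 ≤ 2 * ‖φ g x‖ ^ 2 + 2 * ‖ψ g x‖ ^ 2
        nlinarith [sq_nonneg (‖φ g x‖ - ‖ψ g x‖)]
    _ = 2 * (∫ x, ‖φ g x‖ ^ 2) + 2 * ∫ x, ‖ψ g x‖ ^ 2 := by
        rw [integral_add (i1.const_mul 2) (i2.const_mul 2), integral_const_mul,
          integral_const_mul]
    _ ≤ 2 * C1 + 2 * C2 := by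
        have := hg1.2
        have := hg2.2
        linarith

theorem bdd_smul (c : ℂ) {φ : ι → E → F} (h1 : Bdd l φ) : Bdd l (fun g => c • φ g) := by
  obtain ⟨C1, hC1, hb1⟩ := h1
  refine ⟨‖c‖ ^ 2 * C1, by positivity, ?_⟩
  filter_upwards [hb1] with g hg1
  refine ⟨hg1.1.const_smul c, ?_⟩
  have h2 : ∀ x, ‖(c • φ g) x‖ ^ 2 = ‖c‖ ^ 2 * ‖φ g x‖ ^ 2 := by
    intro x
    rw [Pi.smul_apply, norm_smul, mul_pow]
  simp only [h2]
  rw [integral_const_mul]
  exact mul_le_mul_of_nonneg_left hg1.2 (by positivity)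

theorem conc_smul (c : ℂ) {φ : ι → E → F} {K : Set E} (h : Conc l φ K) :
    Conc l (fun g => c • φ g) K := by
  intro ρ hρ
  have h1 := (h ρ hρ).const_mul (‖c‖ ^ 2)
  rw [mul_zero] at h1
  refine h1.congr fun g => ?_
  rw [← integral_const_mul]
  refine integral_congr_ae (Eventually.of_forall fun x => ?_)
  change ‖c‖ ^ 2 * ‖φ g x‖ ^ 2 = ‖c • φ g x‖ ^ 2
  rw [norm_smul, mul_pow]

end abstract

variable {N : ℕ} {b : ColorBasis N} {F : Type*} [NormedAddCommGroup F] [InnerProductSpace ℂ F]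
  [FiniteDimensional ℂ F] {M : FermionRep N F} {R : GaugeAction b M} {G : GammaNine}

/-- Bounded and concentrated on the orbits of a compact set of regular positions. -/
def CC (b : ColorBasis N) (P : Lam N) (φ : ℝ → Cfg N → F) : Prop :=
  Bdd atTop φ ∧ ∃ K : Set (XS P), IsCompact K ∧ K ⊆ Reg b P ∧ Conc atTop φ (orbK b P K)

variable {P : Lam N}

theorem cc_zero : CC b P (fun _ => (0 : Cfg N → F)) :=
  ⟨bdd_zero, ∅, isCompact_empty, Set.empty_subset _, conc_zero _⟩

theorem cc_add {φ ψ : ℝ → Cfg N → F} (h1 : CC b P φ) (h2 : CC b P ψ) :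
    CC b P (fun g => φ g + ψ g) :=
  ⟨bdd_add h1.1 h2.1, ConcCh.add h1.2 h2.2 h1.1 h2.1⟩

theorem cc_smul (c : ℂ) {φ : ℝ → Cfg N → F} (h1 : CC b P φ) : CC b P (fun g => c • φ g) := by
  obtain ⟨K, hK, hr, hc⟩ := h1.2
  exact ⟨bdd_smul c h1.1, K, hK, hr, conc_smul c hc⟩

/-- One generator. -/
theorem cc_gen [Nontrivial F] (T : TPack (chn b P) M R G) (σ : Sl (chn b P)) (χ : Amp M G σ) :
    CC b P (fun g => Tgen T σ g χ.fn) := by
  refine ⟨LitC974.bdd T σ χ, tsupport χ.fn, χ.compact, fun X hX => ?_, ?_⟩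
  · exact (chn_Reg b P X).1 (χ.off X hX).reg
  · have h1 := LitC974.conc T σ χ
    have h2 : {x | ∃ h : Matrix.specialUnitaryGroup (Fin N) ℂ, ∃ X ∈ tsupport χ.fn,
        b.act h ((chn b P).cf X) = x} = orbK b P (tsupport χ.fn) := by
      ext x
      constructor
      · rintro ⟨h, X, hX, rfl⟩
        exact ⟨h, X, hX, rfl⟩
      · rintro ⟨h, X, hX, rfl⟩
        exact ⟨h, X, hX, rfl⟩
    rwa [h2] at h1

/-- The trial map. -/
theorem cc_TT [Nontrivial F] (T : TPack (chn b P) M R G) (χ : XX (chn b P) M G) :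
    CC b P (fun g => TT T g χ) := by
  induction χ using Finsupp.induction_linear with
  | zero =>
    simp only [map_zero]
    exact cc_zero
  | add χ χ' h h' =>
    simp only [map_add]
    exact cc_add h h'
  | single q c =>
    have h1 : ∀ g, TT T g (Finsupp.single q c) = c • Tgen T q.1 g q.2.fn := fun g => by
      unfold TT
      rw [Finsupp.linearCombination_single]
    simp only [h1]
    exact cc_smul c (cc_gen T q.1 q.2)

theorem bdd_TT [Nontrivial F] (T : TPack (chn b P) M R G) (χ : XX (chn b P) M G) :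
    Bdd atTop (fun g => TT T g χ) := (cc_TT T χ).1

/-- **815's `ConcCh` for the literal trial map.** -/
theorem concCh_TT [Nontrivial F] (T : TPack (chn b P) M R G) :
    ConcCh b P (fun g (χ : XX (chn b P) M G) => TT T g χ) := fun χ => (cc_TT T χ).2

/-- **The trial maps of two different channels are asymptotically orthogonal.** -/
theorem orth_TT [Nontrivial F] {Q : Lam N} (hPQ : P ≠ Q) (T : TPack (chn b P) M R G)
    (T' : TPack (chn b Q) M R G) :
    Orth (fun g (χ : XX (chn b P) M G) => TT T g χ) (fun g (χ : XX (chn b Q) M G) => TT T' g χ) :=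
  orth_of_conc hPQ (concCh_TT T) (concCh_TT T') (bdd_TT T) (bdd_TT T')

end Crest.Agent.R330.ConcT974

end
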