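import Crest.Agent.R330.SlP_314

/-!
# Row 330, S5b-B4: the exact Jacobian of the slice chart (helper712)

For the chart `Psi(t + u) = exp(om t) . (c + u)` of `SlP_314` (`t` tangent, `u` normal):
`det DPsi(t+u) = det DPsi(t) * jac b c u` with the explicit polynomial
`jac b c u = det (v ↦ P_T [omL v, c + u] + P_N v)`, `jac b c 0 = 1`, invariant under the
stabiliser of `c`.
-/

set_option autoImplicit false
noncomputable section

open Matrix
open Crest.MathPhysics.MatrixQM
open Crest.Agent.R330.SlA314 Crest.Agent.R330.SlB314 Crest.Agent.R330.SlC314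
open Crest.Agent.R330.SlD314 Crest.Agent.R330.SlP314
open scoped ContDiff Topology

namespace Crest.Agent.R330.SlJ712

open scoped Matrix.Norms.Operator

variable {N : ℕ} (b : ColorBasis N)

/-! ### the logarithmic derivative of `gexp` -/

/-- conjugate transpose as a real-linear map -/
def ctL : Matrix (Fin N) (Fin N) ℂ →ₗ[ℝ] Matrix (Fin N) (Fin N) ℂ where
  toFun M := Mᴴ
  map_add' A B := Matrix.conjTranspose_add A B
  map_smul' t A := by
    ext i j
    simp [Matrix.conjTranspose_apply]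

theorem hasFDerivAt_expgen (om : Fin (N ^ 2 - 1) → ℝ) :
    ∃ P : (Fin (N ^ 2 - 1) → ℝ) →L[ℝ] Matrix (Fin N) (Fin N) ℂ,
      HasFDerivAt (fun om : Fin (N ^ 2 - 1) → ℝ => NormedSpace.exp (gen b om)) P om ∧
      HasFDerivAt (fun om : Fin (N ^ 2 - 1) → ℝ => NormedSpace.exp (gen b (-om)))
        ((LinearMap.toContinuousLinearMap ctL).comp P) om := by
  have h1 : HasFDerivAt (fun om : Fin (N ^ 2 - 1) → ℝ => NormedSpace.exp (gen b om))
      (fderiv ℝ (fun om : Fin (N ^ 2 - 1) → ℝ => NormedSpace.exp (gen b om)) om) om :=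
    ((contDiff_gen_exp b).differentiable (by simp)).differentiableAt.hasFDerivAt
  refine ⟨_, h1, ?_⟩
  have e : (fun om : Fin (N ^ 2 - 1) → ℝ => NormedSpace.exp (gen b (-om))) =
      (LinearMap.toContinuousLinearMap (ctL (N := N))) ∘
        (fun om : Fin (N ^ 2 - 1) → ℝ => NormedSpace.exp (gen b om)) := by
    funext om
    rw [← exp_gen_star]
    rfl
  rw [e]
  exact (LinearMap.toContinuousLinearMap (ctL (N := N))).hasFDerivAt.comp om h1

/-- coefficient functional of a matrix -/
def coefL : Matrix (Fin N) (Fin N) ℂ →ₗ[ℝ] (Fin (N ^ 2 - 1) → ℝ) where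
  toFun M A := (b.T A * M).trace.re
  map_add' M M' := by
    funext A
    simp [Matrix.mul_add]
  map_smul' t M := by
    funext A
    simp

theorem cm_coefL (H : Matrix (Fin N) (Fin N) ℂ) (hH : H.IsHermitian) :
    ∃ s : ℂ, cm b (coefL b H) = H - s • (1 : Matrix (Fin N) (Fin N) ℂ) := by
  refine ⟨((H.trace.re / N : ℝ) : ℂ), ?_⟩
  have htr : H.trace = ((H.trace.re : ℝ) : ℂ) := by
    apply (Complex.conj_eq_iff_re.1 _).symm
    rw [starRingEnd_apply, ← Matrix.trace_conjTranspose, hH.eq]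
  set H0 := H - ((H.trace.re / N : ℝ) : ℂ) • (1 : Matrix (Fin N) (Fin N) ℂ) with hH0
  have h1 : H0.IsHermitian := by
    unfold Matrix.IsHermitian
    rw [hH0, Matrix.conjTranspose_sub, hH.eq, Matrix.conjTranspose_smul, Matrix.conjTranspose_one]
    simp
  have h2 : H0.trace = 0 := by
    rcases Nat.eq_zero_or_pos N with h | h
    · subst h
      simp [Matrix.trace]
    · rw [hH0, Matrix.trace_sub, Matrix.trace_smul, Matrix.trace_one, Fintype.card_fin, htr]
      have : (N : ℂ) ≠ 0 := by exact_mod_cast h.ne'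
      simp only [Complex.ofReal_re, smul_eq_mul]
      push_cast
      field_simp
      ring
  rw [← exists_cm b H0 h1 h2]
  congr 1
  funext A
  change (b.T A * H).trace.re = (b.T A * H0).trace.re
  rw [hH0, Matrix.mul_sub, Matrix.trace_sub, mul_smul_comm, Matrix.mul_one, Matrix.trace_smul,
    b.traceless, smul_zero, sub_zero]

theorem exists_logder (om : Fin (N ^ 2 - 1) → ℝ) :
    ∃ w : (Fin (N ^ 2 - 1) → ℝ) →ₗ[ℝ] (Fin (N ^ 2 - 1) → ℝ), ∀ (x : Cfg N) om',
      HasDerivAt (fun s : ℝ => b.act (gexp b (om + s • om')) x)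
        (b.act (gexp b om) (brx b (w om') x)) 0 := by
  obtain ⟨P, hP, hPi⟩ := hasFDerivAt_expgen b om
  set M := NormedSpace.exp (gen b om) with hM
  set Mi := NormedSpace.exp (gen b (-om)) with hMi
  have hMiM : Mi * M = 1 := by
    rw [hM, hMi, ← exp_gen_star]; exact exp_gen_star_mul b om
  have hMMi : M * Mi = 1 := mul_eq_one_comm.1 hMiM
  have hMih : Miᴴ = M := by
    rw [hMi, ← exp_gen_star, Matrix.star_eq_conjTranspose, Matrix.conjTranspose_conjTranspose]
  have hrel : ∀ om', P om' * Mi + M * (P om')ᴴ = 0 := by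
    intro om'
    have h1 := hP.mul' hPi
    have e1 : ((fun om : Fin (N ^ 2 - 1) → ℝ => NormedSpace.exp (gen b om)) *
        fun om : Fin (N ^ 2 - 1) → ℝ => NormedSpace.exp (gen b (-om))) = fun _ => 1 := by
      funext o
      have := exp_gen_star_mul b o
      rw [exp_gen_star] at this
      exact mul_eq_one_comm.1 this
    rw [e1] at h1
    have h2 := h1.unique (hasFDerivAt_const (1 : Matrix (Fin N) (Fin N) ℂ) om)
    have h3 := DFunLike.congr_fun h2 om'
    simp only [_root_.add_apply] at h3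
    rw [add_comm]
    exact h3
  set W : (Fin (N ^ 2 - 1) → ℝ) → Matrix (Fin N) (Fin N) ℂ := fun om' => Mi * P om' with hW
  have hWh : ∀ om', (Complex.I • W om').IsHermitian := by
    intro om'
    have h1 : (W om')ᴴ = -W om' := by
      have h2 : Mi * (P om' * Mi + M * (P om')ᴴ) * M = 0 := by rw [hrel]; simp
      have h3 : Mi * (P om' * Mi + M * (P om')ᴴ) * M = Mi * P om' + (P om')ᴴ * M := by
        rw [Matrix.mul_add, Matrix.add_mul]
        congr 1
        · rw [Matrix.mul_assoc, Matrix.mul_assoc, hMiM, Matrix.mul_one]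
        · rw [← Matrix.mul_assoc, hMiM, Matrix.one_mul]
      rw [h3] at h2
      rw [hW]
      simp only
      rw [Matrix.conjTranspose_mul, hMih]
      exact eq_neg_of_add_eq_zero_right h2
    unfold Matrix.IsHermitian
    rw [Matrix.conjTranspose_smul, h1]
    simp
  refine ⟨(coefL b).comp
    ({ toFun := fun om' => Complex.I • W om'
       map_add' := fun u v => by
        simp only [hW, map_add, Matrix.mul_add, smul_add]
       map_smul' := fun t u => by
        simp only [hW, map_smul, Matrix.mul_smul, RingHom.id_apply]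
        rw [smul_comm] } : (Fin (N ^ 2 - 1) → ℝ) →ₗ[ℝ] Matrix (Fin N) (Fin N) ℂ), ?_⟩
  intro x om'
  obtain ⟨s0, hs0⟩ := cm_coefL b (Complex.I • W om') (hWh om')
  have hlin : HasDerivAt (fun s : ℝ => om + s • om') om' 0 := by
    simpa using ((hasDerivAt_id (0 : ℝ)).smul_const om').const_add om
  have h1 : HasDerivAt (fun s : ℝ => NormedSpace.exp (gen b (om + s • om'))) (P om') 0 := by
    have : HasFDerivAt (fun om : Fin (N ^ 2 - 1) → ℝ => NormedSpace.exp (gen b om)) P
        (om + (0 : ℝ) • om') := by simpa using hP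
    exact this.comp_hasDerivAt (0 : ℝ) hlin
  have h2 : HasDerivAt (fun s : ℝ => NormedSpace.exp (gen b (-(om + s • om')))) ((P om')ᴴ) 0 := by
    have : HasFDerivAt (fun om : Fin (N ^ 2 - 1) → ℝ => NormedSpace.exp (gen b (-om)))
        ((LinearMap.toContinuousLinearMap ctL).comp P) (om + (0 : ℝ) • om') := by simpa using hPi
    exact this.comp_hasDerivAt (0 : ℝ) hlin
  have h3 : HasDerivAt (fun s : ℝ => (fun i : Fin 9 =>
      NormedSpace.exp (gen b (om + s • om')) * mat b x i *
        NormedSpace.exp (gen b (-(om + s • om')))))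
      (fun i => P om' * mat b x i * Mi + M * mat b x i * (P om')ᴴ) 0 := by
    refine hasDerivAt_pi.2 fun i => ?_
    have h4 := (h1.mul_const (mat b x i)).mul h2
    have h5 : om + (0 : ℝ) • om' = om := by simp
    rw [h5] at h4
    exact h4
  have h4 := (LinearMap.toContinuousLinearMap (recon b)).hasFDerivAt.comp_hasDerivAt (0 : ℝ) h3
  have e1 : (fun s : ℝ => b.act (gexp b (om + s • om')) x) =
      (LinearMap.toContinuousLinearMap (recon b)) ∘ (fun s : ℝ => (fun i : Fin 9 =>
      NormedSpace.exp (gen b (om + s • om')) * mat b x i *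
        NormedSpace.exp (gen b (-(om + s • om'))))) := by
    funext u
    rw [act_gexp_eq]
    rfl
  rw [e1]
  refine h4.congr_deriv ?_
  symm
  rw [← recon_mat b (b.act _ _)]
  change recon b _ = recon b _
  congr 1
  funext i
  rw [mat_act, mat_brx, gexp_val, exp_gen_star, ← hM, ← hMi]
  change M * (-Complex.I • (cm b (coefL b (Complex.I • W om')) * mat b x i -
    mat b x i * cm b (coefL b (Complex.I • W om')))) * Mi = _
  rw [hs0]
  have h5 : -Complex.I • ((Complex.I • W om' - s0 • (1 : Matrix (Fin N) (Fin N) ℂ)) * mat b x i -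
      mat b x i * (Complex.I • W om' - s0 • (1 : Matrix (Fin N) (Fin N) ℂ))) =
      W om' * mat b x i - mat b x i * W om' := by
    rw [Matrix.sub_mul, Matrix.mul_sub, smul_mul_assoc, mul_smul_comm, smul_mul_assoc,
      mul_smul_comm, Matrix.one_mul, Matrix.mul_one]
    rw [sub_sub_sub_cancel_right, ← smul_sub, smul_smul]
    simp
  rw [h5]
  have h6 : M * W om' = P om' := by
    rw [hW]; simp only
    rw [← Matrix.mul_assoc, hMMi, Matrix.one_mul]
  have h7 : W om' * Mi = -(Mi * M * (P om')ᴴ) := by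
    have := hrel om'
    rw [hW]; simp only
    rw [Matrix.mul_assoc, eq_neg_of_add_eq_zero_left this, Matrix.mul_neg, Matrix.mul_assoc]
  rw [Matrix.mul_sub, Matrix.sub_mul, ← Matrix.mul_assoc, h6, Matrix.mul_assoc M (_ * _),
    Matrix.mul_assoc _ (W om') Mi, h7, hMiM, Matrix.one_mul]
  rw [Matrix.mul_neg, Matrix.mul_neg, sub_neg_eq_add, ← Matrix.mul_assoc]

/-- logarithmic derivative of `gexp` -/
def logd (om : Fin (N ^ 2 - 1) → ℝ) : (Fin (N ^ 2 - 1) → ℝ) →ₗ[ℝ] (Fin (N ^ 2 - 1) → ℝ) :=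
  Classical.choose (exists_logder b om)

theorem hasDerivAt_logd (om : Fin (N ^ 2 - 1) → ℝ) (x : Cfg N) (om' : Fin (N ^ 2 - 1) → ℝ) :
    HasDerivAt (fun s : ℝ => b.act (gexp b (om + s • om')) x)
      (b.act (gexp b om) (brx b (logd b om om') x)) 0 :=
  Classical.choose_spec (exists_logder b om) x om'

/-- derivative of `(om, x) ↦ exp(om) . x` -/
theorem fderiv_act (om : Fin (N ^ 2 - 1) → ℝ) (x : Cfg N) (om' : Fin (N ^ 2 - 1) → ℝ)
    (x' : Cfg N) :
    fderiv ℝ (fun p : (Fin (N ^ 2 - 1) → ℝ) × Cfg N => b.act (gexp b p.1) p.2) (om, x)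
      (om', x') = b.act (gexp b om) (brx b (logd b om om') x + x') := by
  have h1 : HasFDerivAt (fun p : (Fin (N ^ 2 - 1) → ℝ) × Cfg N => b.act (gexp b p.1) p.2)
      (fderiv ℝ (fun p : (Fin (N ^ 2 - 1) → ℝ) × Cfg N => b.act (gexp b p.1) p.2) (om, x))
      (om, x) := ((contDiff_act_gexp b).differentiable (by simp)).differentiableAt.hasFDerivAt
  have hlin : HasDerivAt (fun s : ℝ => (om, x) + s • (om', x')) (om', x') 0 := by
    simpa using ((hasDerivAt_id (0 : ℝ)).smul_const (om', x')).const_add (om, x)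
  have h2 : HasDerivAt (fun s : ℝ => b.act (gexp b (om + s • om')) (x + s • x'))
      (fderiv ℝ (fun p : (Fin (N ^ 2 - 1) → ℝ) × Cfg N => b.act (gexp b p.1) p.2) (om, x)
        (om', x')) 0 := by
    have h1' : HasFDerivAt (fun p : (Fin (N ^ 2 - 1) → ℝ) × Cfg N => b.act (gexp b p.1) p.2)
      (fderiv ℝ (fun p : (Fin (N ^ 2 - 1) → ℝ) × Cfg N => b.act (gexp b p.1) p.2) (om, x))
      ((om, x) + (0 : ℝ) • (om', x')) := by simpa using h1
    exact h1'.comp_hasDerivAt (0 : ℝ) hlin
  have h3 := hasDerivAt_logd b om x om'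
  have h4 := hasDerivAt_logd b om x' om'
  have h5 := h3.add ((hasDerivAt_id (0 : ℝ)).smul h4)
  simp only [id_eq, zero_smul, zero_add, one_smul, add_zero] at h5
  have e1 : (fun s : ℝ => b.act (gexp b (om + s • om')) (x + s • x')) =
      ((fun s : ℝ => b.act (gexp b (om + s • om')) x) +
        ((id : ℝ → ℝ) • fun s : ℝ => b.act (gexp b (om + s • om')) x')) := by
    funext s
    simp only [Pi.add_apply, Pi.smul_apply', id_eq]
    rw [act_add, act_smul]
  rw [e1] at h2
  have h6 := h2.unique h5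
  rw [h6, act_add]

theorem fderiv_Psi (c v v' : Cfg N) :
    fderiv ℝ (Psi b c) v v' = b.act (gexp b (omL b c v))
      (brx b (logd b (omL b c v) (omL b c v')) (c + PN b c v) + PN b c v') := by
  have h1 : HasFDerivAt (fun p : (Fin (N ^ 2 - 1) → ℝ) × Cfg N => b.act (gexp b p.1) p.2)
      (fderiv ℝ (fun p : (Fin (N ^ 2 - 1) → ℝ) × Cfg N => b.act (gexp b p.1) p.2)
        (omL b c v, c + PN b c v))
      (omL b c v, c + PN b c v) :=
    ((contDiff_act_gexp b).differentiable (by simp)).differentiableAt.hasFDerivAt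
  have h2 : HasFDerivAt (fun v : Cfg N => (omL b c v, c + PN b c v))
      ((omL b c).prod (PN b c)) v :=
    (omL b c).hasFDerivAt.prodMk ((PN b c).hasFDerivAt.const_add c)
  have h3 := h1.comp v h2
  have h4 : fderiv ℝ (Psi b c) v = _ := h3.fderiv
  rw [h4]
  exact fderiv_act b _ _ _ _

/-! ### the Jacobian -/

theorem det_congr_mod {E : Type*} [AddCommGroup E] [Module ℝ E] [Module.Finite ℝ E]
    (W : Submodule ℝ E) (A B : E →ₗ[ℝ] E) (hA : ∀ w ∈ W, A w = w) (hB : ∀ w ∈ W, B w = w)
    (h : ∀ v, A v - B v ∈ W) : LinearMap.det A = LinearMap.det B := by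
  have eA : W ≤ W.comap A := fun w hw => by rw [Submodule.mem_comap, hA w hw]; exact hw
  have eB : W ≤ W.comap B := fun w hw => by rw [Submodule.mem_comap, hB w hw]; exact hw
  rw [LinearMap.det_eq_det_mul_det W A eA, LinearMap.det_eq_det_mul_det W B eB]
  congr 1
  · congr 1
    ext w
    simp [LinearMap.restrict_apply, hA w.1 w.2, hB w.1 w.2]
  · congr 1
    ext v
    simp only [LinearMap.comp_apply, Submodule.mkQ_apply, Submodule.mapQ_apply]
    exact (Submodule.Quotient.eq W).2 (h v)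

/-- `v ↦ P_T [w (omL v), c + u] + P_N v` -/
def JL (c u : Cfg N) : Cfg N →ₗ[ℝ] Cfg N :=
  (PT b c).toLinearMap ∘ₗ adL b (c + u) ∘ₗ (omL b c).toLinearMap + (PN b c).toLinearMap

theorem JL_apply (c u v : Cfg N) :
    JL b c u v = PT b c (brx b (omL b c v) (c + u)) + PN b c v := rfl

/-- the Jacobian factor of the slice -/
def jac (c u : Cfg N) : ℝ := LinearMap.det (JL b c u)

theorem JL_zero (c : Cfg N) : JL b c 0 = LinearMap.id := by
  ext1 v
  rw [JL_apply, add_zero, brx_omL', PT_of_mem b (PT_mem b c v), PT_add_PN]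
  rfl

theorem jac_zero (c : Cfg N) : jac b c 0 = 1 := by
  unfold jac
  rw [JL_zero, LinearMap.det_id]

/-- Jacobi / the stabiliser algebra preserves the normal space -/
theorem inner_brx (k : Fin (N ^ 2 - 1) → ℝ) (x y : Cfg N) :
    inner ℝ (brx b k x) y = -(inner ℝ x (brx b k y) : ℝ) := by
  have h : ((inner ℝ (brx b k x) y : ℝ) : ℂ) = ((-(inner ℝ x (brx b k y) : ℝ) : ℝ) : ℂ) := by
    rw [Complex.ofReal_neg, inner_eq b, inner_eq b, ← Finset.sum_neg_distrib]
    refine Finset.sum_congr rfl fun i _ => ?_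
    rw [mat_brx, mat_brx, smul_mul_assoc, mul_smul_comm, trace_smul, trace_smul, Matrix.sub_mul,
      Matrix.mul_sub, trace_sub, trace_sub, ← smul_neg]
    congr 1
    have h1 : (mat b x i * (cm b k * mat b y i)).trace = (mat b x i * cm b k * mat b y i).trace := by
      rw [Matrix.mul_assoc]
    have h2 : (mat b x i * (mat b y i * cm b k)).trace = (cm b k * mat b x i * mat b y i).trace := by
      rw [← Matrix.mul_assoc, Matrix.trace_mul_comm, Matrix.mul_assoc]
    rw [h1, h2]
    ring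
  exact_mod_cast h

theorem brx_br (u v : Fin (N ^ 2 - 1) → ℝ) (x : Cfg N) :
    brx b u (brx b v x) = brx b (br b u v) x + brx b v (brx b u x) := by
  apply mat_inj b; intro i
  rw [mat_add]
  simp only [mat_brx, cm_br]
  simp only [smul_sub, mul_smul_comm, smul_mul_assoc, Matrix.mul_sub, Matrix.sub_mul,
    Matrix.mul_assoc, smul_smul]
  abel

theorem brx_mem_Nor {c : Cfg N} {k : Fin (N ^ 2 - 1) → ℝ} (hk : brx b k c = 0) {u : Cfg N}
    (hu : u ∈ Nor b c) : brx b k u ∈ Nor b c := by
  rw [mem_Nor]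
  intro om
  have h1 : inner ℝ (brx b om c) (brx b k u) = -(inner ℝ (brx b k (brx b om c)) u : ℝ) := by
    rw [inner_brx b k, neg_neg]
  rw [h1, brx_br, hk]
  have h2 : brx b om (0 : Cfg N) = 0 := by
    have := brx_smul_right b 0 om (0 : Cfg N)
    simpa using this
  rw [h2, add_zero, (mem_Nor b).1 hu, neg_zero]

/-- elements of the stabiliser algebra do not move the slice tangentially -/
theorem PT_brx_stab {c : Cfg N} {k : Fin (N ^ 2 - 1) → ℝ} (hk : brx b k c = 0) {u : Cfg N}
    (hu : u ∈ Nor b c) : PT b c (brx b k (c + u)) = 0 := by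
  rw [brx_add_right, hk, zero_add]
  exact PT_of_mem_Nor b (brx_mem_Nor b hk hu)

theorem PT_brx_congr {c : Cfg N} {k k' : Fin (N ^ 2 - 1) → ℝ} (hk : brx b k c = brx b k' c)
    {u : Cfg N} (hu : u ∈ Nor b c) :
    PT b c (brx b k (c + u)) = PT b c (brx b k' (c + u)) := by
  have h1 : brx b (k + (-1 : ℝ) • k') c = 0 := by
    rw [brx_add_left, brx_smul_left, hk]
    simp
  have h2 := PT_brx_stab b h1 hu
  rw [brx_add_left, brx_smul_left, map_add, map_smul] at h2
  rw [← sub_eq_zero, ← h2]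
  module

/-- `v ↦ [w (omL v), c + u] + P_N v` -/
def AL (c u : Cfg N) (w : (Fin (N ^ 2 - 1) → ℝ) →ₗ[ℝ] (Fin (N ^ 2 - 1) → ℝ)) :
    Cfg N →ₗ[ℝ] Cfg N :=
  adL b (c + u) ∘ₗ w ∘ₗ (omL b c).toLinearMap + (PN b c).toLinearMap

theorem AL_apply (c u : Cfg N) (w : (Fin (N ^ 2 - 1) → ℝ) →ₗ[ℝ] (Fin (N ^ 2 - 1) → ℝ))
    (v : Cfg N) : AL b c u w v = brx b (w (omL b c v)) (c + u) + PN b c v := rfl

theorem det_AL (c : Cfg N) {u : Cfg N} (hu : u ∈ Nor b c)
    (w : (Fin (N ^ 2 - 1) → ℝ) →ₗ[ℝ] (Fin (N ^ 2 - 1) → ℝ)) :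
    LinearMap.det (AL b c u w) = LinearMap.det (AL b c 0 w) * jac b c u := by
  have h1 : LinearMap.det (AL b c u w) = LinearMap.det (JL b c u ∘ₗ AL b c 0 w) := by
    refine det_congr_mod (Nor b c) _ _ ?_ ?_ ?_
    · intro y hy
      rw [AL_apply, omL_of_Nor b hy, map_zero, PN_of_mem b hy]
      have := brx_smul_left b 0 (0 : Fin (N ^ 2 - 1) → ℝ) (c + u)
      simp only [zero_smul] at this
      rw [this, zero_add]
    · intro y hy
      rw [LinearMap.comp_apply, AL_apply, omL_of_Nor b hy, map_zero, PN_of_mem b hy]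
      have := brx_smul_left b 0 (0 : Fin (N ^ 2 - 1) → ℝ) (c + 0)
      simp only [zero_smul] at this
      rw [this, zero_add, JL_apply, omL_of_Nor b hy, PN_of_mem b hy]
      have := brx_smul_left b 0 (0 : Fin (N ^ 2 - 1) → ℝ) (c + u)
      simp only [zero_smul] at this
      rw [this, map_zero, zero_add]
    · intro v
      rw [LinearMap.comp_apply, AL_apply, AL_apply, JL_apply, add_zero]
      have hT : brx b (w (omL b c v)) c ∈ Tan b c := ⟨_, rfl⟩
      have hN : PN b c v ∈ Nor b c := PN_mem b c v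
      have e1 : PT b c (brx b (omL b c (brx b (w (omL b c v)) c + PN b c v)) (c + u)) =
          PT b c (brx b (w (omL b c v)) (c + u)) := by
        refine PT_brx_congr b ?_ hu
        rw [map_add, omL_of_Nor b hN, add_zero, brx_omL b hT]
      rw [e1, map_add (PN b c), PN_of_mem_Tan b hT, zero_add, PN_of_mem b hN]
      have e2 : brx b (w (omL b c v)) (c + u) + PN b c v -
          (PT b c (brx b (w (omL b c v)) (c + u)) + PN b c v) =
          PN b c (brx b (w (omL b c v)) (c + u)) := by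
        conv_lhs => rw [← PT_add_PN b c (brx b (w (omL b c v)) (c + u))]
        rw [map_add (PT b c), PT_of_mem b (PT_mem b c _), PT_of_mem_Nor b (PN_mem b c _)]
        abel
      rw [e2]
      exact PN_mem b c _
  rw [h1, LinearMap.det_comp, mul_comm]
  rfl

/-- the action as a linear equivalence -/
def actE (g : Matrix.specialUnitaryGroup (Fin N) ℂ) : Cfg N ≃ₗ[ℝ] Cfg N where
  toFun := b.act g
  map_add' := act_add b g
  map_smul' := act_smul b g
  invFun := b.act g⁻¹
  left_inv := act_inv_act b g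
  right_inv := act_act_inv b g

theorem actE_apply (g : Matrix.specialUnitaryGroup (Fin N) ℂ) (x : Cfg N) :
    actE b g x = b.act g x := rfl

/-- **the determinant of the chart factorises** -/
theorem det_fderiv_Psi (c : Cfg N) {t u : Cfg N} (ht : t ∈ Tan b c) (hu : u ∈ Nor b c) :
    (fderiv ℝ (Psi b c) (t + u)).det = (fderiv ℝ (Psi b c) t).det * jac b c u := by
  have h1 : ∀ u ∈ Nor b c, (fderiv ℝ (Psi b c) (t + u) : Cfg N →ₗ[ℝ] Cfg N) =
      (actE b (gexp b (omL b c t)) : Cfg N →ₗ[ℝ] Cfg N) ∘ₗ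
        AL b c u (logd b (omL b c t)) := by
    intro u hu
    ext1 v
    change fderiv ℝ (Psi b c) (t + u) v = b.act (gexp b (omL b c t)) _
    rw [fderiv_Psi, map_add (omL b c), omL_of_Nor b hu, add_zero, map_add (PN b c),
      PN_of_mem_Tan b ht, zero_add, PN_of_mem b hu]
    rfl
  have h2 : ∀ u ∈ Nor b c, (fderiv ℝ (Psi b c) (t + u)).det =
      LinearMap.det (actE b (gexp b (omL b c t)) : Cfg N →ₗ[ℝ] Cfg N) *
        LinearMap.det (AL b c u (logd b (omL b c t))) := by
    intro u hu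
    rw [← LinearMap.det_comp, ← h1 u hu]
  have h3 := h2 0 (Submodule.zero_mem _)
  rw [add_zero] at h3
  rw [h2 u hu, h3, det_AL b c hu]
  ring

/-! ### invariance under the stabiliser -/

/-- adjoint action on colour vectors -/
def adj (g : Matrix.specialUnitaryGroup (Fin N) ℂ) (om : Fin (N ^ 2 - 1) → ℝ) :
    Fin (N ^ 2 - 1) → ℝ := fun A => ∑ B, b.adjMat g A B * om B

theorem brx_adj (g : Matrix.specialUnitaryGroup (Fin N) ℂ) (om : Fin (N ^ 2 - 1) → ℝ)
    (x : Cfg N) : brx b (adj b g om) (b.act g x) = b.act g (brx b om x) := by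
  apply mat_inj b; intro i
  rw [mat_act, mat_brx, mat_brx, mat_act]
  have h : cm b (adj b g om) =
      (g : Matrix (Fin N) (Fin N) ℂ) * cm b om * star (g : Matrix (Fin N) (Fin N) ℂ) :=
    cm_adj b g om
  rw [h]
  set U : Matrix (Fin N) (Fin N) ℂ := (g : Matrix (Fin N) (Fin N) ℂ) with hU
  have hs : star U * U = 1 := star_mul_self' g
  have h1 : U * cm b om * star U * (U * mat b x i * star U) =
      U * (cm b om * mat b x i) * star U := by
    calc _ = U * cm b om * (star U * U) * (mat b x i * star U) := by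
          simp only [Matrix.mul_assoc]
      _ = _ := by rw [hs]; simp only [Matrix.mul_assoc, Matrix.mul_one, Matrix.one_mul]
  have h2 : U * mat b x i * star U * (U * cm b om * star U) =
      U * (mat b x i * cm b om) * star U := by
    calc _ = U * mat b x i * (star U * U) * (cm b om * star U) := by
          simp only [Matrix.mul_assoc]
      _ = _ := by rw [hs]; simp only [Matrix.mul_assoc, Matrix.mul_one, Matrix.one_mul]
  rw [h1, h2, ← Matrix.sub_mul, ← Matrix.mul_sub, Matrix.mul_smul, Matrix.smul_mul]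

theorem act_mem_Tan {g : Matrix.specialUnitaryGroup (Fin N) ℂ} {c : Cfg N}
    (hg : b.act g c = c) {t : Cfg N} (ht : t ∈ Tan b c) : b.act g t ∈ Tan b c := by
  obtain ⟨om, rfl⟩ := ht
  refine ⟨adj b g om, ?_⟩
  have h := brx_adj b g om c
  rw [hg] at h
  exact h

theorem act_mem_Nor {g : Matrix.specialUnitaryGroup (Fin N) ℂ} {c : Cfg N}
    (hg : b.act g c = c) {y : Cfg N} (hy : y ∈ Nor b c) : b.act g y ∈ Nor b c := by
  rw [mem_Nor]
  intro om
  have hg' : b.act g⁻¹ c = c := by
    conv_lhs => rw [← hg]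
    rw [act_inv_act]
  have h1 := act_inner b g⁻¹ (brx b om c) (b.act g y)
  rw [act_inv_act] at h1
  rw [← h1]
  have h2 : b.act g⁻¹ (brx b om c) ∈ Tan b c := act_mem_Tan b hg' ⟨om, rfl⟩
  obtain ⟨om', h3⟩ := h2
  rw [← h3]
  exact (mem_Nor b).1 hy om'

theorem PT_act {g : Matrix.specialUnitaryGroup (Fin N) ℂ} {c : Cfg N}
    (hg : b.act g c = c) (v : Cfg N) : PT b c (b.act g v) = b.act g (PT b c v) := by
  conv_lhs => rw [← PT_add_PN b c v]
  rw [act_add, map_add, PT_of_mem b (act_mem_Tan b hg (PT_mem b c v)),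
    PT_of_mem_Nor b (act_mem_Nor b hg (PN_mem b c v)), add_zero]

theorem PN_act {g : Matrix.specialUnitaryGroup (Fin N) ℂ} {c : Cfg N}
    (hg : b.act g c = c) (v : Cfg N) : PN b c (b.act g v) = b.act g (PN b c v) := by
  conv_lhs => rw [← PT_add_PN b c v]
  rw [act_add, map_add, PN_of_mem_Tan b (act_mem_Tan b hg (PT_mem b c v)),
    PN_of_mem b (act_mem_Nor b hg (PN_mem b c v)), zero_add]

theorem JL_act {g : Matrix.specialUnitaryGroup (Fin N) ℂ} {c : Cfg N}
    (hg : b.act g c = c) {u : Cfg N} (hu : u ∈ Nor b c) (v : Cfg N) :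
    JL b c (b.act g u) (b.act g v) = b.act g (JL b c u v) := by
  have hg' : b.act g⁻¹ c = c := by
    conv_lhs => rw [← hg]
    rw [act_inv_act]
  have h0 : c + b.act g u = b.act g (c + u) := by rw [act_add, hg]
  have h1 : ∀ om y, brx b om (b.act g y) = b.act g (brx b (adj b g⁻¹ om) y) := by
    intro om y
    have := brx_adj b g⁻¹ om (b.act g y)
    rw [act_inv_act] at this
    rw [this, act_act_inv]
  rw [JL_apply, JL_apply, h0, h1, PT_act b hg, PN_act b hg, act_add]
  congr 2
  refine PT_brx_congr b ?_ hu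
  have h2 := brx_adj b g⁻¹ (omL b c (b.act g v)) c
  rw [hg', brx_omL', PT_act b hg, act_inv_act] at h2
  rw [h2, brx_omL']

/-- the Jacobian factor is invariant under the stabiliser -/
theorem jac_act {g : Matrix.specialUnitaryGroup (Fin N) ℂ} {c : Cfg N}
    (hg : b.act g c = c) {u : Cfg N} (hu : u ∈ Nor b c) :
    jac b c (b.act g u) = jac b c u := by
  have h1 : JL b c (b.act g u) ∘ₗ (actE b g : Cfg N →ₗ[ℝ] Cfg N) =
      (actE b g : Cfg N →ₗ[ℝ] Cfg N) ∘ₗ JL b c u := by
    ext1 v
    exact JL_act b hg hu v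
  have h2 := congrArg LinearMap.det h1
  rw [LinearMap.det_comp, LinearMap.det_comp, mul_comm] at h2
  exact mul_left_cancel₀ (LinearEquiv.isUnit_det' (actE b g)).ne_zero h2

/-! ### smoothness -/

/-- `x ↦ [om, x]` -/
def brR (om : Fin (N ^ 2 - 1) → ℝ) : Cfg N →ₗ[ℝ] Cfg N where
  toFun x := brx b om x
  map_add' x y := brx_add_right b om x y
  map_smul' t x := brx_smul_right b t om x

theorem brR_apply (om : Fin (N ^ 2 - 1) → ℝ) (x : Cfg N) : brR b om x = brx b om x := rfl

/-- the Jacobian factor is smooth (a polynomial) -/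
theorem contDiff_jac (c : Cfg N) {n : WithTop ℕ∞} : ContDiff ℝ n (jac b c) := by
  set B := (EuclideanSpace.basisFun (Fin 9 × Fin (N ^ 2 - 1)) ℝ).toBasis with hB
  have h1 : ∀ u, jac b c u = ∑ σ : Equiv.Perm (Fin 9 × Fin (N ^ 2 - 1)),
      (Equiv.Perm.sign σ : ℝ) * ∏ j, LinearMap.toMatrix B B (JL b c u) (σ j) j := by
    intro u
    unfold jac
    rw [← LinearMap.det_toMatrix B, Matrix.det_apply']
  have h2 : ∀ i j, ContDiff ℝ n (fun u => LinearMap.toMatrix B B (JL b c u) i j) := by
    intro i j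
    have h3 : ∀ u, LinearMap.toMatrix B B (JL b c u) i j =
        EuclideanSpace.proj i
          (PT b c ((LinearMap.toContinuousLinearMap (brR b (omL b c (B j)))) (c + u)) +
            PN b c (B j)) := by
      intro u
      rw [LinearMap.toMatrix_apply, JL_apply]
      rfl
    simp only [h3]
    exact (EuclideanSpace.proj (𝕜 := ℝ) i).contDiff.comp
      (((PT b c).contDiff.comp ((ContinuousLinearMap.contDiff _).comp
        (contDiff_const.add contDiff_id))).add contDiff_const)
  have h4 : jac b c = fun u => ∑ σ : Equiv.Perm (Fin 9 × Fin (N ^ 2 - 1)),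
      (Equiv.Perm.sign σ : ℝ) * ∏ j, LinearMap.toMatrix B B (JL b c u) (σ j) j := by
    funext u
    exact h1 u
  rw [h4]
  exact ContDiff.sum fun σ _ => contDiff_const.mul (contDiff_prod fun j _ => h2 _ _)

theorem continuous_jac (c : Cfg N) : Continuous (jac b c) :=
  (contDiff_jac b c (n := 0)).continuous

theorem exists_jac_bounds (c : Cfg N) :
    ∃ ρ : ℝ, 0 < ρ ∧ ∀ u, ‖u‖ < ρ → 1 / 2 < jac b c u ∧ jac b c u < 2 := by
  have h1 : ∀ᶠ u in 𝓝 (0 : Cfg N), jac b c u ∈ Set.Ioo (1 / 2 : ℝ) 2 := by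
    refine (continuous_jac b c).continuousAt.eventually_mem ?_
    rw [jac_zero]
    exact Ioo_mem_nhds (by norm_num) (by norm_num)
  obtain ⟨ρ, hρ, h2⟩ := Metric.eventually_nhds_iff_ball.1 h1
  exact ⟨ρ, hρ, fun u hu => h2 u (by simpa using hu)⟩

end Crest.Agent.R330.SlJ712
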