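import Crest.Agent.R330.VJacB_969

/-!
# Row 330, S8-V3a (helper969): the literal slice integration formula
-/

set_option autoImplicit false
noncomputable section

open Matrix MeasureTheory Metric Set
open Crest.MathPhysics.MatrixQM
open Crest.Agent.R330.SlA314 Crest.Agent.R330.SlB314 Crest.Agent.R330.SlC314
open Crest.Agent.R330.SlD314 Crest.Agent.R330.SlP314 Crest.Agent.R330.SlF944
open Crest.Agent.R330.SUgrp596
open scoped ContDiff Topology ENNReal

namespace Crest.Agent.R330.VJac969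

variable {N : ℕ} (b : ColorBasis N)

theorem tube_eq (c : Cfg N) (r : ℝ) :
    SlI712.tube (G := SU N) b.act c (Nor b c).subtypeₗᵢ r = tube b c r := by
  ext x
  rw [mem_tube_iff]
  constructor
  · rintro ⟨g, u, hu, he⟩
    exact ⟨g, u, u.2, hu, he⟩
  · rintro ⟨g, y, hy, hn, he⟩
    exact ⟨g, ⟨y, hy⟩, hn, he⟩

theorem image_eq (c : Cfg N) (δ : ℝ) :
    SlI712.Chart.Psi (G := SU N) b.act c (Nor b c).subtypeₗᵢ (fun t : Tan b c => gexp b (omL b c t)) ''
      (ball 0 δ ×ˢ ball 0 δ) = Psi b c '' box b c δ := by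
  ext x
  constructor
  · rintro ⟨⟨t, u⟩, ⟨ht, hu⟩, he⟩
    simp only [mem_ball_zero_iff] at ht hu
    refine ⟨t + u, add_mem_box b t.2 u.2 ht hu, ?_⟩
    rw [Psi_add b t.2 u.2]
    exact he
  · rintro ⟨v, ⟨h1, h2⟩, he⟩
    refine ⟨(⟨PT b c v, PT_mem b c v⟩, ⟨PN b c v, PN_mem b c v⟩), ⟨?_, ?_⟩, ?_⟩
    · rw [mem_ball_zero_iff]; exact h1
    · rw [mem_ball_zero_iff]; exact h2
    · rw [← he]
      unfold SlI712.Chart.Psi Psi
      change b.act (gexp b (omL b c (PT b c v))) (c + PN b c v) = _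
      rw [omL_PT]

/-- the group volume of the orbit patch -/
def kap (c : Cfg N) (δ : ℝ) : ℝ≥0∞ :=
  haarSU N {g | b.act g⁻¹ c ∈ SlI712.Chart.patch b.act c (fun t : Tan b c => gexp b (omL b c t)) δ}

/-- the volume of the tangent box -/
def vol (c : Cfg N) (δ : ℝ) : ℝ≥0∞ := ∫⁻ t in ball (0 : Tan b c) δ, ENNReal.ofReal (ad b c t)

theorem kap_ne_zero {c : Cfg N} {δ : ℝ} (h : GoodRad b c δ) : kap b c δ ≠ 0 := by
  have h1 : {g : SU N | b.act g⁻¹ c ∈
      SlI712.Chart.patch b.act c (fun t : Tan b c => gexp b (omL b c t)) δ} =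
      (fun g : SU N => b.act g⁻¹ c) ⁻¹' (Psi b c '' box b c δ) := by
    ext g
    have h2 := (chart b h).mem_image_iff le_rfl g⁻¹ (u := 0) (by rw [norm_zero]; exact h.pos)
    rw [image_eq] at h2
    simp only [map_zero, add_zero] at h2
    exact h2.symm
  have h3 : IsOpen ((fun g : SU N => b.act g⁻¹ c) ⁻¹' (Psi b c '' box b c δ)) := by
    refine h.isOpen_image.preimage ?_
    exact (continuous_act_left b c).comp continuous_inv
  have h4 : (1 : SU N) ∈ (fun g : SU N => b.act g⁻¹ c) ⁻¹' (Psi b c '' box b c δ) := by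
    rw [mem_preimage, inv_one, act_one]
    refine ⟨0, ?_, ?_⟩
    · have := add_mem_box b (Submodule.zero_mem (Tan b c)) (Submodule.zero_mem (Nor b c))
        (by rw [norm_zero]; exact h.pos) (by rw [norm_zero]; exact h.pos)
      rwa [add_zero] at this
    · rw [Psi_nor b (Submodule.zero_mem _), add_zero]
  unfold kap
  rw [h1]
  exact (h3.measure_pos (haarSU N) ⟨1, h4⟩).ne'

theorem kap_ne_top (c : Cfg N) (δ : ℝ) : kap b c δ ≠ ⊤ := measure_ne_top _ _

theorem vol_ne_top (c : Cfg N) (δ : ℝ) : vol b c δ ≠ ⊤ := by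
  have hc : Continuous fun t : Tan b c => ad b c t :=
    (continuous_ad b c).comp continuous_subtype_val
  obtain ⟨C, hC⟩ := (isCompact_closedBall (0 : Tan b c) δ).bddAbove_image hc.continuousOn
  have h1 : vol b c δ ≤ ∫⁻ _ in ball (0 : Tan b c) δ, ENNReal.ofReal C := by
    refine setLIntegral_mono' measurableSet_ball fun t ht => ?_
    exact ENNReal.ofReal_le_ofReal (hC ⟨t, ball_subset_closedBall ht, rfl⟩)
  refine ne_top_of_le_ne_top ?_ h1
  rw [setLIntegral_const]
  exact ENNReal.mul_ne_top ENNReal.ofReal_ne_top measure_ball_lt_top.ne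

theorem vol_ne_zero {c : Cfg N} {δ : ℝ} (h : GoodRad b c δ) : vol b c δ ≠ 0 := by
  have hc : Continuous fun t : Tan b c => ad b c t :=
    (continuous_ad b c).comp continuous_subtype_val
  intro h0
  unfold vol at h0
  rw [lintegral_eq_zero_iff (hc.measurable.ennreal_ofReal)] at h0
  rw [Filter.EventuallyEq, ae_restrict_iff' measurableSet_ball] at h0
  have h1 : (volume : Measure (Tan b c)) (ball 0 δ) = 0 := by
    refine measure_mono_null ?_ h0
    intro t ht
    rw [mem_compl_iff, Set.mem_ofPred_eq]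
    intro h2
    have h3 := h2 ht
    have hn : ‖(t : Cfg N)‖ < 2 * δ := by
      rw [mem_ball_zero_iff] at ht
      have := h.pos
      have h4 : ‖(t : Cfg N)‖ = ‖t‖ := rfl
      rw [h4]
      linarith
    have h5 := ad_pos b h t.2 hn
    simp only [Pi.zero_apply, ENNReal.ofReal_eq_zero] at h3
    exact absurd h3 (not_le.2 h5)
  exact (measure_ball_pos volume (0 : Tan b c) h.pos).ne' h1

/-- the constant of the slice formula -/
def cst (c : Cfg N) (δ : ℝ) : ℝ := ((vol b c δ) / (kap b c δ)).toReal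

theorem ofReal_cst {c : Cfg N} {δ : ℝ} (h : GoodRad b c δ) :
    ENNReal.ofReal (cst b c δ) = vol b c δ / kap b c δ :=
  ENNReal.ofReal_toReal (ENNReal.div_ne_top (vol_ne_top b c δ) (kap_ne_zero b h))

theorem cst_pos {c : Cfg N} {δ : ℝ} (h : GoodRad b c δ) : 0 < cst b c δ := by
  have h1 : vol b c δ / kap b c δ ≠ 0 := ENNReal.div_ne_zero.2 ⟨vol_ne_zero b h, kap_ne_top b c δ⟩
  have h2 : vol b c δ / kap b c δ ≠ ⊤ := ENNReal.div_ne_top (vol_ne_top b c δ) (kap_ne_zero b h)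
  exact ENNReal.toReal_pos h1 h2

/-- the density of the slice formula -/
def jn (c : Cfg N) (δ : ℝ) (u : Cfg N) : ℝ := cst b c δ * jd b c u

/-- **Slice integration formula**, general functions. -/
theorem slice_gen {c : Cfg N} {δ : ℝ} (h : GoodRad b c δ) {r : ℝ} (hr : r ≤ δ)
    (f : Cfg N → ℝ≥0∞) (hf : Measurable f) :
    ∫⁻ x in tube b c r, f x = ∫⁻ g, (∫⁻ u in ball (0 : Nor b c) r,
      ENNReal.ofReal (jn b c δ u) * f (b.act g (c + u))) ∂(haarSU N) := by
  have h1 := (chart b h).slice_lintegral (haarSU N) hr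
    (by rw [tube_eq]; exact (isOpen_tube b c r).measurableSet) f hf
  rw [tube_eq] at h1
  have h2 : ∫⁻ x in tube b c r, f x = (kap b c δ)⁻¹ * (vol b c δ *
      ∫⁻ g, (∫⁻ u in ball (0 : Nor b c) r, ENNReal.ofReal (jd b c u) *
        f (b.act g (c + (Nor b c).subtypeₗᵢ u))) ∂(haarSU N)) := by
    have h3 : vol b c δ * ∫⁻ g, (∫⁻ u in ball (0 : Nor b c) r, ENNReal.ofReal (jd b c u) *
        f (b.act g (c + (Nor b c).subtypeₗᵢ u))) ∂(haarSU N) =
        kap b c δ * ∫⁻ x in tube b c r, f x := h1.symm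
    rw [h3, ← mul_assoc, ENNReal.inv_mul_cancel (kap_ne_zero b h) (kap_ne_top b c δ), one_mul]
  rw [h2, ← mul_assoc, mul_comm (kap b c δ)⁻¹, ← div_eq_mul_inv, ← ofReal_cst b h,
    ← lintegral_const_mul' _ _ ENNReal.ofReal_ne_top]
  refine lintegral_congr fun g => ?_
  rw [← lintegral_const_mul' _ _ ENNReal.ofReal_ne_top]
  refine lintegral_congr fun u => ?_
  rw [← mul_assoc, ← ENNReal.ofReal_mul (cst_pos b h).le]
  rfl

/-- **Slice integration formula**, invariant functions. -/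
theorem slice_inv {c : Cfg N} {δ : ℝ} (h : GoodRad b c δ) {r : ℝ} (hr : r ≤ δ)
    (f : Cfg N → ℝ≥0∞) (hf : Measurable f) (hi : ∀ (g : SU N) x, f (b.act g x) = f x) :
    ∫⁻ x in tube b c r, f x = ∫⁻ u in ball (0 : Nor b c) r,
      ENNReal.ofReal (jn b c δ u) * f (c + u) := by
  rw [slice_gen b h hr f hf]
  simp only [hi]
  rw [lintegral_const, measure_univ, mul_one]

theorem jn_pos {c : Cfg N} {δ : ℝ} (h : GoodRad b c δ) {u : Cfg N} (hu : u ∈ Nor b c)
    (hn : ‖u‖ < 2 * δ) : 0 < jn b c δ u := mul_pos (cst_pos b h) (jd_pos b h hu hn)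

theorem contDiffAt_jn {c : Cfg N} {δ : ℝ} (h : GoodRad b c δ) {u : Cfg N} (hu : u ∈ Nor b c)
    (hn : ‖u‖ < 2 * δ) : ContDiffAt ℝ ∞ (jn b c δ) u :=
  contDiffAt_const.mul (contDiffAt_jd b h hu hn)

theorem continuous_jn (c : Cfg N) (δ : ℝ) : Continuous (jn b c δ) :=
  continuous_const.mul (continuous_jd b c)

/-- logarithmic derivatives of `jn` are those of 288's determinant -/
theorem jn_eq_J {r B : ℝ} {c : Cfg N} (δ : ℝ) (hr0 : 0 < r)
    (hr : Frame839.GapAt (LS839.actB b) c r)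
    (hB : Frame839.ActBound (LS839.actB b) B) {u : Cfg N} (hu : u ∈ Nor b c) :
    jn b c δ u = cst b c δ * |LinearMap.det (VacJ288.J (LS839.actB b) c (c + u))| := by
  rw [jn, jd_eq_J b hr0 hr hB hu]

end Crest.Agent.R330.VJac969
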