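import Crest.Agent.R330.TDef_414
import Crest.Agent.R330.VJacC_969
import Crest.Agent.R330.SlJ_712

/-!
# Row 330, S8-SL (helper814): existence of slice charts

* `jd_act`, `jn_act` : invariance of 969's density under the stabiliser of the centre.
* `reg_near` : the points of a slice ball around a regular position are regular.
* `exists_disj` : the images of a small ball under the permutations are disjoint from it.
* `exists_Sl` : at every regular position there are slice charts of arbitrarily small radius.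
-/

set_option autoImplicit false

open MeasureTheory Filter Topology Crest.MathPhysics.MatrixQM
open scoped ContDiff InnerProductSpace ENNReal

noncomputable section

namespace Crest.Agent.R330.SlEx814

open Crest.Agent.R330.LS839 Crest.Agent.R330.Frame839 Crest.Agent.R330.Clus839
  Crest.Agent.R330.Bind6839 Crest.Agent.R330.SlF944 Crest.Agent.R330.TDef414
open Crest.Agent.R330.SlA314 (act_add act_smul act_inv_act act_act_inv)
open Crest.Agent.R330.SlB314 (Nor Tan br brx brx_smul_right)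
open Crest.Agent.R330.SlP314 (PT PN omL PT_mem brx_omL GoodRad exists_goodRad)

variable {N p : ℕ} (b : ColorBasis N)

/-! ## stabiliser invariance of the density -/

/-- the stabiliser acts on the tangent space -/
def tanE {k : Matrix.specialUnitaryGroup (Fin N) ℂ} {c : Cfg N} (hk : b.act k c = c)
    (hk' : b.act k⁻¹ c = c) : Tan b c ≃ₗ[ℝ] Tan b c where
  toFun t := ⟨b.act k t, SlJ712.act_mem_Tan b hk t.2⟩
  invFun t := ⟨b.act k⁻¹ t, SlJ712.act_mem_Tan b hk' t.2⟩
  map_add' _ _ := Subtype.ext (act_add b k _ _)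
  map_smul' _ _ := Subtype.ext (act_smul b k _ _)
  left_inv _ := Subtype.ext (act_inv_act b k _)
  right_inv _ := Subtype.ext (act_act_inv b k _)

theorem jd_act {k : Matrix.specialUnitaryGroup (Fin N) ℂ} {c : Cfg N} (hk : b.act k c = c)
    {u : Cfg N} (hu : u ∈ Nor b c) : VJac969.jd b c (b.act k u) = VJac969.jd b c u := by
  have hk' : b.act k⁻¹ c = c := by
    conv_lhs => rw [← hk]
    exact act_inv_act b k c
  have hu' : b.act k u ∈ Nor b c := SlJ712.act_mem_Nor b hk hu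
  have h1 : VJac969.JL b c (b.act k u) =
      (tanE b hk hk' : Tan b c →ₗ[ℝ] Tan b c) ∘ₗ VJac969.JL b c u ∘ₗ
        ((tanE b hk hk').symm : Tan b c →ₗ[ℝ] Tan b c) := by
    refine LinearMap.ext fun t => Subtype.ext ?_
    have e1 : ((VJac969.JL b c (b.act k u) t : Tan b c) : Cfg N) =
        PT b c (brx b (omL b c t) (c + b.act k u)) := rfl
    have e2 : (((tanE b hk hk') (VJac969.JL b c u ((tanE b hk hk').symm t)) : Tan b c) : Cfg N) =
        b.act k (PT b c (brx b (omL b c (b.act k⁻¹ t)) (c + u))) := rfl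
    rw [LinearMap.comp_apply, LinearMap.comp_apply]
    change _ = (((tanE b hk hk') (VJac969.JL b c u ((tanE b hk hk').symm t)) : Tan b c) : Cfg N)
    rw [e1, e2, ← SlJ712.PT_act b hk, ← SlJ712.brx_adj, act_add, hk]
    refine SlJ712.PT_brx_congr b ?_ hu'
    have e3 := SlJ712.brx_adj b k (omL b c (b.act k⁻¹ t)) c
    rw [hk, brx_omL b (SlJ712.act_mem_Tan b hk' t.2), act_act_inv] at e3
    rw [e3, brx_omL b t.2]
  unfold VJac969.jd
  rw [h1, LinearMap.det_conj]

theorem jn_act {k : Matrix.specialUnitaryGroup (Fin N) ℂ} {c : Cfg N} (δ : ℝ)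
    (hk : b.act k c = c) {u : Cfg N} (hu : u ∈ Nor b c) :
    VJac969.jn b c δ (b.act k u) = VJac969.jn b c δ u := by
  unfold VJac969.jn
  rw [jd_act b hk hu]

/-! ## regular positions -/

variable {b} {S : Type} [Group S] [Fintype S] (C : Chn b p S)

theorem kk_le (X : Pos p) : C.kk ≤ kc (actB b) (C.cf X) := by
  intro u hu
  rw [kc_eq, ColAlg.mem_kk]
  intro i
  rw [Chn.comp_cf]
  exact C.cen_comm _ u hu

theorem cf_mem_Nor (X0 Y : Pos p) : C.cf Y ∈ Nor b (C.cf X0) := by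
  rw [← Nor_eq]
  refine Uk_le_Nor ?_
  intro i
  exact kk_le C X0 (by rw [Chn.comp_cf]; exact C.cen_mem _)

/-- the points of a slice ball around a regular position are regular -/
theorem reg_near {X0 X : Pos p} {r : ℝ} (h0 : C.Reg X0) (hg : Good b (C.cf X0) r)
    (hX : ‖X - X0‖ < r) : C.Reg X := by
  refine le_antisymm (fun u hu => ?_) (kk_le C X)
  have h1 : brx b u.ofLp (C.cf X) = 0 := by
    have := (mem_kc (A := actB b) (c := C.cf X) (w := u)).1 hu
    rwa [actB_apply] at this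
  have h2 : C.cf X = C.cf X0 + C.cf (X - X0) := by
    rw [← map_add]
    congr 1
    abel
  have h3 : brx b u.ofLp (C.cf X0) = 0 := by
    refine hg.nondeg (C.cf (X - X0)) u.ofLp (cf_mem_Nor C X0 _) ?_ ?_
    · rw [C.cf.norm_map]
      exact hX
    · rw [← h2, h1]
      exact Submodule.zero_mem _
  have h4 : u ∈ kc (actB b) (C.cf X0) := by
    rw [mem_kc, actB_apply]
    exact h3
  rwa [h0] at h4

theorem exists_disj {X0 : Pos p} (h0 : C.Reg X0) : ∃ δ : ℝ, 0 < δ ∧ ∀ r : ℝ, r ≤ δ →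
    ∀ s : S, s ≠ 1 → ∀ X : Pos p, ‖X - X0‖ < r → r ≤ ‖C.O s X - X0‖ := by
  have h1 : ∀ᶠ δ in 𝓝[>] (0 : ℝ), ∀ s : S, s ≠ 1 → 2 * δ ≤ ‖C.O s X0 - X0‖ := by
    rw [Filter.eventually_all]
    intro s
    by_cases hs : s = 1
    · exact Filter.Eventually.of_forall fun _ h => absurd hs h
    · have h2 : 0 < ‖C.O s X0 - X0‖ := by
        rw [norm_pos_iff, sub_ne_zero]
        intro h3
        exact hs (C.free s X0 h0 h3)
      have h3 : ∀ᶠ δ in 𝓝 (0 : ℝ), 2 * δ < ‖C.O s X0 - X0‖ := by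
        refine (continuous_const.mul continuous_id).continuousAt.eventually_lt
          continuousAt_const ?_
        simpa using h2
      filter_upwards [mem_nhdsWithin_of_mem_nhds h3] with δ hδ _
      exact hδ.le
  obtain ⟨δ, hδ, hpos⟩ := (h1.and self_mem_nhdsWithin).exists
  refine ⟨δ, hpos, fun r hr s hs X hX => ?_⟩
  have h2 := hδ s hs
  have h3 : ‖C.O s X - C.O s X0‖ = ‖X - X0‖ := by
    rw [← map_sub, (C.O s).norm_map]
  have h4 : ‖C.O s X0 - X0‖ ≤ ‖C.O s X - C.O s X0‖ + ‖C.O s X - X0‖ := by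
    have : C.O s X0 - X0 = -(C.O s X - C.O s X0) + (C.O s X - X0) := by abel
    rw [this]
    refine (norm_add_le _ _).trans ?_
    rw [norm_neg]
  rw [h3] at h4
  linarith

/-- the gap of the infinitesimal action at `c` -/
theorem exists_gapAt (c : Cfg N) : ∃ r₀ : ℝ, 0 < r₀ ∧ GapAt (actB b) c r₀ := by
  set L : (kc (actB b) c)ᗮ →ₗ[ℝ] Cfg N :=
    (((actB b).flip c).toLinearMap).comp ((kc (actB b) c)ᗮ).subtype with hL
  have hker : LinearMap.ker L = ⊥ := by
    rw [LinearMap.ker_eq_bot']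
    intro w hw
    have h1 : (w : Colg N) ∈ kc (actB b) c := hw
    have h2 := (Submodule.mem_orthogonal _ _).1 w.2 _ h1
    have h3 : (w : Colg N) = 0 := inner_self_eq_zero.1 h2
    exact Subtype.ext h3
  obtain ⟨K, hK, hKL⟩ := L.exists_antilipschitzWith hker
  refine ⟨(K : ℝ)⁻¹, inv_pos.2 (NNReal.coe_pos.2 hK), fun w hw => ?_⟩
  have h1 := hKL.le_mul_dist ⟨w, hw⟩ 0
  rw [map_zero, dist_zero_right, dist_zero_right] at h1
  have h2 : ‖(⟨w, hw⟩ : ((kc (actB b) c)ᗮ : Submodule ℝ (Colg N)))‖ = ‖w‖ := rfl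
  have h3 : ‖L ⟨w, hw⟩‖ = ‖actB b w c‖ := rfl
  rw [h2, h3] at h1
  rw [inv_mul_le_iff₀ (NNReal.coe_pos.2 hK)]
  exact h1

/-- **Slice charts of every small radius exist at every regular position**; the density
is `j = cst · |det (P_T [om_c(·), c + u])|` (969's `jn`), independent of the radius. -/
theorem exists_Sl_all {X0 : Pos p} (h0 : C.Reg X0) :
    ∃ r0 δ : ℝ, 0 < r0 ∧ r0 ≤ δ ∧ GoodRad b (C.cf X0) δ ∧ ∀ r : ℝ, 0 < r → r ≤ r0 →
      ∃ σ : Sl C, σ.X0 = X0 ∧ σ.r = r ∧ σ.j = VJac969.jn b (C.cf X0) δ := by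
  obtain ⟨δ, hδ⟩ := exists_goodRad b (C.cf X0)
  obtain ⟨r1, hr1, hg⟩ := exists_good (b := b) (C.cf X0)
  obtain ⟨r2, hr2, hd⟩ := exists_disj C h0
  obtain ⟨r₀, hr₀, hgap⟩ := exists_gapAt (b := b) (C.cf X0)
  obtain ⟨B, hB, hAB⟩ := exists_actBound b
  refine ⟨min (min (min δ r1) r2) (r₀ / (2 * B)), δ, lt_min (lt_min (lt_min hδ.pos hr1) hr2)
    (by positivity), ?_, hδ, fun r hrpos hle => ?_⟩
  · exact (min_le_left _ _).trans ((min_le_left _ _).trans (min_le_left _ _))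
  have hrm : r ≤ min (min δ r1) r2 := hle.trans (min_le_left _ _)
  have hrδ : r ≤ δ := hrm.trans ((min_le_left _ _).trans (min_le_left _ _))
  have hrr1 : r ≤ r1 := hrm.trans ((min_le_left _ _).trans (min_le_right _ _))
  have hrr2 : r ≤ r2 := hrm.trans (min_le_right _ _)
  have hrB : B * r ≤ r₀ / 2 := by
    have h1 : r ≤ r₀ / (2 * B) := hle.trans (min_le_right _ _)
    rw [le_div_iff₀ (by positivity)] at h1
    linarith
  have h2δ : ∀ {y : Cfg N}, ‖y‖ < r → ‖y‖ < 2 * δ := fun {y} hy => by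
    have := hδ.pos
    linarith
  exact ⟨{ X0 := X0, r := r, j := VJac969.jn b (C.cf X0) δ, pos := hrpos,
           good := hg.mono b hrr1
           grad := hδ.mono hrpos hrδ
           gap := ⟨r₀, B, hr₀, hB.le, hAB, hgap, hrB⟩
           reg := fun X hX => reg_near C h0 (hg.mono b hrr1) hX
           disj := hd r hrr2
           smooth := fun y hy hn => VJac969.contDiffAt_jn b hδ hy (h2δ hn)
           jpos := fun y hy hn => VJac969.jn_pos b hδ hy (h2δ hn)
           inv := fun k hk y hy _ => jn_act b δ hk hy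
           int := fun h hm hi => VJac969.slice_inv b hδ hrδ h hm hi }, rfl, rfl, rfl⟩

/-- Slice charts exist at every regular position, with arbitrarily small radius. -/
theorem exists_Sl' {X0 : Pos p} (h0 : C.Reg X0) {ε : ℝ} (hε : 0 < ε) :
    ∃ (σ : Sl C) (δ : ℝ), σ.X0 = X0 ∧ σ.r < ε ∧ GoodRad b (C.cf X0) δ ∧ σ.r ≤ δ ∧
      σ.j = VJac969.jn b (C.cf X0) δ := by
  obtain ⟨r0, δ, hr0, hrδ, hδ, h1⟩ := exists_Sl_all C h0
  obtain ⟨σ, h2, h3, h4⟩ := h1 (min r0 (ε / 2)) (lt_min hr0 (by positivity)) (min_le_left _ _)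
  refine ⟨σ, δ, h2, ?_, hδ, ?_, h4⟩
  · rw [h3]
    exact lt_of_le_of_lt (min_le_right _ _) (by linarith)
  · rw [h3]
    exact (min_le_left _ _).trans hrδ

/-- **Slice charts exist at every regular position, with arbitrarily small radius.** -/
theorem exists_Sl {X0 : Pos p} (h0 : C.Reg X0) {ε : ℝ} (hε : 0 < ε) :
    ∃ σ : Sl C, σ.X0 = X0 ∧ σ.r < ε := by
  obtain ⟨σ, δ, h1, h2, -⟩ := exists_Sl' C h0 hε
  exact ⟨σ, h1, h2⟩

/-- **Slice charts of a given radius exist at every regular position, for all small radii.** -/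
theorem exists_Sl_r {X0 : Pos p} (h0 : C.Reg X0) :
    ∃ r0 : ℝ, 0 < r0 ∧ ∀ r : ℝ, 0 < r → r ≤ r0 → ∃ σ : Sl C, σ.X0 = X0 ∧ σ.r = r := by
  obtain ⟨r0, δ, hr0, -, -, h1⟩ := exists_Sl_all C h0
  exact ⟨r0, hr0, fun r hr hle => by
    obtain ⟨σ, h2, h3, -⟩ := h1 r hr hle
    exact ⟨σ, h2, h3⟩⟩

/-- All the permuted centres have good radii at once. -/
theorem exists_goodRad_O (X0 : Pos p) : ∃ r0 : ℝ, 0 < r0 ∧ ∀ r : ℝ, 0 < r → r ≤ r0 →
    ∀ s : S, GoodRad b (C.cf (C.O s X0)) r := by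
  have h1 : ∀ᶠ δ in 𝓝[>] (0 : ℝ), ∀ s : S, GoodRad b (C.cf (C.O s X0)) δ := by
    rw [Filter.eventually_all]
    intro s
    obtain ⟨δ, hδ⟩ := exists_goodRad b (C.cf (C.O s X0))
    filter_upwards [Ioc_mem_nhdsGT hδ.pos] with r hr
    exact hδ.mono hr.1 hr.2
  obtain ⟨r0, h2, hpos⟩ := (h1.and self_mem_nhdsWithin).exists
  exact ⟨r0, hpos, fun r hr hle s => (h2 s).mono hr hle⟩

/-- **Charts of all small radii, such that the radius is good at all the permuted centres.** -/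
theorem exists_Sl_mv {X0 : Pos p} (h0 : C.Reg X0) :
    ∃ r0 : ℝ, 0 < r0 ∧ ∀ r : ℝ, 0 < r → r ≤ r0 → ∃ σ : Sl C, σ.X0 = X0 ∧ σ.r = r ∧
      ∀ s : S, GoodRad b (C.cf (C.O s σ.X0)) σ.r := by
  obtain ⟨r0, hr0, h1⟩ := exists_Sl_r C h0
  obtain ⟨r1, hr1, h2⟩ := exists_goodRad_O C X0
  refine ⟨min r0 r1, lt_min hr0 hr1, fun r hr hle => ?_⟩
  obtain ⟨σ, h3, h4⟩ := h1 r hr (hle.trans (min_le_left _ _))
  refine ⟨σ, h3, h4, ?_⟩
  rw [h3, h4]
  exact h2 r hr (hle.trans (min_le_right _ _))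

end Crest.Agent.R330.SlEx814

end
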