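import Crest.Agent.R330.Perm2_167
import Crest.Agent.R330.Conc_815
import Crest.Agent.R330.Pou_365
import Crest.Agent.R330.SlEx_814
import Crest.Agent.R330.ChSys_399

/-!
# Row 330, S8-PERM (helper167): Gram matrix of two generators

* `HCore`, `HIso`, `HChart`, `HConc` : core vectors, local isometry (G1), chart change (G3),
  concentration (G2).
* `mvA` : the amplitude moved by a permutation; `gram_near` : the limit when the moved support lies in
  the second chart; `gram_far` : the limit is zero if the orbits are disjoint.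
* **`gram`** : `∫⟪T^σ_χ, T^σ'_χ'⟫ → Σ_s ∫ ⟪ρ(w_s) χ(X), χ'(O_s X)⟫ dX`.
-/

set_option autoImplicit false
set_option linter.unusedSectionVars false

open MeasureTheory Filter Topology Crest.MathPhysics.MatrixQM
open scoped ContDiff InnerProductSpace ENNReal

noncomputable section

namespace Crest.Agent.R330.Gram167

open Crest.Agent.R330.Defs478 Crest.Agent.R330.LS839 Crest.Agent.R330.Frame839
  Crest.Agent.R330.Clus839
  Crest.Agent.R330.Bind6839 Crest.Agent.R330.SlG944 Crest.Agent.R330.SlF944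
  Crest.Agent.R330.IBP837 Crest.Agent.R330.FreeC122 Crest.Agent.R330.TDef414
  Crest.Agent.R330.TCore944 Crest.Agent.R330.Perm167 Crest.Agent.R330.Conc815
open Crest.Agent.R330.SlA314 (act_add act_sub act_smul act_one act_mul act_inv_act act_act_inv
  act_inner act_norm)
open Crest.Agent.R330.SlB314 (Nor Tan br mem_Nor)
open Crest.Agent.R330.SlD314 (tube mem_tube_iff)

variable {N p : ℕ}

local notation "SU" => Matrix.specialUnitaryGroup (Fin N) ℂ

/-! ## square integrable families -/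

section abstract

variable {E : Type*} [NormedAddCommGroup E] [MeasureSpace E] [BorelSpace E]
  {F : Type*} [NormedAddCommGroup F] [InnerProductSpace ℂ F]

theorem norm_inner_le {f h : E → F} (hf : MemLp f 2 volume) (hh : MemLp h 2 volume) :
    ‖∫ x, ⟪f x, h x⟫_ℂ‖ ≤ Real.sqrt (∫ x, ‖f x‖ ^ 2) * Real.sqrt (∫ x, ‖h x‖ ^ 2) := by
  have h1 : ‖∫ x, ⟪f x, h x⟫_ℂ‖ ≤ ∫ x, ‖f x‖ * ‖h x‖ := by
    refine (norm_integral_le_integral_norm _).trans ?_
    refine integral_mono_of_nonneg (Eventually.of_forall fun x => norm_nonneg _) ?_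
      (Eventually.of_forall fun x => norm_inner_le_norm _ _)
    exact MemLp.integrable_mul hf.norm hh.norm
  have h2 := integral_mul_norm_le_Lp_mul_Lq (μ := (volume : Measure E)) (f := f) (g := h)
    (p := 2) (q := 2) (by constructor <;> norm_num) (by simpa using hf) (by simpa using hh)
  refine h1.trans (h2.trans (le_of_eq ?_))
  rw [Real.sqrt_eq_rpow, Real.sqrt_eq_rpow]
  simp

theorem tendsto_inner_zero {l : Filter ℝ} {φ ψ : ℝ → E → F}
    (h0 : Tendsto (fun g => ∫ x, ‖φ g x‖ ^ 2) l (𝓝 0))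
    (hm : ∀ᶠ g in l, MemLp (φ g) 2 volume) (hb : Bdd l ψ) :
    Tendsto (fun g => ∫ x, ⟪φ g x, ψ g x⟫_ℂ) l (𝓝 0) := by
  obtain ⟨K, hK, hb⟩ := hb
  have h1 : Tendsto (fun g => Real.sqrt (∫ x, ‖φ g x‖ ^ 2) * Real.sqrt K) l (𝓝 0) := by
    have := ((Real.continuous_sqrt.tendsto 0).comp h0).mul_const (Real.sqrt K)
    simpa using this
  refine squeeze_zero_norm' ?_ h1
  filter_upwards [hm, hb] with g hg1 hg2
  refine (norm_inner_le hg1 hg2.1).trans ?_
  exact mul_le_mul_of_nonneg_left (Real.sqrt_le_sqrt hg2.2) (Real.sqrt_nonneg _)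

theorem integrable_inner' {f h : E → F} (hf : MemLp f 2 volume) (hh : MemLp h 2 volume) :
    Integrable (fun x => ⟪f x, h x⟫_ℂ) := by
  refine (MemLp.integrable_mul hf.norm hh.norm).mono'
    (hf.aestronglyMeasurable.inner hh.aestronglyMeasurable) ?_
  exact Eventually.of_forall fun x => norm_inner_le_norm _ _

end abstract

variable {b : ColorBasis N} {S : Type} [Group S] [Fintype S] {C : Chn b p S}
variable {F : Type*} [NormedAddCommGroup F] [InnerProductSpace ℂ F] [FiniteDimensional ℂ F]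
variable {M : FermionRep N F} {R : GaugeAction b M} {G : GammaNine}

/-! ## inputs -/

/-- Trial states are core vectors for large coupling. -/
def HCore (P : TPack C M R G) : Prop :=
  ∀ (σ : Sl C) (χ : Amp M G σ), ∀ᶠ g in atTop, IsCoreVec b R (Tgen P σ g χ.fn)

/-- (G1): local isometry. -/
def HIso (P : TPack C M R G) : Prop :=
  ∀ (σ : Sl C) (χ χ' : Amp M G σ),
    Tendsto (fun g => ∫ x, ⟪Tgen P σ g χ.fn x, Tgen P σ g χ'.fn x⟫_ℂ) atTop
      (𝓝 (∫ X, ⟪(χ.fn X : F), (χ'.fn X : F)⟫_ℂ))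

/-- (G3): change of charts. -/
def HChart (P : TPack C M R G) : Prop :=
  ∀ (σ σ' : Sl C) (χ : Amp M G σ) (χ' : Amp M G σ'), χ.fn = χ'.fn →
    Tendsto (fun g => ∫ x, ‖Tgen P σ g χ.fn x - Tgen P σ' g χ'.fn x‖ ^ 2) atTop (𝓝 0)

/-- The orbit of the configurations with positions in `K`. -/
def orb (C : Chn b p S) (K : Set (Pos p)) : Set (Cfg N) :=
  {x | ∃ (h : SU), ∃ X ∈ K, b.act h (C.cf X) = x}

/-- (G2): concentration. -/
def HConc (P : TPack C M R G) : Prop :=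
  ∀ (σ : Sl C) (χ : Amp M G σ),
    Conc atTop (fun g => Tgen P σ g χ.fn) {x | ∃ (h : SU), ∃ X ∈ tsupport χ.fn,
      b.act h (C.cf X) = x}

theorem isCompact_orb {K : Set (Pos p)} (hK : IsCompact K) : IsCompact (orb C K) := by
  have h1 : IsCompact ((Set.univ : Set SU) ×ˢ K) := isCompact_univ.prod hK
  have h2 : Continuous fun q : SU × Pos p => b.act q.1 (C.cf q.2) := by
    have h0 : Continuous fun q : SU × Pos p => C.cf q.2 := C.cf.continuous.comp continuous_snd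
    have h3 : Continuous fun q : SU × Pos p => ((q.1, C.cf q.2) : SU × Cfg N) :=
      continuous_fst.prodMk h0
    exact Continuous.comp (g := fun q : SU × Cfg N => b.act q.1 q.2)
      (f := fun q : SU × Pos p => ((q.1, C.cf q.2) : SU × Cfg N)) (SlD314.continuous_act b) h3
  have h4 := h1.image h2
  convert h4 using 1
  ext x
  constructor
  · rintro ⟨h, X, hX, rfl⟩
    exact ⟨(h, X), ⟨trivial, hX⟩, rfl⟩
  · rintro ⟨⟨h, X⟩, ⟨-, hX⟩, rfl⟩
    exact ⟨h, X, hX, rfl⟩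

theorem memLp_core' {φ : Cfg N → F} (h : IsCoreVec b R φ) : MemLp φ 2 volume :=
  h.1.continuous.memLp_of_hasCompactSupport h.2.1

theorem integral_self {φ : Cfg N → F} :
    ∫ x, ⟪φ x, φ x⟫_ℂ = ((∫ x, ‖φ x‖ ^ 2 : ℝ) : ℂ) := by
  rw [← integral_complex_ofReal]
  refine integral_congr_ae (Eventually.of_forall fun x => ?_)
  simp only
  rw [inner_self_eq_norm_sq_to_K]
  norm_cast

variable {P : TPack C M R G}

theorem bdd (h1 : HCore P) (h2 : HIso P) (σ : Sl C) (χ : Amp M G σ) :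
    Bdd atTop (fun g => Tgen P σ g χ.fn) := by
  have h3 := h2 σ χ χ
  simp only [integral_self] at h3
  have h4 := (Complex.continuous_re.tendsto _).comp h3
  have h5 : Tendsto (fun g => ∫ x, ‖Tgen P σ g χ.fn x‖ ^ 2) atTop
      (𝓝 (∫ X, ⟪(χ.fn X : F), (χ.fn X : F)⟫_ℂ).re) := h4
  refine ⟨|(∫ X, ⟪(χ.fn X : F), (χ.fn X : F)⟫_ℂ).re| + 1, by positivity, ?_⟩
  filter_upwards [h1 σ χ, h5.eventually_lt_const (u := |(∫ X, ⟪(χ.fn X : F),
    (χ.fn X : F)⟫_ℂ).re| + 1) (lt_of_le_of_lt (le_abs_self _) (lt_add_one _))] with g hg1 hg2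
  exact ⟨memLp_core' hg1, hg2.le⟩

/-! ## the moved amplitude -/

theorem rho_mem (P : TPack C M R G) (σ : Sl C) (s : S) {f : F} (hf : f ∈ C.Fx M G) :
    R.ρ (C.w s) f ∈ C.Fx M G :=
  (P.Psi_cov (C.w s) σ.X0 (C.O s σ.X0) (Sl.reg0 σ)
    ((cov_w C s).reg (Sl.reg0 σ)) (C.act_O s _) 0 0 (Submodule.zero_mem _) f hf).1

/-- `ρ(w_s)` on the amplitude space. -/
def uS (P : TPack C M R G) (σ : Sl C) (s : S) : C.Fx M G →ₗ[ℂ] C.Fx M G :=
  (R.ρ (C.w s) : F →ₗ[ℂ] F).restrict fun _ hf => rho_mem P σ s hf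

theorem uS_coe (P : TPack C M R G) (σ : Sl C) (s : S) (f : C.Fx M G) :
    (uS P σ s f : F) = R.ρ (C.w s) f := rfl

theorem tsupport_mv {χ : Pos p → C.Fx M G} (P : TPack C M R G) (σ : Sl C) (s : S) {X : Pos p}
    (hX : X ∈ tsupport fun X => uS P σ s (χ (C.O s⁻¹ X))) : C.O s⁻¹ X ∈ tsupport χ := by
  have h1 : IsClosed ((C.O s⁻¹) ⁻¹' tsupport χ) :=
    (isClosed_tsupport χ).preimage (C.O s⁻¹).continuous
  refine closure_minimal (fun Y hY => ?_) h1 hX
  refine subset_tsupport _ fun h2 => hY ?_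
  simp only [h2, map_zero]

theorem contDiff_mv (P : TPack C M R G) (σ : Sl C) (s : S) {χ : Pos p → C.Fx M G}
    (hχ : ContDiff ℝ ∞ χ) : ContDiff ℝ ∞ fun X => uS P σ s (χ (C.O s⁻¹ X)) :=
  (((uS P σ s).toContinuousLinearMap).restrictScalars ℝ).contDiff.comp
    (hχ.comp (C.O s⁻¹).contDiff)

/-- The amplitude moved by a permutation, in a chart containing its support. -/
def mvB (P : TPack C M R G) {σ : Sl C} (χ : Amp M G σ) (s : S) (σ' : Sl C)
    (h : ∀ X ∈ tsupport χ.fn, C.O s X ∈ Metric.ball σ'.X0 (σ'.r / 4)) : Amp M G σ' where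
  fn X := uS P σ s (χ.fn (C.O s⁻¹ X))
  smooth := contDiff_mv P σ s χ.smooth
  supp X hX := by
    have h1 := h _ (tsupport_mv P σ s hX)
    rwa [O_O_inv] at h1
  off X hX := by
    have h1 := (cov_w C s).breg (Sl.reg0 σ) (χ.off _ (tsupport_mv P σ s hX))
    rwa [O_O_inv] at h1

/-- The same amplitude in another chart. -/
def reA {σ : Sl C} (χ : Amp M G σ) (σ' : Sl C)
    (h : tsupport χ.fn ⊆ Metric.ball σ'.X0 (σ'.r / 4)) : Amp M G σ' :=
  ⟨χ.fn, χ.smooth, h, χ.off⟩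

/-! ## near pairs -/

/-- The limit Gram matrix. -/
def gr (R : GaugeAction b M) (χ χ' : Pos p → C.Fx M G) (s : S) : ℂ :=
  ∫ X, ⟪R.ρ (C.w s) (χ X : F), (χ' (C.O s X) : F)⟫_ℂ

/-- Two charts: the trial states of the amplitude and of the moved amplitude. -/
theorem near_diff (h1 : HCore P) (h3 : HChart P) {σ σ' : Sl C} (χ : Amp M G σ) (s : S)
    (h : ∀ X ∈ tsupport χ.fn, C.O s X ∈ Metric.ball σ'.X0 (σ'.r / 4)) (σ1 : Sl C)
    (hgr : SlP314.GoodRad b (C.cf (C.O s σ1.X0)) σ1.r)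
    (hσ1 : tsupport χ.fn ⊆ Metric.ball σ1.X0 (σ1.r / 4)) :
    Tendsto (fun g => ∫ x, ‖Tgen P σ g χ.fn x - Tgen P σ' g (mvB P χ s σ' h).fn x‖ ^ 2) atTop
      (𝓝 0) := by
  set χ1 := reA χ σ1 hσ1
  have hmv : ∀ X ∈ tsupport χ1.fn, C.O s X ∈ Metric.ball (mv σ1 s hgr).X0 ((mv σ1 s hgr).r / 4) := by
    intro X hX
    have := hσ1 hX
    rw [mem_ball_iff_norm] at this ⊢
    rw [mv_X0, mv_r, ← map_sub, LinearIsometryEquiv.norm_map]
    exact this
  set χA := mvB P χ1 s (mv σ1 s hgr) hmv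
  set χB := mvB P χ s σ' h
  have hfn : χA.fn = χB.fn := rfl
  have e1 : ∀ g, Tgen P (mv σ1 s hgr) g χA.fn = Tgen P σ1 g χ1.fn := fun g =>
    Tgen_mv P σ1 s hgr g (fun X _ => by
      show (uS P σ1 s (χ1.fn (C.O s⁻¹ (C.O s X))) : F) = _
      rw [O_inv_O, uS_coe]) (amp_breg χ1)
  have h4 := h3 (mv σ1 s hgr) σ' χA χB hfn
  have h5 := h3 σ σ1 χ χ1 rfl
  have h6 : Tendsto (fun g => 2 * (∫ x, ‖Tgen P σ g χ.fn x - Tgen P σ1 g χ1.fn x‖ ^ 2) +
      2 * ∫ x, ‖Tgen P (mv σ1 s hgr) g χA.fn x - Tgen P σ' g χB.fn x‖ ^ 2) atTop (𝓝 0) := by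
    simpa using (h5.const_mul 2).add (h4.const_mul 2)
  refine tendsto_of_tendsto_of_tendsto_of_le_of_le' tendsto_const_nhds h6
    (Eventually.of_forall fun g => integral_nonneg fun x => by positivity) ?_
  filter_upwards [h1 _ χ, h1 _ χ1, h1 _ χA, h1 _ χB] with g hg1 hg2 hg3 hg4
  have m1 : MemLp (fun x => Tgen P σ g χ.fn x - Tgen P σ1 g χ1.fn x) 2 volume :=
    (memLp_core' hg1).sub (memLp_core' hg2)
  have m2 : MemLp (fun x => Tgen P (mv σ1 s hgr) g χA.fn x - Tgen P σ' g χB.fn x) 2 volume :=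
    (memLp_core' hg3).sub (memLp_core' hg4)
  rw [← integral_const_mul, ← integral_const_mul,
    ← integral_add ((sq_int m1).const_mul _) ((sq_int m2).const_mul _)]
  refine integral_mono_of_nonneg (Eventually.of_forall fun x => by positivity)
    (((sq_int m1).const_mul _).add ((sq_int m2).const_mul _)) (Eventually.of_forall fun x => ?_)
  have e2 : Tgen P σ g χ.fn x - Tgen P σ' g χB.fn x =
      (Tgen P σ g χ.fn x - Tgen P σ1 g χ1.fn x) +
        (Tgen P (mv σ1 s hgr) g χA.fn x - Tgen P σ' g χB.fn x) := by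
    rw [e1 g]
    abel
  change ‖Tgen P σ g χ.fn x - Tgen P σ' g χB.fn x‖ ^ 2 ≤
    2 * ‖Tgen P σ g χ.fn x - Tgen P σ1 g χ1.fn x‖ ^ 2 +
      2 * ‖Tgen P (mv σ1 s hgr) g χA.fn x - Tgen P σ' g χB.fn x‖ ^ 2
  rw [e2]
  have h7 := norm_add_le (Tgen P σ g χ.fn x - Tgen P σ1 g χ1.fn x)
    (Tgen P (mv σ1 s hgr) g χA.fn x - Tgen P σ' g χB.fn x)
  have h8 := pow_le_pow_left₀ (norm_nonneg _) h7 2
  nlinarith [sq_nonneg (‖Tgen P σ g χ.fn x - Tgen P σ1 g χ1.fn x‖ -
    ‖Tgen P (mv σ1 s hgr) g χA.fn x - Tgen P σ' g χB.fn x‖)]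

theorem gram_near (h1 : HCore P) (h2 : HIso P) (h3 : HChart P) {σ σ' : Sl C}
    (χ : Amp M G σ) (χ' : Amp M G σ') (s : S)
    (h : ∀ X ∈ tsupport χ.fn, C.O s X ∈ Metric.ball σ'.X0 (σ'.r / 4)) (σ1 : Sl C)
    (hgr : SlP314.GoodRad b (C.cf (C.O s σ1.X0)) σ1.r)
    (hσ1 : tsupport χ.fn ⊆ Metric.ball σ1.X0 (σ1.r / 4)) :
    Tendsto (fun g => ∫ x, ⟪Tgen P σ g χ.fn x, Tgen P σ' g χ'.fn x⟫_ℂ) atTop
      (𝓝 (∑ t, gr R χ.fn χ'.fn t)) := by
  set χB := mvB P χ s σ' h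
  have h4 := near_diff h1 h3 χ s h σ1 hgr hσ1
  have h5 : Tendsto (fun g => ∫ x, ⟪Tgen P σ g χ.fn x - Tgen P σ' g χB.fn x,
      Tgen P σ' g χ'.fn x⟫_ℂ) atTop (𝓝 0) := by
    refine tendsto_inner_zero h4 ?_ (bdd h1 h2 σ' χ')
    filter_upwards [h1 _ χ, h1 _ χB] with g hg1 hg2
    exact (memLp_core' hg1).sub (memLp_core' hg2)
  have h6 := h5.add (h2 σ' χB χ')
  have e2 : (0 : ℂ) + ∫ X, ⟪(χB.fn X : F), (χ'.fn X : F)⟫_ℂ = ∑ t, gr R χ.fn χ'.fn t := by
    rw [zero_add, Finset.sum_eq_single s]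
    · unfold gr
      have h7 := (C.O s).measurePreserving.integral_comp
        (C.O s).toHomeomorph.measurableEmbedding (fun X => ⟪(χB.fn X : F), (χ'.fn X : F)⟫_ℂ)
      rw [← h7]
      refine integral_congr_ae (Eventually.of_forall fun X => ?_)
      show ⟪(uS P σ s (χ.fn (C.O s⁻¹ (C.O s X))) : F), _⟫_ℂ = _
      rw [O_inv_O, uS_coe]
    · intro t _ ht
      unfold gr
      rw [← integral_zero (Pos p) ℂ (μ := volume)]
      refine integral_congr_ae (Eventually.of_forall fun X => ?_)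
      show ⟪R.ρ (C.w t) (χ.fn X : F), (χ'.fn (C.O t X) : F)⟫_ℂ = 0
      by_cases hX : X ∈ tsupport χ.fn
      · have h8 := h X hX
        have h9 : C.O t X ∉ tsupport χ'.fn := by
          intro h10
          have h11 := χ'.supp h10
          rw [mem_ball_iff_norm] at h8 h11
          have h12 := σ'.disj (t * s⁻¹) (fun h => ht (by rwa [mul_inv_eq_one] at h)) (C.O s X)
            (h8.trans (by linarith [σ'.pos]))
          rw [O_mul, O_inv_O] at h12
          linarith [σ'.pos]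
        rw [image_eq_zero_of_notMem_tsupport h9]
        simp
      · rw [image_eq_zero_of_notMem_tsupport hX]
        simp
    · intro hs
      exact absurd (Finset.mem_univ s) hs
  rw [e2] at h6
  refine h6.congr' ?_
  filter_upwards [h1 _ χ, h1 _ χB, h1 _ χ'] with g hg1 hg2 hg3
  have hm1 := memLp_core' hg1
  have hm2 := memLp_core' hg2
  have hm3 := memLp_core' hg3
  have hm12 : MemLp (fun x => Tgen P σ g χ.fn x - Tgen P σ' g χB.fn x) 2 volume :=
    hm1.sub hm2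
  rw [← integral_add (integrable_inner' hm12 hm3) (integrable_inner' hm2 hm3)]
  refine integral_congr_ae (Eventually.of_forall fun x => ?_)
  simp only
  rw [← inner_add_left, sub_add_cancel]

/-! ## far pairs -/

theorem gram_far (h1 : HCore P) (h2 : HIso P) (h4 : HConc P) {σ σ' : Sl C}
    (χ : Amp M G σ) (χ' : Amp M G σ')
    (h : ∀ X ∈ tsupport χ.fn, ∀ s, C.O s X ∉ tsupport χ'.fn) :
    Tendsto (fun g => ∫ x, ⟪Tgen P σ g χ.fn x, Tgen P σ' g χ'.fn x⟫_ℂ) atTop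
      (𝓝 (∑ t, gr R χ.fn χ'.fn t)) := by
  have e0 : ∑ t, gr R χ.fn χ'.fn t = 0 := by
    refine Finset.sum_eq_zero fun t _ => ?_
    unfold gr
    rw [← integral_zero (Pos p) ℂ (μ := volume)]
    refine integral_congr_ae (Eventually.of_forall fun X => ?_)
    show ⟪R.ρ (C.w t) (χ.fn X : F), (χ'.fn (C.O t X) : F)⟫_ℂ = 0
    by_cases hX : X ∈ tsupport χ.fn
    · rw [image_eq_zero_of_notMem_tsupport (h X hX t)]
      simp
    · rw [image_eq_zero_of_notMem_tsupport hX]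
      simp
  rw [e0]
  refine inner_tendsto_zero (isCompact_orb χ.compact) (isCompact_orb χ'.compact).isClosed ?_
    (h4 σ χ) (h4 σ' χ') (bdd h1 h2 σ χ) (bdd h1 h2 σ' χ')
  rw [Set.disjoint_left]
  rintro x ⟨k, X, hX, rfl⟩ ⟨k', X', hX', he⟩
  have hr : C.BReg X := χ.off X hX
  have hr' : C.BReg X' := χ'.off X' hX'
  have he' : b.act (k'⁻¹ * k) (C.cf X) = C.cf X' := by
    rw [act_mul, ← he, act_inv_act]
  obtain ⟨s, hs⟩ := C.orbit X X' (k'⁻¹ * k) hr.reg hr'.reg he'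
  exact h X hX s (by rw [show C.O s X = X' from hs.symm]; exact hX')

/-! ## all pairs -/

/-- **S8-PERM**: the Gram matrix of two generators in the limit `g → ∞`. -/
theorem gram (h1 : HCore P) (h2 : HIso P) (h3 : HChart P) (h4 : HConc P) {σ σ' : Sl C}
    (χ : Amp M G σ) (χ' : Amp M G σ') :
    Tendsto (fun g => ∫ x, ⟪Tgen P σ g χ.fn x, Tgen P σ' g χ'.fn x⟫_ℂ) atTop
      (𝓝 (∑ s, ∫ X, ⟪R.ρ (C.w s) (χ.fn X : F), (χ'.fn (C.O s X) : F)⟫_ℂ)) := by
  classical
  -- small charts at the points of the support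
  have hch : ∀ X : {X : Pos p // X ∈ tsupport χ.fn}, ∃ σ1 : Sl C, σ1.X0 = X ∧
      ∀ s : S, SlP314.GoodRad b (C.cf (C.O s σ1.X0)) σ1.r := by
    intro X
    obtain ⟨r0, hr0, h5⟩ := SlEx814.exists_Sl_mv C (X0 := X.1) (χ.off X.1 X.2).reg
    obtain ⟨σ1, h6, -, h7⟩ := h5 r0 hr0 le_rfl
    exact ⟨σ1, h6, h7⟩
  choose σ1 hσ1 hgr using hch
  set U : Option (S × {X : Pos p // X ∈ tsupport χ.fn}) → Set (Pos p) := fun i => match i with
    | none => ⋂ s, (C.O s) ⁻¹' (tsupport χ'.fn)ᶜ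
    | some q => (C.O q.1) ⁻¹' Metric.ball σ'.X0 (σ'.r / 4) ∩
        Metric.ball (σ1 q.2).X0 ((σ1 q.2).r / 4) with hU
  have hUo : ∀ i, IsOpen (U i) := by
    rintro (_ | q)
    · exact isOpen_iInter_of_finite fun s =>
        (isClosed_tsupport _).isOpen_compl.preimage (C.O s).continuous
    · exact (Metric.isOpen_ball.preimage (C.O q.1).continuous).inter Metric.isOpen_ball
  have hcov : tsupport χ.fn ⊆ ⋃ i, U i := by
    intro X hX0
    by_cases hX : ∀ s, C.O s X ∉ tsupport χ'.fn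
    · exact Set.mem_iUnion.2 ⟨none, Set.mem_iInter.2 hX⟩
    · rw [not_forall] at hX
      obtain ⟨s, hs⟩ := hX
      rw [not_not] at hs
      refine Set.mem_iUnion.2 ⟨some (s, ⟨X, hX0⟩), χ'.supp hs, ?_⟩
      show X ∈ Metric.ball (σ1 ⟨X, hX0⟩).X0 ((σ1 ⟨X, hX0⟩).r / 4)
      rw [hσ1]
      exact Metric.mem_ball_self (by linarith [(σ1 ⟨X, hX0⟩).pos])
  obtain ⟨I, χi, hs1, hs2, hs3, hs4⟩ := Pou365.exists_rep hUo χ.smooth χ.compact hcov
  let A : Option (S × {X : Pos p // X ∈ tsupport χ.fn}) → Amp M G σ := fun i =>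
    ⟨χi i, hs1 i, fun X hX => χ.supp ((hs3 i hX).2), fun X hX => χ.off X (hs3 i hX).2⟩
  have hlim : ∀ i, Tendsto (fun g => ∫ x, ⟪Tgen P σ g (A i).fn x, Tgen P σ' g χ'.fn x⟫_ℂ) atTop
      (𝓝 (∑ t, gr R (A i).fn χ'.fn t)) := by
    rintro (_ | q)
    · exact gram_far h1 h2 h4 (A none) χ' fun X hX s => Set.mem_iInter.1 (hs3 none hX).1 s
    · exact gram_near h1 h2 h3 (A (some q)) χ' q.1 (fun X hX => (hs3 (some q) hX).1.1) (σ1 q.2)
        (hgr q.2 q.1) fun X hX => (hs3 (some q) hX).1.2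
  have hsum := tendsto_finsetSum I fun i _ => hlim i
  have e1 : χ.fn = fun X => ∑ i ∈ I, χi i X := funext hs4
  have e2 : ∑ i ∈ I, ∑ t, gr R (A i).fn χ'.fn t =
      ∑ s, ∫ X, ⟪R.ρ (C.w s) (χ.fn X : F), (χ'.fn (C.O s X) : F)⟫_ℂ := by
    rw [Finset.sum_comm]
    refine Finset.sum_congr rfl fun t _ => ?_
    unfold gr
    rw [← integral_finsetSum]
    · refine integral_congr_ae (Eventually.of_forall fun X => ?_)
      simp only
      rw [hs4 X, Submodule.coe_sum, map_sum, sum_inner]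
    · intro i _
      have hc1 : Continuous fun X => (R.ρ (C.w t) ((A i).fn X : F)) :=
        (LinearMap.toContinuousLinearMap (R.ρ (C.w t) : F →ₗ[ℂ] F)).continuous.comp
          (continuous_subtype_val.comp (A i).smooth.continuous)
      have hc2 : Continuous fun X => ((χ'.fn (C.O t X) : F)) :=
        continuous_subtype_val.comp (χ'.smooth.continuous.comp (C.O t).continuous)
      refine (hc1.inner hc2).integrable_of_hasCompactSupport ?_
      refine HasCompactSupport.intro (A i).compact fun X hX => ?_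
      rw [image_eq_zero_of_notMem_tsupport hX]
      simp
  rw [e2] at hsum
  refine hsum.congr' ?_
  have hall : ∀ᶠ g in atTop, ∀ i ∈ I, IsCoreVec b R (Tgen P σ g (A i).fn) :=
    (Filter.eventually_all_finset I).2 fun i _ => h1 σ (A i)
  filter_upwards [hall, h1 _ χ'] with g hg1 hg2
  rw [← integral_finsetSum I fun i hi =>
    integrable_inner' (memLp_core' (hg1 i hi)) (memLp_core' hg2)]
  refine integral_congr_ae (Eventually.of_forall fun x => ?_)
  simp only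
  have e3 : Tgen P σ g χ.fn x = ∑ i ∈ I, Tgen P σ g (A i).fn x :=
    (congrFun (congrArg (Tgen P σ g) e1) x).trans (Tgen_sum P σ g I χi x)
  rw [e3, sum_inner]

section type0

variable {F₀ : Type} [NormedAddCommGroup F₀] [InnerProductSpace ℂ F₀] [FiniteDimensional ℂ F₀]
variable {M₀ : FermionRep N F₀} {R₀ : GaugeAction b M₀} {P₀ : TPack C M₀ R₀ G}

/-- (T4) in the form of `ChSys399`. -/
theorem gramT (h1 : HCore P₀) (h2 : HIso P₀) (h3 : HChart P₀) (h4 : HConc P₀) :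
    ChSys399.GramT P₀ := fun _ _ χ χ' => gram h1 h2 h3 h4 χ χ'

theorem hcore_iff : HCore P₀ ↔ ChSys399.CoreT P₀ := Iff.rfl

end type0

end Crest.Agent.R330.Gram167

end
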