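import Mathlib
import Crest.Prelude.Def_MatrixModel

/-!
# Row 330, S0513: frozen definitions of the symmetries (helper726)

For a real `9 × 9` matrix `a`:

* `vf a x` : `(vf a x)(i,A) = ∑_j a_{ij} x(j,A)` (the matrix acts on the spatial index);
* `Sp M G a = (1/8) ∑_{i,l} a_{li} ∑_A ∑_{αβ} (γ^i γ^l)_{αβ} θ_α^A θ_β^A` (the spin generator);
* `eS M G a t = exp (t S_a)` on `F`;
* `U M G a t φ x = exp (t S_a) (φ (exp (t a) x))`;
* `Jg M G a φ x = Dφ(x)(vf a x) + S_a (φ x)` (the generator);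
* `rot j k` : the generator of the plane `(j,k)`: `vf (rot j k) x` has `k`-component `x_j` and
  `j`-component `-x_k`, so `Jg (rot j k) = x_j·∂_k - x_k·∂_j + (1/4) θ γ^j γ^k θ`;
* `KP = rot 0 1 + rot 2 3`, `KM 0 = rot 0 1 - rot 2 3`, `KM 1 = rot 0 2 + rot 1 3`,
  `KM 2 = rot 0 3 - rot 1 2`.
-/

set_option autoImplicit false

open MeasureTheory Filter Topology
open scoped ContDiff InnerProductSpace ENNReal
open Crest.MathPhysics.MatrixQM

noncomputable section

namespace Crest.Agent.R330.SDefs726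

variable {N : ℕ} {F : Type*} [NormedAddCommGroup F] [InnerProductSpace ℂ F]

/-- the matrix `a` acting on the spatial index -/
def vf (a : Matrix (Fin 9) (Fin 9) ℝ) (x : Cfg N) : Cfg N :=
  WithLp.toLp 2 fun k => ∑ j, a k.1 j * x (j, k.2)

/-- the spin generator -/
def Sp (M : FermionRep N F) (G : GammaNine) (a : Matrix (Fin 9) (Fin 9) ℝ) : F →ₗ[ℂ] F :=
  (1 / 8 : ℂ) • ∑ i : Fin 9, ∑ l : Fin 9, (a l i : ℂ) • ∑ A : Fin (N ^ 2 - 1),
    ∑ α : Fin 16, ∑ β : Fin 16, (((G.γ i * G.γ l) α β : ℝ) : ℂ) • (M.θ α A ∘ₗ M.θ β A)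

/-- the spin lift `exp (t S_a)` -/
def eS [FiniteDimensional ℂ F] (M : FermionRep N F) (G : GammaNine)
    (a : Matrix (Fin 9) (Fin 9) ℝ) (t : ℝ) : F →L[ℂ] F :=
  NormedSpace.exp ((t : ℂ) • LinearMap.toContinuousLinearMap (Sp M G a))

/-- the one-parameter group `U_a(t) φ (x) = exp (t S_a) φ (exp (t a) x)` -/
def U [FiniteDimensional ℂ F] (M : FermionRep N F) (G : GammaNine)
    (a : Matrix (Fin 9) (Fin 9) ℝ) (t : ℝ) (φ : Cfg N → F) (x : Cfg N) : F :=
  eS M G a t (φ (vf (NormedSpace.exp (t • a)) x))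

/-- the generator `J_a φ (x) = Dφ(x)(a x) + S_a φ(x)` -/
def Jg (M : FermionRep N F) (G : GammaNine) (a : Matrix (Fin 9) (Fin 9) ℝ) (φ : Cfg N → F)
    (x : Cfg N) : F :=
  fderiv ℝ φ x (vf a x) + Sp M G a (φ x)

/-- the generator of rotations in the plane `(j,k)` -/
def rot (j k : Fin 9) : Matrix (Fin 9) (Fin 9) ℝ := Matrix.single k j 1 - Matrix.single j k 1

/-- the left generator whose weight is prescribed -/
def KP : Matrix (Fin 9) (Fin 9) ℝ := rot 0 1 + rot 2 3

/-- the three right generators -/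
def KM : Fin 3 → Matrix (Fin 9) (Fin 9) ℝ
  | 0 => rot 0 1 - rot 2 3
  | 1 => rot 0 2 + rot 1 3
  | 2 => rot 0 3 - rot 1 2

/-- the sector: invariant under the three right groups, weight `m` under the left group -/
def Sec [FiniteDimensional ℂ F] (M : FermionRep N F) (G : GammaNine) (m : ℝ)
    (φ : Cfg N → F) : Prop :=
  (∀ (a : Fin 3) (t : ℝ), U M G (KM a) t φ = φ) ∧
    ∀ t : ℝ, U M G KP t φ = Complex.exp ((m * t : ℝ) * Complex.I) • φ

/-- **the literal output of the leaf S13.N**: arbitrarily large weights with infinitely many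
core vectors of disjoint supports -/
def SecInf [FiniteDimensional ℂ F] (b : ColorBasis N) (M : FermionRep N F)
    (R : GaugeAction b M) (G : GammaNine) : Prop :=
  ∀ m₀ : ℝ, ∃ m : ℝ, m₀ ≤ m ∧ ∃ φ : ℕ → Cfg N → F, (∀ n, IsCoreVec b R (φ n)) ∧
    (∀ n, Sec M G m (φ n)) ∧ (∀ n, φ n ≠ 0) ∧ ∀ n k, n ≠ k → ∀ x, φ n x = 0 ∨ φ k x = 0

theorem vf_apply (a : Matrix (Fin 9) (Fin 9) ℝ) (x : Cfg N) (i : Fin 9) (A : Fin (N ^ 2 - 1)) :
    vf a x (i, A) = ∑ j, a i j * x (j, A) := rfl

theorem vf_one (x : Cfg N) : vf 1 x = x := by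
  ext ⟨i, A⟩
  simp [vf_apply, Matrix.one_apply]

theorem vf_mul (a c : Matrix (Fin 9) (Fin 9) ℝ) (x : Cfg N) : vf (a * c) x = vf a (vf c x) := by
  ext ⟨i, A⟩
  simp only [vf_apply, Matrix.mul_apply, Finset.sum_mul, Finset.mul_sum]
  rw [Finset.sum_comm]
  exact Finset.sum_congr rfl fun j _ => Finset.sum_congr rfl fun l _ => by ring

theorem vf_add (a c : Matrix (Fin 9) (Fin 9) ℝ) (x : Cfg N) :
    vf (a + c) x = vf a x + vf c x := by
  ext ⟨i, A⟩
  simp [vf_apply, add_mul, Finset.sum_add_distrib]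

theorem vf_sub (a c : Matrix (Fin 9) (Fin 9) ℝ) (x : Cfg N) :
    vf (a - c) x = vf a x - vf c x := by
  ext ⟨i, A⟩
  simp [vf_apply, sub_mul, Finset.sum_sub_distrib]

theorem rot_transpose (j k : Fin 9) : (rot j k).transpose = -rot j k := by
  simp [rot, Matrix.transpose_sub]

theorem KP_transpose : KP.transpose = -KP := by
  simp only [KP, Matrix.transpose_add, rot_transpose]
  abel

theorem KM_transpose (a : Fin 3) : (KM a).transpose = -KM a := by
  fin_cases a
  · simp only [KM, Matrix.transpose_sub, rot_transpose]; abel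
  · simp only [KM, Matrix.transpose_add, rot_transpose]; abel
  · simp only [KM, Matrix.transpose_sub, rot_transpose]; abel

/-- components of the rotation field -/
theorem vf_rot (j k : Fin 9) (x : Cfg N) (i : Fin 9) (A : Fin (N ^ 2 - 1)) :
    vf (rot j k) x (i, A) = (if i = k then x (j, A) else 0) - (if i = j then x (k, A) else 0) := by
  rw [vf_apply]
  simp only [rot, Matrix.sub_apply, Matrix.single_apply, sub_mul, Finset.sum_sub_distrib]
  congr 1
  · rw [Finset.sum_eq_single j]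
    · by_cases h : i = k
      · subst h; simp
      · rw [if_neg h, if_neg (fun h' => h h'.1.symm), zero_mul]
    · intro l _ hl
      rw [if_neg (fun h' => hl h'.2.symm), zero_mul]
    · intro h; exact absurd (Finset.mem_univ _) h
  · rw [Finset.sum_eq_single k]
    · by_cases h : i = j
      · subst h; simp
      · rw [if_neg h, if_neg (fun h' => h h'.1.symm), zero_mul]
    · intro l _ hl
      rw [if_neg (fun h' => hl h'.2.symm), zero_mul]
    · intro h; exact absurd (Finset.mem_univ _) h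

end Crest.Agent.R330.SDefs726

end
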