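import Crest.Agent.R330.Lift_406
import Crest.Agent.R330.SDefs_726
import Crest.Agent.R330.GapAlg_916
import Mathlib.LinearAlgebra.Matrix.Kronecker

/-!
# Row 330 (helper967): periodicity of the plane rotations

* `exp_quarter` : `exp (t X) = cos (t/2) + 2 sin (t/2) X` if `X² = -1/4`.
* `exp_spin_L` : `exp (t B) θ(v) exp (-t B) = θ(exp (t a) v)` for `B = spin a`, `a = (1/2) K ⊗ 1`.
* `conj_spin` : anticommuting complex structures: `exp (π B') B = - B exp (π B')`.
* `exp_spin_eight_pi` : `exp (8 π B) = 1`.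
* `Sp_rot` : the spin generator of the plane `(j,k)` is `spin M (aK (γ^j γ^k))`.
* `eS_rot_eight_pi` : `eS M G (rot j k) (8 π) = 1`.
-/

set_option autoImplicit false
set_option linter.unusedSectionVars false
set_option linter.style.haveILetI false

open MeasureTheory Filter Topology Crest.MathPhysics.MatrixQM
open NormedSpace (exp)
open scoped InnerProductSpace ContDiff Kronecker

noncomputable section

namespace Crest.Agent.R330.Per967

open Crest.Agent.R330.Lift406 Crest.Agent.R330.SDefs726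

/-! ## 1. Exponentials -/

section Abstract

variable {𝔸 : Type*} [NormedRing 𝔸] [NormedAlgebra ℝ 𝔸] [CompleteSpace 𝔸]

theorem exp_quarter (X : 𝔸) (hX : X * X = (-(1 / 4) : ℝ) • (1 : 𝔸)) (t : ℝ) :
    exp (t • X) = Real.cos (t / 2) • (1 : 𝔸) + (2 * Real.sin (t / 2)) • X := by
  set g : ℝ → 𝔸 := fun u => exp (u • (-X)) *
    (Real.cos (u / 2) • (1 : 𝔸) + (2 * Real.sin (u / 2)) • X) with hg
  have hd : ∀ u, HasDerivAt g 0 u := by
    intro u
    have h1 : HasDerivAt (fun u : ℝ => exp (u • (-X))) (exp (u • (-X)) * (-X)) u :=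
      hasDerivAt_exp_smul_const (-X) u
    have h2 : HasDerivAt (fun u : ℝ => Real.cos (u / 2)) (-Real.sin (u / 2) * (1 / 2)) u := by
      have h3 : HasDerivAt (fun u : ℝ => u / 2) (1 / 2) u := (hasDerivAt_id u).div_const 2
      exact h3.cos
    have h2' : HasDerivAt (fun u : ℝ => 2 * Real.sin (u / 2)) (2 * (Real.cos (u / 2) * (1 / 2)))
        u := by
      have h3 : HasDerivAt (fun u : ℝ => u / 2) (1 / 2) u := (hasDerivAt_id u).div_const 2
      exact h3.sin.const_mul 2
    have h4 := h1.mul ((h2.smul_const (1 : 𝔸)).add (h2'.smul_const X))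
    refine h4.congr_deriv ?_
    show exp (u • (-X)) * -X * (Real.cos (u / 2) • (1 : 𝔸) + (2 * Real.sin (u / 2)) • X) +
        exp (u • (-X)) * ((-Real.sin (u / 2) * (1 / 2)) • (1 : 𝔸) +
          (2 * (Real.cos (u / 2) * (1 / 2))) • X) = 0
    have e : exp (u • (-X)) * -X * (Real.cos (u / 2) • (1 : 𝔸) + (2 * Real.sin (u / 2)) • X) +
        exp (u • (-X)) * ((-Real.sin (u / 2) * (1 / 2)) • (1 : 𝔸) +
          (2 * (Real.cos (u / 2) * (1 / 2))) • X) =
        exp (u • (-X)) * (-(Real.cos (u / 2) • X) - (2 * Real.sin (u / 2)) • (X * X) +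
          (-Real.sin (u / 2) * (1 / 2)) • (1 : 𝔸) + (2 * (Real.cos (u / 2) * (1 / 2))) • X) := by
      generalize exp (u • (-X)) = E
      simp only [mul_add, mul_sub, mul_neg, neg_mul, mul_smul_comm, mul_one, mul_assoc]
      module
    rw [e, hX]
    have e2 : (-(Real.cos (u / 2) • X) - (2 * Real.sin (u / 2)) • ((-(1 / 4) : ℝ) • (1 : 𝔸)) +
        (-Real.sin (u / 2) * (1 / 2)) • (1 : 𝔸) + (2 * (Real.cos (u / 2) * (1 / 2))) • X) = 0 := by
      module
    rw [e2, mul_zero]
  have hc := is_const_of_deriv_eq_zero (fun x => (hd x).differentiableAt) (fun x => (hd x).deriv) t 0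
  have h0 : g 0 = 1 := by simp [hg]
  rw [h0] at hc
  have h1 : exp (t • X) * g t = exp (t • X) * 1 := by rw [hc]
  rw [hg] at h1
  simp only at h1
  rw [smul_neg, ← mul_assoc, exp_mul_exp_neg, one_mul, mul_one] at h1
  exact h1.symm

theorem semiconj_exp {R X Y : 𝔸} (h : R * X = Y * R) : R * exp X = exp Y * R := by
  letI : NormedAlgebra ℚ 𝔸 := NormedAlgebra.restrictScalars ℚ ℝ 𝔸
  exact SemiconjBy.exp_right h

end Abstract

/-! ## 2. Spin lifts of complex structures of `ℝ¹⁶` -/

variable {N : ℕ} {F : Type*} [NormedAddCommGroup F] [InnerProductSpace ℂ F] [FiniteDimensional ℂ F]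

/-- `(1/2) K ⊗ 1` -/
def aK (K : Matrix (Fin 16) (Fin 16) ℝ) : Matrix (Idx N) (Idx N) ℝ :=
  (1 / 2 : ℝ) • (K ⊗ₖ (1 : Matrix (Fin (N ^ 2 - 1)) (Fin (N ^ 2 - 1)) ℝ))

theorem aK_apply (K : Matrix (Fin 16) (Fin 16) ℝ) (p q : Idx N) :
    aK K p q = if p.2 = q.2 then 1 / 2 * K p.1 q.1 else 0 := by
  unfold aK
  rw [Matrix.smul_apply, Matrix.kroneckerMap_apply, Matrix.one_apply, smul_eq_mul]
  split_ifs <;> ring

theorem aK_anti {K : Matrix (Fin 16) (Fin 16) ℝ} (h : K.transpose = -K) (p q : Idx N) :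
    aK K p q = -aK (N := N) K q p := by
  rw [aK_apply, aK_apply]
  have h1 : K p.1 q.1 = -K q.1 p.1 := by
    have := congrFun (congrFun h q.1) p.1
    simpa [Matrix.transpose_apply] using this
  by_cases h2 : p.2 = q.2
  · rw [if_pos h2, if_pos h2.symm, h1]
    ring
  · rw [if_neg h2, if_neg (fun h3 => h2 h3.symm)]
    ring

theorem aK_mul (K K' : Matrix (Fin 16) (Fin 16) ℝ) :
    aK (N := N) K * aK K' = (1 / 4 : ℝ) •
      ((K * K') ⊗ₖ (1 : Matrix (Fin (N ^ 2 - 1)) (Fin (N ^ 2 - 1)) ℝ)) := by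
  unfold aK
  rw [smul_mul_smul_comm, ← Matrix.mul_kronecker_mul, mul_one]
  norm_num

/-- `θ(v) = Σ v_p θ_p` -/
def L (M : FermionRep N F) : (Idx N → ℝ) →L[ℝ] (F →L[ℂ] F) :=
  LinearMap.toContinuousLinearMap
    { toFun := fun v => ∑ p, v p • th M p
      map_add' := fun v w => by
        simp only [Pi.add_apply, add_smul, Finset.sum_add_distrib]
      map_smul' := fun c v => by
        simp only [Pi.smul_apply, smul_eq_mul, RingHom.id_apply, Finset.smul_sum, smul_smul] }

theorem L_apply (M : FermionRep N F) (v : Idx N → ℝ) : L M v = ∑ p, v p • th M p := rfl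

theorem L_single (M : FermionRep N F) (q : Idx N) : L M (Pi.single q 1) = th M q := by
  rw [L_apply, Finset.sum_eq_single q]
  · simp
  · intro p _ hp
    simp [Pi.single_eq_of_ne hp]
  · intro h
    exact absurd (Finset.mem_univ _) h

/-- matrix as a continuous operator -/
def mc (a : Matrix (Idx N) (Idx N) ℝ) : (Idx N → ℝ) →L[ℝ] (Idx N → ℝ) :=
  LinearMap.toContinuousLinearMap a.mulVecLin

theorem mc_apply (a : Matrix (Idx N) (Idx N) ℝ) (v : Idx N → ℝ) : mc a v = a.mulVec v := rfl

theorem mc_mul (a a' : Matrix (Idx N) (Idx N) ℝ) : mc (a * a') = mc a * mc a' := by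
  ext v : 1
  show (a * a').mulVec v = a.mulVec (a'.mulVec v)
  rw [Matrix.mulVec_mulVec]

theorem comm_L (M : FermionRep N F) (a : Matrix (Idx N) (Idx N) ℝ)
    (ha : ∀ p q, a p q = -a q p) (v : Idx N → ℝ) :
    spin M a * L M v - L M v * spin M a = L M (mc a v) := by
  rw [L_apply, L_apply, Finset.mul_sum, Finset.sum_mul, ← Finset.sum_sub_distrib]
  have h1 : ∀ q, spin M a * v q • th M q - v q • th M q * spin M a =
      ∑ p, (a p q * v q) • th M p := fun q => by
    have h2 : spin M a * v q • th M q - v q • th M q * spin M a =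
        v q • (spin M a * th M q - th M q * spin M a) := by
      rw [mul_smul_comm, smul_mul_assoc, smul_sub]
    rw [h2, spin_comm M a ha, Finset.smul_sum]
    refine Finset.sum_congr rfl fun p _ => ?_
    rw [Complex.coe_smul, smul_smul, mul_comm]
  simp only [h1]
  rw [Finset.sum_comm]
  refine Finset.sum_congr rfl fun p _ => ?_
  rw [← Finset.sum_smul]
  rfl

theorem mc_aK_sq {K : Matrix (Fin 16) (Fin 16) ℝ} (h : K * K = -1) :
    mc (aK K) * mc (aK (N := N) K) = (-(1 / 4) : ℝ) • 1 := by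
  rw [← mc_mul, aK_mul, h]
  have e : ((-1 : Matrix (Fin 16) (Fin 16) ℝ) ⊗ₖ
      (1 : Matrix (Fin (N ^ 2 - 1)) (Fin (N ^ 2 - 1)) ℝ)) = -1 := by
    rw [← neg_one_smul ℝ (1 : Matrix (Fin 16) (Fin 16) ℝ), Matrix.smul_kronecker,
      Matrix.one_kronecker_one, neg_one_smul]
  rw [e]
  ext v p
  simp [mc]

/-- the exponential of the spin generator implements the rotation -/
theorem exp_spin_L (M : FermionRep N F) {K : Matrix (Fin 16) (Fin 16) ℝ}
    (ha : K.transpose = -K) (hK : K * K = -1) (t : ℝ) (v : Idx N → ℝ) :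
    L M (Real.cos (t / 2) • v + (2 * Real.sin (t / 2)) • mc (aK K) v) *
      exp (t • spin M (aK K)) = exp (t • spin M (aK K)) * L M v := by
  have h1 := exp_intertwine (L M) (mc (aK K)) (spin M (aK K)) (comm_L M _ (aK_anti ha)) t v
  rw [exp_quarter _ (mc_aK_sq hK)] at h1
  exact h1

/-- `exp (4 π B)` is a scalar -/
theorem exp_four_pi_scalar [Nontrivial F] (M : FermionRep N F)
    {K : Matrix (Fin 16) (Fin 16) ℝ} (ha : K.transpose = -K) (hK : K * K = -1) :
    ∃ c : ℂ, exp ((4 * Real.pi) • spin M (aK K)) = c • 1 := by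
  refine schur M _ fun p => ?_
  have h1 := exp_spin_L M ha hK (4 * Real.pi) (Pi.single p 1)
  have h2 : 4 * Real.pi / 2 = 2 * Real.pi := by ring
  rw [h2, Real.cos_two_pi, Real.sin_two_pi, mul_zero, zero_smul, add_zero, one_smul,
    L_single] at h1
  exact h1.symm

/-- conjugation of the spin generator by the lift of an anticommuting complex structure -/
theorem conj_spin [Nontrivial F] (M : FermionRep N F) {K K' : Matrix (Fin 16) (Fin 16) ℝ}
    (ha : K.transpose = -K) (ha' : K'.transpose = -K') (hK' : K' * K' = -1)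
    (hc : K' * K = -(K * K')) :
    exp (Real.pi • spin M (aK K')) * spin M (aK K) =
      -spin M (aK K) * exp (Real.pi • spin M (aK K')) := by
  set R := exp (Real.pi • spin M (aK K')) with hR
  set R' := exp (-(Real.pi • spin M (aK K'))) with hR'
  set B := spin M (aK K) with hB
  have hRR : R * R' = 1 := exp_mul_exp_neg _ _
  have hRR' : R' * R = 1 := exp_neg_mul_exp _ _
  set c : (Idx N → ℝ) →L[ℝ] (Idx N → ℝ) := (2 : ℝ) • mc (aK K') with hcd
  -- `R θ(v) = θ(c v) R`
  have h1 : ∀ v, R * L M v = L M (c v) * R := fun v => by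
    have h2 := exp_spin_L M ha' hK' Real.pi v
    rw [Real.cos_pi_div_two, Real.sin_pi_div_two, zero_smul, zero_add, mul_one, ← hR] at h2
    rw [← h2]
    rfl
  have h1' : ∀ v, L M v * R' = R' * L M (c v) := fun v => by
    calc L M v * R' = (R' * R) * L M v * R' := by rw [hRR', one_mul]
      _ = R' * (R * L M v) * R' := by simp only [mul_assoc]
      _ = R' * L M (c v) * (R * R') := by rw [h1]; simp only [mul_assoc]
      _ = R' * L M (c v) := by rw [hRR, mul_one]
  have h2 : ∀ v, B * L M v = L M v * B + L M (mc (aK K) v) := fun v => by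
    rw [← comm_L M _ (aK_anti ha)]
    abel
  -- `c a + a c = 0`
  have h3 : ∀ v, c (mc (aK K) v) + mc (aK K) (c v) = 0 := fun v => by
    have e1 : c (mc (aK K) v) = (2 : ℝ) • (aK K' * aK K).mulVec v := by
      show (2 : ℝ) • (aK K').mulVec ((aK K).mulVec v) = _
      rw [Matrix.mulVec_mulVec]
    have e2 : mc (aK K) (c v) = (2 : ℝ) • (aK K * aK K').mulVec v := by
      show (aK K).mulVec ((2 : ℝ) • (aK K').mulVec v) = _
      rw [Matrix.mulVec_smul, Matrix.mulVec_mulVec]
    have e3 : aK (N := N) K' * aK K = -(aK K * aK K') := by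
      rw [aK_mul, aK_mul, hc, ← smul_neg]
      congr 1
      rw [← neg_one_smul ℝ (K * K'), Matrix.smul_kronecker, neg_one_smul]
    rw [e1, e2, e3, Matrix.neg_mulVec, smul_neg, neg_add_cancel]
  have hcc : ∀ v, c (c v) = -v := fun v => by
    have e1 : c (c v) =
        (4 : ℝ) • ((mc (aK K') * mc (aK K') : (Idx N → ℝ) →L[ℝ] (Idx N → ℝ)) v) := by
      show (2 : ℝ) • mc (aK K') ((2 : ℝ) • mc (aK K') v) = (4 : ℝ) • (mc (aK K') (mc (aK K') v))
      rw [map_smul, smul_smul]
      norm_num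
    rw [e1, mc_aK_sq hK']
    show (4 : ℝ) • ((-(1 / 4) : ℝ) • v) = -v
    rw [smul_smul]
    norm_num
  -- `W = R B R' + B` commutes with the generators
  set W := R * B * R' + B with hW
  have h4 : ∀ v, W * L M (c v) = L M (c v) * W := fun v => by
    have e1 : R * B * R' * L M (c v) = L M (c v) * (R * B * R') + L M (c (mc (aK K) v)) := by
      calc R * B * R' * L M (c v) = R * B * (R' * L M (c v)) := by simp only [mul_assoc]
        _ = R * (B * L M v) * R' := by rw [← h1']; simp only [mul_assoc]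
        _ = R * L M v * B * R' + R * L M (mc (aK K) v) * R' := by
            rw [h2, mul_add, add_mul]
            simp only [mul_assoc]
        _ = L M (c v) * (R * B * R') + L M (c (mc (aK K) v)) * (R * R') := by
            rw [h1, h1]
            simp only [mul_assoc]
        _ = _ := by rw [hRR, mul_one]
    rw [hW, add_mul, mul_add, e1, h2]
    have e2 : L M (c (mc (aK K) v)) + L M (mc (aK K) (c v)) = 0 := by
      rw [← map_add, h3, map_zero]
    calc L M (c v) * (R * B * R') + L M (c (mc (aK K) v)) +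
          (L M (c v) * B + L M (mc (aK K) (c v))) =
        L M (c v) * (R * B * R') + L M (c v) * B +
          (L M (c (mc (aK K) v)) + L M (mc (aK K) (c v))) := by abel
      _ = _ := by rw [e2, add_zero]
  obtain ⟨w, hw⟩ := schur M W fun p => by
    have h5 := h4 (-(c (Pi.single p 1)))
    rw [map_neg, hcc, neg_neg, L_single] at h5
    exact h5
  -- its trace vanishes
  have htr : LinearMap.trace ℂ F (W : F →L[ℂ] F).toLinearMap = 0 := by
    have e1 : (W : F →L[ℂ] F).toLinearMap = (R : F →L[ℂ] F).toLinearMap *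
        ((B * R' : F →L[ℂ] F)).toLinearMap + B.toLinearMap := by
      rw [hW, mul_assoc]
      rfl
    have e2 : (((B * R' : F →L[ℂ] F)).toLinearMap * (R : F →L[ℂ] F).toLinearMap) =
        B.toLinearMap := by
      have e3 : B * R' * R = B := by rw [mul_assoc, hRR', mul_one]
      exact congrArg ContinuousLinearMap.toLinearMap e3
    rw [e1, map_add, LinearMap.trace_mul_comm, e2]
    have e4 : LinearMap.trace ℂ F B.toLinearMap = 0 := spin_trace M _ (aK_anti ha)
    rw [e4, add_zero]
  have hw0 : w = 0 := by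
    rw [hw] at htr
    have e1 : ((w • (1 : F →L[ℂ] F))).toLinearMap = w • (1 : F →ₗ[ℂ] F) := rfl
    rw [e1, map_smul, LinearMap.trace_one, smul_eq_mul] at htr
    have e2 : ((Module.finrank ℂ F : ℕ) : ℂ) ≠ 0 := by
      have := Module.finrank_pos (R := ℂ) (M := F)
      exact_mod_cast this.ne'
    exact (mul_eq_zero.1 htr).resolve_right e2
  rw [hw0, zero_smul, hW] at hw
  have h6 : R * B * R' = -B := eq_neg_of_add_eq_zero_left hw
  calc R * B = R * B * (R' * R) := by rw [hRR', mul_one]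
    _ = R * B * R' * R := by simp only [mul_assoc]
    _ = -B * R := by rw [h6]

/-- **`exp (8 π B) = 1`** -/
theorem exp_spin_eight_pi [Nontrivial F] (M : FermionRep N F)
    {K K' : Matrix (Fin 16) (Fin 16) ℝ} (ha : K.transpose = -K) (hK : K * K = -1)
    (ha' : K'.transpose = -K') (hK' : K' * K' = -1) (hc : K' * K = -(K * K')) :
    exp ((8 * Real.pi) • spin M (aK K)) = 1 := by
  obtain ⟨c, hcs⟩ := exp_four_pi_scalar M ha hK
  set R := exp (Real.pi • spin M (aK K')) with hR
  set R' := exp (-(Real.pi • spin M (aK K'))) with hR'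
  have hRR : R * R' = 1 := exp_mul_exp_neg _ _
  have h1 := conj_spin M ha ha' hK' hc
  rw [← hR] at h1
  have h2 : R * ((4 * Real.pi) • spin M (aK K)) = (-((4 * Real.pi) • spin M (aK K))) * R := by
    rw [mul_smul_comm, h1, neg_mul, neg_mul, smul_mul_assoc, smul_neg]
  have h3 := semiconj_exp h2
  rw [hcs] at h3
  have h4 : exp (-((4 * Real.pi) • spin M (aK K))) * (c • 1) = 1 := by
    rw [← hcs]
    exact exp_neg_mul_exp _ _
  have h5 : (c * c) • (1 : F →L[ℂ] F) = 1 := by
    have e1 : R * (c • (1 : F →L[ℂ] F)) * R' = c • 1 := by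
      rw [mul_smul_comm, mul_one, smul_mul_assoc, hRR]
    have e2 : exp (-((4 * Real.pi) • spin M (aK K))) = c • 1 := by
      rw [← e1, h3, mul_assoc, hRR, mul_one]
    rw [e2, smul_mul_smul_comm, mul_one] at h4
    exact h4
  have h6 : (8 * Real.pi) = 4 * Real.pi + 4 * Real.pi := by ring
  rw [h6]
  refine (exp_add_smul (spin M (aK K)) (4 * Real.pi) (4 * Real.pi)).trans ?_
  rw [hcs, smul_mul_smul_comm, mul_one, h5]

/-! ## 3. The plane rotations -/

section planes

open Crest.Agent.R330.GapAlg916 (γ_sq γ_ac)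

variable (G : GammaNine)

theorem gg_transpose' {j k : Fin 9} (h : j ≠ k) :
    (G.γ j * G.γ k).transpose = -(G.γ j * G.γ k) := by
  rw [Matrix.transpose_mul, G.symm, G.symm, γ_ac G h.symm]

theorem gg_sq' {j k : Fin 9} (h : j ≠ k) : (G.γ j * G.γ k) * (G.γ j * G.γ k) = -1 := by
  calc (G.γ j * G.γ k) * (G.γ j * G.γ k) = G.γ j * (G.γ k * G.γ j) * G.γ k := by
        simp only [mul_assoc]
    _ = -((G.γ j * G.γ j) * (G.γ k * G.γ k)) := by
        rw [γ_ac G h.symm]
        simp only [mul_neg, neg_mul, mul_assoc]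
    _ = -1 := by rw [γ_sq, γ_sq, mul_one]

theorem gg_anti {j k l : Fin 9} (hjk : j ≠ k) (hkl : k ≠ l) (hjl : j ≠ l) :
    (G.γ k * G.γ l) * (G.γ j * G.γ k) = -((G.γ j * G.γ k) * (G.γ k * G.γ l)) := by
  have e1 : (G.γ j * G.γ k) * (G.γ k * G.γ l) = G.γ j * G.γ l := by
    rw [mul_assoc, ← mul_assoc (G.γ k), γ_sq, one_mul]
  rw [e1]
  calc (G.γ k * G.γ l) * (G.γ j * G.γ k) = G.γ k * (G.γ l * G.γ j) * G.γ k := by
        simp only [mul_assoc]
    _ = -((G.γ k * G.γ j) * (G.γ l * G.γ k)) := by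
        rw [γ_ac G hjl.symm]
        simp only [mul_neg, neg_mul, mul_assoc]
    _ = -((G.γ j * (G.γ k * G.γ k)) * G.γ l) := by
        rw [γ_ac G hjk.symm, γ_ac G hkl.symm]
        simp only [mul_neg, neg_mul, mul_assoc, neg_neg]
    _ = _ := by rw [γ_sq, mul_one]

variable {G}

/-- The spin generator of the plane `(j,k)`. -/
theorem Sp_rot (M : FermionRep N F) {j k : Fin 9} (h : j ≠ k) :
    LinearMap.toContinuousLinearMap (Sp M G (rot j k)) = spin M (aK (G.γ j * G.γ k)) := by
  ext v
  rw [LinearMap.coe_toContinuousLinearMap']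
  set T : Fin 9 → Fin 9 → F →ₗ[ℂ] F := fun i l => ∑ A : Fin (N ^ 2 - 1),
    ∑ α : Fin 16, ∑ β : Fin 16, (((G.γ i * G.γ l) α β : ℝ) : ℂ) • (M.θ α A ∘ₗ M.θ β A) with hT
  have hTk : T k j = -T j k := by
    rw [hT]
    simp only
    rw [← Finset.sum_neg_distrib]
    refine Finset.sum_congr rfl fun A _ => ?_
    rw [← Finset.sum_neg_distrib]
    refine Finset.sum_congr rfl fun α _ => ?_
    rw [← Finset.sum_neg_distrib]
    refine Finset.sum_congr rfl fun β _ => ?_
    rw [γ_ac G h.symm, Matrix.neg_apply, Complex.ofReal_neg, neg_smul]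
  have h1 : Sp M G (rot j k) = (1 / 4 : ℂ) • T j k := by
    have h2 : ∑ i : Fin 9, ∑ l : Fin 9, ((rot j k l i : ℝ) : ℂ) • T i l = T j k - T k j := by
      have h3 : ∀ i l : Fin 9, ((rot j k l i : ℝ) : ℂ) • T i l =
          (if i = j ∧ l = k then T j k else 0) - (if i = k ∧ l = j then T k j else 0) := by
        intro i l
        simp only [rot, Matrix.sub_apply, Matrix.single_apply]
        by_cases c1 : i = j ∧ l = k
        · obtain ⟨rfl, rfl⟩ := c1
          have c2 : ¬ (i = l ∧ l = i) := fun h' => h h'.1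
          rw [if_pos ⟨rfl, rfl⟩, if_neg (fun h' => h h'.1), if_pos ⟨rfl, rfl⟩, if_neg c2]
          simp
        · by_cases c2 : i = k ∧ l = j
          · obtain ⟨rfl, rfl⟩ := c2
            rw [if_neg (fun h' => h h'.1.symm), if_pos ⟨rfl, rfl⟩, if_neg c1, if_pos ⟨rfl, rfl⟩]
            simp
          · rw [if_neg (fun h' => c1 ⟨h'.2.symm, h'.1.symm⟩),
              if_neg (fun h' => c2 ⟨h'.2.symm, h'.1.symm⟩), if_neg c1, if_neg c2]
            simp
      simp only [h3, Finset.sum_sub_distrib]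
      congr 1
      · rw [Finset.sum_eq_single j, Finset.sum_eq_single k, if_pos ⟨rfl, rfl⟩]
        · intro l _ hl
          rw [if_neg (fun h' => hl h'.2)]
        · intro h'; exact absurd (Finset.mem_univ _) h'
        · intro i _ hi
          exact Finset.sum_eq_zero fun l _ => if_neg fun h' => hi h'.1
        · intro h'; exact absurd (Finset.mem_univ _) h'
      · rw [Finset.sum_eq_single k, Finset.sum_eq_single j, if_pos ⟨rfl, rfl⟩]
        · intro l _ hl
          rw [if_neg (fun h' => hl h'.2)]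
        · intro h'; exact absurd (Finset.mem_univ _) h'
        · intro i _ hi
          exact Finset.sum_eq_zero fun l _ => if_neg fun h' => hi h'.1
        · intro h'; exact absurd (Finset.mem_univ _) h'
    unfold Sp
    rw [show (∑ i : Fin 9, ∑ l : Fin 9, ((rot j k l i : ℝ) : ℂ) • ∑ A : Fin (N ^ 2 - 1),
      ∑ α : Fin 16, ∑ β : Fin 16, (((G.γ i * G.γ l) α β : ℝ) : ℂ) • (M.θ α A ∘ₗ M.θ β A)) =
      T j k - T k j from h2, hTk, sub_neg_eq_add, ← two_smul ℂ, smul_smul]
    norm_num
  rw [h1]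
  -- the double sum of `spin`
  have h4 : spin M (aK (G.γ j * G.γ k)) v = (1 / 2 : ℂ) • ∑ A : Fin (N ^ 2 - 1), ∑ α : Fin 16,
      ∑ β : Fin 16, ((1 / 2 * (G.γ j * G.γ k) α β : ℝ) : ℂ) • M.θ α A (M.θ β A v) := by
    unfold spin
    rw [_root_.smul_apply, _root_.sum_apply, Fintype.sum_prod_type_right]
    congr 1
    refine Finset.sum_congr rfl fun A _ => Finset.sum_congr rfl fun α _ => ?_
    rw [_root_.sum_apply, Fintype.sum_prod_type]
    refine Finset.sum_congr rfl fun β _ => ?_
    rw [Finset.sum_eq_single A]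
    · rw [aK_apply, if_pos rfl]
      rfl
    · intro B _ hB
      rw [aK_apply, if_neg (Ne.symm hB)]
      simp
    · intro h'; exact absurd (Finset.mem_univ _) h'
  rw [h4, LinearMap.smul_apply, hT]
  simp only [LinearMap.sum_apply, LinearMap.smul_apply, LinearMap.comp_apply, Finset.smul_sum,
    smul_smul]
  refine Finset.sum_congr rfl fun A _ => Finset.sum_congr rfl fun α _ =>
    Finset.sum_congr rfl fun β _ => ?_
  congr 1
  push_cast
  ring

theorem exists_third (j k : Fin 9) : ∃ l : Fin 9, j ≠ l ∧ k ≠ l := by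
  revert j k
  decide

/-- **Periodicity of the spin lift.** -/
theorem eS_rot_eight_pi [Nontrivial F] (M : FermionRep N F) {j k : Fin 9} (h : j ≠ k) :
    eS M G (rot j k) (8 * Real.pi) = 1 := by
  obtain ⟨l, hjl, hkl⟩ := exists_third j k
  unfold eS
  rw [Sp_rot M h]
  have h1 := exp_spin_eight_pi M (gg_transpose' G h) (gg_sq' G h) (gg_transpose' G hkl)
    (gg_sq' G hkl) (gg_anti G h hkl hjl)
  rw [← h1]
  congr 1

end planes

end Crest.Agent.R330.Per967

end
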