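import Crest.Agent.R330.GapFin_967
import Mathlib.MeasureTheory.Integral.IntervalIntegral.FundThmCalculus
import Mathlib.MeasureTheory.Integral.IntervalIntegral.IntegrationByParts

/-!
# Row 330 (helper967): the circle actions from weak data on the core

`Rot ι Ham U J p` : a `p`-periodic one-parameter group `U` of isometries of the core, commuting with
the symmetric operator `Ham`, with skew generator `J` (weak derivative).
`HasProj ι U p` : for every `n` and every core vector `ψ` the weight component of `ψ` is a core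
vector.

* `Rot.exists_circ` : the projections `P n`, with `Circ` and `J (P n ψ) = (2 π i n / p) P n ψ`.
* `P_comm` : projections of commuting groups commute.
* `gap_of_rot`, `gapZ_of_rot` : (GAP) from four commuting rotation groups.
-/

set_option autoImplicit false
set_option linter.unusedSectionVars false

open Filter Topology Set MeasureTheory Crest.MathPhysics.MatrixQM
open scoped InnerProductSpace

noncomputable section

namespace Crest.Agent.R330.GapTor967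

open Crest.Agent.R330.FA416 Crest.Agent.R330.GapAbs967 Crest.Agent.R330.GapAlg916
open Crest.Agent.R330.GapFin967
open Complex (I)

section abs

variable {V H : Type*} [AddCommGroup V] [Module ℂ V]
  [NormedAddCommGroup H] [InnerProductSpace ℂ H]

/-- A periodic group of isometries of the core with generator `J`, commuting with `Ham`. -/
structure Rot (ι : V →ₗ[ℂ] H) (Ham : V →ₗ[ℂ] V) (U : ℝ → V →ₗ[ℂ] V) (J : V →ₗ[ℂ] V)
    (p : ℝ) : Prop where
  pos : 0 < p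
  add : ∀ s t φ, U (s + t) φ = U s (U t φ)
  zero : ∀ φ, U 0 φ = φ
  per : ∀ φ, U p φ = φ
  iso : ∀ t φ ψ, ⟪ι (U t φ), ι (U t ψ)⟫_ℂ = ⟪ι φ, ι ψ⟫_ℂ
  ham : ∀ t φ, U t (Ham φ) = Ham (U t φ)
  skew : ∀ φ ψ, ⟪ι (J φ), ι ψ⟫_ℂ = -⟪ι φ, ι (J ψ)⟫_ℂ
  deriv : ∀ φ ψ, HasDerivAt (fun t => ⟪ι φ, ι (U t ψ)⟫_ℂ) ⟪ι φ, ι (J ψ)⟫_ℂ 0

/-- The weight components of core vectors are core vectors. -/
def HasProj (ι : V →ₗ[ℂ] H) (U : ℝ → V →ₗ[ℂ] V) (p : ℝ) : Prop :=
  ∀ (n : ℤ) (ψ : V), ∃ χ : V, ∀ φ : V,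
    ⟪ι φ, ι χ⟫_ℂ = mean p (fun t => ch p (-n) t * ⟪ι φ, ι (U t ψ)⟫_ℂ)

variable {ι : V →ₗ[ℂ] H} {Ham : V →ₗ[ℂ] V} {U : ℝ → V →ₗ[ℂ] V} {J : V →ₗ[ℂ] V} {p : ℝ}

theorem Rot.neg_left (h : Rot ι Ham U J p) (t : ℝ) (φ ψ : V) :
    ⟪ι (U (-t) φ), ι ψ⟫_ℂ = ⟪ι φ, ι (U t ψ)⟫_ℂ := by
  rw [← h.iso t (U (-t) φ) ψ, ← h.add, add_neg_cancel, h.zero]

theorem Rot.deriv' (h : Rot ι Ham U J p) (φ ψ : V) (t : ℝ) :
    HasDerivAt (fun s => ⟪ι φ, ι (U s ψ)⟫_ℂ) ⟪ι φ, ι (J (U t ψ))⟫_ℂ t := by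
  have h1 := h.deriv φ (U t ψ)
  have h2 : HasDerivAt (fun s => s - t) 1 t := (hasDerivAt_id t).sub_const t
  have h4 := h1.scomp_of_eq t h2 (by simp)
  rw [one_smul] at h4
  refine h4.congr_of_eventuallyEq (Eventually.of_forall fun s => ?_)
  show _ = ⟪ι φ, ι (U (s - t) (U t ψ))⟫_ℂ
  rw [← h.add, sub_add_cancel]

theorem Rot.cont (h : Rot ι Ham U J p) (φ ψ : V) : Continuous fun t => ⟪ι φ, ι (U t ψ)⟫_ℂ :=
  continuous_iff_continuousAt.2 fun t => (h.deriv' φ ψ t).continuousAt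

theorem eq_of_weak (hι : Function.Injective ι) {χ χ' : V}
    (h : ∀ φ, ⟪ι φ, ι χ⟫_ℂ = ⟪ι φ, ι χ'⟫_ℂ) : χ = χ' := by
  apply hι
  have h1 := h (χ - χ')
  rw [← sub_eq_zero, ← inner_sub_right, map_sub] at h1
  exact sub_eq_zero.1 (inner_self_eq_zero.1 h1)

theorem mean_add {p : ℝ} {f f' : ℝ → ℂ} (hf : Continuous f) (hf' : Continuous f') :
    mean p (fun t => f t + f' t) = mean p f + mean p f' := by
  unfold mean
  rw [intervalIntegral.integral_add (hf.intervalIntegrable _ _) (hf'.intervalIntegrable _ _),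
    mul_add]

/-- The mean of a derivative of a periodic function vanishes. -/
theorem mean_deriv {p : ℝ} {f f' : ℝ → ℂ} (hf : ∀ t, HasDerivAt f (f' t) t)
    (hf' : Continuous f') (hp : Function.Periodic f p) : mean p f' = 0 := by
  unfold mean
  rw [intervalIntegral.integral_eq_sub_of_hasDerivAt (fun t _ => hf t)
    (hf'.intervalIntegrable _ _)]
  have h1 : f p = f 0 := by
    have := hp 0
    rwa [zero_add] at this
  rw [h1, sub_self, mul_zero]

theorem ch_deriv (p : ℝ) (n : ℤ) (t : ℝ) :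
    HasDerivAt (ch p n) ((2 * Real.pi * I * n / p) * ch p n t) t := by
  unfold ch
  have h1 : HasDerivAt (fun s : ℝ => (2 * (Real.pi : ℂ) * I * n * (s : ℂ) / p))
      (2 * Real.pi * I * n / p) t := by
    have h2 := ((hasDerivAt_id t).ofReal_comp.const_mul (2 * (Real.pi : ℂ) * I * n)).div_const
      (p : ℂ)
    simpa using h2
  exact h1.cexp.congr_deriv (mul_comm _ _)

/-- **The weight projections.** -/
theorem Rot.exists_circ (h : Rot ι Ham U J p) (hι : Function.Injective ι)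
    (hs : ∀ φ ψ, ⟪ι (Ham φ), ι ψ⟫_ℂ = ⟪ι φ, ι (Ham ψ)⟫_ℂ) (hp : HasProj ι U p) :
    ∃ P : ℤ → V →ₗ[ℂ] V, Grp ι U P p ∧ Circ ι Ham P ∧
      ∀ n φ, J (P n φ) = (2 * Real.pi * I * n / p) • P n φ := by
  choose P0 hP0 using hp
  have hcc : ∀ (n : ℤ) (φ ψ : V), Continuous fun t => ch p (-n) t * ⟪ι φ, ι (U t ψ)⟫_ℂ :=
    fun n φ ψ => (ch_cont p (-n)).mul (h.cont φ ψ)
  let P : ℤ → V →ₗ[ℂ] V := fun n =>
    { toFun := P0 n
      map_add' := fun ψ ψ' => eq_of_weak hι fun φ => by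
        rw [map_add, inner_add_right, hP0, hP0, hP0, ← mean_add (hcc n φ ψ) (hcc n φ ψ')]
        congr 1
        funext t
        rw [map_add, map_add, inner_add_right, mul_add]
      map_smul' := fun c ψ => eq_of_weak hι fun φ => by
        rw [RingHom.id_apply, map_smul, inner_smul_right, hP0, hP0, ← mean_mul_left]
        congr 1
        funext t
        rw [map_smul, map_smul, inner_smul_right]
        ring }
  have hP : ∀ n φ ψ, ⟪ι φ, ι (P n ψ)⟫_ℂ = mean p (fun t => ch p (-n) t * ⟪ι φ, ι (U t ψ)⟫_ℂ) :=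
    fun n φ ψ => hP0 n ψ φ
  have hg : Grp ι U P p := ⟨h.pos, h.add, h.zero, h.per, h.iso, h.cont, hP⟩
  refine ⟨P, hg, circ_of_group hg hι fun n φ => ?_, fun n ψ => ?_⟩
  · refine eq_of_weak hι fun χ => ?_
    rw [hP, ← hs, hP]
    congr 1
    funext t
    rw [h.ham, hs]
  · refine eq_of_weak hι fun φ => ?_
    have h1 : ⟪ι φ, ι (J (P n ψ))⟫_ℂ = -⟪ι (J φ), ι (P n ψ)⟫_ℂ := by
      rw [h.skew, neg_neg]
    rw [h1, hP, map_smul, inner_smul_right, hP]
    -- integration by parts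
    have h2 : ∀ t, HasDerivAt (fun t => ch p (-n) t * ⟪ι φ, ι (U t ψ)⟫_ℂ)
        ((2 * Real.pi * I * ((-n : ℤ) : ℂ) / p) * (ch p (-n) t * ⟪ι φ, ι (U t ψ)⟫_ℂ) +
          -(ch p (-n) t * ⟪ι (J φ), ι (U t ψ)⟫_ℂ)) t := fun t => by
      have h3 := (ch_deriv p (-n) t).mul (h.deriv' φ ψ t)
      have h4 : ⟪ι φ, ι (J (U t ψ))⟫_ℂ = -⟪ι (J φ), ι (U t ψ)⟫_ℂ := by
        rw [h.skew, neg_neg]
      rw [h4] at h3
      exact h3.congr_deriv (by ring)
    have hc1 : Continuous fun t => (2 * Real.pi * I * ((-n : ℤ) : ℂ) / p) *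
        (ch p (-n) t * ⟪ι φ, ι (U t ψ)⟫_ℂ) := continuous_const.mul (hcc n φ ψ)
    have hc2 : Continuous fun t => -(ch p (-n) t * ⟪ι (J φ), ι (U t ψ)⟫_ℂ) :=
      (hcc n (J φ) ψ).neg
    have h5 := mean_deriv h2 (hc1.add hc2) (hg.per_ch n φ ψ)
    rw [mean_add hc1 hc2, mean_mul_left] at h5
    have h6 : mean p (fun t => -(ch p (-n) t * ⟪ι (J φ), ι (U t ψ)⟫_ℂ)) =
        -mean p (fun t => ch p (-n) t * ⟪ι (J φ), ι (U t ψ)⟫_ℂ) := by
      have h7 := mean_mul_left p (-1) (fun t => ch p (-n) t * ⟪ι (J φ), ι (U t ψ)⟫_ℂ)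
      simp only [neg_mul, one_mul] at h7
      exact h7
    rw [h6] at h5
    push_cast at h5
    linear_combination h5

/-- **Projections of commuting groups commute.** -/
theorem P_comm {U' : ℝ → V →ₗ[ℂ] V} {P P' : ℤ → V →ₗ[ℂ] V} {p' : ℝ} (h : Grp ι U P p)
    (h' : Grp ι U' P' p') (hι : Function.Injective ι)
    (hc : ∀ s t φ, U s (U' t φ) = U' t (U s φ)) (m n : ℤ) (φ : V) :
    P m (P' n φ) = P' n (P m φ) := by
  have h1 : ∀ t ψ, U' t (P m ψ) = P m (U' t ψ) := fun t ψ => eq_of_weak hι fun χ => by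
    rw [← h'.neg_left, h.proj, h.proj]
    congr 1
    funext s
    rw [h'.neg_left, hc]
  refine eq_of_weak hι fun χ => ?_
  rw [h'.proj, ← h.P_symm, h'.proj]
  congr 1
  funext t
  rw [h1, h.P_symm]

variable {H' : Type*} [NormedAddCommGroup H'] [InnerProductSpace ℂ H'] [CompleteSpace H]
  {G : GammaNine} {m : ℝ} {Q : Fin 16 → V →ₗ[ℂ] V} {J : Fin 9 × Fin 9 → V →ₗ[ℂ] V}

/-- The projections of four commuting rotation groups. -/
theorem exists_P (h : Susy G m ι Q Ham J) (hι : Function.Injective ι)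
    {U : Fin 9 × Fin 9 → ℝ → V →ₗ[ℂ] V} (hU : ∀ q ∈ planes, Rot ι Ham (U q) (J q) p)
    (hp : ∀ q ∈ planes, HasProj ι (U q) p)
    (hc : ∀ q ∈ planes, ∀ r ∈ planes, ∀ s t φ, U q s (U r t φ) = U r t (U q s φ)) :
    ∃ P : Fin 9 × Fin 9 → ℤ → V →ₗ[ℂ] V, (∀ q ∈ planes, Circ ι Ham (P q)) ∧
      (∀ q ∈ planes, ∀ n φ, J q (P q n φ) = (I * ((2 * Real.pi / p * n : ℝ) : ℂ)) • P q n φ) ∧
      ∀ q ∈ planes, ∀ r ∈ planes, ∀ m n φ, P q m (P r n φ) = P r n (P q m φ) := by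
  have h1 : ∀ q, ∃ P : ℤ → V →ₗ[ℂ] V, q ∈ planes → Grp ι (U q) P p ∧ Circ ι Ham P ∧
      ∀ n φ, J q (P n φ) = (2 * Real.pi * I * n / p) • P n φ := fun q => by
    by_cases hq : q ∈ planes
    · obtain ⟨P, hP⟩ := (hU q hq).exists_circ hι h.Ham_symm (hp q hq)
      exact ⟨P, fun _ => hP⟩
    · exact ⟨fun _ => 0, fun h' => absurd h' hq⟩
  choose P hP using h1
  refine ⟨P, fun q hq => (hP q hq).2.1, fun q hq n φ => ?_, fun q hq r hr m n φ => ?_⟩
  · rw [(hP q hq).2.2]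
    congr 1
    push_cast
    ring
  · exact P_comm (hP q hq).1 (hP r hr).1 hι (hc q hq r hr) m n φ

end abs

section literal

open Crest.Agent.R330.Defs478 Crest.Agent.R330.Dict416 Crest.Agent.R330.Sec478

variable {N : ℕ} {F : Type*} [NormedAddCommGroup F] [InnerProductSpace ℂ F]
  [FiniteDimensional ℂ F] {b : ColorBasis N} {M : FermionRep N F} {R : GaugeAction b M}
  {G : GammaNine}

/-- **(GAP)** for the literal charges, from four commuting rotation groups of period `8 π`. -/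
theorem gapZ_of_rot {g m : ℝ} (hm : 0 ≤ m) {Q : Fin 16 → core b R →ₗ[ℂ] core b R}
    (hQ : ∀ α φ, (Q α φ : Cfg N → F) = dcharge b M G g m α (φ : Cfg N → F))
    {Ham : core b R →ₗ[ℂ] core b R} {J : Fin 9 × Fin 9 → core b R →ₗ[ℂ] core b R}
    (h : Susy G m (ιC R) Q Ham J) {U : Fin 9 × Fin 9 → ℝ → core b R →ₗ[ℂ] core b R}
    (hU : ∀ q ∈ planes, Rot (ιC R) Ham (U q) (J q) (8 * Real.pi))
    (hp : ∀ q ∈ planes, HasProj (ιC R) (U q) (8 * Real.pi))
    (hc : ∀ q ∈ planes, ∀ r ∈ planes, ∀ s t φ, U q s (U r t φ) = U r t (U q s φ))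
    (hd : ∀ φ : core b R, ιC R φ ∈ closure (Set.range fun ψ => ιC R ψ + ιC R (Ham ψ))) :
    GapZ b M R G g m (m / 24) := by
  obtain ⟨P, h1, h2, h3⟩ := exists_P h ιC_injective hU hp hc
  have e : 2 * Real.pi / (8 * Real.pi) = 1 / 4 := by
    have := Real.pi_pos.ne'
    field_simp
    norm_num
  rw [e] at h2
  have h4 := gapZ_of hm hQ h (η := 1 / 4) (by norm_num) (by norm_num) h1 h2 h3 hd
  have e2 : m * (1 / 4 / 6) = m / 24 := by ring
  rwa [e2] at h4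

end literal

end Crest.Agent.R330.GapTor967

end
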