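import Mathlib
import Crest.Prelude.Def_MatrixModel
import Crest.Agent.R330.SDefs_726
import Crest.Agent.R330.IBP_837
import Crest.Agent.R330.Col_962
import Crest.Agent.R330.Gam_962

/-!
# Row 330, S13.SYM (helper613): the one-parameter spin rotations `U_a(t)` — algebra
-/

set_option autoImplicit false

open MeasureTheory Filter Topology
open scoped ContDiff InnerProductSpace ENNReal
open Crest.MathPhysics.MatrixQM
open Crest.Agent.R330.SDefs726

noncomputable section

namespace Crest.Agent.R330.Sym613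

/-! ### 1. A conjugation lemma in Banach algebras -/

section General

variable {𝔸 : Type*} [NormedRing 𝔸] [NormedAlgebra ℝ 𝔸] [CompleteSpace 𝔸]

omit [CompleteSpace 𝔸] in
theorem exp_zero_smul (B : 𝔸) : NormedSpace.exp ((0 : ℝ) • B) = 1 := by
  rw [zero_smul, NormedSpace.exp_zero]

/-- one-parameter group law -/
theorem exp_add_smul (B : 𝔸) (s t : ℝ) :
    NormedSpace.exp ((s + t) • B) = NormedSpace.exp (s • B) * NormedSpace.exp (t • B) := by
  let _ : NormedAlgebra ℚ 𝔸 := NormedAlgebra.restrictScalars ℚ ℝ 𝔸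
  rw [add_smul]
  exact NormedSpace.exp_add_of_commute (((Commute.refl B).smul_left _).smul_right _)

theorem exp_mul_neg (B : 𝔸) (t : ℝ) :
    NormedSpace.exp (t • B) * NormedSpace.exp ((-t) • B) = 1 := by
  rw [← exp_add_smul, add_neg_cancel, exp_zero_smul]

/-- if `Θ' = B Θ - Θ B` then `e^{tB} Θ(0) = Θ(t) e^{tB}` -/
theorem conj_const (B : 𝔸) (Θ : ℝ → 𝔸) (h : ∀ t, HasDerivAt Θ (B * Θ t - Θ t * B) t) (t : ℝ) :
    NormedSpace.exp (t • B) * Θ 0 = Θ t * NormedSpace.exp (t • B) := by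
  have hneg : ∀ u : ℝ, HasDerivAt (fun u : ℝ => NormedSpace.exp ((-u) • B))
      (-(NormedSpace.exp ((-u) • B) * B)) u := by
    intro u
    have h1 := (hasDerivAt_exp_smul_const (𝕂 := ℝ) B (-u))
    have h2 := h1.scomp u (hasDerivAt_neg u)
    simpa [Function.comp_def] using h2
  have hpos : ∀ u : ℝ, HasDerivAt (fun u : ℝ => NormedSpace.exp (u • B))
      (B * NormedSpace.exp (u • B)) u := fun u => hasDerivAt_exp_smul_const' (𝕂 := ℝ) B u
  have hf : ∀ u : ℝ, HasDerivAt (fun u : ℝ => NormedSpace.exp ((-u) • B) * Θ u *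
      NormedSpace.exp (u • B)) 0 u := by
    intro u
    have h1 := ((hneg u).mul (h u)).mul (hpos u)
    refine h1.congr_deriv ?_
    simp only [Pi.mul_apply]
    noncomm_ring
  have hc := is_const_of_deriv_eq_zero (fun u => (hf u).differentiableAt)
    (fun u => (hf u).deriv) t 0
  simp only [neg_zero, zero_smul, NormedSpace.exp_zero, one_mul, mul_one] at hc
  calc NormedSpace.exp (t • B) * Θ 0
      = NormedSpace.exp (t • B) * (NormedSpace.exp ((-t) • B) * Θ t *
        NormedSpace.exp (t • B)) := by rw [hc]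
    _ = (NormedSpace.exp (t • B) * NormedSpace.exp ((-t) • B)) * Θ t *
        NormedSpace.exp (t • B) := by noncomm_ring
    _ = _ := by rw [exp_mul_neg, one_mul]

end General

/-! ### 2. Spinor generators -/

section Spinor

open scoped Matrix

/-- `σ_a = (1/4) ∑ a_{li} γ^i γ^l` -/
def sg (G : GammaNine) (a : Matrix (Fin 9) (Fin 9) ℝ) : Matrix (Fin 16) (Fin 16) ℝ :=
  (1 / 4 : ℝ) • ∑ i : Fin 9, ∑ l : Fin 9, a l i • (G.γ i * G.γ l)

variable {G : GammaNine} {a : Matrix (Fin 9) (Fin 9) ℝ}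

theorem sg_transpose (ha : a.transpose = -a) : (sg G a).transpose = - sg G a := by
  have hs : ∀ i l, a i l = - a l i := fun i l => by
    have := congrFun (congrFun ha l) i
    simpa [Matrix.transpose_apply] using this
  unfold sg
  rw [Matrix.transpose_smul, Matrix.transpose_sum, ← smul_neg]
  congr 1
  simp only [Matrix.transpose_sum, Matrix.transpose_smul, Matrix.transpose_mul, G.symm]
  rw [Finset.sum_comm, ← Finset.sum_neg_distrib]
  refine Finset.sum_congr rfl fun i _ => ?_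
  rw [← Finset.sum_neg_distrib]
  refine Finset.sum_congr rfl fun l _ => ?_
  rw [hs i l, neg_smul]

theorem gam_comm (i l k : Fin 9) : (G.γ i * G.γ l) * G.γ k - G.γ k * (G.γ i * G.γ l) =
    (if l = k then (2 : ℝ) • G.γ i else 0) - (if i = k then (2 : ℝ) • G.γ l else 0) := by
  have h1 := G.clifford l k
  have h2 := G.clifford i k
  have e : (G.γ i * G.γ l) * G.γ k - G.γ k * (G.γ i * G.γ l) =
      G.γ i * (G.γ l * G.γ k + G.γ k * G.γ l) - (G.γ i * G.γ k + G.γ k * G.γ i) * G.γ l := by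
    noncomm_ring
  rw [e, h1, h2]
  congr 1
  · split_ifs
    · rw [two_smul, mul_two]
    · rw [mul_zero]
  · split_ifs
    · rw [two_smul, two_mul]
    · rw [zero_mul]

theorem sg_comm (ha : a.transpose = -a) (k : Fin 9) :
    sg G a * G.γ k - G.γ k * sg G a = ∑ i, a k i • G.γ i := by
  have hs : ∀ i l, a i l = - a l i := fun i l => by
    have := congrFun (congrFun ha l) i
    simpa [Matrix.transpose_apply] using this
  have e : sg G a * G.γ k - G.γ k * sg G a = (1 / 4 : ℝ) • ∑ i, ∑ l, a l i •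
      ((G.γ i * G.γ l) * G.γ k - G.γ k * (G.γ i * G.γ l)) := by
    unfold sg
    simp only [smul_sub, Finset.sum_sub_distrib, Matrix.smul_mul, Matrix.mul_smul,
      Matrix.sum_mul, Matrix.mul_sum]
  rw [e]
  simp only [gam_comm, smul_sub, smul_ite, smul_zero, Finset.sum_sub_distrib,
    Finset.sum_ite_eq', Finset.mem_univ, if_true]
  have e2 : ∑ i : Fin 9, ∑ l : Fin 9, (if i = k then a l i • (2 : ℝ) • G.γ l else 0) =
      ∑ l, a l k • (2 : ℝ) • G.γ l := by
    rw [Finset.sum_comm]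
    refine Finset.sum_congr rfl fun l _ => ?_
    rw [Finset.sum_ite_eq' Finset.univ k]
    simp
  rw [e2, Finset.smul_sum, Finset.smul_sum, ← Finset.sum_sub_distrib]
  refine Finset.sum_congr rfl fun i _ => ?_
  rw [hs i k, smul_smul, smul_smul, smul_smul, smul_smul, ← sub_smul]
  congr 1
  ring

end Spinor

/-! ### 3. Exponentials of real antisymmetric matrices -/

/-- `exp (t a)` -/
def me {n : Type*} [Fintype n] [DecidableEq n] (a : Matrix n n ℝ) (t : ℝ) : Matrix n n ℝ :=
  NormedSpace.exp (t • a)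

section MatExp

open scoped Matrix Matrix.Norms.Operator

variable {n : Type*} [Fintype n] [DecidableEq n]

theorem me_zero (a : Matrix n n ℝ) : me a 0 = 1 := exp_zero_smul a

theorem me_add (a : Matrix n n ℝ) (s t : ℝ) : me a (s + t) = me a s * me a t :=
  exp_add_smul a s t

theorem me_mul_neg (a : Matrix n n ℝ) (t : ℝ) : me a t * me a (-t) = 1 := exp_mul_neg a t

theorem me_neg_mul (a : Matrix n n ℝ) (t : ℝ) : me a (-t) * me a t = 1 := by
  have := me_mul_neg a (-t)
  rwa [neg_neg] at this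

theorem me_transpose {a : Matrix n n ℝ} (ha : aᵀ = -a) (t : ℝ) : (me a t)ᵀ = me a (-t) := by
  unfold me
  rw [← Matrix.exp_transpose, Matrix.transpose_smul, ha, smul_neg, neg_smul]

theorem me_transpose_apply {a : Matrix n n ℝ} (ha : aᵀ = -a) (t : ℝ) (i j : n) :
    me a (-t) i j = me a t j i := by
  rw [← me_transpose ha]; rfl

theorem me_hasDerivAt (a : Matrix n n ℝ) (t : ℝ) (i j : n) :
    HasDerivAt (fun u => me a u i j) ((me a t * a) i j) t := by
  have h := hasDerivAt_exp_smul_const (𝕂 := ℝ) a t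
  have h2 := ((LinearMap.toContinuousLinearMap
    (Matrix.entryLinearMap ℝ ℝ i j)).hasFDerivAt.comp_hasDerivAt t h)
  exact h2

theorem me_hasDerivAt' (a : Matrix n n ℝ) (t : ℝ) (i j : n) :
    HasDerivAt (fun u => me a u i j) ((a * me a t) i j) t := by
  have h := hasDerivAt_exp_smul_const' (𝕂 := ℝ) a t
  have h2 := ((LinearMap.toContinuousLinearMap
    (Matrix.entryLinearMap ℝ ℝ i j)).hasFDerivAt.comp_hasDerivAt t h)
  exact h2

variable {G : GammaNine} {a : Matrix (Fin 9) (Fin 9) ℝ}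

/-- covariance of the gamma matrices under the spin rotation -/
theorem ss_gam (ha : a.transpose = -a) (t : ℝ) (k : Fin 9) :
    me (sg G a) t * G.γ k = (∑ i, me a t k i • G.γ i) * me (sg G a) t := by
  have h := conj_const (sg G a) (fun t => ∑ i, me a t k i • G.γ i) (fun u => ?_) t
  · have h0 : (∑ i, me a 0 k i • G.γ i) = G.γ k := by
      rw [me_zero]
      simp [Matrix.one_apply]
    simp only [h0] at h
    exact h
  · have h1 : HasDerivAt (fun t => ∑ i, me a t k i • G.γ i)
        (∑ i, (me a u * a) k i • G.γ i) u :=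
      HasDerivAt.fun_sum fun i _ => (me_hasDerivAt a u k i).smul_const _
    refine h1.congr_deriv ?_
    have e : sg G a * (∑ i, me a u k i • G.γ i) - (∑ i, me a u k i • G.γ i) * sg G a =
        ∑ i, me a u k i • (sg G a * G.γ i - G.γ i * sg G a) := by
      simp only [Matrix.mul_sum, Matrix.sum_mul, Matrix.mul_smul, Matrix.smul_mul, smul_sub,
        Finset.sum_sub_distrib]
    rw [e]
    simp only [sg_comm ha, Finset.smul_sum, smul_smul, Matrix.mul_apply, Finset.sum_smul]
    rw [Finset.sum_comm]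

end MatExp

/-! ### 4. The spin lift on `F` -/

section Lift

variable {N : ℕ} {F : Type*} [NormedAddCommGroup F] [InnerProductSpace ℂ F]
  {M : FermionRep N F} {G : GammaNine} {a : Matrix (Fin 9) (Fin 9) ℝ}

theorem sum5 {V ι : Type*} [AddCommMonoid V] [Fintype ι]
    (f : Fin 9 → Fin 9 → ι → Fin 16 → Fin 16 → V) :
    ∑ i, ∑ l, ∑ A, ∑ α, ∑ β, f i l A α β = ∑ A, ∑ α, ∑ β, ∑ i, ∑ l, f i l A α β := by
  have h : ∑ i, ∑ l, ∑ A, ∑ α, ∑ β, f i l A α β =
      ∑ p : Fin 9 × Fin 9, ∑ A, ∑ α, ∑ β, f p.1 p.2 A α β :=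
    (Fintype.sum_prod_type' (fun i l => ∑ A, ∑ α, ∑ β, f i l A α β)).symm
  rw [h, Finset.sum_comm]
  refine Finset.sum_congr rfl fun A _ => ?_
  rw [Finset.sum_comm]
  refine Finset.sum_congr rfl fun α _ => ?_
  rw [Finset.sum_comm]
  refine Finset.sum_congr rfl fun β _ => ?_
  exact Fintype.sum_prod_type' (fun i l => f i l A α β)

theorem Sp_eq (M : FermionRep N F) (G : GammaNine) (a : Matrix (Fin 9) (Fin 9) ℝ) :
    Sp M G a = (1 / 2 : ℂ) • ∑ A : Fin (N ^ 2 - 1), ∑ α : Fin 16, ∑ β : Fin 16,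
      ((sg G a α β : ℝ) : ℂ) • (M.θ α A ∘ₗ M.θ β A) := by
  unfold Sp
  have e : ∀ α β, ((sg G a α β : ℝ) : ℂ) = ∑ i : Fin 9, ∑ l : Fin 9,
      (1 / 4 : ℂ) * ((a l i : ℂ) * (((G.γ i * G.γ l) α β : ℝ) : ℂ)) := by
    intro α β
    unfold sg
    simp only [Matrix.smul_apply, Matrix.sum_apply, smul_eq_mul]
    push_cast
    simp only [Finset.mul_sum]
  simp only [e, Finset.smul_sum, Finset.sum_smul, smul_smul]
  rw [sum5]
  refine Finset.sum_congr rfl fun A _ => Finset.sum_congr rfl fun α _ =>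
    Finset.sum_congr rfl fun β _ => Finset.sum_congr rfl fun i _ =>
    Finset.sum_congr rfl fun l _ => ?_
  congr 1
  ring

/-- product of two generators against a third: `[θ_α^A θ_β^A, θ_γ^C]` -/
theorem th_comm (A C : Fin (N ^ 2 - 1)) (α β γ : Fin 16) :
    (M.θ α A ∘ₗ M.θ β A) ∘ₗ M.θ γ C - M.θ γ C ∘ₗ (M.θ α A ∘ₗ M.θ β A) =
      (if β = γ ∧ A = C then M.θ α A else 0) - (if α = γ ∧ A = C then M.θ β A else 0) := by
  have h1 := M.anticomm β A γ C
  have h2 := M.anticomm α A γ C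
  have e : (M.θ α A ∘ₗ M.θ β A) ∘ₗ M.θ γ C - M.θ γ C ∘ₗ (M.θ α A ∘ₗ M.θ β A) =
      M.θ α A ∘ₗ (M.θ β A ∘ₗ M.θ γ C + M.θ γ C ∘ₗ M.θ β A) -
      (M.θ α A ∘ₗ M.θ γ C + M.θ γ C ∘ₗ M.θ α A) ∘ₗ M.θ β A := by
    ext v
    simp only [LinearMap.sub_apply, LinearMap.add_apply, LinearMap.comp_apply, map_add]
    abel
  rw [e, h1, h2]
  congr 1
  · split_ifs
    · rw [LinearMap.comp_id]
    · rw [LinearMap.comp_zero]
  · split_ifs
    · rw [LinearMap.id_comp]
    · rw [LinearMap.zero_comp]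

theorem Sp_comm (ha : a.transpose = -a) (γ : Fin 16) (C : Fin (N ^ 2 - 1)) :
    Sp M G a ∘ₗ M.θ γ C - M.θ γ C ∘ₗ Sp M G a =
      ∑ α, ((sg G a α γ : ℝ) : ℂ) • M.θ α C := by
  have hs : ∀ α β, sg G a α β = - sg G a β α := fun α β => by
    have := congrFun (congrFun (sg_transpose (G := G) ha) β) α
    simpa [Matrix.transpose_apply] using this
  have e : Sp M G a ∘ₗ M.θ γ C - M.θ γ C ∘ₗ Sp M G a =
      (1 / 2 : ℂ) • ∑ A : Fin (N ^ 2 - 1), ∑ α : Fin 16, ∑ β : Fin 16,
        ((sg G a α β : ℝ) : ℂ) • ((M.θ α A ∘ₗ M.θ β A) ∘ₗ M.θ γ C -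
          M.θ γ C ∘ₗ (M.θ α A ∘ₗ M.θ β A)) := by
    rw [Sp_eq]
    ext v
    simp only [LinearMap.sub_apply, LinearMap.comp_apply, LinearMap.smul_apply,
      LinearMap.sum_apply, map_sum, map_smul, smul_sub, Finset.sum_sub_distrib]
  rw [e]
  simp only [th_comm, smul_sub, Finset.sum_sub_distrib, smul_ite, smul_zero]
  have e1 : ∑ A : Fin (N ^ 2 - 1), ∑ α : Fin 16, ∑ β : Fin 16,
      (if β = γ ∧ A = C then ((sg G a α β : ℝ) : ℂ) • M.θ α A else 0) =
      ∑ α, ((sg G a α γ : ℝ) : ℂ) • M.θ α C := by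
    rw [Finset.sum_eq_single C]
    · refine Finset.sum_congr rfl fun α _ => ?_
      rw [Finset.sum_eq_single γ]
      · simp
      · intro β _ hβ; rw [if_neg (fun h => hβ h.1)]
      · intro h; exact absurd (Finset.mem_univ _) h
    · intro A _ hA
      refine Finset.sum_eq_zero fun α _ => Finset.sum_eq_zero fun β _ => ?_
      rw [if_neg (fun h => hA h.2)]
    · intro h; exact absurd (Finset.mem_univ _) h
  have e2 : ∑ A : Fin (N ^ 2 - 1), ∑ α : Fin 16, ∑ β : Fin 16,
      (if α = γ ∧ A = C then ((sg G a α β : ℝ) : ℂ) • M.θ β A else 0) =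
      ∑ β, ((sg G a γ β : ℝ) : ℂ) • M.θ β C := by
    rw [Finset.sum_eq_single C]
    · rw [Finset.sum_eq_single γ]
      · simp
      · intro α _ hα
        refine Finset.sum_eq_zero fun β _ => ?_
        rw [if_neg (fun h => hα h.1)]
      · intro h; exact absurd (Finset.mem_univ _) h
    · intro A _ hA
      refine Finset.sum_eq_zero fun α _ => Finset.sum_eq_zero fun β _ => ?_
      rw [if_neg (fun h => hA h.2)]
    · intro h; exact absurd (Finset.mem_univ _) h
  rw [e1, e2, Finset.smul_sum, Finset.smul_sum, ← Finset.sum_sub_distrib]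
  refine Finset.sum_congr rfl fun α _ => ?_
  rw [hs γ α, smul_smul, smul_smul, ← sub_smul]
  congr 1
  push_cast
  ring

/-- the spin generator is skew-adjoint -/
theorem Sp_skew (ha : a.transpose = -a) (v w : F) :
    ⟪Sp M G a v, w⟫_ℂ = - ⟪v, Sp M G a w⟫_ℂ := by
  have hs : ∀ α β, sg G a α β = - sg G a β α := fun α β => by
    have := congrFun (congrFun (sg_transpose (G := G) ha) β) α
    simpa [Matrix.transpose_apply] using this
  rw [Sp_eq]
  simp only [LinearMap.smul_apply, LinearMap.sum_apply, LinearMap.comp_apply, inner_smul_left,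
    inner_smul_right, sum_inner, inner_sum, Complex.conj_ofReal]
  rw [← mul_neg, ← Finset.sum_neg_distrib]
  have h2 : (starRingEnd ℂ) (1 / 2 : ℂ) = 1 / 2 := by
    rw [map_div₀, map_one, Complex.conj_ofNat]
  rw [h2]
  congr 1
  refine Finset.sum_congr rfl fun A _ => ?_
  rw [Finset.sum_comm, ← Finset.sum_neg_distrib]
  refine Finset.sum_congr rfl fun α _ => ?_
  rw [← Finset.sum_neg_distrib]
  refine Finset.sum_congr rfl fun β _ => ?_
  rw [hs β α, M.selfAdjoint β A, M.selfAdjoint α A]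
  push_cast
  ring

end Lift

/-! ### 5. The group `exp (t S_a)` on `F` -/

section Grp

variable {N : ℕ} {F : Type*} [NormedAddCommGroup F] [InnerProductSpace ℂ F]
  [FiniteDimensional ℂ F]
  {M : FermionRep N F} {G : GammaNine} {a : Matrix (Fin 9) (Fin 9) ℝ}

theorem eS_zero : eS M G a 0 = 1 := by
  unfold eS
  rw [Complex.ofReal_zero, zero_smul, NormedSpace.exp_zero]

theorem eS_add (s t : ℝ) : eS M G a (s + t) = eS M G a s * eS M G a t := by
  unfold eS
  let _ : NormedAlgebra ℚ (F →L[ℂ] F) := NormedAlgebra.restrictScalars ℚ ℂ (F →L[ℂ] F)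
  rw [Complex.ofReal_add, add_smul]
  exact NormedSpace.exp_add_of_commute (((Commute.refl _).smul_left _).smul_right _)

theorem eS_mul_neg (t : ℝ) : eS M G a t * eS M G a (-t) = 1 := by
  rw [← eS_add, add_neg_cancel, eS_zero]

theorem eS_neg_mul (t : ℝ) : eS M G a (-t) * eS M G a t = 1 := by
  rw [← eS_add, neg_add_cancel, eS_zero]

theorem eS_apply_zero (v : F) : eS M G a 0 v = v := by
  rw [eS_zero]; rfl

theorem eS_apply_add (s t : ℝ) (v : F) : eS M G a (s + t) v = eS M G a s (eS M G a t v) := by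
  rw [eS_add]; rfl

theorem eS_apply_neg (t : ℝ) (v : F) : eS M G a t (eS M G a (-t) v) = v := by
  rw [← eS_apply_add, add_neg_cancel, eS_apply_zero]

theorem eS_neg_apply (t : ℝ) (v : F) : eS M G a (-t) (eS M G a t v) = v := by
  rw [← eS_apply_add, neg_add_cancel, eS_apply_zero]

theorem eS_hasDerivAt (t : ℝ) (v : F) :
    HasDerivAt (fun u : ℝ => eS M G a u v) (Sp M G a (eS M G a t v)) t := by
  have h1 := hasDerivAt_exp_smul_const' (𝕂 := ℂ) (𝔸 := F →L[ℂ] F)
    (LinearMap.toContinuousLinearMap (Sp M G a)) (t : ℂ)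
  have h2 := (ContinuousLinearMap.apply ℂ F v).hasFDerivAt.comp_hasDerivAt (t : ℂ) h1
  have h3 : HasDerivAt (fun u : ℝ => eS M G a u v)
      (Complex.ofRealCLM 1 • (Sp M G a (eS M G a t v))) t :=
    h2.scomp t (Complex.ofRealCLM.hasDerivAt (x := t))
  simpa using h3

theorem eS_continuous (v : F) : Continuous (fun u : ℝ => eS M G a u v) :=
  continuous_iff_continuousAt.2 fun t => (eS_hasDerivAt t v).continuousAt

/-- the spin lift is unitary -/
theorem eS_inner (ha : a.transpose = -a) (t : ℝ) (v w : F) :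
    ⟪eS M G a t v, eS M G a t w⟫_ℂ = ⟪v, w⟫_ℂ := by
  have hd : ∀ u : ℝ, HasDerivAt (fun u => ⟪eS M G a u v, eS M G a u w⟫_ℂ) 0 u := by
    intro u
    refine ((eS_hasDerivAt u v).inner ℂ (eS_hasDerivAt u w)).congr_deriv ?_
    rw [Sp_skew ha]
    ring
  have hc := is_const_of_deriv_eq_zero (fun u => (hd u).differentiableAt)
    (fun u => (hd u).deriv) t 0
  simp only [eS_apply_zero] at hc
  exact hc

theorem eS_norm (ha : a.transpose = -a) (t : ℝ) (v : F) : ‖eS M G a t v‖ = ‖v‖ := by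
  have h := eS_inner (M := M) (G := G) ha t v v
  rw [inner_self_eq_norm_sq_to_K, inner_self_eq_norm_sq_to_K] at h
  have h2 : ‖eS M G a t v‖ ^ 2 = ‖v‖ ^ 2 := by exact_mod_cast h
  exact (sq_eq_sq₀ (norm_nonneg _) (norm_nonneg _)).1 h2

theorem eS_inner_left (ha : a.transpose = -a) (t : ℝ) (v w : F) :
    ⟪eS M G a t v, w⟫_ℂ = ⟪v, eS M G a (-t) w⟫_ℂ := by
  rw [← eS_inner (M := M) (G := G) ha t v (eS M G a (-t) w), eS_apply_neg]

/-- covariance of the Clifford generators under the spin lift -/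
theorem eS_theta (ha : a.transpose = -a) (t : ℝ) (γ : Fin 16) (C : Fin (N ^ 2 - 1)) (v : F) :
    eS M G a t (M.θ γ C v) =
      ∑ α, ((me (sg G a) t α γ : ℝ) : ℂ) • M.θ α C (eS M G a t v) := by
  have key : ∀ w : F, ⟪eS M G a t w, ∑ α, ((me (sg G a) t α γ : ℝ) : ℂ) •
      M.θ α C (eS M G a t v)⟫_ℂ = ⟪w, M.θ γ C v⟫_ℂ := by
    intro w
    have hd : ∀ u : ℝ, HasDerivAt (fun u : ℝ => ⟪eS M G a u w,
        ∑ α, ((me (sg G a) u α γ : ℝ) : ℂ) • M.θ α C (eS M G a u v)⟫_ℂ) 0 u := by
      intro u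
      have hth : ∀ α, HasDerivAt (fun u : ℝ => M.θ α C (eS M G a u v))
          (M.θ α C (Sp M G a (eS M G a u v))) u := by
        intro α
        have h1 := ((LinearMap.toContinuousLinearMap (M.θ α C)).restrictScalars
          ℝ).hasFDerivAt.comp_hasDerivAt u (eS_hasDerivAt (M := M) (G := G) (a := a) u v)
        exact h1
      have hsum : HasDerivAt (fun u : ℝ => ∑ α, ((me (sg G a) u α γ : ℝ) : ℂ) •
          M.θ α C (eS M G a u v))
          (∑ α, (((me (sg G a) u α γ : ℝ) : ℂ) • M.θ α C (Sp M G a (eS M G a u v)) +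
            (((sg G a * me (sg G a) u) α γ : ℝ) : ℂ) • M.θ α C (eS M G a u v))) u := by
        refine HasDerivAt.fun_sum fun α _ => ?_
        exact ((me_hasDerivAt' (sg G a) u α γ).ofReal_comp).smul (hth α)
      refine ((eS_hasDerivAt u w).inner ℂ hsum).congr_deriv ?_
      rw [Sp_skew ha, ← sub_eq_add_neg, ← inner_sub_right]
      have e : (∑ α, (((me (sg G a) u α γ : ℝ) : ℂ) • M.θ α C (Sp M G a (eS M G a u v)) +
            (((sg G a * me (sg G a) u) α γ : ℝ) : ℂ) • M.θ α C (eS M G a u v))) -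
          Sp M G a (∑ α, ((me (sg G a) u α γ : ℝ) : ℂ) • M.θ α C (eS M G a u v)) = 0 := by
        set z := eS M G a u v with hz
        have h3 : ∀ δ, Sp M G a (M.θ δ C z) = M.θ δ C (Sp M G a z) +
            ∑ α, ((sg G a α δ : ℝ) : ℂ) • M.θ α C z := by
          intro δ
          have h4 := congrArg (fun L : F →ₗ[ℂ] F => L z) (Sp_comm (M := M) (G := G) ha δ C)
          simp only [LinearMap.sub_apply, LinearMap.comp_apply, LinearMap.sum_apply,
            LinearMap.smul_apply] at h4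
          rw [← h4]
          abel
        have h5 : ∑ α, (((sg G a * me (sg G a) u) α γ : ℝ) : ℂ) • M.θ α C z =
            ∑ δ, ((me (sg G a) u δ γ : ℝ) : ℂ) • ∑ α, ((sg G a α δ : ℝ) : ℂ) • M.θ α C z := by
          simp only [Finset.smul_sum, smul_smul]
          rw [Finset.sum_comm]
          refine Finset.sum_congr rfl fun α _ => ?_
          rw [← Finset.sum_smul]
          congr 1
          rw [Matrix.mul_apply]
          push_cast
          exact Finset.sum_congr rfl fun δ _ => mul_comm _ _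
        rw [map_sum]
        simp only [map_smul, h3, smul_add, Finset.sum_add_distrib]
        rw [h5]
        abel
      rw [e, inner_zero_right]
    have hc := is_const_of_deriv_eq_zero (fun u => (hd u).differentiableAt)
      (fun u => (hd u).deriv) t 0
    simp only [eS_apply_zero, me_zero] at hc
    rw [hc]
    simp [Matrix.one_apply]
  have h2 : ∀ z : F, ⟪z, eS M G a t (M.θ γ C v)⟫_ℂ =
      ⟪z, ∑ α, ((me (sg G a) t α γ : ℝ) : ℂ) • M.θ α C (eS M G a t v)⟫_ℂ := by
    intro z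
    have h3 := key (eS M G a (-t) z)
    rw [eS_apply_neg] at h3
    rw [h3, ← eS_inner (M := M) (G := G) ha t (eS M G a (-t) z) (M.θ γ C v), eS_apply_neg]
  exact ext_inner_left ℂ h2

end Grp

end Crest.Agent.R330.Sym613

end
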