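import Mathlib
import Crest.Prelude.Def_MatrixModel
import Crest.Agent.R330.SDefs_726
import Crest.Agent.R330.IBP_837
import Crest.Agent.R330.Col_962
import Crest.Agent.R330.Gam_962
import Crest.Agent.R330.Sym_613

/-!
# Row 330, S13.SYM (helper613): the one-parameter spin rotations `U_a(t)` — geometry, core,
covariance of the supercharges
-/

set_option autoImplicit false

open MeasureTheory Filter Topology
open scoped ContDiff InnerProductSpace ENNReal
open Crest.MathPhysics.MatrixQM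
open Crest.Agent.R330.SDefs726

noncomputable section

namespace Crest.Agent.R330.Sym613

/-! ### 6. Rotations of configuration space -/

section Geo

variable {N : ℕ}

/-- `vf` as a linear map -/
def vfL (r : Matrix (Fin 9) (Fin 9) ℝ) : Cfg N →ₗ[ℝ] Cfg N where
  toFun := vf r
  map_add' x y := by
    ext ⟨i, A⟩
    simp [vf_apply, mul_add, Finset.sum_add_distrib]
  map_smul' c x := by
    ext ⟨i, A⟩
    simp only [vf_apply, PiLp.smul_apply, smul_eq_mul, RingHom.id_apply, Finset.mul_sum]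
    exact Finset.sum_congr rfl fun j _ => by ring

@[simp] theorem vfL_apply (r : Matrix (Fin 9) (Fin 9) ℝ) (x : Cfg N) : vfL r x = vf r x := rfl

theorem inner_vf (r : Matrix (Fin 9) (Fin 9) ℝ) (x y : Cfg N) :
    ⟪vf r x, y⟫_ℝ = ⟪x, vf r.transpose y⟫_ℝ := by
  simp only [PiLp.inner_apply, RCLike.inner_apply, conj_trivial, Fintype.sum_prod_type,
    vf_apply, Finset.sum_mul, Finset.mul_sum, Matrix.transpose_apply]
  rw [Finset.sum_comm]
  have h : ∀ A : Fin (N ^ 2 - 1), ∑ i, ∑ j, y (i, A) * (r i j * x (j, A)) =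
      ∑ j, ∑ i, y (i, A) * (r i j * x (j, A)) := fun A => Finset.sum_comm
  simp only [h]
  rw [Finset.sum_comm]
  refine Finset.sum_congr rfl fun j _ => Finset.sum_congr rfl fun A _ =>
    Finset.sum_congr rfl fun i _ => by ring

theorem norm_vf {r : Matrix (Fin 9) (Fin 9) ℝ} (hr : r.transpose * r = 1) (x : Cfg N) :
    ‖vf r x‖ = ‖x‖ := by
  have h : ⟪vf r x, vf r x⟫_ℝ = ⟪x, x⟫_ℝ := by
    rw [inner_vf, ← vf_mul, hr, vf_one]
  rw [real_inner_self_eq_norm_sq, real_inner_self_eq_norm_sq] at h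
  exact (sq_eq_sq₀ (norm_nonneg _) (norm_nonneg _)).1 h

variable {a : Matrix (Fin 9) (Fin 9) ℝ}

/-- the rotation `x ↦ exp (t a) x` as a linear isometry equivalence -/
def vfE (a : Matrix (Fin 9) (Fin 9) ℝ) (ha : a.transpose = -a) (t : ℝ) : Cfg N ≃ₗᵢ[ℝ] Cfg N where
  toFun := vf (me a t)
  invFun := vf (me a (-t))
  map_add' := (vfL (me a t)).map_add
  map_smul' := (vfL (me a t)).map_smul
  left_inv := fun x => by rw [← vf_mul, me_neg_mul, vf_one]
  right_inv := fun x => by rw [← vf_mul, me_mul_neg, vf_one]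
  norm_map' := norm_vf (by rw [me_transpose ha, me_neg_mul])

@[simp] theorem vfE_apply (ha : a.transpose = -a) (t : ℝ) (x : Cfg N) :
    vfE a ha t x = vf (me a t) x := rfl

theorem norm_vf_me (ha : a.transpose = -a) (t : ℝ) (x : Cfg N) : ‖vf (me a t) x‖ = ‖x‖ :=
  (vfE a ha t).norm_map x

theorem vf_mp (ha : a.transpose = -a) (t : ℝ) :
    MeasurePreserving (fun x : Cfg N => vf (me a t) x) volume volume :=
  (vfE a ha t).measurePreserving

theorem continuous_vf (r : Matrix (Fin 9) (Fin 9) ℝ) : Continuous (fun x : Cfg N => vf r x) :=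
  (vfL r).continuous_of_finiteDimensional

theorem contDiff_vf (r : Matrix (Fin 9) (Fin 9) ℝ) {n : WithTop ℕ∞} :
    ContDiff ℝ n (fun x : Cfg N => vf r x) :=
  (LinearMap.toContinuousLinearMap (vfL (N := N) r)).contDiff

theorem me_vf_zero (x : Cfg N) : vf (me a 0) x = x := by rw [me_zero, vf_one]

theorem me_vf_add (s t : ℝ) (x : Cfg N) : vf (me a (s + t)) x = vf (me a s) (vf (me a t) x) := by
  rw [me_add, vf_mul]

theorem vf_hasDerivAt (t : ℝ) (x : Cfg N) :
    HasDerivAt (fun u : ℝ => vf (me a u) x) (vf a (vf (me a t) x)) t := by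
  rw [← vf_mul]
  rw [hasDerivAt_iff_hasFDerivAt, ← hasFDerivWithinAt_univ, hasFDerivWithinAt_euclidean]
  rintro ⟨i, A⟩
  have h1 : HasDerivAt (fun u : ℝ => ∑ j, me a u i j * x (j, A))
      (∑ j, (a * me a t) i j * x (j, A)) t :=
    HasDerivAt.fun_sum fun j _ => (me_hasDerivAt' a t i j).mul_const _
  have h2 := h1.hasFDerivAt.hasFDerivWithinAt (s := Set.univ)
  refine h2.congr_fderiv ?_
  ext
  simp [vf_apply]

end Geo

/-! ### 7. `U_a(t)` preserves the core -/

section Core

variable {N : ℕ} {F : Type*} [NormedAddCommGroup F] [InnerProductSpace ℂ F]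
  [FiniteDimensional ℂ F]
  {b : ColorBasis N} {M : FermionRep N F} {R : GaugeAction b M} {G : GammaNine}
  {a : Matrix (Fin 9) (Fin 9) ℝ}

theorem U_apply (t : ℝ) (φ : Cfg N → F) (x : Cfg N) :
    U M G a t φ x = eS M G a t (φ (vf (me a t) x)) := rfl

theorem U_zero (φ : Cfg N → F) : U M G a 0 φ = φ := by
  funext x
  rw [U_apply, eS_apply_zero, me_vf_zero]

/-- (S5) group law -/
theorem U_add (s t : ℝ) (φ : Cfg N → F) : U M G a (s + t) φ = U M G a s (U M G a t φ) := by
  funext x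
  rw [U_apply, U_apply, U_apply, eS_apply_add, add_comm s t, me_vf_add]

theorem U_neg_cancel (t : ℝ) (φ : Cfg N → F) : U M G a (-t) (U M G a t φ) = φ := by
  rw [← U_add, neg_add_cancel, U_zero]

theorem U_cancel_neg (t : ℝ) (φ : Cfg N → F) : U M G a t (U M G a (-t) φ) = φ := by
  rw [← U_add, add_neg_cancel, U_zero]

theorem act_vf (g : Matrix.specialUnitaryGroup (Fin N) ℂ) (r : Matrix (Fin 9) (Fin 9) ℝ)
    (x : Cfg N) : vf r (b.act g x) = b.act g (vf r x) := by
  ext ⟨i, A⟩
  simp only [vf_apply, Col962.act_apply, Finset.mul_sum]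
  rw [Finset.sum_comm]
  exact Finset.sum_congr rfl fun j _ => Finset.sum_congr rfl fun l _ => by ring

theorem rho_theta (g : Matrix.specialUnitaryGroup (Fin N) ℂ) (α : Fin 16)
    (A : Fin (N ^ 2 - 1)) (v : F) :
    R.ρ g (M.θ α A v) = ∑ B, (b.adjMat g B A : ℂ) • M.θ α B (R.ρ g v) := by
  have h := congrArg (fun L : F →ₗ[ℂ] F => L v) (R.intertwine g α A)
  simpa only [LinearMap.comp_apply, LinearMap.sum_apply, LinearMap.smul_apply] using h

/-- the spin generator commutes with the gauge action -/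
theorem rho_Sp (g : Matrix.specialUnitaryGroup (Fin N) ℂ) (v : F) :
    R.ρ g (Sp M G a v) = Sp M G a (R.ρ g v) := by
  rw [Sp_eq]
  simp only [LinearMap.smul_apply, LinearMap.sum_apply, LinearMap.comp_apply, map_smul, map_sum]
  congr 1
  have h1 : ∀ A α β, R.ρ g (M.θ α A (M.θ β A v)) = ∑ B, ∑ C,
      ((b.adjMat g B A * b.adjMat g C A : ℝ) : ℂ) • M.θ α B (M.θ β C (R.ρ g v)) := by
    intro A α β
    rw [rho_theta]
    refine Finset.sum_congr rfl fun B _ => ?_
    rw [rho_theta, map_sum, Finset.smul_sum]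
    refine Finset.sum_congr rfl fun C _ => ?_
    rw [map_smul, smul_smul]
    push_cast
    rfl
  simp only [h1]
  have h2 : ∀ α β : Fin 16, ∑ A, ∑ B, ∑ C,
      ((b.adjMat g B A * b.adjMat g C A : ℝ) : ℂ) • M.θ α B (M.θ β C (R.ρ g v)) =
      ∑ A, M.θ α A (M.θ β A (R.ρ g v)) := by
    intro α β
    rw [Finset.sum_comm]
    refine Finset.sum_congr rfl fun B _ => ?_
    rw [Finset.sum_comm]
    rw [Finset.sum_eq_single B]
    · rw [← Finset.sum_smul]
      have h3 := Col962.adjMat_orth' b g B B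
      rw [if_pos rfl] at h3
      have h4 : ∑ A, ((b.adjMat g B A * b.adjMat g B A : ℝ) : ℂ) = 1 := by
        rw [← Complex.ofReal_sum, h3, Complex.ofReal_one]
      rw [h4, one_smul]
    · intro C _ hC
      rw [← Finset.sum_smul]
      have h3 := Col962.adjMat_orth' b g B C
      rw [if_neg hC.symm] at h3
      have h4 : ∑ A, ((b.adjMat g B A * b.adjMat g C A : ℝ) : ℂ) = 0 := by
        rw [← Complex.ofReal_sum, h3, Complex.ofReal_zero]
      rw [h4, zero_smul]
    · intro h; exact absurd (Finset.mem_univ _) h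
  have h5 : ∑ A, ∑ α, ∑ β, ((sg G a α β : ℝ) : ℂ) • ∑ B, ∑ C,
      ((b.adjMat g B A * b.adjMat g C A : ℝ) : ℂ) • M.θ α B (M.θ β C (R.ρ g v)) =
      ∑ α, ∑ β, ((sg G a α β : ℝ) : ℂ) • ∑ A, ∑ B, ∑ C,
      ((b.adjMat g B A * b.adjMat g C A : ℝ) : ℂ) • M.θ α B (M.θ β C (R.ρ g v)) := by
    rw [Finset.sum_comm]
    refine Finset.sum_congr rfl fun α _ => ?_
    rw [Finset.sum_comm]
    refine Finset.sum_congr rfl fun β _ => ?_
    rw [Finset.smul_sum]
  rw [h5]
  simp only [h2, Finset.smul_sum]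
  symm
  rw [Finset.sum_comm]
  refine Finset.sum_congr rfl fun α _ => ?_
  rw [Finset.sum_comm]

/-- the spin lift commutes with the gauge action -/
theorem rho_eS (g : Matrix.specialUnitaryGroup (Fin N) ℂ) (t : ℝ) (v : F) :
    R.ρ g (eS M G a t v) = eS M G a t (R.ρ g v) := by
  have h1 : Commute (LinearMap.toContinuousLinearMap (R.ρ g))
      ((t : ℂ) • LinearMap.toContinuousLinearMap (Sp M G a)) := by
    refine Commute.smul_right ?_ _
    show _ * _ = _ * _
    ext w
    exact rho_Sp g w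
  have h2 := Commute.exp_right h1
  have h3 := congrArg (fun L : F →L[ℂ] F => L v) h2.eq
  exact h3

theorem contDiff_U {n : WithTop ℕ∞} (t : ℝ) {φ : Cfg N → F} (h : ContDiff ℝ n φ) :
    ContDiff ℝ n (U M G a t φ) :=
  ((eS M G a t).restrictScalars ℝ).contDiff.comp (h.comp (contDiff_vf _))

theorem hasCompactSupport_U (ha : a.transpose = -a) (t : ℝ) {φ : Cfg N → F}
    (h : HasCompactSupport φ) : HasCompactSupport (U M G a t φ) := by
  have h1 : HasCompactSupport (fun x : Cfg N => φ (vf (me a t) x)) :=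
    h.comp_homeomorph (vfE a ha t).toHomeomorph
  exact h1.comp_left (g := fun v => eS M G a t v) (map_zero _)

/-- (S1) the core is preserved -/
theorem core_U (ha : a.transpose = -a) (t : ℝ) {φ : Cfg N → F} (h : IsCoreVec b R φ) :
    IsCoreVec b R (U M G a t φ) := by
  refine ⟨contDiff_U t h.1, hasCompactSupport_U ha t h.2.1, fun g x => ?_⟩
  rw [U_apply, U_apply, act_vf, h.2.2, rho_eS]

end Core

/-! ### 8. Covariance of the charges -/

section Cov

variable {N : ℕ} {F : Type*} [NormedAddCommGroup F] [InnerProductSpace ℂ F]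
  [FiniteDimensional ℂ F]
  {b : ColorBasis N} {M : FermionRep N F} {R : GaugeAction b M} {G : GammaNine}
  {a : Matrix (Fin 9) (Fin 9) ℝ}

/-- the orthogonal matrix acting on the index of the charges -/
def ss (G : GammaNine) (a : Matrix (Fin 9) (Fin 9) ℝ) (t : ℝ) : Matrix (Fin 16) (Fin 16) ℝ :=
  me (sg G a) t

theorem ss_orth (ha : a.transpose = -a) (t : ℝ) : (ss G a t).transpose * ss G a t = 1 := by
  unfold ss
  rw [me_transpose (sg_transpose ha), me_neg_mul]

theorem ss_orth' (ha : a.transpose = -a) (t : ℝ) : ss G a t * (ss G a t).transpose = 1 := by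
  unfold ss
  rw [me_transpose (sg_transpose ha), me_mul_neg]

theorem theta_eS (ha : a.transpose = -a) (t : ℝ) (β : Fin 16) (A : Fin (N ^ 2 - 1)) (z : F) :
    M.θ β A (eS M G a t z) = ∑ δ, ((ss G a t β δ : ℝ) : ℂ) • eS M G a t (M.θ δ A z) := by
  have h1 := eS_theta (M := M) (G := G) ha (-t) β A (eS M G a t z)
  rw [eS_neg_apply] at h1
  have h2 := congrArg (fun w => eS M G a t w) h1
  simp only [eS_apply_neg, map_sum, map_smul] at h2
  rw [h2]
  refine Finset.sum_congr rfl fun δ _ => ?_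
  rw [me_transpose_apply (sg_transpose ha)]
  rfl

/-- Feynman slash -/
def slash (G : GammaNine) (p : Fin 9 → ℝ) : Matrix (Fin 16) (Fin 16) ℝ := ∑ i, p i • G.γ i

theorem ss_slash (ha : a.transpose = -a) (t : ℝ) (p : Fin 9 → ℝ) :
    ss G a t * slash G (fun i => ∑ j, me a t i j * p j) = slash G p * ss G a t := by
  unfold slash ss
  rw [Matrix.mul_sum, Matrix.sum_mul]
  simp only [Matrix.mul_smul, ss_gam ha, Matrix.sum_mul, Matrix.smul_mul, Finset.smul_sum,
    smul_smul]
  rw [Finset.sum_comm]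
  refine Finset.sum_congr rfl fun i _ => ?_
  rw [← Finset.sum_smul]
  congr 1
  have h1 : ∀ k, (∑ j, me a t k j * p j) * me a t k i = ∑ j, me a (-t) i k * me a t k j * p j := by
    intro k
    rw [Finset.sum_mul]
    refine Finset.sum_congr rfl fun j _ => ?_
    rw [me_transpose_apply ha]
    ring
  simp only [h1]
  rw [Finset.sum_comm]
  have h2 : ∀ j, ∑ k, me a (-t) i k * me a t k j * p j = (if i = j then 1 else 0) * p j := by
    intro j
    rw [← Finset.sum_mul, ← Matrix.mul_apply, me_neg_mul, Matrix.one_apply]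
  simp only [h2]
  simp

/-- `∑_{ij} p_i q_j γ^{ij}` -/
def slash2 (G : GammaNine) (p q : Fin 9 → ℝ) : Matrix (Fin 16) (Fin 16) ℝ :=
  ∑ i, ∑ j, (p i * q j) • G.γ2 i j

theorem slash2_eq (p q : Fin 9 → ℝ) :
    slash2 G p q = (1 / 2 : ℝ) • (slash G p * slash G q - slash G q * slash G p) := by
  have h1 : slash G p * slash G q = ∑ i, ∑ j, (p i * q j) • (G.γ i * G.γ j) := by
    unfold slash
    rw [Matrix.sum_mul]
    refine Finset.sum_congr rfl fun i _ => ?_
    rw [Matrix.mul_sum]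
    refine Finset.sum_congr rfl fun j _ => ?_
    rw [Matrix.smul_mul, Matrix.mul_smul, smul_smul]
  have h2 : slash G q * slash G p = ∑ i, ∑ j, (p i * q j) • (G.γ j * G.γ i) := by
    unfold slash
    rw [Matrix.mul_sum]
    refine Finset.sum_congr rfl fun i _ => ?_
    rw [Matrix.sum_mul]
    refine Finset.sum_congr rfl fun j _ => ?_
    rw [Matrix.smul_mul, Matrix.mul_smul, smul_smul, mul_comm]
  rw [h1, h2, ← Finset.sum_sub_distrib, Finset.smul_sum]
  unfold slash2
  refine Finset.sum_congr rfl fun i _ => ?_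
  rw [← Finset.sum_sub_distrib, Finset.smul_sum]
  refine Finset.sum_congr rfl fun j _ => ?_
  rw [← smul_sub, smul_comm]
  rfl

theorem ss_slash2 (ha : a.transpose = -a) (t : ℝ) (p q : Fin 9 → ℝ) :
    ss G a t * slash2 G (fun i => ∑ j, me a t i j * p j) (fun i => ∑ j, me a t i j * q j) =
      slash2 G p q * ss G a t := by
  have hp := ss_slash (G := G) ha t p
  have hq := ss_slash (G := G) ha t q
  rw [slash2_eq, slash2_eq, Matrix.mul_smul, Matrix.smul_mul, mul_sub, sub_mul]
  congr 2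
  · rw [← mul_assoc, hp, mul_assoc, hq, ← mul_assoc]
  · rw [← mul_assoc, hq, mul_assoc, hp, ← mul_assoc]

theorem wco_cov (ha : a.transpose = -a) (t : ℝ) (α δ : Fin 16) (A : Fin (N ^ 2 - 1))
    (x : Cfg N) : ∑ β, IBP837.wco b G α β A x * ss G a t β δ =
      ∑ β, ss G a t α β * IBP837.wco b G β δ A (vf (me a t) x) := by
  have h0 : ∀ (y : Cfg N) (α β : Fin 16), IBP837.wco b G α β A y =
      ∑ B, ∑ C, 1 / 2 * b.structConst A B C *
        slash2 G (fun i => y (i, B)) (fun j => y (j, C)) α β := by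
    intro y α β
    unfold IBP837.wco slash2
    refine Finset.sum_congr rfl fun B _ => Finset.sum_congr rfl fun C _ => ?_
    rw [Matrix.sum_apply, Finset.mul_sum]
    refine Finset.sum_congr rfl fun i _ => ?_
    rw [Matrix.sum_apply, Finset.mul_sum]
    refine Finset.sum_congr rfl fun j _ => ?_
    rw [Matrix.smul_apply, smul_eq_mul]
    ring
  have hL : ∑ β, IBP837.wco b G α β A x * ss G a t β δ = ∑ B, ∑ C, 1 / 2 * b.structConst A B C *
      (slash2 G (fun i => x (i, B)) (fun j => x (j, C)) * ss G a t) α δ := by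
    simp only [h0, Finset.sum_mul]
    rw [Finset.sum_comm]
    refine Finset.sum_congr rfl fun B _ => ?_
    rw [Finset.sum_comm]
    refine Finset.sum_congr rfl fun C _ => ?_
    rw [Matrix.mul_apply, Finset.mul_sum]
    exact Finset.sum_congr rfl fun β _ => by ring
  have hR : ∑ β, ss G a t α β * IBP837.wco b G β δ A (vf (me a t) x) =
      ∑ B, ∑ C, 1 / 2 * b.structConst A B C *
      (ss G a t * slash2 G (fun i => vf (me a t) x (i, B)) (fun j => vf (me a t) x (j, C))) α δ := by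
    simp only [h0, Finset.mul_sum]
    rw [Finset.sum_comm]
    refine Finset.sum_congr rfl fun B _ => ?_
    rw [Finset.sum_comm]
    refine Finset.sum_congr rfl fun C _ => ?_
    rw [Matrix.mul_apply, Finset.mul_sum]
    exact Finset.sum_congr rfl fun β _ => by ring
  rw [hL, hR]
  refine Finset.sum_congr rfl fun B _ => Finset.sum_congr rfl fun C _ => ?_
  have h := ss_slash2 (G := G) ha t (fun i => x (i, B)) (fun j => x (j, C))
  simp only [vf_apply]
  rw [← h]

theorem fderiv_U (t : ℝ) {φ : Cfg N → F} {x : Cfg N}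
    (hφ : DifferentiableAt ℝ φ (vf (me a t) x)) (e : Cfg N) :
    fderiv ℝ (U M G a t φ) x e = eS M G a t (fderiv ℝ φ (vf (me a t) x) (vf (me a t) e)) := by
  have h1 : HasFDerivAt (fun x : Cfg N => vf (me a t) x)
      (LinearMap.toContinuousLinearMap (vfL (N := N) (me a t))) x :=
    (LinearMap.toContinuousLinearMap (vfL (N := N) (me a t))).hasFDerivAt
  have h2 := ((eS M G a t).restrictScalars ℝ).hasFDerivAt.comp x (hφ.hasFDerivAt.comp x h1)
  have h3 : HasFDerivAt (U M G a t φ) _ x := h2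
  rw [h3.fderiv]
  rfl

theorem vf_single (r : Matrix (Fin 9) (Fin 9) ℝ) (i : Fin 9) (A : Fin (N ^ 2 - 1)) :
    vf r (EuclideanSpace.single (i, A) (1 : ℝ) : Cfg N) =
      ∑ j, r j i • (EuclideanSpace.single (j, A) (1 : ℝ) : Cfg N) := by
  ext ⟨k, B⟩
  rw [vf_apply]
  have h1 : (∑ j, r j i • (EuclideanSpace.single (j, A) (1 : ℝ) : Cfg N)) (k, B) =
      ∑ j, r j i * (EuclideanSpace.single (j, A) (1 : ℝ) : Cfg N) (k, B) := by
    simp [Pi.single_apply]
  rw [h1]
  simp only [PiLp.single_apply, Prod.mk.injEq, mul_ite, mul_one, mul_zero]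
  by_cases hB : B = A
  · subst hB
    simp
  · simp [hB]

/-- the kinetic part of a charge, in the direction variables -/
theorem dir_cov (ha : a.transpose = -a) (t : ℝ) (α : Fin 16) (A : Fin (N ^ 2 - 1))
    (D : Fin 9 → F) :
    ∑ i, ∑ β, ((G.γ i α β : ℝ) : ℂ) • M.θ β A (eS M G a t (∑ j, (me a t j i : ℝ) • D j)) =
      ∑ β, ((ss G a t α β : ℝ) : ℂ) • eS M G a t (∑ j, ∑ δ, ((G.γ j β δ : ℝ) : ℂ) •
        M.θ δ A (D j)) := by
  have hs : ∀ (r : ℝ) (v : F), r • v = ((r : ℝ) : ℂ) • v := fun r v => (Complex.coe_smul r v).symm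
  have hg : ∀ j δ, ∑ i, ∑ β, me a t j i * G.γ i α β * ss G a t β δ =
      ∑ β, ss G a t α β * G.γ j β δ := by
    intro j δ
    have h1 := ss_gam (G := G) ha t j
    have h2 := congrFun (congrFun h1 α) δ
    rw [Matrix.mul_apply] at h2
    unfold ss
    rw [h2, Matrix.sum_mul, Matrix.sum_apply]
    refine Finset.sum_congr rfl fun i _ => ?_
    rw [Matrix.smul_mul, Matrix.smul_apply, Matrix.mul_apply, smul_eq_mul, Finset.mul_sum]
    exact Finset.sum_congr rfl fun β _ => by ring
  have hL : ∑ i, ∑ β, ((G.γ i α β : ℝ) : ℂ) •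
      M.θ β A (eS M G a t (∑ j, (me a t j i : ℝ) • D j)) =
      ∑ j, ∑ δ, ((∑ i, ∑ β, me a t j i * G.γ i α β * ss G a t β δ : ℝ) : ℂ) •
        eS M G a t (M.θ δ A (D j)) := by
    simp only [hs, map_sum, map_smul, theta_eS ha, Finset.smul_sum, smul_smul]
    have h3 : ∀ i : Fin 9, ∑ β : Fin 16, ∑ j : Fin 9, ∑ δ : Fin 16,
        (((G.γ i α β : ℝ) : ℂ) * (((me a t j i : ℝ) : ℂ) * ((ss G a t β δ : ℝ) : ℂ))) •
          eS M G a t (M.θ δ A (D j)) = ∑ j : Fin 9, ∑ δ : Fin 16, ∑ β : Fin 16,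
        (((G.γ i α β : ℝ) : ℂ) * (((me a t j i : ℝ) : ℂ) * ((ss G a t β δ : ℝ) : ℂ))) •
          eS M G a t (M.θ δ A (D j)) := by
      intro i
      rw [Finset.sum_comm]
      refine Finset.sum_congr rfl fun j _ => ?_
      rw [Finset.sum_comm]
    simp only [h3]
    rw [Finset.sum_comm]
    refine Finset.sum_congr rfl fun j _ => ?_
    rw [Finset.sum_comm]
    refine Finset.sum_congr rfl fun δ _ => ?_
    push_cast
    rw [Finset.sum_smul]
    refine Finset.sum_congr rfl fun i _ => ?_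
    rw [Finset.sum_smul]
    refine Finset.sum_congr rfl fun β _ => ?_
    congr 1
    ring
  rw [hL]
  simp only [hg]
  simp only [map_sum, map_smul, Finset.smul_sum, smul_smul]
  symm
  rw [Finset.sum_comm]
  refine Finset.sum_congr rfl fun j _ => ?_
  rw [Finset.sum_comm]
  refine Finset.sum_congr rfl fun δ _ => ?_
  push_cast
  rw [Finset.sum_smul]

/-- covariance of a general charge -/
theorem chargeW_U (ha : a.transpose = -a) (t : ℝ)
    {W : Fin 16 → Fin 16 → Fin (N ^ 2 - 1) → Cfg N → ℝ} (α : Fin 16) {φ : Cfg N → F} {x : Cfg N}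
    (hW : ∀ δ A, ∑ β, W α β A x * ss G a t β δ = ∑ β, ss G a t α β * W β δ A (vf (me a t) x))
    (hφ : DifferentiableAt ℝ φ (vf (me a t) x)) :
    IBP837.chargeW M G W α (U M G a t φ) x =
      ∑ β, ((ss G a t α β : ℝ) : ℂ) • U M G a t (IBP837.chargeW M G W β φ) x := by
  set y := vf (me a t) x with hy
  have hk : ∀ α, ∀ ψ : Cfg N → F, ∀ z : Cfg N, (∑ k : Fin 9 × Fin (N ^ 2 - 1),
      (-Complex.I) • IBP837.dco M G α k (fderiv ℝ ψ z (EuclideanSpace.single k 1))) =
      (-Complex.I) • ∑ A, ∑ i, ∑ β, ((G.γ i α β : ℝ) : ℂ) •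
        M.θ β A (fderiv ℝ ψ z (EuclideanSpace.single (i, A) 1)) := by
    intro α ψ z
    rw [← Finset.smul_sum, Fintype.sum_prod_type, Finset.sum_comm]
    simp only [IBP837.dco_apply]
  simp only [U_apply, IBP837.chargeW_apply, hk, ← hy]
  have h1 : ∀ (i : Fin 9) (A : Fin (N ^ 2 - 1)),
      fderiv ℝ (U M G a t φ) x (EuclideanSpace.single (i, A) 1) =
      eS M G a t (∑ j, (me a t j i : ℝ) • fderiv ℝ φ y (EuclideanSpace.single (j, A) 1)) := by
    intro i A
    rw [fderiv_U t hφ, vf_single, map_sum]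
    simp only [map_smul, ← hy]
  simp only [h1]
  rw [Finset.sum_congr rfl fun A _ => dir_cov (M := M) (G := G) ha t α A
    (fun j => fderiv ℝ φ y (EuclideanSpace.single (j, A) 1))]
  have hv : IBP837.vco M (fun β A => W α β A x) (eS M G a t (φ y)) =
      ∑ β, ((ss G a t α β : ℝ) : ℂ) • eS M G a t (IBP837.vco M (fun δ A => W β δ A y) (φ y)) := by
    simp only [IBP837.vco_apply, theta_eS ha, map_sum, map_smul, Finset.smul_sum, smul_smul]
    symm
    rw [Finset.sum_comm]
    refine Finset.sum_congr rfl fun A _ => ?_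
    rw [Finset.sum_comm]
    symm
    rw [Finset.sum_comm]
    refine Finset.sum_congr rfl fun δ _ => ?_
    rw [← Finset.sum_smul, ← Finset.sum_smul]
    congr 1
    have h2 := hW δ A
    exact_mod_cast h2
  rw [hv]
  simp only [map_add, map_smul, map_sum, smul_add, Finset.sum_add_distrib]
  congr 1
  rw [Finset.sum_comm, Finset.smul_sum]
  refine Finset.sum_congr rfl fun β _ => ?_
  rw [smul_comm, Finset.smul_sum, Finset.smul_sum, Finset.smul_sum]

/-- (S3) covariance of the supercharges -/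
theorem supercharge_U (ha : a.transpose = -a) (t : ℝ) (α : Fin 16) {φ : Cfg N → F}
    (hφ : Differentiable ℝ φ) (x : Cfg N) :
    supercharge b M G α (U M G a t φ) x =
      ∑ β, ((ss G a t α β : ℝ) : ℂ) • U M G a t (supercharge b M G β φ) x := by
  simp only [IBP837.supercharge_eq]
  exact chargeW_U ha t α (fun δ A => wco_cov ha t α δ A x) (hφ _)

end Cov

end Crest.Agent.R330.Sym613

end
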