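import Mathlib
import Crest.Prelude.Def_MatrixModel
import Crest.Agent.R330.SDefs_726
import Crest.Agent.R330.IBP_837
import Crest.Agent.R330.Sym2_613

/-!
# Row 330, S13.SYM (helper613): the one-parameter spin rotations `U_a(t)` — `L²` statements,
derivatives, weak equations
-/

set_option autoImplicit false

open MeasureTheory Filter Topology
open scoped ContDiff InnerProductSpace ENNReal
open Crest.MathPhysics.MatrixQM
open Crest.Agent.R330.SDefs726

noncomputable section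

namespace Crest.Agent.R330.Sym613

variable {N : ℕ} {F : Type*} [NormedAddCommGroup F] [InnerProductSpace ℂ F]
  [FiniteDimensional ℂ F]
  {b : ColorBasis N} {M : FermionRep N F} {R : GaugeAction b M} {G : GammaNine}
  {a : Matrix (Fin 9) (Fin 9) ℝ}

/-! ### 9. Linearity and norms -/

theorem U_add_fun (t : ℝ) (φ ψ : Cfg N → F) :
    U M G a t (φ + ψ) = U M G a t φ + U M G a t ψ := by
  funext x; simp only [U_apply, Pi.add_apply, map_add]

theorem U_sub_fun (t : ℝ) (φ ψ : Cfg N → F) :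
    U M G a t (φ - ψ) = U M G a t φ - U M G a t ψ := by
  funext x; simp only [U_apply, Pi.sub_apply, map_sub]

theorem U_smul_fun (t : ℝ) (c : ℂ) (φ : Cfg N → F) :
    U M G a t (c • φ) = c • U M G a t φ := by
  funext x; simp only [U_apply, Pi.smul_apply, map_smul]

theorem U_zero_fun (t : ℝ) : U M G a t (0 : Cfg N → F) = 0 := by
  funext x; simp only [U_apply, Pi.zero_apply, map_zero]

theorem norm_U (ha : a.transpose = -a) (t : ℝ) (φ : Cfg N → F) (x : Cfg N) :
    ‖U M G a t φ x‖ = ‖φ (vf (me a t) x)‖ := by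
  rw [U_apply, eS_norm ha]

theorem U_congr_ae (ha : a.transpose = -a) (t : ℝ) {φ ψ : Cfg N → F} (h : φ =ᵐ[volume] ψ) :
    U M G a t φ =ᵐ[volume] U M G a t ψ := by
  have h1 := (vf_mp (N := N) ha t).quasiMeasurePreserving.ae_eq_comp h
  filter_upwards [h1] with x hx
  simp only [Function.comp_apply] at hx
  rw [U_apply, U_apply, hx]

theorem aesm_U (ha : a.transpose = -a) (t : ℝ) {φ : Cfg N → F}
    (h : AEStronglyMeasurable φ volume) : AEStronglyMeasurable (U M G a t φ) volume :=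
  (eS M G a t).continuous.comp_aestronglyMeasurable
    (h.comp_measurePreserving (vf_mp ha t))

theorem eLpNorm_U (ha : a.transpose = -a) (t : ℝ) {p : ℝ≥0∞} {φ : Cfg N → F}
    (h : AEStronglyMeasurable φ volume) :
    eLpNorm (U M G a t φ) p volume = eLpNorm φ p volume := by
  rw [← eLpNorm_comp_measurePreserving (p := p) h (vf_mp ha t)]
  exact eLpNorm_congr_norm_ae (Eventually.of_forall fun x => norm_U ha t φ x)

theorem memLp_U (ha : a.transpose = -a) (t : ℝ) {p : ℝ≥0∞} {φ : Cfg N → F}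
    (h : MemLp φ p volume) : MemLp (U M G a t φ) p volume :=
  ⟨aesm_U ha t h.1, by rw [eLpNorm_U ha t h.1]; exact h.2⟩

/-- `U_a(t)` preserves the `L²` inner product (no hypotheses on the functions) -/
theorem integral_U (ha : a.transpose = -a) (t : ℝ) (φ ψ : Cfg N → F) :
    ∫ x, ⟪U M G a t φ x, U M G a t ψ x⟫_ℂ = ∫ x, ⟪φ x, ψ x⟫_ℂ := by
  have h1 : ∀ x, ⟪U M G a t φ x, U M G a t ψ x⟫_ℂ =
      (fun y => ⟪φ y, ψ y⟫_ℂ) (vfE a ha t x) := by
    intro x
    rw [U_apply, U_apply, eS_inner ha]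
    rfl
  simp only [h1]
  exact (vfE a ha t).measurePreserving.integral_comp
    (vfE a ha t).toHomeomorph.measurableEmbedding (fun y => ⟪φ y, ψ y⟫_ℂ)

theorem integral_U_left (ha : a.transpose = -a) (t : ℝ) (φ ψ : Cfg N → F) :
    ∫ x, ⟪U M G a t φ x, ψ x⟫_ℂ = ∫ x, ⟪φ x, U M G a (-t) ψ x⟫_ℂ := by
  rw [← integral_U (M := M) (G := G) ha t φ (U M G a (-t) ψ), U_cancel_neg]

theorem integral_U_right (ha : a.transpose = -a) (t : ℝ) (φ ψ : Cfg N → F) :
    ∫ x, ⟪φ x, U M G a t ψ x⟫_ℂ = ∫ x, ⟪U M G a (-t) φ x, ψ x⟫_ℂ := by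
  rw [integral_U_left ha, neg_neg]

/-! ### 10. Derivatives -/

theorem Sp_eS (t : ℝ) (v : F) : Sp M G a (eS M G a t v) = eS M G a t (Sp M G a v) := by
  have h1 : Commute (LinearMap.toContinuousLinearMap (Sp M G a))
      ((t : ℂ) • LinearMap.toContinuousLinearMap (Sp M G a)) :=
    (Commute.refl _).smul_right _
  have h3 := congrArg (fun L : F →L[ℂ] F => L v) (Commute.exp_right h1).eq
  exact h3

theorem eS_comp_hasDerivAt {z : ℝ → F} {z' : F} {t : ℝ} (hz : HasDerivAt z z' t) :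
    HasDerivAt (fun u : ℝ => eS M G a u (z u)) (eS M G a t z' + Sp M G a (eS M G a t (z t))) t := by
  set e := stdOrthonormalBasis ℂ F with he
  have hexp : ∀ (u : ℝ) (v : F), eS M G a u v = ∑ k, ⟪e k, v⟫_ℂ • eS M G a u (e k) := by
    intro u v
    conv_lhs => rw [← e.sum_repr' v]
    simp only [map_sum, map_smul]
  have h1 : HasDerivAt (fun u : ℝ => ∑ k, ⟪e k, z u⟫_ℂ • eS M G a u (e k))
      (∑ k, (⟪e k, z t⟫_ℂ • Sp M G a (eS M G a t (e k)) + ⟪e k, z'⟫_ℂ • eS M G a t (e k))) t := by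
    refine HasDerivAt.fun_sum fun k _ => ?_
    have h2 : HasDerivAt (fun u : ℝ => ⟪e k, z u⟫_ℂ) ⟪e k, z'⟫_ℂ t := by
      have h3 := (hasDerivAt_const t (e k)).inner ℂ hz
      simpa using h3
    exact h2.smul (eS_hasDerivAt t (e k))
  have h4 : (fun u : ℝ => eS M G a u (z u)) =
      fun u : ℝ => ∑ k, ⟪e k, z u⟫_ℂ • eS M G a u (e k) := by
    funext u; exact hexp u (z u)
  rw [h4]
  refine h1.congr_deriv ?_
  rw [Finset.sum_add_distrib, ← hexp t z', add_comm]
  congr 1
  rw [hexp t (z t), map_sum]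
  simp only [map_smul]

/-- (pointwise derivative) `d/dt U_a(t) ψ (x) = U_a(t) J_a ψ (x)` -/
theorem U_hasDerivAt {ψ : Cfg N → F} (hψ : Differentiable ℝ ψ) (t : ℝ) (x : Cfg N) :
    HasDerivAt (fun u : ℝ => U M G a u ψ x) (U M G a t (Jg M G a ψ) x) t := by
  have h1 : HasDerivAt (fun u : ℝ => ψ (vf (me a u) x))
      (fderiv ℝ ψ (vf (me a t) x) (vf a (vf (me a t) x))) t :=
    (hψ (vf (me a t) x)).hasFDerivAt.comp_hasDerivAt t (vf_hasDerivAt t x)
  refine (eS_comp_hasDerivAt h1).congr_deriv ?_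
  rw [U_apply, Jg, map_add, Sp_eS]

theorem continuous_Jg {ψ : Cfg N → F} (hψ : ContDiff ℝ 1 ψ) : Continuous (Jg M G a ψ) := by
  have h1 : Continuous (fun x => fderiv ℝ ψ x (vf a x)) :=
    (hψ.continuous_fderiv (by norm_num)).clm_apply (continuous_vf a)
  have h2 : Continuous (fun x => Sp M G a (ψ x)) :=
    (LinearMap.continuous_of_finiteDimensional (Sp M G a)).comp hψ.continuous
  exact h1.add h2

omit [FiniteDimensional ℂ F] in
theorem tsupport_Jg_subset {ψ : Cfg N → F} : tsupport (Jg M G a ψ) ⊆ tsupport ψ := by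
  refine closure_minimal (fun x hx => ?_) (isClosed_tsupport ψ)
  by_contra h
  apply hx
  have h1 : fderiv ℝ ψ x = 0 := by
    have := (tsupport_fderiv_subset ℝ (f := ψ)) 
    by_contra h2
    exact h (this (subset_tsupport _ h2))
  rw [Jg, h1, image_eq_zero_of_notMem_tsupport h]
  simp

omit [FiniteDimensional ℂ F] in
theorem hasCompactSupport_Jg {ψ : Cfg N → F} (h : HasCompactSupport ψ) :
    HasCompactSupport (Jg M G a ψ) :=
  h.of_isClosed_subset (isClosed_tsupport _) tsupport_Jg_subset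

/-- derivative of matrix elements, at any `t` -/
theorem hasDerivAt_integral_U (ha : a.transpose = -a) {f ψ : Cfg N → F}
    (hf : LocallyIntegrable f volume) (hψ : ContDiff ℝ 1 ψ) (hc : HasCompactSupport ψ) (t : ℝ) :
    HasDerivAt (fun u : ℝ => ∫ x, ⟪f x, U M G a u ψ x⟫_ℂ)
      (∫ x, ⟪f x, U M G a t (Jg M G a ψ) x⟫_ℂ) t := by
  obtain ⟨ρ, hρ⟩ := hc.isCompact.isBounded.subset_closedBall (0 : Cfg N)
  have hg := continuous_Jg (M := M) (G := G) (a := a) hψ
  have hgc := hasCompactSupport_Jg (M := M) (G := G) (a := a) hc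
  obtain ⟨C, hC⟩ := hg.bounded_above_of_compact_support hgc
  have hC0 : 0 ≤ C := (norm_nonneg _).trans (hC 0)
  have hK : IsCompact (Metric.closedBall (0 : Cfg N) ρ) := isCompact_closedBall _ _
  have hmem : ∀ (u : ℝ) (x : Cfg N), vf (me a u) x ∈ Metric.closedBall (0 : Cfg N) ρ ↔
      x ∈ Metric.closedBall (0 : Cfg N) ρ := by
    intro u x
    simp only [mem_closedBall_zero_iff, norm_vf_me ha]
  have hz : ∀ (φ : Cfg N → F), tsupport φ ⊆ tsupport ψ → ∀ (u : ℝ) (x : Cfg N),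
      x ∉ Metric.closedBall (0 : Cfg N) ρ → U M G a u φ x = 0 := by
    intro φ hφ u x hx
    have h1 : vf (me a u) x ∉ tsupport φ := fun h => hx ((hmem u x).1 (hρ (hφ h)))
    rw [U_apply, image_eq_zero_of_notMem_tsupport h1, map_zero]
  have hfK : IntegrableOn f (Metric.closedBall (0 : Cfg N) ρ) volume :=
    hf.integrableOn_isCompact hK
  have hmeas : ∀ u, AEStronglyMeasurable (fun x => ⟪f x, U M G a u ψ x⟫_ℂ) volume := by
    intro u
    exact hf.aestronglyMeasurable.inner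
      (contDiff_U (M := M) (G := G) (a := a) u hψ).continuous.aestronglyMeasurable
  have hbound : Integrable (fun x => (Metric.closedBall (0 : Cfg N) ρ).indicator
      (fun x => ‖f x‖ * C) x) volume :=
    IntegrableOn.integrable_indicator (hfK.norm.mul_const C) hK.measurableSet
  have hUint : Integrable (fun x => ⟪f x, U M G a t ψ x⟫_ℂ) volume := by
    obtain ⟨C', hC'⟩ := hψ.continuous.bounded_above_of_compact_support hc
    refine Integrable.mono'
      (IntegrableOn.integrable_indicator (hfK.norm.mul_const C') hK.measurableSet) (hmeas t) (Eventually.of_forall fun x => ?_)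
    by_cases hx : x ∈ Metric.closedBall (0 : Cfg N) ρ
    · rw [Set.indicator_of_mem hx]
      refine (norm_inner_le_norm _ _).trans ?_
      rw [norm_U ha]
      exact mul_le_mul_of_nonneg_left (hC' _) (norm_nonneg _)
    · rw [Set.indicator_of_notMem hx, hz ψ le_rfl t x hx]
      simp
  refine (hasDerivAt_integral_of_dominated_loc_of_deriv_le
    (F' := fun u x => ⟪f x, U M G a u (Jg M G a ψ) x⟫_ℂ) (Metric.ball_mem_nhds t one_pos)
    (Eventually.of_forall hmeas) hUint ?_ ?_ hbound ?_).2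
  · exact hf.aestronglyMeasurable.inner
      (((eS M G a t).continuous.comp (hg.comp (continuous_vf _))).aestronglyMeasurable)
  · refine Eventually.of_forall fun x u _ => ?_
    by_cases hx : x ∈ Metric.closedBall (0 : Cfg N) ρ
    · rw [Set.indicator_of_mem hx]
      refine (norm_inner_le_norm _ _).trans ?_
      rw [norm_U ha]
      exact mul_le_mul_of_nonneg_left (hC _) (norm_nonneg _)
    · rw [Set.indicator_of_notMem hx, hz _ tsupport_Jg_subset u x hx]
      simp
  · refine Eventually.of_forall fun x u _ => ?_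
    have h1 := (hasDerivAt_const u (f x)).inner ℂ
      (U_hasDerivAt (M := M) (G := G) (a := a) (hψ.differentiable (by norm_num)) u x)
    simpa using h1

/-- derivative at `0` -/
theorem hasDerivAt_integral_U_zero (ha : a.transpose = -a) {f ψ : Cfg N → F}
    (hf : LocallyIntegrable f volume) (hψ : ContDiff ℝ 1 ψ) (hc : HasCompactSupport ψ) :
    HasDerivAt (fun u : ℝ => ∫ x, ⟪f x, U M G a u ψ x⟫_ℂ) (∫ x, ⟪f x, Jg M G a ψ x⟫_ℂ) 0 := by
  have h := hasDerivAt_integral_U (M := M) (G := G) ha hf hψ hc 0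
  rwa [U_zero] at h

/-- `J_a` is skew -/
theorem Jg_skew (ha : a.transpose = -a) {φ ψ : Cfg N → F}
    (hφ : ContDiff ℝ 1 φ) (hφc : HasCompactSupport φ)
    (hψ : ContDiff ℝ 1 ψ) (hψc : HasCompactSupport ψ) :
    ∫ x, ⟪Jg M G a φ x, ψ x⟫_ℂ = - ∫ x, ⟪φ x, Jg M G a ψ x⟫_ℂ := by
  have h1 := hasDerivAt_integral_U_zero (M := M) (G := G) ha
    (hφ.continuous.locallyIntegrable (μ := volume)) hψ hψc
  have h2 := hasDerivAt_integral_U_zero (M := M) (G := G) ha
    (hψ.continuous.locallyIntegrable (μ := volume)) hφ hφc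
  have h3 : ∀ u : ℝ, ∫ x, ⟪φ x, U M G a u ψ x⟫_ℂ =
      starRingEnd ℂ (∫ x, ⟪ψ x, U M G a (-u) φ x⟫_ℂ) := by
    intro u
    rw [← integral_conj, integral_U_right ha]
    exact integral_congr_ae (Eventually.of_forall fun x => (inner_conj_symm _ _).symm)
  have h4 : HasDerivAt (fun u : ℝ => starRingEnd ℂ (∫ x, ⟪ψ x, U M G a (-u) φ x⟫_ℂ))
      (starRingEnd ℂ (-∫ x, ⟪ψ x, Jg M G a φ x⟫_ℂ)) 0 := by
    have h5 : HasDerivAt (fun u : ℝ => ∫ x, ⟪ψ x, U M G a (-u) φ x⟫_ℂ)
        (-∫ x, ⟪ψ x, Jg M G a φ x⟫_ℂ) 0 := by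
      have h6 := HasDerivAt.scomp (h := fun u : ℝ => -u) (0 : ℝ) (by simpa using h2)
        (hasDerivAt_neg (0 : ℝ))
      simpa [Function.comp_def] using h6
    exact (Complex.conjCLE.toContinuousLinearMap.hasFDerivAt.comp_hasDerivAt (0 : ℝ) h5)
  have h7 := h1.congr_of_eventuallyEq (f₁ := fun u : ℝ =>
    starRingEnd ℂ (∫ x, ⟪ψ x, U M G a (-u) φ x⟫_ℂ))
    (Eventually.of_forall fun u => (h3 u).symm)
  have h8 := h7.unique h4
  rw [h8, map_neg, neg_neg, ← integral_conj]
  exact integral_congr_ae (Eventually.of_forall fun x => (inner_conj_symm _ _).symm)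

/-- (S4) weak form of `U_a(t) f = e^{imt} f` -/
theorem weak_of_weight (ha : a.transpose = -a) {m : ℝ} {f ψ : Cfg N → F}
    (hf : LocallyIntegrable f volume)
    (hU : ∀ t : ℝ, U M G a t f =ᵐ[volume] Complex.exp ((m * t : ℝ) * Complex.I) • f)
    (hψ : ContDiff ℝ 1 ψ) (hc : HasCompactSupport ψ) :
    ∫ x, ⟪f x, Jg M G a ψ x⟫_ℂ = (m * Complex.I) * ∫ x, ⟪f x, ψ x⟫_ℂ := by
  have h1 := hasDerivAt_integral_U_zero (M := M) (G := G) ha hf hψ hc
  have h2 : ∀ u : ℝ, ∫ x, ⟪f x, U M G a u ψ x⟫_ℂ =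
      Complex.exp ((m * u : ℝ) * Complex.I) * ∫ x, ⟪f x, ψ x⟫_ℂ := by
    intro u
    rw [integral_U_right ha, ← integral_const_mul]
    refine integral_congr_ae ?_
    filter_upwards [hU (-u)] with x hx
    rw [hx, Pi.smul_apply, inner_smul_left, ← Complex.exp_conj]
    congr 2
    simp
  have h3 : HasDerivAt (fun u : ℝ => Complex.exp ((m * u : ℝ) * Complex.I) *
      ∫ x, ⟪f x, ψ x⟫_ℂ) ((m * Complex.I) * ∫ x, ⟪f x, ψ x⟫_ℂ) 0 := by
    have h4 : HasDerivAt (fun u : ℝ => ((m * u : ℝ) : ℂ) * Complex.I) (m * Complex.I) 0 := by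
      have h5 : HasDerivAt (fun u : ℝ => m * u) m 0 := by
        simpa using (hasDerivAt_id (0 : ℝ)).const_mul m
      exact (h5.ofReal_comp).mul_const _
    have h6 := h4.cexp
    simp only [mul_zero, Complex.ofReal_zero, zero_mul, Complex.exp_zero, one_mul] at h6
    exact h6.mul_const _
  have h7 := h1.congr_of_eventuallyEq (f₁ := fun u : ℝ =>
    Complex.exp ((m * u : ℝ) * Complex.I) * ∫ x, ⟪f x, ψ x⟫_ℂ)
    (Eventually.of_forall fun u => (h2 u).symm)
  exact h7.unique h3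

/-- (S4) weak form of `U_a(t) f = f` -/
theorem weak_of_fixed (ha : a.transpose = -a) {f ψ : Cfg N → F}
    (hf : LocallyIntegrable f volume) (hU : ∀ t : ℝ, U M G a t f =ᵐ[volume] f)
    (hψ : ContDiff ℝ 1 ψ) (hc : HasCompactSupport ψ) :
    ∫ x, ⟪f x, Jg M G a ψ x⟫_ℂ = 0 := by
  have h := weak_of_weight (M := M) (G := G) (a := a) (m := 0) ha hf (fun t => by
    simpa using hU t) hψ hc
  simpa using h

end Crest.Agent.R330.Sym613

end
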