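import Crest.Agent.R330.TorA_149
import Crest.Agent.R330.Sym3_613
import Crest.Agent.R330.GapTor_967

/-!
# Row 330, section 2: the circle actions of the torus on the core (helper149)

* `UC R G ha t` : 726's `U M G a t` as a linear map of the core.
* `Q_UC`, `ham_UC` : covariance of the massive charges and of the Hamiltonian, `a` preserving the
  two blocks and `γ¹γ²γ³`.
* `UC_comm` : different planes commute.
* `rot_of_per` : 967's `Rot` for every plane inside a block.
-/

set_option autoImplicit false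
set_option linter.unusedSectionVars false

open MeasureTheory Filter Topology Crest.MathPhysics.MatrixQM
open scoped ContDiff InnerProductSpace ENNReal

noncomputable section

namespace Crest.Agent.R330.TorB149

open Crest.Agent.R330.Defs478 Crest.Agent.R330.Rot149 Crest.Agent.R330.SDefs726
  Crest.Agent.R330.Gam962 Crest.Agent.R330.Sym613 Crest.Agent.R330.Dict416
  Crest.Agent.R330.GapTor967

variable {N : ℕ} {F : Type*} [NormedAddCommGroup F] [InnerProductSpace ℂ F]
  [FiniteDimensional ℂ F] {b : ColorBasis N} {M : FermionRep N F} {R : GaugeAction b M}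
  {G : GammaNine}

/-! ## Matrix exponentials and commutation -/

section mat

open scoped Matrix.Norms.Operator

variable {n : Type*} [Fintype n] [DecidableEq n]

theorem me_commute {a c : Matrix n n ℝ} (h : c * a = a * c) (t : ℝ) :
    c * me a t = me a t * c := by
  unfold me
  exact TorA149.commute_exp h t

end mat

/-- The data of a generator preserving the two blocks and `γ¹γ²γ³`. -/
structure Blk (G : GammaNine) (a : Matrix (Fin 9) (Fin 9) ℝ) : Prop where
  skew : a.transpose = -a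
  gam : Gam G * sg G a = sg G a * Gam G
  cc : Matrix.diagonal cc * a = a * Matrix.diagonal cc

variable {a : Matrix (Fin 9) (Fin 9) ℝ}

/-- **Covariance of the massive charges** under `U M G a t`. -/
theorem dcharge_U (ha : Blk G a) (g m t : ℝ) {φ : Cfg N → F} (hφ : Differentiable ℝ φ)
    (α : Fin 16) (x : Cfg N) :
    dcharge b M G g m α (U M G a t φ) x =
      ∑ δ, (ss G a t α δ : ℂ) • U M G a t (dcharge b M G g m δ φ) x := by
  have hr : (me a t).transpose * me a t = 1 := by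
    rw [me_transpose ha.skew, me_neg_mul]
  refine dcharge_cov b M g m (r := me a t) (C := ss G a t) (E := eS M G a t) hr (fun l => ?_)
    (Or.inr (me_commute ha.gam t)) (Or.inr fun l i => ?_) (fun β A v => ?_) (hφ _) α
  · have := ss_gam (G := G) ha.skew t l
    unfold ss
    rw [this, Finset.sum_mul]
    exact Finset.sum_congr rfl fun i _ => by rw [Matrix.smul_mul]
  · have h1 := congrFun (congrFun (me_commute ha.cc t) l) i
    rwa [Matrix.diagonal_mul, Matrix.mul_diagonal] at h1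
  · rw [theta_eS ha.skew, map_sum]
    simp only [map_smul]

/-! ## The action on the core -/

/-- `U M G a t` on the core. -/
def UC (R : GaugeAction b M) (G : GammaNine) {a : Matrix (Fin 9) (Fin 9) ℝ}
    (ha : a.transpose = -a) (t : ℝ) : core b R →ₗ[ℂ] core b R where
  toFun φ := ⟨U M G a t φ.1, core_U ha t φ.2⟩
  map_add' φ ψ := Subtype.ext (U_add_fun t φ.1 ψ.1)
  map_smul' c φ := Subtype.ext (U_smul_fun t c φ.1)

theorem UC_coe (ha : a.transpose = -a) (t : ℝ) (φ : core b R) :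
    ((UC R G ha t φ : core b R) : Cfg N → F) = U M G a t φ.1 := rfl

theorem UC_add (ha : a.transpose = -a) (s t : ℝ) (φ : core b R) :
    UC R G ha (s + t) φ = UC R G ha s (UC R G ha t φ) := Subtype.ext (U_add s t φ.1)

theorem UC_zero (ha : a.transpose = -a) (φ : core b R) : UC R G ha 0 φ = φ :=
  Subtype.ext (U_zero φ.1)

theorem UC_iso (ha : a.transpose = -a) (t : ℝ) (φ ψ : core b R) :
    ⟪ιC R (UC R G ha t φ), ιC R (UC R G ha t ψ)⟫_ℂ = ⟪ιC R φ, ιC R ψ⟫_ℂ := by
  rw [inner_ιC, inner_ιC]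
  exact integral_U ha t φ.1 ψ.1

theorem UC_deriv (ha : a.transpose = -a) {J : core b R →ₗ[ℂ] core b R}
    (hJ : ∀ φ : core b R, ((J φ : core b R) : Cfg N → F) = Jg M G a φ.1) (φ ψ : core b R) :
    HasDerivAt (fun t => ⟪ιC R φ, ιC R (UC R G ha t ψ)⟫_ℂ) ⟪ιC R φ, ιC R (J ψ)⟫_ℂ 0 := by
  have h1 := hasDerivAt_integral_U_zero (M := M) (G := G) ha (f := φ.1) (ψ := ψ.1)
    (φ.2.1.continuous.locallyIntegrable (μ := volume)) (cv_c1 ψ.2) ψ.2.2.1
  rw [inner_ιC, hJ]
  simp only [inner_ιC]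
  exact h1

theorem JC_skew (ha : a.transpose = -a) {J : core b R →ₗ[ℂ] core b R}
    (hJ : ∀ φ : core b R, ((J φ : core b R) : Cfg N → F) = Jg M G a φ.1) (φ ψ : core b R) :
    ⟪ιC R (J φ), ιC R ψ⟫_ℂ = -⟪ιC R φ, ιC R (J ψ)⟫_ℂ := by
  rw [inner_ιC, inner_ιC, hJ, hJ]
  exact Jg_skew ha (cv_c1 φ.2) φ.2.2.1 (cv_c1 ψ.2) ψ.2.2.1

/-- Covariance of the charges on the core. -/
theorem Q_UC (ha : Blk G a) {g m : ℝ} {Q : Fin 16 → core b R →ₗ[ℂ] core b R}
    (hQ : ∀ α φ, (Q α φ : Cfg N → F) = dcharge b M G g m α (φ : Cfg N → F)) (t : ℝ)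
    (α : Fin 16) (φ : core b R) :
    Q α (UC R G ha.skew t φ) = ∑ δ, (ss G a t α δ : ℂ) • UC R G ha.skew t (Q δ φ) := by
  apply Subtype.ext
  funext x
  rw [hQ, UC_coe, dcharge_U ha g m t (cv_diff φ.2)]
  simp only [AddSubmonoidClass.coe_finsetSum, Finset.sum_apply, SetLike.val_smul, Pi.smul_apply,
    UC_coe, hQ]

/-- **The Hamiltonian commutes with the group.** -/
theorem ham_UC (ha : Blk G a) {g m : ℝ} {Q : Fin 16 → core b R →ₗ[ℂ] core b R}
    (hQ : ∀ α φ, (Q α φ : Cfg N → F) = dcharge b M G g m α (φ : Cfg N → F))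
    {Ham : core b R →ₗ[ℂ] core b R}
    (hH : ∀ φ, Ham φ = (1 / 16 : ℂ) • ∑ α, Q α (Q α φ)) (t : ℝ) (φ : core b R) :
    UC R G ha.skew t (Ham φ) = Ham (UC R G ha.skew t φ) := by
  rw [hH, hH, map_smul, map_sum]
  congr 1
  have h1 : ∀ α, Q α (Q α (UC R G ha.skew t φ)) = ∑ δ, ∑ ε,
      ((ss G a t α δ * ss G a t α ε : ℝ) : ℂ) • UC R G ha.skew t (Q ε (Q δ φ)) := by
    intro α
    rw [Q_UC ha hQ, map_sum]
    refine Finset.sum_congr rfl fun δ _ => ?_
    rw [map_smul, Q_UC ha hQ, Finset.smul_sum]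
    refine Finset.sum_congr rfl fun ε _ => ?_
    rw [smul_smul]
    push_cast
    rfl
  have h2 : ∀ δ ε, ∑ α, ss G a t α δ * ss G a t α ε = if δ = ε then 1 else 0 := by
    intro δ ε
    have := congrFun (congrFun (ss_orth (G := G) ha.skew t) δ) ε
    simpa [Matrix.mul_apply, Matrix.one_apply] using this
  simp only [h1]
  rw [Finset.sum_comm]
  refine Finset.sum_congr rfl fun δ _ => ?_
  rw [Finset.sum_comm]
  have h3 : ∀ ε, (∑ α, ((ss G a t α δ * ss G a t α ε : ℝ) : ℂ)) = if δ = ε then 1 else 0 := by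
    intro ε
    rw [← Complex.ofReal_sum, h2]
    split_ifs <;> simp
  simp only [← Finset.sum_smul, h3, ite_smul, one_smul, zero_smul, Finset.sum_ite_eq,
    Finset.mem_univ, if_true]

/-! ## Planes inside a block -/

/-- `γ^l` commutes (anticommutes) with `γ¹γ²γ³`. -/
theorem Gam_lt {l : Fin 9} (h : (l : ℕ) < 3) : Gam G * G.γ l = G.γ l * Gam G := by
  have hl : l = 0 ∨ l = 1 ∨ l = 2 := by
    rcases l with ⟨l, hl⟩
    simp only at h
    interval_cases l <;> simp [Fin.ext_iff]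
  unfold Gam
  rcases hl with rfl | rfl | rfl
  · rw [Matrix.mul_assoc _ (G.γ 2), anti G (show (2 : Fin 9) ≠ 0 by decide), Matrix.mul_neg,
      ← Matrix.mul_assoc, Matrix.mul_assoc (G.γ 0) (G.γ 1) (G.γ 0),
      anti G (show (1 : Fin 9) ≠ 0 by decide)]
    simp only [Matrix.mul_neg, Matrix.neg_mul, neg_neg, Matrix.mul_assoc]
  · rw [Matrix.mul_assoc _ (G.γ 2), anti G (show (2 : Fin 9) ≠ 1 by decide), Matrix.mul_neg,
      ← Matrix.mul_assoc (G.γ 1) (G.γ 0 * G.γ 1), ← Matrix.mul_assoc (G.γ 1) (G.γ 0),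
      anti G (show (1 : Fin 9) ≠ 0 by decide)]
    simp only [Matrix.neg_mul, Matrix.mul_assoc]
  · rw [← Matrix.mul_assoc (G.γ 2) (G.γ 0 * G.γ 1), ← Matrix.mul_assoc (G.γ 2) (G.γ 0),
      anti G (show (2 : Fin 9) ≠ 0 by decide), Matrix.neg_mul, Matrix.mul_assoc (G.γ 0) (G.γ 2),
      anti G (show (2 : Fin 9) ≠ 1 by decide)]
    simp only [Matrix.mul_neg, neg_neg, Matrix.mul_assoc]

theorem Gam_ge {l : Fin 9} (h : 3 ≤ (l : ℕ)) : Gam G * G.γ l = -(G.γ l * Gam G) := by
  have h0 : (0 : Fin 9) ≠ l := fun e => by rw [← e] at h; simp at h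
  have h1 : (1 : Fin 9) ≠ l := fun e => by rw [← e] at h; simp at h
  have h2 : (2 : Fin 9) ≠ l := fun e => by rw [← e] at h; simp at h
  unfold Gam
  rw [Matrix.mul_assoc _ (G.γ 2), anti G h2, Matrix.mul_neg, ← Matrix.mul_assoc,
    Matrix.mul_assoc (G.γ 0) (G.γ 1), anti G h1, Matrix.mul_neg, Matrix.neg_mul,
    ← Matrix.mul_assoc, anti G h0]
  simp only [Matrix.neg_mul, neg_neg, Matrix.mul_assoc]

theorem sg_rot {j k : Fin 9} (h : j ≠ k) : sg G (rot j k) = (1 / 2 : ℝ) • (G.γ j * G.γ k) := by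
  unfold sg
  have e : ∀ i l, rot j k l i • (G.γ i * G.γ l) =
      (if l = k ∧ i = j then G.γ i * G.γ l else 0) -
        (if l = j ∧ i = k then G.γ i * G.γ l else 0) := by
    intro i l
    simp only [rot, Matrix.sub_apply, Matrix.single_apply, sub_smul]
    congr 1
    · by_cases hh : l = k ∧ i = j
      · rw [if_pos hh, if_pos ⟨hh.1.symm, hh.2.symm⟩, one_smul]
      · rw [if_neg hh, if_neg (fun h' => hh ⟨h'.1.symm, h'.2.symm⟩), zero_smul]
    · by_cases hh : l = j ∧ i = k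
      · rw [if_pos hh, if_pos ⟨hh.1.symm, hh.2.symm⟩, one_smul]
      · rw [if_neg hh, if_neg (fun h' => hh ⟨h'.1.symm, h'.2.symm⟩), zero_smul]
  simp only [e, Finset.sum_sub_distrib]
  rw [Finset.sum_eq_single j (fun i _ hi => by simp [hi]) (by simp),
    Finset.sum_eq_single k (fun i _ hi => by simp [hi]) (by simp),
    Finset.sum_eq_single k (fun i _ hi => by simp [hi]) (by simp),
    Finset.sum_eq_single j (fun i _ hi => by simp [hi]) (by simp)]
  simp only [and_self, if_true]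
  rw [anti G h.symm, sub_neg_eq_add, ← two_smul ℝ, smul_smul]
  norm_num

/-- A plane inside a block. -/
theorem blk_rot {j k : Fin 9} (h : j ≠ k) (hb : (j : ℕ) < 3 ↔ (k : ℕ) < 3) :
    Blk G (rot j k) where
  skew := rot_transpose j k
  gam := by
    rw [sg_rot h, Matrix.mul_smul, Matrix.smul_mul, ← Matrix.mul_assoc]
    congr 1
    by_cases hj : (j : ℕ) < 3
    · rw [Gam_lt hj, Matrix.mul_assoc, Gam_lt (hb.1 hj), Matrix.mul_assoc]
    · rw [Gam_ge (not_lt.1 hj), Matrix.neg_mul, Matrix.mul_assoc,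
        Gam_ge (not_lt.1 fun hk => hj (hb.2 hk)), Matrix.mul_neg, neg_neg, Matrix.mul_assoc]
  cc := by
    have hc : cc j = cc k := by
      unfold cc
      by_cases hj : (j : ℕ) < 3
      · rw [if_pos hj, if_pos (hb.1 hj)]
      · rw [if_neg hj, if_neg fun hk => hj (hb.2 hk)]
    ext l i
    rw [Matrix.diagonal_mul, Matrix.mul_diagonal]
    simp only [rot, Matrix.sub_apply, Matrix.single_apply]
    by_cases h1 : k = l ∧ j = i
    · obtain ⟨rfl, rfl⟩ := h1
      rw [hc, mul_comm]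
    · by_cases h2 : j = l ∧ k = i
      · obtain ⟨rfl, rfl⟩ := h2
        rw [hc, mul_comm]
      · rw [if_neg h1, if_neg h2]
        ring

/-! ## Different planes commute -/

theorem rot_mul_rot {j k j' k' : Fin 9} (hjj : j ≠ j') (hjk : j ≠ k') (hkj : k ≠ j')
    (hkk : k ≠ k') : rot j k * rot j' k' = 0 := by
  simp [rot, sub_mul, mul_sub, Matrix.single_mul_single_of_ne, hjj, hjk, hkj, hkk]

theorem UC_comm {j k j' k' : Fin 9} (h : j ≠ k) (h' : j' ≠ k') (hjj : j ≠ j') (hjk : j ≠ k')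
    (hkj : k ≠ j') (hkk : k ≠ k') (s t : ℝ) (φ : core b R) :
    UC R G (rot_transpose j k) s (UC R G (rot_transpose j' k') t φ) =
      UC R G (rot_transpose j' k') t (UC R G (rot_transpose j k) s φ) := by
  apply Subtype.ext
  funext x
  show eS M G (rot j k) s (eS M G (rot j' k') t (φ.1 (vf (me (rot j' k') t)
    (vf (me (rot j k) s) x)))) = eS M G (rot j' k') t (eS M G (rot j k) s (φ.1
    (vf (me (rot j k) s) (vf (me (rot j' k') t) x))))
  have h1 : rot j k * rot j' k' = rot j' k' * rot j k := by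
    rw [rot_mul_rot hjj hjk hkj hkk, rot_mul_rot hjj.symm hkj.symm hjk.symm hkk.symm]
  have h2 : me (rot j k) s * rot j' k' = rot j' k' * me (rot j k) s :=
    (me_commute h1.symm s).symm
  have h3 : me (rot j k) s * me (rot j' k') t = me (rot j' k') t * me (rot j k) s :=
    me_commute h2 t
  rw [← vf_mul, ← vf_mul, h3]
  exact TorA149.eS_comm M h h' hjj hjk hkj hkk t s _

/-! ## 967's interface -/

/-- **`Rot` for a plane inside a block**, given the periodicity. -/
theorem rot_of_per (ha : Blk G a) {g m : ℝ} {Q : Fin 16 → core b R →ₗ[ℂ] core b R}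
    (hQ : ∀ α φ, (Q α φ : Cfg N → F) = dcharge b M G g m α (φ : Cfg N → F))
    {Ham J : core b R →ₗ[ℂ] core b R}
    (hH : ∀ φ, Ham φ = (1 / 16 : ℂ) • ∑ α, Q α (Q α φ))
    (hJ : ∀ φ : core b R, ((J φ : core b R) : Cfg N → F) = Jg M G a φ.1) {p : ℝ} (hp : 0 < p)
    (hper : ∀ φ, UC R G ha.skew p φ = φ) :
    Rot (ιC R) Ham (UC R G ha.skew) J p where
  pos := hp
  add := UC_add ha.skew
  zero := UC_zero ha.skew
  per := hper
  iso := UC_iso ha.skew
  ham := ham_UC ha hQ hH
  skew := JC_skew ha.skew hJ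
  deriv := UC_deriv ha.skew hJ

end Crest.Agent.R330.TorB149

end
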