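import Crest.Agent.R330.Proj_967
import Crest.Agent.R330.Per_967
import Crest.Agent.R330.TorB_149

/-!
# Row 330 (helper967): (GAP) from the Susy algebra on the core and the density of `(1 + Ham) core`

* `exp_cube` : `exp (t X) = 1 + sin t X + (1 - cos t) X²` if `X³ = -X`; `me_rot_eight_pi`.
* `rot_planes` : 149's `Rot` for the four planes, period `8 π`.
* `gapZ_core` : `GapZ b M R G g m (m / 24)`.
-/

set_option autoImplicit false
set_option linter.unusedSectionVars false

open MeasureTheory Filter Topology Crest.MathPhysics.MatrixQM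
open scoped ContDiff InnerProductSpace ENNReal

noncomputable section

namespace Crest.Agent.R330.GapCl967

open Crest.Agent.R330.Defs478 Crest.Agent.R330.SDefs726 Crest.Agent.R330.Sym613
  Crest.Agent.R330.Dict416 Crest.Agent.R330.GapTor967 Crest.Agent.R330.TorB149
  Crest.Agent.R330.GapAlg916 Crest.Agent.R330.Sec478 Crest.Agent.R330.Proj967

/-! ## 1. Periodicity of the rotations -/

section Abstract

variable {𝔸 : Type*} [NormedRing 𝔸] [NormedAlgebra ℝ 𝔸] [CompleteSpace 𝔸]

theorem exp_cube (X : 𝔸) (hX : X * X * X = -X) (t : ℝ) :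
    NormedSpace.exp (t • X) = 1 + Real.sin t • X + (1 - Real.cos t) • (X * X) := by
  set g : ℝ → 𝔸 := fun u => NormedSpace.exp (u • (-X)) *
    (1 + Real.sin u • X + (1 - Real.cos u) • (X * X)) with hg
  have hd : ∀ u, HasDerivAt g 0 u := by
    intro u
    have h1 : HasDerivAt (fun u : ℝ => NormedSpace.exp (u • (-X)))
        (NormedSpace.exp (u • (-X)) * (-X)) u := hasDerivAt_exp_smul_const (-X) u
    have h2 : HasDerivAt (fun u : ℝ => Real.sin u) (Real.cos u) u := Real.hasDerivAt_sin u
    have h2' : HasDerivAt (fun u : ℝ => 1 - Real.cos u) (Real.sin u) u := by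
      have := (Real.hasDerivAt_cos u).const_sub 1
      simpa using this
    have h4 := h1.mul (((h2.smul_const X).const_add (1 : 𝔸)).add (h2'.smul_const (X * X)))
    refine h4.congr_deriv ?_
    show NormedSpace.exp (u • (-X)) * -X * (1 + Real.sin u • X + (1 - Real.cos u) • (X * X)) +
        NormedSpace.exp (u • (-X)) * (Real.cos u • X + Real.sin u • (X * X)) = 0
    have e : NormedSpace.exp (u • (-X)) * -X * (1 + Real.sin u • X + (1 - Real.cos u) • (X * X)) +
        NormedSpace.exp (u • (-X)) * (Real.cos u • X + Real.sin u • (X * X)) =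
        NormedSpace.exp (u • (-X)) * (-X - Real.sin u • (X * X) -
          (1 - Real.cos u) • (X * X * X) + Real.cos u • X + Real.sin u • (X * X)) := by
      generalize NormedSpace.exp (u • (-X)) = E
      simp only [mul_add, mul_sub, mul_neg, neg_mul, mul_smul_comm, mul_one, mul_assoc]
      module
    rw [e, hX]
    have e2 : (-X - Real.sin u • (X * X) - (1 - Real.cos u) • (-X) + Real.cos u • X +
        Real.sin u • (X * X)) = 0 := by
      module
    rw [e2, mul_zero]
  have hc := is_const_of_deriv_eq_zero (fun x => (hd x).differentiableAt) (fun x => (hd x).deriv) t 0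
  have h0 : g 0 = 1 := by simp [hg]
  rw [h0] at hc
  have h1 : NormedSpace.exp (t • X) * g t = NormedSpace.exp (t • X) * 1 := by rw [hc]
  rw [hg] at h1
  simp only at h1
  rw [smul_neg, ← mul_assoc, Lift406.exp_mul_exp_neg, one_mul, mul_one] at h1
  exact h1.symm

end Abstract

theorem rot_cube {j k : Fin 9} (h : j ≠ k) : rot j k * rot j k * rot j k = -rot j k := by
  simp only [rot, sub_mul, mul_sub, Matrix.single_mul_single_same,
    Matrix.single_mul_single_of_ne _ _ _ _ h, Matrix.single_mul_single_of_ne _ _ _ _ h.symm,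
    mul_one, sub_zero, zero_sub, neg_mul, neg_zero]
  abel

section mat

open scoped Matrix.Norms.Operator

theorem me_rot_eight_pi {j k : Fin 9} (h : j ≠ k) : me (rot j k) (8 * Real.pi) = 1 := by
  unfold me
  refine (exp_cube (rot j k) (rot_cube h) (8 * Real.pi)).trans ?_
  have h1 : Real.sin (8 * Real.pi) = 0 := by
    have := Real.sin_int_mul_pi 8
    exact_mod_cast this
  have h2 : Real.cos (8 * Real.pi) = 1 := by
    have := Real.cos_int_mul_two_pi 4
    have e : ((4 : ℤ) : ℝ) * (2 * Real.pi) = 8 * Real.pi := by push_cast; ring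
    rwa [e] at this
  rw [h1, h2]
  simp

end mat

variable {N : ℕ} {F : Type} [NormedAddCommGroup F] [InnerProductSpace ℂ F]
  [FiniteDimensional ℂ F] {b : ColorBasis N} {M : FermionRep N F} {R : GaugeAction b M}
  {G : GammaNine}

theorem U_rot_eight_pi [Nontrivial F] {j k : Fin 9} (h : j ≠ k) (φ : Cfg N → F) :
    U M G (rot j k) (8 * Real.pi) φ = φ := by
  funext x
  rw [U_apply, Per967.eS_rot_eight_pi M h, me_rot_eight_pi h, vf_one]
  rfl

/-! ## 2. The four planes -/

theorem planes_blk {q : Fin 9 × Fin 9} (hq : q ∈ planes) :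
    q.1 ≠ q.2 ∧ ((q.1 : ℕ) < 3 ↔ (q.2 : ℕ) < 3) := by
  revert q
  decide

theorem planes_disj {q r : Fin 9 × Fin 9} (hq : q ∈ planes) (hr : r ∈ planes) (h : q ≠ r) :
    q.1 ≠ r.1 ∧ q.1 ≠ r.2 ∧ q.2 ≠ r.1 ∧ q.2 ≠ r.2 := by
  simp only [planes, Finset.mem_insert, Finset.mem_singleton] at hq hr
  rcases hq with rfl | rfl | rfl | rfl <;> rcases hr with rfl | rfl | rfl | rfl <;>
    first
    | exact absurd rfl h
    | decide

/-- The rotation groups of the planes. -/
def Uq (R : GaugeAction b M) (G : GammaNine) (q : Fin 9 × Fin 9) (t : ℝ) :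
    core b R →ₗ[ℂ] core b R := UC R G (rot_transpose q.1 q.2) t

theorem Uq_comm {q r : Fin 9 × Fin 9} (hq : q ∈ planes) (hr : r ∈ planes) (s t : ℝ)
    (φ : core b R) : Uq R G q s (Uq R G r t φ) = Uq R G r t (Uq R G q s φ) := by
  by_cases h : q = r
  · subst h
    unfold Uq
    rw [← UC_add, ← UC_add, add_comm]
  · obtain ⟨h1, h2, h3, h4⟩ := planes_disj hq hr h
    exact UC_comm (planes_blk hq).1 (planes_blk hr).1 h1 h2 h3 h4 s t φ

/-- **(GAP)** from the Susy algebra on the core and the density of `(1 + Ham) core`. -/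
theorem gapZ_core [Nontrivial F] {g m : ℝ} (hm : 0 ≤ m)
    {Q : Fin 16 → core b R →ₗ[ℂ] core b R}
    (hQ : ∀ α φ, (Q α φ : Cfg N → F) = dcharge b M G g m α (φ : Cfg N → F))
    {Ham : core b R →ₗ[ℂ] core b R} (hH : ∀ φ, Ham φ = (1 / 16 : ℂ) • ∑ α, Q α (Q α φ))
    {J : Fin 9 × Fin 9 → core b R →ₗ[ℂ] core b R}
    (hJ : ∀ q ∈ planes, ∀ φ : core b R,
      ((J q φ : core b R) : Cfg N → F) = Jg M G (rot q.1 q.2) φ.1)
    (h : Susy G m (ιC R) Q Ham J)
    (hd : ∀ φ : core b R, ιC R φ ∈ closure (Set.range fun ψ => ιC R ψ + ιC R (Ham ψ))) :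
    GapZ b M R G g m (m / 24) := by
  refine gapZ_of_rot hm hQ h (U := Uq R G) (fun q hq => ?_) (fun q _ => ?_)
    (fun q hq r hr s t φ => Uq_comm hq hr s t φ) hd
  · obtain ⟨h1, h2⟩ := planes_blk hq
    refine rot_of_per (blk_rot h1 h2) hQ hH (hJ q hq) (by positivity) fun φ => ?_
    apply Subtype.ext
    rw [UC_coe]
    exact U_rot_eight_pi h1 φ.1
  · exact hasProj_U (rot_transpose q.1 q.2) (by positivity)

end Crest.Agent.R330.GapCl967

end
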