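import Mathlib
import Crest.Prelude.Def_MatrixModel
import Crest.Agent.R330.Bar_186
import Crest.Agent.R330.IBP_837
import Crest.Agent.R330.SDefs_726

/-!
Row 330, S13.COER, part 1: the infinitesimal rotation operators
`Jop a S ψ x = Dψ(x)(X_a x) + S ψ(x)`, `X_a(x)(i,A) = Σ_j a_ij x(j,A)`, `a` antisymmetric, `S` skew:
continuity, support, skewness, Leibniz rule for radial cut-offs, and the barrier for
`Kp = rot 0 1 + rot 2 3`, `Km`.
-/

set_option autoImplicit false
set_option linter.unusedSectionVars false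

noncomputable section

open MeasureTheory Filter Topology Set
open scoped ContDiff InnerProductSpace ENNReal

namespace Crest.Agent.R330.SJop186

open Crest.MathPhysics.MatrixQM Crest.Agent.R330.Bar186
open Crest.Agent.R330.SDefs726 (vf rot KP KM vf_add vf_sub vf_rot)

variable {N : ℕ} {F : Type*} [NormedAddCommGroup F] [InnerProductSpace ℂ F]

theorem vf_ap (a : Matrix (Fin 9) (Fin 9) ℝ) (x : Cfg N) (p : Fin 9 × Fin (N ^ 2 - 1)) :
    vf a x p = ∑ j, a p.1 j * x (j, p.2) := rfl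

/-- the gradient family of a function at a point -/
def gr (ψ : Cfg N → F) (x : Cfg N) (p : Fin 9 × Fin (N ^ 2 - 1)) : F :=
  fderiv ℝ ψ x (EuclideanSpace.single p 1)

theorem decomp (v : Cfg N) : v = ∑ p, v p • (EuclideanSpace.single p 1 : Cfg N) := by
  have h := (EuclideanSpace.basisFun (Fin 9 × Fin (N ^ 2 - 1)) ℝ).sum_repr v
  simpa using h.symm

theorem fderiv_eq_sum (ψ : Cfg N → F) (x v : Cfg N) :
    fderiv ℝ ψ x v = ∑ p, v p • gr ψ x p := by
  conv_lhs => rw [decomp v]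
  rw [map_sum]
  exact Finset.sum_congr rfl fun p _ => by rw [map_smul]; rfl

theorem norm_fderiv_le (ψ : Cfg N → F) (x v : Cfg N) :
    ‖fderiv ℝ ψ x v‖ ≤ ‖v‖ * Real.sqrt (gsq (E := F) (gr ψ x)) := by
  rw [fderiv_eq_sum]
  refine (norm_sum_smul_le (E := F) (fun p => v p) (gr ψ x)).trans ?_
  have h1 : ‖v‖ = Real.sqrt (∑ p, v p ^ 2) := by
    rw [EuclideanSpace.norm_eq]
    simp only [Real.norm_eq_abs, sq_abs]
  have h2 : gsq (E := F) (gr ψ x) = ∑ p, ‖gr ψ x p‖ ^ 2 := by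
    unfold gsq
    rw [Fintype.sum_prod_type]
  rw [h1, h2]

/-- infinitesimal rotation operator -/
def Jop (a : Matrix (Fin 9) (Fin 9) ℝ) (S : F →ₗ[ℂ] F) (ψ : Cfg N → F) (x : Cfg N) : F :=
  fderiv ℝ ψ x (vf a x) + S (ψ x)

variable [FiniteDimensional ℂ F]

theorem continuous_lin (S : F →ₗ[ℂ] F) : Continuous S := S.continuous_of_finiteDimensional

theorem contDiff_lin (S : F →ₗ[ℂ] F) {n : WithTop ℕ∞} {ψ : Cfg N → F} (hψ : ContDiff ℝ n ψ) :
    ContDiff ℝ n fun x => S (ψ x) := by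
  have : ContDiff ℝ n fun v : F => S v :=
    ((LinearMap.toContinuousLinearMap S).restrictScalars ℝ).contDiff
  exact this.comp hψ

theorem contDiff_vf (a : Matrix (Fin 9) (Fin 9) ℝ) {n : WithTop ℕ∞} :
    ContDiff ℝ n (vf a : Cfg N → Cfg N) := by
  rw [contDiff_euclidean]
  intro p
  simp only [vf_ap]
  fun_prop

theorem contDiff_Jop (a : Matrix (Fin 9) (Fin 9) ℝ) (S : F →ₗ[ℂ] F) {ψ : Cfg N → F}
    (hψ : ContDiff ℝ ∞ ψ) : ContDiff ℝ ∞ (Jop a S ψ) := by
  unfold Jop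
  refine ContDiff.add ?_ (contDiff_lin S hψ)
  exact (hψ.fderiv_right (m := ∞) (by simp)).clm_apply (contDiff_vf a)

theorem Jop_eq_zero (a : Matrix (Fin 9) (Fin 9) ℝ) (S : F →ₗ[ℂ] F) {ψ : Cfg N → F} {x : Cfg N}
    (hx : x ∉ tsupport ψ) : Jop a S ψ x = 0 := by
  have h1 : ψ =ᶠ[𝓝 x] 0 := notMem_tsupport_iff_eventuallyEq.1 hx
  have h2 : fderiv ℝ ψ x = 0 := by
    rw [h1.fderiv_eq]
    simp
  unfold Jop
  rw [h2, h1.eq_of_nhds]
  simp

theorem hasCompactSupport_Jop (a : Matrix (Fin 9) (Fin 9) ℝ) (S : F →ₗ[ℂ] F) {ψ : Cfg N → F}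
    (hψ : HasCompactSupport ψ) : HasCompactSupport (Jop a S ψ) :=
  hψ.mono' fun x hx => by
    by_contra h
    exact hx (Jop_eq_zero a S h)

theorem Jop_sub (a : Matrix (Fin 9) (Fin 9) ℝ) (S : F →ₗ[ℂ] F) {φ ψ : Cfg N → F}
    (hφ : Differentiable ℝ φ) (hψ : Differentiable ℝ ψ) (x : Cfg N) :
    Jop a S (φ - ψ) x = Jop a S φ x - Jop a S ψ x := by
  unfold Jop
  rw [fderiv_sub (hφ x) (hψ x)]
  simp only [ContinuousLinearMap.sub_apply, Pi.sub_apply, map_sub]
  abel

/-- Leibniz rule with a function constant along `X_a` -/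
theorem Jop_mul (a : Matrix (Fin 9) (Fin 9) ℝ) (S : F →ₗ[ℂ] F) {χ : Cfg N → ℝ} {ψ : Cfg N → F}
    (hχ : Differentiable ℝ χ) (hψ : Differentiable ℝ ψ) (hinv : ∀ x, fderiv ℝ χ x (vf a x) = 0)
    (x : Cfg N) : Jop a S (fun y => χ y • ψ y) x = χ x • Jop a S ψ x := by
  unfold Jop
  rw [fderiv_fun_smul (hχ x) (hψ x)]
  simp only [ContinuousLinearMap.add_apply, ContinuousLinearMap.smul_apply,
    ContinuousLinearMap.smulRight_apply, hinv x, zero_smul, add_zero, smul_add]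
  congr 1
  rw [← Complex.coe_smul, map_smul, Complex.coe_smul]

/-- one term of the skewness: `∫⟪c x_q ∂_p η, ψ⟫ = -∫⟪η, c x_q ∂_p ψ⟫` if `q ≠ p` or `c = 0` -/
theorem skew_term {η ψ : Cfg N → F} (hη : ContDiff ℝ ∞ η) (hψ : ContDiff ℝ ∞ ψ)
    (hη' : HasCompactSupport η) (c : ℝ) (p q : Fin 9 × Fin (N ^ 2 - 1)) (hpq : p ≠ q ∨ c = 0) :
    ∫ x : Cfg N, ⟪(c * x q) • gr η x p, ψ x⟫_ℂ = -∫ x : Cfg N, ⟪η x, (c * x q) • gr ψ x p⟫_ℂ := by
  rcases hpq with hpq | hc
  swap
  · simp [hc]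
  have hsm : ContDiff ℝ 1 fun x : Cfg N => (c * x q) • ψ x :=
    (by fun_prop : ContDiff ℝ 1 fun x : Cfg N => c * x q).smul (hψ.of_le (by simp))
  have h := IBP837.ibp (μ := (volume : Measure (Cfg N))) (hη.of_le (by simp)) hsm (Or.inl hη')
    (EuclideanSpace.single p 1)
  have e1 : ∀ x : Cfg N, ⟪(c * x q) • gr η x p, ψ x⟫_ℂ = ⟪gr η x p, (c * x q) • ψ x⟫_ℂ := by
    intro x
    rw [← Complex.coe_smul, ← Complex.coe_smul, inner_smul_left, inner_smul_right,
      Complex.conj_ofReal]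
  have e2 : ∀ x : Cfg N, fderiv ℝ (fun x : Cfg N => (c * x q) • ψ x) x
      (EuclideanSpace.single p 1) = (c * x q) • gr ψ x p := by
    intro x
    rw [fderiv_fun_smul (by fun_prop) ((hψ.differentiable (by simp)) x)]
    have : fderiv ℝ (fun x : Cfg N => c * x q) x (EuclideanSpace.single p 1) = 0 := by
      rw [fderiv_const_mul (by fun_prop)]
      have h3 : fderiv ℝ (fun x : Cfg N => x q) x = EuclideanSpace.proj q :=
        (EuclideanSpace.proj (𝕜 := ℝ) q).fderiv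
      rw [h3]
      simp [Ne.symm hpq]
    simp only [ContinuousLinearMap.add_apply, ContinuousLinearMap.smul_apply,
      ContinuousLinearMap.smulRight_apply, this, zero_smul, add_zero]
    rfl
  simp only [e1]
  rw [show (fun x : Cfg N => ⟪gr η x p, (c * x q) • ψ x⟫_ℂ) =
    fun x : Cfg N => ⟪fderiv ℝ η x (EuclideanSpace.single p 1), (c * x q) • ψ x⟫_ℂ from rfl, h]
  simp only [e2]

theorem continuous_gr {ψ : Cfg N → F} (hψ : ContDiff ℝ ∞ ψ) (p : Fin 9 × Fin (N ^ 2 - 1)) :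
    Continuous fun x => gr ψ x p :=
  IBP837.fderiv_apply_continuous (hψ.of_le (by simp)) _

theorem hasCompactSupport_gr {ψ : Cfg N → F} (hψ : HasCompactSupport ψ)
    (p : Fin 9 × Fin (N ^ 2 - 1)) : HasCompactSupport fun x => gr ψ x p :=
  IBP837.hasCompactSupport_fderiv_apply hψ _

/-- skewness of the infinitesimal rotations -/
theorem Jop_skew {a : Matrix (Fin 9) (Fin 9) ℝ} (ha : ∀ i j, a i j = -a j i) {S : F →ₗ[ℂ] F}
    (hS : ∀ v w, ⟪S v, w⟫_ℂ = -⟪v, S w⟫_ℂ) {η ψ : Cfg N → F} (hη : ContDiff ℝ ∞ η)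
    (hψ : ContDiff ℝ ∞ ψ) (hη' : HasCompactSupport η) :
    ∫ x : Cfg N, ⟪Jop a S η x, ψ x⟫_ℂ = -∫ x : Cfg N, ⟪η x, Jop a S ψ x⟫_ℂ := by
  have hex : ∀ (φ : Cfg N → F) (x : Cfg N), Jop a S φ x =
      (∑ p : Fin 9 × Fin (N ^ 2 - 1), ∑ j, (a p.1 j * x (j, p.2)) • gr φ x p) + S (φ x) := by
    intro φ x
    unfold Jop
    rw [fderiv_eq_sum]
    congr 1
    exact Finset.sum_congr rfl fun p _ => by rw [vf_ap, Finset.sum_smul]
  have haii : ∀ i, a i i = 0 := fun i => by have := ha i i; linarith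
  simp only [hex, inner_add_left, inner_add_right, sum_inner, inner_sum]
  have int1 : ∀ (p : Fin 9 × Fin (N ^ 2 - 1)) (j : Fin 9),
      Integrable fun x : Cfg N => ⟪(a p.1 j * x (j, p.2)) • gr η x p, ψ x⟫_ℂ := by
    intro p j
    refine IBP837.integrable_inner_of_cont ?_ hψ.continuous (Or.inl ?_)
    · exact (by fun_prop : Continuous fun x : Cfg N => a p.1 j * x (j, p.2)).smul
        (continuous_gr hη p)
    · exact (hasCompactSupport_gr hη' p).smul_left
  have int2 : ∀ (p : Fin 9 × Fin (N ^ 2 - 1)) (j : Fin 9),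
      Integrable fun x : Cfg N => ⟪η x, (a p.1 j * x (j, p.2)) • gr ψ x p⟫_ℂ := by
    intro p j
    refine IBP837.integrable_inner_of_cont hη.continuous ?_ (Or.inl hη')
    exact (by fun_prop : Continuous fun x : Cfg N => a p.1 j * x (j, p.2)).smul
      (continuous_gr hψ p)
  have int3 : Integrable fun x : Cfg N => ⟪S (η x), ψ x⟫_ℂ :=
    IBP837.integrable_inner_of_cont ((continuous_lin S).comp hη.continuous) hψ.continuous
      (Or.inl (hη'.comp_left (map_zero S)))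
  have int4 : Integrable fun x : Cfg N => ⟪η x, S (ψ x)⟫_ℂ :=
    IBP837.integrable_inner_of_cont hη.continuous ((continuous_lin S).comp hψ.continuous)
      (Or.inl hη')
  rw [integral_add (integrable_finsetSum _ fun p _ => integrable_finsetSum _ fun j _ => int1 p j)
    int3, integral_add (integrable_finsetSum _ fun p _ =>
    integrable_finsetSum _ fun j _ => int2 p j) int4, neg_add]
  congr 1
  · rw [integral_finsetSum _ fun p _ => integrable_finsetSum _ fun j _ => int1 p j,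
      integral_finsetSum _ fun p _ => integrable_finsetSum _ fun j _ => int2 p j,
      ← Finset.sum_neg_distrib]
    refine Finset.sum_congr rfl fun p _ => ?_
    rw [integral_finsetSum _ fun j _ => int1 p j, integral_finsetSum _ fun j _ => int2 p j,
      ← Finset.sum_neg_distrib]
    refine Finset.sum_congr rfl fun j _ => ?_
    refine skew_term hη hψ hη' _ _ _ ?_
    by_cases h : p.1 = j
    · right; rw [← h]; exact haii _
    · left
      intro h2
      exact h (by rw [h2])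
  · simp only [hS, integral_neg]

/-! ### the four generators -/

theorem anti_of {a : Matrix (Fin 9) (Fin 9) ℝ} (h : a.transpose = -a) (i j : Fin 9) :
    a i j = -a j i := by
  have := congrFun (congrFun h j) i
  simpa using this

theorem fderiv_rot (i j : Fin 9) (ψ : Cfg N → F) (x : Cfg N) :
    fderiv ℝ ψ x (vf (rot i j) x) = Lo (E := F) (fun p => x p) (gr ψ x) i j := by
  rw [fderiv_eq_sum, Fintype.sum_prod_type]
  simp only [vf_rot, sub_smul, Finset.sum_sub_distrib]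
  unfold Lo
  rw [Finset.sum_sub_distrib]
  congr 1
  · rw [Finset.sum_eq_single j]
    · simp
    · intro k _ hk; simp [hk]
    · intro h; exact absurd (Finset.mem_univ _) h
  · rw [Finset.sum_eq_single i]
    · simp
    · intro k _ hk; simp [hk]
    · intro h; exact absurd (Finset.mem_univ _) h

/-- **barrier** for the vector fields -/
theorem barrier (ψ : Cfg N → F) (x : Cfg N) (e : Fin (N ^ 2 - 1) → ℝ) :
    ‖fderiv ℝ ψ x (vf KP x)‖ ≤ ‖fderiv ℝ ψ x (vf (KM 0) x)‖ + ‖fderiv ℝ ψ x (vf (KM 1) x)‖ +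
      ‖fderiv ℝ ψ x (vf (KM 2) x)‖ +
      16 * (Real.sqrt (dsq (fun p => x p) e) * Real.sqrt (gsq (E := F) (gr ψ x))) := by
  have h := barC (fun p => x p) (gr ψ x) e ![0, 1, 2, 3]
  simp only [Matrix.cons_val_zero, Matrix.cons_val_one, Matrix.cons_val] at h
  rw [KP, KM, KM, KM, vf_add, vf_sub, vf_add, vf_sub, map_add, map_sub, map_add, map_sub,
    fderiv_rot, fderiv_rot, fderiv_rot, fderiv_rot, fderiv_rot, fderiv_rot]
  exact h

end Crest.Agent.R330.SJop186
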