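import Crest.Agent.R330.GapAlg_916
import Crest.Agent.R330.Alg_962
import Crest.Agent.R330.Brid_837
import Crest.Agent.R330.SJop_186
import Crest.Agent.R330.Dict_416

/-!
# Row 330, S1.4: `[J, Q_α]` for the literal charges, and the literal `Susy` (helper916)

* `Dm G a = (1/8) Σ a_{li} γ^i γ^l`, `Sp_theta : [S_a, θ_γ^C] = -2 Σ_δ (Dm a)_{γδ} θ_δ^C`.
* `Jg_dcharge` : `[J_a, Q_α] = -2 Σ_β (Dm a)_{αβ} Q_β` for antisymmetric `a` compatible with the
  blocks; `Jg_rot_dcharge` : for `rot j k`, `j ≠ k` in one block, `[J, Q_α] = -½ Σ (γ^jγ^k)_{αβ} Q_β`.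
* `core_Jg` : `J_a` maps core vectors to core vectors.
* `Qc`, `Jc`, `Hc` on the core and `susy_of`.
-/

set_option autoImplicit false
set_option linter.unusedSectionVars false
set_option linter.deprecated false

open MeasureTheory Filter Topology Matrix Crest.MathPhysics.MatrixQM
open scoped ContDiff InnerProductSpace ENNReal

noncomputable section

namespace Crest.Agent.R330.JQ916

open Crest.Agent.R330.Defs478 Crest.Agent.R330.IBP837 Crest.Agent.R330.Alg962
open Crest.Agent.R330.SDefs726 Crest.Agent.R330.Gam962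
open Crest.Agent.R330.GapAlg916 (pairs gg γ_ac γ_sq gg_comm_Gam trace_gg_Gam Susy)

variable {N : ℕ} {F : Type*} [NormedAddCommGroup F] [InnerProductSpace ℂ F]

/-! ### 1. Fermion bilinears -/

/-- the bilinear `Σ_A Σ_{αβ} D_{αβ} θ_α^A θ_β^A` -/
def bil (M : FermionRep N F) (D : Matrix (Fin 16) (Fin 16) ℝ) : F →ₗ[ℂ] F :=
  ∑ A : Fin (N ^ 2 - 1), ∑ α : Fin 16, ∑ β : Fin 16, ((D α β : ℝ) : ℂ) • (M.θ α A ∘ₗ M.θ β A)

theorem bil_apply (M : FermionRep N F) (D : Matrix (Fin 16) (Fin 16) ℝ) (v : F) :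
    bil M D v = ∑ A, ∑ α, ∑ β, ((D α β : ℝ) : ℂ) • M.θ α A (M.θ β A v) := by
  simp [bil, LinearMap.sum_apply]

/-- the spin matrix of `a` -/
def Dm (G : GammaNine) (a : Matrix (Fin 9) (Fin 9) ℝ) : Matrix (Fin 16) (Fin 16) ℝ :=
  (1 / 8 : ℝ) • ∑ i : Fin 9, ∑ l : Fin 9, a l i • (G.γ i * G.γ l)

theorem Dm_apply (G : GammaNine) (a : Matrix (Fin 9) (Fin 9) ℝ) (α β : Fin 16) :
    Dm G a α β = 1 / 8 * ∑ i : Fin 9, ∑ l : Fin 9, a l i * (G.γ i * G.γ l) α β := by
  simp [Dm, Matrix.sum_apply]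

theorem Sp_eq (M : FermionRep N F) (G : GammaNine) (a : Matrix (Fin 9) (Fin 9) ℝ) :
    Sp M G a = bil M (Dm G a) := by
  ext v
  rw [bil_apply]
  simp only [Sp, LinearMap.smul_apply, LinearMap.sum_apply, LinearMap.comp_apply, Dm_apply]
  have e : ∀ (A : Fin (N ^ 2 - 1)) (α β : Fin 16),
      (((1 / 8 * ∑ i : Fin 9, ∑ l : Fin 9, a l i * (G.γ i * G.γ l) α β : ℝ)) : ℂ) •
        M.θ α A (M.θ β A v) = ∑ i : Fin 9, ∑ l : Fin 9, (1 / 8 : ℂ) • (a l i : ℂ) •
          (((G.γ i * G.γ l) α β : ℝ) : ℂ) • M.θ α A (M.θ β A v) := by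
    intro A α β
    push_cast
    rw [Finset.mul_sum, Finset.sum_smul]
    refine Finset.sum_congr rfl fun i _ => ?_
    rw [Finset.mul_sum, Finset.sum_smul]
    refine Finset.sum_congr rfl fun l _ => ?_
    rw [smul_smul, smul_smul]
    ring_nf
  simp only [e, Finset.smul_sum]
  -- reorder the sums
  have s1 : ∀ i l : Fin 9, (∑ A : Fin (N ^ 2 - 1), ∑ α : Fin 16, ∑ β : Fin 16,
      (1 / 8 : ℂ) • (a l i : ℂ) • (((G.γ i * G.γ l) α β : ℝ) : ℂ) • M.θ α A (M.θ β A v)) =
      ∑ A : Fin (N ^ 2 - 1), ∑ α : Fin 16, ∑ β : Fin 16,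
      (1 / 8 : ℂ) • (a l i : ℂ) • (((G.γ i * G.γ l) α β : ℝ) : ℂ) • M.θ α A (M.θ β A v) :=
    fun _ _ => rfl
  calc ∑ i : Fin 9, ∑ l : Fin 9, ∑ A : Fin (N ^ 2 - 1), ∑ α : Fin 16, ∑ β : Fin 16,
      (1 / 8 : ℂ) • (a l i : ℂ) • (((G.γ i * G.γ l) α β : ℝ) : ℂ) • M.θ α A (M.θ β A v)
      = ∑ i : Fin 9, ∑ A : Fin (N ^ 2 - 1), ∑ α : Fin 16, ∑ β : Fin 16, ∑ l : Fin 9,
        (1 / 8 : ℂ) • (a l i : ℂ) • (((G.γ i * G.γ l) α β : ℝ) : ℂ) • M.θ α A (M.θ β A v) := by
        refine Finset.sum_congr rfl fun i _ => ?_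
        rw [Finset.sum_comm]
        refine Finset.sum_congr rfl fun A _ => ?_
        rw [Finset.sum_comm]
        refine Finset.sum_congr rfl fun α _ => ?_
        rw [Finset.sum_comm]
    _ = ∑ A : Fin (N ^ 2 - 1), ∑ α : Fin 16, ∑ β : Fin 16, ∑ i : Fin 9, ∑ l : Fin 9,
        (1 / 8 : ℂ) • (a l i : ℂ) • (((G.γ i * G.γ l) α β : ℝ) : ℂ) • M.θ α A (M.θ β A v) := by
        rw [Finset.sum_comm]
        refine Finset.sum_congr rfl fun A _ => ?_
        rw [Finset.sum_comm]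
        refine Finset.sum_congr rfl fun α _ => ?_
        rw [Finset.sum_comm]

theorem Dm_transpose (G : GammaNine) {a : Matrix (Fin 9) (Fin 9) ℝ} (ha : ∀ i j, a i j = -a j i) :
    (Dm G a)ᵀ = -Dm G a := by
  unfold Dm
  rw [transpose_smul, ← smul_neg, transpose_sum]
  congr 1
  simp only [transpose_sum, transpose_smul, transpose_mul, G.symm]
  rw [Finset.sum_comm, ← Finset.sum_neg_distrib]
  refine Finset.sum_congr rfl fun i _ => ?_
  rw [← Finset.sum_neg_distrib]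
  refine Finset.sum_congr rfl fun l _ => ?_
  rw [ha i l, neg_smul]

variable [FiniteDimensional ℂ F]

/-- `[S_D, θ_γ^C] = -2 Σ_δ D_{γδ} θ_δ^C` for antisymmetric `D` -/
theorem bil_theta (M : FermionRep N F) {D : Matrix (Fin 16) (Fin 16) ℝ} (hD : Dᵀ = -D)
    (c : Fin 16) (C : Fin (N ^ 2 - 1)) (v : F) :
    bil M D (M.θ c C v) - M.θ c C (bil M D v) =
      (-2 : ℂ) • ∑ δ, ((D c δ : ℝ) : ℂ) • M.θ δ C v := by
  have hD' : ∀ α β, D α β = -D β α := fun α β => by
    have := congrFun (congrFun hD β) α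
    simpa using this
  have key : ∀ (A : Fin (N ^ 2 - 1)) (α β : Fin 16),
      M.θ α A (M.θ β A (M.θ c C v)) - M.θ c C (M.θ α A (M.θ β A v)) =
        (if β = c ∧ A = C then M.θ α A v else 0) -
          (if α = c ∧ A = C then M.θ β A v else 0) := by
    intro A α β
    have h1 := anticomm_apply M β c A C v
    have h2 := anticomm_apply M α c A C (M.θ β A v)
    have h3 : M.θ α A (M.θ β A (M.θ c C v)) = M.θ α A (if β = c ∧ A = C then v else 0) -
        M.θ α A (M.θ c C (M.θ β A v)) := by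
      rw [← h1, map_add]
      abel
    rw [h3, ← h2]
    have h4 : M.θ α A (if β = c ∧ A = C then v else 0) =
        if β = c ∧ A = C then M.θ α A v else 0 := by
      split_ifs <;> simp
    rw [h4]
    abel
  rw [bil_apply, bil_apply, map_sum, ← Finset.sum_sub_distrib]
  have e1 : ∀ A, (∑ α, ∑ β, ((D α β : ℝ) : ℂ) • M.θ α A (M.θ β A (M.θ c C v))) -
      M.θ c C (∑ α, ∑ β, ((D α β : ℝ) : ℂ) • M.θ α A (M.θ β A v)) =
      if A = C then (-2 : ℂ) • ∑ δ, ((D c δ : ℝ) : ℂ) • M.θ δ C v else 0 := by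
    intro A
    rw [map_sum, ← Finset.sum_sub_distrib]
    have e2 : ∀ α, (∑ β, ((D α β : ℝ) : ℂ) • M.θ α A (M.θ β A (M.θ c C v))) -
        M.θ c C (∑ β, ((D α β : ℝ) : ℂ) • M.θ α A (M.θ β A v)) =
        ∑ β, ((D α β : ℝ) : ℂ) • ((if β = c ∧ A = C then M.θ α A v else 0) -
          (if α = c ∧ A = C then M.θ β A v else 0)) := by
      intro α
      rw [map_sum, ← Finset.sum_sub_distrib]
      refine Finset.sum_congr rfl fun β _ => ?_
      rw [map_smul, ← smul_sub, key]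
    simp only [e2]
    by_cases hA : A = C
    · subst hA
      simp only [and_true, if_true, smul_sub, smul_ite, smul_zero, Finset.sum_sub_distrib]
      have s1 : ∀ α, (∑ β, if β = c then ((D α β : ℝ) : ℂ) • M.θ α A v else 0) =
          ((D α c : ℝ) : ℂ) • M.θ α A v := by
        intro α
        rw [Finset.sum_ite_eq']
        simp
      have s2 : ∑ α, (∑ β, if α = c then ((D α β : ℝ) : ℂ) • M.θ β A v else 0) =
          ∑ β, ((D c β : ℝ) : ℂ) • M.θ β A v := by
        rw [Finset.sum_comm]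
        refine Finset.sum_congr rfl fun β _ => ?_
        rw [Finset.sum_ite_eq']
        simp
      rw [s2, Finset.sum_congr rfl fun α _ => s1 α, ← Finset.sum_sub_distrib, Finset.smul_sum]
      refine Finset.sum_congr rfl fun δ _ => ?_
      rw [hD' δ c]
      push_cast
      module
    · simp [hA]
  simp only [e1, Finset.sum_ite_eq', Finset.mem_univ, if_true]

theorem Sp_theta (M : FermionRep N F) (G : GammaNine) {a : Matrix (Fin 9) (Fin 9) ℝ}
    (ha : ∀ i j, a i j = -a j i) (c : Fin 16) (C : Fin (N ^ 2 - 1)) (v : F) :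
    Sp M G a (M.θ c C v) - M.θ c C (Sp M G a v) =
      (-2 : ℂ) • ∑ δ, ((Dm G a c δ : ℝ) : ℂ) • M.θ δ C v := by
  rw [Sp_eq]
  exact bil_theta M (Dm_transpose G ha) c C v

/-! ### 2. The derivation `X ↦ -2 [D, X]` -/

/-- the derivation `X ↦ -2 [D, X]` -/
def adL (D : Matrix (Fin 16) (Fin 16) ℝ) :
    Matrix (Fin 16) (Fin 16) ℝ →ₗ[ℝ] Matrix (Fin 16) (Fin 16) ℝ :=
  (-2 : ℝ) • (LinearMap.mulLeft ℝ D - LinearMap.mulRight ℝ D)

theorem adL_apply (D X : Matrix (Fin 16) (Fin 16) ℝ) : adL D X = (-2 : ℝ) • (D * X - X * D) := by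
  simp [adL]

theorem adL_mul (D X Y : Matrix (Fin 16) (Fin 16) ℝ) :
    adL D (X * Y) = adL D X * Y + X * adL D Y := by
  simp only [adL_apply, smul_mul_assoc, mul_smul_comm, ← smul_add]
  congr 1
  noncomm_ring

theorem adL_gam (G : GammaNine) {a : Matrix (Fin 9) (Fin 9) ℝ} (ha : ∀ i j, a i j = -a j i)
    (k : Fin 9) : adL (Dm G a) (G.γ k) = ∑ i, a i k • G.γ i := by
  have h1 : ∀ i l : Fin 9, G.γ i * G.γ l * G.γ k - G.γ k * (G.γ i * G.γ l) =
      (if l = k then (2 : ℝ) • G.γ i else 0) - (if i = k then (2 : ℝ) • G.γ l else 0) := by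
    intro i l
    have e1 : G.γ i * G.γ l * G.γ k - G.γ k * (G.γ i * G.γ l) =
        G.γ i * (G.γ l * G.γ k + G.γ k * G.γ l) - (G.γ i * G.γ k + G.γ k * G.γ i) * G.γ l := by
      noncomm_ring
    rw [e1, G.clifford, G.clifford]
    congr 1
    · split_ifs
      · rw [mul_two, two_smul]
      · rw [mul_zero]
    · split_ifs
      · rw [two_mul, two_smul]
      · rw [zero_mul]
  have h2 : Dm G a * G.γ k - G.γ k * Dm G a =
      (1 / 8 : ℝ) • ∑ i : Fin 9, ∑ l : Fin 9, a l i •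
        (G.γ i * G.γ l * G.γ k - G.γ k * (G.γ i * G.γ l)) := by
    unfold Dm
    rw [smul_mul_assoc, mul_smul_comm, ← smul_sub, Finset.sum_mul, Finset.mul_sum,
      ← Finset.sum_sub_distrib]
    congr 1
    refine Finset.sum_congr rfl fun i _ => ?_
    rw [Finset.sum_mul, Finset.mul_sum, ← Finset.sum_sub_distrib]
    refine Finset.sum_congr rfl fun l _ => ?_
    rw [smul_mul_assoc, mul_smul_comm, ← smul_sub]
  rw [adL_apply, h2]
  simp only [h1, smul_sub, smul_ite, smul_zero, Finset.sum_sub_distrib]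
  have s1 : (∑ i : Fin 9, ∑ l : Fin 9, if l = k then a l i • (2 : ℝ) • G.γ i else 0) =
      ∑ i, a k i • (2 : ℝ) • G.γ i := by
    refine Finset.sum_congr rfl fun i _ => ?_
    rw [Finset.sum_ite_eq']
    simp
  have s2 : (∑ i : Fin 9, ∑ l : Fin 9, if i = k then a l i • (2 : ℝ) • G.γ l else 0) =
      ∑ i, a i k • (2 : ℝ) • G.γ i := by
    rw [Finset.sum_comm]
    refine Finset.sum_congr rfl fun i _ => ?_
    rw [Finset.sum_ite_eq']
    simp
  rw [s1, s2, ← Finset.smul_sum.symm]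
  simp only [Finset.smul_sum, ← Finset.sum_sub_distrib]
  refine Finset.sum_congr rfl fun i _ => ?_
  rw [ha k i]
  module

theorem adL_gam2 (G : GammaNine) {a : Matrix (Fin 9) (Fin 9) ℝ} (ha : ∀ i j, a i j = -a j i)
    (i j : Fin 9) : adL (Dm G a) (G.γ2 i j) =
      (∑ p, a p i • G.γ2 p j) + ∑ p, a p j • G.γ2 i p := by
  unfold GammaNine.γ2
  rw [map_smul, map_sub, adL_mul, adL_mul, adL_gam G ha, adL_gam G ha]
  simp only [Finset.sum_mul, Finset.mul_sum, smul_mul_assoc, mul_smul_comm, smul_sub, smul_add,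
    Finset.smul_sum, Finset.sum_sub_distrib, ← Finset.sum_add_distrib]
  rw [← sub_eq_zero]
  simp only [← Finset.sum_sub_distrib, ← Finset.sum_add_distrib]
  refine Finset.sum_eq_zero fun p _ => ?_
  module

/-- compatibility of `a` with the blocks -/
def BlockC (G : GammaNine) (a : Matrix (Fin 9) (Fin 9) ℝ) : Prop :=
  (∀ i j, cc i * a i j = cc j * a i j) ∧ Dm G a * Gam G = Gam G * Dm G a

theorem adL_Gam (G : GammaNine) {a : Matrix (Fin 9) (Fin 9) ℝ} (ha : ∀ i j, a i j = -a j i)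
    (hc : Dm G a * Gam G = Gam G * Dm G a) (k : Fin 9) :
    adL (Dm G a) (Gam G * G.γ k) = ∑ i, a i k • (Gam G * G.γ i) := by
  rw [adL_mul, adL_gam G ha, adL_apply, hc, sub_self, smul_zero, zero_mul, zero_add,
    Finset.mul_sum]
  simp only [mul_smul_comm]

/-! ### 3. Derivative of the potential along the rotation field -/

/-- the matrix of the potential coefficients -/
def Wm (b : ColorBasis N) (G : GammaNine) (g m : ℝ) (A : Fin (N ^ 2 - 1)) (x : Cfg N) :
    Matrix (Fin 16) (Fin 16) ℝ :=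
  (g • ∑ B : Fin (N ^ 2 - 1), ∑ C : Fin (N ^ 2 - 1), ∑ i : Fin 9, ∑ j : Fin 9,
    (1 / 2 * b.structConst A B C * x (i, B) * x (j, C)) • G.γ2 i j) -
  m • ∑ j : Fin 9, (cc j * x (j, A)) • (Gam G * G.γ j)

theorem Wm_apply (b : ColorBasis N) (G : GammaNine) (g m : ℝ) (A : Fin (N ^ 2 - 1)) (x : Cfg N)
    (α β : Fin 16) : Wm b G g m A x α β = wpot b G g m α β A x := by
  simp [Wm, wpot, Matrix.sum_apply]

theorem hasFDerivAt_coord (x : Cfg N) (p : Fin 9 × Fin (N ^ 2 - 1)) :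
    HasFDerivAt (fun y : Cfg N => y p) (EuclideanSpace.proj (𝕜 := ℝ) p : Cfg N →L[ℝ] ℝ) x :=
  (EuclideanSpace.proj (𝕜 := ℝ) p : Cfg N →L[ℝ] ℝ).hasFDerivAt

theorem hasFDerivAt_term (c d : ℝ) (p q : Fin 9 × Fin (N ^ 2 - 1)) (x : Cfg N) :
    HasFDerivAt (fun y : Cfg N => c * y p * y q * d)
      ((c * d * x q) • (EuclideanSpace.proj (𝕜 := ℝ) p : Cfg N →L[ℝ] ℝ) +
        (c * d * x p) • (EuclideanSpace.proj (𝕜 := ℝ) q : Cfg N →L[ℝ] ℝ)) x := by
  have h := (((hasFDerivAt_coord x p).mul (hasFDerivAt_coord x q)).const_mul (c * d))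
  have e : (fun y : Cfg N => c * y p * y q * d) = fun y => c * d * (y p * y q) := by
    funext y; ring
  rw [e]
  refine h.congr_fderiv ?_
  ext v
  simp
  ring

theorem fderiv_wpot (b : ColorBasis N) (G : GammaNine) (g m : ℝ) (α β : Fin 16)
    (A : Fin (N ^ 2 - 1)) (x v : Cfg N) : fderiv ℝ (wpot b G g m α β A) x v =
      g * (∑ B : Fin (N ^ 2 - 1), ∑ C : Fin (N ^ 2 - 1), ∑ i : Fin 9, ∑ j : Fin 9,
        (1 / 2 * b.structConst A B C * v (i, B) * x (j, C) * G.γ2 i j α β +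
          1 / 2 * b.structConst A B C * x (i, B) * v (j, C) * G.γ2 i j α β)) -
      m * ∑ j : Fin 9, cc j * v (j, A) * (Gam G * G.γ j) α β := by
  have h1 : HasFDerivAt (fun y : Cfg N => ∑ B : Fin (N ^ 2 - 1), ∑ C : Fin (N ^ 2 - 1),
      ∑ i : Fin 9, ∑ j : Fin 9, 1 / 2 * b.structConst A B C * y (i, B) * y (j, C) * G.γ2 i j α β)
      (∑ B : Fin (N ^ 2 - 1), ∑ C : Fin (N ^ 2 - 1), ∑ i : Fin 9, ∑ j : Fin 9,
        ((1 / 2 * b.structConst A B C * G.γ2 i j α β * x (j, C)) •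
          (EuclideanSpace.proj (𝕜 := ℝ) (i, B) : Cfg N →L[ℝ] ℝ) +
        (1 / 2 * b.structConst A B C * G.γ2 i j α β * x (i, B)) •
          (EuclideanSpace.proj (𝕜 := ℝ) (j, C) : Cfg N →L[ℝ] ℝ))) x :=
    HasFDerivAt.fun_sum fun B _ => HasFDerivAt.fun_sum fun C _ => HasFDerivAt.fun_sum fun i _ =>
      HasFDerivAt.fun_sum fun j _ => hasFDerivAt_term _ _ _ _ x
  have h2 : HasFDerivAt (fun y : Cfg N => ∑ j : Fin 9, cc j * y (j, A) * (Gam G * G.γ j) α β)
      (∑ j : Fin 9, (cc j * (Gam G * G.γ j) α β) •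
        (EuclideanSpace.proj (𝕜 := ℝ) (j, A) : Cfg N →L[ℝ] ℝ)) x := by
    refine HasFDerivAt.fun_sum fun j _ => ?_
    have h := (hasFDerivAt_coord x (j, A)).const_mul (cc j * (Gam G * G.γ j) α β)
    have e : (fun y : Cfg N => cc j * y (j, A) * (Gam G * G.γ j) α β) =
        fun y => cc j * (Gam G * G.γ j) α β * y (j, A) := by
      funext y; ring
    rw [e]
    exact h
  have h3 := (h1.const_mul g).sub (h2.const_mul m)
  have h4 : fderiv ℝ (wpot b G g m α β A) x = _ := h3.fderiv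
  rw [h4]
  simp only [ContinuousLinearMap.sub_apply, ContinuousLinearMap.smul_apply,
    ContinuousLinearMap.sum_apply, ContinuousLinearMap.add_apply, PiLp.proj_apply, smul_eq_mul]
  congr 2
  · refine Finset.sum_congr rfl fun B _ => Finset.sum_congr rfl fun C _ =>
      Finset.sum_congr rfl fun i _ => Finset.sum_congr rfl fun j _ => ?_
    ring
  · refine Finset.sum_congr rfl fun j _ => ?_
    ring

/-- the rotation identity of the potential coefficients -/
theorem fderiv_wpot_vf (b : ColorBasis N) (G : GammaNine) (g m : ℝ)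
    {a : Matrix (Fin 9) (Fin 9) ℝ} (ha : ∀ i j, a i j = -a j i) (hm : m = 0 ∨ BlockC G a)
    (A : Fin (N ^ 2 - 1)) (x : Cfg N) (α β : Fin 16) :
    fderiv ℝ (wpot b G g m α β A) x (vf a x) = adL (Dm G a) (Wm b G g m A x) α β := by
  rw [fderiv_wpot]
  unfold Wm
  rw [map_sub, map_smul, map_smul]
  simp only [map_sum, map_smul, adL_gam2 G ha, Matrix.sub_apply, Matrix.smul_apply,
    Matrix.sum_apply, Matrix.add_apply, smul_eq_mul, vf_apply]
  congr 1
  · congr 1
    refine Finset.sum_congr rfl fun B _ => Finset.sum_congr rfl fun C _ => ?_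
    simp only [mul_add, Finset.sum_add_distrib]
    congr 1
    · rw [Finset.sum_comm]
      conv_rhs => rw [Finset.sum_comm]
      refine Finset.sum_congr rfl fun j _ => ?_
      simp only [Finset.mul_sum, Finset.sum_mul]
      rw [Finset.sum_comm]
      refine Finset.sum_congr rfl fun i _ => Finset.sum_congr rfl fun p _ => ?_
      ring
    · refine Finset.sum_congr rfl fun i _ => ?_
      simp only [Finset.mul_sum, Finset.sum_mul]
      rw [Finset.sum_comm]
      refine Finset.sum_congr rfl fun j _ => Finset.sum_congr rfl fun p _ => ?_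
      ring
  · rcases hm with rfl | hb
    · simp
    · congr 1
      simp only [adL_Gam G ha hb.2, Matrix.sum_apply, Matrix.smul_apply, smul_eq_mul,
        Finset.mul_sum, Finset.sum_mul]
      rw [Finset.sum_comm]
      refine Finset.sum_congr rfl fun i _ => Finset.sum_congr rfl fun j _ => ?_
      have := hb.1 j i
      calc cc j * (a j i * x (i, A)) * (Gam G * G.γ j) α β
          = (cc j * a j i) * x (i, A) * (Gam G * G.γ j) α β := by ring
        _ = (cc i * a j i) * x (i, A) * (Gam G * G.γ j) α β := by rw [this]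
        _ = cc i * x (i, A) * (a j i * (Gam G * G.γ j) α β) := by ring

/-! ### 4. The commutator -/

theorem Jg_eq (M : FermionRep N F) (G : GammaNine) (a : Matrix (Fin 9) (Fin 9) ℝ)
    (φ : Cfg N → F) (x : Cfg N) :
    Jg M G a φ x = (∑ k, ((vf a x k : ℝ) : ℂ) • pd φ k x) + Sp M G a (φ x) := by
  unfold Jg
  rw [SJop186.fderiv_eq_sum]
  rfl

theorem pd_vf (a : Matrix (Fin 9) (Fin 9) ℝ) (k l : Fin 9 × Fin (N ^ 2 - 1)) (x : Cfg N) :
    pd (fun y : Cfg N => vf a y k) l x = if k.2 = l.2 then a k.1 l.1 else 0 := by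
  have h1 : HasFDerivAt (fun y : Cfg N => vf a y k)
      (∑ j : Fin 9, a k.1 j • (EuclideanSpace.proj (𝕜 := ℝ) (j, k.2) : Cfg N →L[ℝ] ℝ)) x := by
    have e : (fun y : Cfg N => vf a y k) = fun y => ∑ j : Fin 9, a k.1 j * y (j, k.2) := rfl
    rw [e]
    exact HasFDerivAt.fun_sum fun j _ => (hasFDerivAt_coord x (j, k.2)).const_mul _
  unfold pd
  rw [h1.fderiv]
  simp only [ContinuousLinearMap.sum_apply, ContinuousLinearMap.smul_apply, PiLp.proj_apply,
    smul_eq_mul, EuclideanSpace.single_apply]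
  obtain ⟨l1, l2⟩ := l
  obtain ⟨k1, k2⟩ := k
  simp only [Prod.mk.injEq]
  by_cases h : k2 = l2
  · simp [h]
  · simp [h]

theorem diff_vf (a : Matrix (Fin 9) (Fin 9) ℝ) (k : Fin 9 × Fin (N ^ 2 - 1)) (x : Cfg N) :
    DifferentiableAt ℝ (fun y : Cfg N => vf a y k) x := by
  have e : (fun y : Cfg N => vf a y k) = fun y => ∑ j : Fin 9, a k.1 j * y (j, k.2) := rfl
  rw [e]
  fun_prop

theorem pd_Jg (M : FermionRep N F) (G : GammaNine) (a : Matrix (Fin 9) (Fin 9) ℝ)
    {φ : Cfg N → F} (hφ : ContDiff ℝ 2 φ) (l : Fin 9 × Fin (N ^ 2 - 1)) (x : Cfg N) :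
    pd (Jg M G a φ) l x = (∑ k, ((vf a x k : ℝ) : ℂ) • pd (pd φ k) l x) +
      (∑ i, ((a i l.1 : ℝ) : ℂ) • pd φ (i, l.2) x) + Sp M G a (pd φ l x) := by
  have hd : Differentiable ℝ φ := hφ.differentiable (by norm_num)
  have e : Jg M G a φ = fun y => (∑ k, ((vf a y k : ℝ) : ℂ) • pd φ k y) + Sp M G a (φ y) :=
    funext fun y => Jg_eq M G a φ y
  have hk : ∀ k ∈ (Finset.univ : Finset (Fin 9 × Fin (N ^ 2 - 1))),
      DifferentiableAt ℝ (fun y => ((vf a y k : ℝ) : ℂ) • pd φ k y) x := fun k _ =>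
    diff_real_smul (diff_vf a k x) (diff_pd hφ k x)
  rw [e, pd_add (DifferentiableAt.fun_sum hk) (diff_lin _ (hd x)), pd_sum _ hk,
    pd_lin _ (hd x)]
  congr 1
  have e2 : ∀ k, pd (fun y => ((vf a y k : ℝ) : ℂ) • pd φ k y) l x =
      ((vf a x k : ℝ) : ℂ) • pd (pd φ k) l x +
      (if k.2 = l.2 then ((a k.1 l.1 : ℝ) : ℂ) • pd φ k x else 0) := by
    intro k
    rw [pd_real_smul (diff_vf a k x) (diff_pd hφ k x), pd_vf, add_comm]
    congr 1
    split_ifs <;> simp
  simp only [e2, Finset.sum_add_distrib]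
  congr 1
  rw [Fintype.sum_prod_type]
  refine Finset.sum_congr rfl fun i _ => ?_
  simp

theorem Sp_vco (M : FermionRep N F) (G : GammaNine) {a : Matrix (Fin 9) (Fin 9) ℝ}
    (ha : ∀ i j, a i j = -a j i) (c : Fin 16 → Fin (N ^ 2 - 1) → ℝ) (v : F) :
    Sp M G a (vco M c v) - vco M c (Sp M G a v) =
      vco M (fun δ A => -2 * ∑ β, c β A * Dm G a β δ) v := by
  rw [vco_apply, vco_apply, vco_apply, map_sum, ← Finset.sum_sub_distrib]
  refine Finset.sum_congr rfl fun A _ => ?_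
  rw [map_sum, ← Finset.sum_sub_distrib]
  have e : ∀ β, Sp M G a ((c β A : ℂ) • M.θ β A v) - (c β A : ℂ) • M.θ β A (Sp M G a v) =
      ∑ δ, ((-2 * (c β A * Dm G a β δ) : ℝ) : ℂ) • M.θ δ A v := by
    intro β
    rw [map_smul, ← smul_sub, Sp_theta M G ha, Finset.smul_sum, Finset.smul_sum]
    refine Finset.sum_congr rfl fun δ _ => ?_
    rw [smul_smul, smul_smul]
    congr 1
    push_cast
    ring
  simp only [e]
  rw [Finset.sum_comm]
  refine Finset.sum_congr rfl fun δ _ => ?_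
  rw [← Finset.sum_smul]
  congr 1
  push_cast
  rw [Finset.mul_sum]

theorem Sp_dco (M : FermionRep N F) (G : GammaNine) {a : Matrix (Fin 9) (Fin 9) ℝ}
    (ha : ∀ i j, a i j = -a j i) (α : Fin 16) (l : Fin 9 × Fin (N ^ 2 - 1)) (v : F) :
    Sp M G a (dco M G α l v) - dco M G α l (Sp M G a v) =
      ∑ δ, ((-2 * (G.γ l.1 * Dm G a) α δ : ℝ) : ℂ) • M.θ δ l.2 v := by
  rw [dco_apply, dco_apply, map_sum, ← Finset.sum_sub_distrib]
  have e : ∀ β, Sp M G a ((G.γ l.1 α β : ℂ) • M.θ β l.2 v) -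
      (G.γ l.1 α β : ℂ) • M.θ β l.2 (Sp M G a v) =
      ∑ δ, ((-2 * (G.γ l.1 α β * Dm G a β δ) : ℝ) : ℂ) • M.θ δ l.2 v := by
    intro β
    rw [map_smul, ← smul_sub, Sp_theta M G ha, Finset.smul_sum, Finset.smul_sum]
    refine Finset.sum_congr rfl fun δ _ => ?_
    rw [smul_smul, smul_smul]
    congr 1
    push_cast
    ring
  simp only [e]
  rw [Finset.sum_comm]
  refine Finset.sum_congr rfl fun δ _ => ?_
  rw [← Finset.sum_smul, Matrix.mul_apply]
  congr 1
  push_cast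
  rw [Finset.mul_sum]

/-- **the commutator `[J_a, Q_α]`** -/
theorem Jg_dcharge (b : ColorBasis N) (M : FermionRep N F) (G : GammaNine) (g m : ℝ)
    {a : Matrix (Fin 9) (Fin 9) ℝ} (ha : ∀ i j, a i j = -a j i) (hm : m = 0 ∨ BlockC G a)
    {φ : Cfg N → F} (hφ : ContDiff ℝ 2 φ) (α : Fin 16) (x : Cfg N) :
    Jg M G a (dcharge b M G g m α φ) x - dcharge b M G g m α (Jg M G a φ) x =
      (-2 : ℂ) • ∑ β, ((Dm G a α β : ℝ) : ℂ) • dcharge b M G g m β φ x := by
  have hW : ∀ γ A, DifferentiableAt ℝ (wpot b G g m α γ A) x := fun γ A =>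
    (Brid837.wpot_contDiff (n := 1) γ A).differentiable one_ne_zero x
  have e1 : Jg M G a (dcharge b M G g m α φ) x =
      (∑ k, ((vf a x k : ℝ) : ℂ) • ∑ l, (-Complex.I) • dco M G α l (pd (pd φ l) k x)) +
      (∑ k, ((vf a x k : ℝ) : ℂ) • vco M (fun γ A => pd (wpot b G g m α γ A) k x) (φ x)) +
      (∑ k, ((vf a x k : ℝ) : ℂ) • vco M (fun γ A => wpot b G g m α γ A x) (pd φ k x)) +
      ((∑ l, (-Complex.I) • Sp M G a (dco M G α l (pd φ l x))) +
        Sp M G a (vco M (fun γ A => wpot b G g m α γ A x) (φ x))) := by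
    rw [Jg_eq, Brid837.dcharge_eq]
    have h1 : ∀ k, pd (chargeW M G (wpot b G g m) α φ) k x = _ := fun k =>
      pd_chargeW (W := wpot b G g m) hφ α hW k
    simp only [h1, smul_add, Finset.sum_add_distrib]
    rw [chargeW_pd, map_add, map_sum]
    simp only [map_smul]
    abel
  have e2 : dcharge b M G g m α (Jg M G a φ) x =
      (∑ l, (-Complex.I) • dco M G α l (∑ k, ((vf a x k : ℝ) : ℂ) • pd (pd φ k) l x)) +
      (∑ l, (-Complex.I) • dco M G α l (∑ i, ((a i l.1 : ℝ) : ℂ) • pd φ (i, l.2) x)) +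
      (∑ l, (-Complex.I) • dco M G α l (Sp M G a (pd φ l x))) +
      (vco M (fun γ A => wpot b G g m α γ A x) (∑ k, ((vf a x k : ℝ) : ℂ) • pd φ k x) +
        vco M (fun γ A => wpot b G g m α γ A x) (Sp M G a (φ x))) := by
    rw [Brid837.dcharge_eq, chargeW_pd]
    simp only [pd_Jg M G a hφ, map_add, smul_add, Finset.sum_add_distrib]
    congr 1
    rw [Jg_eq, map_add]
  -- the second order terms
  have c1 : (∑ k, ((vf a x k : ℝ) : ℂ) • ∑ l, (-Complex.I) • dco M G α l (pd (pd φ l) k x)) =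
      ∑ l, (-Complex.I) • dco M G α l (∑ k, ((vf a x k : ℝ) : ℂ) • pd (pd φ k) l x) := by
    simp only [Finset.smul_sum, map_sum, map_smul]
    rw [Finset.sum_comm]
    refine Finset.sum_congr rfl fun l _ => Finset.sum_congr rfl fun k _ => ?_
    rw [pd_comm hφ l k, smul_comm]
  -- the potential acting on the first order terms
  have c2 : (∑ k, ((vf a x k : ℝ) : ℂ) • vco M (fun γ A => wpot b G g m α γ A x) (pd φ k x)) =
      vco M (fun γ A => wpot b G g m α γ A x) (∑ k, ((vf a x k : ℝ) : ℂ) • pd φ k x) := by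
    simp only [map_sum, map_smul]
  -- the derivative of the potential
  have c3 : (∑ k, ((vf a x k : ℝ) : ℂ) • vco M (fun γ A => pd (wpot b G g m α γ A) k x) (φ x)) =
      vco M (fun γ A => adL (Dm G a) (Wm b G g m A x) α γ) (φ x) := by
    have h1 : ∀ γ A, adL (Dm G a) (Wm b G g m A x) α γ =
        ∑ k, vf a x k * pd (wpot b G g m α γ A) k x := by
      intro γ A
      rw [← fderiv_wpot_vf b G g m ha hm]
      conv_lhs => rw [SJop186.decomp (vf a x)]
      rw [map_sum]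
      refine Finset.sum_congr rfl fun k _ => ?_
      rw [map_smul]
      rfl
    simp only [h1, vco_apply]
    simp only [Finset.smul_sum]
    rw [Finset.sum_comm]
    refine Finset.sum_congr rfl fun A _ => ?_
    rw [Finset.sum_comm]
    refine Finset.sum_congr rfl fun γ _ => ?_
    rw [Complex.ofReal_sum, Finset.sum_smul]
    refine Finset.sum_congr rfl fun k _ => ?_
    rw [smul_smul, Complex.ofReal_mul]
  have c4 := Sp_vco M G ha (fun γ A => wpot b G g m α γ A x) (φ x)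
  have c5 : (∑ l, (-Complex.I) • Sp M G a (dco M G α l (pd φ l x))) -
      (∑ l, (-Complex.I) • dco M G α l (Sp M G a (pd φ l x))) =
      ∑ l, (-Complex.I) • ∑ δ, ((-2 * (G.γ l.1 * Dm G a) α δ : ℝ) : ℂ) • M.θ δ l.2 (pd φ l x) := by
    rw [← Finset.sum_sub_distrib]
    refine Finset.sum_congr rfl fun l _ => ?_
    rw [← smul_sub, Sp_dco M G ha]
  have c6 : (∑ l, (-Complex.I) • dco M G α l (∑ i, ((a i l.1 : ℝ) : ℂ) • pd φ (i, l.2) x)) =
      ∑ l : Fin 9 × Fin (N ^ 2 - 1), (-Complex.I) • ∑ δ,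
        ((-(adL (Dm G a) (G.γ l.1) α δ) : ℝ) : ℂ) • M.θ δ l.2 (pd φ l x) := by
    have h1 : ∀ (i : Fin 9) (δ : Fin 16), -(adL (Dm G a) (G.γ i) α δ) =
        ∑ j, a i j * G.γ j α δ := by
      intro i δ
      rw [adL_gam G ha, Matrix.sum_apply, ← Finset.sum_neg_distrib]
      refine Finset.sum_congr rfl fun j _ => ?_
      rw [Matrix.smul_apply, smul_eq_mul, ha j i]
      ring
    simp only [h1, Fintype.sum_prod_type, map_sum, map_smul, dco_apply, Complex.ofReal_sum,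
      Complex.ofReal_mul, Finset.sum_smul, Finset.smul_sum]
    -- `Σ_j Σ_A Σ_i Σ_δ = Σ_i Σ_A Σ_δ Σ_j`
    calc ∑ j : Fin 9, ∑ A : Fin (N ^ 2 - 1), ∑ i : Fin 9, ∑ δ : Fin 16,
          (-Complex.I) • ((a i j : ℝ) : ℂ) • (G.γ j α δ : ℂ) • M.θ δ A (pd φ (i, A) x)
        = ∑ j : Fin 9, ∑ i : Fin 9, ∑ A : Fin (N ^ 2 - 1), ∑ δ : Fin 16,
          (-Complex.I) • ((a i j : ℝ) : ℂ) • (G.γ j α δ : ℂ) • M.θ δ A (pd φ (i, A) x) := by
          refine Finset.sum_congr rfl fun j _ => ?_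
          rw [Finset.sum_comm]
      _ = ∑ i : Fin 9, ∑ A : Fin (N ^ 2 - 1), ∑ j : Fin 9, ∑ δ : Fin 16,
          (-Complex.I) • ((a i j : ℝ) : ℂ) • (G.γ j α δ : ℂ) • M.θ δ A (pd φ (i, A) x) := by
          rw [Finset.sum_comm]
          refine Finset.sum_congr rfl fun i _ => ?_
          rw [Finset.sum_comm]
      _ = _ := by
          refine Finset.sum_congr rfl fun i _ => Finset.sum_congr rfl fun A _ => ?_
          rw [Finset.sum_comm]
          refine Finset.sum_congr rfl fun δ _ => Finset.sum_congr rfl fun j _ => ?_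
          rw [smul_smul ((a i j : ℝ) : ℂ)]
  -- the right hand side
  have c7 : (-2 : ℂ) • ∑ β, ((Dm G a α β : ℝ) : ℂ) • dcharge b M G g m β φ x =
      (∑ l : Fin 9 × Fin (N ^ 2 - 1), (-Complex.I) • ∑ δ,
        ((-2 * (Dm G a * G.γ l.1) α δ : ℝ) : ℂ) • M.θ δ l.2 (pd φ l x)) +
      vco M (fun δ A => -2 * ∑ β, Dm G a α β * wpot b G g m β δ A x) (φ x) := by
    simp only [Brid837.dcharge_eq, chargeW_pd, smul_add, Finset.sum_add_distrib]
    congr 1
    · simp only [Finset.smul_sum]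
      rw [Finset.sum_comm]
      refine Finset.sum_congr rfl fun l _ => ?_
      simp only [dco_apply, Finset.smul_sum]
      rw [Finset.sum_comm]
      refine Finset.sum_congr rfl fun δ _ => ?_
      rw [Matrix.mul_apply, Finset.mul_sum, Complex.ofReal_sum, Finset.sum_smul, Finset.smul_sum]
      refine Finset.sum_congr rfl fun β _ => ?_
      rw [smul_smul, smul_smul, smul_smul, smul_smul]
      congr 1
      push_cast
      ring
    · simp only [vco_apply, Finset.smul_sum]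
      rw [Finset.sum_comm]
      refine Finset.sum_congr rfl fun A _ => ?_
      rw [Finset.sum_comm]
      refine Finset.sum_congr rfl fun δ _ => ?_
      rw [Finset.mul_sum, Complex.ofReal_sum, Finset.sum_smul]
      refine Finset.sum_congr rfl fun β _ => ?_
      rw [smul_smul, smul_smul]
      congr 1
      push_cast
      ring
  -- assembly of the kinetic part
  have c8 : (∑ l : Fin 9 × Fin (N ^ 2 - 1), (-Complex.I) • ∑ δ,
        ((-2 * (G.γ l.1 * Dm G a) α δ : ℝ) : ℂ) • M.θ δ l.2 (pd φ l x)) -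
      (∑ l : Fin 9 × Fin (N ^ 2 - 1), (-Complex.I) • ∑ δ,
        ((-(adL (Dm G a) (G.γ l.1) α δ) : ℝ) : ℂ) • M.θ δ l.2 (pd φ l x)) =
      ∑ l : Fin 9 × Fin (N ^ 2 - 1), (-Complex.I) • ∑ δ,
        ((-2 * (Dm G a * G.γ l.1) α δ : ℝ) : ℂ) • M.θ δ l.2 (pd φ l x) := by
    rw [← Finset.sum_sub_distrib]
    refine Finset.sum_congr rfl fun l _ => ?_
    rw [← smul_sub, ← Finset.sum_sub_distrib]
    congr 1
    refine Finset.sum_congr rfl fun δ _ => ?_
    rw [← sub_smul, ← Complex.ofReal_sub]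
    congr 2
    rw [adL_apply, Matrix.smul_apply, Matrix.sub_apply, smul_eq_mul]
    ring
  -- assembly of the potential part
  have c9 : vco M (fun γ A => adL (Dm G a) (Wm b G g m A x) α γ) (φ x) +
      vco M (fun δ A => -2 * ∑ β, wpot b G g m α β A x * Dm G a β δ) (φ x) =
      vco M (fun δ A => -2 * ∑ β, Dm G a α β * wpot b G g m β δ A x) (φ x) := by
    simp only [vco_apply, ← Finset.sum_add_distrib, ← add_smul, ← Complex.ofReal_add]
    refine Finset.sum_congr rfl fun A _ => Finset.sum_congr rfl fun δ _ => ?_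
    congr 2
    rw [adL_apply, Matrix.smul_apply, Matrix.sub_apply, smul_eq_mul, Matrix.mul_apply,
      Matrix.mul_apply]
    simp only [Wm_apply]
    ring
  rw [c7, ← c8, ← c9, ← c5, ← c6, ← c4, e1, e2, c1, c2, c3]
  abel

/-! ### 5. The coordinate planes -/

theorem anti_rot (j k : Fin 9) (i l : Fin 9) : rot j k i l = -rot j k l i :=
  SJop186.anti_of (rot_transpose j k) i l

theorem Dm_rot (G : GammaNine) {j k : Fin 9} (h : j ≠ k) :
    Dm G (rot j k) = (1 / 4 : ℝ) • (G.γ j * G.γ k) := by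
  have h1 : ∀ i l : Fin 9, rot j k l i • (G.γ i * G.γ l) =
      (if i = j then (if l = k then G.γ i * G.γ l else 0) else 0) -
        (if i = k then (if l = j then G.γ i * G.γ l else 0) else 0) := by
    intro i l
    have h2 : rot j k l i = (if i = j then (if l = k then 1 else 0) else 0) -
        (if i = k then (if l = j then 1 else 0) else 0) := by
      simp only [rot, Matrix.sub_apply, Matrix.single_apply]
      have e1 : (k = l ∧ j = i) ↔ (i = j ∧ l = k) :=
        ⟨fun h => ⟨h.2.symm, h.1.symm⟩, fun h => ⟨h.2.symm, h.1.symm⟩⟩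
      have e2 : (j = l ∧ k = i) ↔ (i = k ∧ l = j) :=
        ⟨fun h => ⟨h.2.symm, h.1.symm⟩, fun h => ⟨h.2.symm, h.1.symm⟩⟩
      simp only [e1, e2, ite_and]
    rw [h2, sub_smul]
    congr 1
    · split_ifs <;> simp
    · split_ifs <;> simp
  unfold Dm
  simp only [h1, Finset.sum_sub_distrib]
  have s1 : (∑ i : Fin 9, ∑ l : Fin 9, if i = j then (if l = k then G.γ i * G.γ l else 0) else 0)
      = G.γ j * G.γ k := by
    rw [Finset.sum_eq_single j]
    · rw [Finset.sum_eq_single k]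
      · simp
      · intro l _ hl; simp [hl]
      · intro h; exact absurd (Finset.mem_univ _) h
    · intro i _ hi; simp [hi]
    · intro h; exact absurd (Finset.mem_univ _) h
  have s2 : (∑ i : Fin 9, ∑ l : Fin 9, if i = k then (if l = j then G.γ i * G.γ l else 0) else 0)
      = G.γ k * G.γ j := by
    rw [Finset.sum_eq_single k]
    · rw [Finset.sum_eq_single j]
      · simp
      · intro l _ hl; simp [hl]
      · intro h; exact absurd (Finset.mem_univ _) h
    · intro i _ hi; simp [hi]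
    · intro h; exact absurd (Finset.mem_univ _) h
  rw [s1, s2, γ_ac G (Ne.symm h)]
  module

theorem mem_pairs {p : Fin 9 × Fin 9} (hp : p ∈ pairs) :
    p.1 ≠ p.2 ∧ (p.1.val < 3 ↔ p.2.val < 3) := by
  have h := (Finset.mem_filter.1 hp).2
  exact ⟨h.1.ne, h.2⟩

theorem Dm_pair (G : GammaNine) {p : Fin 9 × Fin 9} (hp : p ∈ pairs) :
    Dm G (rot p.1 p.2) = (1 / 4 : ℝ) • gg G p := Dm_rot G (mem_pairs hp).1

theorem blockC_rot (G : GammaNine) {p : Fin 9 × Fin 9} (hp : p ∈ pairs) :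
    BlockC G (rot p.1 p.2) := by
  refine ⟨fun i j => ?_, ?_⟩
  · obtain ⟨h1, h2⟩ := mem_pairs hp
    have hcc : cc p.1 = cc p.2 := by
      unfold cc
      by_cases h3 : p.1.val < 3
      · rw [if_pos h3, if_pos (h2.1 h3)]
      · rw [if_neg h3, if_neg fun h4 => h3 (h2.2 h4)]
    simp only [rot, Matrix.sub_apply, Matrix.single_apply]
    have e1 : (cc i - cc j) * (if p.2 = i ∧ p.1 = j then (1 : ℝ) else 0) = 0 := by
      split_ifs with h
      · rw [← h.1, ← h.2, hcc]; ring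
      · ring
    have e2 : (cc i - cc j) * (if p.1 = i ∧ p.2 = j then (1 : ℝ) else 0) = 0 := by
      split_ifs with h
      · rw [← h.1, ← h.2, hcc]; ring
      · ring
    linarith
  · rw [Dm_pair G hp, smul_mul_assoc, mul_smul_comm, gg_comm_Gam G hp]

/-- **`[J_{jk}, Q_α] = -½ Σ_β (γ^j γ^k)_{αβ} Q_β`** for `j ≠ k` in one block -/
theorem Jg_rot_dcharge (b : ColorBasis N) (M : FermionRep N F) (G : GammaNine) (g m : ℝ)
    {p : Fin 9 × Fin 9} (hp : p ∈ pairs) {φ : Cfg N → F} (hφ : ContDiff ℝ 2 φ) (α : Fin 16)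
    (x : Cfg N) :
    Jg M G (rot p.1 p.2) (dcharge b M G g m α φ) x -
        dcharge b M G g m α (Jg M G (rot p.1 p.2) φ) x =
      (-(1 / 2 : ℂ)) • ∑ β, ((gg G p α β : ℝ) : ℂ) • dcharge b M G g m β φ x := by
  rw [Jg_dcharge b M G g m (anti_rot _ _) (Or.inr (blockC_rot G hp)) hφ α x, Dm_pair G hp,
    Finset.smul_sum, Finset.smul_sum]
  refine Finset.sum_congr rfl fun β _ => ?_
  rw [smul_smul, smul_smul, Matrix.smul_apply, smul_eq_mul]
  congr 1
  push_cast
  ring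

/-- `[J_{jk}, Q_α] = -½ Σ_β (γ^j γ^k)_{αβ} Q_β` at mass zero, for all `j ≠ k` -/
theorem Jg_rot_dcharge_zero (b : ColorBasis N) (M : FermionRep N F) (G : GammaNine) (g : ℝ)
    {j k : Fin 9} (hjk : j ≠ k) {φ : Cfg N → F} (hφ : ContDiff ℝ 2 φ) (α : Fin 16)
    (x : Cfg N) :
    Jg M G (rot j k) (dcharge b M G g 0 α φ) x - dcharge b M G g 0 α (Jg M G (rot j k) φ) x =
      (-(1 / 2 : ℂ)) • ∑ β, (((G.γ j * G.γ k) α β : ℝ) : ℂ) • dcharge b M G g 0 β φ x := by
  rw [Jg_dcharge b M G g 0 (anti_rot _ _) (Or.inl rfl) hφ α x, Dm_rot G hjk,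
    Finset.smul_sum, Finset.smul_sum]
  refine Finset.sum_congr rfl fun β _ => ?_
  rw [smul_smul, smul_smul, Matrix.smul_apply, smul_eq_mul]
  congr 1
  push_cast
  ring

/-! ### 6. The core -/

section core

variable {b : ColorBasis N} {M : FermionRep N F} {R : GaugeAction b M}

theorem vf_act (b : ColorBasis N) (h : Matrix.specialUnitaryGroup (Fin N) ℂ)
    (a : Matrix (Fin 9) (Fin 9) ℝ) (x : Cfg N) : vf a (b.act h x) = b.act h (vf a x) := by
  ext ⟨i, A⟩
  rw [vf_apply, Cov837.act_apply]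
  simp only [Cov837.act_apply, vf_apply, Finset.mul_sum]
  rw [Finset.sum_comm]
  refine Finset.sum_congr rfl fun B _ => Finset.sum_congr rfl fun j _ => ?_
  ring

theorem bil_rho_inv (R : GaugeAction b M) (D : Matrix (Fin 16) (Fin 16) ℝ)
    (h : Matrix.specialUnitaryGroup (Fin N) ℂ) (v : F) :
    bil M D (R.ρ h⁻¹ v) = R.ρ h⁻¹ (bil M D v) := by
  rw [bil_apply, bil_apply, map_sum]
  have e : ∀ A α β, M.θ α A (M.θ β A (R.ρ h⁻¹ v)) = R.ρ h⁻¹ (∑ C, ∑ B,
      ((b.adjMat h C A : ℂ) * (b.adjMat h B A : ℂ)) • M.θ α B (M.θ β C v)) := by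
    intro A α β
    rw [Cov837.theta_rho_inv, Cov837.theta_rho_inv]
    congr 1
    simp only [map_sum, map_smul, Finset.smul_sum, smul_smul]
    rw [Finset.sum_comm]
    refine Finset.sum_congr rfl fun C _ => Finset.sum_congr rfl fun B _ => ?_
    rw [mul_comm]
  have e2 : ∀ α β, ∑ A, ((D α β : ℝ) : ℂ) • M.θ α A (M.θ β A (R.ρ h⁻¹ v)) =
      ∑ A, R.ρ h⁻¹ (((D α β : ℝ) : ℂ) • M.θ α A (M.θ β A v)) := by
    intro α β
    have h1 := Cov837.sum_adj_adj (b := b) h fun C B => M.θ α B (M.θ β C v)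
    simp only [e]
    rw [← Finset.smul_sum, ← map_sum, ← map_sum, ← Finset.smul_sum, ← h1, map_smul]
  calc ∑ A, ∑ α, ∑ β, ((D α β : ℝ) : ℂ) • M.θ α A (M.θ β A (R.ρ h⁻¹ v))
      = ∑ α, ∑ β, ∑ A, ((D α β : ℝ) : ℂ) • M.θ α A (M.θ β A (R.ρ h⁻¹ v)) := by
        rw [Finset.sum_comm]
        refine Finset.sum_congr rfl fun α _ => ?_
        rw [Finset.sum_comm]
    _ = ∑ α, ∑ β, ∑ A, R.ρ h⁻¹ (((D α β : ℝ) : ℂ) • M.θ α A (M.θ β A v)) := by
        exact Finset.sum_congr rfl fun α _ => Finset.sum_congr rfl fun β _ => e2 α β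
    _ = ∑ A, R.ρ h⁻¹ (∑ α, ∑ β, ((D α β : ℝ) : ℂ) • M.θ α A (M.θ β A v)) := by
        simp only [map_sum]
        conv_rhs => rw [Finset.sum_comm]
        refine Finset.sum_congr rfl fun α _ => ?_
        conv_rhs => rw [Finset.sum_comm]

theorem Sp_rho_inv (R : GaugeAction b M) (G : GammaNine) (a : Matrix (Fin 9) (Fin 9) ℝ)
    (h : Matrix.specialUnitaryGroup (Fin N) ℂ) (v : F) :
    Sp M G a (R.ρ h⁻¹ v) = R.ρ h⁻¹ (Sp M G a v) := by
  rw [Sp_eq]
  exact bil_rho_inv R _ h v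

/-- the spin generators commute with the gauge group -/
theorem Sp_rho (R : GaugeAction b M) (G : GammaNine) (a : Matrix (Fin 9) (Fin 9) ℝ)
    (h : Matrix.specialUnitaryGroup (Fin N) ℂ) (v : F) :
    Sp M G a (R.ρ h v) = R.ρ h (Sp M G a v) := by
  have := Sp_rho_inv R G a h⁻¹ v
  rwa [inv_inv] at this

theorem Jg_tg (R : GaugeAction b M) (G : GammaNine) (a : Matrix (Fin 9) (Fin 9) ℝ)
    (h : Matrix.specialUnitaryGroup (Fin N) ℂ) {φ : Cfg N → F} (hφ : Differentiable ℝ φ) :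
    Jg M G a (Cov837.tg R h φ) = Cov837.tg R h (Jg M G a φ) := by
  funext x
  unfold Jg
  rw [Cov837.fderiv_tg R h (hφ _), ← vf_act]
  show _ + Sp M G a (R.ρ h⁻¹ (φ (b.act h x))) = R.ρ h⁻¹ (_ + _)
  rw [Sp_rho_inv, map_add]

theorem cv_c2 {φ : Cfg N → F} (h : IsCoreVec b R φ) : ContDiff ℝ 2 φ :=
  h.1.of_le (WithTop.coe_le_coe.2 le_top)

/-- `J_a` maps core vectors to core vectors -/
theorem core_Jg (G : GammaNine) (a : Matrix (Fin 9) (Fin 9) ℝ) {φ : Cfg N → F}
    (hφ : IsCoreVec b R φ) : IsCoreVec b R (Jg M G a φ) := by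
  rw [Cov837.isCoreVec_iff] at hφ ⊢
  refine ⟨SJop186.contDiff_Jop a (Sp M G a) hφ.1, SJop186.hasCompactSupport_Jop a (Sp M G a)
    hφ.2.1, fun h => ?_⟩
  rw [← Jg_tg R G a h (hφ.1.differentiable (by simp)), hφ.2.2 h]

/-- the rotations on the core -/
def JcL (R : GaugeAction b M) (G : GammaNine) (a : Matrix (Fin 9) (Fin 9) ℝ) :
    core b R →ₗ[ℂ] core b R where
  toFun φ := ⟨Jg M G a φ.1, core_Jg G a φ.2⟩
  map_add' φ ψ := by
    apply Subtype.ext
    funext x
    show Jg M G a (φ.1 + ψ.1) x = Jg M G a φ.1 x + Jg M G a ψ.1 x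
    unfold Jg
    rw [fderiv_add (cv_diff φ.2 x) (cv_diff ψ.2 x)]
    simp only [ContinuousLinearMap.add_apply, Pi.add_apply, map_add]
    abel
  map_smul' c φ := by
    apply Subtype.ext
    funext x
    show Jg M G a (c • φ.1) x = c • Jg M G a φ.1 x
    unfold Jg
    rw [fderiv_const_smul (cv_diff φ.2 x) c]
    simp only [ContinuousLinearMap.smul_apply, Pi.smul_apply, map_smul, smul_add]

theorem JcL_coe (R : GaugeAction b M) (G : GammaNine) (a : Matrix (Fin 9) (Fin 9) ℝ)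
    (φ : core b R) : (JcL R G a φ : Cfg N → F) = Jg M G a φ.1 := rfl

/-- the charges on the core -/
def Qc (R : GaugeAction b M) (G : GammaNine) (g m : ℝ) (α : Fin 16) :
    core b R →ₗ[ℂ] core b R where
  toFun φ := ⟨dcharge b M G g m α φ.1, Brid837.core_dcharge φ.2⟩
  map_add' φ ψ := Subtype.ext (dcharge_add b M G g m α (cv_diff φ.2) (cv_diff ψ.2))
  map_smul' c φ := Subtype.ext (dcharge_smul b M G g m α c (cv_diff φ.2))

theorem Qc_coe (R : GaugeAction b M) (G : GammaNine) (g m : ℝ) (α : Fin 16) (φ : core b R) :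
    (Qc R G g m α φ : Cfg N → F) = dcharge b M G g m α φ.1 := rfl

/-- the generators of the coordinate planes on the core -/
def Jc (R : GaugeAction b M) (G : GammaNine) (p : Fin 9 × Fin 9) : core b R →ₗ[ℂ] core b R :=
  JcL R G (rot p.1 p.2)

/-- the Hamiltonian on the core: `(1/16) Σ_α Q_α²` -/
def Hc (R : GaugeAction b M) (G : GammaNine) (g m : ℝ) : core b R →ₗ[ℂ] core b R :=
  (1 / 16 : ℂ) • ∑ α, Qc R G g m α ∘ₗ Qc R G g m α

theorem Hc_apply (R : GaugeAction b M) (G : GammaNine) (g m : ℝ) (φ : core b R) :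
    Hc R G g m φ = (1 / 16 : ℂ) • ∑ α, Qc R G g m α (Qc R G g m α φ) := by
  simp [Hc, LinearMap.sum_apply]

/-- symmetry of the charges on the core -/
theorem Qc_symm (G : GammaNine) (g m : ℝ) (α : Fin 16) (φ ψ : core b R) :
    ⟪Dict416.ιC R (Qc R G g m α φ), Dict416.ιC R ψ⟫_ℂ =
      ⟪Dict416.ιC R φ, Dict416.ιC R (Qc R G g m α ψ)⟫_ℂ := by
  rw [Dict416.inner_ιC, Dict416.inner_ιC]
  exact Brid837.dcharge_symm (cv_c1 φ.2) (cv_c1 ψ.2) (Or.inl φ.2.2.1)

/-- skewness of the rotations on the core -/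
theorem JcL_skew (G : GammaNine) {a : Matrix (Fin 9) (Fin 9) ℝ} (ha : ∀ i j, a i j = -a j i)
    (φ ψ : core b R) :
    ⟪Dict416.ιC R (JcL R G a φ), Dict416.ιC R ψ⟫_ℂ =
      -⟪Dict416.ιC R φ, Dict416.ιC R (JcL R G a ψ)⟫_ℂ := by
  rw [Dict416.inner_ιC, Dict416.inner_ιC]
  refine SJop186.Jop_skew ha (fun v w => ?_) φ.2.1 ψ.2.1 φ.2.2.1
  -- the spin part is skew
  rw [Sp_eq, bil_apply, bil_apply]
  simp only [sum_inner, inner_sum, inner_smul_left, inner_smul_right, Complex.conj_ofReal]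
  rw [← Finset.sum_neg_distrib]
  refine Finset.sum_congr rfl fun A _ => ?_
  rw [Finset.sum_comm, ← Finset.sum_neg_distrib]
  refine Finset.sum_congr rfl fun α _ => ?_
  rw [← Finset.sum_neg_distrib]
  refine Finset.sum_congr rfl fun β _ => ?_
  rw [M.selfAdjoint, M.selfAdjoint]
  have := congrFun (congrFun (Dm_transpose G ha) α) β
  rw [Matrix.transpose_apply, Matrix.neg_apply] at this
  rw [this]
  push_cast
  ring

/-- **the literal algebra from the master identity** -/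
theorem susy_of {G : GammaNine} {g m : ℝ} {Hf : (Cfg N → F) → Cfg N → F}
    (hmaster : ∀ α β (φ : Cfg N → F), IsCoreVec b R φ → ∀ x,
      dcharge b M G g m α (dcharge b M G g m β φ) x + dcharge b M G g m β
        (dcharge b M G g m α φ) x = (if α = β then (2 : ℂ) • Hf φ x else 0) +
        ∑ p ∈ pairs, (2 * Complex.I * ((m * cc p.1 * (gg G p * Gam G) α β : ℝ) : ℂ)) •
          Jg M G (rot p.1 p.2) φ x) :
    Susy G m (Dict416.ιC R) (Qc R G g m) (Hc R G g m) (Jc R G) ∧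
      ∀ φ : core b R, (Hc R G g m φ : Cfg N → F) = Hf φ.1 := by
  have hH : ∀ φ : core b R, (Hc R G g m φ : Cfg N → F) = Hf φ.1 := by
    intro φ
    funext x
    have h1 : ∀ α, (2 : ℂ) • dcharge b M G g m α (dcharge b M G g m α φ.1) x =
        (2 : ℂ) • Hf φ.1 x +
        ∑ p ∈ pairs, (2 * Complex.I * ((m * cc p.1 * (gg G p * Gam G) α α : ℝ) : ℂ)) •
          Jg M G (rot p.1 p.2) φ.1 x := by
      intro α
      have := hmaster α α φ.1 φ.2 x
      rw [if_pos rfl, ← two_smul ℂ] at this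
      exact this
    have h2 : (2 : ℂ) • ∑ α, dcharge b M G g m α (dcharge b M G g m α φ.1) x =
        (32 : ℂ) • Hf φ.1 x := by
      rw [Finset.smul_sum]
      simp only [h1, Finset.sum_add_distrib]
      rw [Finset.sum_comm]
      have h3 : ∀ p ∈ pairs, ∑ α, (2 * Complex.I * ((m * cc p.1 * (gg G p * Gam G) α α : ℝ) : ℂ)) •
          Jg M G (rot p.1 p.2) φ.1 x = 0 := by
        intro p hp
        rw [← Finset.sum_smul]
        have h4 : ∑ α, (2 * Complex.I * ((m * cc p.1 * (gg G p * Gam G) α α : ℝ) : ℂ)) = 0 := by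
          have h5 : ∑ α, m * cc p.1 * (gg G p * Gam G) α α = 0 := by
            rw [← Finset.mul_sum]
            have := trace_gg_Gam G hp
            rw [Matrix.trace] at this
            simp only [Matrix.diag_apply] at this
            rw [this, mul_zero]
          rw [← Finset.mul_sum, ← Complex.ofReal_sum, h5]
          simp
        rw [h4, zero_smul]
      rw [Finset.sum_eq_zero h3, add_zero, Finset.sum_const, Finset.card_univ, Fintype.card_fin,
        ← Nat.cast_smul_eq_nsmul ℂ, smul_smul]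
      norm_num
    have h3 : (Hc R G g m φ : Cfg N → F) x =
        (1 / 16 : ℂ) • ∑ α, dcharge b M G g m α (dcharge b M G g m α φ.1) x := by
      rw [Hc_apply]
      simp only [Submodule.coe_smul, Submodule.coe_sum, Pi.smul_apply, Finset.sum_apply]
      rfl
    rw [h3]
    have h4 := congrArg (fun v : F => (1 / 32 : ℂ) • v) h2
    simp only [smul_smul] at h4
    norm_num at h4 ⊢
    exact h4
  refine ⟨⟨fun α φ ψ => Qc_symm G g m α φ ψ, fun α β φ => ?_, fun p hp α φ => ?_⟩, hH⟩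
  · apply Subtype.ext
    funext x
    have h1 := hmaster α β φ.1 φ.2 x
    have h2 : ((Qc R G g m α (Qc R G g m β φ) + Qc R G g m β (Qc R G g m α φ) : core b R) :
        Cfg N → F) x = dcharge b M G g m α (dcharge b M G g m β φ.1) x +
        dcharge b M G g m β (dcharge b M G g m α φ.1) x := rfl
    rw [h2, h1]
    simp only [Submodule.coe_add, Submodule.coe_sum, Submodule.coe_smul, Pi.add_apply,
      Finset.sum_apply, Pi.smul_apply]
    congr 1
    split_ifs
    · rw [Submodule.coe_smul, Pi.smul_apply, hH]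
    · rfl
  · apply Subtype.ext
    funext x
    have h1 := Jg_rot_dcharge b M G g m hp (φ := φ.1) (cv_c2 φ.2) α x
    have h2 : ((Jc R G p (Qc R G g m α φ) - Qc R G g m α (Jc R G p φ) : core b R) :
        Cfg N → F) x = Jg M G (rot p.1 p.2) (dcharge b M G g m α φ.1) x -
        dcharge b M G g m α (Jg M G (rot p.1 p.2) φ.1) x := rfl
    rw [h2, h1]
    simp only [Submodule.coe_sum, Submodule.coe_smul, Finset.sum_apply, Pi.smul_apply]
    rfl

end core

end Crest.Agent.R330.JQ916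

end
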