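import Crest.Agent.R330.Par2_522
import Crest.Agent.R330.JQ_916
import Crest.Agent.R330.Master_288
import Crest.Agent.R330.GapCl_967

/-!
# Row 330 (helper522): all zero states are even (input (10) of `Close_478`)

* `susy` : 916's algebra on the core, unconditional.
* `oddBound` : `(1/6) ‖φ‖² ≤ q_{g,1} φ` for odd core vectors.
* `evenAll : Close478.EvenAll N` (for every `N`, no hypothesis).
-/

set_option autoImplicit false
set_option linter.unusedSectionVars false
set_option maxHeartbeats 400000

open Filter Topology Set MeasureTheory Crest.MathPhysics.MatrixQM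
open scoped InnerProductSpace Matrix ENNReal

noncomputable section

namespace Crest.Agent.R330.Even522

open Crest.Agent.R330.Defs478 Crest.Agent.R330.SInd478 Crest.Agent.R330.Par478
open Crest.Agent.R330.SDefs726 Crest.Agent.R330.JQ916 Crest.Agent.R330.Par522
  Crest.Agent.R330.GapAlg916 Crest.Agent.R330.Dict416 Crest.Agent.R330.GapCl967

variable {N : ℕ} {F : Type} [NormedAddCommGroup F] [InnerProductSpace ℂ F]
  [FiniteDimensional ℂ F] [Nontrivial F] {b : ColorBasis N} {M : FermionRep N F}

/-- The algebra on the core. -/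
theorem susy (R : GaugeAction b M) (G : GammaNine) (g m : ℝ) :
    Susy G m (ιC R) (Qc R G g m) (Hc R G g m) (Jc R G) :=
  (susy_of (Hf := Master288.Ham b M G g m) fun α β _ hφ x =>
    Master288.master R G g m (cv_c2 hφ) hφ.2.2 α β x).1

/-- The bound on odd core vectors. -/
theorem odd_bound (R : GaugeAction b M) (G : GammaNine) (g : ℝ) {m : ℝ} (hm : 0 ≤ m)
    {P : F →ₗ[ℂ] F} (hP : IsParity M G P) {φ : Cfg N → F} (hφ : IsCoreVec b R φ)
    (hodd : ∀ x, P (φ x) = -φ x) : m / 6 * ∫ x, ‖φ x‖ ^ 2 ≤ qf b M G g m φ := by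
  have hq : ((0, 1) : Fin 9 × Fin 9) ∈ planes := by decide
  obtain ⟨h1, h2⟩ := planes_blk hq
  refine odd_bound_lit (R := R) (G := G) hm (Q := Qc R G g m) (fun α φ => rfl) (susy R G g m)
    (V := Uq R G (0, 1)) ?_ ?_ (fun φ => rfl) hP hφ hodd
  · refine TorB149.rot_of_per (TorB149.blk_rot h1 h2) (fun α φ => rfl) (Hc_apply R G g m)
      (fun φ => rfl) (by positivity) fun φ => ?_
    apply Subtype.ext
    rw [TorB149.UC_coe]
    exact U_rot_eight_pi h1 φ.1
  · exact Proj967.hasProj_U (rot_transpose 0 1) (by positivity)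

theorem oddBound (N : ℕ) : OddBound N := by
  intro F _ _ _ _ b M R G g _ P hP φ hφ hodd
  exact odd_bound R G g zero_le_one hP hφ hodd

/-- **All zero states are even**, for every `N`. -/
theorem evenAll (N : ℕ) : Close478.EvenAll N := evenAll_of (oddBound N)

end Crest.Agent.R330.Even522

end
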