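import Crest.Agent.R330.HardyI_968
import Crest.Agent.R330.WSLit_596
import Crest.Agent.R330.Ims_714
import Crest.Agent.R330.WeitzY_726
import Crest.Agent.R330.Close_478

/-!
# Row 330, S9 (helper968): decay and global Hardy inequality, literal form

* `Qd b M G` : the supercharges as first order expressions; `frame_Qd`, `gradB_Qd`, `hi_of`.
* `Sd b R` : the gauge group as symmetry data; `core_iff`, `ker_iff`.
* `decay_all : HIAll N → DecayAll N`, `hardy_all : HIAll N → HardyAll N`.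
-/

set_option autoImplicit false
set_option linter.unusedSectionVars false
set_option linter.unusedVariables false

open MeasureTheory Set Filter Topology ENNReal Crest.MathPhysics.MatrixQM
open scoped ContDiff InnerProductSpace

noncomputable section

namespace Crest.Agent.R330.HardyL968

open Moll596 WS596 WSLit596 Decay968 Defs478 IBP837 Cov837 Brid837

variable {N : ℕ} {F : Type*} [NormedAddCommGroup F] [InnerProductSpace ℂ F]
  [FiniteDimensional ℂ F] {b : ColorBasis N} {M : FermionRep N F}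

/-! ### The charges -/

/-- The supercharges as first order expressions. -/
def Qd (b : ColorBasis N) (M : FermionRep N F) (G : GammaNine) (α : Fin 16) : FOp (Cfg N) F :=
  chF M G (W := wpot b G 1 0) (fun _ β A => wpot_continuous β A) α

theorem Qd_op (G : GammaNine) (α : Fin 16) (φ : Cfg N → F) :
    (Qd b M G α).op φ = dcharge b M G 1 0 α φ := by
  rw [Qd, chF_op, dcharge_eq]

theorem Qd_adj (G : GammaNine) (α : Fin 16) : Adj (Qd b M G α) (Qd b M G α) :=
  chF_adj (fun _ β A => wpot_continuous β A) α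

/-- The symbol. -/
theorem Qd_A (G : GammaNine) (α : Fin 16) (ℓ : Cfg N →L[ℝ] ℝ) (v : F) :
    (Qd b M G α).A (ℓ.smulRight v) =
      Ims714.kin G M α ((InnerProductSpace.toDual ℝ (Cfg N)).symm ℓ) v := by
  have h1 : (Qd b M G α).A (ℓ.smulRight v) = ∑ k, (-Complex.I) • dco M G α k
      ((ℓ.smulRight v) (EuclideanSpace.single k (1 : ℝ))) :=
    diracF_A (dco M G α) (fun x => vco M (fun β A => wpot b G 1 0 α β A x))
      (vco_cont M (fun _ β A => wpot_continuous β A) α) _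
  have h2 : ∀ k, ((InnerProductSpace.toDual ℝ (Cfg N)).symm ℓ) k =
      ℓ (EuclideanSpace.single k (1 : ℝ)) := fun k => by
    have h3 := InnerProductSpace.toDual_symm_apply (𝕜 := ℝ) (x := EuclideanSpace.single k (1 : ℝ))
      (y := ℓ)
    rw [← h3, EuclideanSpace.inner_single_right]
    simp
  rw [h1, Ims714.kin_apply, Fintype.sum_prod_type]
  refine Finset.sum_congr rfl fun i _ => Finset.sum_congr rfl fun A _ => ?_
  rw [dco_apply, Finset.smul_sum, h2]
  refine Finset.sum_congr rfl fun β _ => ?_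
  rw [ContinuousLinearMap.smulRight_apply, ← Complex.coe_smul, map_smul, smul_smul]

theorem frame_Qd (b : ColorBasis N) (M : FermionRep N F) (G : GammaNine) :
    Frame (Qd b M G) where
  adj := Qd_adj G
  sym ℓ v := by
    simp only [Qd_A, Ims714.norm_kin_sq, LinearIsometryEquiv.norm_map, Finset.sum_const,
      Finset.card_univ, Fintype.card_fin]
    rw [nsmul_eq_mul]
    push_cast
    ring

/-! ### Symmetries -/

/-- The gauge group as symmetry data. -/
def Sd (b : ColorBasis N) {M : FermionRep N F} (R : GaugeAction b M) :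
    Set ((Cfg N ≃ₗᵢ[ℝ] Cfg N) × (F →L[ℝ] F)) :=
  Set.range fun g => (actL b g, (LinearMap.toContinuousLinearMap (R.ρ g)).restrictScalars ℝ)

theorem core_iff {R : GaugeAction b M} {φ : Cfg N → F} :
    Core (Sd b R) φ ↔ IsCoreVec b R φ := by
  constructor
  · intro h
    exact ⟨h.smooth, h.supp, fun g x => h.eqv _ ⟨g, rfl⟩ x⟩
  · intro h
    refine ⟨h.1, h.2.1, ?_⟩
    rintro p ⟨g, rfl⟩ x
    exact h.2.2 g x

theorem ker_iff {R : GaugeAction b M} {G : GammaNine} {ψ : Cfg N → F} :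
    Ker (Qd b M G) (Sd b R) ψ ↔ ψ ∈ zset b M R G 1 0 := by
  constructor
  · rintro ⟨h1, φ, h2, h3, h4⟩
    refine ⟨h1, φ, fun n => core_iff.1 (h2 n), h3, fun α => ?_⟩
    have := h4 α
    simpa only [Qd_op] using this
  · rintro ⟨h1, φ, h2, h3, h4⟩
    refine ⟨h1, φ, fun n => core_iff.2 (h2 n), h3, fun α => ?_⟩
    simp only [Qd_op]
    exact h4 α

/-! ### The form -/

theorem ofReal_integral_sq {f : Cfg N → F} (hf : MemLp f 2 volume) :
    ENNReal.ofReal (∫ x, ‖f x‖ ^ 2) = ∫⁻ x, ‖f x‖ₑ ^ 2 := by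
  rw [toReal_lintegral_sq hf.1, ENNReal.ofReal_toReal (n2_ne_top hf)]

theorem memLp_dcharge {R : GaugeAction b M} (G : GammaNine) {φ : Cfg N → F}
    (h : IsCoreVec b R φ) (α : Fin 16) : MemLp (dcharge b M G 1 0 α φ) 2 volume := by
  rw [← Qd_op]
  exact ((Qd b M G α).op_continuous h.1).memLp_of_hasCompactSupport
    ((Qd b M G α).op_supp h.2.1)

theorem qe_eq {R : GaugeAction b M} (G : GammaNine) {φ : Cfg N → F} (h : IsCoreVec b R φ) :
    qe (Qd b M G) φ = ENNReal.ofReal (qf b M G 1 0 φ) := by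
  unfold qe qf
  simp only [Qd_op]
  rw [ENNReal.ofReal_mul (by norm_num), ENNReal.ofReal_sum_of_nonneg fun α _ =>
    integral_nonneg fun x => sq_nonneg _]
  congr 1
  · rw [one_div, one_div, ENNReal.ofReal_inv_of_pos (by norm_num), ENNReal.ofReal_ofNat]
  · exact Finset.sum_congr rfl fun α _ => (ofReal_integral_sq (memLp_dcharge G h α)).symm

/-- The exterior Hardy inequality. -/
theorem hi_of {R : GaugeAction b M} {G : GammaNine} {k : ℝ} (hk : 0 ≤ k)
    (h : HIAnn245.HI b M R G k) :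
    ∃ ρ : ℝ, 0 < ρ ∧ Decay968.HI (Qd b M G) (Sd b R) k ρ := by
  obtain ⟨ρ, hρ, hH⟩ := h
  refine ⟨ρ, hρ, fun φ hφ h0 => ?_⟩
  have hc := core_iff.1 hφ
  have h1 := hH φ hc h0
  rw [qe_eq G hc]
  refine le_trans (le_of_eq ?_) (ENNReal.ofReal_le_ofReal h1)
  rw [ENNReal.ofReal_mul hk]
  congr 1
  have hpt : ∀ x, ‖φ x‖ₑ ^ 2 / ‖x‖ₑ ^ 2 = ENNReal.ofReal (‖φ x‖ ^ 2 / ‖x‖ ^ 2) := fun x => by
    by_cases hx : ‖x‖ < ρ
    · rw [h0 x hx]
      simp
    · have hx0 : 0 < ‖x‖ := hρ.trans_le (not_lt.1 hx)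
      rw [ENNReal.ofReal_div_of_pos (by positivity), enorm_sq_eq', enorm_sq_eq']
  have hI : Integrable fun x => ‖φ x‖ ^ 2 / ‖x‖ ^ 2 := by
    have h2 : Integrable fun x => ‖φ x‖ ^ 2 := hφ.memLp.integrable_norm_pow (by norm_num)
    refine (h2.const_mul (1 / ρ ^ 2)).mono' ?_ (Eventually.of_forall fun x => ?_)
    · exact (hc.1.continuous.norm.pow 2).aestronglyMeasurable.div₀
        (continuous_norm.pow 2).aestronglyMeasurable
    · rw [Real.norm_of_nonneg (by positivity)]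
      by_cases hx : ‖x‖ < ρ
      · rw [h0 x hx]
        simp
      · have hx' : ρ ≤ ‖x‖ := not_lt.1 hx
        have hx0 : 0 < ‖x‖ := hρ.trans_le hx'
        rw [div_eq_mul_one_div, mul_comm]
        gcongr
  simp only [hpt]
  rw [← ofReal_integral_eq_lintegral_ofReal hI (Eventually.of_forall fun x => by positivity)]

/-- Control of the gradient. -/
theorem gradB_Qd (b : ColorBasis N) (M : FermionRep N F) (R : GaugeAction b M) (G : GammaNine) :
    GradB (Qd b M G) (Sd b R) := by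
  obtain ⟨C, hC, hY⟩ := Weitz726.Yop_bound b M G
  refine ⟨2 + 2 * C, by positivity, fun φ hφ => ?_⟩
  have hc := core_iff.1 hφ
  have hen := Weitz726.energy b M G 1 0 (hc.1.of_le (by norm_cast)) hc.2.1
  have hqf : qf b M G 1 0 φ =
      (1 / 16 : ℝ) * ∑ α, ∫ x, ‖chargeW M G (wpot b G 1 0) α φ x‖ ^ 2 := by
    unfold qf
    simp only [dcharge_eq]
  rw [← hqf] at hen
  have hx : Integrable fun x => ‖x‖ * ‖φ x‖ ^ 2 :=
    (continuous_norm.mul (hc.1.continuous.norm.pow 2)).integrable_of_hasCompactSupport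
      (hc.2.1.mono' fun x hx => subset_tsupport _ fun h0 => hx (by simp [h0]))
  have hx1 : Integrable fun x => (1 + ‖x‖) * ‖φ x‖ ^ 2 :=
    ((continuous_const.add continuous_norm).mul
      (hc.1.continuous.norm.pow 2)).integrable_of_hasCompactSupport
      (hc.2.1.mono' fun x hx => subset_tsupport _ fun h0 => hx (by simp [h0]))
  have hW0 : 0 ≤ ∫ x, Weitz726.Wsq (wpot b G 1 0) x / 32 * ‖φ x‖ ^ 2 := by
    refine integral_nonneg fun x => ?_
    have h1 : 0 ≤ Weitz726.Wsq (wpot b G 1 0) x := by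
      unfold Weitz726.Wsq
      refine Finset.sum_nonneg fun α _ => ?_
      show 0 ≤ ∑ β, ∑ A, wpot b G 1 0 α β A x * wpot b G 1 0 α β A x
      exact Finset.sum_nonneg fun β _ => Finset.sum_nonneg fun A _ => mul_self_nonneg _
    have h2 : 0 ≤ ‖φ x‖ ^ 2 := sq_nonneg _
    positivity
  have hY1 : ‖∫ x, (⟪φ x, (((1 : ℝ) : ℂ) • Weitz726.Yop b M G x +
      ((0 / 8 : ℝ) : ℂ) • Weitz726.IG M G) (φ x)⟫_ℂ).re‖ ≤ ∫ x, C * (‖x‖ * ‖φ x‖ ^ 2) := by
    refine norm_integral_le_of_norm_le (hx.const_mul C) (Eventually.of_forall fun x => ?_)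
    rw [Real.norm_eq_abs]
    refine (Complex.abs_re_le_norm _).trans ((norm_inner_le_norm _ _).trans ?_)
    have h3 : (((1 : ℝ) : ℂ) • Weitz726.Yop b M G x +
      ((0 / 8 : ℝ) : ℂ) • Weitz726.IG M G) (φ x) = Weitz726.Yop b M G x (φ x) := by
      simp
    rw [h3]
    calc ‖φ x‖ * ‖Weitz726.Yop b M G x (φ x)‖ ≤ ‖φ x‖ * (C * ‖x‖ * ‖φ x‖) := by
          gcongr
          exact hY x _
      _ = C * (‖x‖ * ‖φ x‖ ^ 2) := by ring
  rw [integral_const_mul, Real.norm_eq_abs] at hY1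
  have hY2 := (abs_le.1 hY1).1
  have hqf0 : 0 ≤ qf b M G 1 0 φ := SInd478.qf_nonneg b M G 1 0 φ
  have hxx : ∫ x, ‖x‖ * ‖φ x‖ ^ 2 ≤ ∫ x, (1 + ‖x‖) * ‖φ x‖ ^ 2 := by
    refine integral_mono hx hx1 fun x => ?_
    simp only
    nlinarith [sq_nonneg ‖φ x‖]
  have hx0 : 0 ≤ ∫ x, (1 + ‖x‖) * ‖φ x‖ ^ 2 := integral_nonneg fun x => by positivity
  have hmain : ∑ k : Fin 9 × Fin (N ^ 2 - 1),
      ∫ x, ‖fderiv ℝ φ x (EuclideanSpace.single k 1)‖ ^ 2 ≤
        (2 + 2 * C) * (qf b M G 1 0 φ + ∫ x, (1 + ‖x‖) * ‖φ x‖ ^ 2) := by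
    have h4 : C * ∫ x, ‖x‖ * ‖φ x‖ ^ 2 ≤ C * ∫ x, (1 + ‖x‖) * ‖φ x‖ ^ 2 :=
      mul_le_mul_of_nonneg_left hxx hC
    nlinarith [mul_nonneg hC hqf0, mul_nonneg hC hx0]
  -- extended real valued form
  have hder : ∀ k, MemLp (fun x => fderiv ℝ φ x (EuclideanSpace.single k 1)) 2 volume := fun k =>
    ((hc.1.continuous_fderiv (by simp)).clm_apply continuous_const).memLp_of_hasCompactSupport
      ((hc.2.1.fderiv ℝ).comp_left (g := fun L : Cfg N →L[ℝ] F =>
        L (EuclideanSpace.single k 1)) rfl)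
  have e1 : ∫⁻ x, ∑ k, ‖fderiv ℝ φ x (EuclideanSpace.single k 1)‖ₑ ^ 2 =
      ENNReal.ofReal (∑ k, ∫ x, ‖fderiv ℝ φ x (EuclideanSpace.single k 1)‖ ^ 2) := by
    rw [lintegral_finsetSum' _ fun k _ => aem_sq (hder k).1,
      ENNReal.ofReal_sum_of_nonneg fun k _ => integral_nonneg fun x => sq_nonneg _]
    exact Finset.sum_congr rfl fun k _ => (ofReal_integral_sq (hder k)).symm
  have e2 : ∫⁻ x, ENNReal.ofReal (1 + ‖x‖) * ‖φ x‖ₑ ^ 2 =
      ENNReal.ofReal (∫ x, (1 + ‖x‖) * ‖φ x‖ ^ 2) := by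
    rw [ofReal_integral_eq_lintegral_ofReal hx1 (Eventually.of_forall fun x => by positivity)]
    refine lintegral_congr fun x => ?_
    rw [enorm_sq_eq', ENNReal.ofReal_mul (by positivity)]
  rw [e1, e2, qe_eq G hc, ← ENNReal.ofReal_add hqf0 hx0, ← ENNReal.ofReal_mul (by positivity)]
  exact ENNReal.ofReal_le_ofReal hmain

/-! ### The fields -/

/-- **Decay of the zero states.** -/
theorem integrable_moment {R : GaugeAction b M} {G : GammaNine}
    (hHI : ∀ κ : ℝ, κ < 49 / 8 → HIAnn245.HI b M R G κ) {ψ : Cfg N → F}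
    (hψ : ψ ∈ zset b M R G 1 0) {s : ℝ} (hs : 0 ≤ s) (hs2 : s < 5 / 2) :
    Integrable fun x => ‖x‖ ^ (2 * s) * ‖ψ x‖ ^ 2 := by
  have := complete_F F
  obtain ⟨k, hk1, hk2⟩ : ∃ k, (s + 1) ^ 2 / 2 < k ∧ k < 49 / 8 :=
    exists_between (by nlinarith)
  have hk0 : 0 ≤ k := (by positivity : 0 ≤ (s + 1) ^ 2 / 2).trans hk1.le
  obtain ⟨ρ, hρ, hH⟩ := hi_of hk0 (hHI k hk2)
  have hK : Ker (Qd b M G) (Sd b R) ψ := ker_iff.2 hψ
  have hm := (hK.sol (Qd_adj G)).moment (frame_Qd b M G) hρ hH hs hk1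
  have hmeas : AEStronglyMeasurable (fun x : Cfg N => (1 + ‖x‖ ^ 2) ^ s * ‖ψ x‖ ^ 2) volume := by
    have hc : Continuous fun x : Cfg N => (1 + ‖x‖ ^ 2) ^ s := by
      refine Continuous.rpow_const (by fun_prop) fun x => Or.inl ?_
      positivity
    exact hc.aestronglyMeasurable.mul (hK.memLp.1.norm.pow 2)
  have hI : Integrable fun x : Cfg N => (1 + ‖x‖ ^ 2) ^ s * ‖ψ x‖ ^ 2 := by
    refine ⟨hmeas, ?_⟩
    rw [hasFiniteIntegral_iff_ofReal (Eventually.of_forall fun x => by positivity)]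
    refine lt_of_le_of_lt (le_of_eq (lintegral_congr fun x => ?_)) (lt_top_iff_ne_top.2 hm)
    rw [ENNReal.ofReal_mul (by positivity), enorm_sq_eq']
  refine hI.mono' ?_ (Eventually.of_forall fun x => ?_)
  · have hc : Continuous fun x : Cfg N => ‖x‖ ^ (2 * s) :=
      continuous_norm.rpow_const fun x => Or.inr (by positivity)
    exact hc.aestronglyMeasurable.mul (hK.memLp.1.norm.pow 2)
  · rw [Real.norm_of_nonneg (by positivity)]
    have h1 : ‖x‖ ^ (2 * s) = (‖x‖ ^ 2) ^ s := by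
      rw [Real.rpow_mul (norm_nonneg _)]
      norm_num
    rw [h1]
    gcongr
    linarith

/-- **Decay**, field `decay` of `StepIn`. -/
theorem decay_all (N : ℕ) (h : Close478.HIAll N) : Close478.DecayAll N := by
  intro F _ _ _ _ b M R G ψ hψ s hs hs2
  exact integrable_moment (fun κ hκ => h F b M R G κ hκ) hψ hs hs2

/-- **The global Hardy inequality**, field `hardy` of `StepIn`. -/
theorem hardy_all (N : ℕ) (h : Close478.HIAll N) : Close478.HardyAll N := by
  intro F _ _ _ _ b M R G ψ hψ hn hl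
  have := complete_F F
  obtain ⟨ρ, hρ, hH⟩ := hi_of (k := 3) (by norm_num) (h F b M R G 3 (by norm_num))
  obtain ⟨c, hc, hcc⟩ := hardy_perp (frame_Qd b M G) hρ hH (by norm_num) (gradB_Qd b M R G)
  refine ⟨c, hc, fun φ hφ => ?_⟩
  set a : ℂ := ∫ y, ⟪ψ y, φ y⟫_ℂ with ha
  have hφ' : Core (Sd b R) φ := core_iff.2 hφ
  have haψ : Ker (Qd b M G) (Sd b R) (fun x => a • ψ x) := ker_iff.2 (zset_smul a hψ)
  have hψ2 : MemLp ψ 2 volume := hψ.1
  have hψψ : ∫ x, ⟪ψ x, ψ x⟫_ℂ = 1 := by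
    have e : ∀ x, ⟪ψ x, ψ x⟫_ℂ = ((‖ψ x‖ ^ 2 : ℝ) : ℂ) := fun x => by
      rw [inner_self_eq_norm_sq_to_K]
      simp
    simp only [e]
    rw [integral_complex_ofReal, hn]
    simp
  have hmain := hcc φ (fun x => a • ψ x) hφ' haψ fun η hη => by
    have h1 := hl η (ker_iff.1 hη)
    set d : ℂ := ∫ y, ⟪ψ y, η y⟫_ℂ with hd
    have e1 : (fun x => ⟪η x, φ x - a • ψ x⟫_ℂ) =ᵐ[volume] fun x =>
        (starRingEnd ℂ d) * (⟪ψ x, φ x⟫_ℂ - a * ⟪ψ x, ψ x⟫_ℂ) := by
      filter_upwards [h1] with x hx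
      rw [hx, inner_smul_left, inner_sub_right, inner_smul_right]
    have i1 : Integrable fun x => ⟪ψ x, φ x⟫_ℂ := integrable_inner_memLp hψ2 hφ'.memLp
    have i2 : Integrable fun x => a * ⟪ψ x, ψ x⟫_ℂ :=
      (integrable_inner_memLp hψ2 hψ2).const_mul a
    rw [integral_congr_ae e1, integral_const_mul, integral_sub i1 i2, integral_const_mul, hψψ,
      mul_one, ← ha, sub_self, mul_zero]
  rw [qe_eq G hφ] at hmain
  have hI : Integrable fun x => (1 + ‖x‖ ^ 2)⁻¹ * ‖φ x - a • ψ x‖ ^ 2 := by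
    have h2 : MemLp (fun x => φ x - a • ψ x) 2 volume := hφ'.memLp.sub (hψ2.const_smul a)
    have h3 : Integrable fun x => ‖φ x - a • ψ x‖ ^ 2 := h2.integrable_norm_pow (by norm_num)
    have hcont : Continuous fun x : Cfg N => (1 + ‖x‖ ^ 2)⁻¹ := by
      refine Continuous.inv₀ (by fun_prop) fun x => ?_
      positivity
    refine h3.mono' (hcont.aestronglyMeasurable.mul h3.1) (Eventually.of_forall fun x => ?_)
    rw [Real.norm_of_nonneg (by positivity)]
    refine mul_le_of_le_one_left (by positivity) (inv_le_one_of_one_le₀ ?_)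
    have : (0 : ℝ) ≤ ‖x‖ ^ 2 := by positivity
    linarith
  have e2 : ∫⁻ x, jw x * ‖φ x - a • ψ x‖ₑ ^ 2 =
      ENNReal.ofReal (∫ x, (1 + ‖x‖ ^ 2)⁻¹ * ‖φ x - a • ψ x‖ ^ 2) := by
    rw [ofReal_integral_eq_lintegral_ofReal hI (Eventually.of_forall fun x => by positivity)]
    refine lintegral_congr fun x => ?_
    rw [enorm_sq_eq', ENNReal.ofReal_mul (by positivity), jw, one_div]
  rw [e2, ← ENNReal.ofReal_mul hc.le] at hmain
  exact (ENNReal.ofReal_le_ofReal_iff (SInd478.qf_nonneg b M G 1 0 φ)).1 hmain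

end Crest.Agent.R330.HardyL968

end
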