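import Crest.Agent.R330.LinH_561

/-!
# Row 330, S5c: linear model at a fuzzy vacuum, part I: the vacuum package (helper561)

* `AL X`, `IL X` : the linear maps of the matrices `X`.
* `linModel` : at every vacuum configuration there are `A`, `Ω`, `I` with
  `VacPack b M R G c A Ω`, `LinW G (wlin b G c) I A`, `IsCS I`, `bop M I v Ω = 0`.
* `vacPackProp : VacPackProp N`.
-/

set_option autoImplicit false
set_option linter.unusedSectionVars false

open Matrix Crest.MathPhysics.MatrixQM Crest.Agent.R330.Gam962 Crest.Agent.R330.Defs478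
open scoped Kronecker InnerProductSpace

namespace Crest.Agent.R330.Lin561

open Crest.Agent.R330.NeutL45 Crest.Agent.R330.CoerCfg87 Crest.Agent.R330.S5Defs798
open Crest.Agent.R330.Om0331 Crest.Agent.R330.Vacua303 Crest.Agent.R330.LinEx674
open Crest.Agent.R330.Weitz726

noncomputable section

variable {N : ℕ}

/-- a matrix as a linear map of configurations -/
def AL (X : Matrix (Fin 9 × Fin (N ^ 2 - 1)) (Fin 9 × Fin (N ^ 2 - 1)) ℝ) :
    Cfg N →ₗ[ℝ] Cfg N where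
  toFun u := WithLp.toLp 2 (X *ᵥ WithLp.ofLp u)
  map_add' u v := by
    rw [WithLp.ofLp_add, mulVec_add, WithLp.toLp_add]
  map_smul' r u := by
    rw [WithLp.ofLp_smul, mulVec_smul, WithLp.toLp_smul]
    rfl

theorem AL_apply (X : Matrix (Fin 9 × Fin (N ^ 2 - 1)) (Fin 9 × Fin (N ^ 2 - 1)) ℝ) (u : Cfg N) :
    AL X u = WithLp.toLp 2 (X *ᵥ WithLp.ofLp u) := rfl

/-- a matrix as a linear map of coefficient vectors -/
def IL (X : Matrix (Idx N) (Idx N) ℝ) : VV N →ₗ[ℝ] VV N where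
  toFun v := fun β A => (X *ᵥ fun p => v p.1 p.2) (β, A)
  map_add' u v := by
    funext β A
    have : (fun p : Idx N => (u + v) p.1 p.2) = (fun p => u p.1 p.2) + fun p => v p.1 p.2 := rfl
    rw [this, mulVec_add]
    rfl
  map_smul' r u := by
    funext β A
    have : (fun p : Idx N => (r • u) p.1 p.2) = r • fun p => u p.1 p.2 := rfl
    rw [this, mulVec_smul]
    rfl

theorem IL_apply (X : Matrix (Idx N) (Idx N) ℝ) (v : VV N) (β : Fin 16) (A : Fin (N ^ 2 - 1)) :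
    IL X v β A = (X *ᵥ fun p => v p.1 p.2) (β, A) := rfl

theorem inner_eq_dot (u v : Cfg N) : ⟪u, v⟫_ℝ = WithLp.ofLp u ⬝ᵥ WithLp.ofLp v := by
  rw [PiLp.inner_apply]
  simp only [dotProduct]
  refine Finset.sum_congr rfl fun i _ => ?_
  rw [RCLike.inner_apply, conj_trivial, mul_comm]

theorem dp_eq_dot (u v : VV N) :
    dp u v = (fun p : Idx N => u p.1 p.2) ⬝ᵥ fun p => v p.1 p.2 := by
  rw [dp_eq]
  rfl

theorem isCS_IL {X : Matrix (Idx N) (Idx N) ℝ} (hT : Xᵀ = -X) (hX : X * X = -1) : IsCS (IL X) := by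
  constructor
  · intro u v
    rw [dp_eq_dot, dp_eq_dot]
    have e : ∀ w : VV N, (fun p : Idx N => IL X w p.1 p.2) = X *ᵥ fun p => w p.1 p.2 := fun w => rfl
    rw [e, e, dot_T, mulVec_mulVec, hT, Matrix.neg_mul, hX, neg_neg, one_mulVec]
  · intro v
    funext β A
    rw [IL_apply]
    have e : (fun p : Idx N => IL X v p.1 p.2) = X *ᵥ fun p => v p.1 p.2 := rfl
    rw [e, mulVec_mulVec, hX, neg_mulVec, one_mulVec]
    rfl

variable (b : ColorBasis N) (G : GammaNine)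

theorem gv_mulVec (α : Fin 16) (u : Cfg N) :
    (fun p : Idx N => gv G α u p.1 p.2) = Gm G (Fin (N ^ 2 - 1)) α *ᵥ WithLp.ofLp u := by
  funext ⟨β, A⟩
  unfold Gm
  rw [kron_mulVec]
  change gv G α u β A = _
  rw [gv_apply]
  refine Finset.sum_congr rfl fun j _ => ?_
  simp only [gcol, one_apply, mul_ite, mul_one, mul_zero, ite_mul, zero_mul, Finset.sum_ite_eq,
    Finset.mem_univ, if_true]

/-- **`W = I γ A`.** -/
theorem linW {c : Cfg N} (hc : IsVacCfg b c)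
    {P Q : Matrix (Fin (N ^ 2 - 1)) (Fin (N ^ 2 - 1)) ℝ} (D : Dat (Yc b c) P Q) :
    LinW G (wlin b G c) (IL (Im G (Yc b c) Q)) (AL (Am (Yc b c) P Q)) := by
  intro α x
  funext β a
  rw [wlin_mulVec b G hc, IL_apply, gv_mulVec, AL_apply, D.W_eq G α, ← mulVec_mulVec,
    ← mulVec_mulVec]

theorem tens_eq_kron (K : Matrix (Fin 16) (Fin 16) ℝ) :
    tens N K = K ⊗ₖ (1 : Matrix (Fin (N ^ 2 - 1)) (Fin (N ^ 2 - 1)) ℝ) := by
  rw [tens_eq_kr]
  rfl

theorem act_eq (h : Matrix.specialUnitaryGroup (Fin N) ℂ) (u : Cfg N) :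
    b.act h u = WithLp.toLp 2 (c9 (Matrix.of (b.adjMat h)) *ᵥ WithLp.ofLp u) := by
  ext ⟨i, A⟩
  change b.act h u (i, A) = (c9 (Matrix.of (b.adjMat h)) *ᵥ WithLp.ofLp u) (i, A)
  unfold c9
  rw [kron_mulVec, Col962.act_apply, Finset.sum_eq_single i]
  · refine Finset.sum_congr rfl fun B _ => ?_
    rw [one_apply_eq, one_mul, of_apply]
  · intro j _ hj
    refine Finset.sum_eq_zero fun B _ => ?_
    rw [one_apply_ne (Ne.symm hj), zero_mul, zero_mul]
  · intro h; exact absurd (Finset.mem_univ _) h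

theorem Yc_comm {c : Cfg N} {h : Matrix.specialUnitaryGroup (Fin N) ℂ} (hx : b.act h c = c)
    (a : Fin 3) : Yc b c a * Matrix.of (b.adjMat h) = Matrix.of (b.adjMat h) * Yc b c a := by
  refine (adE_comm b fun C => ?_).symm
  have h1 : b.act h c (lo a, C) = c (lo a, C) := by rw [hx]
  rw [Col962.act_apply] at h1
  unfold CoerCfg87.comp
  calc ∑ A, b.adjMat h C A * (3 * c (lo a, A))
      = 3 * ∑ A, b.adjMat h C A * c (lo a, A) := by
        rw [Finset.mul_sum]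
        exact Finset.sum_congr rfl fun A _ => by ring
    _ = 3 * c (lo a, C) := by rw [h1]

theorem q_Gamp (a : Fin 3) : q G a * Gamp G = Gamp G * q G a := by
  unfold q
  rw [Matrix.mul_assoc, Gamp_gam, Matrix.mul_neg, ← Matrix.mul_assoc, Gam_Gamp, Matrix.neg_mul,
    neg_neg, Matrix.mul_assoc]

section

variable {F : Type*} [NormedAddCommGroup F] [InnerProductSpace ℂ F]

/-- derivative of the Gaussian -/
theorem fderiv_gau {A : Cfg N →ₗ[ℝ] Cfg N} (hA : ∀ u v, ⟪A u, v⟫_ℝ = ⟪u, A v⟫_ℝ) (Ω : F)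
    (x v : Cfg N) :
    fderiv ℝ (gau A Ω) x v = (-⟪A x, v⟫_ℝ * Real.exp (-(1 / 2) * ⟪x, A x⟫_ℝ)) • Ω := by
  let Ac : Cfg N →L[ℝ] Cfg N := LinearMap.toContinuousLinearMap A
  have h1 : HasFDerivAt (fun u : Cfg N => ⟪u, A u⟫_ℝ)
      ((fderivInnerCLM ℝ (x, A x)).comp ((ContinuousLinearMap.id ℝ (Cfg N)).prod Ac)) x :=
    (hasFDerivAt_id x).inner ℝ Ac.hasFDerivAt
  have h2 := ((h1.const_mul (-(1 / 2 : ℝ))).exp).smul_const Ω
  have h3 : fderiv ℝ (gau A Ω) x = _ := h2.fderiv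
  rw [h3]
  simp only [ContinuousLinearMap.smulRight_apply, _root_.smul_apply, smul_eq_mul,
    ContinuousLinearMap.comp_apply, ContinuousLinearMap.prod_apply, fderivInnerCLM_apply,
    ContinuousLinearMap.id_apply]
  congr 1
  have e1 : ⟪x, Ac v⟫_ℝ = ⟪A x, v⟫_ℝ := (hA x v).symm
  have e2 : ⟪v, A x⟫_ℝ = ⟪A x, v⟫_ℝ := real_inner_comm _ _
  rw [e1, e2]
  ring

theorem real_smul_eq (r : ℝ) (v : F) : r • v = ((r : ℝ) : ℂ) • v := (Complex.coe_smul r v).symm

/-- the kinetic part on a Gaussian -/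
theorem kin_gau {A : Cfg N →ₗ[ℝ] Cfg N} (hA : ∀ u v, ⟪A u, v⟫_ℝ = ⟪u, A v⟫_ℝ)
    (M : FermionRep N F) (Ω : F) (α : Fin 16) (x : Cfg N) :
    kin M G α (gau A Ω) x =
      (Complex.I * ((Real.exp (-(1 / 2) * ⟪x, A x⟫_ℝ) : ℝ) : ℂ)) • Th M (gv G α (A x)) Ω := by
  unfold kin
  have h1 : ∀ (i : Fin 9) (B : Fin (N ^ 2 - 1)),
      fderiv ℝ (gau A Ω) x (EuclideanSpace.single (i, B) 1) =
        ((-(A x (i, B)) * Real.exp (-(1 / 2) * ⟪x, A x⟫_ℝ) : ℝ) : ℂ) • Ω := by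
    intro i B
    rw [fderiv_gau hA, EuclideanSpace.inner_single_right, real_smul_eq]
    simp
  simp only [h1, map_smul, smul_smul, Th_apply, Finset.smul_sum]
  calc ∑ i : Fin 9, ∑ B : Fin (N ^ 2 - 1), ∑ β : Fin 16,
        ((-Complex.I * (G.γ i α β : ℂ)) *
          ((-(A x (i, B)) * Real.exp (-(1 / 2) * ⟪x, A x⟫_ℝ) : ℝ) : ℂ)) • M.θ β B Ω
      = ∑ β : Fin 16, ∑ B : Fin (N ^ 2 - 1), ∑ i : Fin 9,
        ((-Complex.I * (G.γ i α β : ℂ)) *
          ((-(A x (i, B)) * Real.exp (-(1 / 2) * ⟪x, A x⟫_ℝ) : ℝ) : ℂ)) • M.θ β B Ω := by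
        calc _ = ∑ B : Fin (N ^ 2 - 1), ∑ i : Fin 9, ∑ β : Fin 16,
              ((-Complex.I * (G.γ i α β : ℂ)) *
              ((-(A x (i, B)) * Real.exp (-(1 / 2) * ⟪x, A x⟫_ℝ) : ℝ) : ℂ)) • M.θ β B Ω :=
                Finset.sum_comm
          _ = ∑ B : Fin (N ^ 2 - 1), ∑ β : Fin 16, ∑ i : Fin 9,
              ((-Complex.I * (G.γ i α β : ℂ)) *
              ((-(A x (i, B)) * Real.exp (-(1 / 2) * ⟪x, A x⟫_ℝ) : ℝ) : ℂ)) • M.θ β B Ω :=
                Finset.sum_congr rfl fun _ _ => Finset.sum_comm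
          _ = _ := Finset.sum_comm
    _ = _ := by
        refine Finset.sum_congr rfl fun β _ => Finset.sum_congr rfl fun B _ => ?_
        rw [← Finset.sum_smul]
        congr 1
        rw [gv_apply]
        push_cast
        rw [Finset.mul_sum]
        refine Finset.sum_congr rfl fun i _ => ?_
        ring

/-- the linearised charges kill the Gaussian -/
theorem kill_gau {A : Cfg N →ₗ[ℝ] Cfg N} (hA : ∀ u v, ⟪A u, v⟫_ℝ = ⟪u, A v⟫_ℝ)
    (M : FermionRep N F) {I : VV N →ₗ[ℝ] VV N} {c : Cfg N} (hW : LinW G (wlin b G c) I A)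
    {Ω : F} (hΩ : ∀ v, Th M v Ω = Complex.I • Th M (I v) Ω) (α : Fin 16) (x : Cfg N) :
    lcharge b M G c α (gau A Ω) x = 0 := by
  unfold lcharge
  rw [kin_gau G hA, hΩ]
  have h1 : ∑ B : Fin (N ^ 2 - 1), ∑ β : Fin 16,
      ((wlin b G c α β B x : ℝ) : ℂ) • M.θ β B (gau A Ω x) =
      ((Real.exp (-(1 / 2) * ⟪x, A x⟫_ℝ) : ℝ) : ℂ) • Th M (I (gv G α (A x))) Ω := by
    rw [← hW α x, Th_apply, Finset.smul_sum, Finset.sum_comm]
    refine Finset.sum_congr rfl fun β _ => ?_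
    rw [Finset.smul_sum]
    refine Finset.sum_congr rfl fun B _ => ?_
    unfold gau
    rw [real_smul_eq, map_smul, smul_comm]
  rw [h1, smul_smul, ← add_smul]
  have : Complex.I * ((Real.exp (-(1 / 2) * ⟪x, A x⟫_ℝ) : ℝ) : ℂ) * Complex.I +
      ((Real.exp (-(1 / 2) * ⟪x, A x⟫_ℝ) : ℝ) : ℂ) = 0 := by
    have hI := Complex.I_mul_I
    linear_combination ((Real.exp (-(1 / 2) * ⟪x, A x⟫_ℝ) : ℝ) : ℂ) * hI
  rw [this, zero_smul]

/-- the vacuum condition on all vectors -/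
theorem vac_vec (M : FermionRep N F) {X : Matrix (Idx N) (Idx N) ℝ} {Ω : F}
    (h : ∀ k, tht M k Ω = Complex.I • ∑ l, ((X l k : ℝ) : ℂ) • tht M l Ω) (v : VV N) :
    Th M v Ω = Complex.I • Th M (IL X v) Ω := by
  rw [Th_apply', Th_apply', Finset.smul_sum]
  have h1 : ∀ k : Idx N, ((v k.1 k.2 : ℝ) : ℂ) • M.θ k.1 k.2 Ω =
      ∑ l : Idx N, (Complex.I * ((X l k * v k.1 k.2 : ℝ) : ℂ)) • M.θ l.1 l.2 Ω := by
    intro k
    have := h k
    unfold tht at this
    rw [this, smul_comm, Finset.smul_sum, Finset.smul_sum]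
    refine Finset.sum_congr rfl fun l _ => ?_
    rw [smul_smul, smul_smul]
    congr 1
    push_cast
    ring
  simp only [h1]
  rw [Finset.sum_comm]
  refine Finset.sum_congr rfl fun l _ => ?_
  rw [← Finset.sum_smul, smul_smul]
  congr 1
  change _ = Complex.I * (((X *ᵥ fun p : Idx N => v p.1 p.2) l : ℝ) : ℂ)
  rw [mulVec, dotProduct]
  push_cast
  rw [Finset.mul_sum]

end

/-- **The linear model at a vacuum configuration.** -/
theorem linModel {F : Type} [NormedAddCommGroup F] [InnerProductSpace ℂ F]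
    [FiniteDimensional ℂ F] [Nontrivial F] (M : FermionRep N F) (R : GaugeAction b M)
    (c : Cfg N) (hc : IsVacCfg b c) :
    ∃ (A : Cfg N →ₗ[ℝ] Cfg N) (Ω : F) (I : VV N →ₗ[ℝ] VV N), VacPack b M R G c A Ω ∧
      LinW G (wlin b G c) I A ∧ IsCS I ∧ ∀ v, bop M I v Ω = 0 := by
  obtain ⟨P, Q, D⟩ := exists_dat (so3_Yc b hc)
  set X : Matrix (Idx N) (Idx N) ℝ := Im G (Yc b c) Q with hX
  have hXT : Xᵀ = -X := D.I_T G
  have hXX : X * X = -1 := D.I_sq G
  obtain ⟨Ω₀, h0, hvac⟩ := Neut45.exists_vac (cliff_tht M) (J := -X)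
    (by rw [transpose_neg, hXT]) (by rw [neg_mul_neg, hXX])
  set Ω : F := ((‖Ω₀‖⁻¹ : ℝ) : ℂ) • Ω₀ with hΩdef
  have hunit : ‖Ω‖ = 1 := by
    rw [hΩdef, norm_smul, Complex.norm_real, norm_inv, norm_norm,
      inv_mul_cancel₀ (norm_ne_zero_iff.2 h0)]
  have hvac' : Neut45.IsVac (tht M) (-X) Ω := by
    rw [Om0331.isVac_iff] at hvac ⊢
    intro k
    rw [hΩdef, map_smul, hvac k, smul_zero]
  have hk := (isVac_neg_iff (M := M) X Ω).1 hvac'
  have hvec := vac_vec M hk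
  have hA : ∀ u v, ⟪AL (Am (Yc b c) P Q) u, v⟫_ℝ = ⟪u, AL (Am (Yc b c) P Q) v⟫_ℝ := by
    intro u v
    rw [inner_eq_dot, inner_eq_dot, AL_apply, AL_apply]
    exact (dot_symm D.A_T _ _).symm
  have hW := linW b G hc D
  refine ⟨AL (Am (Yc b c) P Q), Ω, IL X, ?_, hW, isCS_IL hXT hXX, fun v => ?_⟩
  · refine ⟨hA, fun u => ?_, fun u => ?_, fun h hh u => ?_, hunit, fun h hh => ?_, fun α x => ?_⟩
    · rw [inner_eq_dot, AL_apply]
      exact D.A_nonneg G _
    · have e1 : AL (Am (Yc b c) P Q) u = 0 ↔ Am (Yc b c) P Q *ᵥ WithLp.ofLp u = 0 := by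
        rw [AL_apply]
        constructor
        · intro h
          exact (WithLp.toLp_injective 2) h
        · intro h
          rw [h]
          rfl
      rw [e1, D.A_ker G]
      constructor
      · rintro ⟨z, hz⟩
        refine ⟨fun A => 3 * z (0, A), ?_⟩
        rw [← brk_eq b hc, ← hz]
      · rintro ⟨om, hom⟩
        refine ⟨fun p => om p.2 / 3, ?_⟩
        have e2 := brk_eq b hc (fun p => om p.2 / 3)
        have e3 : (fun A => 3 * ((fun p : Fin 1 × Fin (N ^ 2 - 1) => om p.2 / 3) (0, A))) = om := by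
          funext A
          simp only
          ring
        rw [e3, ← hom] at e2
        rw [← e2]
    · rw [AL_apply, AL_apply, act_eq, act_eq]
      congr 1
      rw [mulVec_mulVec, D.A_c9 (Yc_comm b hh), ← mulVec_mulVec]
    · refine NeutC45.neutral_closed R G (S := Sm G (Yc b c) Q) (D.S_T G) (D.S_sq G) ?_ ?_ ?_ ?_
      · rw [tens_eq_kron]
        exact (D.S_GG G).symm
      · rw [tens_eq_kron]
        exact D.S_kron G (q_Gamp G)
      · rw [adI_eq_kr]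
        exact D.S_c16 G (Yc_comm b hh)
      · rw [tens_eq_kron]
        exact hk
    · exact kill_gau b G hA M hW hvec α x
  · rw [bop_apply, ← hvec v, sub_self]

theorem vacPackProp (N : ℕ) : VacPackProp N := by
  intro F _ _ _ _ b M R G c hc
  obtain ⟨A, Ω, I, h, -⟩ := linModel b G M R c hc
  exact ⟨A, Ω, h⟩

end

end Crest.Agent.R330.Lin561
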