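import Crest.Agent.R330.TrC_798

/-!
# Row 330, S5e (helper798), part D: `Trial N` from the list of orbits and the vacuum packages

`trial_of : OrbitsProp N → VacWpot N → VacPackProp N → Trial N`.
-/

set_option autoImplicit false
set_option linter.unusedSectionVars false
set_option linter.unusedVariables false

open MeasureTheory Filter Topology Metric Set Module Crest.MathPhysics.MatrixQM
open scoped ContDiff InnerProductSpace ENNReal NNReal

noncomputable section

namespace Crest.Agent.R330.TrD798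

open Crest.Agent.R330.Defs478 Crest.Agent.R330.S5Defs798 Crest.Agent.R330.TrA798
  Crest.Agent.R330.TrC798 Crest.Agent.R330.SUgrp596

variable {N : ℕ} {b : ColorBasis N}

/-- two different orbits have positive distance -/
theorem exists_orbit_gap (b : ColorBasis N) (x y : Cfg N)
    (hxy : ∀ h : SU N, b.act h x ≠ y) :
    ∃ D : ℝ, 0 < D ∧ ∀ k k' : SU N, D ≤ dist (b.act k x) (b.act k' y) := by
  have hx : IsCompact (range fun k : SU N => b.act k x) :=
    isCompact_range ((isoAct b).cont_left x)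
  have hy : IsCompact (range fun k : SU N => b.act k y) :=
    isCompact_range ((isoAct b).cont_left y)
  have hdis : Disjoint (range fun k : SU N => b.act k x) (range fun k : SU N => b.act k y) := by
    rw [Set.disjoint_left]
    rintro _ ⟨k, rfl⟩ ⟨k', hk'⟩
    have h1 : b.act (k'⁻¹ * k) x = y := by
      rw [Cov837.act_mul]
      have h2 : b.act k' y = b.act k x := hk'
      rw [← h2, Cov837.act_inv_act]
    exact hxy _ h1
  obtain ⟨r, hr, h⟩ := exists_pos_forall_lt_edist hx hy.isClosed hdis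
  refine ⟨r, hr, fun k k' => ?_⟩
  have h1 := h _ (mem_range_self k) _ (mem_range_self k')
  rw [edist_dist] at h1
  have h2 : ((r : ℝ≥0∞)) < ENNReal.ofReal (dist (b.act k x) (b.act k' y)) := h1
  rw [← ENNReal.ofReal_coe_nnreal] at h2
  exact ((ENNReal.ofReal_lt_ofReal_iff_of_nonneg r.2).1 h2).le

theorem trial_of (hO : OrbitsProp N) (hW : VacWpot N) (hV : VacPackProp N) : Trial N := by
  intro F _ _ _ _ b M R G ε hε
  obtain ⟨c, hc⟩ := hO b
  have hpack : ∀ l, ∃ A Ω, VacPack b M R G (c l) A Ω := fun l => hV F b M R G (c l) (hc.vac l)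
  choose A Ω hP using hpack
  have hone := fun l => trial_one R (hP l) ((hW b G (c l)).1 (hc.vac l)) hε
  choose r hr g₀ hg₀ hone using hone
  have hgap : ∀ l l', l ≠ l' → ∃ D : ℝ, 0 < D ∧ ∀ k k' : SU N,
      D ≤ dist (b.act k (c l)) (b.act k' (c l')) := fun l l' hl =>
    exists_orbit_gap b (c l) (c l') fun h hh => hl (hc.inj l l' h hh)
  have hD : ∃ D : ℝ, 0 < D ∧ ∀ l l', l ≠ l' → ∀ k k' : SU N,
      D ≤ dist (b.act k (c l)) (b.act k' (c l')) := by
    choose D hD0 hD using hgap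
    have h1 : ∀ᶠ δ in 𝓝[>] (0 : ℝ), ∀ q : Nat.Partition N × Nat.Partition N,
        ∀ hq : q.1 ≠ q.2, δ < D q.1 q.2 hq := by
      refine eventually_all.2 fun q => ?_
      by_cases hq : q.1 = q.2
      · exact Eventually.of_forall fun δ hq' => absurd hq hq'
      · filter_upwards [Ioo_mem_nhdsGT (hD0 q.1 q.2 hq)] with δ hδ hq'
        exact hδ.2
    obtain ⟨δ, hδ, hδ0⟩ := (h1.and self_mem_nhdsWithin).exists
    exact ⟨δ, hδ0, fun l l' hl k k' => (hδ (l, l') hl).le.trans (hD l l' hl k k')⟩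
  obtain ⟨D, hD0, hD⟩ := hD
  have hev : ∀ᶠ g in 𝓝[>] (0 : ℝ), (∀ l, g < g₀ l) ∧
      ∀ q : Nat.Partition N × Nat.Partition N, g * (2 * r q.1 + 2 * r q.2) < D := by
    refine Filter.Eventually.and (eventually_all.2 fun l => ?_) (eventually_all.2 fun q => ?_)
    · filter_upwards [Ioo_mem_nhdsGT (hg₀ l)] with δ hδ
      exact hδ.2
    · have h1 : 0 < 2 * r q.1 + 2 * r q.2 := by linarith [hr q.1, hr q.2]
      filter_upwards [Ioo_mem_nhdsGT (show 0 < D / (2 * r q.1 + 2 * r q.2) by positivity)]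
        with δ hδ
      exact (lt_div_iff₀ h1).1 hδ.2
  obtain ⟨g₁, hg₁, hsub⟩ := mem_nhdsGT_iff_exists_Ioo_subset.1 hev
  refine ⟨g₁, hg₁, fun g hg hgg => ?_⟩
  obtain ⟨h1, h2⟩ := hsub ⟨hg, hgg⟩
  have hφ := fun l => hone l g hg (h1 l)
  choose φ hcore hpos hqf hsupp using hφ
  refine ⟨φ, hcore, hpos, hqf, fun l l' hl => ?_⟩
  have hts : ∀ l, tsupport (φ l) ⊆
      {x | infDist x (range fun k : SU N => b.act k (g⁻¹ • c l)) ≤ 2 * r l} := by
    intro l
    refine closure_minimal (fun x hx => ?_) (isClosed_le (continuous_infDist_pt _) continuous_const)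
    obtain ⟨k, hk⟩ := hsupp l x hx
    exact (infDist_le_dist_of_mem (mem_range_self k)).trans hk
  have hcomp : ∀ l, IsCompact (range fun k : SU N => b.act k (g⁻¹ • c l)) := fun l =>
    isCompact_range ((isoAct b).cont_left _)
  rw [Set.disjoint_left]
  intro x hx hx'
  obtain ⟨_, ⟨k, rfl⟩, hk⟩ := (hcomp l).exists_infDist_eq_dist (range_nonempty _) x
  obtain ⟨_, ⟨k', rfl⟩, hk'⟩ := (hcomp l').exists_infDist_eq_dist (range_nonempty _) x
  have e1 := hts l hx
  have e2 := hts l' hx'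
  rw [mem_ofPred_eq, hk] at e1
  rw [mem_ofPred_eq, hk'] at e2
  have e3 : dist (b.act k (g⁻¹ • c l)) (b.act k' (g⁻¹ • c l')) ≤ 2 * r l + 2 * r l' := by
    refine (dist_triangle_left _ _ x).trans ?_
    exact add_le_add e1 e2
  have e4 : dist (b.act k (g⁻¹ • c l)) (b.act k' (g⁻¹ • c l')) =
      g⁻¹ * dist (b.act k (c l)) (b.act k' (c l')) := by
    rw [Cov837.act_smul, Cov837.act_smul, dist_eq_norm, dist_eq_norm, ← smul_sub, norm_smul,
      norm_inv, Real.norm_of_nonneg hg.le]
  have e5 := hD l l' hl k k'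
  have e6 := h2 (l, l')
  rw [e4, inv_mul_le_iff₀ hg] at e3
  have e7 : D ≤ g * (2 * r l + 2 * r l') := e5.trans e3
  exact absurd e6 (not_lt.2 e7)

end Crest.Agent.R330.TrD798

end
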