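import Crest.Agent.R330.Vacua_303
import Crest.Agent.R330.S5Defs_798

/-! # Row 330, section 5a: `OrbitsProp N` (helper303) -/

set_option autoImplicit false

open Crest.MathPhysics.MatrixQM

namespace Crest.Agent.R330.Vacua303

open Crest.Agent.R330.CoerCfg87 Crest.Agent.R330.S5Defs798

variable {N : ℕ}

theorem isVacCfg_iff (b : ColorBasis N) (c : Cfg N) : IsVacCfg b c ↔ IsVac b 1 c := by
  rw [isVac_iff]
  have h1 : 0 ≤ Vcyc b 1 1 c :=
    Finset.sum_nonneg fun _ _ => Finset.sum_nonneg fun _ _ => sq_nonneg _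
  have h2 : 0 ≤ Vhi c := Finset.sum_nonneg fun _ _ => Finset.sum_nonneg fun _ _ => sq_nonneg _
  unfold IsVacCfg
  constructor
  · rintro ⟨h3, h4⟩
    rw [h3, h4]
    ring
  · intro h
    constructor <;> nlinarith

/-- LEAF S5a1 -/
theorem orbitsProp (hN : 0 < N) : OrbitsProp N := by
  intro b
  obtain ⟨c, h1, h2, h3⟩ := exists_vacua_one b hN
  refine ⟨c, ⟨fun l => (isVacCfg_iff b _).2 (h1 l), fun x hx => ?_, h3⟩⟩
  obtain ⟨p, h, hp⟩ := h2 x ((isVacCfg_iff b x).1 hx)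
  exact ⟨p, h, hp.symm⟩

end Crest.Agent.R330.Vacua303
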