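import Crest.Agent.R330.VId_87
import Crest.Agent.R330.S5Defs_798

/-!
# Row 330, S5a1' (helper8): `VacWpot N`

The zeros of the potential are the zeros of all coefficients `wpot 1 1`.
-/

set_option autoImplicit false

open Crest.MathPhysics.MatrixQM

namespace Crest.Agent.R330.VacW8

open Crest.Agent.R330.Defs478 Crest.Agent.R330.CoerCfg87 Crest.Agent.R330.S5Defs798
  Crest.Agent.R330.VId87

variable {N : ℕ}

theorem Vcyc_nonneg (b : ColorBasis N) (g m : ℝ) (x : Cfg N) : 0 ≤ Vcyc b g m x :=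
  Finset.sum_nonneg fun _ _ => Finset.sum_nonneg fun _ _ => sq_nonneg _

theorem Vhi_nonneg (x : Cfg N) : 0 ≤ Vhi x :=
  Finset.sum_nonneg fun _ _ => Finset.sum_nonneg fun _ _ => sq_nonneg _

/-- the high components vanish -/
theorem comp_zero {x : Cfg N} (h : Vhi x = 0) {j : Fin 9} (hj : ¬ (j : ℕ) < 3)
    (A : Fin (N ^ 2 - 1)) : CoerCfg87.comp x j A = 0 := by
  unfold Vhi at h
  have h1 := (Finset.sum_eq_zero_iff_of_nonneg (fun i _ =>
    Finset.sum_nonneg fun A _ => sq_nonneg _)).1 h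
  have hj' : (j : ℕ) - 3 < 6 := by omega
  have h2 := (Finset.sum_eq_zero_iff_of_nonneg (fun A _ => sq_nonneg _)).1
    (h1 ⟨(j : ℕ) - 3, hj'⟩ (Finset.mem_univ _)) A (Finset.mem_univ _)
  have h3 : (⟨((⟨(j : ℕ) - 3, hj'⟩ : Fin 6) : ℕ) + 3, by omega⟩ : Fin 9) = j := by
    ext
    simp only []
    omega
  rw [h3] at h2
  exact pow_eq_zero_iff (two_ne_zero) |>.1 h2

theorem Voth_zero (b : ColorBasis N) {x : Cfg N} (h : Vhi x = 0) : Voth b x = 0 := by
  unfold Voth
  refine mul_eq_zero_of_right _ (Finset.sum_eq_zero fun A _ => Finset.sum_eq_zero fun i _ =>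
    Finset.sum_eq_zero fun j _ => ?_)
  split_ifs with hij
  · rfl
  · have h0 : br b (CoerCfg87.comp x i) (CoerCfg87.comp x j) A = 0 := by
      unfold br
      refine Finset.sum_eq_zero fun B _ => Finset.sum_eq_zero fun C _ => ?_
      rcases not_and_or.1 hij with hi | hj
      · rw [comp_zero h hi]; ring
      · rw [comp_zero h hj]; ring
    rw [h0]; norm_num

/-- LEAF S5a1' -/
theorem vacWpot (N : ℕ) : VacWpot N := by
  intro b G c
  have h0 : ∀ x : Cfg N, Vsq G b 1 1 x = 0 ↔ ∀ α β A, wpot b G 1 1 α β A x = 0 := by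
    intro x
    unfold Vsq
    constructor
    · intro h α β A
      have h1 : ∑ α : Fin 16, ∑ β : Fin 16, ∑ A : Fin (N ^ 2 - 1), (wpot b G 1 1 α β A x) ^ 2 = 0 := by
        linarith
      have h2 := (Finset.sum_eq_zero_iff_of_nonneg (fun α _ => Finset.sum_nonneg fun β _ =>
        Finset.sum_nonneg fun A _ => sq_nonneg _)).1 h1 α (Finset.mem_univ _)
      have h3 := (Finset.sum_eq_zero_iff_of_nonneg (fun β _ =>
        Finset.sum_nonneg fun A _ => sq_nonneg _)).1 h2 β (Finset.mem_univ _)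
      have h4 := (Finset.sum_eq_zero_iff_of_nonneg (fun A _ => sq_nonneg _)).1 h3 A
        (Finset.mem_univ _)
      exact pow_eq_zero_iff (two_ne_zero) |>.1 h4
    · intro h
      simp only [h]
      simp
  rw [← h0, Vsq_eq]
  have h1 := Vcyc_nonneg b 1 1 c
  have h2 := Vhi_nonneg c
  have h3 := Voth_nonneg b c
  constructor
  · rintro ⟨h4, h5⟩
    rw [h4, h5, Voth_zero b h5]
    ring
  · intro h
    constructor <;> nlinarith

end Crest.Agent.R330.VacW8
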