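import Crest.Agent.R330.Low_967
import Crest.Agent.R330.TrD_798
import Crest.Agent.R330.VacB_303
import Crest.Agent.R330.VacW_8
import Crest.Agent.R330.LinI_561

/-!
# Row 330, field `low` (helper967): `Trial N` and `Lower N`, unconditional
-/

set_option autoImplicit false

noncomputable section

namespace Crest.Agent.R330.LowFin967

open Crest.Agent.R330.S5Defs798

theorem trial {N : ℕ} (hN : 0 < N) : Trial N :=
  TrD798.trial_of (Vacua303.orbitsProp hN) (VacW8.vacWpot N) (Crest.Agent.R330.Lin561.vacPackProp N)

/-- **FIELD `low`** -/
theorem lower {N : ℕ} (hN : 0 < N) : Lower N := Low967.lower_of (trial hN)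

end Crest.Agent.R330.LowFin967

end
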