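import Mathlib
import Crest.Prelude.Def_MatrixModel
import Crest.Agent.R330.IBP_837
import Crest.Agent.R330.Defs_478
import Crest.Agent.R330.ScaleD_423
import Crest.Agent.R330.WeitzG_726
import Crest.Agent.R330.VId_87

/-!
Row 330 (helper423), leaf S10.1-TIGHT, part 1: comparison of two charge families.

* `compare` : `Σ_α ∫ ‖Q_α^W φ‖² ≥ ∫ (|W|² - |W'|²)/2 |φ|² + ∫ Re ⟨φ, (Z_W - Z_W') φ⟩`
  (energy identity of helper726 for `W` and for `W'`, and `Σ ‖Q^{W'} φ‖² ≥ 0`).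
* `Uf G v` : the mass term with a vector field `v` in the place of `x`.
* `qf_ge_field` : the comparison with `W' = W + s U_v` written out.
* `cs_bound` : `g² ∫ cs |φ|² ≤ 8 q + ...`.
-/

set_option autoImplicit false
set_option linter.unusedSectionVars false
set_option linter.deprecated false

noncomputable section

namespace Crest.Agent.R330.Sq423

open MeasureTheory Filter Topology Crest.MathPhysics.MatrixQM
open Crest.Agent.R330.IBP837 Crest.Agent.R330.Weitz726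
open Crest.Agent.R330.CoerCfg87 (br comp Vcyc Vhi lo)
open Crest.Agent.R330.VId87 (Vsq Vsq_eq Voth br_swap trTU tr_Gam_Gam Wm)
open Crest.Agent.R330.Defs478 (cc Gam wpot dcharge qf)
open scoped ContDiff InnerProductSpace ENNReal Matrix

variable {N : ℕ} {F : Type*} [NormedAddCommGroup F] [InnerProductSpace ℂ F]
  [FiniteDimensional ℂ F]

/-! ### 1. Norms of the Clifford map -/

theorem norm_Th_sq (M : FermionRep N F) (u : Fin 16 → Fin (N ^ 2 - 1) → ℝ) (a : F) :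
    ‖Th M u a‖ ^ 2 = dp u u / 2 * ‖a‖ ^ 2 := by
  have n2 : ∀ v : F, ⟪v, v⟫_ℂ = ((‖v‖ ^ 2 : ℝ) : ℂ) := fun v => by
    rw [inner_self_eq_norm_sq_to_K]; norm_cast
  have h1 : ⟪Th M u a, Th M u a⟫_ℂ = ((dp u u / 2 * ‖a‖ ^ 2 : ℝ) : ℂ) := by
    rw [Th_symm, Th_sq, inner_smul_right, n2, Complex.ofReal_mul]
  rw [n2] at h1
  exact Complex.ofReal_injective h1

theorem dp_self_le (u : Fin 16 → Fin (N ^ 2 - 1) → ℝ) :
    dp u u ≤ (∑ β, ∑ A, |u β A|) ^ 2 := by
  have h1 : dp u u = ∑ p : Fin 16 × Fin (N ^ 2 - 1), |u p.1 p.2| ^ 2 := by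
    rw [dp_eq]
    exact Finset.sum_congr rfl fun p _ => by rw [sq_abs]; ring
  have h2 : ∑ β, ∑ A, |u β A| = ∑ p : Fin 16 × Fin (N ^ 2 - 1), |u p.1 p.2| := by
    rw [Fintype.sum_prod_type]
  rw [h1, h2]
  exact Finset.sum_sq_le_sq_sum_of_nonneg (fun p _ => abs_nonneg _)

theorem norm_Th_le (M : FermionRep N F) (u : Fin 16 → Fin (N ^ 2 - 1) → ℝ) (a : F) :
    ‖Th M u a‖ ≤ (∑ β, ∑ A, |u β A|) * ‖a‖ := by
  have h0 : 0 ≤ ∑ β, ∑ A, |u β A| :=
    Finset.sum_nonneg fun _ _ => Finset.sum_nonneg fun _ _ => abs_nonneg _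
  refine le_of_sq_le_sq ?_ (mul_nonneg h0 (norm_nonneg a))
  rw [norm_Th_sq, mul_pow]
  refine mul_le_mul_of_nonneg_right ?_ (sq_nonneg _)
  have h1 := dp_self_le u
  have h2 : 0 ≤ dp u u := by
    rw [dp_eq]; exact Finset.sum_nonneg fun p _ => mul_self_nonneg _
  linarith

theorem norm_dco_le (M : FermionRep N F) (G : GammaNine) (α : Fin 16)
    (k : Fin 9 × Fin (N ^ 2 - 1)) (a : F) : ‖dco M G α k a‖ ≤ ‖a‖ := by
  rw [dco_eq]
  refine le_of_sq_le_sq ?_ (norm_nonneg a)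
  rw [norm_Th_sq, dp_ug_ug, if_pos rfl, gamma_sq, Matrix.one_apply_eq]
  nlinarith [sq_nonneg ‖a‖]

/-! ### 2. The zero order operators -/

/-- size of the derivative of the potential coefficients -/
def zn (W : Fin 16 → Fin 16 → Fin (N ^ 2 - 1) → Cfg N → ℝ) (x : Cfg N) : ℝ :=
  ∑ α, ∑ k : Fin 9 × Fin (N ^ 2 - 1), ∑ β, ∑ A, |dW W α k x β A|

theorem zn_nonneg (W : Fin 16 → Fin 16 → Fin (N ^ 2 - 1) → Cfg N → ℝ) (x : Cfg N) :
    0 ≤ zn W x :=
  Finset.sum_nonneg fun _ _ => Finset.sum_nonneg fun _ _ => Finset.sum_nonneg fun _ _ =>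
    Finset.sum_nonneg fun _ _ => abs_nonneg _

theorem norm_Zop_le (M : FermionRep N F) (G : GammaNine)
    (W : Fin 16 → Fin 16 → Fin (N ^ 2 - 1) → Cfg N → ℝ) (x : Cfg N) (v : F) :
    ‖Zop M G W x v‖ ≤ zn W x * ‖v‖ := by
  rw [Zop_apply]
  refine (norm_sum_le _ _).trans ?_
  unfold zn
  rw [Finset.sum_mul]
  refine Finset.sum_le_sum fun α _ => ?_
  refine (norm_sum_le _ _).trans ?_
  rw [Finset.sum_mul]
  refine Finset.sum_le_sum fun k _ => ?_
  rw [norm_smul, norm_neg, Complex.norm_I, one_mul]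
  exact (norm_dco_le M G α k _).trans (norm_Th_le M _ v)

theorem abs_Zop_le (M : FermionRep N F) (G : GammaNine)
    (W : Fin 16 → Fin 16 → Fin (N ^ 2 - 1) → Cfg N → ℝ) (x : Cfg N) (v : F) :
    |(⟪v, Zop M G W x v⟫_ℂ).re| ≤ zn W x * ‖v‖ ^ 2 := by
  calc |(⟪v, Zop M G W x v⟫_ℂ).re| ≤ ‖⟪v, Zop M G W x v⟫_ℂ‖ := Complex.abs_re_le_norm _
    _ ≤ ‖v‖ * ‖Zop M G W x v‖ := norm_inner_le_norm _ _
    _ ≤ ‖v‖ * (zn W x * ‖v‖) := mul_le_mul_of_nonneg_left (norm_Zop_le M G W x v) (norm_nonneg _)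
    _ = zn W x * ‖v‖ ^ 2 := by ring

theorem dW_add {W U : Fin 16 → Fin 16 → Fin (N ^ 2 - 1) → Cfg N → ℝ} {α : Fin 16}
    (hW : ∀ α β A, ContDiff ℝ 1 (W α β A)) (hU : ∀ α β A, ContDiff ℝ 1 (U α β A))
    (k : Fin 9 × Fin (N ^ 2 - 1)) (x : Cfg N) :
    dW (W + U) α k x = dW W α k x + dW U α k x := by
  funext β A
  simp only [dW, Pi.add_apply]
  have h : (W α β A + U α β A) = (fun y => W α β A y + U α β A y) := rfl
  rw [fderiv_add ((hW α β A).differentiable one_ne_zero x)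
    ((hU α β A).differentiable one_ne_zero x)]
  rfl

theorem dW_smul {U : Fin 16 → Fin 16 → Fin (N ^ 2 - 1) → Cfg N → ℝ} {α : Fin 16} (s : ℝ)
    (hU : ∀ α β A, ContDiff ℝ 1 (U α β A)) (k : Fin 9 × Fin (N ^ 2 - 1)) (x : Cfg N) :
    dW (s • U) α k x = s • dW U α k x := by
  funext β A
  simp only [dW, Pi.smul_apply]
  rw [fderiv_const_smul ((hU α β A).differentiable one_ne_zero x)]
  rfl

theorem zn_add_le {W U : Fin 16 → Fin 16 → Fin (N ^ 2 - 1) → Cfg N → ℝ}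
    (hW : ∀ α β A, ContDiff ℝ 1 (W α β A)) (hU : ∀ α β A, ContDiff ℝ 1 (U α β A))
    (x : Cfg N) : zn (W + U) x ≤ zn W x + zn U x := by
  unfold zn
  rw [← Finset.sum_add_distrib]
  refine Finset.sum_le_sum fun α _ => ?_
  rw [← Finset.sum_add_distrib]
  refine Finset.sum_le_sum fun k _ => ?_
  rw [← Finset.sum_add_distrib]
  refine Finset.sum_le_sum fun β _ => ?_
  rw [← Finset.sum_add_distrib]
  refine Finset.sum_le_sum fun A _ => ?_
  rw [dW_add hW hU]
  exact abs_add_le _ _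

theorem zn_smul {U : Fin 16 → Fin 16 → Fin (N ^ 2 - 1) → Cfg N → ℝ} (s : ℝ)
    (hU : ∀ α β A, ContDiff ℝ 1 (U α β A)) (x : Cfg N) : zn (s • U) x = |s| * zn U x := by
  unfold zn
  simp only [Finset.mul_sum]
  refine Finset.sum_congr rfl fun α _ => Finset.sum_congr rfl fun k _ =>
    Finset.sum_congr rfl fun β _ => Finset.sum_congr rfl fun A _ => ?_
  rw [dW_smul s hU]
  simp only [Pi.smul_apply, smul_eq_mul, abs_mul]

theorem Zop_add (M : FermionRep N F) (G : GammaNine)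
    {W U : Fin 16 → Fin 16 → Fin (N ^ 2 - 1) → Cfg N → ℝ}
    (hW : ∀ α β A, ContDiff ℝ 1 (W α β A)) (hU : ∀ α β A, ContDiff ℝ 1 (U α β A))
    (x : Cfg N) (v : F) : Zop M G (W + U) x v = Zop M G W x v + Zop M G U x v := by
  simp only [Zop_apply, ← Finset.sum_add_distrib]
  refine Finset.sum_congr rfl fun α _ => Finset.sum_congr rfl fun k _ => ?_
  rw [dW_add hW hU, Th_add, LinearMap.add_apply, map_add, smul_add]

/-! ### 3. Continuity and integrability -/

theorem continuous_Wsq {W : Fin 16 → Fin 16 → Fin (N ^ 2 - 1) → Cfg N → ℝ}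
    (hW : ∀ α β A, ContDiff ℝ 1 (W α β A)) : Continuous (Wsq W) := by
  unfold Wsq dp
  exact continuous_finsetSum _ fun α _ => continuous_finsetSum _ fun β _ =>
    continuous_finsetSum _ fun A _ => (hW α β A).continuous.mul (hW α β A).continuous

theorem integrable_mul_sq {f : Cfg N → ℝ} (hf : Continuous f) {φ : Cfg N → F}
    (hφ : Continuous φ) (hc : HasCompactSupport φ) : Integrable fun x => f x * ‖φ x‖ ^ 2 := by
  refine (hf.mul (hφ.norm.pow 2)).integrable_of_hasCompactSupport ?_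
  refine hc.mono fun x hx h0 => hx ?_
  have h00 : φ x = 0 := h0
  simp [h00]

theorem continuous_Zop {M : FermionRep N F} {G : GammaNine}
    {W : Fin 16 → Fin 16 → Fin (N ^ 2 - 1) → Cfg N → ℝ}
    (hW : ∀ α β A, ContDiff ℝ 1 (W α β A)) {φ : Cfg N → F} (hφ : Continuous φ) :
    Continuous fun x => Zop M G W x (φ x) := by
  simp only [Zop_apply]
  exact continuous_finsetSum _ fun α _ => continuous_finsetSum _ fun k _ =>
    Continuous.const_smul ((cont_lin _).comp (continuous_Th (continuous_dW (hW α) k) hφ)) _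

theorem integrable_Zop {M : FermionRep N F} {G : GammaNine}
    {W : Fin 16 → Fin 16 → Fin (N ^ 2 - 1) → Cfg N → ℝ}
    (hW : ∀ α β A, ContDiff ℝ 1 (W α β A)) {φ : Cfg N → F} (hφ : Continuous φ)
    (hc : HasCompactSupport φ) : Integrable fun x => (⟪φ x, Zop M G W x (φ x)⟫_ℂ).re := by
  have h : Integrable fun x => ⟪φ x, Zop M G W x (φ x)⟫_ℂ :=
    integrable_inner_of_cont hφ (continuous_Zop hW hφ) (Or.inl hc)
  exact h.re

/-! ### 4. The comparison -/

/-- **Comparison of two charge families.** -/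
theorem compare {M : FermionRep N F} {G : GammaNine}
    {W W' : Fin 16 → Fin 16 → Fin (N ^ 2 - 1) → Cfg N → ℝ}
    (hW : ∀ α β A, ContDiff ℝ 1 (W α β A)) (hT : TrZ G W)
    (hW' : ∀ α β A, ContDiff ℝ 1 (W' α β A)) (hT' : TrZ G W') {φ : Cfg N → F}
    (hφ : ContDiff ℝ 2 φ) (hc : HasCompactSupport φ) :
    (∫ x, (Wsq W x - Wsq W' x) / 2 * ‖φ x‖ ^ 2) +
      (∫ x, ((⟪φ x, Zop M G W x (φ x)⟫_ℂ).re - (⟪φ x, Zop M G W' x (φ x)⟫_ℂ).re)) ≤
      ∑ α, ∫ x, ‖chargeW M G W α φ x‖ ^ 2 := by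
  have h1 := weitz (M := M) hW hT hφ hc
  have h2 := weitz (M := M) hW' hT' hφ hc
  have h3 : 0 ≤ ∑ α, ∫ x, ‖chargeW M G W' α φ x‖ ^ 2 :=
    Finset.sum_nonneg fun α _ => integral_nonneg fun x => sq_nonneg _
  have hcont := hφ.continuous
  have e1 : ∫ x, (Wsq W x - Wsq W' x) / 2 * ‖φ x‖ ^ 2 =
      (∫ x, Wsq W x / 2 * ‖φ x‖ ^ 2) - ∫ x, Wsq W' x / 2 * ‖φ x‖ ^ 2 := by
    rw [← integral_sub (integrable_mul_sq ((continuous_Wsq hW).div_const 2) hcont hc)
      (integrable_mul_sq ((continuous_Wsq hW').div_const 2) hcont hc)]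
    exact integral_congr_ae (Eventually.of_forall fun x => by simp only; ring)
  have e2 : ∫ x, ((⟪φ x, Zop M G W x (φ x)⟫_ℂ).re - (⟪φ x, Zop M G W' x (φ x)⟫_ℂ).re) =
      (∫ x, (⟪φ x, Zop M G W x (φ x)⟫_ℂ).re) - ∫ x, (⟪φ x, Zop M G W' x (φ x)⟫_ℂ).re :=
    integral_sub (integrable_Zop hW hcont hc) (integrable_Zop hW' hcont hc)
  rw [e1, e2]
  linarith

/-! ### 5. The mass term with a vector field -/

/-- the mass term `Σ_j c_j v_j^A(x) (Γ γ^j)_{αβ}` of a vector field `v` -/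
def Uf (G : GammaNine) (v : Cfg N → Cfg N) : Fin 16 → Fin 16 → Fin (N ^ 2 - 1) → Cfg N → ℝ :=
  fun α β A x => ∑ j : Fin 9, cc j * v x (j, A) * (Gam G * G.γ j) α β

theorem contDiff_coord {v : Cfg N → Cfg N} (hv : ContDiff ℝ 1 v) (k : Fin 9 × Fin (N ^ 2 - 1)) :
    ContDiff ℝ 1 fun x => v x k :=
  (EuclideanSpace.proj k : Cfg N →L[ℝ] ℝ).contDiff.comp hv

theorem contDiff_Uf (G : GammaNine) {v : Cfg N → Cfg N} (hv : ContDiff ℝ 1 v) (α β : Fin 16)
    (A : Fin (N ^ 2 - 1)) : ContDiff ℝ 1 (Uf G v α β A) := by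
  unfold Uf
  exact ContDiff.sum fun j _ => (contDiff_const.mul (contDiff_coord hv (j, A))).mul contDiff_const

theorem trZ_Uf (G : GammaNine) (v : Cfg N → Cfg N) : TrZ G (Uf G v) := by
  intro k x
  unfold Uf
  have h3 : ∀ α β, G.γ k.1 α β * ∑ j : Fin 9, cc j * v x (j, k.2) * (Gam G * G.γ j) α β =
      ∑ j : Fin 9, (cc j * v x (j, k.2)) * (G.γ k.1 α β * (Gam G * G.γ j) α β) := by
    intro α β
    rw [Finset.mul_sum]
    exact Finset.sum_congr rfl fun j _ => by ring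
  simp only [h3]
  rw [Finset.sum_congr rfl fun α _ => Finset.sum_comm, Finset.sum_comm]
  refine Finset.sum_eq_zero fun j _ => ?_
  simp only [← Finset.mul_sum]
  rw [pair_Gam, mul_zero]

theorem trZ_add {G : GammaNine} {W U : Fin 16 → Fin 16 → Fin (N ^ 2 - 1) → Cfg N → ℝ}
    (h : TrZ G W) (h' : TrZ G U) : TrZ G (W + U) := by
  intro k x
  simp only [Pi.add_apply, mul_add, Finset.sum_add_distrib]
  rw [h k x, h' k x, add_zero]

theorem trZ_smul {G : GammaNine} {U : Fin 16 → Fin 16 → Fin (N ^ 2 - 1) → Cfg N → ℝ} (s : ℝ)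
    (h' : TrZ G U) : TrZ G (s • U) := by
  intro k x
  have h1 : ∀ α β, G.γ k.1 α β * (s • U) α β k.2 x = s * (G.γ k.1 α β * U α β k.2 x) := by
    intro α β
    simp only [Pi.smul_apply, smul_eq_mul]
    ring
  simp only [h1, ← Finset.mul_sum]
  rw [h' k x, mul_zero]

/-- size constant of the coefficients of `Uf` -/
def cU (N : ℕ) (G : GammaNine) : ℝ :=
  ∑ α : Fin 16, ∑ _k : Fin 9 × Fin (N ^ 2 - 1), ∑ β : Fin 16, ∑ _A : Fin (N ^ 2 - 1),
    ∑ j : Fin 9, |cc j * (Gam G * G.γ j) α β|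

theorem cU_nonneg (N : ℕ) (G : GammaNine) : 0 ≤ cU N G :=
  Finset.sum_nonneg fun _ _ => Finset.sum_nonneg fun _ _ => Finset.sum_nonneg fun _ _ =>
    Finset.sum_nonneg fun _ _ => Finset.sum_nonneg fun _ _ => abs_nonneg _

theorem zn_Uf_le (G : GammaNine) {v : Cfg N → Cfg N} (hv : ContDiff ℝ 1 v) (x : Cfg N) :
    zn (Uf G v) x ≤ cU N G * ‖fderiv ℝ v x‖ := by
  unfold zn cU
  simp only [Finset.sum_mul]
  refine Finset.sum_le_sum fun α _ => Finset.sum_le_sum fun k _ => Finset.sum_le_sum fun β _ =>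
    Finset.sum_le_sum fun A _ => ?_
  have hvd : DifferentiableAt ℝ v x := hv.differentiable one_ne_zero x
  have hc : ∀ j : Fin 9, HasFDerivAt (fun y => v y (j, A))
      ((EuclideanSpace.proj (j, A) : Cfg N →L[ℝ] ℝ).comp (fderiv ℝ v x)) x := fun j =>
    (EuclideanSpace.proj (j, A) : Cfg N →L[ℝ] ℝ).hasFDerivAt.comp x hvd.hasFDerivAt
  have hU : HasFDerivAt (Uf G v α β A) (∑ j : Fin 9, (cc j * (Gam G * G.γ j) α β) •
      ((EuclideanSpace.proj (j, A) : Cfg N →L[ℝ] ℝ).comp (fderiv ℝ v x))) x := by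
    have h1 : Uf G v α β A = fun y => ∑ j : Fin 9, (cc j * (Gam G * G.γ j) α β) • v y (j, A) := by
      funext y
      unfold Uf
      exact Finset.sum_congr rfl fun j _ => by simp only [smul_eq_mul]; ring
    rw [h1]
    exact HasFDerivAt.fun_sum fun j _ => (hc j).const_smul (cc j * (Gam G * G.γ j) α β)
  have h2 : dW (Uf G v) α k x β A = ∑ j : Fin 9, (cc j * (Gam G * G.γ j) α β) *
      (fderiv ℝ v x (EuclideanSpace.single k 1)) (j, A) := by
    simp only [dW, hU.fderiv, ContinuousLinearMap.sum_apply]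
    rfl
  rw [h2]
  refine (Finset.abs_sum_le_sum_abs _ _).trans (Finset.sum_le_sum fun j _ => ?_)
  rw [abs_mul]
  refine mul_le_mul_of_nonneg_left ?_ (abs_nonneg _)
  have h3 : |(fderiv ℝ v x (EuclideanSpace.single k 1)) (j, A)| ≤
      ‖fderiv ℝ v x (EuclideanSpace.single k 1)‖ := by
    rw [← Real.norm_eq_abs]
    exact PiLp.norm_apply_le _ _
  refine h3.trans ((ContinuousLinearMap.le_opNorm _ _).trans ?_)
  rw [EuclideanSpace.norm_single, norm_one, mul_one]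

/-! ### 6. The difference of the potentials -/

/-- `⟨[x₂,x₃], w₁⟩ + cyclic` (indices `0,1,2`) -/
def tau (b : ColorBasis N) (x w : Cfg N) : ℝ :=
  ∑ A, (w (0, A) * br b (comp x 1) (comp x 2) A + w (1, A) * br b (comp x 2) (comp x 0) A +
    w (2, A) * br b (comp x 0) (comp x 1) A)

/-- the commutator energy `Σ_{ij} |[x_i,x_j]|²` -/
def cs (b : ColorBasis N) (x : Cfg N) : ℝ :=
  ∑ i : Fin 9, ∑ j : Fin 9, ∑ A, (br b (comp x i) (comp x j) A) ^ 2

theorem cs_nonneg (b : ColorBasis N) (x : Cfg N) : 0 ≤ cs b x :=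
  Finset.sum_nonneg fun _ _ => Finset.sum_nonneg fun _ _ => Finset.sum_nonneg fun _ _ =>
    sq_nonneg _

theorem trUV (G : GammaNine) (c d : Fin 9 → ℝ) :
    ((∑ j, c j • (Gam G * G.γ j))ᵀ * (∑ j, d j • (Gam G * G.γ j))).trace
      = 16 * ∑ j, c j * d j := by
  rw [Matrix.transpose_sum]
  simp only [Matrix.transpose_smul, Finset.sum_mul, Finset.mul_sum, Matrix.trace_sum,
    Matrix.smul_mul, Matrix.mul_smul, Matrix.trace_smul, tr_Gam_Gam, smul_eq_mul]
  unfold VId87.dl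
  refine Finset.sum_congr rfl fun i _ => ?_
  rw [Finset.sum_eq_single i]
  · simp only [if_true]; ring
  · intro k _ hk
    simp only [hk, if_false, mul_zero]
  · intro h; exact absurd (Finset.mem_univ _) h

theorem sum_mul_eq_trace (A B : Matrix (Fin 16) (Fin 16) ℝ) :
    ∑ α, ∑ β, A α β * B α β = (Aᵀ * B).trace := by
  rw [Matrix.trace]
  simp only [Matrix.diag_apply, Matrix.mul_apply, Matrix.transpose_apply]
  rw [Finset.sum_comm]

theorem sum_wpot_Uf (b : ColorBasis N) (G : GammaNine) (g m : ℝ) (v : Cfg N → Cfg N)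
    (x : Cfg N) (A : Fin (N ^ 2 - 1)) :
    ∑ α, ∑ β, wpot b G g m α β A x * Uf G v α β A x =
      16 / 3 * g * (v x (0, A) * br b (comp x 1) (comp x 2) A +
        v x (1, A) * br b (comp x 2) (comp x 0) A + v x (2, A) * br b (comp x 0) (comp x 1) A) -
      16 * m * ∑ j, cc j ^ 2 * (x (j, A) * v x (j, A)) := by
  have h1 : ∀ α β, wpot b G g m α β A x = Wm G g m
      (fun i j => br b (comp x i) (comp x j) A) (fun j => comp x j A) α β := fun α β =>
    VId87.wpot_eq G b g m α β A x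
  have h2 : ∀ α β, Uf G v α β A x =
      (∑ j, (cc j * v x (j, A)) • (Gam G * G.γ j)) α β := by
    intro α β
    simp only [Uf, Matrix.sum_apply, Matrix.smul_apply, smul_eq_mul]
  simp only [h1, h2]
  rw [sum_mul_eq_trace]
  unfold Wm
  rw [Matrix.transpose_sub, Matrix.transpose_smul, Matrix.transpose_smul, Matrix.sub_mul,
    Matrix.trace_sub, Matrix.smul_mul, Matrix.smul_mul, Matrix.trace_smul, Matrix.trace_smul,
    trTU G _ (fun i j => br_swap b _ _ A), trUV]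
  rw [VId87.cc_lt (j := 0) (by decide), VId87.cc_lt (j := 1) (by decide),
    VId87.cc_lt (j := 2) (by decide)]
  simp only [smul_eq_mul]
  have h3 : ∑ j, cc j * comp x j A * (cc j * v x (j, A)) =
      ∑ j, cc j ^ 2 * (x (j, A) * v x (j, A)) := by
    refine Finset.sum_congr rfl fun j _ => ?_
    unfold comp
    ring
  rw [h3]
  ring

theorem sum_Uf_sq (G : GammaNine) (v : Cfg N → Cfg N) (x : Cfg N) (A : Fin (N ^ 2 - 1)) :
    ∑ α, ∑ β, Uf G v α β A x ^ 2 = 16 * ∑ j, cc j ^ 2 * v x (j, A) ^ 2 := by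
  have h2 : ∀ α β, Uf G v α β A x =
      (∑ j, (cc j * v x (j, A)) • (Gam G * G.γ j)) α β := by
    intro α β
    simp only [Uf, Matrix.sum_apply, Matrix.smul_apply, smul_eq_mul]
  simp only [h2, sq]
  rw [sum_mul_eq_trace, trUV]
  congr 1
  exact Finset.sum_congr rfl fun j _ => by ring

theorem Wsq_eq_sum (W : Fin 16 → Fin 16 → Fin (N ^ 2 - 1) → Cfg N → ℝ) (x : Cfg N) :
    Wsq W x = ∑ A, ∑ α, ∑ β, W α β A x ^ 2 := by
  unfold Wsq dp
  rw [Finset.sum_congr rfl fun α _ => Finset.sum_comm, Finset.sum_comm]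
  exact Finset.sum_congr rfl fun A _ => Finset.sum_congr rfl fun α _ =>
    Finset.sum_congr rfl fun β _ => by ring

/-- **The exact difference of the potentials.** -/
theorem Wsq_sub (b : ColorBasis N) (G : GammaNine) (g m s : ℝ) (v : Cfg N → Cfg N) (x : Cfg N) :
    Wsq (wpot b G g m) x - Wsq (wpot b G g m + s • Uf G v) x =
      -(32 / 3) * g * s * tau b x (v x) +
      32 * m * s * (∑ j, cc j ^ 2 * ∑ A, x (j, A) * v x (j, A)) -
      16 * s ^ 2 * (∑ j, cc j ^ 2 * ∑ A, v x (j, A) ^ 2) := by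
  have e1 : Wsq (wpot b G g m) x - Wsq (wpot b G g m + s • Uf G v) x =
      ∑ A, (-(2 * s) * (∑ α, ∑ β, wpot b G g m α β A x * Uf G v α β A x) -
        s ^ 2 * ∑ α, ∑ β, Uf G v α β A x ^ 2) := by
    rw [Wsq_eq_sum, Wsq_eq_sum, ← Finset.sum_sub_distrib]
    refine Finset.sum_congr rfl fun A _ => ?_
    simp only [Finset.mul_sum, ← Finset.sum_sub_distrib]
    refine Finset.sum_congr rfl fun α _ => Finset.sum_congr rfl fun β _ => ?_
    simp only [Pi.add_apply, Pi.smul_apply, smul_eq_mul]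
    ring
  rw [e1]
  simp only [sum_wpot_Uf, sum_Uf_sq]
  have e2 : ∑ j, cc j ^ 2 * ∑ A, x (j, A) * v x (j, A) =
      ∑ A, ∑ j, cc j ^ 2 * (x (j, A) * v x (j, A)) := by
    simp only [Finset.mul_sum]
    rw [Finset.sum_comm]
  have e3 : ∑ j, cc j ^ 2 * ∑ A, v x (j, A) ^ 2 = ∑ A, ∑ j, cc j ^ 2 * v x (j, A) ^ 2 := by
    simp only [Finset.mul_sum]
    rw [Finset.sum_comm]
  rw [e2, e3]
  unfold tau
  simp only [Finset.sum_sub_distrib, ← Finset.mul_sum]
  ring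

/-! ### 7. The size of the zero order operator of `Q^{g,m}` -/

theorem hasFDerivAt_quad (c : ℝ) (k l : Fin 9 × Fin (N ^ 2 - 1)) (x : Cfg N) :
    HasFDerivAt (fun y : Cfg N => c * (y k * y l))
      (c • (x k • (EuclideanSpace.proj l : Cfg N →L[ℝ] ℝ) +
        x l • (EuclideanSpace.proj k : Cfg N →L[ℝ] ℝ))) x := by
  have hk : HasFDerivAt (fun y : Cfg N => y k) (EuclideanSpace.proj k : Cfg N →L[ℝ] ℝ) x :=
    (EuclideanSpace.proj k : Cfg N →L[ℝ] ℝ).hasFDerivAt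
  have hl : HasFDerivAt (fun y : Cfg N => y l) (EuclideanSpace.proj l : Cfg N →L[ℝ] ℝ) x :=
    (EuclideanSpace.proj l : Cfg N →L[ℝ] ℝ).hasFDerivAt
  exact (hk.mul hl).const_mul c

/-- size constant of the commutator part -/
def cW (b : ColorBasis N) (G : GammaNine) : ℝ :=
  ∑ α : Fin 16, ∑ _k : Fin 9 × Fin (N ^ 2 - 1), ∑ β : Fin 16, ∑ A : Fin (N ^ 2 - 1),
    ∑ B : Fin (N ^ 2 - 1), ∑ C : Fin (N ^ 2 - 1), ∑ i : Fin 9, ∑ j : Fin 9,
      2 * |1 / 2 * b.structConst A B C * G.γ2 i j α β|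

theorem cW_nonneg (b : ColorBasis N) (G : GammaNine) : 0 ≤ cW b G := by
  unfold cW
  positivity

theorem zn_wco_le (b : ColorBasis N) (G : GammaNine) (x : Cfg N) :
    zn (wco b G) x ≤ cW b G * ‖x‖ := by
  unfold zn cW
  simp only [Finset.sum_mul]
  refine Finset.sum_le_sum fun α _ => Finset.sum_le_sum fun k _ => Finset.sum_le_sum fun β _ =>
    Finset.sum_le_sum fun A _ => ?_
  have hU : HasFDerivAt (wco b G α β A) (∑ B : Fin (N ^ 2 - 1), ∑ C : Fin (N ^ 2 - 1),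
      ∑ i : Fin 9, ∑ j : Fin 9, (1 / 2 * b.structConst A B C * G.γ2 i j α β) •
        (x (i, B) • (EuclideanSpace.proj (j, C) : Cfg N →L[ℝ] ℝ) +
          x (j, C) • (EuclideanSpace.proj (i, B) : Cfg N →L[ℝ] ℝ))) x := by
    have h1 : wco b G α β A = fun y => ∑ B : Fin (N ^ 2 - 1), ∑ C : Fin (N ^ 2 - 1),
        ∑ i : Fin 9, ∑ j : Fin 9, (1 / 2 * b.structConst A B C * G.γ2 i j α β) *
          (y (i, B) * y (j, C)) := by
      funext y
      unfold wco
      exact Finset.sum_congr rfl fun B _ => Finset.sum_congr rfl fun C _ =>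
        Finset.sum_congr rfl fun i _ => Finset.sum_congr rfl fun j _ => by ring
    rw [h1]
    exact HasFDerivAt.fun_sum fun B _ => HasFDerivAt.fun_sum fun C _ =>
      HasFDerivAt.fun_sum fun i _ => HasFDerivAt.fun_sum fun j _ => hasFDerivAt_quad _ _ _ x
  have h2 : dW (wco b G) α k x β A = ∑ B : Fin (N ^ 2 - 1), ∑ C : Fin (N ^ 2 - 1),
      ∑ i : Fin 9, ∑ j : Fin 9, (1 / 2 * b.structConst A B C * G.γ2 i j α β) *
        (x (i, B) * (EuclideanSpace.single k (1 : ℝ) : Cfg N) (j, C) +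
          x (j, C) * (EuclideanSpace.single k (1 : ℝ) : Cfg N) (i, B)) := by
    simp only [dW, hU.fderiv, ContinuousLinearMap.sum_apply]
    rfl
  have hx : ∀ p : Fin 9 × Fin (N ^ 2 - 1), |x p| ≤ ‖x‖ := fun p => by
    rw [← Real.norm_eq_abs]; exact PiLp.norm_apply_le _ _
  have hs : ∀ p : Fin 9 × Fin (N ^ 2 - 1), |(EuclideanSpace.single k (1 : ℝ) : Cfg N) p| ≤ 1 := by
    intro p
    rw [← Real.norm_eq_abs]
    refine (PiLp.norm_apply_le _ _).trans ?_
    rw [EuclideanSpace.norm_single, norm_one]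
  rw [h2]
  refine (Finset.abs_sum_le_sum_abs _ _).trans (Finset.sum_le_sum fun B _ => ?_)
  refine (Finset.abs_sum_le_sum_abs _ _).trans (Finset.sum_le_sum fun C _ => ?_)
  refine (Finset.abs_sum_le_sum_abs _ _).trans (Finset.sum_le_sum fun i _ => ?_)
  refine (Finset.abs_sum_le_sum_abs _ _).trans (Finset.sum_le_sum fun j _ => ?_)
  generalize 1 / 2 * b.structConst A B C * G.γ2 i j α β = c
  have h3 := mul_le_mul (hx (i, B)) (hs (j, C)) (abs_nonneg _) (norm_nonneg x)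
  have h4 := mul_le_mul (hx (j, C)) (hs (i, B)) (abs_nonneg _) (norm_nonneg x)
  rw [← abs_mul] at h3 h4
  have h5 := abs_add_le (x (i, B) * (EuclideanSpace.single k (1 : ℝ) : Cfg N) (j, C))
    (x (j, C) * (EuclideanSpace.single k (1 : ℝ) : Cfg N) (i, B))
  rw [abs_mul c]
  have h6 : |x (i, B) * (EuclideanSpace.single k (1 : ℝ) : Cfg N) (j, C) +
    x (j, C) * (EuclideanSpace.single k (1 : ℝ) : Cfg N) (i, B)| ≤ 2 * ‖x‖ := by linarith
  have h7 := mul_le_mul_of_nonneg_left h6 (abs_nonneg c)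
  linarith

theorem wpot_split (b : ColorBasis N) (G : GammaNine) (g m : ℝ) :
    wpot b G g m = g • wco b G + (-m) • Uf G id := by
  funext α β A x
  simp only [Pi.add_apply, Pi.smul_apply, smul_eq_mul, wpot, wco, Uf, id_eq]
  ring

theorem contDiff_wpot1 (b : ColorBasis N) (G : GammaNine) (g m : ℝ) (α β : Fin 16)
    (A : Fin (N ^ 2 - 1)) : ContDiff ℝ 1 (wpot b G g m α β A) :=
  ScaleD423.wpot_contDiff b G g m α β A

theorem zn_wpot_le (b : ColorBasis N) (G : GammaNine) (g m : ℝ) (x : Cfg N) :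
    zn (wpot b G g m) x ≤ |g| * (cW b G * ‖x‖) + |m| * cU N G := by
  have hw : ∀ α β A, ContDiff ℝ 1 (wco b G α β A) := fun α β A => wco_contDiff b G α β A
  have hu : ∀ α β A, ContDiff ℝ 1 (Uf (N := N) G id α β A) := fun α β A =>
    contDiff_Uf G contDiff_id α β A
  have hw' : ∀ α β A, ContDiff ℝ 1 ((g • wco b G) α β A) := fun α β A => by
    have h : (g • wco b G) α β A = fun x => g * wco b G α β A x := rfl
    rw [h]; exact contDiff_const.mul (hw α β A)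
  have hu' : ∀ α β A, ContDiff ℝ 1 (((-m) • Uf (N := N) G id) α β A) := fun α β A => by
    have h : ((-m) • Uf (N := N) G id) α β A = fun x => (-m) * Uf (N := N) G id α β A x := rfl
    rw [h]; exact contDiff_const.mul (hu α β A)
  have h0 := zn_add_le hw' hu' x
  rw [zn_smul g hw, zn_smul (-m) hu, abs_neg] at h0
  rw [wpot_split]
  have h1 : ‖fderiv ℝ (id : Cfg N → Cfg N) x‖ ≤ 1 := by
    rw [fderiv_id]; exact ContinuousLinearMap.norm_id_le
  have h2 : zn (Uf (N := N) G id) x ≤ cU N G := by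
    refine (zn_Uf_le G contDiff_id x).trans ?_
    calc cU N G * ‖fderiv ℝ (id : Cfg N → Cfg N) x‖ ≤ cU N G * 1 :=
          mul_le_mul_of_nonneg_left h1 (cU_nonneg N G)
      _ = cU N G := mul_one _
  have h3 := mul_le_mul_of_nonneg_left (zn_wco_le b G x) (abs_nonneg g)
  have h4 := mul_le_mul_of_nonneg_left h2 (abs_nonneg m)
  linarith

/-! ### 8. The potential from below and the commutator bound -/

theorem Wsq_wpot (b : ColorBasis N) (G : GammaNine) (g m : ℝ) (x : Cfg N) :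
    Wsq (wpot b G g m) x = 32 * Vsq G b g m x := by
  have e : ∑ A, ∑ α, ∑ β, wpot b G g m α β A x ^ 2 =
      ∑ α : Fin 16, ∑ β : Fin 16, ∑ A : Fin (N ^ 2 - 1), wpot b G g m α β A x ^ 2 := by
    rw [Finset.sum_comm]
    exact Finset.sum_congr rfl fun α _ => Finset.sum_comm
  rw [Wsq_eq_sum, e]
  unfold Vsq
  generalize (∑ α : Fin 16, ∑ β : Fin 16, ∑ A : Fin (N ^ 2 - 1), wpot b G g m α β A x ^ 2) = t
  ring

theorem cs_eq (b : ColorBasis N) (x : Cfg N) :
    cs b x = 2 * (∑ A, ((br b (comp x 1) (comp x 2) A) ^ 2 + (br b (comp x 2) (comp x 0) A) ^ 2 +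
      (br b (comp x 0) (comp x 1) A) ^ 2)) + 4 * Voth b x := by
  have h1 : cs b x = ∑ A, ∑ i : Fin 9, ∑ j : Fin 9, (br b (comp x i) (comp x j) A) ^ 2 := by
    unfold cs
    rw [Finset.sum_congr rfl fun i _ => Finset.sum_comm, Finset.sum_comm]
  rw [h1]
  have h2 : ∀ A, ∑ i : Fin 9, ∑ j : Fin 9, (br b (comp x i) (comp x j) A) ^ 2 =
      2 * ((br b (comp x 1) (comp x 2) A) ^ 2 + (br b (comp x 2) (comp x 0) A) ^ 2 +
        (br b (comp x 0) (comp x 1) A) ^ 2) + ∑ i : Fin 9, ∑ j : Fin 9,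
        (if (i : ℕ) < 3 ∧ (j : ℕ) < 3 then 0 else (br b (comp x i) (comp x j) A) ^ 2) := fun A =>
    VId87.sum_pairs (fun i j => (br b (comp x i) (comp x j) A) ^ 2)
      (fun i j => by rw [br_swap]; ring)
      (fun i => by
        have := br_swap b (comp x i) (comp x i) A
        have h0 : br b (comp x i) (comp x i) A = 0 := by linarith
        rw [h0]; norm_num)
  simp only [h2, Finset.sum_add_distrib, ← Finset.mul_sum]
  unfold Voth
  ring

theorem Vsq_ge (b : ColorBasis N) (G : GammaNine) (g m : ℝ) (x : Cfg N) :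
    g ^ 2 / 8 * cs b x - m ^ 2 / 18 * ‖x‖ ^ 2 ≤ Vsq G b g m x := by
  rw [Vsq_eq, cs_eq]
  have hV := VId87.Voth_nonneg b x
  have hH : 0 ≤ Vhi x := by
    unfold Vhi; positivity
  have hn := CoerCfg87.norm_sq_eq x
  have h1 : 1 / 2 * (g ^ 2 * ∑ A, ((br b (comp x 1) (comp x 2) A) ^ 2 +
      (br b (comp x 2) (comp x 0) A) ^ 2 + (br b (comp x 0) (comp x 1) A) ^ 2)) -
      m ^ 2 / 9 * ∑ i : Fin 3, ∑ A, (comp x (lo i) A) ^ 2 ≤ Vcyc b g m x := by
    have e1 : ∑ A, ((br b (comp x 1) (comp x 2) A) ^ 2 + (br b (comp x 2) (comp x 0) A) ^ 2 +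
        (br b (comp x 0) (comp x 1) A) ^ 2) =
        ∑ i : Fin 3, ∑ A, (br b (comp x (lo (i + 1))) (comp x (lo (i + 2))) A) ^ 2 := by
      rw [Fin.sum_univ_three]
      simp only [Finset.sum_add_distrib]
      have e0 : lo 0 = (0 : Fin 9) := rfl
      have e1 : lo 1 = (1 : Fin 9) := rfl
      have e2 : lo 2 = (2 : Fin 9) := rfl
      have a1 : (0 : Fin 3) + 1 = 1 := rfl
      have a2 : (0 : Fin 3) + 2 = 2 := rfl
      have a3 : (1 : Fin 3) + 1 = 2 := rfl
      have a4 : (1 : Fin 3) + 2 = 0 := rfl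
      have a5 : (2 : Fin 3) + 1 = 0 := rfl
      have a6 : (2 : Fin 3) + 2 = 1 := rfl
      rw [a1, a2, a3, a4, a5, a6, e0, e1, e2]
    rw [e1]
    unfold Vcyc
    simp only [Finset.mul_sum, ← Finset.sum_sub_distrib]
    refine Finset.sum_le_sum fun i _ => Finset.sum_le_sum fun A _ => ?_
    nlinarith [sq_nonneg (2 * (m * comp x (lo i) A / 3) -
      g * br b (comp x (lo (i + 1))) (comp x (lo (i + 2))) A)]
  have h2 : 0 ≤ m ^ 2 / 18 * Vhi x := by positivity
  have h3 : 0 ≤ m ^ 2 / 72 * Vhi x := by positivity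
  have h4 : 0 ≤ g ^ 2 * Voth b x := by positivity
  rw [hn]
  nlinarith

theorem sixteen_qf {b : ColorBasis N} {M : FermionRep N F} {G : GammaNine} {g m : ℝ}
    (φ : Cfg N → F) :
    ∑ α, ∫ x, ‖chargeW M G (wpot b G g m) α φ x‖ ^ 2 = 16 * qf b M G g m φ := by
  unfold qf
  simp only [ScaleD423.dcharge_eq]
  ring

theorem continuous_cs (b : ColorBasis N) : Continuous (cs b) := by
  unfold cs br comp
  fun_prop

theorem continuous_tau (b : ColorBasis N) {v : Cfg N → Cfg N} (hv : Continuous v) :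
    Continuous fun x => tau b x (v x) := by
  have h1 : ∀ k : Fin 9 × Fin (N ^ 2 - 1), Continuous fun x => v x k := fun k =>
    (EuclideanSpace.proj k : Cfg N →L[ℝ] ℝ).continuous.comp hv
  unfold tau br comp
  refine continuous_finsetSum _ fun A _ => ?_
  refine Continuous.add (Continuous.add ?_ ?_) ?_
  · exact (h1 _).mul (by fun_prop)
  · exact (h1 _).mul (by fun_prop)
  · exact (h1 _).mul (by fun_prop)

/-- **The commutator bound** `(g²/8) ∫ cs |φ|² ≤ q_{g,m}(φ) + ...`. -/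
theorem cs_bound (b : ColorBasis N) (M : FermionRep N F) (G : GammaNine) (g m : ℝ)
    {φ : Cfg N → F} (hφ : ContDiff ℝ 2 φ) (hc : HasCompactSupport φ) :
    g ^ 2 / 8 * (∫ x, cs b x * ‖φ x‖ ^ 2) ≤ qf b M G g m φ +
      |g| * cW b G / 16 * (∫ x, ‖x‖ * ‖φ x‖ ^ 2) + |m| * cU N G / 16 * (∫ x, ‖φ x‖ ^ 2) +
      m ^ 2 / 18 * (∫ x, ‖x‖ ^ 2 * ‖φ x‖ ^ 2) := by
  have hW : ∀ α β A, ContDiff ℝ 1 (wpot b G g m α β A) := contDiff_wpot1 b G g m
  have hcont := hφ.continuous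
  have h1 := weitz (M := M) hW (trZ_wpot b G g m) hφ hc
  rw [sixteen_qf] at h1
  have hk : 0 ≤ ∑ k : Fin 9 × Fin (N ^ 2 - 1),
      ∫ x, ‖fderiv ℝ φ x (EuclideanSpace.single k 1)‖ ^ 2 :=
    Finset.sum_nonneg fun k _ => integral_nonneg fun x => sq_nonneg _
  have i0 : Integrable fun x => ‖φ x‖ ^ 2 := by
    simpa using integrable_mul_sq (continuous_const (y := (1 : ℝ))) hcont hc
  have i1 : Integrable fun x : Cfg N => ‖x‖ * ‖φ x‖ ^ 2 :=
    integrable_mul_sq continuous_norm hcont hc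
  have i2 : Integrable fun x : Cfg N => ‖x‖ ^ 2 * ‖φ x‖ ^ 2 :=
    integrable_mul_sq (continuous_norm.pow 2) hcont hc
  have ics : Integrable fun x => cs b x * ‖φ x‖ ^ 2 := integrable_mul_sq (continuous_cs b) hcont hc
  have iW : Integrable fun x => Wsq (wpot b G g m) x / 2 * ‖φ x‖ ^ 2 :=
    integrable_mul_sq ((continuous_Wsq hW).div_const 2) hcont hc
  have iZ := integrable_Zop (M := M) (G := G) hW hcont hc
  have h2 : g ^ 2 / 8 * 16 * (∫ x, cs b x * ‖φ x‖ ^ 2) -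
      m ^ 2 / 18 * 16 * (∫ x, ‖x‖ ^ 2 * ‖φ x‖ ^ 2) ≤
      ∫ x, Wsq (wpot b G g m) x / 2 * ‖φ x‖ ^ 2 := by
    rw [← integral_const_mul, ← integral_const_mul, ← integral_sub (ics.const_mul _)
      (i2.const_mul _)]
    refine integral_mono ((ics.const_mul _).sub (i2.const_mul _)) iW fun x => ?_
    simp only
    rw [Wsq_wpot]
    have h3 := mul_le_mul_of_nonneg_right (Vsq_ge b G g m x) (sq_nonneg ‖φ x‖)
    nlinarith
  have h3 : -(|g| * cW b G * (∫ x, ‖x‖ * ‖φ x‖ ^ 2) + |m| * cU N G * (∫ x, ‖φ x‖ ^ 2)) ≤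
      ∫ x, (⟪φ x, Zop M G (wpot b G g m) x (φ x)⟫_ℂ).re := by
    rw [← integral_const_mul, ← integral_const_mul, ← integral_add (i1.const_mul _)
      (i0.const_mul _), ← integral_neg]
    refine integral_mono ((i1.const_mul _).add (i0.const_mul _)).neg iZ fun x => ?_
    have h4 := abs_Zop_le M G (wpot b G g m) x (φ x)
    have h5 := mul_le_mul_of_nonneg_right (zn_wpot_le b G g m x) (sq_nonneg ‖φ x‖)
    have h6 := neg_abs_le (⟪φ x, Zop M G (wpot b G g m) x (φ x)⟫_ℂ).re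
    nlinarith
  linarith

end Crest.Agent.R330.Sq423
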