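import Mathlib
import Crest.Prelude.Def_MatrixModel
import Crest.Agent.R330.Sq_423

/-!
Row 330 (helper423), leaf S10.1-TIGHT, part 2: tightness at infinity from a good vector field.

* `GoodField b v` : `v` is `C¹` with bounded derivative, `|⟨[x₂,x₃],v₁⟩ + cyc| ≤ K cs(x)`,
  `Σ c_j² ⟨x_j, v_j⟩ ≥ c |x|² - K`, `|v| ≤ K (1 + |x|)`.
* `tight_of_field` : for every `g₀ > 0` there is `C` such that for all `g ≥ g₀` and all `C²`
  compactly supported `φ` : `∫ |x|² |φ|² ≤ C (q_{g,1}(φ) + ∫ |φ|²)`.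
-/

set_option autoImplicit false
set_option linter.unusedSectionVars false
set_option linter.deprecated false

noncomputable section

namespace Crest.Agent.R330.Tight423

open MeasureTheory Filter Topology Crest.MathPhysics.MatrixQM
open Crest.Agent.R330.IBP837 Crest.Agent.R330.Weitz726 Crest.Agent.R330.Sq423
open Crest.Agent.R330.Defs478 (cc Gam wpot dcharge qf)
open Crest.Agent.R330.VId87 (Vsq Vsq_coer)
open scoped ContDiff InnerProductSpace ENNReal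

variable {N : ℕ} {F : Type*} [NormedAddCommGroup F] [InnerProductSpace ℂ F]
  [FiniteDimensional ℂ F]

/-- a good vector field -/
structure GoodField (b : ColorBasis N) (v : Cfg N → Cfg N) : Prop where
  smooth : ContDiff ℝ 1 v
  grad : ∃ K : ℝ, ∀ x, ‖fderiv ℝ v x‖ ≤ K
  comm : ∃ K : ℝ, ∀ x, |tau b x (v x)| ≤ K * cs b x
  low : ∃ c : ℝ, 0 < c ∧ ∃ K : ℝ, ∀ x,
    c * ‖x‖ ^ 2 - K ≤ ∑ j, cc j ^ 2 * ∑ A, x (j, A) * v x (j, A)
  size : ∃ K : ℝ, ∀ x, ‖v x‖ ≤ K * (1 + ‖x‖)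

theorem cc_sq_le (j : Fin 9) : cc j ^ 2 ≤ 1 / 9 := by
  unfold cc
  split_ifs <;> norm_num

theorem sum_cc_le (w : Cfg N) : ∑ j, cc j ^ 2 * ∑ A, w (j, A) ^ 2 ≤ 1 / 9 * ‖w‖ ^ 2 := by
  rw [EuclideanSpace.norm_sq_eq, Fintype.sum_prod_type, Finset.mul_sum]
  refine Finset.sum_le_sum fun j _ => ?_
  have h : ∑ A, w (j, A) ^ 2 = ∑ A, ‖w (j, A)‖ ^ 2 :=
    Finset.sum_congr rfl fun A _ => by rw [Real.norm_eq_abs, sq_abs]
  rw [h]
  exact mul_le_mul_of_nonneg_right (cc_sq_le j) (Finset.sum_nonneg fun A _ => sq_nonneg _)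

theorem integrable_sq {φ : Cfg N → F} (hφ : Continuous φ) (hc : HasCompactSupport φ) :
    Integrable fun x => ‖φ x‖ ^ 2 := by
  simpa using integrable_mul_sq (continuous_const (y := (1 : ℝ))) hφ hc

theorem int3 {f1 f2 f3 : Cfg N → ℝ} (i1 : Integrable f1) (i2 : Integrable f2)
    (i3 : Integrable f3) (a b c : ℝ) :
    ∫ x, (a * f1 x - b * f2 x - c * f3 x) = a * (∫ x, f1 x) - b * (∫ x, f2 x) -
      c * ∫ x, f3 x := by
  have h1 : Integrable fun x => a * f1 x - b * f2 x := (i1.const_mul a).sub (i2.const_mul b)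
  have h3 : Integrable fun x => c * f3 x := i3.const_mul c
  rw [integral_sub h1 h3, integral_sub (i1.const_mul a) (i2.const_mul b), integral_const_mul,
    integral_const_mul, integral_const_mul]

/-- the scalar inequality at a point -/
theorem key_real {s g c K3 K4 K5 X V S1 S2 t C : ℝ} (hs0 : 0 < s) (hg : 0 ≤ g) (hc0 : 0 < c)
    (hsK : s * K5 ^ 2 ≤ c) (hV0 : 0 ≤ V) (p1 : c * X ^ 2 - K4 ≤ S1) (p2 : S2 ≤ 1 / 9 * V ^ 2)
    (p3 : |t| ≤ K3 * C) (p4 : V ≤ K5 * (1 + X)) (p5 : 0 ≤ C) :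
    8 * s * c * X ^ 2 - (16 * s * |K4| + 2 * s ^ 2 * K5 ^ 2) - 6 * s * |K3| * g * C ≤
      (-(32 / 3) * g * s * t + 32 * 1 * s * S1 - 16 * s ^ 2 * S2) / 2 := by
  have q1 : V ^ 2 ≤ 2 * K5 ^ 2 * (1 + X ^ 2) := by
    have q0 : V ^ 2 ≤ (K5 * (1 + X)) ^ 2 := pow_le_pow_left₀ hV0 p4 2
    have q00 : 0 ≤ K5 ^ 2 * (1 - X) ^ 2 := by positivity
    nlinarith
  have q2 : t ≤ |K3| * C :=
    (le_abs_self t).trans (p3.trans (mul_le_mul_of_nonneg_right (le_abs_self K3) p5))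
  have q3 : s ^ 2 * S2 ≤ s ^ 2 * (2 / 9 * K5 ^ 2 * (1 + X ^ 2)) :=
    mul_le_mul_of_nonneg_left (by linarith) (sq_nonneg s)
  have q4 : s ^ 2 * K5 ^ 2 ≤ s * c := by
    have := mul_le_mul_of_nonneg_left hsK hs0.le
    nlinarith
  have q5 : s ^ 2 * K5 ^ 2 * X ^ 2 ≤ s * c * X ^ 2 :=
    mul_le_mul_of_nonneg_right q4 (sq_nonneg _)
  have q6 : s * (c * X ^ 2 - K4) ≤ s * S1 := mul_le_mul_of_nonneg_left p1 hs0.le
  have q7 : s * K4 ≤ s * |K4| := mul_le_mul_of_nonneg_left (le_abs_self _) hs0.le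
  have q8 : (s * g) * t ≤ (s * g) * (|K3| * C) :=
    mul_le_mul_of_nonneg_left q2 (mul_nonneg hs0.le hg)
  have q9 : 0 ≤ s * g * (|K3| * C) :=
    mul_nonneg (mul_nonneg hs0.le hg) (mul_nonneg (abs_nonneg _) p5)
  have q10 : 0 ≤ s ^ 2 * K5 ^ 2 := by positivity
  have q11 : 0 ≤ s * c * X ^ 2 := by positivity
  have r1 : (-(32 / 3) * g * s * t + 32 * 1 * s * S1 - 16 * s ^ 2 * S2) / 2 =
      -(16 / 3) * ((s * g) * t) + 16 * (s * S1) - 8 * (s ^ 2 * S2) := by ring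
  rw [r1]
  have r2 : s ^ 2 * (2 / 9 * K5 ^ 2 * (1 + X ^ 2)) =
    2 / 9 * (s ^ 2 * K5 ^ 2) + 2 / 9 * (s ^ 2 * K5 ^ 2 * X ^ 2) := by ring
  rw [r2] at q3
  have r3 : 6 * s * |K3| * g * C = 6 * (s * g * (|K3| * C)) := by ring
  have r4 : 8 * s * c * X ^ 2 = 8 * (s * c * X ^ 2) := by ring
  have r5 : s * (c * X ^ 2 - K4) = s * c * X ^ 2 - s * K4 := by ring
  rw [r5] at q6
  rw [r3, r4]
  linarith

section

variable {b : ColorBasis N} (M : FermionRep N F) (G : GammaNine) {v : Cfg N → Cfg N}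

theorem contDiff_sU {v : Cfg N → Cfg N} (hs : ContDiff ℝ 1 v) (s : ℝ) (α β : Fin 16)
    (A : Fin (N ^ 2 - 1)) : ContDiff ℝ 1 ((s • Uf G v) α β A) := by
  have h : (s • Uf G v) α β A = fun x => s * Uf G v α β A x := rfl
  rw [h]; exact contDiff_const.mul (contDiff_Uf G hs α β A)

theorem contDiff_W' {v : Cfg N → Cfg N} (hs : ContDiff ℝ 1 v) (b : ColorBasis N) (g s : ℝ)
    (α β : Fin 16) (A : Fin (N ^ 2 - 1)) :
    ContDiff ℝ 1 ((wpot b G g 1 + s • Uf G v) α β A) := by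
  have h : (wpot b G g 1 + s • Uf G v) α β A =
    fun x => wpot b G g 1 α β A x + (s • Uf G v) α β A x := rfl
  rw [h]; exact (contDiff_wpot1 b G g 1 α β A).add (contDiff_sU G hs s α β A)

/-- the potential part -/
theorem pot_part (hs : ContDiff ℝ 1 v) {s g c K3 K4 K5 : ℝ} (hs0 : 0 < s) (hg : 0 ≤ g)
    (hc0 : 0 < c) (hsK : s * K5 ^ 2 ≤ c) (hK3 : ∀ x, |tau b x (v x)| ≤ K3 * cs b x)
    (hK4 : ∀ x, c * ‖x‖ ^ 2 - K4 ≤ ∑ j, cc j ^ 2 * ∑ A, x (j, A) * v x (j, A))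
    (hK5 : ∀ x, ‖v x‖ ≤ K5 * (1 + ‖x‖)) {φ : Cfg N → F} (hcont : Continuous φ)
    (hcs : HasCompactSupport φ) :
    8 * s * c * (∫ x, ‖x‖ ^ 2 * ‖φ x‖ ^ 2) -
      (16 * s * |K4| + 2 * s ^ 2 * K5 ^ 2) * (∫ x, ‖φ x‖ ^ 2) -
      6 * s * |K3| * g * (∫ x, cs b x * ‖φ x‖ ^ 2) ≤
      ∫ x, (Wsq (wpot b G g 1) x - Wsq (wpot b G g 1 + s • Uf G v) x) / 2 * ‖φ x‖ ^ 2 := by
  have i0 := integrable_sq hcont hcs
  have i2 : Integrable fun x : Cfg N => ‖x‖ ^ 2 * ‖φ x‖ ^ 2 :=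
    integrable_mul_sq (continuous_norm.pow 2) hcont hcs
  have ics : Integrable fun x => cs b x * ‖φ x‖ ^ 2 :=
    integrable_mul_sq (continuous_cs b) hcont hcs
  have iD : Integrable fun x => (Wsq (wpot b G g 1) x -
      Wsq (wpot b G g 1 + s • Uf G v) x) / 2 * ‖φ x‖ ^ 2 :=
    integrable_mul_sq (((continuous_Wsq (contDiff_wpot1 b G g 1)).sub
      (continuous_Wsq (contDiff_W' G hs b g s))).div_const 2) hcont hcs
  rw [← int3 i2 i0 ics]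
  have i4 : Integrable fun x => 8 * s * c * (‖x‖ ^ 2 * ‖φ x‖ ^ 2) -
      (16 * s * |K4| + 2 * s ^ 2 * K5 ^ 2) * ‖φ x‖ ^ 2 -
      6 * s * |K3| * g * (cs b x * ‖φ x‖ ^ 2) :=
    ((i2.const_mul _).sub (i0.const_mul _)).sub (ics.const_mul _)
  refine integral_mono i4 iD fun x => ?_
  beta_reduce
  rw [Wsq_sub]
  have key := key_real (s := s) (g := g) (c := c) (K3 := K3) (K4 := K4) (K5 := K5) (X := ‖x‖)
    (V := ‖v x‖) hs0 hg hc0 hsK (norm_nonneg _) (hK4 x) (sum_cc_le (v x)) (hK3 x) (hK5 x)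
    (cs_nonneg b x)
  have h := mul_le_mul_of_nonneg_right key (sq_nonneg ‖φ x‖)
  refine le_trans (le_of_eq ?_) h
  ring

/-- the zero order part -/
theorem zero_part (hs : ContDiff ℝ 1 v) {s g K2 : ℝ} (hs0 : 0 < s)
    (hK2 : ∀ x, ‖fderiv ℝ v x‖ ≤ K2) {φ : Cfg N → F} (hcont : Continuous φ)
    (hcs : HasCompactSupport φ) :
    -(s * cU N G * K2 * ∫ x, ‖φ x‖ ^ 2) ≤
      ∫ x, ((⟪φ x, Zop M G (wpot b G g 1) x (φ x)⟫_ℂ).re -
        (⟪φ x, Zop M G (wpot b G g 1 + s • Uf G v) x (φ x)⟫_ℂ).re) := by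
  have i0 := integrable_sq hcont hcs
  have iZ : Integrable fun x => ((⟪φ x, Zop M G (wpot b G g 1) x (φ x)⟫_ℂ).re -
      (⟪φ x, Zop M G (wpot b G g 1 + s • Uf G v) x (φ x)⟫_ℂ).re) :=
    (integrable_Zop (M := M) (G := G) (contDiff_wpot1 b G g 1) hcont hcs).sub
      (integrable_Zop (M := M) (G := G) (contDiff_W' G hs b g s) hcont hcs)
  have hU := cU_nonneg N G
  rw [← integral_const_mul, ← integral_neg]
  refine integral_mono (i0.const_mul _).neg iZ fun x => ?_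
  have p1 : (⟪φ x, Zop M G (wpot b G g 1 + s • Uf G v) x (φ x)⟫_ℂ).re =
      (⟪φ x, Zop M G (wpot b G g 1) x (φ x)⟫_ℂ).re +
        (⟪φ x, Zop M G (s • Uf G v) x (φ x)⟫_ℂ).re := by
    rw [Zop_add M G (contDiff_wpot1 b G g 1) (contDiff_sU G hs s), inner_add_right,
      Complex.add_re]
  have p2 := abs_Zop_le M G (s • Uf G v) x (φ x)
  rw [zn_smul s (contDiff_Uf G hs), abs_of_pos hs0] at p2
  have p3 := zn_Uf_le G hs x
  have p4 : cU N G * ‖fderiv ℝ v x‖ ≤ cU N G * K2 := mul_le_mul_of_nonneg_left (hK2 x) hU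
  have p5 := mul_le_mul_of_nonneg_left (p3.trans p4) hs0.le
  have p6 := mul_le_mul_of_nonneg_right p5 (sq_nonneg ‖φ x‖)
  have p7 := le_abs_self (⟪φ x, Zop M G (s • Uf G v) x (φ x)⟫_ℂ).re
  beta_reduce
  rw [p1]
  have p8 : s * (cU N G * K2) * ‖φ x‖ ^ 2 = s * cU N G * K2 * ‖φ x‖ ^ 2 := by ring
  rw [p8] at p6
  linarith

/-- **The inequality produced by a good field.** -/
theorem main_ineq (hv : GoodField b v) :
    ∃ a : ℝ, 0 < a ∧ ∃ K : ℝ, 0 ≤ K ∧ ∀ g : ℝ, 0 ≤ g → ∀ φ : Cfg N → F, ContDiff ℝ 2 φ →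
      HasCompactSupport φ →
      a * (∫ x, ‖x‖ ^ 2 * ‖φ x‖ ^ 2) ≤ 16 * qf b M G g 1 φ +
        K * (g * ∫ x, cs b x * ‖φ x‖ ^ 2) + K * ∫ x, ‖φ x‖ ^ 2 := by
  obtain ⟨hs, ⟨K2, hK2⟩, ⟨K3, hK3⟩, ⟨c, hc0, K4, hK4⟩, ⟨K5, hK5⟩⟩ := hv
  have hK2' : 0 ≤ K2 := (norm_nonneg _).trans (hK2 0)
  have hU := cU_nonneg N G
  obtain ⟨s, hs0, hsK⟩ : ∃ s : ℝ, 0 < s ∧ s * K5 ^ 2 ≤ c := by
    refine ⟨c / (K5 ^ 2 + 1), by positivity, ?_⟩
    have h1 : c / (K5 ^ 2 + 1) * (K5 ^ 2 + 1) = c := by field_simp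
    have h2 : 0 < c / (K5 ^ 2 + 1) := by positivity
    nlinarith
  refine ⟨8 * s * c, by positivity,
    16 * s * |K4| + 2 * s ^ 2 * K5 ^ 2 + s * cU N G * K2 + 6 * s * |K3|, by positivity,
    fun g hg φ hφ hcs => ?_⟩
  have hcont := hφ.continuous
  have h1 := compare (M := M) (contDiff_wpot1 b G g 1) (trZ_wpot b G g 1)
    (contDiff_W' G hs b g s) (trZ_add (trZ_wpot b G g 1) (trZ_smul s (trZ_Uf G v))) hφ hcs
  rw [sixteen_qf] at h1
  have h2 := pot_part G hs hs0 hg hc0 hsK hK3 hK4 hK5 hcont hcs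
  have h3 := zero_part (b := b) M G (g := g) hs hs0 hK2 hcont hcs
  have hI0 : 0 ≤ ∫ x, ‖φ x‖ ^ 2 := integral_nonneg fun x => sq_nonneg _
  have hIc : 0 ≤ ∫ x, cs b x * ‖φ x‖ ^ 2 :=
    integral_nonneg fun x => mul_nonneg (cs_nonneg b x) (sq_nonneg _)
  generalize (∫ x, ‖φ x‖ ^ 2) = I0 at *
  generalize (∫ x, cs b x * ‖φ x‖ ^ 2) = Ic at *
  generalize (∫ x, ‖x‖ ^ 2 * ‖φ x‖ ^ 2) = I2 at *
  have hr1 : 0 ≤ (16 * s * |K4| + 2 * s ^ 2 * K5 ^ 2 + s * cU N G * K2) * (g * Ic) :=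
    mul_nonneg (by positivity) (mul_nonneg hg hIc)
  have hr2 : 0 ≤ 6 * s * |K3| * I0 := mul_nonneg (by positivity) hI0
  linarith

theorem I1_le {φ : Cfg N → F} (hcont : Continuous φ) (hcs : HasCompactSupport φ) {B a : ℝ}
    (ha : 0 < a) :
    B * (∫ x, ‖x‖ * ‖φ x‖ ^ 2) ≤ a * (∫ x, ‖x‖ ^ 2 * ‖φ x‖ ^ 2) +
      B ^ 2 / (4 * a) * ∫ x, ‖φ x‖ ^ 2 := by
  have i0 := integrable_sq hcont hcs
  have i1 : Integrable fun x : Cfg N => ‖x‖ * ‖φ x‖ ^ 2 :=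
    integrable_mul_sq continuous_norm hcont hcs
  have i2 : Integrable fun x : Cfg N => ‖x‖ ^ 2 * ‖φ x‖ ^ 2 :=
    integrable_mul_sq (continuous_norm.pow 2) hcont hcs
  rw [← integral_const_mul, ← integral_const_mul, ← integral_const_mul,
    ← integral_add (i2.const_mul _) (i0.const_mul _)]
  refine integral_mono (i1.const_mul _) ((i2.const_mul _).add (i0.const_mul _)) fun x => ?_
  beta_reduce
  have h1 : B * ‖x‖ ≤ a * ‖x‖ ^ 2 + B ^ 2 / (4 * a) := by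
    have h2 : a * ‖x‖ ^ 2 + B ^ 2 / (4 * a) - B * ‖x‖ = (2 * a * ‖x‖ - B) ^ 2 / (4 * a) := by
      field_simp
      ring
    have h3 : 0 ≤ (2 * a * ‖x‖ - B) ^ 2 / (4 * a) := by positivity
    linarith
  have h4 := mul_le_mul_of_nonneg_right h1 (sq_nonneg ‖φ x‖)
  linarith

/-- large couplings -/
theorem tight_large (hv : GoodField b v) :
    ∃ g₁ : ℝ, 1 ≤ g₁ ∧ ∃ C : ℝ, 0 ≤ C ∧ ∀ g : ℝ, g₁ ≤ g → ∀ φ : Cfg N → F, ContDiff ℝ 2 φ →
      HasCompactSupport φ →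
      (∫ x, ‖x‖ ^ 2 * ‖φ x‖ ^ 2) ≤ C * (qf b M G g 1 φ + ∫ x, ‖φ x‖ ^ 2) := by
  obtain ⟨a, ha, K, hK, hmain⟩ := main_ineq M G hv
  have hcW := cW_nonneg b G
  have hcU := cU_nonneg N G
  refine ⟨max 1 (16 * K / (9 * a)), le_max_left _ _,
    2 / a * (16 + 8 * K + K * cU N G / 2 + (K * cW b G / 2) ^ 2 / a + K), by positivity,
    fun g hg φ hφ hcs => ?_⟩
  have hg1 : 1 ≤ g := (le_max_left _ _).trans hg
  have hg0 : 0 < g := by linarith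
  have hg2 : 16 * K / (9 * a) ≤ g := (le_max_right _ _).trans hg
  have hcont := hφ.continuous
  have h1 := hmain g hg0.le φ hφ hcs
  have h2 := cs_bound b M G g 1 hφ hcs
  rw [abs_of_pos hg0, abs_one] at h2
  have h3 := I1_le hcont hcs (B := K * cW b G / 2) (a := a / 4) (by positivity)
  have hq : 0 ≤ qf b M G g 1 φ := by
    unfold qf
    exact mul_nonneg (by norm_num) (Finset.sum_nonneg fun α _ => integral_nonneg fun x =>
      sq_nonneg _)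
  have hI0 : 0 ≤ ∫ x, ‖φ x‖ ^ 2 := integral_nonneg fun x => sq_nonneg _
  have hI2 : 0 ≤ ∫ x, ‖x‖ ^ 2 * ‖φ x‖ ^ 2 :=
    integral_nonneg fun x => mul_nonneg (sq_nonneg _) (sq_nonneg _)
  generalize (∫ x, ‖φ x‖ ^ 2) = I0 at *
  generalize (∫ x, cs b x * ‖φ x‖ ^ 2) = Ic at *
  generalize (∫ x, ‖x‖ ^ 2 * ‖φ x‖ ^ 2) = I2 at *
  generalize (∫ x, ‖x‖ * ‖φ x‖ ^ 2) = I1 at *
  generalize qf b M G g 1 φ = q at *
  generalize cW b G = w at *
  generalize cU N G = u at *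
  -- K g Ic
  have e1 : K * (g * Ic) = 8 * K / g * (g ^ 2 / 8 * Ic) := by field_simp
  have e2 : 8 * K / g * (g ^ 2 / 8 * Ic) ≤ 8 * K / g * (q + g * w / 16 * I1 + 1 * u / 16 * I0 +
      1 ^ 2 / 18 * I2) := mul_le_mul_of_nonneg_left h2 (by positivity)
  have e3 : 8 * K / g * (q + g * w / 16 * I1 + 1 * u / 16 * I0 + 1 ^ 2 / 18 * I2) =
      8 * K / g * q + K * w / 2 * I1 + K * u / (2 * g) * I0 + 4 * K / (9 * g) * I2 := by
    field_simp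
    ring
  have f1 : 8 * K / g ≤ 8 * K := div_le_self (by positivity) hg1
  have f2 : K * u / (2 * g) ≤ K * u / 2 := by
    refine div_le_div_of_nonneg_left (by positivity) (by norm_num) (by linarith)
  have f3 : 4 * K / (9 * g) ≤ a / 4 := by
    rw [div_le_iff₀ (by positivity)] at hg2 ⊢
    linarith
  have g1 := mul_le_mul_of_nonneg_right f1 hq
  have g2 := mul_le_mul_of_nonneg_right f2 hI0
  have g3 := mul_le_mul_of_nonneg_right f3 hI2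
  have e4 : (K * w / 2) ^ 2 / (4 * (a / 4)) = (K * w / 2) ^ 2 / a := by congr 1; ring
  rw [e4] at h3
  have h4 : a / 2 * I2 ≤ (16 + 8 * K) * q + (K * u / 2 + (K * w / 2) ^ 2 / a + K) * I0 := by
    rw [e1] at h1
    rw [e3] at e2
    linarith
  have h5 : I2 = 2 / a * (a / 2 * I2) := by field_simp
  rw [h5, mul_assoc (2 / a)]
  refine mul_le_mul_of_nonneg_left ?_ (by positivity)
  refine h4.trans ?_
  have k1 : 0 ≤ (K * u / 2 + (K * w / 2) ^ 2 / a + K) * q := by positivity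
  have k2 : 0 ≤ (16 + 8 * K) * I0 := by positivity
  linarith

/-- couplings in a compact interval -/
theorem tight_small (hN : 0 < N) (b : ColorBasis N) {g₀ g₁ : ℝ} (h0 : 0 < g₀) :
    ∃ C : ℝ, 0 ≤ C ∧ ∀ g : ℝ, g₀ ≤ g → g ≤ g₁ → ∀ φ : Cfg N → F, ContDiff ℝ 2 φ →
      HasCompactSupport φ →
      (∫ x, ‖x‖ ^ 2 * ‖φ x‖ ^ 2) ≤ C * (qf b M G g 1 φ + ∫ x, ‖φ x‖ ^ 2) := by
  have hcW := cW_nonneg b G
  have hcU := cU_nonneg N G
  have hNr : (0 : ℝ) < N := by exact_mod_cast hN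
  set c : ℝ := 16 / (432 * (N : ℝ) ^ 3) with hc
  have hc0 : 0 < c := by positivity
  set D : ℝ := 16 * (1152 * (N : ℝ) ^ 10 / g₀ ^ 2) with hD
  have hD0 : 0 ≤ D := by positivity
  refine ⟨2 / c * (16 + D + cU N G + (|g₁| * cW b G) ^ 2 / (2 * c)), by positivity,
    fun g hg hg1 φ hφ hcs => ?_⟩
  have hg0 : 0 < g := h0.trans_le hg
  have hcont := hφ.continuous
  have hW : ∀ α β A, ContDiff ℝ 1 (wpot b G g 1 α β A) := contDiff_wpot1 b G g 1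
  have h1 := weitz (M := M) hW (trZ_wpot b G g 1) hφ hcs
  rw [sixteen_qf] at h1
  have hk : 0 ≤ ∑ k : Fin 9 × Fin (N ^ 2 - 1),
      ∫ x, ‖fderiv ℝ φ x (EuclideanSpace.single k 1)‖ ^ 2 :=
    Finset.sum_nonneg fun k _ => integral_nonneg fun x => sq_nonneg _
  have i0 := integrable_sq hcont hcs
  have i1 : Integrable fun x : Cfg N => ‖x‖ * ‖φ x‖ ^ 2 :=
    integrable_mul_sq continuous_norm hcont hcs
  have i2 : Integrable fun x : Cfg N => ‖x‖ ^ 2 * ‖φ x‖ ^ 2 :=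
    integrable_mul_sq (continuous_norm.pow 2) hcont hcs
  have iW : Integrable fun x => Wsq (wpot b G g 1) x / 2 * ‖φ x‖ ^ 2 :=
    integrable_mul_sq ((continuous_Wsq hW).div_const 2) hcont hcs
  have iZ := integrable_Zop (M := M) (G := G) hW hcont hcs
  have h2 : c * (∫ x, ‖x‖ ^ 2 * ‖φ x‖ ^ 2) - D * (∫ x, ‖φ x‖ ^ 2) ≤
      ∫ x, Wsq (wpot b G g 1) x / 2 * ‖φ x‖ ^ 2 := by
    rw [← integral_const_mul, ← integral_const_mul, ← integral_sub (i2.const_mul _)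
      (i0.const_mul _)]
    refine integral_mono ((i2.const_mul _).sub (i0.const_mul _)) iW fun x => ?_
    beta_reduce
    rw [Wsq_wpot]
    have h3 := Vsq_coer G hN b hg0 x
    have h4 : 1152 * (N : ℝ) ^ 10 / g ^ 2 ≤ 1152 * (N : ℝ) ^ 10 / g₀ ^ 2 :=
      div_le_div_of_nonneg_left (by positivity) (by positivity) (pow_le_pow_left₀ h0.le hg 2)
    have h5 : c * ‖x‖ ^ 2 - D ≤ 16 * Vsq G b g 1 x := by
      have e : c * ‖x‖ ^ 2 = 16 * (‖x‖ ^ 2 / (432 * (N : ℝ) ^ 3)) := by rw [hc]; ring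
      rw [e, hD]
      linarith
    have h6 := mul_le_mul_of_nonneg_right h5 (sq_nonneg ‖φ x‖)
    linarith
  have h3 : -(|g₁| * cW b G * (∫ x, ‖x‖ * ‖φ x‖ ^ 2) + cU N G * (∫ x, ‖φ x‖ ^ 2)) ≤
      ∫ x, (⟪φ x, Zop M G (wpot b G g 1) x (φ x)⟫_ℂ).re := by
    rw [← integral_const_mul, ← integral_const_mul, ← integral_add (i1.const_mul _)
      (i0.const_mul _), ← integral_neg]
    refine integral_mono ((i1.const_mul _).add (i0.const_mul _)).neg iZ fun x => ?_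
    have h4 := abs_Zop_le M G (wpot b G g 1) x (φ x)
    have h5 := zn_wpot_le b G g 1 x
    rw [abs_of_pos hg0, abs_one, one_mul] at h5
    have h6 : g * (cW b G * ‖x‖) ≤ |g₁| * (cW b G * ‖x‖) :=
      mul_le_mul_of_nonneg_right (hg1.trans (le_abs_self _)) (by positivity)
    have h7 := mul_le_mul_of_nonneg_right (h5.trans (add_le_add_left h6 _)) (sq_nonneg ‖φ x‖)
    have h8 := neg_abs_le (⟪φ x, Zop M G (wpot b G g 1) x (φ x)⟫_ℂ).re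
    beta_reduce
    nlinarith
  have h4 := I1_le hcont hcs (B := |g₁| * cW b G) (a := c / 2) (by positivity)
  have hq : 0 ≤ qf b M G g 1 φ := by
    unfold qf
    exact mul_nonneg (by norm_num) (Finset.sum_nonneg fun α _ => integral_nonneg fun x =>
      sq_nonneg _)
  have hI0 : 0 ≤ ∫ x, ‖φ x‖ ^ 2 := integral_nonneg fun x => sq_nonneg _
  have e4 : (|g₁| * cW b G) ^ 2 / (4 * (c / 2)) = (|g₁| * cW b G) ^ 2 / (2 * c) := by
    congr 1; ring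
  rw [e4] at h4
  clear_value c D
  generalize (∫ x, ‖φ x‖ ^ 2) = I0 at *
  generalize (∫ x, ‖x‖ ^ 2 * ‖φ x‖ ^ 2) = I2 at *
  generalize (∫ x, ‖x‖ * ‖φ x‖ ^ 2) = I1 at *
  generalize qf b M G g 1 φ = q at *
  generalize (∑ k : Fin 9 × Fin (N ^ 2 - 1),
      ∫ x, ‖fderiv ℝ φ x (EuclideanSpace.single k 1)‖ ^ 2) = k0 at *
  have h5 : c / 2 * I2 ≤ 16 * q + (D + cU N G + (|g₁| * cW b G) ^ 2 / (2 * c)) * I0 := by
    linarith
  have h6 : I2 = 2 / c * (c / 2 * I2) := by field_simp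
  rw [h6, mul_assoc (2 / c)]
  refine mul_le_mul_of_nonneg_left ?_ (by positivity)
  refine h5.trans ?_
  have k1 : 0 ≤ (D + cU N G + (|g₁| * cW b G) ^ 2 / (2 * c)) * q := by positivity
  have k2 : 0 ≤ 16 * I0 := by positivity
  linarith

/-- **Tightness from a good field**, all couplings `g ≥ g₀`. -/
theorem tight_of_field (hN : 0 < N) (hv : GoodField b v) {g₀ : ℝ} (h0 : 0 < g₀) :
    ∃ C : ℝ, 0 ≤ C ∧ ∀ g : ℝ, g₀ ≤ g → ∀ φ : Cfg N → F, ContDiff ℝ 2 φ →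
      HasCompactSupport φ →
      (∫ x, ‖x‖ ^ 2 * ‖φ x‖ ^ 2) ≤ C * (qf b M G g 1 φ + ∫ x, ‖φ x‖ ^ 2) := by
  obtain ⟨g₁, _, C₁, hC₁, h1⟩ := tight_large M G hv
  obtain ⟨C₂, hC₂, h2⟩ := tight_small M G hN b (g₁ := g₁) h0
  refine ⟨C₁ + C₂, add_nonneg hC₁ hC₂, fun g hg φ hφ hcs => ?_⟩
  have hq : 0 ≤ qf b M G g 1 φ + ∫ x, ‖φ x‖ ^ 2 := by
    unfold qf
    exact add_nonneg (mul_nonneg (by norm_num) (Finset.sum_nonneg fun α _ =>
      integral_nonneg fun x => sq_nonneg _)) (integral_nonneg fun x => sq_nonneg _)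
  rcases le_total g₁ g with h | h
  · refine (h1 g h φ hφ hcs).trans (mul_le_mul_of_nonneg_right ?_ hq)
    linarith
  · refine (h2 g hg h φ hφ hcs).trans (mul_le_mul_of_nonneg_right ?_ hq)
    linarith

/-- **(10.1)** for functions which vanish on a ball. -/
theorem far_of_field (hN : 0 < N) (hv : GoodField b v) {g₀ : ℝ} (h0 : 0 < g₀) :
    ∃ L₀ c : ℝ, 0 < L₀ ∧ 0 < c ∧ ∀ g : ℝ, g₀ ≤ g → ∀ φ : Cfg N → F, ContDiff ℝ 2 φ →
      HasCompactSupport φ → (∀ x, ‖x‖ < L₀ → φ x = 0) →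
      c * (∫ x, ‖x‖ ^ 2 * ‖φ x‖ ^ 2) ≤ qf b M G g 1 φ := by
  obtain ⟨C, hC, h1⟩ := tight_of_field M G hN hv h0
  refine ⟨√(2 * (C + 1)), 1 / (2 * (C + 1)), by positivity, by positivity,
    fun g hg φ hφ hcs h2 => ?_⟩
  have hcont := hφ.continuous
  have h3 := h1 g hg φ hφ hcs
  have h4 : 2 * (C + 1) * (∫ x, ‖φ x‖ ^ 2) ≤ ∫ x, ‖x‖ ^ 2 * ‖φ x‖ ^ 2 := by
    rw [← integral_const_mul]
    refine integral_mono ((integrable_sq hcont hcs).const_mul _)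
      (integrable_mul_sq (continuous_norm.pow 2) hcont hcs) fun x => ?_
    beta_reduce
    rcases lt_or_ge ‖x‖ √(2 * (C + 1)) with h | h
    · rw [h2 x h]; simp
    · have h5 : 2 * (C + 1) ≤ ‖x‖ ^ 2 := by
        have := pow_le_pow_left₀ (Real.sqrt_nonneg _) h 2
        rwa [Real.sq_sqrt (by positivity)] at this
      exact mul_le_mul_of_nonneg_right h5 (sq_nonneg _)
  have hq : 0 ≤ qf b M G g 1 φ := by
    unfold qf
    exact mul_nonneg (by norm_num) (Finset.sum_nonneg fun α _ => integral_nonneg fun x =>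
      sq_nonneg _)
  have hI0 : 0 ≤ ∫ x, ‖φ x‖ ^ 2 := integral_nonneg fun x => sq_nonneg _
  generalize (∫ x, ‖φ x‖ ^ 2) = I0 at *
  generalize (∫ x, ‖x‖ ^ 2 * ‖φ x‖ ^ 2) = I2 at *
  generalize qf b M G g 1 φ = q at *
  rw [div_mul_eq_mul_div, one_mul, div_le_iff₀ (by positivity)]
  nlinarith

end

end Crest.Agent.R330.Tight423
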