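import Mathlib
import Crest.Prelude.Def_MatrixModel
import Crest.Agent.R330.Tight_423
import Crest.Agent.R330.TrialSys_796
import Crest.Agent.R330.TightA_399

/-!
Row 330 (helper423), leaf S10.1-TIGHT, part 3: the frozen Props `TrialSys796.TightAll` (796's (d))
and `TightA399.Tight` from good vector fields.
-/

set_option autoImplicit false

noncomputable section

namespace Crest.Agent.R330.TightTop423

open MeasureTheory Filter Topology Crest.MathPhysics.MatrixQM
open Crest.Agent.R330.Tight423 Crest.Agent.R330.Defs478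

variable {N : ℕ}

theorem tight_of_exists (hN : 0 < N) {b : ColorBasis N} (h : ∃ v, GoodField b v)
    {F : Type*} [NormedAddCommGroup F] [InnerProductSpace ℂ F] [FiniteDimensional ℂ F]
    (M : FermionRep N F) (R : GaugeAction b M) (G : GammaNine) :
    TrialSys796.Tight b M R G := by
  obtain ⟨v, hv⟩ := h
  obtain ⟨C, _, hC⟩ := tight_of_field M G hN hv one_pos
  refine ⟨C, 1, fun g hg φ hφ => ?_⟩
  have h1 := hC g hg φ (IBP837.core_contDiff hφ (WithTop.coe_le_coe.2 le_top)) hφ.2.1
  unfold TrialSys796.En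
  rwa [add_comm]

theorem tightAll_of_exists (hN : 0 < N) (h : ∀ b : ColorBasis N, ∃ v, GoodField b v) :
    TrialSys796.TightAll N := fun _ _ _ _ _ b M R G => tight_of_exists hN (h b) M R G

theorem tightA_of_exists (hN : 0 < N) {b : ColorBasis N} (h : ∃ v, GoodField b v)
    {F : Type*} [NormedAddCommGroup F] [InnerProductSpace ℂ F] [FiniteDimensional ℂ F]
    (M : FermionRep N F) (R : GaugeAction b M) (G : GammaNine) :
    TightA399.Tight b M R G := by
  obtain ⟨v, hv⟩ := h
  obtain ⟨L₀, c, hL, hc, hC⟩ := far_of_field M G hN hv one_pos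
  exact ⟨L₀, c, hL, hc, fun g hg φ hφ h0 =>
    hC g hg φ (IBP837.core_contDiff hφ (WithTop.coe_le_coe.2 le_top)) hφ.2.1 h0⟩

end Crest.Agent.R330.TightTop423
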