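import Mathlib
import Crest.Prelude.Def_MatrixModel
import Crest.Agent.R330.Tight_423
import Crest.Agent.R330.TightTop_423
import Crest.Agent.R330.TightF_291

/-!
Row 330 (helper423 + helper291), leaf S10.1-TIGHT closed: tightness at infinity, uniform in the
coupling.
-/

set_option autoImplicit false

noncomputable section

namespace Crest.Agent.R330.TightAll423

open MeasureTheory Filter Topology Crest.MathPhysics.MatrixQM
open Crest.Agent.R330.Tight423 Crest.Agent.R330.Defs478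

variable {N : ℕ}

/-- the field of helper291 is a good field -/
theorem exists_good (hN : 0 < N) (b : ColorBasis N) : ∃ v, GoodField b v := by
  obtain ⟨v, h1, ⟨K2, _, h2⟩, ⟨K3, _, h3⟩, h4, ⟨K5, hK5, h5⟩⟩ := TightF291.exists_field b hN
  exact ⟨v, h1.of_le (by simp), ⟨K2, h2⟩, ⟨K3, h3⟩, h4, ⟨K5, fun x => (h5 x).trans
    (mul_le_mul_of_nonneg_left (by linarith) hK5)⟩⟩

/-- **Tightness**, for all `C²` compactly supported functions. -/
theorem tight (hN : 0 < N) {b : ColorBasis N} {F : Type*} [NormedAddCommGroup F]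
    [InnerProductSpace ℂ F] [FiniteDimensional ℂ F] (M : FermionRep N F) (G : GammaNine)
    {g₀ : ℝ} (h0 : 0 < g₀) :
    ∃ C : ℝ, 0 ≤ C ∧ ∀ g : ℝ, g₀ ≤ g → ∀ φ : Cfg N → F, ContDiff ℝ 2 φ →
      HasCompactSupport φ →
      (∫ x, ‖x‖ ^ 2 * ‖φ x‖ ^ 2) ≤ C * (qf b M G g 1 φ + ∫ x, ‖φ x‖ ^ 2) := by
  obtain ⟨v, hv⟩ := exists_good hN b
  exact tight_of_field M G hN hv h0

/-- **(10.1)**. -/
theorem far (hN : 0 < N) {b : ColorBasis N} {F : Type*} [NormedAddCommGroup F]
    [InnerProductSpace ℂ F] [FiniteDimensional ℂ F] (M : FermionRep N F) (G : GammaNine)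
    {g₀ : ℝ} (h0 : 0 < g₀) :
    ∃ L₀ c : ℝ, 0 < L₀ ∧ 0 < c ∧ ∀ g : ℝ, g₀ ≤ g → ∀ φ : Cfg N → F, ContDiff ℝ 2 φ →
      HasCompactSupport φ → (∀ x, ‖x‖ < L₀ → φ x = 0) →
      c * (∫ x, ‖x‖ ^ 2 * ‖φ x‖ ^ 2) ≤ qf b M G g 1 φ := by
  obtain ⟨v, hv⟩ := exists_good hN b
  exact far_of_field M G hN hv h0

/-- **796's (d).** -/
theorem tightAll (hN : 0 < N) : TrialSys796.TightAll N :=
  TightTop423.tightAll_of_exists hN fun b => exists_good hN b

/-- 399's form. -/
theorem tightA (hN : 0 < N) {b : ColorBasis N} {F : Type*} [NormedAddCommGroup F]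
    [InnerProductSpace ℂ F] [FiniteDimensional ℂ F] (M : FermionRep N F)
    (R : GaugeAction b M) (G : GammaNine) : TightA399.Tight b M R G :=
  TightTop423.tightA_of_exists hN (exists_good hN b) M R G

end Crest.Agent.R330.TightAll423
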