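import Mathlib

/-!
Row 330 (helper350): square roots of symmetric non-negative maps.
-/

set_option autoImplicit false

open scoped InnerProductSpace

noncomputable section

namespace Crest.Agent.R330.Sqrt350

/-- A symmetric non-negative real map has a symmetric square root; its range is the orthogonal
complement of the kernel. -/
theorem exists_sqrt {E : Type*} [NormedAddCommGroup E] [InnerProductSpace ℝ E]
    [FiniteDimensional ℝ E] {A : E →ₗ[ℝ] E} (hs : A.IsSymmetric) (hp : ∀ u, 0 ≤ ⟪u, A u⟫_ℝ) :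
    ∃ B : E →ₗ[ℝ] E, (∀ x y, ⟪B x, y⟫_ℝ = ⟪x, B y⟫_ℝ) ∧ (∀ x, B (B x) = A x) ∧
      ∀ y, (∀ u, A u = 0 → ⟪u, y⟫_ℝ = 0) → ∃ w, B w = y := by
  set n := Module.finrank ℝ E with hn
  set e : OrthonormalBasis (Fin n) ℝ E := hs.eigenvectorBasis rfl with he
  set l : Fin n → ℝ := hs.eigenvalues rfl with hl
  have hA : ∀ i, A (e i) = l i • e i := fun i => hs.apply_eigenvectorBasis rfl i
  have hl0 : ∀ i, 0 ≤ l i := by
    intro i
    have h := hp (e i)
    rw [hA, inner_smul_right, real_inner_self_eq_norm_sq, e.norm_eq_one] at h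
    simpa using h
  let B : E →ₗ[ℝ] E := ∑ i, Real.sqrt (l i) • (innerₛₗ ℝ (e i)).smulRight (e i)
  have hB : ∀ x, B x = ∑ i, (Real.sqrt (l i) * ⟪e i, x⟫_ℝ) • e i := by
    intro x
    simp only [B, LinearMap.sum_apply, LinearMap.smul_apply, LinearMap.smulRight_apply,
      innerₛₗ_apply_apply, smul_smul]
  have hBe : ∀ i, B (e i) = Real.sqrt (l i) • e i := by
    intro i
    rw [hB, Finset.sum_eq_single i]
    · rw [real_inner_self_eq_norm_sq, e.norm_eq_one]
      norm_num
    · intro j _ hj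
      rw [e.orthonormal.2 hj, mul_zero, zero_smul]
    · intro h
      exact absurd (Finset.mem_univ _) h
  refine ⟨B, fun x y => ?_, fun x => ?_, fun y hy => ?_⟩
  · rw [hB, hB, sum_inner, inner_sum]
    refine Finset.sum_congr rfl fun i _ => ?_
    rw [real_inner_smul_left, real_inner_smul_right, real_inner_comm x (e i)]
    ring
  · have h : B.comp B = A := by
      refine e.toBasis.ext fun i => ?_
      rw [LinearMap.comp_apply, OrthonormalBasis.coe_toBasis, hBe, map_smul, hBe, smul_smul,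
        Real.mul_self_sqrt (hl0 i), hA]
    exact LinearMap.congr_fun h x
  · refine ⟨∑ i, ((Real.sqrt (l i))⁻¹ * ⟪e i, y⟫_ℝ) • e i, ?_⟩
    rw [map_sum]
    conv_rhs => rw [← e.sum_repr' y]
    refine Finset.sum_congr rfl fun i _ => ?_
    rw [map_smul, hBe, smul_smul]
    by_cases h0 : l i = 0
    · have h1 : ⟪e i, y⟫_ℝ = 0 := hy _ (by rw [hA, h0, zero_smul])
      rw [h1]
      simp
    · have h1 : Real.sqrt (l i) ≠ 0 := (Real.sqrt_pos.2 (lt_of_le_of_ne (hl0 i) (Ne.symm h0))).ne'
      congr 1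
      field_simp

end Crest.Agent.R330.Sqrt350
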