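import Crest.Agent.R330.LiouP_350
import Crest.Agent.R330.LinI_561
import Crest.Agent.R330.Sqrt_350

/-!
Row 330 (helper350): `LiouvilleProp N`, closed.
-/

set_option autoImplicit false
set_option linter.unusedSectionVars false

open MeasureTheory Filter Topology
open scoped ContDiff InnerProductSpace ENNReal
open Crest.MathPhysics.MatrixQM

noncomputable section

namespace Crest.Agent.R330.LiouQ350

open Crest.Agent.R330.Defs478 Crest.Agent.R330.S5Defs798 Crest.Agent.R330.LinEx674
  Crest.Agent.R330.LiouP350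

variable {N : ℕ}

theorem brk_hi (b : ColorBasis N) {c : Cfg N} (hc : IsVacCfg b c) (om : Fin (N ^ 2 - 1) → ℝ)
    {j : Fin 9} (hj : 3 ≤ (j : ℕ)) (A : Fin (N ^ 2 - 1)) : brk b om c (j, A) = 0 := by
  change CoerCfg87.br b om (CoerCfg87.comp c j) A = 0
  have h2 : CoerCfg87.comp c j = fun _ => 0 := by
    funext B
    exact Lin561.comp_hi b hc hj B
  rw [h2]
  unfold CoerCfg87.br
  simp

/-- the package at every vacuum configuration -/
theorem exPack (F : Type) [NormedAddCommGroup F] [InnerProductSpace ℂ F]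
    [FiniteDimensional ℂ F] [Nontrivial F] (b : ColorBasis N) (M : FermionRep N F)
    (R : GaugeAction b M) (G : GammaNine) (c : Cfg N) (hc : IsVacCfg b c) :
    ∃ I A B, ∃ Ω : F, EXPack b M G c I A B Ω := by
  obtain ⟨A, Ω, I, hV, hW, hI, hb⟩ := Lin561.linModel b G M R c hc
  have hAs : A.IsSymmetric := fun x y => hV.symm x y
  obtain ⟨B, hB, hBB, hBr⟩ := Sqrt350.exists_sqrt hAs hV.pos
  refine ⟨I, A, B, Ω, hI, hW, hB, hBB, fun u hu => (hV.ker u).1 hu,
    ⟨8, fun a => hBr _ fun u hu => ?_⟩, ?_, hb⟩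
  · obtain ⟨om, rfl⟩ := (hV.ker u).1 hu
    rw [EuclideanSpace.inner_single_right]
    rw [brk_hi b hc om (by decide : 3 ≤ ((8 : Fin 9) : ℕ)) a]
    simp
  · intro h0
    have := hV.unit
    rw [h0, norm_zero] at this
    norm_num at this

/-- **LEAF S5-LIOUVILLE**, closed. -/
theorem liouvilleProp (N : ℕ) : LiouvilleProp N :=
  liouvilleProp_of fun F _ _ _ _ b M R G c hc => exPack F b M R G c hc

end Crest.Agent.R330.LiouQ350

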