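import Crest.Agent.R330.UpFin_8
import Crest.Agent.R330.LiouQ_350

/-!
Row 330 (helper350): `Upper N`, closed (field `up` of S12).
-/

set_option autoImplicit false

namespace Crest.Agent.R330.UpCl350

open Crest.Agent.R330.S5Defs798

/-- **field `up`**, closed. -/
theorem upper {N : ℕ} (hN : 0 < N) : Upper N :=
  UpFin8.upper hN (Lin561.vacPackProp N) (LiouQ350.liouvilleProp N)

end Crest.Agent.R330.UpCl350
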