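import Crest.Agent.R330.Const_87
import Crest.Agent.R330.GapAllN_967
import Crest.Agent.R330.LowFin_967
import Crest.Agent.R330.UpCl_350
import Crest.Agent.R330.TightAll_423
import Crest.Agent.R330.Even_522
import Crest.Agent.R330.CapZB_818
import Crest.Agent.R330.HardyL_968

/-!
# Row 330: S0512 from the channels (helper478, closer of section 12)

`s0512_of_chan` : the statement of S0512 follows from `Below N → ChanAll N` for all `N ≥ 2`.
-/

set_option autoImplicit false

open MeasureTheory Filter Topology Crest.MathPhysics.MatrixQM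
open scoped ContDiff InnerProductSpace ENNReal

noncomputable section

namespace Crest.Agent.R330.Last478

open Crest.Agent.R330.Defs478 Crest.Agent.R330.Top478 Crest.Agent.R330.Sec478
  Crest.Agent.R330.SInd478 Crest.Agent.R330.Close478

theorem stepIn {N : ℕ} (hN : 2 ≤ N) (h : Below N → Chan441.ChanAll N) : StepIn N where
  gap := GapAllN967.gapAll N
  l42 := Const87.l42All (by omega)
  low := LowFin967.lower (by omega)
  up := UpCl350.upper (by omega)
  dlow := (CapZB818.top h (TightAll423.tightAll (by omega))).dlow
  dup := (CapZB818.top h (TightAll423.tightAll (by omega))).dup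
  ann := (CapZB818.top h (TightAll423.tightAll (by omega))).ann
  decay := HardyL968.decay_all N
  hardy := HardyL968.hardy_all N
  even _ := Even522.evenAll N

/-- **The induction**, from the channels. -/
theorem dim1_all (h : ∀ N, 2 ≤ N → Below N → Chan441.ChanAll N) :
    ∀ N, 2 ≤ N → Dim1 N ∧ SInd N :=
  Close478.dim1_all fun N hN => stepIn hN (h N hN)

/-- **The statement of S0512** from the channels. -/
theorem s0512_of_chan (h : ∀ N, 2 ≤ N → Below N → Chan441.ChanAll N) {N : ℕ} (hN : 2 ≤ N)
    (F : Type) [NormedAddCommGroup F] [InnerProductSpace ℂ F] [FiniteDimensional ℂ F]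
    [Nontrivial F] (b : ColorBasis N) (M : FermionRep N F) (R : GaugeAction b M)
    (G : GammaNine) :
    ∃ Ψ₀ ∈ zeroEnergyStates b M R G, ¬ (Ψ₀ =ᵐ[volume] 0) ∧
      ∀ Ψ ∈ zeroEnergyStates b M R G, ∃ c : ℂ, Ψ =ᵐ[volume] c • Ψ₀ :=
  Close478.s0512_of (fun N hN => stepIn hN (h N hN)) hN F b M R G

end Crest.Agent.R330.Last478

end
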