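import Crest.Agent.R330.SlD_314
import Crest.Agent.R330.Conc_815

/-!
# Row 330, S8-G2 (ii) (helper974): concentration of slice functions

* `SliceInt b c r J` : the slice integration formula with density `J` (314 / 712; field `int` of
  414's `Sl`).
* `orb b K` : the union of the orbits of the points of `K`.
* `far b c r d ρ` : `{u ∈ Nor b c | ‖u‖ < r, ρ ≤ d u}`.
* `SConc b c r J d φ` : the mass of `φ g` in `far b c r d ρ` tends to zero, for every `ρ > 0`.
* `conc_of_sconc` : `SConc` gives `Conc815.Conc` on `orb b K` if `dist (c + u, K) ≤ d u`.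
* `bdd_of_slice` : boundedness in `L²`.
* `sconc_of_moment` : Markov.
* `sconc_mul` : `∫ |h|² |φ g|² J → 0` for `h → 0` as `d → 0`.
-/

set_option autoImplicit false
set_option linter.unusedSectionVars false

noncomputable section

open MeasureTheory Filter Topology Set Metric
open Crest.MathPhysics.MatrixQM
open Crest.Agent.R330.SlA314 Crest.Agent.R330.SlB314 Crest.Agent.R330.SlC314
open Crest.Agent.R330.SlD314
open scoped ENNReal InnerProductSpace

namespace Crest.Agent.R330.ConcB974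

variable {N : ℕ} {F : Type*} [NormedAddCommGroup F] [InnerProductSpace ℂ F]

/-! ### 1. Definitions -/

/-- The slice integration formula with density `J`. -/
def SliceInt (b : ColorBasis N) (c : Cfg N) (r : ℝ) (J : Cfg N → ℝ) : Prop :=
  ∀ f : Cfg N → ℝ≥0∞, Measurable f →
    (∀ (h : Matrix.specialUnitaryGroup (Fin N) ℂ) (x : Cfg N), f (b.act h x) = f x) →
    ∫⁻ x in tube b c r, f x =
      ∫⁻ u in ball (0 : Nor b c) r, ENNReal.ofReal (J (u : Cfg N)) * f (c + (u : Cfg N))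

/-- The union of the orbits of the points of `K`. -/
def orb (b : ColorBasis N) (K : Set (Cfg N)) : Set (Cfg N) :=
  {x | ∃ (h : Matrix.specialUnitaryGroup (Fin N) ℂ) (y : Cfg N), y ∈ K ∧ b.act h y = x}

theorem subset_orb (b : ColorBasis N) (K : Set (Cfg N)) : K ⊆ orb b K := fun x hx =>
  ⟨1, x, hx, act_one b x⟩

theorem orb_mono (b : ColorBasis N) {K K' : Set (Cfg N)} (h : K ⊆ K') : orb b K ⊆ orb b K' := by
  rintro x ⟨g, y, hy, rfl⟩
  exact ⟨g, y, h hy, rfl⟩

theorem act_image_orb (b : ColorBasis N) (K : Set (Cfg N))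
    (h : Matrix.specialUnitaryGroup (Fin N) ℂ) : b.act h '' orb b K = orb b K := by
  ext x
  constructor
  · rintro ⟨y, ⟨g, z, hz, rfl⟩, rfl⟩
    exact ⟨h * g, z, hz, act_mul b h g z⟩
  · rintro ⟨g, z, hz, rfl⟩
    refine ⟨b.act (h⁻¹ * g) z, ⟨h⁻¹ * g, z, hz, rfl⟩, ?_⟩
    rw [← act_mul]
    congr 1
    group

theorem isometry_act (b : ColorBasis N) (h : Matrix.specialUnitaryGroup (Fin N) ℂ) :
    Isometry (b.act h) := by
  refine Isometry.of_dist_eq fun x y => ?_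
  rw [dist_eq_norm, dist_eq_norm, ← act_sub, act_norm]

theorem mem_thickening_act (b : ColorBasis N) (K : Set (Cfg N)) {ρ : ℝ}
    (h : Matrix.specialUnitaryGroup (Fin N) ℂ) (x : Cfg N) :
    b.act h x ∈ thickening ρ (orb b K) ↔ x ∈ thickening ρ (orb b K) := by
  constructor
  · rw [mem_thickening_iff, mem_thickening_iff]
    rintro ⟨y, hy, hd⟩
    rw [← act_image_orb b K h] at hy
    obtain ⟨z, hz, rfl⟩ := hy
    exact ⟨z, hz, by rwa [(isometry_act b h).dist_eq] at hd⟩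
  · rw [mem_thickening_iff, mem_thickening_iff]
    rintro ⟨y, hy, hd⟩
    refine ⟨b.act h y, ?_, by rwa [(isometry_act b h).dist_eq]⟩
    rw [← act_image_orb b K h]
    exact ⟨y, hy, rfl⟩

variable {b : ColorBasis N} {c : Cfg N} {r : ℝ} {J d : Cfg N → ℝ}

/-- The far part of the slice. -/
def far (b : ColorBasis N) (c : Cfg N) (r : ℝ) (d : Cfg N → ℝ) (ρ : ℝ) : Set (Nor b c) :=
  {u | ‖u‖ < r ∧ ρ ≤ d (u : Cfg N)}

theorem mem_far {ρ : ℝ} {u : Nor b c} : u ∈ far b c r d ρ ↔ ‖u‖ < r ∧ ρ ≤ d (u : Cfg N) := Iff.rfl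

theorem measurableSet_far (hd : Continuous d) (ρ : ℝ) : MeasurableSet (far b c r d ρ) := by
  have h1 : MeasurableSet {u : Nor b c | ‖u‖ < r} :=
    measurableSet_lt (measurable_norm : Measurable fun u : Nor b c => ‖u‖) measurable_const
  have h2 : MeasurableSet {u : Nor b c | ρ ≤ d (u : Cfg N)} :=
    measurableSet_le measurable_const (hd.comp continuous_subtype_val).measurable
  exact h1.inter h2

theorem far_subset_ball (ρ : ℝ) : far b c r d ρ ⊆ ball 0 r := fun u hu => by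
  simpa using hu.1

/-- Slice concentration. -/
def SConc (b : ColorBasis N) (c : Cfg N) (r : ℝ) (J d : Cfg N → ℝ) (φ : ℝ → Cfg N → F) : Prop :=
  ∀ ρ : ℝ, 0 < ρ → Tendsto (fun g => ∫⁻ u in far b c r d ρ,
      ENNReal.ofReal (J (u : Cfg N)) * ‖φ g (c + (u : Cfg N))‖ₑ ^ 2) atTop (𝓝 0)

/-! ### 2. From the slice to the space -/

theorem toReal_lint {φ : Cfg N → F} (hm : Continuous φ) (A : Set (Cfg N)) :
    ∫ x in A, ‖φ x‖ ^ 2 = (∫⁻ x in A, ‖φ x‖ₑ ^ 2).toReal := by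
  rw [integral_eq_lintegral_of_nonneg_ae (f := fun x => ‖φ x‖ ^ 2)
    (Eventually.of_forall fun x => by positivity)
    (show AEStronglyMeasurable (fun x => ‖φ x‖ ^ 2) (volume.restrict A) from
      (hm.norm.pow 2).aestronglyMeasurable)]
  congr 1
  refine lintegral_congr fun x => ?_
  rw [← ofReal_norm, ENNReal.ofReal_pow (norm_nonneg _)]

/-- **`SConc` implies `Conc`.** -/
theorem conc_of_sconc (hJ : SliceInt b c r J) (hd : Continuous d) {K : Set (Cfg N)}
    {φ : ℝ → Cfg N → F} (hm : ∀ᶠ g in atTop, Continuous (φ g))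
    (hinv : ∀ᶠ g in atTop, ∀ h x, ‖φ g (b.act h x)‖ = ‖φ g x‖)
    (hoff : ∀ᶠ g in atTop, ∀ x, x ∉ tube b c r → φ g x = 0)
    (hsupp : ∀ᶠ g in atTop, ∀ u ∈ Nor b c, ‖u‖ < r → φ g (c + u) ≠ 0 →
      ∃ y ∈ K, dist (c + u) y ≤ d u)
    (hS : SConc b c r J d φ) : Conc815.Conc atTop φ (orb b K) := by
  intro ρ hρ
  have hA : MeasurableSet (thickening ρ (orb b K))ᶜ := isOpen_thickening.measurableSet.compl
  have h1 : Tendsto (fun g => ∫⁻ x in (thickening ρ (orb b K))ᶜ, ‖φ g x‖ₑ ^ 2) atTop (𝓝 0) := by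
    refine tendsto_of_tendsto_of_tendsto_of_le_of_le' tendsto_const_nhds (hS ρ hρ)
      (Eventually.of_forall fun _ => zero_le) ?_
    filter_upwards [hm, hinv, hoff, hsupp] with g hm hinv hoff hsupp
    set f : Cfg N → ℝ≥0∞ := (thickening ρ (orb b K))ᶜ.indicator fun x => ‖φ g x‖ₑ ^ 2 with hf
    have hf1 : ∀ x, x ∈ thickening ρ (orb b K) → f x = 0 := fun x hx =>
      indicator_of_notMem (show x ∉ (thickening ρ (orb b K))ᶜ from fun h' => h' hx) _
    have hf2 : ∀ x, x ∉ thickening ρ (orb b K) → f x = ‖φ g x‖ₑ ^ 2 := fun x hx =>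
      indicator_of_mem (show x ∈ (thickening ρ (orb b K))ᶜ from hx) _
    have hfm : Measurable f := (hm.enorm.measurable.pow_const 2).indicator hA
    have hfi : ∀ h x, f (b.act h x) = f x := by
      intro h x
      have h2 : ‖φ g (b.act h x)‖ₑ = ‖φ g x‖ₑ := by
        rw [← ofReal_norm, ← ofReal_norm, hinv]
      by_cases hx : x ∈ thickening ρ (orb b K)
      · rw [hf1 x hx, hf1 _ ((mem_thickening_act b K h x).2 hx)]
      · rw [hf2 x hx, hf2 _ (fun h' => hx ((mem_thickening_act b K h x).1 h')), h2]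
    have h3 : ∫⁻ x in (thickening ρ (orb b K))ᶜ, ‖φ g x‖ₑ ^ 2 = ∫⁻ x in tube b c r, f x := by
      rw [← lintegral_indicator hA, ← lintegral_indicator (isOpen_tube b c r).measurableSet]
      refine lintegral_congr fun x => ?_
      by_cases hx : x ∈ tube b c r
      · rw [indicator_of_mem hx]
      · rw [indicator_of_notMem hx]
        by_cases hx' : x ∈ (thickening ρ (orb b K))ᶜ
        · rw [indicator_of_mem hx', hoff x hx]
          simp
        · rw [indicator_of_notMem hx']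
    rw [h3, hJ f hfm hfi, ← lintegral_indicator measurableSet_ball,
      ← lintegral_indicator (measurableSet_far hd ρ)]
    refine lintegral_mono fun u => ?_
    by_cases hu : u ∈ ball (0 : Nor b c) r
    · rw [indicator_of_mem hu]
      have hur : ‖u‖ < r := by simpa using hu
      by_cases hx : c + (u : Cfg N) ∈ thickening ρ (orb b K)
      · rw [hf1 _ hx, mul_zero]
        exact zero_le
      · rw [hf2 _ hx]
        by_cases h0 : φ g (c + (u : Cfg N)) = 0
        · rw [h0]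
          simp
        · obtain ⟨y, hy, hdy⟩ := hsupp u u.2 hur h0
          have h5 : ρ ≤ d (u : Cfg N) := by
            by_contra h6
            push Not at h6
            exact hx (mem_thickening_iff.2 ⟨y, subset_orb b K hy, hdy.trans_lt h6⟩)
          rw [indicator_of_mem (show u ∈ far b c r d ρ from ⟨hur, h5⟩)]
    · rw [indicator_of_notMem hu]
      exact zero_le
  have h2 := (ENNReal.tendsto_toReal ENNReal.zero_ne_top).comp h1
  rw [ENNReal.toReal_zero] at h2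
  refine h2.congr' ?_
  filter_upwards [hm] with g hm
  rw [toReal_lint hm]
  rfl

/-- the mass of an invariant function supported in the tube -/
theorem mass_eq (hJ : SliceInt b c r J) {φ : Cfg N → F} (hm : Continuous φ)
    (hinv : ∀ h x, ‖φ (b.act h x)‖ = ‖φ x‖) (hoff : ∀ x, x ∉ tube b c r → φ x = 0) :
    ∫⁻ x, ‖φ x‖ₑ ^ 2 = ∫⁻ u in ball (0 : Nor b c) r,
      ENNReal.ofReal (J (u : Cfg N)) * ‖φ (c + (u : Cfg N))‖ₑ ^ 2 := by
  rw [← hJ (fun x => ‖φ x‖ₑ ^ 2) (hm.enorm.measurable.pow_const 2) (fun h x => by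
    rw [← ofReal_norm, ← ofReal_norm, hinv]),
    ← lintegral_indicator (isOpen_tube b c r).measurableSet]
  refine lintegral_congr fun x => ?_
  by_cases hx : x ∈ tube b c r
  · rw [indicator_of_mem hx]
  · rw [indicator_of_notMem hx, hoff x hx]
    simp

/-- **Boundedness in `L²`.** -/
theorem bdd_of_slice (hJ : SliceInt b c r J) {φ : ℝ → Cfg N → F}
    (hm : ∀ᶠ g in atTop, Continuous (φ g) ∧ HasCompactSupport (φ g))
    (hinv : ∀ᶠ g in atTop, ∀ h x, ‖φ g (b.act h x)‖ = ‖φ g x‖)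
    (hoff : ∀ᶠ g in atTop, ∀ x, x ∉ tube b c r → φ g x = 0) {C : ℝ≥0∞} (hC : C ≠ ∞)
    (hb : ∀ᶠ g in atTop, ∫⁻ u in ball (0 : Nor b c) r,
      ENNReal.ofReal (J (u : Cfg N)) * ‖φ g (c + (u : Cfg N))‖ₑ ^ 2 ≤ C) :
    Conc815.Bdd atTop φ := by
  refine ⟨C.toReal, ENNReal.toReal_nonneg, ?_⟩
  filter_upwards [hm, hinv, hoff, hb] with g hm hinv hoff hb
  refine ⟨hm.1.memLp_of_hasCompactSupport hm.2, ?_⟩
  have h1 := toReal_lint hm.1 univ
  rw [setIntegral_univ, setLIntegral_univ] at h1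
  rw [h1, mass_eq hJ hm.1 hinv hoff]
  exact ENNReal.toReal_mono hC hb

/-! ### 3. Markov -/

/-- **`SConc` from the second moment.** -/
theorem sconc_of_moment (hd : Continuous d) {φ : ℝ → Cfg N → F}
    (h : Tendsto (fun g => ∫⁻ u in ball (0 : Nor b c) r,
      ENNReal.ofReal (d (u : Cfg N) ^ 2) * (ENNReal.ofReal (J (u : Cfg N)) *
        ‖φ g (c + (u : Cfg N))‖ₑ ^ 2)) atTop (𝓝 0)) : SConc b c r J d φ := by
  intro ρ hρ
  have hρ2 : 0 < ρ ^ 2 := by positivity
  have h1 := ENNReal.Tendsto.const_mul (a := ENNReal.ofReal ((ρ ^ 2)⁻¹)) h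
    (Or.inr ENNReal.ofReal_ne_top)
  rw [mul_zero] at h1
  refine tendsto_of_tendsto_of_tendsto_of_le_of_le tendsto_const_nhds h1
    (fun _ => zero_le) fun g => ?_
  simp only
  rw [← lintegral_const_mul' _ _ ENNReal.ofReal_ne_top]
  refine le_trans ?_ (lintegral_mono_set (far_subset_ball (d := d) ρ))
  refine setLIntegral_mono' (measurableSet_far hd ρ) fun u hu => ?_
  rw [← mul_assoc, ← ENNReal.ofReal_mul (by positivity)]
  have h2 : (1 : ℝ) ≤ (ρ ^ 2)⁻¹ * d (u : Cfg N) ^ 2 := by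
    rw [inv_mul_eq_div, le_div_iff₀ hρ2, one_mul]
    exact pow_le_pow_left₀ hρ.le hu.2 2
  calc ENNReal.ofReal (J (u : Cfg N)) * ‖φ g (c + (u : Cfg N))‖ₑ ^ 2
      = 1 * (ENNReal.ofReal (J (u : Cfg N)) * ‖φ g (c + (u : Cfg N))‖ₑ ^ 2) := (one_mul _).symm
    _ ≤ ENNReal.ofReal ((ρ ^ 2)⁻¹ * d (u : Cfg N) ^ 2) *
        (ENNReal.ofReal (J (u : Cfg N)) * ‖φ g (c + (u : Cfg N))‖ₑ ^ 2) := by
      refine mul_le_mul_left ?_ _
      rw [← ENNReal.ofReal_one]
      exact ENNReal.ofReal_le_ofReal h2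

/-! ### 4. Multiplication by functions small for small `d` -/

/-- `∫ |h|² |φ g|² J → 0` for bounded `h` which is small for small `d`. -/
theorem sconc_mul (hd : Continuous d) {φ : ℝ → Cfg N → F}
    (hS : SConc b c r J d φ) {C : ℝ≥0∞} (hC : C ≠ ∞)
    (hb : ∀ᶠ g in atTop, ∫⁻ u in ball (0 : Nor b c) r,
      ENNReal.ofReal (J (u : Cfg N)) * ‖φ g (c + (u : Cfg N))‖ₑ ^ 2 ≤ C)
    {h : Cfg N → ℝ} {A : ℝ≥0∞} (hA : A ≠ ∞) (hAb : ∀ u ∈ Nor b c, ‖u‖ < r → ‖h u‖ₑ ^ 2 ≤ A)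
    (h0 : ∀ ε : ℝ≥0∞, 0 < ε → ∃ ρ : ℝ, 0 < ρ ∧ ∀ u ∈ Nor b c, ‖u‖ < r →
      d u < ρ → ‖h u‖ₑ ^ 2 ≤ ε) :
    Tendsto (fun g => ∫⁻ u in ball (0 : Nor b c) r,
      ‖h (u : Cfg N)‖ₑ ^ 2 * (ENNReal.ofReal (J (u : Cfg N)) *
        ‖φ g (c + (u : Cfg N))‖ₑ ^ 2)) atTop (𝓝 0) := by
  rw [ENNReal.tendsto_nhds_zero]
  intro ε hε
  obtain ⟨η, hη0, hηt, hη⟩ : ∃ η : ℝ≥0∞, 0 < η ∧ η ≠ ∞ ∧ η * C ≤ ε / 2 := by
    rcases eq_or_ne C 0 with rfl | hC0
    · exact ⟨1, one_pos, ENNReal.one_ne_top, by simp⟩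
    · refine ⟨min 1 (ε / 2 / C), lt_min one_pos (ENNReal.div_pos (ENNReal.half_pos hε.ne').ne' hC),
        ne_top_of_le_ne_top ENNReal.one_ne_top (min_le_left _ _), ?_⟩
      refine (mul_le_mul_left (min_le_right _ _) C).trans ?_
      exact (ENNReal.div_mul_cancel hC0 hC).le
  obtain ⟨ρ, hρ, h1⟩ := h0 η hη0
  have h2 := ENNReal.Tendsto.const_mul (a := A) (hS ρ hρ) (Or.inr hA)
  rw [mul_zero, ENNReal.tendsto_nhds_zero] at h2
  filter_upwards [h2 (ε / 2) (ENNReal.half_pos hε.ne'), hb] with g hg hbg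
  set w : Nor b c → ℝ≥0∞ := fun u => ENNReal.ofReal (J (u : Cfg N)) *
    ‖φ g (c + (u : Cfg N))‖ₑ ^ 2 with hw
  have h3 : ∫⁻ u in ball (0 : Nor b c) r, ‖h (u : Cfg N)‖ₑ ^ 2 * w u ≤
      (∫⁻ u in ball (0 : Nor b c) r, η * w u) + ∫⁻ u in far b c r d ρ, A * w u := by
    have hms : MeasurableSet {u : Nor b c | d (u : Cfg N) < ρ} :=
      measurableSet_lt (hd.comp continuous_subtype_val).measurable measurable_const
    have hsub : ball (0 : Nor b c) r ⊆
        (ball (0 : Nor b c) r ∩ {u : Nor b c | d (u : Cfg N) < ρ}) ∪ far b c r d ρ := by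
      intro u hu
      rcases lt_or_ge (d (u : Cfg N)) ρ with h | h
      · exact Or.inl ⟨hu, h⟩
      · exact Or.inr ⟨by simpa using hu, h⟩
    refine (lintegral_mono_set hsub).trans ((lintegral_union_le _ _ _).trans ?_)
    refine add_le_add ?_ ?_
    · refine (setLIntegral_mono' (measurableSet_ball.inter hms) fun u hu => ?_).trans
        (lintegral_mono_set inter_subset_left)
      exact mul_le_mul_left (h1 u u.2 (by simpa using hu.1) hu.2) _
    · refine setLIntegral_mono' (measurableSet_far hd ρ) fun u hu => ?_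
      exact mul_le_mul_left (hAb u u.2 hu.1) _
  refine h3.trans ?_
  rw [lintegral_const_mul' _ _ hA, lintegral_const_mul' _ _ hηt]
  calc η * (∫⁻ u in ball (0 : Nor b c) r, w u) + A * ∫⁻ u in far b c r d ρ, w u
      ≤ η * C + ε / 2 := add_le_add (mul_le_mul_right hbg η) hg
    _ ≤ ε / 2 + ε / 2 := add_le_add hη le_rfl
    _ = ε := ENNReal.add_halves ε

end Crest.Agent.R330.ConcB974

end
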