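import Crest.Agent.R330.LitA_974
import Crest.Agent.R330.ConcB_974
import Crest.Agent.R330.ALow_302
import Crest.Agent.R330.GPar_984

/-!
# Row 330, S8-G2 (helper974): mass and second moment of the trial function on the slice

Over 414's `TPack`, `Sl`, `Amp`:

* `exists_bds` : bounds of the Gaussian exponent and of the density `j` on the chart;
* `nI_ge` : lower bound of the normalisation integral;
* `exists_psi` : the state of the blocks is bounded in `L²` uniformly in the light vector;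
* `tau_supp`, `norm_tau_sq_le` : support and size of `tau`;
* `tau_mass`, `tau_mom` : `∫ ‖tau‖² ≤ K`, `∫ ‖PM u‖² ‖tau‖² ≤ K / g` on the slice.
-/

set_option autoImplicit false
set_option linter.unusedSectionVars false

open MeasureTheory Filter Topology Crest.MathPhysics.MatrixQM
open scoped ContDiff InnerProductSpace ENNReal

noncomputable section

namespace Crest.Agent.R330.LitB974

open Crest.Agent.R330.Defs478 Crest.Agent.R330.LS839 Crest.Agent.R330.Frame839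
  Crest.Agent.R330.Bind6839 Crest.Agent.R330.TDef414 Crest.Agent.R330.Split149
  Crest.Agent.R330.LitA974
open Crest.Agent.R330.SlB314 (Nor Tan)
open Crest.Agent.R330.SlD314 (tube)

/-! ### 1. Gaussian integrals -/

section gauss

variable {Z : Type*} [NormedAddCommGroup Z] [InnerProductSpace ℝ Z] [FiniteDimensional ℝ Z]
  [MeasurableSpace Z] [BorelSpace Z]

/-- Gaussian moments -/
def gm (Z : Type*) [NormedAddCommGroup Z] [InnerProductSpace ℝ Z] [FiniteDimensional ℝ Z]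
    [MeasurableSpace Z] [BorelSpace Z] (k : ℕ) (a : ℝ) : ℝ :=
  ∫ z : Z, ‖z‖ ^ (2 * k) * Real.exp (-a * ‖z‖ ^ 2)

theorem gm_nonneg (k : ℕ) (a : ℝ) : 0 ≤ gm Z k a := integral_nonneg fun z => by positivity

theorem gm_zero_pos {a : ℝ} (ha : 0 < a) : 0 < gm Z 0 a := by
  unfold gm
  simp only [Nat.mul_zero, pow_zero, one_mul]
  exact integral_exp_pos (GPar984.integrable_gauss ha)

/-- scaling of Gaussian moments -/
theorem gm_scale (k : ℕ) (a : ℝ) {g : ℝ} (hg : 0 < g) :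
    gm Z k (g * a) = (Real.sqrt g ^ Module.finrank ℝ Z)⁻¹ * (g ^ k)⁻¹ * gm Z k a := by
  have hs : 0 < Real.sqrt g := Real.sqrt_pos.2 hg
  have h1 := Measure.integral_comp_smul (volume : Measure Z)
    (fun w : Z => ‖w‖ ^ (2 * k) * Real.exp (-a * ‖w‖ ^ 2)) (Real.sqrt g)
  have h2 : ∀ z : Z, ‖Real.sqrt g • z‖ ^ 2 = g * ‖z‖ ^ 2 := by
    intro z
    rw [norm_smul, mul_pow, Real.norm_eq_abs, sq_abs, Real.sq_sqrt hg.le]
  have h3 : ∀ z : Z, ‖Real.sqrt g • z‖ ^ (2 * k) * Real.exp (-a * ‖Real.sqrt g • z‖ ^ 2) =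
      g ^ k * (‖z‖ ^ (2 * k) * Real.exp (-(g * a) * ‖z‖ ^ 2)) := by
    intro z
    rw [pow_mul, h2, mul_pow, ← pow_mul, mul_assoc]
    congr 3
    ring
  simp only [h3] at h1
  rw [integral_const_mul, abs_of_pos (by positivity), smul_eq_mul] at h1
  unfold gm
  have hgk : g ^ k ≠ 0 := by positivity
  field_simp
  field_simp at h1
  linarith

theorem integrable_gm (k : ℕ) {a : ℝ} (ha : 0 < a) :
    Integrable fun z : Z => ‖z‖ ^ (2 * k) * Real.exp (-a * ‖z‖ ^ 2) :=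
  GPar984.integrable_poly_gauss (2 * k) ha

theorem lint_gm (k : ℕ) {a : ℝ} (ha : 0 < a) :
    ∫⁻ z : Z, ENNReal.ofReal (‖z‖ ^ (2 * k) * Real.exp (-a * ‖z‖ ^ 2)) =
      ENNReal.ofReal (gm Z k a) :=
  (ofReal_integral_eq_lintegral_ofReal (integrable_gm k ha)
    (Eventually.of_forall fun z => by positivity)).symm

end gauss

variable {N p : ℕ} {b : ColorBasis N} {S : Type} [Group S] [Fintype S] {C : Chn b p S}
variable {F : Type*} [NormedAddCommGroup F] [InnerProductSpace ℂ F] [FiniteDimensional ℂ F]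
variable {M : FermionRep N F} {R : GaugeAction b M} {G : GammaNine}

/-! ### 2. Bounds on the chart -/

theorem reg0 (σ : Sl C) : C.Reg σ.X0 := σ.reg _ (by rw [sub_self, norm_zero]; exact σ.pos)

theorem exists_bds (P : TPack C M R G) (σ : Sl C) : ∃ a a' j0 j1 : ℝ, 0 < a ∧ 0 < a' ∧ 0 < j0 ∧
    0 < j1 ∧ (∀ X, ‖X - σ.X0‖ ≤ σ.r / 4 → ∀ z ∈ C.Zt σ.X0, a * ‖z‖ ^ 2 ≤ ⟪P.A X z, z⟫_ℝ ∧
      ⟪P.A X z, z⟫_ℝ ≤ a' * ‖z‖ ^ 2) ∧
    ∀ y ∈ Nor b (C.cf σ.X0), ‖y‖ ≤ σ.r / 2 → j0 ≤ σ.j y ∧ σ.j y ≤ j1 := by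
  have hr := σ.pos
  obtain ⟨a, ha, h1⟩ := ALow302.a_low_chart P σ (r' := σ.r / 4) (by linarith)
  -- upper bound of `A`
  obtain ⟨B, hB⟩ : ∃ B : ℝ, ∀ X ∈ Metric.closedBall σ.X0 (σ.r / 4), ‖P.A X‖ ≤ B := by
    have hc : ContinuousOn (fun X => ‖P.A X‖) (Metric.closedBall σ.X0 (σ.r / 4)) := by
      intro X hX
      have hX' : ‖X - σ.X0‖ < σ.r := by
        have := mem_closedBall_iff_norm.1 hX
        linarith
      exact (P.A_smooth X (σ.reg X hX')).continuousAt.norm.continuousWithinAt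
    obtain ⟨B, hB⟩ := (isCompact_closedBall σ.X0 (σ.r / 4)).bddAbove_image hc
    exact ⟨B, fun X hX => hB ⟨X, hX, rfl⟩⟩
  -- the density
  set D : Set (Cfg N) := Metric.closedBall 0 (σ.r / 2) ∩ (Nor b (C.cf σ.X0) : Set (Cfg N)) with hD
  have hDc : IsCompact D := (isCompact_closedBall _ _).inter_right
    (Submodule.closed_of_finiteDimensional _)
  have hDn : D.Nonempty := ⟨0, Metric.mem_closedBall_self (by linarith),
    (Nor b (C.cf σ.X0)).zero_mem⟩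
  have hjc : ContinuousOn σ.j D := by
    intro y hy
    have : ‖y‖ < σ.r := by
      have := mem_closedBall_zero_iff.1 hy.1
      linarith
    exact (σ.smooth y hy.2 this).continuousAt.continuousWithinAt
  obtain ⟨y0, hy0, hmin⟩ := hDc.exists_isMinOn hDn hjc
  obtain ⟨y1, hy1, hmax⟩ := hDc.exists_isMaxOn hDn hjc
  have hpos : ∀ y ∈ D, 0 < σ.j y := fun y hy => σ.jpos y hy.2 (by
    have := mem_closedBall_zero_iff.1 hy.1
    linarith)
  refine ⟨a, max B 0 + 1, σ.j y0, σ.j y1, ha, by positivity, hpos _ hy0, hpos _ hy1, ?_, ?_⟩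
  · intro X hX z hz
    refine ⟨h1 X hX z hz, ?_⟩
    calc ⟪P.A X z, z⟫_ℝ ≤ ‖P.A X z‖ * ‖z‖ := real_inner_le_norm _ _
      _ ≤ (‖P.A X‖ * ‖z‖) * ‖z‖ := by gcongr; exact ContinuousLinearMap.le_opNorm _ _
      _ = ‖P.A X‖ * ‖z‖ ^ 2 := by ring
      _ ≤ (max B 0 + 1) * ‖z‖ ^ 2 := by
        gcongr
        have := hB X (mem_closedBall_iff_norm.2 hX)
        linarith [le_max_left B 0]
  · intro y hy hn
    have hyD : y ∈ D := ⟨mem_closedBall_zero_iff.2 hn, hy⟩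
    exact ⟨hmin hyD, hmax hyD⟩

/-- continuity of the exponent in `z` -/
theorem continuous_expo (P : TPack C M R G) (X X0 : Pos p) (g : ℝ) :
    Continuous fun z : C.Zt X0 => Real.exp (-(g * ⟪P.A X z, z⟫_ℝ)) := by
  have h1 : Continuous fun z : C.Zt X0 => P.A X z := (P.A X).continuous.comp continuous_subtype_val
  have h2 : Continuous fun z : C.Zt X0 => ⟪P.A X z, (z : Cfg N)⟫_ℝ := h1.inner continuous_subtype_val
  exact (continuous_const.mul h2).neg.rexp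

theorem integrable_expo (P : TPack C M R G) {X X0 : Pos p} {a g : ℝ} (ha : 0 < a) (hg : 0 < g)
    (h : ∀ z ∈ C.Zt X0, a * ‖z‖ ^ 2 ≤ ⟪P.A X z, z⟫_ℝ) :
    Integrable fun z : C.Zt X0 => Real.exp (-(g * ⟪P.A X z, z⟫_ℝ)) := by
  refine Integrable.mono' (GPar984.integrable_gauss (Z := C.Zt X0) (mul_pos hg ha))
    (continuous_expo P X X0 g).aestronglyMeasurable (Eventually.of_forall fun z => ?_)
  rw [Real.norm_of_nonneg (Real.exp_pos _).le]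
  refine Real.exp_le_exp.2 ?_
  have h1 := h z z.2
  have h2 : g * (a * ‖(z : Cfg N)‖ ^ 2) ≤ g * ⟪P.A X z, (z : Cfg N)⟫_ℝ :=
    mul_le_mul_of_nonneg_left h1 hg.le
  have h3 : ‖z‖ = ‖(z : Cfg N)‖ := rfl
  rw [h3]
  linarith

/-- lower bound of the normalisation integral -/
theorem nI_ge (P : TPack C M R G) (σ : Sl C) {X : Pos p} {a a' g : ℝ} (ha : 0 < a) (ha' : 0 < a')
    (hg : 0 < g) (h : ∀ z ∈ C.Zt σ.X0, a * ‖z‖ ^ 2 ≤ ⟪P.A X z, z⟫_ℝ ∧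
      ⟪P.A X z, z⟫_ℝ ≤ a' * ‖z‖ ^ 2) :
    (Real.sqrt g ^ Module.finrank ℝ (C.Zt σ.X0))⁻¹ * gm (C.Zt σ.X0) 0 a' ≤ nI P σ g X := by
  have h0 := gm_scale (Z := C.Zt σ.X0) 0 a' hg
  rw [pow_zero, inv_one, mul_one] at h0
  rw [← h0]
  unfold gm nI
  simp only [Nat.mul_zero, pow_zero, one_mul]
  refine integral_mono (GPar984.integrable_gauss (Z := C.Zt σ.X0) (mul_pos hg ha'))
    (integrable_expo P ha hg fun z hz => (h z hz).1) fun z => ?_
  refine Real.exp_le_exp.2 ?_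
  have h1 := (h z z.2).2
  have h2 : g * ⟪P.A X z, (z : Cfg N)⟫_ℝ ≤ g * (a' * ‖(z : Cfg N)‖ ^ 2) :=
    mul_le_mul_of_nonneg_left h1 hg.le
  have h3 : ‖z‖ = ‖(z : Cfg N)‖ := rfl
  rw [h3]
  linarith

theorem nI_pos (P : TPack C M R G) (σ : Sl C) {X : Pos p} {a a' g : ℝ} (ha : 0 < a) (ha' : 0 < a')
    (hg : 0 < g) (h : ∀ z ∈ C.Zt σ.X0, a * ‖z‖ ^ 2 ≤ ⟪P.A X z, z⟫_ℝ ∧
      ⟪P.A X z, z⟫_ℝ ≤ a' * ‖z‖ ^ 2) : 0 < nI P σ g X :=
  lt_of_lt_of_le (mul_pos (by positivity) (gm_zero_pos ha')) (nI_ge P σ ha ha' hg h)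

/-! ### 3. The state of the blocks -/

theorem hcs_psi (P : TPack C M R G) (g : ℝ) (f : F) :
    HasCompactSupport fun Y : C.Blk => P.Psi g Y f := by
  refine HasCompactSupport.intro (isCompact_closedBall (0 : C.Blk) (P.s g)) fun Y hY => ?_
  have h1 : P.s g ≤ ‖(Y : Cfg N)‖ := by
    have : ¬ ‖Y‖ ≤ P.s g := fun h => hY (mem_closedBall_zero_iff.2 h)
    exact (not_le.1 this).le
  rw [P.Psi_supp g Y Y.2 h1]
  rfl

theorem continuous_psi {P : TPack C M R G} {g : ℝ} (h : ContDiff ℝ ∞ (P.Psi g)) (f : F) :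
    Continuous fun Y : C.Blk => P.Psi g Y f :=
  (h.continuous.comp continuous_subtype_val).clm_apply continuous_const

/-- bounded in `L²`, uniformly in the light vector -/
theorem exists_psi (P : TPack C M R G) : ∃ K : ℝ, 0 ≤ K ∧ ∀ᶠ g in atTop, ∀ f : C.Fx M G,
    ∫⁻ Y : C.Blk, ‖P.Psi g Y f‖ₑ ^ 2 ≤ ENNReal.ofReal (K * ‖f‖ ^ 2) := by
  classical
  set e := stdOrthonormalBasis ℂ (C.Fx M G) with he
  set n := Module.finrank ℂ (C.Fx M G) with hn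
  refine ⟨2 * n, by positivity, ?_⟩
  have h1 : ∀ i, ∀ᶠ g in atTop, ∫ Y : C.Blk, ‖P.Psi g Y (e i : F)‖ ^ 2 ≤ 2 := by
    intro i
    have h2 := (Complex.continuous_re.tendsto _).comp (P.Psi_iso (e i) (e i).2 (e i) (e i).2)
    have h3 : (⟪(e i : F), (e i : F)⟫_ℂ).re = 1 := by
      have h4 : ⟪(e i : F), (e i : F)⟫_ℂ = 1 := by
        have := e.orthonormal.1 i
        rw [inner_self_eq_norm_sq_to_K]
        have h5 : ‖(e i : F)‖ = 1 := this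
        rw [h5]
        simp
      rw [h4, Complex.one_re]
    rw [h3] at h2
    have h4 := h2.eventually_lt_const (show (1 : ℝ) < 2 by norm_num)
    filter_upwards [h4] with g hg
    have h5 : (∫ Y : C.Blk, ⟪P.Psi g Y (e i : F), P.Psi g Y (e i : F)⟫_ℂ) =
        ((∫ Y : C.Blk, ‖P.Psi g Y (e i : F)‖ ^ 2 : ℝ) : ℂ) := by
      rw [← integral_complex_ofReal]
      refine integral_congr_ae (Eventually.of_forall fun Y => ?_)
      change ⟪P.Psi g Y (e i : F), P.Psi g Y (e i : F)⟫_ℂ =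
        ((‖P.Psi g Y (e i : F)‖ ^ 2 : ℝ) : ℂ)
      rw [inner_self_eq_norm_sq_to_K]
      push_cast
      rfl
    have h6 : (∫ Y : C.Blk, ⟪P.Psi g Y (e i : F), P.Psi g Y (e i : F)⟫_ℂ).re < 2 := hg
    rw [h5, Complex.ofReal_re] at h6
    exact h6.le
  filter_upwards [eventually_all.2 h1, P.Psi_smooth] with g h2 hsm f
  -- pointwise
  have h3 : ∀ Y : C.Blk, ‖P.Psi g Y (f : F)‖ ^ 2 ≤ ‖f‖ ^ 2 * ∑ i, ‖P.Psi g Y (e i : F)‖ ^ 2 := by
    intro Y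
    have h4 : (f : F) = ∑ i, ⟪e i, f⟫_ℂ • (e i : F) := by
      have := congrArg (fun v : C.Fx M G => (v : F)) (e.sum_repr' f)
      simp only [Submodule.coe_sum, Submodule.coe_smul] at this
      exact this.symm
    have h5 : ‖P.Psi g Y (f : F)‖ ≤ ∑ i, ‖⟪e i, f⟫_ℂ‖ * ‖P.Psi g Y (e i : F)‖ := by
      conv_lhs => rw [h4, map_sum]
      refine (norm_sum_le _ _).trans (Finset.sum_le_sum fun i _ => ?_)
      rw [map_smul, norm_smul]
    have h6 : (∑ i, ‖⟪e i, f⟫_ℂ‖ * ‖P.Psi g Y (e i : F)‖) ^ 2 ≤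
        (∑ i, ‖⟪e i, f⟫_ℂ‖ ^ 2) * ∑ i, ‖P.Psi g Y (e i : F)‖ ^ 2 :=
      Finset.sum_mul_sq_le_sq_mul_sq _ _ _
    rw [e.sum_sq_norm_inner_right] at h6
    exact (pow_le_pow_left₀ (norm_nonneg _) h5 2).trans h6
  have hint : ∀ i, Integrable fun Y : C.Blk => ‖P.Psi g Y (e i : F)‖ ^ 2 := by
    intro i
    refine Continuous.integrable_of_hasCompactSupport ((continuous_psi hsm _).norm.pow 2) ?_
    exact (hcs_psi P g (e i : F)).comp_left (g := fun v : F => ‖v‖ ^ 2) (by simp)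
  have hint2 : Integrable fun Y : C.Blk => ‖f‖ ^ 2 * ∑ i, ‖P.Psi g Y (e i : F)‖ ^ 2 :=
    (integrable_finsetSum _ fun i _ => hint i).const_mul _
  calc ∫⁻ Y : C.Blk, ‖P.Psi g Y f‖ₑ ^ 2
      = ∫⁻ Y : C.Blk, ENNReal.ofReal (‖P.Psi g Y (f : F)‖ ^ 2) := by
        refine lintegral_congr fun Y => ?_
        rw [← ofReal_norm, ENNReal.ofReal_pow (norm_nonneg _)]
    _ ≤ ∫⁻ Y : C.Blk, ENNReal.ofReal (‖f‖ ^ 2 * ∑ i, ‖P.Psi g Y (e i : F)‖ ^ 2) :=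
        lintegral_mono fun Y => ENNReal.ofReal_le_ofReal (h3 Y)
    _ = ENNReal.ofReal (∫ Y : C.Blk, ‖f‖ ^ 2 * ∑ i, ‖P.Psi g Y (e i : F)‖ ^ 2) :=
        (ofReal_integral_eq_lintegral_ofReal hint2
          (Eventually.of_forall fun Y => by positivity)).symm
    _ ≤ ENNReal.ofReal (2 * n * ‖f‖ ^ 2) := by
        refine ENNReal.ofReal_le_ofReal ?_
        rw [integral_const_mul, integral_finsetSum _ fun i _ => hint i]
        have h7 : ∑ i, ∫ Y : C.Blk, ‖P.Psi g Y (e i : F)‖ ^ 2 ≤ ∑ _i : Fin n, (2 : ℝ) :=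
          Finset.sum_le_sum fun i _ => h2 i
        rw [Finset.sum_const, Finset.card_univ, Fintype.card_fin, nsmul_eq_mul] at h7
        nlinarith [sq_nonneg ‖f‖]

/-! ### 4. Support and size of `tau` -/

theorem tau_zero (P : TPack C M R G) (σ : Sl C) (g : ℝ) {χ : Pos p → C.Fx M G} {u : Cfg N}
    (h : χ (σ.X0 + C.cfT u) = 0) : tau P σ g χ u = 0 := by
  unfold tau
  rw [h, ZeroMemClass.coe_zero, map_zero, map_zero, smul_zero]

theorem tau_supp (P : TPack C M R G) (σ : Sl C) (g : ℝ) {χ : Pos p → C.Fx M G} {u : Cfg N}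
    (h : tau P σ g χ u ≠ 0) : χ (σ.X0 + C.cfT u) ≠ 0 ∧ ‖C.PY u‖ < P.s g ∧
      ‖C.PM u‖ < σ.r / 4 := by
  refine ⟨fun h0 => h (tau_zero P σ g h0), ?_, ?_⟩
  · by_contra h0
    push Not at h0
    apply h
    unfold tau
    rw [P.Psi_supp g _ (PY_mem C u) h0, zero_apply, map_zero, smul_zero]
  · by_contra h0
    push Not at h0
    apply h
    have h1 : σ.r ^ 2 / 16 ≤ ‖C.PM u‖ ^ 2 := by
      have := pow_le_pow_left₀ (by linarith [σ.pos] : (0 : ℝ) ≤ σ.r / 4) h0 2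
      linarith
    unfold tau
    rw [kap_zero σ.pos h1]
    simp

theorem norm_U {P : TPack C M R G} {X : Pos p} (hX : C.BReg X) {f : F} (hf : f ∈ C.Fl M G) :
    ‖P.U X f‖ = ‖f‖ := by
  have h1 := P.U_inner X hX f hf f hf
  rw [inner_self_eq_norm_sq_to_K, inner_self_eq_norm_sq_to_K] at h1
  have h2 : ‖P.U X f‖ ^ 2 = ‖f‖ ^ 2 := by exact_mod_cast h1
  exact (sq_eq_sq₀ (norm_nonneg _) (norm_nonneg _)).1 h2

theorem norm_tau_sq (P : TPack C M R G) (σ : Sl C) (g : ℝ) (χ : Pos p → C.Fx M G) (u : Cfg N)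
    (hX : C.BReg (σ.X0 + C.cfT u)) : ‖tau P σ g χ u‖ ^ 2 =
      nrm P σ g (σ.X0 + C.cfT u) ^ 2 * kap σ.r (‖C.PM u‖ ^ 2) ^ 2 *
      Real.exp (-(g * ⟪P.A (σ.X0 + C.cfT u) (C.PM u), C.PM u⟫_ℝ)) *
      ‖P.Psi g (C.PY u) (χ (σ.X0 + C.cfT u) : F)‖ ^ 2 := by
  unfold tau
  rw [norm_smul, Complex.norm_real, Real.norm_eq_abs, mul_pow, sq_abs,
    norm_U hX (P.Psi_mem g _ (PY_mem C u) _ (χ (σ.X0 + C.cfT u)).2), mul_pow, mul_pow]
  congr 2
  rw [← Real.exp_nat_mul]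
  congr 1
  push_cast
  ring

/-- **Size of `tau`** with constants. -/
theorem norm_tau_sq_le (P : TPack C M R G) (σ : Sl C) {a a' j0 j1 g : ℝ} (ha : 0 < a)
    (ha' : 0 < a') (hg : 0 < g)
    (hA : ∀ X, ‖X - σ.X0‖ ≤ σ.r / 4 → ∀ z ∈ C.Zt σ.X0, a * ‖z‖ ^ 2 ≤ ⟪P.A X z, z⟫_ℝ ∧
      ⟪P.A X z, z⟫_ℝ ≤ a' * ‖z‖ ^ 2)
    (hj : ∀ y ∈ Nor b (C.cf σ.X0), ‖y‖ ≤ σ.r / 2 → j0 ≤ σ.j y ∧ σ.j y ≤ j1) (χ : Amp M G σ)
    {u : Cfg N} (hu : u ∈ Nor b (C.cf σ.X0)) : ‖tau P σ g χ.fn u‖ ^ 2 ≤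
      (j1 / ((Real.sqrt g ^ Module.finrank ℝ (C.Zt σ.X0))⁻¹ * gm (C.Zt σ.X0) 0 a')) *
      (Real.exp (-(g * a) * ‖C.PM u‖ ^ 2) * ‖P.Psi g (C.PY u) (χ.fn (σ.X0 + C.cfT u) : F)‖ ^ 2) := by
  have hL : 0 < (Real.sqrt g ^ Module.finrank ℝ (C.Zt σ.X0))⁻¹ * gm (C.Zt σ.X0) 0 a' := by
    have := gm_zero_pos (Z := C.Zt σ.X0) ha'
    have hs : 0 < Real.sqrt g := Real.sqrt_pos.2 hg
    positivity
  have hj1 : 0 ≤ j1 := by
    have h0 := σ.jpos 0 (Nor b (C.cf σ.X0)).zero_mem (by rw [norm_zero]; exact σ.pos)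
    have h1 := (hj 0 (Nor b (C.cf σ.X0)).zero_mem (by rw [norm_zero]; linarith [σ.pos])).2
    linarith
  by_cases h0 : χ.fn (σ.X0 + C.cfT u) = 0
  · rw [tau_zero P σ g h0, norm_zero, zero_pow two_ne_zero]
    have := gm_zero_pos (Z := C.Zt σ.X0) ha'
    positivity
  · have hts : σ.X0 + C.cfT u ∈ tsupport χ.fn := subset_tsupport _ h0
    have hball := χ.supp hts
    rw [mem_ball_iff_norm, add_sub_cancel_left] at hball
    have hX : ‖σ.X0 + C.cfT u - σ.X0‖ ≤ σ.r / 4 := by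
      rw [add_sub_cancel_left]
      exact hball.le
    have hB := χ.off _ hts
    have hz : C.PM u ∈ C.Zt σ.X0 := PM_mem_Zt C (reg0 σ) hu
    have hcf : C.cf (C.cfT u) ∈ Nor b (C.cf σ.X0) := cf_mem_Nor C (reg0 σ) _
    have hn : ‖C.cf (C.cfT u)‖ ≤ σ.r / 2 := by
      rw [C.cf.norm_map]
      linarith [σ.pos]
    have hI := nI_ge P σ ha ha' hg (hA _ hX)
    have hnrm : nrm P σ g (σ.X0 + C.cfT u) ^ 2 ≤
        j1 / ((Real.sqrt g ^ Module.finrank ℝ (C.Zt σ.X0))⁻¹ * gm (C.Zt σ.X0) 0 a') := by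
      unfold nrm
      have h2 := hj _ hcf hn
      have h3 : 0 < σ.j (C.cf (C.cfT u)) := σ.jpos _ hcf (by linarith [σ.pos])
      rw [add_sub_cancel_left, Real.sq_sqrt (div_nonneg h3.le (hL.le.trans hI))]
      exact div_le_div₀ hj1 h2.2 hL hI
    rw [norm_tau_sq P σ g χ.fn u hB]
    have hk : kap σ.r (‖C.PM u‖ ^ 2) ^ 2 ≤ 1 :=
      pow_le_one₀ (kap_nonneg _ _) (kap_le_one _ _)
    have he : Real.exp (-(g * ⟪P.A (σ.X0 + C.cfT u) (C.PM u), C.PM u⟫_ℝ)) ≤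
        Real.exp (-(g * a) * ‖C.PM u‖ ^ 2) := by
      refine Real.exp_le_exp.2 ?_
      have h1 := mul_le_mul_of_nonneg_left (hA _ hX _ hz).1 hg.le
      linarith
    calc _ ≤ (j1 / ((Real.sqrt g ^ Module.finrank ℝ (C.Zt σ.X0))⁻¹ * gm (C.Zt σ.X0) 0 a')) * 1 *
          Real.exp (-(g * a) * ‖C.PM u‖ ^ 2) *
          ‖P.Psi g (C.PY u) (χ.fn (σ.X0 + C.cfT u) : F)‖ ^ 2 := by gcongr
      _ = _ := by ring

/-! ### 5. Mass and moment -/

/-- **Moments of `tau` on the slice.** -/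
theorem tau_moment (P : TPack C M R G) (σ : Sl C) (χ : Amp M G σ) (k : ℕ) :
    ∃ K : ℝ, 0 ≤ K ∧ ∀ᶠ g in atTop, ∫⁻ u : Nor b (C.cf σ.X0),
      ENNReal.ofReal (‖C.PM u‖ ^ (2 * k) * ‖tau P σ g χ.fn u‖ ^ 2) ≤
        ENNReal.ofReal (K * (g ^ k)⁻¹) := by
  obtain ⟨a, a', j0, j1, ha, ha', hj0, hj1, hA, hj⟩ := exists_bds P σ
  obtain ⟨Kψ, hKψ, hψ⟩ := exists_psi P
  obtain ⟨B, hB⟩ : ∃ B : ℝ, ∀ X, ‖χ.fn X‖ ≤ B :=
    χ.compact.exists_bound_of_continuous χ.smooth.continuous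
  have hB0 : 0 ≤ B := (norm_nonneg _).trans (hB 0)
  set V : ℝ≥0∞ := volume (Metric.closedBall (0 : Pos p) (σ.r / 4)) with hV
  have hVt : V ≠ (⊤ : ℝ≥0∞) := measure_closedBall_lt_top.ne
  have hg0 := gm_zero_pos (Z := C.Zt σ.X0) ha'
  refine ⟨(j1 / gm (C.Zt σ.X0) 0 a') * gm (C.Zt σ.X0) k a * (Kψ * B ^ 2) * V.toReal, ?_, ?_⟩
  · have := gm_nonneg (Z := C.Zt σ.X0) k a
    positivity
  filter_upwards [hψ, P.Psi_smooth, eventually_gt_atTop (0 : ℝ)] with g hψ hsm hg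
  have hs : 0 < Real.sqrt g := Real.sqrt_pos.2 hg
  set D := Module.finrank ℝ (C.Zt σ.X0) with hD
  set c : ℝ := j1 / ((Real.sqrt g ^ D)⁻¹ * gm (C.Zt σ.X0) 0 a') with hc
  have hc0 : 0 ≤ c := by positivity
  -- the majorant
  set f : Cfg N → ℝ≥0∞ := fun u => ENNReal.ofReal c *
    (ENNReal.ofReal (‖C.PM u‖ ^ (2 * k) * Real.exp (-(g * a) * ‖C.PM u‖ ^ 2)) *
      ENNReal.ofReal (‖P.Psi g (C.PY u) (χ.fn (σ.X0 + C.cfT u) : F)‖ ^ 2)) with hf
  have hfm : Measurable f := by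
    have h1 : Continuous fun u : Cfg N => ‖C.PM u‖ := (continuous_PM C).norm
    have h2 : Continuous fun u : Cfg N =>
        ‖C.PM u‖ ^ (2 * k) * Real.exp (-(g * a) * ‖C.PM u‖ ^ 2) :=
      (h1.pow _).mul ((continuous_const.mul (h1.pow 2)).rexp)
    have h3 : Continuous fun u : Cfg N => (χ.fn (σ.X0 + C.cfT u) : F) :=
      continuous_subtype_val.comp (χ.smooth.continuous.comp
        (continuous_const.add C.cfT.continuous))
    have h4 : Continuous fun u : Cfg N =>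
        ‖P.Psi g (C.PY u) (χ.fn (σ.X0 + C.cfT u) : F)‖ ^ 2 :=
      (((hsm.continuous.comp (continuous_PY C)).clm_apply h3).norm).pow 2
    exact ((h2.measurable.ennreal_ofReal).mul (h4.measurable.ennreal_ofReal)).const_mul _
  have h1 : ∫⁻ u : Nor b (C.cf σ.X0),
      ENNReal.ofReal (‖C.PM u‖ ^ (2 * k) * ‖tau P σ g χ.fn u‖ ^ 2) ≤
      ∫⁻ u : Nor b (C.cf σ.X0), f u := by
    refine lintegral_mono fun u => ?_
    have h2 := norm_tau_sq_le P σ ha ha' hg hA hj χ u.2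
    rw [hf]
    simp only
    rw [← ENNReal.ofReal_mul (by positivity), ← ENNReal.ofReal_mul hc0]
    refine ENNReal.ofReal_le_ofReal ?_
    calc ‖C.PM u‖ ^ (2 * k) * ‖tau P σ g χ.fn u‖ ^ 2 ≤ ‖C.PM u‖ ^ (2 * k) * (c *
        (Real.exp (-(g * a) * ‖C.PM u‖ ^ 2) *
          ‖P.Psi g (C.PY u) (χ.fn (σ.X0 + C.cfT u) : F)‖ ^ 2)) := by gcongr
      _ = _ := by ring
  refine h1.trans ?_
  rw [lintegral_nor C (reg0 σ) hfm]
  -- the inner integrals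
  have h2 : ∀ X : Pos p, ∫⁻ Y : C.Blk, ∫⁻ z : C.Zt σ.X0, f (C.cf X + Y + z) =
      ENNReal.ofReal c * (ENNReal.ofReal (gm (C.Zt σ.X0) k (g * a)) *
        ∫⁻ Y : C.Blk, ‖P.Psi g Y (χ.fn (σ.X0 + X) : F)‖ₑ ^ 2) := by
    intro X
    have h3 : ∀ (Y : C.Blk) (z : C.Zt σ.X0), f (C.cf X + Y + z) = ENNReal.ofReal c *
        (ENNReal.ofReal (‖z‖ ^ (2 * k) * Real.exp (-(g * a) * ‖z‖ ^ 2)) *
          ‖P.Psi g Y (χ.fn (σ.X0 + X) : F)‖ₑ ^ 2) := by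
      intro Y z
      rw [hf]
      simp only
      rw [cfT_coord C Y.2 z.2.1, PY_coord C Y.2 z.2.1, PM_coord C Y.2 z.2.1,
        ENNReal.ofReal_pow (norm_nonneg (P.Psi g Y (χ.fn (σ.X0 + X) : F))), ofReal_norm]
      rfl
    have h4 : ∀ Y : C.Blk, ∫⁻ z : C.Zt σ.X0, f (C.cf X + Y + z) = ENNReal.ofReal c *
        (ENNReal.ofReal (gm (C.Zt σ.X0) k (g * a)) *
          ‖P.Psi g Y (χ.fn (σ.X0 + X) : F)‖ₑ ^ 2) := by
      intro Y
      simp only [h3]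
      rw [lintegral_const_mul' _ _ ENNReal.ofReal_ne_top, lintegral_mul_const'',
        lint_gm k (mul_pos hg ha)]
      exact (Continuous.measurable (by fun_prop : Continuous fun z : C.Zt σ.X0 =>
        ‖z‖ ^ (2 * k) * Real.exp (-(g * a) * ‖z‖ ^ 2))).ennreal_ofReal.aemeasurable
    simp only [h4]
    rw [lintegral_const_mul' _ _ ENNReal.ofReal_ne_top,
      lintegral_const_mul' _ _ ENNReal.ofReal_ne_top]
  simp only [h2]
  have h5 : ∀ X : Pos p, ENNReal.ofReal c * (ENNReal.ofReal (gm (C.Zt σ.X0) k (g * a)) *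
      ∫⁻ Y : C.Blk, ‖P.Psi g Y (χ.fn (σ.X0 + X) : F)‖ₑ ^ 2) ≤
      (Metric.closedBall (0 : Pos p) (σ.r / 4)).indicator (fun _ => ENNReal.ofReal
        (c * gm (C.Zt σ.X0) k (g * a) * (Kψ * B ^ 2))) X := by
    intro X
    by_cases hX : X ∈ Metric.closedBall (0 : Pos p) (σ.r / 4)
    · rw [Set.indicator_of_mem hX]
      have h6 : ∫⁻ Y : C.Blk, ‖P.Psi g Y (χ.fn (σ.X0 + X) : F)‖ₑ ^ 2 ≤
          ENNReal.ofReal (Kψ * B ^ 2) := by
        refine (hψ _).trans (ENNReal.ofReal_le_ofReal ?_)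
        have := hB (σ.X0 + X)
        gcongr
      rw [mul_assoc c, ENNReal.ofReal_mul hc0, ENNReal.ofReal_mul (gm_nonneg _ _)]
      gcongr
    · rw [Set.indicator_of_notMem hX]
      have h7 : χ.fn (σ.X0 + X) = 0 := by
        by_contra h8
        have h9 := χ.supp (subset_tsupport _ h8)
        rw [mem_ball_iff_norm, add_sub_cancel_left] at h9
        exact hX (mem_closedBall_zero_iff.2 h9.le)
      rw [h7]
      simp
  refine (lintegral_mono h5).trans ?_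
  rw [lintegral_indicator Metric.isClosed_closedBall.measurableSet, setLIntegral_const, ← hV]
  have hA0 : 0 ≤ c * gm (C.Zt σ.X0) k (g * a) * (Kψ * B ^ 2) := by
    have := gm_nonneg (Z := C.Zt σ.X0) k (g * a)
    positivity
  have hVe : ENNReal.ofReal (c * gm (C.Zt σ.X0) k (g * a) * (Kψ * B ^ 2)) * V =
      ENNReal.ofReal (c * gm (C.Zt σ.X0) k (g * a) * (Kψ * B ^ 2) * V.toReal) := by
    rw [ENNReal.ofReal_mul hA0, ENNReal.ofReal_toReal hVt]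
  rw [hVe]
  refine ENNReal.ofReal_le_ofReal (le_of_eq ?_)
  rw [gm_scale k a hg, hc, ← hD]
  field_simp

/-- **The mass of `tau` is bounded** (969's (ii)). -/
theorem tau_mass (P : TPack C M R G) (σ : Sl C) (χ : Amp M G σ) :
    ∃ K : NNReal, ∀ᶠ g in atTop, ∫⁻ u in Metric.ball (0 : Nor b (C.cf σ.X0)) σ.r,
      ‖tau P σ g χ.fn u‖ₑ ^ 2 ≤ K := by
  obtain ⟨K, hK, h⟩ := tau_moment P σ χ 0
  refine ⟨K.toNNReal, ?_⟩
  filter_upwards [h] with g hg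
  refine (setLIntegral_le_lintegral _ _).trans (le_trans (le_of_eq ?_) (hg.trans (le_of_eq ?_)))
  · refine lintegral_congr fun u => ?_
    rw [Nat.mul_zero, pow_zero, one_mul, ENNReal.ofReal_pow (norm_nonneg _), ofReal_norm]
  · rw [pow_zero, inv_one, mul_one]
    rfl

/-- **The second moment of `tau` is `O(1/g)`** (969's (iii)). -/
theorem tau_mom (P : TPack C M R G) (σ : Sl C) (χ : Amp M G σ) :
    ∃ K : NNReal, ∀ᶠ g in atTop, ∫⁻ u in Metric.ball (0 : Nor b (C.cf σ.X0)) σ.r,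
      ‖C.PM u‖ₑ ^ 2 * ‖tau P σ g χ.fn u‖ₑ ^ 2 ≤ ENNReal.ofReal (K / g) := by
  obtain ⟨K, hK, h⟩ := tau_moment P σ χ 1
  refine ⟨K.toNNReal, ?_⟩
  filter_upwards [h] with g hg
  refine (setLIntegral_le_lintegral _ _).trans (le_trans (le_of_eq ?_) (hg.trans (le_of_eq ?_)))
  · refine lintegral_congr fun u => ?_
    rw [Nat.mul_one, ENNReal.ofReal_mul (by positivity), ENNReal.ofReal_pow (norm_nonneg _),
      ENNReal.ofReal_pow (norm_nonneg _), ofReal_norm, ofReal_norm]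
  · rw [pow_one, Real.coe_toNNReal _ hK, div_eq_mul_inv]

/-- support and size on the slice: for large `g`, `tau u ≠ 0` gives `‖u‖ ≤ r / 2` -/
theorem tau_supp_ball (P : TPack C M R G) (σ : Sl C) (χ : Amp M G σ) : ∀ᶠ g in atTop,
    ∀ u : Cfg N, tau P σ g χ.fn u ≠ 0 → σ.X0 + C.cfT u ∈ tsupport χ.fn ∧
      ‖C.cfT u‖ < σ.r / 4 ∧ ‖C.PY u‖ < P.s g ∧ ‖C.PY u‖ < σ.r / 4 ∧ ‖C.PM u‖ < σ.r / 4 ∧
      ‖u‖ ≤ σ.r / 2 := by
  have hr := σ.pos
  filter_upwards [P.s_lim.eventually_lt_const (show (0 : ℝ) < σ.r / 4 by linarith)] with g hg u hu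
  obtain ⟨h1, h2, h3⟩ := tau_supp P σ g hu
  have h4 := subset_tsupport _ h1
  have h5 := χ.supp h4
  rw [mem_ball_iff_norm, add_sub_cancel_left] at h5
  refine ⟨h4, h5, h2, h2.trans hg, h3, ?_⟩
  have h6 := norm_sq_eq C u
  have h7 : ‖C.cfT u‖ ^ 2 ≤ (σ.r / 4) ^ 2 := pow_le_pow_left₀ (norm_nonneg _) h5.le 2
  have h8 : ‖C.PY u‖ ^ 2 ≤ (σ.r / 4) ^ 2 := pow_le_pow_left₀ (norm_nonneg _) (h2.trans hg).le 2
  have h9 : ‖C.PM u‖ ^ 2 ≤ (σ.r / 4) ^ 2 := pow_le_pow_left₀ (norm_nonneg _) h3.le 2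
  refine (abs_le_of_sq_le_sq' ?_ (by linarith)).2
  nlinarith

end Crest.Agent.R330.LitB974

end
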