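import Crest.Agent.R330.Rad_969
import Crest.Agent.R330.TCore_383
import Crest.Agent.R330.ChSys_399
import Crest.Agent.R330.LitB_974

/-!
# Row 330, S8 (T2) (helper969): `RadT` of `ChSys_399` from (T1) and the two moment bounds
-/

set_option autoImplicit false
set_option linter.unusedSectionVars false

open MeasureTheory Filter Topology Crest.MathPhysics.MatrixQM
open scoped ContDiff InnerProductSpace ENNReal NNReal

noncomputable section

namespace Crest.Agent.R330.Rad969

open Crest.Agent.R330.Defs478 Crest.Agent.R330.TDef414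
open Crest.Agent.R330.SlB314 (Nor)

variable {N p : ℕ} {b : ColorBasis N} {S : Type} [Group S] [Fintype S]
  {C : Chn b p S} {F : Type} [NormedAddCommGroup F] [InnerProductSpace ℂ F]
  [FiniteDimensional ℂ F] {M : FermionRep N F} {R : GaugeAction b M} {G : GammaNine}

theorem slOK (P : TPack C M R G) (σ : Sl C) (g : ℝ) (χ : Amp M G σ) : SlOK P σ g χ.fn :=
  TCore383.sliceFun P σ g χ

/-- **(T2)** for all generators, from the moment bounds. -/
theorem radT_of (P : TPack C M R G) (hC : ChSys399.CoreT P)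
    (hL2 : ∀ (σ : Sl C) (χ : Amp M G σ), ∃ K : ℝ≥0, ∀ᶠ g in atTop,
      ∫⁻ y in Metric.ball (0 : Nor b (C.cf σ.X0)) σ.r, ‖tau P σ g χ.fn y‖ₑ ^ 2 ≤ K)
    (hmom : ∀ (σ : Sl C) (χ : Amp M G σ), Tendsto (fun g =>
      ∫⁻ y in Metric.ball (0 : Nor b (C.cf σ.X0)) σ.r,
        ‖C.PM y‖ₑ ^ 2 * ‖tau P σ g χ.fn y‖ₑ ^ 2) atTop (𝓝 0)) : ChSys399.RadT P := by
  intro σ χ w hw
  exact rad P σ χ hw (hC σ) (fun χ' => Eventually.of_forall fun g => slOK P σ g χ')
    (hL2 σ χ) (hmom σ χ)

/-- **(T2) closed.** -/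
theorem radT [Nontrivial F] (P : TPack C M R G) : ChSys399.RadT P :=
  radT_of P (fun σ χ => TCore383.core P σ χ) (fun σ χ => LitB974.tau_mass P σ χ)
    (fun σ χ => by
      obtain ⟨K, hK⟩ := LitB974.tau_mom P σ χ
      have h1 : Tendsto (fun g : ℝ => ENNReal.ofReal ((K : ℝ) / g)) atTop (𝓝 0) := by
        have h2 : Tendsto (fun g : ℝ => (K : ℝ) / g) atTop (𝓝 0) :=
          tendsto_const_nhds.div_atTop tendsto_id
        have h3 := (ENNReal.continuous_ofReal.tendsto 0).comp h2
        rwa [ENNReal.ofReal_zero] at h3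
      exact tendsto_of_tendsto_of_tendsto_of_le_of_le' tendsto_const_nhds h1
        (Eventually.of_forall fun _ => zero_le) hK)

end Crest.Agent.R330.Rad969
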