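import Crest.Agent.R330.Orbit_737
import Crest.Agent.R330.ConcT_974
import Crest.Agent.R330.Gram_167
import Crest.Agent.R330.SlEx_814
import Crest.Agent.R330.RadB_969
import Crest.Agent.R330.LitC_974
import Crest.Agent.R330.ChLit_879
import Crest.Agent.R330.Last_478

/-!
# Row 330, S8-TOP: `ChanAll N` from the statements on one partition (helper478)

* `ChIn P` : the open statements on the trial states of one `P : TPack C M R G`: local isometry and
  change of charts (inputs of 167's `gramT`), the dual estimate, capture at mass zero and one.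
* `chanAll_of` : `ChanAll N` from `∃ P, ChIn P` for every partition with at least two parts.
* `s0512_of` : the statement of S0512 from the same input.
-/

set_option autoImplicit false
set_option linter.unusedSectionVars false

open MeasureTheory Filter Topology Crest.MathPhysics.MatrixQM
open scoped ContDiff InnerProductSpace ENNReal

noncomputable section

namespace Crest.Agent.R330.ChanTop478

open Crest.Agent.R330.Defs478 Crest.Agent.R330.TDef414 Crest.Agent.R330.Chan441
  Crest.Agent.R330.Parts879 Crest.Agent.R330.Geo692 Crest.Agent.R330.ChSys399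
  Crest.Agent.R330.CapGlue737

section one

variable {N p : ℕ} {b : ColorBasis N} {S : Type} [Group S] [Fintype S] {C : Chn b p S}
  {F : Type} [NormedAddCommGroup F] [InnerProductSpace ℂ F] [FiniteDimensional ℂ F]
  {M : FermionRep N F} {R : GaugeAction b M} {G : GammaNine}

/-- The open statements on the trial states of one channel. -/
structure ChIn (P : TPack C M R G) : Prop where
  /-- (G1) local isometry (372) -/
  iso : Gram167.HIso P
  /-- (G3) change of charts (372) -/
  chart : Gram167.HChart P
  /-- (T5) the dual estimate (547/714) -/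
  dual : DualT P
  /-- capture at mass zero (342/8/737) -/
  cap0 : CapT P 0
  /-- capture at mass one -/
  cap1 : CapT P 1

theorem chartT (C : Chn b p S) : ChartT C := fun X0 h0 => by
  obtain ⟨σ, h1, -⟩ := SlEx814.exists_Sl C h0.reg one_pos
  exact ⟨σ, h1⟩

theorem coreT [Nontrivial F] (P : TPack C M R G) : CoreT P := fun σ χ => TCore383.core P σ χ

theorem suppT (h0 : ¬ C.BReg 0) (P : TPack C M R G) : SuppT P := fun σ χ => by
  obtain ⟨δ, ρ, hδ, -, h⟩ := TCore383.supp h0 P σ χ
  exact ⟨δ, ρ, hδ, Eventually.of_forall h⟩

theorem ChIn.gramT [Nontrivial F] {P : TPack C M R G} (h : ChIn P) : GramT P :=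
  Gram167.gramT (TCore383.core P) h.iso h.chart (LitC974.conc P)

end one

variable {N : ℕ}

theorem not_breg (b : ColorBasis N) (L : Lam N) : ¬ (chn b L).BReg 0 := by
  intro h
  have h2 := L.two_le_m
  have h3 : (⟨0, by omega⟩ : Fin L.m) ≠ ⟨1, by omega⟩ := by
    intro h4
    have := congrArg Fin.val h4
    simp at this
  exact h ⟨(⟨0, by omega⟩, ⟨1, by omega⟩), h3⟩ (map_zero _)

section chan

variable {b : ColorBasis N} {F : Type} [NormedAddCommGroup F] [InnerProductSpace ℂ F]
  [FiniteDimensional ℂ F] [Nontrivial F] {M : FermionRep N F} {R : GaugeAction b M}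
  {G : GammaNine}

/-- The bundled channel of a partition. -/
def theChan {L : Lam N} {P : TPack (chn b L) M R G} (hP : ChIn P) : Chan441.Chan b M R G :=
  ChLit879.chanLit (C := chn b L) (by have := L.two_le_m; omega) P (chartT _) (coreT P)
    (suppT (not_breg b L) P) (Rad969.radT P) hP.gramT hP.dual

end chan

/-- The open input of `ChanAll N`: one pack with the statements `ChIn` for every partition. -/
def PackAll (N : ℕ) : Prop :=
  ∀ (F : Type) [NormedAddCommGroup F] [InnerProductSpace ℂ F] [FiniteDimensional ℂ F]
    [Nontrivial F] (b : ColorBasis N) (M : FermionRep N F) (R : GaugeAction b M)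
    (G : GammaNine) (L : Lam N), ∃ P : TPack (chn b L) M R G, ChIn P

/-- **`ChanAll N`** from the statements on one partition. -/
theorem chanAll_of (hN : 0 < N) (h : PackAll N) : ChanAll N := by
  intro F _ _ _ _ b M R G
  choose P hP using h F b M R G
  refine ⟨Lam N, inferInstance, fun L => theChan (hP L), card_Lam N, fun i j hij => ?_, ?_, ?_⟩
  · exact ConcT974.orth_TT hij (P i) (P j)
  · exact capFam_of_capT hN le_rfl zero_le_one (orbitT b) P fun L => (hP L).cap0
  · exact capFam_of_capT hN zero_le_one le_rfl (orbitT b) P fun L => (hP L).cap1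

/-- **The statement of S0512** from the packs. -/
theorem s0512_of (h : ∀ N, 2 ≤ N → Close478.Below N → PackAll N) {N : ℕ} (hN : 2 ≤ N)
    (F : Type) [NormedAddCommGroup F] [InnerProductSpace ℂ F] [FiniteDimensional ℂ F]
    [Nontrivial F] (b : ColorBasis N) (M : FermionRep N F) (R : GaugeAction b M)
    (G : GammaNine) :
    ∃ Ψ₀ ∈ zeroEnergyStates b M R G, ¬ (Ψ₀ =ᵐ[volume] 0) ∧
      ∀ Ψ ∈ zeroEnergyStates b M R G, ∃ c : ℂ, Ψ =ᵐ[volume] c • Ψ₀ :=
  Last478.s0512_of_chan (fun N hN hb => chanAll_of (by omega) (h N hN hb)) hN F b M R G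

end Crest.Agent.R330.ChanTop478

end
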