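import Crest.Agent.R330.TDef_414

/-!
# Row 330, S8/S9: the block Hardy property of the trial data (helper414)

* `PsiHardy P` : capture inside the clusters, in the block variables `C.Blk` only.
* `amplitude` : the amplitude of a block function against `P.Psi g`.
-/

set_option autoImplicit false
set_option linter.unusedSectionVars false

open MeasureTheory Filter Topology Crest.MathPhysics.MatrixQM
open scoped ContDiff InnerProductSpace ENNReal

noncomputable section

namespace Crest.Agent.R330.TDef414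

open Crest.Agent.R330.Bind6839

variable {N p : ℕ} {b : ColorBasis N} {S : Type} [Group S] [Fintype S] {C : Chn b p S}
  {F : Type*} [NormedAddCommGroup F] [InnerProductSpace ℂ F] [FiniteDimensional ℂ F]
  {M : FermionRep N F} {R : GaugeAction b M} {G : GammaNine}

/-- `a` is the amplitude of `w` against the block state at coupling `g`. -/
def IsBlockAmp (P : TPack C M R G) (g : ℝ) (w : C.Blk → F) (a : F) : Prop :=
  a ∈ C.Fx M G ∧ ∀ f ∈ C.Fx M G, ⟪f, a⟫_ℂ = ∫ Y : C.Blk, ⟪P.Psi g Y f, w Y⟫_ℂ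

/-- The block charges of a function on the block space. -/
def qblkB (M : FermionRep N F) (G : GammaNine) (g : ℝ) (α : Fin 16) (w : C.Blk → F) (Y : C.Blk) :
    F :=
  (∑ n, aA M G α ((stdOrthonormalBasis ℝ C.Blk n : C.Blk) : Cfg N)
    (fderiv ℝ w Y (stdOrthonormalBasis ℝ C.Blk n))) + wA b M G g 0 α (Y : Cfg N) (w Y)

/-- Capture inside the clusters (block variables only). -/
def PsiHardy (P : TPack C M R G) : Prop :=
  ∃ K : ℝ, 0 ≤ K ∧ ∀ ε : ℝ, 0 < ε → ∀ᶠ g in atTop, ∀ w : C.Blk → F, ContDiff ℝ ∞ w →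
    HasCompactSupport w → (∀ Y, w Y ∈ C.Fl M G) →
    (∀ (h : Matrix.specialUnitaryGroup (Fin N) ℂ) (X : Pos p), C.Reg X →
      b.act h (C.cf X) = C.cf X → ∀ Y Y' : C.Blk, (Y' : Cfg N) = b.act h Y →
        w Y' = R.ρ h (w Y)) →
    ∃ a : F, IsBlockAmp P g w a ∧ ∀ δ : ℝ, 0 < δ →
      ∫ Y in Metric.closedBall (0 : C.Blk) δ, ‖w Y - P.Psi g Y a‖ ^ 2 ≤
        K * (g ^ (-(2 / 3) : ℝ) + δ ^ 2) * (∑ α, ∫ Y : C.Blk, ‖qblkB M G g α w Y‖ ^ 2) +
          ε * ∫ Y : C.Blk, ‖w Y‖ ^ 2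

end Crest.Agent.R330.TDef414

end
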