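import Crest.Agent.R330.ChSys_399
import Crest.Agent.R330.Chn_692
import Crest.Agent.R330.OrthCh_815
import Crest.Agent.R330.CapRed_868
import Crest.Agent.R330.TDefB_414
import Crest.Agent.R330.Close_478

/-!
# Row 330, S8-TOP (helper868): `ChanAll N` from the statements on one literal channel

Over 692's geometry `chn b P : Chn b (P.m - 1) (Sw P)`, `P : Lam N`, 414's trial data
`TPack (chn b P) M R G` and 399's literal Props on generators (`CoreT`, `SuppT`, `RadT`, `GramT`,
`DualT`, `ChartT`, `Match`):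

* `ConcT Pk` : (G2) every trial state concentrates on the orbits of the support of its amplitude.
* `CapT Pk m` : the slice estimate (737) at every regular position.
* `LimT C M R G` : the limit side of a channel.
* `Good Pk` : all the properties of the trial data of one channel.
* `PackAll N`, `LimAll N`, `chanAll_of : PackAll N → LimAll N → ChanAll N`.
* `Inputs` : the open list, one general statement per leaf; `chanAll_of_inputs`.
-/

set_option autoImplicit false
set_option linter.unusedSectionVars false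

open MeasureTheory Filter Topology Set Crest.MathPhysics.MatrixQM
open scoped ContDiff InnerProductSpace ENNReal

noncomputable section

namespace Crest.Agent.R330.ChanTop868

open Crest.Agent.R330.Defs478 Crest.Agent.R330.Top478 Crest.Agent.R330.Sec478
  Crest.Agent.R330.TrialSys796 Crest.Agent.R330.Chan441 Crest.Agent.R330.TDef414
  Crest.Agent.R330.FreeX399 Crest.Agent.R330.FreeY399 Crest.Agent.R330.ChSys399
  Crest.Agent.R330.Parts879 Crest.Agent.R330.Geo692 Crest.Agent.R330.GeoInj815
  Crest.Agent.R330.Conc815 Crest.Agent.R330.CapBind737 Crest.Agent.R330.CapRed868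
  Crest.Agent.R330.Close478

variable {N p : ℕ} {b : ColorBasis N} {S : Type} [Group S] [Fintype S] {C : Chn b p S}
variable {F : Type} [NormedAddCommGroup F] [InnerProductSpace ℂ F] [FiniteDimensional ℂ F]
variable {M : FermionRep N F} {R : GaugeAction b M} {G : GammaNine}

/-! ## the literal Props of one channel -/

/-- (G2) a trial state concentrates on the orbits of the support of its amplitude. -/
def ConcT (P : TPack C M R G) : Prop :=
  ∀ (σ : Sl C) (χ : Amp M G σ), Conc (atTop : Filter ℝ) (fun g => Tgen P σ g χ.fn)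
    {x | ∃ h, ∃ X ∈ tsupport χ.fn, b.act h (C.cf X) = x}

/-- The slice estimate at every regular position. -/
def CapT (P : TPack C M R G) (m : ℝ) : Prop :=
  ∀ X0 : Pos p, C.Reg X0 → SliceEstC b M R G m (fun g (χ : XX C M G) => TT P g χ) (C.cf X0)

/-- The slice estimate tested by generators only. -/
def CapGen (P : TPack C M R G) (m : ℝ) : Prop :=
  ∀ X0 : Pos p, C.Reg X0 →
    SliceEstC b M R G m (fun g (q : TDef414.Gen C M G) => Tgen P q.1 g q.2.fn) (C.cf X0)

/-- The estimate for null sequences tested by generators gives `CapT`. -/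
theorem capT_of_gen (P : TPack C M R G) {m : ℝ} (h : CapGen P m) : CapT P m := fun X0 hX0 =>
  (h X0 hX0).reindex fun q => ⟨gen q.1 q.2, fun g => (TT_gen P g q.1 q.2).symm⟩

/-- Charts of small radius exist at every regular position. -/
def ChartR (C : Chn b p S) : Prop :=
  ∀ X0 : Pos p, C.Reg X0 → ∀ ε : ℝ, 0 < ε → ∃ σ : Sl C, σ.X0 = X0 ∧ σ.r < ε

theorem chartT_of (h : ChartR C) : ChartT C := fun X0 hX0 => by
  obtain ⟨σ, hσ, -⟩ := h X0 hX0.reg 1 one_pos
  exact ⟨σ, hσ⟩

/-- The limit side of a channel. -/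
def LimT (C : Chn b p S) (M : FermionRep N F) (R : GaugeAction b M) (G : GammaNine) : Prop :=
  ∃ K : Chan566.Chan S (Pos p) (C.Fx M G), Match R K ∧
    (∀ (α β : Fin 16) (ψ : Pos p → C.Fx M G), ContDiff ℝ ∞ ψ →
      (K.Q 0 α).op ((K.Q 0 α).op ψ) = (K.Q 0 β).op ((K.Q 0 β).op ψ)) ∧
    ∃ (W : (ℝ → ℝ) → K.X →ₗ[ℂ] K.X) (K0 : Submodule ℂ K.L),
      (∀ (w : ℝ → ℝ) (hw : ContDiff ℝ ∞ w), W w = K.W w hw) ∧
        IsLim (L := K.L) K.e K.D W K0 1

/-- All the properties of the trial data of one channel. -/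
structure Good (P : TPack C M R G) : Prop where
  core : CoreT P
  supp : SuppT P
  rad : RadT P
  gram : GramT P
  dual : DualT P
  conc : ConcT P
  cap : ∀ m : ℝ, m = 0 ∨ m = 1 → CapT P m

/-- The bundled channel. -/
theorem exists_chan (P : TPack C M R G) (hCh : ChartT C) (hP : Good P) (hL : LimT C M R G) :
    ∃ (L : Type) (_ : NormedAddCommGroup L) (_ : InnerProductSpace ℂ L) (_ : CompleteSpace L)
      (e : XX C M G →ₗ[ℂ] L) (K0 : Submodule ℂ L), IsLim e (DD C M G) (WW C M G) K0 1 ∧
        IsChan b M R G e (DD C M G) (WW C M G) (fun g χ => TT P g χ) := by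
  obtain ⟨K, hM, hsq, W, K0, hW, hI⟩ := hL
  exact ⟨K.L, inferInstance, inferInstance, inferInstance, eX hM, K0,
    isLim_TT hM hCh hW hsq hI, isChan_TT P hM hP.core hP.supp hP.rad hP.gram hP.dual⟩

/-! ## orthogonality of different channels -/

theorem orb_eq {P : Lam N} (χ : Pos (P.m - 1) → (chn b P).Fx M G) :
    {x | ∃ h, ∃ X ∈ tsupport χ, b.act h ((chn b P).cf X) = x} = orbK b P (tsupport χ) := rfl

/-- **Different channels are asymptotically orthogonal.** -/
theorem orth_of {P Q : Lam N} (hPQ : P ≠ Q) {A : TPack (chn b P) M R G}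
    {B : TPack (chn b Q) M R G} (hA : Good A) (hB : Good B) :
    Orth (fun g (χ : XX (chn b P) M G) => TT A g χ)
      (fun g (χ : XX (chn b Q) M G) => TT B g χ) := by
  refine orth_gen (T₀ := fun g (q : TDef414.Gen (chn b P) M G) => Tgen A q.1 g q.2.fn)
    (T₁ := fun g (q : TDef414.Gen (chn b Q) M G) => Tgen B q.1 g q.2.fn)
    (fun q => hA.core q.1 q.2) (fun q => hB.core q.1 q.2) fun q q' => ?_
  have hbd : ∀ {P : Lam N} {A : TPack (chn b P) M R G}, Good A →
      ∀ q : TDef414.Gen (chn b P) M G, Bdd atTop (fun g => Tgen A q.1 g q.2.fn) := by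
    intro P A hA q
    have hg := hA.gram q.1 q.1 q.2 q.2
    set v : ℂ := ∑ s, ∫ X, ⟪R.ρ ((chn b P).w s) (q.2.fn X : F),
      (q.2.fn ((chn b P).O s X) : F)⟫_ℂ with hv
    refine ⟨‖v‖ + 1, by positivity, ?_⟩
    have h1 : Tendsto (fun g => ‖∫ x, ⟪Tgen A q.1 g q.2.fn x, Tgen A q.1 g q.2.fn x⟫_ℂ‖)
        atTop (𝓝 ‖v‖) := hg.norm
    filter_upwards [hA.core q.1 q.2, h1.eventually_lt_const (by linarith : ‖v‖ < ‖v‖ + 1)]
      with g h2 h3
    refine ⟨OrthCh815.memLp_core h2, ?_⟩
    rw [OrthCh815.integral_inner_self, Complex.norm_real] at h3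
    exact (le_abs_self _).trans h3.le
  have hreg : ∀ {P : Lam N} (q : TDef414.Gen (chn b P) M G), tsupport q.2.fn ⊆ Reg b P :=
    fun {P} q X hX => (chn_Reg b P X).1 (q.2.off X hX).reg
  exact inner_tendsto_zero (isCompact_orbK b q.2.compact) (isCompact_orbK b q'.2.compact).isClosed
    (disjoint_orbK b hPQ (hreg q) (hreg q')) (hA.conc q.1 q.2) (hB.conc q'.1 q'.2)
    (hbd hA q) (hbd hB q')

/-! ## the assembly -/

/-- Good trial data for every partition and all data. -/
def PackAll (N : ℕ) : Prop :=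
  ∀ (F : Type) [NormedAddCommGroup F] [InnerProductSpace ℂ F] [FiniteDimensional ℂ F]
    [Nontrivial F] (b : ColorBasis N) (M : FermionRep N F) (R : GaugeAction b M) (G : GammaNine)
    (P : Lam N), ∃ A : TPack (chn b P) M R G, Good A ∧ LimT (chn b P) M R G

theorem cfg_zero (x : Cfg 0) : x = 0 := by
  ext q
  exact Fin.elim0 (q.2 : Fin 0)

theorem capFam_zero {F : Type} [NormedAddCommGroup F] [InnerProductSpace ℂ F]
    [FiniteDimensional ℂ F] {b : ColorBasis 0} {M : FermionRep 0 F} {R : GaugeAction b M}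
    {G : GammaNine} (m : ℝ) {ι : Type*} {X : ι → Type*} (T : ∀ i, ℝ → X i → Cfg 0 → F) :
    CapFam b M R G m T := by
  intro g φ E _ _ _ _ r ρ hr
  have h1 : {x : Cfg 0 | r ≤ ‖x‖ ∧ ‖x‖ ≤ ρ} = ∅ := by
    ext x
    rw [cfg_zero x]
    simp only [norm_zero, mem_ofPred_eq, mem_empty_iff_false, iff_false, not_and]
    intro h
    linarith
  rw [h1]
  simp

/-- **`ChanAll N` from good trial data for every partition.** -/
theorem chanAll_of (hch : ∀ (b : ColorBasis N) (P : Lam N), ChartT (chn b P))
    (h : PackAll N) : ChanAll N := by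
  intro F _ _ _ _ b M R G
  choose A hA hL using fun P : Lam N => h F b M R G P
  choose L h1 h2 h3 e K0 hlim hchan using fun P : Lam N =>
    exists_chan (A P) (hch b P) (hA P) (hL P)
  refine ⟨Lam N, inferInstance, fun P => ⟨L P, h1 P, h2 P, h3 P, XX (chn b P) M G, inferInstance,
    inferInstance, e P, DD (chn b P) M G, WW (chn b P) M G, fun g χ => TT (A P) g χ, K0 P,
    hlim P, hchan P⟩, card_Lam N, fun P Q hPQ => orth_of hPQ (hA P) (hA Q), ?_, ?_⟩
  · rcases Nat.eq_zero_or_pos N with rfl | hN
    · exact capFam_zero 0 _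
    · exact capFam_of_reg hN le_rfl zero_le_one fun P X0 hX0 =>
        (hA P).cap 0 (Or.inl rfl) X0 ((chn_Reg b P X0).2 hX0)
  · rcases Nat.eq_zero_or_pos N with rfl | hN
    · exact capFam_zero 1 _
    · exact capFam_of_reg hN zero_le_one le_rfl fun P X0 hX0 =>
        (hA P).cap 1 (Or.inr rfl) X0 ((chn_Reg b P X0).2 hX0)

/-- The open list: one statement per leaf, all general in the partition and the data. -/
structure Inputs (N : ℕ) : Prop where
  /-- S8-SL -/
  chart : ∀ (b : ColorBasis N) (P : Lam N), ChartR (chn b P)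
  /-- T7: trial data with the block Hardy property, from the induction hypothesis -/
  pack : Below N → ∀ (F : Type) [NormedAddCommGroup F] [InnerProductSpace ℂ F]
    [FiniteDimensional ℂ F] [Nontrivial F] (b : ColorBasis N) (M : FermionRep N F)
    (R : GaugeAction b M) (G : GammaNine) (P : Lam N),
    ∃ A : TPack (chn b P) M R G, PsiHardy A
  /-- the limit side (566, 718, 879, 122, 365) -/
  lim : ∀ (F : Type) [NormedAddCommGroup F] [InnerProductSpace ℂ F] [FiniteDimensional ℂ F]
    [Nontrivial F] (b : ColorBasis N) (M : FermionRep N F) (R : GaugeAction b M) (G : GammaNine)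
    (P : Lam N), TPack (chn b P) M R G → LimT (chn b P) M R G
  /-- T1 -/
  core : ∀ (F : Type) [NormedAddCommGroup F] [InnerProductSpace ℂ F] [FiniteDimensional ℂ F]
    [Nontrivial F] (b : ColorBasis N) (M : FermionRep N F) (R : GaugeAction b M) (G : GammaNine)
    (P : Lam N) (A : TPack (chn b P) M R G), CoreT A
  /-- T1 -/
  supp : ∀ (F : Type) [NormedAddCommGroup F] [InnerProductSpace ℂ F] [FiniteDimensional ℂ F]
    [Nontrivial F] (b : ColorBasis N) (M : FermionRep N F) (R : GaugeAction b M) (G : GammaNine)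
    (P : Lam N) (A : TPack (chn b P) M R G), SuppT A
  /-- T2 -/
  rad : ∀ (F : Type) [NormedAddCommGroup F] [InnerProductSpace ℂ F] [FiniteDimensional ℂ F]
    [Nontrivial F] (b : ColorBasis N) (M : FermionRep N F) (R : GaugeAction b M) (G : GammaNine)
    (P : Lam N) (A : TPack (chn b P) M R G), RadT A
  /-- T3, T4 -/
  gram : ∀ (F : Type) [NormedAddCommGroup F] [InnerProductSpace ℂ F] [FiniteDimensional ℂ F]
    [Nontrivial F] (b : ColorBasis N) (M : FermionRep N F) (R : GaugeAction b M) (G : GammaNine)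
    (P : Lam N) (A : TPack (chn b P) M R G), GramT A
  /-- T5 -/
  dual : ∀ (F : Type) [NormedAddCommGroup F] [InnerProductSpace ℂ F] [FiniteDimensional ℂ F]
    [Nontrivial F] (b : ColorBasis N) (M : FermionRep N F) (R : GaugeAction b M) (G : GammaNine)
    (P : Lam N) (A : TPack (chn b P) M R G), DualT A
  /-- (G2) -/
  conc : ∀ (F : Type) [NormedAddCommGroup F] [InnerProductSpace ℂ F] [FiniteDimensional ℂ F]
    [Nontrivial F] (b : ColorBasis N) (M : FermionRep N F) (R : GaugeAction b M) (G : GammaNine)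
    (P : Lam N) (A : TPack (chn b P) M R G), ConcT A
  /-- CAP, the slice estimate at regular positions, tested by generators -/
  cap : ∀ (F : Type) [NormedAddCommGroup F] [InnerProductSpace ℂ F] [FiniteDimensional ℂ F]
    [Nontrivial F] (b : ColorBasis N) (M : FermionRep N F) (R : GaugeAction b M) (G : GammaNine)
    (P : Lam N) (A : TPack (chn b P) M R G), PsiHardy A → ∀ m : ℝ, m = 0 ∨ m = 1 → CapGen A m

/-- **`ChanAll N` from the open list.** -/
theorem chanAll_of_inputs (I : Inputs N) (hB : Below N) : ChanAll N := by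
  refine chanAll_of (fun b P => chartT_of (I.chart b P)) ?_
  intro F _ _ _ _ b M R G P
  obtain ⟨A, hA⟩ := I.pack hB F b M R G P
  exact ⟨A, ⟨I.core F b M R G P A, I.supp F b M R G P A, I.rad F b M R G P A,
    I.gram F b M R G P A, I.dual F b M R G P A, I.conc F b M R G P A,
    fun m hm => capT_of_gen A (I.cap F b M R G P A hA m hm)⟩, I.lim F b M R G P A⟩

end Crest.Agent.R330.ChanTop868

end
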