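import Crest.Agent.R330.Cliff6_442

/-!
# Row 330 (helper442): two-point function of the heavy vacuum

`J` a partial complex structure, `x` heavy: `J (J x) = -x`, light: `J x = 0`; `f ∈ vacJ J`.

* `proj_th` : `P θ x f = 0`.
* `proj_th_th` : `P θ x θ y f = ½ (⟪x, y⟫ + i ⟪x, J y⟫) f`.
* `proj_th_light` : light generators commute with `P`, anticommute through.
* `proj_sum2` : bilinears `∑ K_ij θ (e_i) θ (e_j)`.
-/

set_option autoImplicit false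
set_option linter.unusedSectionVars false

open scoped InnerProductSpace

noncomputable section

namespace Crest.Agent.R330.Cliff442

variable {V F : Type*} [NormedAddCommGroup V] [InnerProductSpace ℝ V]
  [NormedAddCommGroup F] [InnerProductSpace ℂ F]

namespace CRep

variable (M : CRep V F) [FiniteDimensional ℝ V]

/-- On the vacuum space `θ x = i θ (J x)` for heavy `x`. -/
theorem vac_th {J : V →ₗ[ℝ] V} {x : V} (hx : J (J x) = -x) {f : F} (hf : f ∈ M.vacJ J) :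
    M.θ x f = Complex.I • M.θ (J x) f := by
  have h1 := hf (-J x)
  rw [map_neg, hx, neg_neg] at h1
  exact h1

/-- `⟪g, θ x f⟫ = -i ⟪g, θ (J x) f⟫` for `g` in the vacuum space. -/
theorem inner_vac_th {J : V →ₗ[ℝ] V} {x : V} (hx : J (J x) = -x) {g : F} (hg : g ∈ M.vacJ J)
    (f : F) : ⟪g, M.θ x f⟫_ℂ = -Complex.I * ⟪g, M.θ (J x) f⟫_ℂ := by
  rw [← M.symm, M.vac_th hx hg, inner_smul_left, M.symm, Complex.conj_I]

theorem proj_eq_zero_of {J : V →ₗ[ℝ] V} (hJ : PCS J) {f : F}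
    (h : ∀ g ∈ M.vacJ J, ⟪g, f⟫_ℂ = 0) : M.proj J f = 0 := by
  have h1 := h _ (proj_mem hJ f)
  rw [M.proj_symm hJ, M.inner_proj_self hJ] at h1
  have h3 : ‖M.proj J f‖ ^ 2 = 0 := by exact_mod_cast h1
  exact norm_eq_zero.1 (pow_eq_zero_iff two_ne_zero |>.1 h3)

theorem proj_eq_of {J : V →ₗ[ℝ] V} (hJ : PCS J) {f g : F} (hg : g ∈ M.vacJ J)
    (h : ∀ k ∈ M.vacJ J, ⟪k, f⟫_ℂ = ⟪k, g⟫_ℂ) : M.proj J f = g := by
  have h1 : M.proj J (f - g) = 0 := M.proj_eq_zero_of hJ fun k hk => by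
    rw [inner_sub_right, h k hk, sub_self]
  rw [map_sub, M.proj_of_mem hJ hg, sub_eq_zero] at h1
  exact h1

/-- Heavy generators have no vacuum expectation. -/
theorem inner_th {J : V →ₗ[ℝ] V} {x : V} (hx : J (J x) = -x) {f g : F}
    (hf : f ∈ M.vacJ J) (hg : g ∈ M.vacJ J) : ⟪g, M.θ x f⟫_ℂ = 0 := by
  have h1 := M.inner_vac_th hx hg f
  have h2 : ⟪g, M.θ x f⟫_ℂ = Complex.I * ⟪g, M.θ (J x) f⟫_ℂ := by
    rw [M.vac_th hx hf, inner_smul_right]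
  have h3 : 2 * ⟪g, M.θ x f⟫_ℂ = 0 := by linear_combination h1 + h2
  exact (mul_eq_zero.1 h3).resolve_left two_ne_zero

theorem proj_th {J : V →ₗ[ℝ] V} (hJ : PCS J) {x : V} (hx : J (J x) = -x) {f : F}
    (hf : f ∈ M.vacJ J) : M.proj J (M.θ x f) = 0 :=
  M.proj_eq_zero_of hJ fun _ hg => M.inner_th hx hf hg

/-- **Two-point function of the heavy vacuum.** -/
theorem inner_th_th {J : V →ₗ[ℝ] V} {x y : V} (hy : J (J y) = -y) {f g : F} (hf : f ∈ M.vacJ J) (hg : g ∈ M.vacJ J) :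
    ⟪g, M.θ x (M.θ y f)⟫_ℂ =
      (1 / 2 : ℂ) * (((⟪x, y⟫_ℝ : ℝ) : ℂ) + Complex.I * ((⟪x, J y⟫_ℝ : ℝ) : ℂ)) * ⟪g, f⟫_ℂ := by
  -- `⟪g, θ x θ y f⟫ = -i ⟪g, θ (J x) θ y f⟫ = i ⟪g, θ x θ (J y) f⟫`
  set a := ⟪g, M.θ x (M.θ y f)⟫_ℂ with ha
  set b := ⟪g, M.θ y (M.θ x f)⟫_ℂ with hb
  have e1 : a + b = ((⟪x, y⟫_ℝ : ℝ) : ℂ) * ⟪g, f⟫_ℂ := by
    rw [ha, hb, ← inner_add_right, M.anti_apply, inner_smul_right]
  -- with `J y`
  set a' := ⟪g, M.θ x (M.θ (J y) f)⟫_ℂ with ha'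
  set b' := ⟪g, M.θ (J y) (M.θ x f)⟫_ℂ with hb'
  have e2 : a' + b' = ((⟪x, J y⟫_ℝ : ℝ) : ℂ) * ⟪g, f⟫_ℂ := by
    rw [ha', hb', ← inner_add_right, M.anti_apply, inner_smul_right]
  have e3 : a = Complex.I * a' := by
    rw [ha, ha', M.vac_th hy hf, map_smul, inner_smul_right]
  have e4 : b = -Complex.I * b' := by
    rw [hb, hb', M.inner_vac_th hy hg]
  have hI := Complex.I_mul_I
  linear_combination (1 / 2 : ℂ) * e1 + (1 / 2 : ℂ) * Complex.I * e2 + (1 / 2 : ℂ) * e3 -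
    (1 / 2 : ℂ) * e4

theorem proj_th_th {J : V →ₗ[ℝ] V} (hJ : PCS J) {x y : V}
    (hy : J (J y) = -y) {f : F} (hf : f ∈ M.vacJ J) :
    M.proj J (M.θ x (M.θ y f)) =
      ((1 / 2 : ℂ) * (((⟪x, y⟫_ℝ : ℝ) : ℂ) + Complex.I * ((⟪x, J y⟫_ℝ : ℝ) : ℂ))) • f := by
  refine M.proj_eq_of hJ (Submodule.smul_mem _ _ hf) fun g hg => ?_
  rw [M.inner_th_th hy hf hg, inner_smul_right]

/-- The vacuum space is invariant under light generators. -/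
theorem light_mem {J : V →ₗ[ℝ] V} (hJ : PCS J) {l : V} (hl : J l = 0) {f : F}
    (hf : f ∈ M.vacJ J) : M.θ l f ∈ M.vacJ J := by
  rw [← M.proj_of_mem hJ hf, M.proj_comm_th hJ.skew hl]
  exact proj_mem hJ _

/-- Heavy, light, heavy. -/
theorem proj_hlh {J : V →ₗ[ℝ] V} (hJ : PCS J) {x y l : V} (hx : J (J x) = -x)
    (hy : J (J y) = -y) (hl : J l = 0) {f : F} (hf : f ∈ M.vacJ J) :
    M.proj J (M.θ x (M.θ l (M.θ y f))) =
      -((1 / 2 : ℂ) * (((⟪x, y⟫_ℝ : ℝ) : ℂ) + Complex.I * ((⟪x, J y⟫_ℝ : ℝ) : ℂ))) • M.θ l f := by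
  have hlx : ⟪x, l⟫_ℝ = 0 := by
    have h1 : ⟪J (J x), l⟫_ℝ = 0 := by rw [hJ.skew, hl]; simp
    rw [hx, inner_neg_left] at h1
    linarith
  rw [M.comm_apply hlx, map_neg, ← M.proj_comm_th hJ.skew hl, M.proj_th_th hJ hy hf, map_smul,
    neg_smul]

/-- Heavy, heavy, light. -/
theorem proj_hhl {J : V →ₗ[ℝ] V} (hJ : PCS J) {x y l : V}
    (hy : J (J y) = -y) (hl : J l = 0) {f : F} (hf : f ∈ M.vacJ J) :
    M.proj J (M.θ x (M.θ y (M.θ l f))) =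
      ((1 / 2 : ℂ) * (((⟪x, y⟫_ℝ : ℝ) : ℂ) + Complex.I * ((⟪x, J y⟫_ℝ : ℝ) : ℂ))) • M.θ l f :=
  M.proj_th_th hJ hy (M.light_mem hJ hl hf)

/-- Heavy component of a vector. -/
def hvy (J : V →ₗ[ℝ] V) (x : V) : V := -J (J x)

/-- Light component of a vector. -/
def lgt (J : V →ₗ[ℝ] V) (x : V) : V := x + J (J x)

theorem hvy_add_lgt (J : V →ₗ[ℝ] V) (x : V) : hvy J x + lgt J x = x := by
  rw [hvy, lgt]; abel

theorem hvy_heavy {J : V →ₗ[ℝ] V} (hJ : PCS J) (x : V) : J (J (hvy J x)) = -hvy J x := by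
  rw [hvy, map_neg, hJ.cube, neg_neg, neg_neg]

theorem lgt_light {J : V →ₗ[ℝ] V} (hJ : PCS J) (x : V) : J (lgt J x) = 0 := by
  rw [lgt, map_add, hJ.cube, add_neg_cancel]

theorem J_hvy {J : V →ₗ[ℝ] V} (hJ : PCS J) (x : V) : J (hvy J x) = J x := by
  rw [hvy, map_neg, hJ.cube, neg_neg]

/-- `P θ x f = θ (light part of x) f`. -/
theorem proj_th_gen {J : V →ₗ[ℝ] V} (hJ : PCS J) (x : V) {f : F} (hf : f ∈ M.vacJ J) :
    M.proj J (M.θ x f) = M.θ (lgt J x) f := by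
  conv_lhs => rw [← hvy_add_lgt J x, M.add, LinearMap.add_apply, map_add]
  rw [M.proj_th hJ (hvy_heavy hJ x) hf, zero_add,
    M.proj_of_mem hJ (M.light_mem hJ (lgt_light hJ x) hf)]

/-- General two-point function. -/
theorem proj_th_th_gen {J : V →ₗ[ℝ] V} (hJ : PCS J) (x y : V) {f : F} (hf : f ∈ M.vacJ J) :
    M.proj J (M.θ x (M.θ y f)) = M.θ (lgt J x) (M.θ (lgt J y) f) +
      ((1 / 2 : ℂ) * (((⟪J x, J y⟫_ℝ : ℝ) : ℂ) + Complex.I * ((⟪x, J y⟫_ℝ : ℝ) : ℂ))) • f := by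
  have hx := hvy_heavy hJ x
  have hy := hvy_heavy hJ y
  have lx := lgt_light hJ x
  have ly := lgt_light hJ y
  have e1 : M.θ x (M.θ y f) = M.θ (lgt J x) (M.θ (lgt J y) f) +
      M.θ (hvy J x) (M.θ (hvy J y) f) + M.θ (hvy J x) (M.θ (lgt J y) f) +
      M.θ (lgt J x) (M.θ (hvy J y) f) := by
    conv_lhs => rw [← hvy_add_lgt J x, ← hvy_add_lgt J y]
    simp only [M.add, LinearMap.add_apply, map_add]
    abel
  have e2 : ⟪hvy J x, hvy J y⟫_ℝ = ⟪J x, J y⟫_ℝ := by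
    rw [hvy, hvy, inner_neg_neg, hJ.skew, hJ.cube, inner_neg_right, neg_neg]
  have e3 : ⟪hvy J x, J (hvy J y)⟫_ℝ = ⟪x, J y⟫_ℝ := by
    rw [J_hvy hJ, hvy, inner_neg_left, hJ.skew, neg_neg, hJ.skew, hJ.cube, inner_neg_right, neg_neg]
  rw [e1, map_add, map_add, map_add,
    M.proj_of_mem hJ (M.light_mem hJ lx (M.light_mem hJ ly hf)), M.proj_th_th hJ hy hf,
    M.proj_th hJ hx (M.light_mem hJ ly hf), ← M.proj_comm_th hJ.skew lx, M.proj_th hJ hy hf,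
    map_zero, e2, e3, add_zero, add_zero]

end CRep

end Crest.Agent.R330.Cliff442

end
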