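import Mathlib

/-!
# Row 330 (helper442): modules of the Clifford relations

`CRep V F`: `θ : V → End F` real linear, every `θ u` symmetric, `θ u θ v + θ v θ u = ⟪u, v⟫`.

* `ann`, `cre` : `θ u ± i θ v` of an orthonormal pair; relations.
* `IrrOn K W` : `W` has no proper submodule invariant under `θ x`, `x ∈ K`.
* `IrrOn.step` : the kernel of `ann u v` in `W` is non-zero and irreducible for the orthogonal of `u, v`.
-/

set_option autoImplicit false
set_option linter.unusedSectionVars false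

open scoped InnerProductSpace

noncomputable section

namespace Crest.Agent.R330.Cliff442

variable {V F F' : Type*} [NormedAddCommGroup V] [InnerProductSpace ℝ V]
  [NormedAddCommGroup F] [InnerProductSpace ℂ F] [NormedAddCommGroup F'] [InnerProductSpace ℂ F']

/-- Modules of the Clifford relations `θ u θ v + θ v θ u = ⟪u, v⟫`. -/
structure CRep (V F : Type*) [NormedAddCommGroup V] [InnerProductSpace ℝ V]
    [NormedAddCommGroup F] [InnerProductSpace ℂ F] where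
  /-- the operators -/
  θ : V → Module.End ℂ F
  add : ∀ u v, θ (u + v) = θ u + θ v
  smul : ∀ (r : ℝ) u, θ (r • u) = (r : ℂ) • θ u
  symm : ∀ u (f g : F), ⟪θ u f, g⟫_ℂ = ⟪f, θ u g⟫_ℂ
  anti : ∀ u v, θ u * θ v + θ v * θ u = ((⟪u, v⟫_ℝ : ℝ) : ℂ) • (1 : Module.End ℂ F)

namespace CRep

variable (M : CRep V F)

theorem zero : M.θ 0 = 0 := by
  have h := M.smul 0 0
  simpa using h

theorem neg (u : V) : M.θ (-u) = -M.θ u := by
  have h := M.smul (-1) u
  simpa using h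

theorem sub (u v : V) : M.θ (u - v) = M.θ u - M.θ v := by
  rw [sub_eq_add_neg, M.add, M.neg, sub_eq_add_neg]

theorem sum {ι : Type*} (s : Finset ι) (f : ι → V) : M.θ (∑ i ∈ s, f i) = ∑ i ∈ s, M.θ (f i) := by
  classical
  induction s using Finset.induction_on with
  | empty => simp [M.zero]
  | insert a s ha ih => rw [Finset.sum_insert ha, Finset.sum_insert ha, M.add, ih]

theorem anti_apply (u v : V) (f : F) :
    M.θ u (M.θ v f) + M.θ v (M.θ u f) = ((⟪u, v⟫_ℝ : ℝ) : ℂ) • f := by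
  have h := congrArg (fun T : Module.End ℂ F => T f) (M.anti u v)
  simpa [Module.End.mul_apply] using h

/-- Orthogonal vectors anticommute. -/
theorem comm_apply {u v : V} (h : ⟪u, v⟫_ℝ = 0) (f : F) : M.θ u (M.θ v f) = -M.θ v (M.θ u f) := by
  have h1 := M.anti_apply u v f
  rw [h, Complex.ofReal_zero, zero_smul] at h1
  exact eq_neg_of_add_eq_zero_left h1

theorem sq_apply (u : V) (f : F) : (2 : ℂ) • M.θ u (M.θ u f) = ((‖u‖ ^ 2 : ℝ) : ℂ) • f := by
  have h1 := M.anti_apply u u f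
  rw [real_inner_self_eq_norm_sq] at h1
  rw [two_smul]
  exact h1

/-! ### Annihilation and creation operators of a pair -/

/-- `θ u + i θ v`. -/
def ann (u v : V) : Module.End ℂ F := M.θ u + Complex.I • M.θ v

/-- `θ u - i θ v`. -/
def cre (u v : V) : Module.End ℂ F := M.θ u - Complex.I • M.θ v

theorem ann_apply (u v : V) (f : F) : M.ann u v f = M.θ u f + Complex.I • M.θ v f := rfl

theorem cre_apply (u v : V) (f : F) : M.cre u v f = M.θ u f - Complex.I • M.θ v f := rfl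

theorem inner_ann (u v : V) (f g : F) : ⟪M.ann u v f, g⟫_ℂ = ⟪f, M.cre u v g⟫_ℂ := by
  rw [ann_apply, cre_apply, inner_add_left, inner_sub_right, inner_smul_left, inner_smul_right,
    M.symm, M.symm, Complex.conj_I]
  ring

theorem inner_cre (u v : V) (f g : F) : ⟪M.cre u v f, g⟫_ℂ = ⟪f, M.ann u v g⟫_ℂ := by
  rw [ann_apply, cre_apply, inner_sub_left, inner_add_right, inner_smul_left, inner_smul_right,
    M.symm, M.symm, Complex.conj_I]
  ring

/-- `ann x y (ann u v f) + ann u v (ann x y f)`. -/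
theorem ann_ann (x y u v : V) (f : F) : M.ann x y (M.ann u v f) + M.ann u v (M.ann x y f) =
    (((⟪x, u⟫_ℝ - ⟪y, v⟫_ℝ : ℝ) : ℂ) + Complex.I * ((⟪x, v⟫_ℝ + ⟪y, u⟫_ℝ : ℝ) : ℂ)) • f := by
  have h1 := M.anti_apply x u f
  have h2 := M.anti_apply x v f
  have h3 := M.anti_apply y u f
  have h4 := M.anti_apply y v f
  simp only [ann_apply, map_add, map_smul, smul_add, smul_smul, Complex.I_mul_I]
  have e : (((⟪x, u⟫_ℝ - ⟪y, v⟫_ℝ : ℝ) : ℂ) + Complex.I * ((⟪x, v⟫_ℝ + ⟪y, u⟫_ℝ : ℝ) : ℂ)) • f =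
      ((⟪x, u⟫_ℝ : ℝ) : ℂ) • f - ((⟪y, v⟫_ℝ : ℝ) : ℂ) • f +
        Complex.I • (((⟪x, v⟫_ℝ : ℝ) : ℂ) • f + ((⟪y, u⟫_ℝ : ℝ) : ℂ) • f) := by
    push_cast
    module
  rw [e, ← h1, ← h2, ← h3, ← h4]
  module

theorem cre_cre (x y u v : V) (f : F) : M.cre x y (M.cre u v f) + M.cre u v (M.cre x y f) =
    (((⟪x, u⟫_ℝ - ⟪y, v⟫_ℝ : ℝ) : ℂ) - Complex.I * ((⟪x, v⟫_ℝ + ⟪y, u⟫_ℝ : ℝ) : ℂ)) • f := by
  have h1 := M.anti_apply x u f
  have h2 := M.anti_apply x v f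
  have h3 := M.anti_apply y u f
  have h4 := M.anti_apply y v f
  simp only [cre_apply, map_sub, map_smul, smul_sub, smul_smul, Complex.I_mul_I]
  have e : (((⟪x, u⟫_ℝ - ⟪y, v⟫_ℝ : ℝ) : ℂ) - Complex.I * ((⟪x, v⟫_ℝ + ⟪y, u⟫_ℝ : ℝ) : ℂ)) • f =
      ((⟪x, u⟫_ℝ : ℝ) : ℂ) • f - ((⟪y, v⟫_ℝ : ℝ) : ℂ) • f -
        Complex.I • (((⟪x, v⟫_ℝ : ℝ) : ℂ) • f + ((⟪y, u⟫_ℝ : ℝ) : ℂ) • f) := by
    push_cast
    module
  rw [e, ← h1, ← h2, ← h3, ← h4]
  module

theorem ann_cre (x y u v : V) (f : F) : M.ann x y (M.cre u v f) + M.cre u v (M.ann x y f) =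
    (((⟪x, u⟫_ℝ + ⟪y, v⟫_ℝ : ℝ) : ℂ) + Complex.I * ((⟪y, u⟫_ℝ - ⟪x, v⟫_ℝ : ℝ) : ℂ)) • f := by
  have h1 := M.anti_apply x u f
  have h2 := M.anti_apply x v f
  have h3 := M.anti_apply y u f
  have h4 := M.anti_apply y v f
  simp only [cre_apply, ann_apply, map_sub, map_add, map_smul, smul_sub, smul_add, smul_smul,
    Complex.I_mul_I]
  have e : (((⟪x, u⟫_ℝ + ⟪y, v⟫_ℝ : ℝ) : ℂ) + Complex.I * ((⟪y, u⟫_ℝ - ⟪x, v⟫_ℝ : ℝ) : ℂ)) • f =
      ((⟪x, u⟫_ℝ : ℝ) : ℂ) • f + ((⟪y, v⟫_ℝ : ℝ) : ℂ) • f +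
        Complex.I • (((⟪y, u⟫_ℝ : ℝ) : ℂ) • f - ((⟪x, v⟫_ℝ : ℝ) : ℂ) • f) := by
    push_cast
    module
  rw [e, ← h1, ← h2, ← h3, ← h4]
  module

/-- `θ x` and `ann u v`. -/
theorem th_ann (x u v : V) (f : F) : M.θ x (M.ann u v f) + M.ann u v (M.θ x f) =
    (((⟪x, u⟫_ℝ : ℝ) : ℂ) + Complex.I * ((⟪x, v⟫_ℝ : ℝ) : ℂ)) • f := by
  have h1 := M.anti_apply x u f
  have h2 := M.anti_apply x v f
  simp only [ann_apply, map_add, map_smul]
  rw [add_smul, mul_smul, ← h1, ← h2]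
  module

theorem th_cre (x u v : V) (f : F) : M.θ x (M.cre u v f) + M.cre u v (M.θ x f) =
    (((⟪x, u⟫_ℝ : ℝ) : ℂ) - Complex.I * ((⟪x, v⟫_ℝ : ℝ) : ℂ)) • f := by
  have h1 := M.anti_apply x u f
  have h2 := M.anti_apply x v f
  simp only [cre_apply, map_sub, map_smul]
  rw [sub_smul, mul_smul, ← h1, ← h2]
  module

/-- `u, v` is an orthonormal pair. -/
def Pr (u v : V) : Prop := ‖u‖ = 1 ∧ ‖v‖ = 1 ∧ ⟪u, v⟫_ℝ = 0

section pair

variable {M} {u v : V} (hp : Pr u v)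
include hp

theorem ann_sq (f : F) : M.ann u v (M.ann u v f) = 0 := by
  have h := M.ann_ann u v u v f
  rw [real_inner_self_eq_norm_sq, real_inner_self_eq_norm_sq, hp.1, hp.2.1, hp.2.2,
    real_inner_comm, hp.2.2] at h
  simp only [one_pow, sub_self, add_zero, Complex.ofReal_zero, mul_zero, zero_smul] at h
  have h2 : (2 : ℂ) • M.ann u v (M.ann u v f) = 0 := by rw [two_smul]; exact h
  exact (smul_eq_zero.1 h2).resolve_left two_ne_zero

theorem cre_sq (f : F) : M.cre u v (M.cre u v f) = 0 := by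
  have h := M.cre_cre u v u v f
  rw [real_inner_self_eq_norm_sq, real_inner_self_eq_norm_sq, hp.1, hp.2.1, hp.2.2,
    real_inner_comm, hp.2.2] at h
  simp only [one_pow, sub_self, add_zero, Complex.ofReal_zero, mul_zero, zero_smul] at h
  have h2 : (2 : ℂ) • M.cre u v (M.cre u v f) = 0 := by rw [two_smul]; exact h
  exact (smul_eq_zero.1 h2).resolve_left two_ne_zero

theorem ann_cre_self (f : F) :
    M.ann u v (M.cre u v f) + M.cre u v (M.ann u v f) = (2 : ℂ) • f := by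
  rw [M.ann_cre, real_inner_self_eq_norm_sq, real_inner_self_eq_norm_sq, hp.1, hp.2.1, hp.2.2,
    real_inner_comm, hp.2.2]
  norm_num

/-- Every vector is `½ a a† f + a† (½ a f)`. -/
theorem split (f : F) :
    f = (1 / 2 : ℂ) • M.ann u v (M.cre u v f) + (1 / 2 : ℂ) • M.cre u v (M.ann u v f) := by
  rw [← smul_add, ann_cre_self hp, smul_smul]
  norm_num

end pair

/-- `θ x` anticommutes with `ann u v` if `x` is orthogonal to `u` and `v`. -/
theorem th_ann_perp {x u v : V} (hu : ⟪x, u⟫_ℝ = 0) (hv : ⟪x, v⟫_ℝ = 0) (f : F) :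
    M.ann u v (M.θ x f) = -M.θ x (M.ann u v f) := by
  have h := M.th_ann x u v f
  rw [hu, hv] at h
  simp only [Complex.ofReal_zero, mul_zero, add_zero, zero_smul] at h
  exact eq_neg_of_add_eq_zero_right h

theorem th_cre_perp {x u v : V} (hu : ⟪x, u⟫_ℝ = 0) (hv : ⟪x, v⟫_ℝ = 0) (f : F) :
    M.cre u v (M.θ x f) = -M.θ x (M.cre u v f) := by
  have h := M.th_cre x u v f
  rw [hu, hv] at h
  simp only [Complex.ofReal_zero, mul_zero, sub_zero, zero_smul] at h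
  exact eq_neg_of_add_eq_zero_right h

/-! ### Irreducible subspaces -/

/-- `W` is invariant under `θ x`, `x ∈ K`. -/
def InvOn (K : Submodule ℝ V) (W : Submodule ℂ F) : Prop := ∀ x ∈ K, ∀ f ∈ W, M.θ x f ∈ W

/-- `W` is invariant and has no proper invariant subspace. -/
def IrrOn (K : Submodule ℝ V) (W : Submodule ℂ F) : Prop :=
  M.InvOn K W ∧ ∀ W' ≤ W, M.InvOn K W' → W' = ⊥ ∨ W' = W

/-- The vectors of `K` orthogonal to `u` and `v`. -/
def perp (K : Submodule ℝ V) (u v : V) : Submodule ℝ V where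
  carrier := {x | x ∈ K ∧ ⟪x, u⟫_ℝ = 0 ∧ ⟪x, v⟫_ℝ = 0}
  add_mem' := by
    rintro x y ⟨h1, h2, h3⟩ ⟨h4, h5, h6⟩
    refine ⟨K.add_mem h1 h4, ?_, ?_⟩
    · rw [inner_add_left, h2, h5, add_zero]
    · rw [inner_add_left, h3, h6, add_zero]
  zero_mem' := ⟨K.zero_mem, inner_zero_left _, inner_zero_left _⟩
  smul_mem' := by
    rintro r x ⟨h1, h2, h3⟩
    refine ⟨K.smul_mem r h1, ?_, ?_⟩
    · rw [inner_smul_left, h2, mul_zero]
    · rw [inner_smul_left, h3, mul_zero]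

theorem mem_perp {K : Submodule ℝ V} {u v x : V} :
    x ∈ perp K u v ↔ x ∈ K ∧ ⟪x, u⟫_ℝ = 0 ∧ ⟪x, v⟫_ℝ = 0 := Iff.rfl

/-- The kernel of `ann u v` in `W`. -/
def vac (W : Submodule ℂ F) (u v : V) : Submodule ℂ F := W ⊓ LinearMap.ker (M.ann u v)

theorem mem_vac {W : Submodule ℂ F} {u v : V} {f : F} :
    f ∈ M.vac W u v ↔ f ∈ W ∧ M.ann u v f = 0 := by
  rw [vac, Submodule.mem_inf, LinearMap.mem_ker]

section step

variable {M} {K : Submodule ℝ V} {W : Submodule ℂ F} {u v : V} (hp : Pr u v) (hu : u ∈ K)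
  (hv : v ∈ K)
include hp hu hv

theorem InvOn.ann (h : M.InvOn K W) {f : F} (hf : f ∈ W) : M.ann u v f ∈ W :=
  W.add_mem (h u hu f hf) (W.smul_mem _ (h v hv f hf))

theorem InvOn.cre (h : M.InvOn K W) {f : F} (hf : f ∈ W) : M.cre u v f ∈ W :=
  W.sub_mem (h u hu f hf) (W.smul_mem _ (h v hv f hf))

theorem InvOn.ann_cre_mem (h : M.InvOn K W) {f : F} (hf : f ∈ W) :
    M.ann u v (M.cre u v f) ∈ M.vac W u v :=
  M.mem_vac.2 ⟨h.ann hp hu hv (h.cre hp hu hv hf), ann_sq hp _⟩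

theorem InvOn.ann_mem (h : M.InvOn K W) {f : F} (hf : f ∈ W) : M.ann u v f ∈ M.vac W u v :=
  M.mem_vac.2 ⟨h.ann hp hu hv hf, ann_sq hp _⟩

theorem InvOn.vac (h : M.InvOn K W) : M.InvOn (perp K u v) (M.vac W u v) := by
  intro x hx f hf
  obtain ⟨h1, h2⟩ := M.mem_vac.1 hf
  refine M.mem_vac.2 ⟨h x hx.1 f h1, ?_⟩
  rw [M.th_ann_perp hx.2.1 hx.2.2, h2, map_zero, neg_zero]

theorem vac_ne_bot (h : M.InvOn K W) (hW : W ≠ ⊥) : M.vac W u v ≠ ⊥ := by
  intro hb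
  obtain ⟨f, hf, hf0⟩ := W.ne_bot_iff.1 hW
  have h1 := h.ann_mem hp hu hv hf
  have h2 := h.ann_cre_mem hp hu hv hf
  rw [hb, Submodule.mem_bot] at h1 h2
  apply hf0
  rw [split (M := M) hp f, h1, h2, map_zero]
  simp

/-- The orthogonal projection of `x` on the pair and its orthogonal. -/
theorem exists_split {x : V} (hx : x ∈ K) :
    x - ⟪x, u⟫_ℝ • u - ⟪x, v⟫_ℝ • v ∈ perp K u v := by
  refine ⟨K.sub_mem (K.sub_mem hx (K.smul_mem _ hu)) (K.smul_mem _ hv), ?_, ?_⟩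
  · rw [inner_sub_left, inner_sub_left, inner_smul_left, inner_smul_left,
      real_inner_self_eq_norm_sq, hp.1, real_inner_comm u v, hp.2.2]
    simp
  · rw [inner_sub_left, inner_sub_left, inner_smul_left, inner_smul_left,
      real_inner_self_eq_norm_sq, hp.2.1, hp.2.2]
    simp

/-- `θ u`, `θ v` from `ann`, `cre`. -/
theorem th_u (f : F) : M.θ u f = (1 / 2 : ℂ) • (M.ann u v f + M.cre u v f) := by
  rw [ann_apply, cre_apply]
  module

theorem th_v (f : F) : M.θ v f = (-Complex.I / 2 : ℂ) • (M.ann u v f - M.cre u v f) := by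
  have h1 : M.ann u v f - M.cre u v f = (2 * Complex.I) • M.θ v f := by
    rw [ann_apply, cre_apply]
    module
  rw [h1, smul_smul, show (-Complex.I / 2 * (2 * Complex.I) : ℂ) = -(Complex.I * Complex.I) by ring,
    Complex.I_mul_I]
  simp

/-- `IrrOn` descends to the kernel of an annihilation operator. -/
theorem IrrOn.step (h : M.IrrOn K W) : M.IrrOn (perp K u v) (M.vac W u v) := by
  refine ⟨h.1.vac hp hu hv, fun W' hW' hinv => ?_⟩
  -- the submodule `W' + a† W'`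
  set U : Submodule ℂ F := W' ⊔ W'.map (M.cre u v) with hU
  have hW'W : W' ≤ W := fun f hf => (M.mem_vac.1 (hW' hf)).1
  have hann : ∀ f ∈ W', M.ann u v f = 0 := fun f hf => (M.mem_vac.1 (hW' hf)).2
  have hUW : U ≤ W := by
    refine sup_le hW'W ?_
    rintro _ ⟨f, hf, rfl⟩
    exact h.1.cre hp hu hv (hW'W hf)
  have hUann : ∀ f ∈ U, M.ann u v f ∈ U := by
    intro f hf
    obtain ⟨f1, hf1, _, ⟨f2, hf2, rfl⟩, rfl⟩ := Submodule.mem_sup.1 hf
    have h1 := ann_cre_self (M := M) hp f2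
    rw [hann f2 hf2, map_zero, add_zero] at h1
    rw [map_add, hann f1 hf1, zero_add, h1]
    exact Submodule.mem_sup_left (W'.smul_mem _ hf2)
  have hUcre : ∀ f ∈ U, M.cre u v f ∈ U := by
    intro f hf
    obtain ⟨f1, hf1, _, ⟨f2, hf2, rfl⟩, rfl⟩ := Submodule.mem_sup.1 hf
    rw [map_add, cre_sq hp, add_zero]
    exact Submodule.mem_sup_right ⟨f1, hf1, rfl⟩
  have hUinv : M.InvOn K U := by
    intro x hx f hf
    have e : x = ⟪x, u⟫_ℝ • u + ⟪x, v⟫_ℝ • v + (x - ⟪x, u⟫_ℝ • u - ⟪x, v⟫_ℝ • v) := by abel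
    have hy := exists_split hp hu hv hx
    rw [e, M.add, M.add, M.smul, M.smul]
    simp only [LinearMap.add_apply, LinearMap.smul_apply]
    refine U.add_mem (U.add_mem (U.smul_mem _ ?_) (U.smul_mem _ ?_)) ?_
    · rw [th_u (M := M) hp hu hv f]
      exact U.smul_mem _ (U.add_mem (hUann f hf) (hUcre f hf))
    · rw [th_v (M := M) hp hu hv f]
      exact U.smul_mem _ (U.sub_mem (hUann f hf) (hUcre f hf))
    · obtain ⟨f1, hf1, _, ⟨f2, hf2, rfl⟩, rfl⟩ := Submodule.mem_sup.1 hf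
      rw [map_add]
      refine U.add_mem (Submodule.mem_sup_left (hinv _ hy f1 hf1)) ?_
      have h1 := M.th_cre_perp hy.2.1 hy.2.2 f2
      rw [eq_neg_iff_add_eq_zero, add_comm, ← eq_neg_iff_add_eq_zero] at h1
      rw [h1]
      exact U.neg_mem (Submodule.mem_sup_right ⟨_, hinv _ hy f2 hf2, rfl⟩)
  rcases h.2 U hUW hUinv with hb | ht
  · left
    rw [eq_bot_iff]
    exact fun f hf => hb ▸ Submodule.mem_sup_left hf
  · right
    refine le_antisymm hW' fun f hf => ?_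
    obtain ⟨h1, h2⟩ := M.mem_vac.1 hf
    rw [← ht] at h1
    obtain ⟨f1, hf1, _, ⟨f2, hf2, rfl⟩, rfl⟩ := Submodule.mem_sup.1 h1
    have h3 := ann_cre_self (M := M) hp f2
    rw [hann f2 hf2, map_zero, add_zero] at h3
    rw [map_add, hann f1 hf1, zero_add, h3] at h2
    have h4 : f2 = 0 := (smul_eq_zero.1 h2).resolve_left two_ne_zero
    rw [h4, map_zero, add_zero]
    exact hf1

end step

end CRep

end Crest.Agent.R330.Cliff442

end
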