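import Crest.Agent.R330.Bar_186
import Crest.Agent.R330.Col_962

/-!
# Row 330, leaf S6E: the cone of commuting configurations and its covers (helper741)

* `V4 b x = ¼ Σ_{jk} |[x_j, x_k]|²` (the bosonic quartic potential on `Cfg N`), homogeneous of
  degree four, gauge invariant, continuous, nonnegative.
* `Cm b = {V4 = 0}`: a closed gauge invariant cone; `mem_Cm` : the matrices commute.
* `V4_lower` (6.4): `r ‖x‖ ≤ infDist x Cm → c ‖x‖⁴ ≤ V4 x`.
* `exists_finite_cover`: finitely many members of any family of neighbourhoods of the points of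
  the annulus of `Cm` cover a conical neighbourhood of it.
-/

set_option autoImplicit false
set_option linter.unusedSectionVars false

noncomputable section

open MeasureTheory Filter Topology Metric Set
open scoped ComplexOrder
open Crest.MathPhysics.MatrixQM
open Crest.Agent.R330.Bar186

namespace Crest.Agent.R330.Cone741

variable {N : ℕ} (b : ColorBasis N)

/-- the `i`-th bosonic matrix in colour coordinates -/
def row (x : Cfg N) (i : Fin 9) : Fin (N ^ 2 - 1) → ℝ := fun A => x (i, A)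

/-- the quartic potential `¼ Σ_{jk} |[x_j,x_k]|²` -/
def V4 (x : Cfg N) : ℝ := 1 / 4 * ∑ j, ∑ k, ∑ A, brk b (row x j) (row x k) A ^ 2

theorem V4_eq_pot (x : Cfg N) : V4 b x = pot b x.ofLp := rfl

theorem V4_nonneg (x : Cfg N) : 0 ≤ V4 b x := by
  unfold V4
  positivity

theorem brk_smul (t : ℝ) (u v : Fin (N ^ 2 - 1) → ℝ) (A : Fin (N ^ 2 - 1)) :
    brk b (fun B => t * u B) (fun B => t * v B) A = t ^ 2 * brk b u v A := by
  unfold brk
  rw [Finset.mul_sum]
  refine Finset.sum_congr rfl fun B _ => ?_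
  rw [Finset.mul_sum]
  exact Finset.sum_congr rfl fun C _ => by ring

theorem V4_smul (t : ℝ) (x : Cfg N) : V4 b (t • x) = t ^ 4 * V4 b x := by
  have h : ∀ j k A, brk b (row (t • x) j) (row (t • x) k) A =
      t ^ 2 * brk b (row x j) (row x k) A := fun j k A => brk_smul b t (row x j) (row x k) A
  unfold V4
  simp only [h, mul_pow, ← Finset.mul_sum]
  ring

theorem continuous_V4 : Continuous (V4 b) := by
  unfold V4 brk row
  fun_prop

theorem sum4_comm {α β γ δ : Type*} [Fintype α] [Fintype β] [Fintype γ] [Fintype δ]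
    (F : α → β → γ → δ → ℝ) :
    ∑ a, ∑ b, ∑ c, ∑ d, F a b c d = ∑ c, ∑ d, ∑ a, ∑ b, F a b c d := by
  have h1 : ∑ a, ∑ b, ∑ c, ∑ d, F a b c d = ∑ a, ∑ c, ∑ b, ∑ d, F a b c d :=
    Finset.sum_congr rfl fun a _ => Finset.sum_comm
  rw [h1, Finset.sum_comm]
  refine Finset.sum_congr rfl fun c _ => ?_
  have h2 : ∑ a, ∑ b, ∑ d, F a b c d = ∑ a, ∑ d, ∑ b, F a b c d :=
    Finset.sum_congr rfl fun a _ => Finset.sum_comm
  rw [h2, Finset.sum_comm]

/-- the bracket is covariant -/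
theorem brk_act (g : Matrix.specialUnitaryGroup (Fin N) ℂ) (u v : Fin (N ^ 2 - 1) → ℝ)
    (D : Fin (N ^ 2 - 1)) :
    brk b (fun A => ∑ B, b.adjMat g A B * u B) (fun A => ∑ B, b.adjMat g A B * v B) D =
      ∑ C, b.adjMat g D C * brk b u v C := by
  have h1 : brk b (fun A => ∑ B, b.adjMat g A B * u B) (fun A => ∑ B, b.adjMat g A B * v B) D =
      ∑ A', ∑ B', ∑ A, ∑ B, b.adjMat g A' A * b.adjMat g B' B * b.structConst A' B' D *
        (u A * v B) := by
    unfold brk
    refine Finset.sum_congr rfl fun A' _ => Finset.sum_congr rfl fun B' _ => ?_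
    rw [Col962.f_cyc b D A' B', mul_assoc, Finset.sum_mul_sum, Finset.mul_sum]
    refine Finset.sum_congr rfl fun A _ => ?_
    rw [Finset.mul_sum]
    exact Finset.sum_congr rfl fun B _ => by ring
  have h2 : ∑ C, b.adjMat g D C * brk b u v C =
      ∑ A, ∑ B, (∑ C, b.structConst A B C * b.adjMat g D C) * (u A * v B) := by
    unfold brk
    have : ∀ C, b.adjMat g D C * ∑ A, ∑ B, b.structConst C A B * u A * v B =
        ∑ A, ∑ B, b.structConst A B C * b.adjMat g D C * (u A * v B) := by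
      intro C
      rw [Finset.mul_sum]
      refine Finset.sum_congr rfl fun A _ => ?_
      rw [Finset.mul_sum]
      refine Finset.sum_congr rfl fun B _ => ?_
      rw [Col962.f_cyc b C A B]
      ring
    rw [Finset.sum_congr rfl fun C _ => this C, Finset.sum_comm]
    refine Finset.sum_congr rfl fun A _ => ?_
    rw [Finset.sum_comm]
    exact Finset.sum_congr rfl fun B _ => by rw [Finset.sum_mul]
  rw [h1, h2, sum4_comm]
  refine Finset.sum_congr rfl fun A _ => Finset.sum_congr rfl fun B _ => ?_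
  rw [← Col962.adjMat_struct, Finset.sum_mul]
  exact Finset.sum_congr rfl fun A' _ => by rw [Finset.sum_mul]

theorem sum_adj_sq (g : Matrix.specialUnitaryGroup (Fin N) ℂ) (w : Fin (N ^ 2 - 1) → ℝ) :
    ∑ D, (∑ C, b.adjMat g D C * w C) ^ 2 = ∑ C, w C ^ 2 := by
  have h : ∀ D, (∑ C, b.adjMat g D C * w C) ^ 2 =
      ∑ B, ∑ C, b.adjMat g D B * b.adjMat g D C * (w B * w C) := by
    intro D
    rw [sq, Finset.sum_mul_sum]
    exact Finset.sum_congr rfl fun B _ => Finset.sum_congr rfl fun C _ => by ring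
  rw [Finset.sum_congr rfl fun D _ => h D, Finset.sum_comm]
  refine Finset.sum_congr rfl fun B _ => ?_
  rw [Finset.sum_comm, Finset.sum_eq_single B]
  · rw [← Finset.sum_mul, Col962.adjMat_orth, if_pos rfl]; ring
  · intro C _ hC
    rw [← Finset.sum_mul, Col962.adjMat_orth, if_neg (Ne.symm hC), zero_mul]
  · intro h; exact absurd (Finset.mem_univ B) h

/-- the potential is gauge invariant -/
theorem V4_act (g : Matrix.specialUnitaryGroup (Fin N) ℂ) (x : Cfg N) :
    V4 b (b.act g x) = V4 b x := by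
  unfold V4
  congr 1
  refine Finset.sum_congr rfl fun j _ => Finset.sum_congr rfl fun k _ => ?_
  have h : ∀ D, brk b (row (b.act g x) j) (row (b.act g x) k) D =
      ∑ C, b.adjMat g D C * brk b (row x j) (row x k) C := fun D =>
    brk_act b g (row x j) (row x k) D
  simp only [h]
  exact sum_adj_sq b g _

/-! ### The commuting cone -/

/-- the commuting configurations -/
def Cm : Set (Cfg N) := {x | V4 b x = 0}

theorem mem_Cm_iff_V4 (x : Cfg N) : x ∈ Cm b ↔ V4 b x = 0 := Iff.rfl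

theorem isClosed_Cm : IsClosed (Cm b) := isClosed_eq (continuous_V4 b) continuous_const

theorem zero_mem_Cm : (0 : Cfg N) ∈ Cm b := by
  have h := V4_smul b 0 (0 : Cfg N)
  rw [zero_smul] at h
  rw [mem_Cm_iff_V4, h]
  ring

theorem Cm_nonempty : (Cm b).Nonempty := ⟨0, zero_mem_Cm b⟩

theorem smul_mem_Cm {x : Cfg N} (hx : x ∈ Cm b) (t : ℝ) : t • x ∈ Cm b := by
  rw [mem_Cm_iff_V4] at hx ⊢
  rw [V4_smul, hx, mul_zero]

theorem act_mem_Cm {x : Cfg N} (hx : x ∈ Cm b) (g : Matrix.specialUnitaryGroup (Fin N) ℂ) :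
    b.act g x ∈ Cm b := by
  rw [mem_Cm_iff_V4] at hx ⊢
  rw [V4_act, hx]

theorem act_mem_Cm_iff (x : Cfg N) (g : Matrix.specialUnitaryGroup (Fin N) ℂ) :
    b.act g x ∈ Cm b ↔ x ∈ Cm b := by
  rw [mem_Cm_iff_V4, mem_Cm_iff_V4, V4_act]

theorem mem_Cm_iff_brk (x : Cfg N) :
    x ∈ Cm b ↔ ∀ j k A, brk b (row x j) (row x k) A = 0 := by
  rw [mem_Cm_iff_V4]
  unfold V4
  constructor
  · intro h j k A
    have h1 : ∑ j, ∑ k, ∑ A, brk b (row x j) (row x k) A ^ 2 = 0 := by linarith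
    have h2 := (Finset.sum_eq_zero_iff_of_nonneg (fun j _ => by positivity)).1 h1 j
      (Finset.mem_univ j)
    have h3 := (Finset.sum_eq_zero_iff_of_nonneg (fun k _ => by positivity)).1 h2 k
      (Finset.mem_univ k)
    have h4 := (Finset.sum_eq_zero_iff_of_nonneg (fun A _ => by positivity)).1 h3 A
      (Finset.mem_univ A)
    exact pow_eq_zero_iff (two_ne_zero) |>.1 h4
  · intro h
    simp [h]

/-- the commuting configurations are those whose matrices commute -/
theorem mem_Cm_iff_commute (hN : 1 ≤ N) (x : Cfg N) :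
    x ∈ Cm b ↔ ∀ j k, mat b (row x j) * mat b (row x k) = mat b (row x k) * mat b (row x j) := by
  rw [mem_Cm_iff_brk]
  constructor
  · intro h j k
    have h0 := brk_sq hN b (row x j) (row x k)
    have h1 : (∑ A, brk b (row x j) (row x k) A ^ 2 : ℝ) = 0 := by simp [h]
    rw [h1] at h0
    set W := mat b (row x j) * mat b (row x k) - mat b (row x k) * mat b (row x j) with hW
    have hWh : W.conjTranspose = -W := by
      rw [hW, Matrix.conjTranspose_sub, Matrix.conjTranspose_mul, Matrix.conjTranspose_mul,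
        (mat_herm b _).eq, (mat_herm b _).eq]
      abel
    have h2 : (W.conjTranspose * W).trace = 0 := by
      rw [hWh, Matrix.neg_mul, Matrix.trace_neg]
      rw [← h0]; simp
    have h3 := Matrix.trace_conjTranspose_mul_self_eq_zero_iff.1 h2
    exact sub_eq_zero.1 h3
  · intro h j k A
    rw [brk_eq, h j k, sub_self]
    simp

theorem infDist_smul_Cm {t : ℝ} (ht : 0 < t) (x : Cfg N) :
    infDist (t • x) (Cm b) = t * infDist x (Cm b) := by
  have key : ∀ {t : ℝ} (_ : 0 < t) (x : Cfg N), infDist (t • x) (Cm b) ≤ t * infDist x (Cm b) := by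
    intro t ht x
    rw [← div_le_iff₀' ht]
    refine (le_infDist (Cm_nonempty b)).2 fun {y} hy => ?_
    rw [div_le_iff₀' ht]
    calc infDist (t • x) (Cm b) ≤ dist (t • x) (t • y) := infDist_le_dist_of_mem (smul_mem_Cm b hy t)
      _ = t * dist x y := by rw [dist_smul₀, Real.norm_eq_abs, abs_of_pos ht]
  refine le_antisymm (key ht x) ?_
  have h := key (inv_pos.2 ht) (t • x)
  rw [smul_smul, inv_mul_cancel₀ ht.ne', one_smul] at h
  calc t * infDist x (Cm b) ≤ t * (t⁻¹ * infDist (t • x) (Cm b)) := by gcongr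
    _ = infDist (t • x) (Cm b) := by rw [← mul_assoc, mul_inv_cancel₀ ht.ne', one_mul]

theorem infDist_act_Cm (g : Matrix.specialUnitaryGroup (Fin N) ℂ) (x : Cfg N) :
    infDist (b.act g x) (Cm b) = infDist x (Cm b) := by
  have key : ∀ (g : Matrix.specialUnitaryGroup (Fin N) ℂ) (x : Cfg N),
      infDist (b.act g x) (Cm b) ≤ infDist x (Cm b) := by
    intro g x
    refine (le_infDist (Cm_nonempty b)).2 fun {y} hy => ?_
    calc infDist (b.act g x) (Cm b) ≤ dist (b.act g x) (b.act g y) :=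
          infDist_le_dist_of_mem (act_mem_Cm b hy g)
      _ = dist x y := (Col962.actLI b g).dist_map x y
  refine le_antisymm (key g x) ?_
  have h := key g⁻¹ (b.act g x)
  rwa [← Col962.act_mul, inv_mul_cancel, Col962.act_one] at h

theorem infDist_le_norm_Cm (x : Cfg N) : infDist x (Cm b) ≤ ‖x‖ := by
  have h := infDist_le_dist_of_mem (x := x) (zero_mem_Cm b)
  rwa [dist_zero_right] at h

/-- **(6.4)**: away from the commuting cone the quartic potential is bounded below -/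
theorem V4_lower {r : ℝ} (hr : 0 < r) :
    ∃ c : ℝ, 0 < c ∧ ∀ x : Cfg N, r * ‖x‖ ≤ infDist x (Cm b) → c * ‖x‖ ^ 4 ≤ V4 b x := by
  -- the compact set
  set K : Set (Cfg N) := sphere (0 : Cfg N) 1 ∩ {x | r ≤ infDist x (Cm b)} with hK
  have hKc : IsCompact K := (isCompact_sphere _ _).inter_right
    (isClosed_le continuous_const (continuous_infDist_pt _))
  have hscale : ∀ c : ℝ, (∀ x ∈ K, c ≤ V4 b x) → ∀ x : Cfg N,
      r * ‖x‖ ≤ infDist x (Cm b) → c * ‖x‖ ^ 4 ≤ V4 b x := by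
    intro c hc x hx
    by_cases h0 : x = 0
    · subst h0
      rw [norm_zero]
      have := V4_nonneg b (0 : Cfg N)
      simpa using this
    have hn : 0 < ‖x‖ := norm_pos_iff.2 h0
    have hmem : (‖x‖⁻¹) • x ∈ K := by
      refine ⟨?_, ?_⟩
      · rw [mem_sphere_zero_iff_norm, norm_smul, norm_inv, norm_norm, inv_mul_cancel₀ hn.ne']
      · show r ≤ infDist ((‖x‖⁻¹) • x) (Cm b)
        rw [infDist_smul_Cm b (inv_pos.2 hn), le_inv_mul_iff₀ hn, mul_comm]
        exact hx
    have h1 := hc _ hmem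
    rw [V4_smul] at h1
    have h2 : ‖x‖ ^ 4 * (‖x‖⁻¹ ^ 4 * V4 b x) = V4 b x := by
      rw [← mul_assoc, ← mul_pow, mul_inv_cancel₀ hn.ne', one_pow, one_mul]
    calc c * ‖x‖ ^ 4 = ‖x‖ ^ 4 * c := mul_comm _ _
      _ ≤ ‖x‖ ^ 4 * (‖x‖⁻¹ ^ 4 * V4 b x) := by gcongr
      _ = V4 b x := h2
  rcases K.eq_empty_or_nonempty with he | hne
  · exact ⟨1, one_pos, hscale 1 fun x hx => by rw [he] at hx; exact absurd hx (notMem_empty x)⟩
  · obtain ⟨x₀, hx₀, hmin⟩ := hKc.exists_isMinOn hne (continuous_V4 b).continuousOn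
    have hpos : 0 < V4 b x₀ := by
      refine lt_of_le_of_ne (V4_nonneg b x₀) fun h => ?_
      have hm : x₀ ∈ Cm b := h.symm
      have h1 : infDist x₀ (Cm b) = 0 := infDist_zero_of_mem hm
      have h2 : r ≤ infDist x₀ (Cm b) := hx₀.2
      rw [h1] at h2
      exact absurd h2 (not_le.2 hr)
    exact ⟨V4 b x₀, hpos, hscale _ fun x hx => hmin hx⟩

/-- converse: near the cone the potential is small -/
theorem V4_upper : ∃ C : ℝ, 0 < C ∧ ∀ x : Cfg N, V4 b x ≤ C * ‖x‖ ^ 4 := by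
  obtain ⟨M, hM⟩ := (isCompact_sphere (0 : Cfg N) 1).bddAbove_image (continuous_V4 b).continuousOn
  refine ⟨max M 1, lt_max_of_lt_right one_pos, fun x => ?_⟩
  by_cases h0 : x = 0
  · subst h0
    have h := V4_smul b 0 (0 : Cfg N)
    rw [zero_smul] at h
    rw [h, norm_zero]
    simp
  have hn : 0 < ‖x‖ := norm_pos_iff.2 h0
  have hmem : (‖x‖⁻¹) • x ∈ sphere (0 : Cfg N) 1 := by
    rw [mem_sphere_zero_iff_norm, norm_smul, norm_inv, norm_norm, inv_mul_cancel₀ hn.ne']
  have h1 : V4 b ((‖x‖⁻¹) • x) ≤ M := hM ⟨_, hmem, rfl⟩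
  rw [V4_smul] at h1
  have h2 : ‖x‖ ^ 4 * (‖x‖⁻¹ ^ 4 * V4 b x) = V4 b x := by
    rw [← mul_assoc, ← mul_pow, mul_inv_cancel₀ hn.ne', one_pow, one_mul]
  calc V4 b x = ‖x‖ ^ 4 * (‖x‖⁻¹ ^ 4 * V4 b x) := h2.symm
    _ ≤ ‖x‖ ^ 4 * max M 1 := by
        gcongr
        exact h1.trans (le_max_left _ _)
    _ = _ := mul_comm _ _

/-! ### Finite covers of the annulus of the cone -/

/-- the closed annulus -/
def ann (a a' : ℝ) : Set (Cfg N) := {x | a ≤ ‖x‖ ∧ ‖x‖ ≤ a'}

theorem isCompact_ann (a a' : ℝ) : IsCompact (ann (N := N) a a') := by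
  have h : ann (N := N) a a' = closedBall (0 : Cfg N) a' ∩ {x | a ≤ ‖x‖} := by
    ext x
    simp only [ann, mem_ofPred_eq, mem_inter_iff, mem_closedBall_zero_iff, and_comm]
  rw [h]
  exact (isCompact_closedBall _ _).inter_right (isClosed_le continuous_const continuous_norm)

/-- **finite cover**: a conical neighbourhood of the annulus of the commuting cone is covered by
finitely many members of any family of neighbourhoods -/
theorem exists_finite_cover (a a' : ℝ) (U : Cfg N → Set (Cfg N))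
    (hU : ∀ c ∈ Cm b, a ≤ ‖c‖ → ‖c‖ ≤ a' → U c ∈ 𝓝 c) :
    ∃ (T : Finset (Cfg N)) (r : ℝ), 0 < r ∧ (∀ c ∈ T, c ∈ Cm b ∧ a ≤ ‖c‖ ∧ ‖c‖ ≤ a') ∧
      ∀ x : Cfg N, a ≤ ‖x‖ → ‖x‖ ≤ a' → infDist x (Cm b) < r → ∃ c ∈ T, x ∈ interior (U c) := by
  classical
  have hK : IsCompact (Cm b ∩ ann a a') := (isCompact_ann a a').inter_left (isClosed_Cm b)
  obtain ⟨T, hT, hcov⟩ := hK.elim_nhds_subcover (fun c => interior (U c))
    (fun c hc => interior_mem_nhds.2 (hU c hc.1 hc.2.1 hc.2.2))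
  set W : Set (Cfg N) := ⋃ c ∈ T, interior (U c) with hW
  have hWo : IsOpen W := isOpen_biUnion fun c _ => isOpen_interior
  have hL : IsCompact (ann a a' \ W) := (isCompact_ann a a').diff hWo
  have hconcl : ∀ r : ℝ, (∀ x ∈ ann a a' \ W, r ≤ infDist x (Cm b)) →
      ∀ x : Cfg N, a ≤ ‖x‖ → ‖x‖ ≤ a' → infDist x (Cm b) < r → ∃ c ∈ T, x ∈ interior (U c) := by
    intro r hr x h1 h2 h3
    by_contra hne
    have hx : x ∈ ann a a' \ W := by
      refine ⟨⟨h1, h2⟩, fun hxW => hne ?_⟩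
      rw [hW] at hxW
      simp only [mem_iUnion] at hxW
      obtain ⟨c, hc, hxc⟩ := hxW
      exact ⟨c, hc, hxc⟩
    exact absurd (hr x hx) (not_le.2 h3)
  have hTm : ∀ c ∈ T, c ∈ Cm b ∧ a ≤ ‖c‖ ∧ ‖c‖ ≤ a' := fun c hc =>
    ⟨(hT c hc).1, (hT c hc).2.1, (hT c hc).2.2⟩
  rcases (ann a a' \ W).eq_empty_or_nonempty with he | hne
  · exact ⟨T, 1, one_pos, hTm, hconcl 1 fun x hx => by rw [he] at hx; exact absurd hx (notMem_empty x)⟩
  · obtain ⟨x₀, hx₀, hmin⟩ := hL.exists_isMinOn hne (continuous_infDist_pt (Cm b)).continuousOn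
    have hpos : 0 < infDist x₀ (Cm b) := by
      refine ((isClosed_Cm b).notMem_iff_infDist_pos (Cm_nonempty b)).1 fun h => hx₀.2 ?_
      exact hcov ⟨h, hx₀.1⟩
    exact ⟨T, infDist x₀ (Cm b), hpos, hTm, hconcl _ fun x hx => hmin hx⟩

end Crest.Agent.R330.Cone741
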