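import Crest.Agent.R330.En_87
import Crest.Agent.R330.Const_416

/-!
# Row 330, section 4 closed (helper87): `L42All`, `ConstZ` from `Weak` and `GapAll`
-/

set_option autoImplicit false

open MeasureTheory Filter Topology
open scoped ContDiff InnerProductSpace ENNReal
open Crest.MathPhysics.MatrixQM

noncomputable section

namespace Crest.Agent.R330.Const87

open Crest.Agent.R330.Defs478 Crest.Agent.R330.Top478 Crest.Agent.R330.Const416

/-- **(4.2)** for all data. -/
theorem l42 {N : ℕ} (hN : 0 < N) {F : Type*} [NormedAddCommGroup F] [InnerProductSpace ℂ F]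
    [FiniteDimensional ℂ F] (b : ColorBasis N) (M : FermionRep N F) (R : GaugeAction b M)
    (G : GammaNine) : L42 b M R G :=
  fun s hs => ⟨En87.C42 b G s, fun _ hφ =>
    En87.quartic_le hN b M G hs (hφ.1.of_le (WithTop.coe_le_coe.2 (le_top : (2 : ℕ∞) ≤ ⊤))) hφ.2.1⟩

theorem l42All {N : ℕ} (hN : 0 < N) : L42All N :=
  fun _ _ _ _ _ b M R G => l42 hN b M R G

/-- **Section 4.** -/
theorem constZ {N : ℕ} (hN : 0 < N) (hW : Weak N) (hG : GapUnif N) : ConstZ N :=
  constZ_of hW hG (l42All hN)

/-- **Section 4** from the gap of section 2. -/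
theorem constZ_of_gapAll {N : ℕ} (hN : 0 < N) (hW : Weak N) (hG : Sec478.GapAll N) : ConstZ N :=
  constZ hN hW (gapUnif_of_gapAll hG)

end Crest.Agent.R330.Const87

end
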