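import Crest.Agent.R330.Cliff6_442

/-!
# Row 330 (helper973): contractions in the heavy vacuum

For a partial complex structure `J` (442's `PCS`), the vacuum space `vacJ J`, heavy vectors
`u, v ∈ ran J` and light vectors `x ∈ ker J`:

* `theta_heavy` : `θ(v) f = i θ(Jv) f` for `f ∈ vacJ J`.
* `contr` : `⟪h, θ(u) θ(v) f⟫ = ½ (⟪u, v⟫ - i ⟪J u, v⟫) ⟪h, f⟫`.
* `proj_theta` : `P θ(u) f = 0`; `proj_theta_theta` : `P θ(u) θ(v) f = ½ (⟪u, v⟫ - i ⟪J u, v⟫) f`.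
* `theta_light_mem`, `proj_light`: light operators preserve the vacuum space.
* `proj_three` : `P θ(u) θ(v) θ(w) f = 0`.
* `contr_sum` : the contraction for arbitrary vectors, `Q = -J²` the heavy projection.
-/

set_option autoImplicit false
set_option linter.unusedSectionVars false

open scoped InnerProductSpace

noncomputable section

namespace Crest.Agent.R330.Cliff442

namespace CRep

variable {V F : Type*} [NormedAddCommGroup V] [InnerProductSpace ℝ V]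
  [NormedAddCommGroup F] [InnerProductSpace ℂ F] (M : CRep V F) {J : V →ₗ[ℝ] V}

/-- The contraction constant `½ (⟪u, v⟫ - i ⟪J u, v⟫)`. -/
def cst (J : V →ₗ[ℝ] V) (u v : V) : ℂ :=
  (1 / 2 : ℂ) * (((⟪u, v⟫_ℝ : ℝ) : ℂ) - Complex.I * ((⟪J u, v⟫_ℝ : ℝ) : ℂ))

theorem theta_heavy {f : F} (hf : f ∈ M.vacJ J) {v : V} (hv : v ∈ LinearMap.range J) :
    M.θ v f = Complex.I • M.θ (J v) f := by
  obtain ⟨x, rfl⟩ := hv
  exact hf x

/-- The annihilator `θ(u) - i θ(J u)`. -/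
theorem ann_vac {f : F} (hf : f ∈ M.vacJ J) {v : V} (hv : v ∈ LinearMap.range J) :
    M.θ v f - Complex.I • M.θ (J v) f = 0 := by
  rw [M.theta_heavy hf hv, sub_self]

theorem range_J {v : V} : J v ∈ LinearMap.range J := ⟨v, rfl⟩

theorem JJ_of_range (h : PCS J) {v : V} (hv : v ∈ LinearMap.range J) : J (J v) = -v := by
  obtain ⟨x, rfl⟩ := hv
  exact h.cube x

/-- Vacuum expectation of one heavy operator. -/
theorem inner_theta_vac {f g : F} (hf : f ∈ M.vacJ J) (hg : g ∈ M.vacJ J) {v : V}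
    (hv : v ∈ LinearMap.range J) : ⟪g, M.θ v f⟫_ℂ = 0 := by
  have h1 : ⟪g, M.θ v f⟫_ℂ = Complex.I * ⟪g, M.θ (J v) f⟫_ℂ := by
    rw [M.theta_heavy hf hv, inner_smul_right]
  have h2 : ⟪g, M.θ v f⟫_ℂ = -Complex.I * ⟪g, M.θ (J v) f⟫_ℂ := by
    rw [← M.symm, M.theta_heavy hg hv, inner_smul_left, Complex.conj_I, M.symm]
  have h3 : (2 : ℂ) * ⟪g, M.θ v f⟫_ℂ = 0 := by linear_combination h1 + h2
  simpa using h3

/-- **Contraction**: `P a*(u) = 0`, so only the annihilator part of `θ(u)` contributes. -/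
theorem contr {f g : F} (hf : f ∈ M.vacJ J) (hg : g ∈ M.vacJ J) {u v : V}
    (hu : u ∈ LinearMap.range J) : ⟪g, M.θ u (M.θ v f)⟫_ℂ = cst J u v * ⟪g, f⟫_ℂ := by
  -- `θ(u) g = i θ(J u) g`, hence `⟪g, θ(u) X⟫ = -i ⟪g, θ(J u) X⟫`
  have h1 : ∀ X : F, ⟪g, M.θ u X⟫_ℂ = -Complex.I * ⟪g, M.θ (J u) X⟫_ℂ := fun X => by
    rw [← M.symm, M.theta_heavy hg hu, inner_smul_left, Complex.conj_I, M.symm]
  -- move the annihilator to the right
  have h2 : M.θ u (M.θ v f) - Complex.I • M.θ (J u) (M.θ v f) =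
      (((⟪u, v⟫_ℝ : ℝ) : ℂ) - Complex.I * ((⟪J u, v⟫_ℝ : ℝ) : ℂ)) • f := by
    have e1 := M.anti_apply u v f
    have e2 := M.anti_apply (J u) v f
    have e3 : M.θ v (M.θ u f) = Complex.I • M.θ v (M.θ (J u) f) := by
      rw [M.theta_heavy hf hu, map_smul]
    rw [eq_sub_of_add_eq e1, eq_sub_of_add_eq e2, e3, smul_sub, sub_smul, mul_smul]
    abel
  have h3 : ⟪g, M.θ u (M.θ v f)⟫_ℂ - Complex.I * ⟪g, M.θ (J u) (M.θ v f)⟫_ℂ =
      (((⟪u, v⟫_ℝ : ℝ) : ℂ) - Complex.I * ((⟪J u, v⟫_ℝ : ℝ) : ℂ)) * ⟪g, f⟫_ℂ := by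
    rw [← inner_smul_right, ← inner_smul_right, ← inner_sub_right, h2]
  rw [cst]
  have h4 := h1 (M.θ v f)
  linear_combination (1 / 2 : ℂ) * h3 + (1 / 2 : ℂ) * h4

/-- Light operators preserve the vacuum space. -/
theorem theta_light_mem (hJ : Skew J) {f : F} (hf : f ∈ M.vacJ J) {x : V} (hx : J x = 0) :
    M.θ x f ∈ M.vacJ J := by
  intro y
  have h1 : ∀ z : V, ⟪J z, x⟫_ℝ = 0 := fun z => by rw [hJ, hx, inner_zero_right, neg_zero]
  rw [M.comm_apply (h1 y), M.comm_apply (h1 (J y)), hf y, map_smul, smul_neg]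

/-- Three heavy operators have no vacuum expectation. -/
theorem inner_three {f g : F} (hf : f ∈ M.vacJ J) (hg : g ∈ M.vacJ J) {u v w : V}
    (hu : u ∈ LinearMap.range J) (hv : v ∈ LinearMap.range J) (hw : w ∈ LinearMap.range J) :
    ⟪g, M.θ u (M.θ v (M.θ w f))⟫_ℂ = 0 := by
  -- `θ(w) f` is `i θ(J w) f`; move the annihilator `θ(u) - iθ(Ju)` to the right
  have h1 : ∀ X : F, ⟪g, M.θ u X⟫_ℂ = -Complex.I * ⟪g, M.θ (J u) X⟫_ℂ := fun X => by
    rw [← M.symm, M.theta_heavy hg hu, inner_smul_left, Complex.conj_I, M.symm]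
  have e : ∀ a : V, M.θ a (M.θ v (M.θ w f)) = ((⟪a, v⟫_ℝ : ℝ) : ℂ) • M.θ w f -
      ((⟪a, w⟫_ℝ : ℝ) : ℂ) • M.θ v f + M.θ v (M.θ w (M.θ a f)) := by
    intro a
    rw [eq_sub_of_add_eq (M.anti_apply a v (M.θ w f)), eq_sub_of_add_eq (M.anti_apply a w f),
      map_sub, map_smul]
    abel
  have e3 : M.θ v (M.θ w (M.θ u f)) = Complex.I • M.θ v (M.θ w (M.θ (J u) f)) := by
    rw [M.theta_heavy hf hu, map_smul, map_smul]
  have h2 : ⟪g, M.θ u (M.θ v (M.θ w f))⟫_ℂ - Complex.I * ⟪g, M.θ (J u) (M.θ v (M.θ w f))⟫_ℂ =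
      0 := by
    rw [e u, e (J u), e3]
    simp only [inner_add_right, inner_sub_right, inner_smul_right,
      M.inner_theta_vac hf hg hv, M.inner_theta_vac hf hg hw]
    ring
  have h4 := h1 (M.θ v (M.θ w f))
  have h5 : (2 : ℂ) * ⟪g, M.θ u (M.θ v (M.θ w f))⟫_ℂ = 0 := by linear_combination h2 + h4
  simpa using h5

section proj

variable [FiniteDimensional ℝ V] [FiniteDimensional ℂ F]

/-- A vector whose pairings with the vacuum space are those of a vacuum vector. -/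
theorem proj_eq_of_inner (h : PCS J) {X f : F} (hf : f ∈ M.vacJ J)
    (hX : ∀ g ∈ M.vacJ J, ⟪g, X⟫_ℂ = ⟪g, f⟫_ℂ) : M.proj J X = f := by
  have h1 : M.proj J X - f ∈ M.vacJ J := (M.vacJ J).sub_mem (M.proj_mem h X) hf
  have h2 : ⟪M.proj J X - f, M.proj J X - f⟫_ℂ = 0 := by
    have h3 : ⟪M.proj J X - f, M.proj J X⟫_ℂ = ⟪M.proj J X - f, X⟫_ℂ := by
      rw [← M.proj_symm h, M.proj_of_mem h h1]
    rw [inner_sub_right, h3, hX _ h1, sub_self]
  exact sub_eq_zero.1 (inner_self_eq_zero.1 h2)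

/-- **`P θ(v) P = 0`** for heavy `v`. -/
theorem proj_theta (h : PCS J) {f : F} (hf : f ∈ M.vacJ J) {v : V}
    (hv : v ∈ LinearMap.range J) : M.proj J (M.θ v f) = 0 :=
  M.proj_eq_of_inner h (Submodule.zero_mem _) fun g hg => by
    rw [M.inner_theta_vac hf hg hv, inner_zero_right]

/-- **`P θ(u) θ(v) P = ½ (⟪u, v⟫ - i ⟪J u, v⟫) P`** for heavy `u` and any `v`. -/
theorem proj_theta_theta (h : PCS J) {f : F} (hf : f ∈ M.vacJ J) {u v : V}
    (hu : u ∈ LinearMap.range J) : M.proj J (M.θ u (M.θ v f)) = cst J u v • f :=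
  M.proj_eq_of_inner h (Submodule.smul_mem _ _ hf) fun g hg => by
    rw [M.contr hf hg hu, inner_smul_right]

/-- `P θ(x) X = θ(x) P X` for light `x`. -/
theorem proj_light (hJ : Skew J) {x : V} (hx : J x = 0) (X : F) :
    M.proj J (M.θ x X) = M.θ x (M.proj J X) := (M.proj_comm_th hJ hx X).symm

/-- Three heavy operators. -/
theorem proj_three (h : PCS J) {f : F} (hf : f ∈ M.vacJ J) {u v w : V}
    (hu : u ∈ LinearMap.range J) (hv : v ∈ LinearMap.range J) (hw : w ∈ LinearMap.range J) :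
    M.proj J (M.θ u (M.θ v (M.θ w f))) = 0 :=
  M.proj_eq_of_inner h (Submodule.zero_mem _) fun g hg => by
    rw [M.inner_three hf hg hu hv hw, inner_zero_right]

/-- `P θ(u) θ(x) θ(v) P = -½ (⟪u, v⟫ - i ⟪J u, v⟫) θ(x) P` for light `x`. -/
theorem proj_heavy_light_heavy (h : PCS J) {f : F} (hf : f ∈ M.vacJ J) {u v x : V}
    (hu : u ∈ LinearMap.range J) (hx : J x = 0) :
    M.proj J (M.θ u (M.θ x (M.θ v f))) = -(cst J u v • M.θ x f) := by
  have h1 : ⟪u, x⟫_ℝ = 0 := by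
    obtain ⟨z, rfl⟩ := hu
    rw [h.skew, hx, inner_zero_right, neg_zero]
  have h2 : M.θ u (M.θ x (M.θ v f)) = -M.θ x (M.θ u (M.θ v f)) := M.comm_apply h1 _
  rw [h2, map_neg, M.proj_light h.skew hx, M.proj_theta_theta h hf hu, map_smul]

/-- `P θ(u) θ(v) θ(x) P = ½ (⟪u, v⟫ - i ⟪J u, v⟫) θ(x) P` for light `x`. -/
theorem proj_heavy_heavy_light (h : PCS J) {f : F} (hf : f ∈ M.vacJ J) {u v x : V}
    (hu : u ∈ LinearMap.range J) (hx : J x = 0) :
    M.proj J (M.θ u (M.θ v (M.θ x f))) = cst J u v • M.θ x f :=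
  M.proj_theta_theta h (M.theta_light_mem h.skew hf hx) hu

end proj

/-! ### Sums of contractions -/

section sums

variable {ι : Type*}

/-- **The summed contraction** `Σ_a θ(u_a) θ(x_a) θ(v_a)` (heavy, light, heavy): the vacuum
component is `-½ Σ_a ⟪u_a, v_a⟫ θ(x_a) + (i/2) Σ_a ⟪J u_a, v_a⟫ θ(x_a)`. -/
theorem proj_sum_hlh [FiniteDimensional ℝ V] [FiniteDimensional ℂ F] (h : PCS J) {f : F}
    (hf : f ∈ M.vacJ J) (s : Finset ι) {u v x : ι → V} (hu : ∀ a ∈ s, u a ∈ LinearMap.range J)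
    (hx : ∀ a ∈ s, J (x a) = 0) :
    M.proj J (∑ a ∈ s, M.θ (u a) (M.θ (x a) (M.θ (v a) f))) =
      -((1 / 2 : ℂ) • M.θ (∑ a ∈ s, ⟪u a, v a⟫_ℝ • x a) f) +
        (Complex.I / 2) • M.θ (∑ a ∈ s, ⟪J (u a), v a⟫_ℝ • x a) f := by
  rw [map_sum, M.sum, M.sum, LinearMap.sum_apply, LinearMap.sum_apply, Finset.smul_sum,
    Finset.smul_sum, ← Finset.sum_neg_distrib, ← Finset.sum_add_distrib]
  refine Finset.sum_congr rfl fun a ha => ?_
  rw [M.proj_heavy_light_heavy h hf (hu a ha) (hx a ha), cst, M.smul, M.smul]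
  simp only [LinearMap.smul_apply, smul_smul, ← neg_smul, ← add_smul]
  congr 1
  ring

end sums

end CRep

end Crest.Agent.R330.Cliff442

end
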