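import Mathlib
import Crest.Prelude.Def_MatrixModel
import Crest.Agent.R330.Bar_186
import Crest.Agent.R330.SJop_186
import Crest.Agent.R330.IBP_837

/-!
Row 330, S13.COER, part 2: the local coercivity: for a sequence of test functions supported in a
fixed ball, `L²`-convergent to `h` and form-Cauchy, `h` satisfying the weak sector equations,
`∫ min(|x|,R) |h|² ≤ q(ψ_n) + ε` eventually.
-/

set_option autoImplicit false
set_option linter.unusedSectionVars false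

noncomputable section

open MeasureTheory Filter Topology Set
open scoped ContDiff InnerProductSpace ENNReal

namespace Crest.Agent.R330.SCoer186

open Crest.MathPhysics.MatrixQM Crest.Agent.R330.Bar186 Crest.Agent.R330.SJop186
open Crest.Agent.R330.SDefs726 (vf rot KP KM vf_add vf_sub vf_rot KP_transpose KM_transpose)

section hil

variable {H : Type*} [NormedAddCommGroup H] [InnerProductSpace ℂ H] [CompleteSpace H]

/-- a Cauchy sequence in a Hilbert space whose inner products with its own members vanish in the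
limit tends to zero -/
theorem hil {y : ℕ → H} (hc : CauchySeq y)
    (h : ∀ k, Tendsto (fun n => ⟪y k, y n⟫_ℂ) atTop (𝓝 0)) : Tendsto y atTop (𝓝 0) := by
  obtain ⟨z, hz⟩ := cauchySeq_tendsto_of_complete hc
  have h1 : ∀ k, ⟪y k, z⟫_ℂ = 0 := fun k =>
    tendsto_nhds_unique ((continuous_const.inner continuous_id).continuousAt.tendsto.comp hz) (h k)
  have h2 : ⟪z, z⟫_ℂ = 0 := by
    have h3 : Tendsto (fun k => ⟪y k, z⟫_ℂ) atTop (𝓝 ⟪z, z⟫_ℂ) :=
      ((continuous_id.inner continuous_const).continuousAt.tendsto.comp hz)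
    simp only [h1] at h3
    exact (tendsto_nhds_unique tendsto_const_nhds h3).symm
  rw [inner_self_eq_zero.1 h2] at hz
  exact hz

end hil

variable {N : ℕ} {F : Type*} [NormedAddCommGroup F] [InnerProductSpace ℂ F]
  [FiniteDimensional ℂ F]

/-- test functions -/
def Ts (ψ : Cfg N → F) : Prop := ContDiff ℝ ∞ ψ ∧ HasCompactSupport ψ

theorem Ts.memLp {ψ : Cfg N → F} (h : Ts ψ) : MemLp ψ 2 volume :=
  h.1.continuous.memLp_of_hasCompactSupport h.2

theorem Ts.diff {ψ : Cfg N → F} (h : Ts ψ) : Differentiable ℝ ψ := h.1.differentiable (by simp)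

theorem Ts.sub {φ ψ : Cfg N → F} (h : Ts φ) (h' : Ts ψ) : Ts (φ - ψ) :=
  ⟨h.1.sub h'.1, h.2.sub h'.2⟩

theorem Ts.jop {ψ : Cfg N → F} (h : Ts ψ) (a : Matrix (Fin 9) (Fin 9) ℝ) (S : F →ₗ[ℂ] F) :
    Ts (Jop a S ψ) := ⟨contDiff_Jop a S h.1, hasCompactSupport_Jop a S h.2⟩

/-- the squared `L²` norm -/
def n2 (u : Cfg N → F) : ℝ := ∫ x, ‖u x‖ ^ 2

theorem n2_nonneg (u : Cfg N → F) : 0 ≤ n2 u := integral_nonneg fun x => by positivity

theorem n2_eq {u : Cfg N → F} (hu : MemLp u 2 volume) : n2 u = ‖hu.toLp u‖ ^ 2 := by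
  rw [← inner_self_eq_norm_sq (𝕜 := ℂ), L2.inner_def, n2]
  have h1 : ∫ x, ⟪(hu.toLp u) x, (hu.toLp u) x⟫_ℂ = ∫ x, ((‖u x‖ ^ 2 : ℝ) : ℂ) := by
    refine integral_congr_ae ?_
    filter_upwards [hu.coeFn_toLp] with x hx
    rw [hx, inner_self_eq_norm_sq_to_K]
    push_cast
    rfl
  rw [h1, integral_complex_ofReal]
  simp

theorem inner_toLp {u v : Cfg N → F} (hu : MemLp u 2 volume) (hv : MemLp v 2 volume) :
    ⟪hu.toLp u, hv.toLp v⟫_ℂ = ∫ x, ⟪u x, v x⟫_ℂ := by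
  rw [L2.inner_def]
  refine integral_congr_ae ?_
  filter_upwards [hu.coeFn_toLp, hv.coeFn_toLp] with x hx hy
  rw [hx, hy]

theorem n2_add_le {u v : Cfg N → F} (hu : MemLp u 2 volume) (hv : MemLp v 2 volume) :
    n2 (u + v) ≤ 2 * n2 u + 2 * n2 v := by
  rw [n2_eq (hu.add hv), n2_eq hu, n2_eq hv, MemLp.toLp_add hu hv]
  have := norm_add_le (hu.toLp u) (hv.toLp v)
  nlinarith [norm_nonneg (hu.toLp u + hv.toLp v), sq_nonneg (‖hu.toLp u‖ - ‖hv.toLp v‖)]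

theorem n2_sub_le {u v : Cfg N → F} (hu : MemLp u 2 volume) (hv : MemLp v 2 volume) :
    n2 (u - v) ≤ 2 * n2 u + 2 * n2 v := by
  rw [n2_eq (hu.sub hv), n2_eq hu, n2_eq hv, MemLp.toLp_sub hu hv]
  have := norm_sub_le (hu.toLp u) (hv.toLp v)
  nlinarith [norm_nonneg (hu.toLp u - hv.toLp v), sq_nonneg (‖hu.toLp u‖ - ‖hv.toLp v‖)]

/-- the kinetic energy -/
def en (u : Cfg N → F) : ℝ := ∫ x, gsq (gr u x)

theorem continuous_gsq {u : Cfg N → F} (hu : Ts u) : Continuous fun x => gsq (gr u x) := by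
  unfold gsq
  exact continuous_finset_sum _ fun i _ => continuous_finset_sum _ fun A _ =>
    ((continuous_gr hu.1 (i, A)).norm.pow 2)

theorem gsq_zero {u : Cfg N → F} {x : Cfg N} (hx : x ∉ tsupport u) : gsq (gr u x) = 0 := by
  have h1 : u =ᶠ[𝓝 x] 0 := notMem_tsupport_iff_eventuallyEq.1 hx
  have h2 : fderiv ℝ u x = 0 := by
    rw [h1.fderiv_eq]
    simp
  unfold gsq gr
  rw [h2]
  simp

theorem integrable_of_zero_off {u : Cfg N → F} (hu : HasCompactSupport u) {g : Cfg N → ℝ}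
    (hg : Continuous g) (h0 : ∀ x, x ∉ tsupport u → g x = 0) : Integrable g volume :=
  hg.integrable_of_hasCompactSupport (hu.mono' fun x hx => by
    by_contra h
    exact hx (h0 x h))

theorem integrable_gsq {u : Cfg N → F} (hu : Ts u) : Integrable (fun x => gsq (gr u x)) volume :=
  integrable_of_zero_off hu.2 (continuous_gsq hu) fun _ hx => gsq_zero hx

theorem integrable_mul_sq {u : Cfg N → F} (hu : Ts u) {w : Cfg N → ℝ} (hw : Continuous w) :
    Integrable (fun x => w x * ‖u x‖ ^ 2) volume :=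
  integrable_of_zero_off hu.2 (hw.mul (hu.1.continuous.norm.pow 2)) fun x hx => by
    rw [image_eq_zero_of_notMem_tsupport hx]; simp

theorem en_nonneg (u : Cfg N → F) : 0 ≤ en u := integral_nonneg fun x => gsq_nonneg _

/-- growth of a linear vector field -/
theorem exists_vf_le (a : Matrix (Fin 9) (Fin 9) ℝ) :
    ∃ c : ℝ, 0 ≤ c ∧ ∀ x : Cfg N, ‖vf a x‖ ≤ c * ‖x‖ := by
  let L : Cfg N →ₗ[ℝ] Cfg N :=
    { toFun := vf a
      map_add' := fun x y => by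
        ext p
        simp [vf_ap, mul_add, Finset.sum_add_distrib]
      map_smul' := fun r x => by
        ext p
        simp only [vf_ap, PiLp.smul_apply, smul_eq_mul, RingHom.id_apply, Finset.mul_sum]
        exact Finset.sum_congr rfl fun j _ => by ring }
  exact ⟨‖LinearMap.toContinuousLinearMap L‖, norm_nonneg _,
    fun x => (LinearMap.toContinuousLinearMap L).le_opNorm x⟩

theorem exists_lin_le (S : F →ₗ[ℂ] F) : ∃ c : ℝ, 0 ≤ c ∧ ∀ v, ‖S v‖ ≤ c * ‖v‖ :=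
  ⟨‖LinearMap.toContinuousLinearMap S‖, norm_nonneg _,
    fun v => (LinearMap.toContinuousLinearMap S).le_opNorm v⟩

/-- support in a ball -/
def SuppIn (R : ℝ) (u : Cfg N → F) : Prop := ∀ x, x ∈ tsupport u → ‖x‖ ≤ R

theorem SuppIn.sub {R : ℝ} {u v : Cfg N → F} (hu : SuppIn R u) (hv : SuppIn R v) :
    SuppIn R (u - v) := by
  intro x hx
  rcases (tsupport_sub u v) hx with h | h
  · exact hu x h
  · exact hv x h

/-- the infinitesimal rotations are form-bounded on functions supported in a ball -/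
theorem n2_Jop_le (a : Matrix (Fin 9) (Fin 9) ℝ) (S : F →ₗ[ℂ] F) {R : ℝ} (hR : 0 ≤ R) :
    ∃ K : ℝ, 0 ≤ K ∧ ∀ u : Cfg N → F, Ts u → SuppIn R u →
      n2 (Jop a S u) ≤ K * (en u + n2 u) := by
  obtain ⟨c, hc, hvf⟩ := exists_vf_le (N := N) a
  obtain ⟨s, hs, hS⟩ := exists_lin_le S
  refine ⟨2 * (c * R) ^ 2 + 2 * s ^ 2, by positivity, fun u hu hsu => ?_⟩
  have hpt : ∀ x, ‖Jop a S u x‖ ^ 2 ≤ 2 * (c * R) ^ 2 * gsq (gr u x) + 2 * s ^ 2 * ‖u x‖ ^ 2 := by
    intro x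
    by_cases hx : x ∈ tsupport u
    · have h1 := norm_fderiv_le u x (vf a x)
      have h2 : ‖vf a x‖ ≤ c * R := (hvf x).trans (by gcongr; exact hsu x hx)
      have h3 : ‖fderiv ℝ u x (vf a x)‖ ≤ c * R * Real.sqrt (gsq (gr u x)) :=
        h1.trans (by gcongr)
      have h4 : ‖Jop a S u x‖ ≤ c * R * Real.sqrt (gsq (gr u x)) + s * ‖u x‖ :=
        (norm_add_le _ _).trans (add_le_add h3 (hS _))
      have h5 := Real.sq_sqrt (gsq_nonneg (gr u x))
      have h6 := Real.sqrt_nonneg (gsq (gr u x))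
      calc ‖Jop a S u x‖ ^ 2 ≤ (c * R * Real.sqrt (gsq (gr u x)) + s * ‖u x‖) ^ 2 := by gcongr
        _ ≤ 2 * (c * R * Real.sqrt (gsq (gr u x))) ^ 2 + 2 * (s * ‖u x‖) ^ 2 := by
            nlinarith [sq_nonneg (c * R * Real.sqrt (gsq (gr u x)) - s * ‖u x‖)]
        _ = _ := by rw [mul_pow (c * R), h5]; ring
    · rw [Jop_eq_zero a S hx]
      calc ‖(0 : F)‖ ^ 2 = 0 := by simp
        _ ≤ _ := add_nonneg (mul_nonneg (by positivity) (gsq_nonneg _)) (by positivity)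
  have hi1 := (integrable_gsq hu).const_mul (2 * (c * R) ^ 2)
  have hi2 : Integrable (fun x => 2 * s ^ 2 * ‖u x‖ ^ 2) volume :=
    integrable_mul_sq hu (w := fun _ => 2 * s ^ 2) continuous_const
  have hi3 : Integrable (fun x => ‖Jop a S u x‖ ^ 2) volume := by
    simpa using integrable_mul_sq (hu.jop a S) (w := fun _ => 1) continuous_const
  calc n2 (Jop a S u) ≤ ∫ x, (2 * (c * R) ^ 2 * gsq (gr u x) + 2 * s ^ 2 * ‖u x‖ ^ 2) :=
        integral_mono hi3 (hi1.add hi2) hpt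
    _ = 2 * (c * R) ^ 2 * en u + 2 * s ^ 2 * n2 u := by
        rw [integral_add hi1 hi2, integral_const_mul, integral_const_mul]; rfl
    _ ≤ _ := by
        have h1 := en_nonneg u
        have h2 := n2_nonneg u
        nlinarith [mul_nonneg (sq_nonneg (c * R)) h2, mul_nonneg (sq_nonneg s) h1]

/-! ### the form and its lower bound -/

/-- the quadratic form `(1/16) Σ ‖Q_α ψ‖²` -/
def q (b : ColorBasis N) (M : FermionRep N F) (G : GammaNine) (ψ : Cfg N → F) : ℝ :=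
  1 / 16 * ∑ α, ∫ x, ‖supercharge b M G α ψ x‖ ^ 2

/-- the energy lower bound (consequence of (1.1)) -/
def EnergyLB (b : ColorBasis N) (M : FermionRep N F) (G : GammaNine) (C : ℝ) : Prop :=
  ∀ ψ : Cfg N → F, Ts ψ →
    1 / 2 * en ψ + (∫ x, pot b (fun p => x p) * ‖ψ x‖ ^ 2) - C * (∫ x, ‖x‖ * ‖ψ x‖ ^ 2) ≤
      q b M G ψ

theorem continuous_pot (b : ColorBasis N) : Continuous fun x : Cfg N => pot b (fun p => x p) := by
  unfold pot brk
  fun_prop

theorem pot_nonneg (b : ColorBasis N) (x : Fin 9 × Fin (N ^ 2 - 1) → ℝ) : 0 ≤ pot b x := by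
  unfold pot
  positivity

/-- kinetic energy controlled by the form on a ball -/
theorem en_le {b : ColorBasis N} {M : FermionRep N F} {G : GammaNine} {C : ℝ} (hC : 0 ≤ C)
    (hE : EnergyLB b M G C) {R : ℝ} {u : Cfg N → F} (hu : Ts u) (hs : SuppIn R u) :
    en u ≤ 2 * q b M G u + 2 * C * R * n2 u := by
  have h := hE u hu
  have h1 : 0 ≤ ∫ x, pot b (fun p => x p) * ‖u x‖ ^ 2 :=
    integral_nonneg fun x => mul_nonneg (pot_nonneg b _) (by positivity)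
  have h2 : ∫ x, ‖x‖ * ‖u x‖ ^ 2 ≤ R * n2 u := by
    unfold n2
    rw [← integral_const_mul]
    refine integral_mono (integrable_mul_sq hu continuous_norm)
      (integrable_mul_sq hu (w := fun _ => R) continuous_const) fun x => ?_
    by_cases hx : x ∈ tsupport u
    · exact mul_le_mul_of_nonneg_right (hs x hx) (by positivity)
    · simp only [image_eq_zero_of_notMem_tsupport hx]; simp
  have h3 : C * ∫ x, ‖x‖ * ‖u x‖ ^ 2 ≤ C * (R * n2 u) := by gcongr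
  linarith

/-! ### the pointwise inequality for two colours -/

theorem norm_sq_cfg (x : Cfg N) : ‖x‖ ^ 2 = ∑ j, ∑ A, x (j, A) ^ 2 := by
  rw [EuclideanSpace.norm_sq_eq, Fintype.sum_prod_type]
  simp only [Real.norm_eq_abs, sq_abs]

/-- shifted generator `S_P - i m` -/
def shf (sP : F →ₗ[ℂ] F) (m : ℝ) : F →ₗ[ℂ] F := sP - ((m : ℂ) * Complex.I) • LinearMap.id

theorem shf_skew {sP : F →ₗ[ℂ] F} (h : ∀ v w, ⟪sP v, w⟫_ℂ = -⟪v, sP w⟫_ℂ) (m : ℝ) (v w : F) :
    ⟪shf sP m v, w⟫_ℂ = -⟪v, shf sP m w⟫_ℂ := by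
  unfold shf
  simp only [LinearMap.sub_apply, LinearMap.smul_apply, LinearMap.id_apply, inner_sub_left,
    inner_sub_right, inner_smul_left, inner_smul_right, h]
  simp
  ring

theorem pointwise (b : ColorBasis 2) {sP : F →ₗ[ℂ] F} {sM : Fin 3 → F →ₗ[ℂ] F} {c : ℝ}
    (hP : ∀ v, ‖sP v‖ ≤ c * ‖v‖) (hM : ∀ k v, ‖sM k v‖ ≤ c * ‖v‖) (m : ℝ) (ψ : Cfg 2 → F)
    (x : Cfg 2) :
    (|m| - 4 * c) * (‖x‖ * ‖ψ x‖ ^ 2) ≤ 8 * gsq (gr ψ x) + 16 * (pot b (fun p => x p) * ‖ψ x‖ ^ 2) +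
      ‖x‖ * ((‖Jop KP (shf sP m) ψ x‖ + ∑ k, ‖Jop (KM k) (sM k) ψ x‖) * ‖ψ x‖) := by
  have : Nonempty (Fin (2 ^ 2 - 1)) := ⟨⟨0, by norm_num⟩⟩
  obtain ⟨e, he, htop⟩ := exists_top (fun p : Fin 9 × Fin (2 ^ 2 - 1) => x p)
  have hpot := pot_ge b (fun p => x p) e he htop
  have hbar := barrier ψ x e
  have hn := norm_sq_cfg x
  rw [← hn] at hpot
  set d := dsq (fun p => x p) e with hd
  set g := gsq (gr ψ x) with hg
  have hd0 : 0 ≤ d := dsq_nonneg _ _
  have hg0 : 0 ≤ g := gsq_nonneg _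
  have h0 : |m| * ‖ψ x‖ ≤ ‖Jop KP (shf sP m) ψ x‖ + ‖fderiv ℝ ψ x (vf KP x)‖ + c * ‖ψ x‖ := by
    have e1 : ((m : ℂ) * Complex.I) • ψ x =
        (fderiv ℝ ψ x (vf KP x) + sP (ψ x)) - Jop KP (shf sP m) ψ x := by
      unfold Jop shf
      simp only [LinearMap.sub_apply, LinearMap.smul_apply, LinearMap.id_apply]
      abel
    have e2 : ‖((m : ℂ) * Complex.I) • ψ x‖ = |m| * ‖ψ x‖ := by
      rw [norm_smul]; simp
    rw [← e2, e1]
    refine (norm_sub_le _ _).trans ?_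
    have := norm_add_le (fderiv ℝ ψ x (vf KP x)) (sP (ψ x))
    linarith [hP (ψ x)]
  have hk : ∀ k, ‖fderiv ℝ ψ x (vf (KM k) x)‖ ≤ ‖Jop (KM k) (sM k) ψ x‖ + c * ‖ψ x‖ := by
    intro k
    have e1 : fderiv ℝ ψ x (vf (KM k) x) = Jop (KM k) (sM k) ψ x - sM k (ψ x) := by
      unfold Jop; abel
    rw [e1]
    refine (norm_sub_le _ _).trans ?_
    linarith [hM k (ψ x)]
  rw [Fin.sum_univ_three]
  set r := ‖Jop KP (shf sP m) ψ x‖ + (‖Jop (KM 0) (sM 0) ψ x‖ + ‖Jop (KM 1) (sM 1) ψ x‖ +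
    ‖Jop (KM 2) (sM 2) ψ x‖) with hr
  have h1 : (|m| - 4 * c) * ‖ψ x‖ ≤ r + 16 * (Real.sqrt d * Real.sqrt g) := by
    have := hk 0; have := hk 1; have := hk 2
    rw [hr]
    linarith
  have h2 : 0 ≤ ‖x‖ * ‖ψ x‖ := by positivity
  have h3 := mul_le_mul_of_nonneg_left h1 h2
  have h4 : 16 * (‖x‖ * ‖ψ x‖ * (Real.sqrt d * Real.sqrt g)) ≤
      8 * (‖x‖ ^ 2 * d) * ‖ψ x‖ ^ 2 + 8 * g := by
    have h6 := sq_nonneg (‖x‖ * ‖ψ x‖ * Real.sqrt d - Real.sqrt g)
    have e1 := Real.sq_sqrt hd0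
    have e2 := Real.sq_sqrt hg0
    have e3 : (‖x‖ * ‖ψ x‖ * Real.sqrt d - Real.sqrt g) ^ 2 =
        (‖x‖ ^ 2 * d) * ‖ψ x‖ ^ 2 - 2 * (‖x‖ * ‖ψ x‖ * (Real.sqrt d * Real.sqrt g)) + g := by
      calc _ = ‖x‖ ^ 2 * Real.sqrt d ^ 2 * ‖ψ x‖ ^ 2 -
            2 * (‖x‖ * ‖ψ x‖ * (Real.sqrt d * Real.sqrt g)) + Real.sqrt g ^ 2 := by ring
        _ = _ := by rw [e1, e2]
    rw [e3] at h6
    linarith
  have h5 : 8 * (‖x‖ ^ 2 * d) * ‖ψ x‖ ^ 2 ≤ 16 * (pot b (fun p => x p) * ‖ψ x‖ ^ 2) := by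
    have := mul_le_mul_of_nonneg_right hpot (sq_nonneg ‖ψ x‖)
    nlinarith
  nlinarith

/-- Cauchy–Schwarz for the product of two norms -/
theorem integral_mul_norm_le {u v : Cfg N → F} (hu : Ts u) (hv : Ts v) :
    ∫ x, ‖u x‖ * ‖v x‖ ≤ Real.sqrt (n2 u) * Real.sqrt (n2 v) := by
  have h := integral_mul_norm_le_Lp_mul_Lq (μ := (volume : Measure (Cfg N))) (f := u) (g := v)
    (p := 2) (q := 2) (by constructor <;> norm_num) (by simpa using hu.memLp)
    (by simpa using hv.memLp)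
  have e : ∀ w : Cfg N → F, (∫ x, ‖w x‖ ^ (2 : ℝ)) ^ (1 / 2 : ℝ) = Real.sqrt (n2 w) := by
    intro w
    rw [Real.sqrt_eq_rpow]
    unfold n2
    simp only [Real.rpow_two]
  rw [e, e] at h
  exact h

/-- the integrated inequality -/
theorem integrated {b : ColorBasis 2} {M : FermionRep 2 F} {G : GammaNine} {C : ℝ}
    (hE : EnergyLB b M G C) {sP : F →ₗ[ℂ] F} {sM : Fin 3 → F →ₗ[ℂ] F} {c : ℝ}
    (hP : ∀ v, ‖sP v‖ ≤ c * ‖v‖) (hM : ∀ k v, ‖sM k v‖ ≤ c * ‖v‖) {m : ℝ}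
    (hm : 4 * c + 16 * (C + 1) ≤ |m|) {R : ℝ} (hR : 0 ≤ R) {ψ : Cfg 2 → F} (hψ : Ts ψ)
    (hs : SuppIn R ψ) :
    ∫ x, ‖x‖ * ‖ψ x‖ ^ 2 ≤ q b M G ψ + R * ((Real.sqrt (n2 (Jop KP (shf sP m) ψ)) +
      ∑ k, Real.sqrt (n2 (Jop (KM k) (sM k) ψ))) * Real.sqrt (n2 ψ)) := by
  set X := ∫ x, ‖x‖ * ‖ψ x‖ ^ 2 with hX
  set P := ∫ x, pot b (fun p => x p) * ‖ψ x‖ ^ 2 with hPdef
  have hX0 : 0 ≤ X := integral_nonneg fun x => by positivity
  have iX := integrable_mul_sq hψ continuous_norm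
  have iP := integrable_mul_sq hψ (continuous_pot b)
  have ig := integrable_gsq hψ
  have hJ0 := hψ.jop KP (shf sP m)
  have hJk := fun k => hψ.jop (KM k) (sM k)
  have iprod : ∀ u : Cfg 2 → F, Ts u → Integrable (fun x => ‖u x‖ * ‖ψ x‖) volume := by
    intro u hu
    exact integrable_of_zero_off hψ.2 (hu.1.continuous.norm.mul hψ.1.continuous.norm)
      fun x hx => by rw [image_eq_zero_of_notMem_tsupport hx]; simp
  -- the remainder
  set r : Cfg 2 → ℝ := fun x => (‖Jop KP (shf sP m) ψ x‖ + ∑ k, ‖Jop (KM k) (sM k) ψ x‖) * ‖ψ x‖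
    with hr
  have ir : Integrable r volume := by
    have : r = fun x => ‖Jop KP (shf sP m) ψ x‖ * ‖ψ x‖ +
        ∑ k, ‖Jop (KM k) (sM k) ψ x‖ * ‖ψ x‖ := by
      funext x; simp only [hr, add_mul, Finset.sum_mul]
    rw [this]
    exact (iprod _ hJ0).add (integrable_finset_sum _ fun k _ => iprod _ (hJk k))
  have ir' : Integrable (fun x => ‖x‖ * r x) volume := by
    refine integrable_of_zero_off hψ.2 ?_ fun x hx => ?_
    · refine continuous_norm.mul (Continuous.mul ?_ hψ.1.continuous.norm)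
      exact hJ0.1.continuous.norm.add (continuous_finset_sum _ fun k _ =>
        (hJk k).1.continuous.norm)
    · simp only [hr]; rw [image_eq_zero_of_notMem_tsupport hx]; simp
  have hrem : ∫ x, ‖x‖ * r x ≤ R * ((Real.sqrt (n2 (Jop KP (shf sP m) ψ)) +
      ∑ k, Real.sqrt (n2 (Jop (KM k) (sM k) ψ))) * Real.sqrt (n2 ψ)) := by
    have h1 : ∫ x, ‖x‖ * r x ≤ ∫ x, R * r x := by
      refine integral_mono ir' (ir.const_mul R) fun x => ?_
      by_cases hx : x ∈ tsupport ψ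
      · refine mul_le_mul_of_nonneg_right (hs x hx) ?_
        simp only [hr]; positivity
      · simp only [hr]; rw [image_eq_zero_of_notMem_tsupport hx]; simp
    refine h1.trans ?_
    rw [integral_const_mul]
    refine mul_le_mul_of_nonneg_left ?_ hR
    have h2 : ∫ x, r x = (∫ x, ‖Jop KP (shf sP m) ψ x‖ * ‖ψ x‖) +
        ∑ k, ∫ x, ‖Jop (KM k) (sM k) ψ x‖ * ‖ψ x‖ := by
      rw [← integral_finset_sum _ fun k _ => iprod _ (hJk k),
        ← integral_add (iprod _ hJ0) (integrable_finset_sum _ fun k _ => iprod _ (hJk k))]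
      refine integral_congr_ae (Eventually.of_forall fun x => ?_)
      simp only [hr, add_mul, Finset.sum_mul]
    rw [h2, add_mul, Finset.sum_mul]
    exact add_le_add (integral_mul_norm_le hJ0 hψ)
      (Finset.sum_le_sum fun k _ => integral_mul_norm_le (hJk k) hψ)
  have hint : (|m| - 4 * c) * X ≤ 8 * en ψ + 16 * P + ∫ x, ‖x‖ * r x := by
    have h1 : ∫ x, (|m| - 4 * c) * (‖x‖ * ‖ψ x‖ ^ 2) ≤
        ∫ x, (8 * gsq (gr ψ x) + 16 * (pot b (fun p => x p) * ‖ψ x‖ ^ 2) + ‖x‖ * r x) :=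
      integral_mono (iX.const_mul _) (((ig.const_mul 8).add (iP.const_mul 16)).add ir')
        fun x => pointwise b hP hM m ψ x
    have h2 : ∫ x, (8 * gsq (gr ψ x) + 16 * (pot b (fun p => x p) * ‖ψ x‖ ^ 2) + ‖x‖ * r x) =
        8 * en ψ + 16 * P + ∫ x, ‖x‖ * r x := by
      have i1 : Integrable (fun x => 8 * gsq (gr ψ x) +
          16 * (pot b (fun p => x p) * ‖ψ x‖ ^ 2)) volume := (ig.const_mul 8).add (iP.const_mul 16)
      rw [integral_add i1 ir', integral_add (ig.const_mul 8) (iP.const_mul 16),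
        integral_const_mul, integral_const_mul]
      rfl
    rw [h2, integral_const_mul] at h1
    exact h1
  have h2 := hE ψ hψ
  have h3 : 16 * (C + 1) * X ≤ (|m| - 4 * c) * X := by
    refine mul_le_mul_of_nonneg_right ?_ hX0
    linarith
  have h4 : 0 ≤ ∫ x, ‖x‖ * r x := integral_nonneg fun x => by simp only [hr]; positivity
  linarith

/-! ### passing to the limit -/

/-- form-Cauchy sequences -/
def QCauchy (b : ColorBasis N) (M : FermionRep N F) (G : GammaNine) (ψ : ℕ → Cfg N → F) : Prop :=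
  ∀ ε : ℝ, 0 < ε → ∃ n₀, ∀ n ≥ n₀, ∀ k ≥ n₀, q b M G (ψ n - ψ k) < ε

/-- weak sector equation `J h = 0` -/
def Weak (a : Matrix (Fin 9) (Fin 9) ℝ) (S : F →ₗ[ℂ] F) (h : Cfg N → F) : Prop :=
  ∀ η : Cfg N → F, Ts η → ∫ x, ⟪Jop a S η x, h x⟫_ℂ = 0

theorem n2_cauchy {ψ : ℕ → Cfg N → F} (hψ : ∀ n, Ts (ψ n)) {h : Cfg N → F}
    (hh : MemLp h 2 volume) (hl : Tendsto (fun n => n2 (ψ n - h)) atTop (𝓝 0)) :
    ∀ ε : ℝ, 0 < ε → ∃ n₀, ∀ n ≥ n₀, ∀ k ≥ n₀, n2 (ψ n - ψ k) < ε := by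
  intro ε hε
  obtain ⟨n₀, hn₀⟩ := (hl.eventually (gt_mem_nhds (by positivity : 0 < ε / 4))).exists_forall_of_atTop
  refine ⟨n₀, fun n hn k hk => ?_⟩
  have e : ψ n - ψ k = (ψ n - h) - (ψ k - h) := by abel
  rw [e]
  have := n2_sub_le ((hψ n).memLp.sub hh) ((hψ k).memLp.sub hh)
  linarith [hn₀ n hn, hn₀ k hk]

/-- the infinitesimal rotations of the sequence go to zero -/
theorem Jop_tendsto {b : ColorBasis N} {M : FermionRep N F} {G : GammaNine} {C : ℝ} (hC : 0 ≤ C)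
    (hE : EnergyLB b M G C) {a : Matrix (Fin 9) (Fin 9) ℝ} (ha : a.transpose = -a)
    {S : F →ₗ[ℂ] F} (hS : ∀ v w, ⟪S v, w⟫_ℂ = -⟪v, S w⟫_ℂ) {R : ℝ} (hR : 0 ≤ R)
    {ψ : ℕ → Cfg N → F} (hψ : ∀ n, Ts (ψ n)) (hs : ∀ n, SuppIn R (ψ n)) {h : Cfg N → F}
    (hh : MemLp h 2 volume) (hl : Tendsto (fun n => n2 (ψ n - h)) atTop (𝓝 0))
    (hq : QCauchy b M G ψ) (hw : Weak a S h) :
    Tendsto (fun n => n2 (Jop a S (ψ n))) atTop (𝓝 0) := by
  have hJ := fun n => (hψ n).jop a S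
  obtain ⟨K, hK, hKle⟩ := n2_Jop_le (N := N) a S hR
  set y : ℕ → Lp F 2 (volume : Measure (Cfg N)) := fun n => (hJ n).memLp.toLp (Jop a S (ψ n)) with hy
  have hsub : ∀ n k, y n - y k = (((hψ n).sub (hψ k)).jop a S).memLp.toLp (Jop a S (ψ n - ψ k)) := by
    intro n k
    simp only [hy]
    rw [← MemLp.toLp_sub]
    congr 1
    funext x
    exact (Jop_sub a S (hψ n).diff (hψ k).diff x).symm
  have hc : CauchySeq y := by
    rw [Metric.cauchySeq_iff]
    intro ε hε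
    set δ : ℝ := ε ^ 2 / (2 * (K * (2 + (2 * C * R + 1)) + 1)) with hδ
    have hδ0 : 0 < δ := by positivity
    obtain ⟨n₁, h₁⟩ := hq δ hδ0
    obtain ⟨n₂, h₂⟩ := n2_cauchy hψ hh hl δ hδ0
    refine ⟨max n₁ n₂, fun n hn k hk => ?_⟩
    have hqn := h₁ n (le_trans (le_max_left _ _) hn) k (le_trans (le_max_left _ _) hk)
    have hnn := h₂ n (le_trans (le_max_right _ _) hn) k (le_trans (le_max_right _ _) hk)
    have hT := (hψ n).sub (hψ k)
    have h3 := hKle _ hT ((hs n).sub (hs k))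
    have h4 := en_le hC hE hT ((hs n).sub (hs k))
    rw [dist_eq_norm, hsub]
    have h5 : ‖(hT.jop a S).memLp.toLp (Jop a S (ψ n - ψ k))‖ ^ 2 < ε ^ 2 := by
      rw [← n2_eq]
      have h6 : K * (en (ψ n - ψ k) + n2 (ψ n - ψ k)) ≤ K * ((2 + (2 * C * R + 1)) * δ) := by
        refine mul_le_mul_of_nonneg_left ?_ hK
        have : 2 * C * R * n2 (ψ n - ψ k) ≤ 2 * C * R * δ :=
          mul_le_mul_of_nonneg_left hnn.le (by positivity)
        nlinarith
      have h7 : K * ((2 + (2 * C * R + 1)) * δ) < ε ^ 2 := by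
        rw [hδ, ← mul_assoc, mul_div_assoc', div_lt_iff₀ (by positivity)]
        have : 0 ≤ K * (2 + (2 * C * R + 1)) := by positivity
        nlinarith [sq_pos_of_pos hε]
      linarith
    exact lt_of_pow_lt_pow_left₀ 2 hε.le h5
  have hin : ∀ k, Tendsto (fun n => ⟪y k, y n⟫_ℂ) atTop (𝓝 0) := by
    intro k
    have h1 : ∀ n, ⟪y k, y n⟫_ℂ = -∫ x, ⟪Jop a S (Jop a S (ψ k)) x, ψ n x⟫_ℂ := by
      intro n
      simp only [hy]
      rw [inner_toLp, Jop_skew (anti_of ha) hS (hJ k).1 (hψ n).1 (hJ k).2, neg_neg]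
    have h2 : Tendsto (fun n => ∫ x, ⟪Jop a S (Jop a S (ψ k)) x, ψ n x⟫_ℂ) atTop
        (𝓝 (∫ x, ⟪Jop a S (Jop a S (ψ k)) x, h x⟫_ℂ)) := by
      have hJJ := ((hJ k).jop a S).memLp
      refine IBP837.tendsto_integral_inner (fun _ => hJJ) hJJ (fun n => (hψ n).memLp) hh ?_ ?_
      · simp
      · have h3 : Tendsto (fun n => Real.sqrt (n2 (ψ n - h))) atTop (𝓝 0) := by
          have := (Real.continuous_sqrt.tendsto 0).comp hl
          rwa [Real.sqrt_zero] at this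
        have h4 := ENNReal.tendsto_ofReal h3
        rw [ENNReal.ofReal_zero] at h4
        refine h4.congr fun n => ?_
        rw [n2_eq ((hψ n).memLp.sub hh), Real.sqrt_sq (norm_nonneg _), Lp.norm_toLp,
          ENNReal.ofReal_toReal ((hψ n).memLp.sub hh).2.ne]
    rw [hw _ (hJ k |>.jop a S |> fun _ => hJ k)] at h2
    have h5 := h2.neg
    rw [neg_zero] at h5
    exact h5.congr fun n => (h1 n).symm
  have h0 := hil hc hin
  have h1 : Tendsto (fun n => ‖y n‖ ^ 2) atTop (𝓝 0) := by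
    have := (h0.norm).pow 2
    simpa using this
  exact h1.congr fun n => (n2_eq (hJ n).memLp).symm

end Crest.Agent.R330.SCoer186
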