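import Mathlib
import Crest.Prelude.Def_MatrixModel
import Crest.Agent.R330.SCoer_186
import Crest.Agent.R330.Ims_714

/-!
Row 330, S13.COER, part 3: radial cut-offs and the global coercivity on the sector.
-/

set_option autoImplicit false
set_option linter.unusedSectionVars false

noncomputable section

open MeasureTheory Filter Topology Set
open scoped ContDiff InnerProductSpace ENNReal

namespace Crest.Agent.R330.SCoer186

open Crest.MathPhysics.MatrixQM Crest.Agent.R330.Bar186 Crest.Agent.R330.SJop186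
open Crest.Agent.R330.SDefs726 (vf rot KP KM vf_add vf_sub vf_rot KP_transpose KM_transpose)

variable {N : ℕ} {F : Type*} [NormedAddCommGroup F] [InnerProductSpace ℂ F]
  [FiniteDimensional ℂ F]

/-! ### weighted limits -/

/-- the truncated weight -/
def wt (R : ℝ) (x : Cfg N) : ℝ := min ‖x‖ R

theorem continuous_wt (R : ℝ) : Continuous (wt R : Cfg N → ℝ) := continuous_norm.min continuous_const

theorem wt_nonneg {R : ℝ} (hR : 0 ≤ R) (x : Cfg N) : 0 ≤ wt R x := le_min (norm_nonneg _) hR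

theorem wt_le {R : ℝ} (x : Cfg N) : wt R x ≤ R := min_le_right _ _

theorem memLp_wt {R : ℝ} (hR : 0 ≤ R) {h : Cfg N → F} (hh : MemLp h 2 volume) :
    MemLp (fun x => wt R x • h x) 2 volume := by
  refine MemLp.of_le_mul (c := R) hh ((continuous_wt R).aestronglyMeasurable.smul hh.1)
    (Eventually.of_forall fun x => ?_)
  rw [norm_smul, Real.norm_eq_abs, abs_of_nonneg (wt_nonneg hR x)]
  exact mul_le_mul_of_nonneg_right (wt_le x) (norm_nonneg _)

theorem tendsto_eLpNorm_of_n2 {ψ : ℕ → Cfg N → F} {h : Cfg N → F} (hψ : ∀ n, MemLp (ψ n) 2 volume)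
    (hh : MemLp h 2 volume) (hl : Tendsto (fun n => n2 (ψ n - h)) atTop (𝓝 0)) :
    Tendsto (fun n => eLpNorm (ψ n - h) 2 volume) atTop (𝓝 0) := by
  have h3 : Tendsto (fun n => Real.sqrt (n2 (ψ n - h))) atTop (𝓝 0) := by
    have := (Real.continuous_sqrt.tendsto 0).comp hl
    rwa [Real.sqrt_zero] at this
  have h4 := ENNReal.tendsto_ofReal h3
  rw [ENNReal.ofReal_zero] at h4
  refine h4.congr fun n => ?_
  rw [n2_eq ((hψ n).sub hh), Real.sqrt_sq (norm_nonneg _), Lp.norm_toLp,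
    ENNReal.ofReal_toReal ((hψ n).sub hh).2.ne]

theorem n2_of_tendsto_eLpNorm {ψ : ℕ → Cfg N → F} {h : Cfg N → F}
    (hψ : ∀ n, MemLp (ψ n) 2 volume) (hh : MemLp h 2 volume)
    (hl : Tendsto (fun n => eLpNorm (ψ n - h) 2 volume) atTop (𝓝 0)) :
    Tendsto (fun n => n2 (ψ n - h)) atTop (𝓝 0) := by
  have h1 := ((ENNReal.tendsto_toReal ENNReal.zero_ne_top).comp hl).pow 2
  rw [ENNReal.toReal_zero, zero_pow two_ne_zero] at h1
  refine h1.congr fun n => ?_
  rw [n2_eq ((hψ n).sub hh), Lp.norm_toLp]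
  rfl

theorem tendsto_wt {R : ℝ} (hR : 0 ≤ R) {ψ : ℕ → Cfg N → F} {h : Cfg N → F}
    (hψ : ∀ n, MemLp (ψ n) 2 volume) (hh : MemLp h 2 volume)
    (hl : Tendsto (fun n => n2 (ψ n - h)) atTop (𝓝 0)) :
    Tendsto (fun n => ∫ x, wt R x * ‖ψ n x‖ ^ 2) atTop (𝓝 (∫ x, wt R x * ‖h x‖ ^ 2)) := by
  have hl' := tendsto_eLpNorm_of_n2 hψ hh hl
  have hw : Tendsto (fun n => eLpNorm ((fun x => wt R x • ψ n x) - fun x => wt R x • h x) 2 volume)
      atTop (𝓝 0) := by
    have h1 : Tendsto (fun n => ENNReal.ofReal R * eLpNorm (ψ n - h) 2 volume) atTop (𝓝 0) := by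
      have := ENNReal.Tendsto.const_mul hl' (Or.inr (ENNReal.ofReal_ne_top (r := R)))
      rwa [mul_zero] at this
    refine tendsto_of_tendsto_of_tendsto_of_le_of_le tendsto_const_nhds h1 (fun n => zero_le)
      fun n => ?_
    refine eLpNorm_le_mul_eLpNorm_of_ae_le_mul (Eventually.of_forall fun x => ?_) 2
    simp only [Pi.sub_apply]
    rw [← smul_sub, norm_smul, Real.norm_eq_abs, abs_of_nonneg (wt_nonneg hR x)]
    exact mul_le_mul_of_nonneg_right (wt_le x) (norm_nonneg _)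
  have h1 := IBP837.tendsto_integral_inner hψ hh (fun n => memLp_wt hR (hψ n)) (memLp_wt hR hh)
    hl' hw
  have e : ∀ u : Cfg N → F, ∫ x, ⟪u x, wt R x • u x⟫_ℂ = ((∫ x, wt R x * ‖u x‖ ^ 2 : ℝ) : ℂ) := by
    intro u
    rw [← integral_complex_ofReal]
    refine integral_congr_ae (Eventually.of_forall fun x => ?_)
    simp only []
    rw [← Complex.coe_smul, inner_smul_right, inner_self_eq_norm_sq_to_K]
    push_cast
    rfl
  simp only [e] at h1
  exact (Complex.continuous_re.tendsto _).comp h1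

theorem tendsto_n2 {ψ : ℕ → Cfg N → F} {h : Cfg N → F}
    (hψ : ∀ n, MemLp (ψ n) 2 volume) (hh : MemLp h 2 volume)
    (hl : Tendsto (fun n => n2 (ψ n - h)) atTop (𝓝 0)) :
    Tendsto (fun n => n2 (ψ n)) atTop (𝓝 (n2 h)) := by
  have hl' := tendsto_eLpNorm_of_n2 hψ hh hl
  have h1 := IBP837.tendsto_integral_inner hψ hh hψ hh hl' hl'
  have e : ∀ u : Cfg N → F, ∫ x, ⟪u x, u x⟫_ℂ = ((n2 u : ℝ) : ℂ) := by
    intro u
    unfold n2
    rw [← integral_complex_ofReal]
    refine integral_congr_ae (Eventually.of_forall fun x => ?_)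
    simp only []
    rw [inner_self_eq_norm_sq_to_K]
    push_cast
    rfl
  simp only [e] at h1
  exact (Complex.continuous_re.tendsto _).comp h1

/-- **local coercivity** -/
theorem local_coer {b : ColorBasis 2} {M : FermionRep 2 F} {G : GammaNine} {C : ℝ} (hC : 0 ≤ C)
    (hE : EnergyLB b M G C) {sP : F →ₗ[ℂ] F} {sM : Fin 3 → F →ₗ[ℂ] F} {c : ℝ}
    (hP : ∀ v, ‖sP v‖ ≤ c * ‖v‖) (hM : ∀ k v, ‖sM k v‖ ≤ c * ‖v‖)
    (hPs : ∀ v w, ⟪sP v, w⟫_ℂ = -⟪v, sP w⟫_ℂ) (hMs : ∀ k v w, ⟪sM k v, w⟫_ℂ = -⟪v, sM k w⟫_ℂ)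
    {m : ℝ} (hm : 4 * c + 16 * (C + 1) ≤ |m|) {R : ℝ} (hR : 0 ≤ R)
    {ψ : ℕ → Cfg 2 → F} (hψ : ∀ n, Ts (ψ n)) (hs : ∀ n, SuppIn R (ψ n)) {h : Cfg 2 → F}
    (hh : MemLp h 2 volume) (hl : Tendsto (fun n => n2 (ψ n - h)) atTop (𝓝 0))
    (hq : QCauchy b M G ψ) (hwP : Weak KP (shf sP m) h) (hwM : ∀ k, Weak (KM k) (sM k) h) :
    ∀ ε : ℝ, 0 < ε → ∀ᶠ n in atTop, ∫ x, wt R x * ‖h x‖ ^ 2 ≤ q b M G (ψ n) + ε := by
  intro ε hε
  have h1 := tendsto_wt hR (fun n => (hψ n).memLp) hh hl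
  have hX : ∀ n, ∫ x, wt R x * ‖ψ n x‖ ^ 2 = ∫ x, ‖x‖ * ‖ψ n x‖ ^ 2 := by
    intro n
    refine integral_congr_ae (Eventually.of_forall fun x => ?_)
    by_cases hx : x ∈ tsupport (ψ n)
    · simp only [wt, min_eq_left (hs n x hx)]
    · simp only [image_eq_zero_of_notMem_tsupport hx]; simp
  have h0 := Jop_tendsto hC hE KP_transpose (shf_skew hPs m) hR hψ hs hh hl hq hwP
  have hk := fun k => Jop_tendsto hC hE (KM_transpose k) (hMs k) hR hψ hs hh hl hq (hwM k)
  have hsq : ∀ {u : ℕ → ℝ}, Tendsto u atTop (𝓝 0) → Tendsto (fun n => Real.sqrt (u n)) atTop (𝓝 0) := by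
    intro u hu
    have := (Real.continuous_sqrt.tendsto 0).comp hu
    rwa [Real.sqrt_zero] at this
  have hrem : Tendsto (fun n => R * ((Real.sqrt (n2 (Jop KP (shf sP m) (ψ n))) +
      ∑ k, Real.sqrt (n2 (Jop (KM k) (sM k) (ψ n)))) * Real.sqrt (n2 (ψ n)))) atTop (𝓝 0) := by
    have hb := (Real.continuous_sqrt.tendsto _).comp (tendsto_n2 (fun n => (hψ n).memLp) hh hl)
    have hs' := tendsto_finset_sum Finset.univ fun k _ => hsq (hk k)
    have := ((hsq h0).add hs').mul hb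
    have := this.const_mul R
    simpa using this
  filter_upwards [h1.eventually (lt_mem_nhds (a := (∫ x, wt R x * ‖h x‖ ^ 2) - ε / 2) (by linarith)),
    hrem.eventually (gt_mem_nhds (by positivity : 0 < ε / 2))] with n hn1 hn2
  rw [hX] at hn1
  have := integrated hE hP hM hm hR (hψ n) (hs n)
  linarith

/-! ### radial cut-offs -/

/-- the profile: `1` for `s ≤ 1`, `0` for `s ≥ 2` -/
def prof (s : ℝ) : ℝ := Real.smoothTransition (2 - s)

theorem prof_contDiff : ContDiff ℝ ∞ prof := by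
  unfold prof
  exact Real.smoothTransition.contDiff.comp (contDiff_const.sub contDiff_id)

theorem prof_one {s : ℝ} (h : s ≤ 1) : prof s = 1 :=
  Real.smoothTransition.one_of_one_le (by linarith)

theorem prof_zero {s : ℝ} (h : 2 ≤ s) : prof s = 0 :=
  Real.smoothTransition.zero_of_nonpos (by linarith)

theorem prof_nonneg (s : ℝ) : 0 ≤ prof s := Real.smoothTransition.nonneg _

theorem prof_le_one (s : ℝ) : prof s ≤ 1 := Real.smoothTransition.le_one _

theorem exists_prof_deriv : ∃ K : ℝ, 0 ≤ K ∧ (∀ s, |deriv prof s| ≤ K) ∧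
    ∀ s, 2 < s → deriv prof s = 0 := by
  have hc : Continuous (deriv prof) := prof_contDiff.continuous_deriv (by simp)
  obtain ⟨K, hK⟩ := (isCompact_Icc (a := (1 : ℝ)) (b := 2)).exists_bound_of_continuousOn
    hc.continuousOn
  have h2 : ∀ s, 2 < s → deriv prof s = 0 := by
    intro s hs
    have : prof =ᶠ[𝓝 s] fun _ => 0 := by
      filter_upwards [lt_mem_nhds hs] with t ht
      exact prof_zero ht.le
    rw [this.deriv_eq]
    simp
  have h1 : ∀ s, s < 1 → deriv prof s = 0 := by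
    intro s hs
    have : prof =ᶠ[𝓝 s] fun _ => 1 := by
      filter_upwards [gt_mem_nhds hs] with t ht
      exact prof_one ht.le
    rw [this.deriv_eq]
    simp
  refine ⟨|K|, abs_nonneg _, fun s => ?_, h2⟩
  rcases lt_or_ge s 1 with h | h
  · rw [h1 s h]; simp
  · rcases lt_or_ge 2 s with h' | h'
    · rw [h2 s h']; simp
    · exact (hK s ⟨h, h'⟩).trans (le_abs_self _)

/-- radial cut-off at radius `R` -/
def cut (R : ℝ) (x : Cfg N) : ℝ := prof (‖x‖ ^ 2 / R ^ 2)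

theorem cut_contDiff (R : ℝ) : ContDiff ℝ ∞ (cut R : Cfg N → ℝ) :=
  prof_contDiff.comp ((contDiff_norm_sq ℝ).div_const _)

theorem cut_nonneg (R : ℝ) (x : Cfg N) : 0 ≤ cut R x := prof_nonneg _

theorem cut_le_one (R : ℝ) (x : Cfg N) : cut R x ≤ 1 := prof_le_one _

theorem cut_one {R : ℝ} (hR : 0 < R) {x : Cfg N} (h : ‖x‖ ≤ R) : cut R x = 1 := by
  refine prof_one ?_
  rw [div_le_one (by positivity)]
  gcongr

theorem cut_zero {R : ℝ} (hR : 0 < R) {x : Cfg N} (h : 2 * R ≤ ‖x‖) : cut R x = 0 := by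
  refine prof_zero ?_
  rw [le_div_iff₀ (by positivity)]
  nlinarith

theorem fderiv_cut (R : ℝ) (x v : Cfg N) :
    fderiv ℝ (cut R) x v = deriv prof (‖x‖ ^ 2 / R ^ 2) * (2 * ⟪x, v⟫_ℝ / R ^ 2) := by
  have h1 : HasFDerivAt (fun x : Cfg N => ‖x‖ ^ 2 / R ^ 2)
      ((R ^ 2)⁻¹ • (2 • (innerSL ℝ x))) x := by
    have := (hasStrictFDerivAt_norm_sq x).hasFDerivAt.const_mul (R ^ 2)⁻¹
    simpa [div_eq_inv_mul] using this
  have h2 : HasDerivAt prof (deriv prof (‖x‖ ^ 2 / R ^ 2)) (‖x‖ ^ 2 / R ^ 2) :=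
    (prof_contDiff.differentiable (by simp)).differentiableAt.hasDerivAt
  have h3 := h2.comp_hasFDerivAt x h1
  have h4 : fderiv ℝ (cut R) x = deriv prof (‖x‖ ^ 2 / R ^ 2) • ((R ^ 2)⁻¹ • (2 • (innerSL ℝ x))) :=
    h3.fderiv
  rw [h4]
  show deriv prof (‖x‖ ^ 2 / R ^ 2) * ((R ^ 2)⁻¹ * (2 • ⟪x, v⟫_ℝ)) = _
  rw [nsmul_eq_mul]
  push_cast
  ring

theorem inner_vf {a : Matrix (Fin 9) (Fin 9) ℝ} (ha : a.transpose = -a) (x : Cfg N) :
    ⟪x, vf a x⟫_ℝ = 0 := by
  have h1 : ⟪x, vf a x⟫_ℝ = ∑ A, ∑ i, ∑ j, a i j * (x (i, A) * x (j, A)) := by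
    rw [PiLp.inner_apply, Fintype.sum_prod_type, Finset.sum_comm]
    refine Finset.sum_congr rfl fun A _ => Finset.sum_congr rfl fun i _ => ?_
    rw [vf_ap]
    simp only [RCLike.inner_apply, conj_trivial, Finset.sum_mul]
    exact Finset.sum_congr rfl fun j _ => by ring
  have h2 : ∀ A, ∑ i, ∑ j, a i j * (x (i, A) * x (j, A)) = 0 := by
    intro A
    have e : ∑ i, ∑ j, a i j * (x (i, A) * x (j, A)) =
        -∑ i, ∑ j, a i j * (x (i, A) * x (j, A)) := by
      conv_lhs => rw [Finset.sum_comm]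
      rw [← Finset.sum_neg_distrib]
      refine Finset.sum_congr rfl fun i _ => ?_
      rw [← Finset.sum_neg_distrib]
      refine Finset.sum_congr rfl fun j _ => ?_
      rw [anti_of ha j i]
      ring
    linarith
  rw [h1]
  exact Finset.sum_eq_zero fun A _ => h2 A

theorem fderiv_cut_vf (R : ℝ) {a : Matrix (Fin 9) (Fin 9) ℝ} (ha : a.transpose = -a) (x : Cfg N) :
    fderiv ℝ (cut R) x (vf a x) = 0 := by
  rw [fderiv_cut, inner_vf ha]
  simp

/-- gradient bound, uniform constant over `R` -/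
theorem exists_grad_cut : ∃ K : ℝ, 0 ≤ K ∧ ∀ R : ℝ, 0 < R → ∀ x : Cfg N,
    ‖Ims714.grad (cut R) x‖ ≤ K / R := by
  obtain ⟨K, hK, hKle, hK0⟩ := exists_prof_deriv
  refine ⟨4 * K, by positivity, fun R hR x => ?_⟩
  have hg : Ims714.grad (cut R) x = (deriv prof (‖x‖ ^ 2 / R ^ 2) * (2 / R ^ 2)) • x := by
    ext p
    rw [Ims714.grad_apply, fderiv_cut, EuclideanSpace.inner_single_right]
    simp
    ring
  rw [hg, norm_smul, Real.norm_eq_abs, abs_mul, abs_of_nonneg (by positivity : 0 ≤ 2 / R ^ 2)]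
  rcases le_or_gt ‖x‖ (2 * R) with h | h
  · calc |deriv prof (‖x‖ ^ 2 / R ^ 2)| * (2 / R ^ 2) * ‖x‖ ≤ K * (2 / R ^ 2) * (2 * R) := by
          gcongr; exact hKle _
      _ = 4 * K / R := by field_simp; ring
  · rw [hK0 _ (by rw [lt_div_iff₀ (by positivity)]; nlinarith)]
    simp
    positivity

theorem Ts.cut {ψ : Cfg N → F} (h : Ts ψ) (R : ℝ) : Ts fun x => cut R x • ψ x :=
  ⟨(cut_contDiff R).smul h.1, h.2.smul_left⟩

theorem suppIn_cut {R : ℝ} (hR : 0 < R) (ψ : Cfg N → F) : SuppIn (2 * R) fun x => cut R x • ψ x := by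
  intro x hx
  by_contra hlt
  rw [not_le] at hlt
  have h1 : (fun x => cut R x • ψ x) =ᶠ[𝓝 x] 0 := by
    filter_upwards [continuous_norm.continuousAt.eventually (lt_mem_nhds hlt)] with y hy
    rw [cut_zero hR hy.le]; simp
  exact (notMem_tsupport_iff_eventuallyEq.2 h1) hx

theorem Weak.cut {a : Matrix (Fin 9) (Fin 9) ℝ} (ha : a.transpose = -a) {S : F →ₗ[ℂ] F}
    {h : Cfg N → F} (hw : Weak a S h) (R : ℝ) : Weak a S fun x => cut R x • h x := by
  intro η hη
  have h1 := hw _ (hη.cut R)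
  rw [← h1]
  refine integral_congr_ae (Eventually.of_forall fun x => ?_)
  simp only []
  rw [Jop_mul a S ((cut_contDiff R).differentiable (by simp)) hη.diff (fderiv_cut_vf R ha),
    ← Complex.coe_smul, ← Complex.coe_smul, inner_smul_left, inner_smul_right, Complex.conj_ofReal]

/-! ### the form of a cut-off function -/

theorem integrable_sq {u : Cfg N → F} (hu : Ts u) : Integrable (fun x => ‖u x‖ ^ 2) volume := by
  simpa using integrable_mul_sq hu (w := fun _ => 1) continuous_const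

theorem Ts.sc {b : ColorBasis N} {M : FermionRep N F} {G : GammaNine} {α : Fin 16} {ψ : Cfg N → F}
    (h : Ts ψ) : Ts (supercharge b M G α ψ) :=
  ⟨IBP837.contDiff_supercharge h.1, IBP837.hasCompactSupport_supercharge h.2⟩

theorem q_cut_le (b : ColorBasis N) (M : FermionRep N F) (G : GammaNine) {K : ℝ} (hK : 0 ≤ K)
    (hKle : ∀ R : ℝ, 0 < R → ∀ x : Cfg N, ‖Ims714.grad (cut R) x‖ ≤ K / R) {R : ℝ} (hR : 0 < R)
    {t : ℝ} (ht : 0 < t) {ψ : Cfg N → F} (hψ : Ts ψ) :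
    q b M G (fun x => cut R x • ψ x) ≤
      (1 + t) * q b M G ψ + (1 + 1 / t) * (1 / 2 * (K / R) ^ 2 * n2 ψ) := by
  have hα : ∀ α, ∫ x, ‖supercharge b M G α (fun x => cut R x • ψ x) x‖ ^ 2 ≤
      (1 + t) * (∫ x, ‖supercharge b M G α ψ x‖ ^ 2) +
        (1 + 1 / t) * (1 / 2 * (K / R) ^ 2 * n2 ψ) := by
    intro α
    have i1 := integrable_sq (hψ.sc (b := b) (M := M) (G := G) (α := α))
    have i2 := integrable_sq hψ
    have i3 := integrable_sq ((hψ.cut R).sc (b := b) (M := M) (G := G) (α := α))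
    have hpt : ∀ x, ‖supercharge b M G α (fun x => cut R x • ψ x) x‖ ^ 2 ≤
        (1 + t) * ‖supercharge b M G α ψ x‖ ^ 2 +
          (1 + 1 / t) * (1 / 2 * (K / R) ^ 2) * ‖ψ x‖ ^ 2 := by
      intro x
      have h1 := Ims714.normSq_dop_mul_le G M α (Ims714.wquart b M G α)
        (((cut_contDiff R).differentiable (by simp)) x) (hψ.diff x) ht
      rw [← Ims714.supercharge_eq_dop, ← Ims714.supercharge_eq_dop] at h1
      refine h1.trans ?_
      have h2 : cut R x ^ 2 ≤ 1 := pow_le_one₀ (cut_nonneg R x) (cut_le_one R x)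
      have h3 : ‖Ims714.grad (cut R) x‖ ^ 2 ≤ (K / R) ^ 2 := by
        gcongr; exact hKle R hR x
      have h4 : cut R x ^ 2 * ‖supercharge b M G α ψ x‖ ^ 2 ≤ 1 * ‖supercharge b M G α ψ x‖ ^ 2 :=
        mul_le_mul_of_nonneg_right h2 (by positivity)
      have h5 : 1 / 2 * ‖Ims714.grad (cut R) x‖ ^ 2 * ‖ψ x‖ ^ 2 ≤
          1 / 2 * (K / R) ^ 2 * ‖ψ x‖ ^ 2 := by gcongr
      have h6 : (1 + t) * (cut R x ^ 2 * ‖supercharge b M G α ψ x‖ ^ 2) ≤
          (1 + t) * (1 * ‖supercharge b M G α ψ x‖ ^ 2) :=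
        mul_le_mul_of_nonneg_left h4 (by positivity)
      have h7 : (1 + 1 / t) * (1 / 2 * ‖Ims714.grad (cut R) x‖ ^ 2 * ‖ψ x‖ ^ 2) ≤
          (1 + 1 / t) * (1 / 2 * (K / R) ^ 2 * ‖ψ x‖ ^ 2) :=
        mul_le_mul_of_nonneg_left h5 (by positivity)
      calc _ ≤ (1 + t) * (1 * ‖supercharge b M G α ψ x‖ ^ 2) +
            (1 + 1 / t) * (1 / 2 * (K / R) ^ 2 * ‖ψ x‖ ^ 2) := add_le_add h6 h7
        _ = _ := by ring
    calc _ ≤ ∫ x, ((1 + t) * ‖supercharge b M G α ψ x‖ ^ 2 +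
          (1 + 1 / t) * (1 / 2 * (K / R) ^ 2) * ‖ψ x‖ ^ 2) :=
          integral_mono i3 ((i1.const_mul _).add (i2.const_mul _)) hpt
      _ = _ := by
          rw [integral_add (i1.const_mul _) (i2.const_mul _), integral_const_mul,
            integral_const_mul, n2]
          ring
  unfold q
  have h1 : ∑ α, ∫ x, ‖supercharge b M G α (fun x => cut R x • ψ x) x‖ ^ 2 ≤
      ∑ α : Fin 16, ((1 + t) * (∫ x, ‖supercharge b M G α ψ x‖ ^ 2) +
        (1 + 1 / t) * (1 / 2 * (K / R) ^ 2 * n2 ψ)) := Finset.sum_le_sum fun α _ => hα α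
  rw [Finset.sum_add_distrib, ← Finset.mul_sum, Finset.sum_const, Finset.card_univ,
    Fintype.card_fin, nsmul_eq_mul] at h1
  push_cast at h1
  linarith

theorem q_nonneg (b : ColorBasis N) (M : FermionRep N F) (G : GammaNine) (ψ : Cfg N → F) :
    0 ≤ q b M G ψ := by
  unfold q
  have : ∀ α, 0 ≤ ∫ x, ‖supercharge b M G α ψ x‖ ^ 2 := fun α =>
    integral_nonneg fun x => by positivity
  have := Finset.sum_nonneg fun α (_ : α ∈ Finset.univ) => this α
  linarith

/-- **global coercivity on the sector** -/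
theorem coer {b : ColorBasis 2} {M : FermionRep 2 F} {G : GammaNine} {C : ℝ} (hC : 0 ≤ C)
    (hE : EnergyLB b M G C) {sP : F →ₗ[ℂ] F} {sM : Fin 3 → F →ₗ[ℂ] F} {c : ℝ}
    (hP : ∀ v, ‖sP v‖ ≤ c * ‖v‖) (hM : ∀ k v, ‖sM k v‖ ≤ c * ‖v‖)
    (hPs : ∀ v w, ⟪sP v, w⟫_ℂ = -⟪v, sP w⟫_ℂ) (hMs : ∀ k v w, ⟪sM k v, w⟫_ℂ = -⟪v, sM k w⟫_ℂ)
    {m : ℝ} (hm : 4 * c + 16 * (C + 1) ≤ |m|)
    {φ : ℕ → Cfg 2 → F} (hφ : ∀ n, Ts (φ n)) {f : Cfg 2 → F}
    (hf : MemLp f 2 volume) (hl : Tendsto (fun n => n2 (φ n - f)) atTop (𝓝 0))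
    (hq : QCauchy b M G φ) {Q : ℝ} (hQ : Tendsto (fun n => q b M G (φ n)) atTop (𝓝 Q))
    (hwP : Weak KP (shf sP m) f) (hwM : ∀ k, Weak (KM k) (sM k) f) :
    Integrable (fun x => ‖x‖ * ‖f x‖ ^ 2) volume ∧ ∫ x, ‖x‖ * ‖f x‖ ^ 2 ≤ Q := by
  obtain ⟨K, hK, hKle⟩ := exists_grad_cut (N := 2)
  have hf2 := n2_nonneg f
  -- bound on balls
  have hball : ∀ R : ℝ, 0 < R → ∀ t : ℝ, 0 < t → ∫ x in Metric.closedBall (0 : Cfg 2) R,
      ‖x‖ * ‖f x‖ ^ 2 ≤ (1 + t) * Q + (1 + 1 / t) * (1 / 2 * (K / R) ^ 2 * n2 f) := by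
    intro R hR t ht
    set ψ : ℕ → Cfg 2 → F := fun n x => cut R x • φ n x with hψ
    set h : Cfg 2 → F := fun x => cut R x • f x with hh
    have hψT : ∀ n, Ts (ψ n) := fun n => (hφ n).cut R
    have hcutle : ∀ (u : Cfg 2 → F) (x : Cfg 2), ‖cut R x • u x‖ ≤ ‖u x‖ := by
      intro u x
      rw [norm_smul, Real.norm_eq_abs, abs_of_nonneg (cut_nonneg R x)]
      have := mul_le_mul_of_nonneg_right (cut_le_one R x) (norm_nonneg (u x))
      linarith
    have hhL : MemLp h 2 volume := by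
      refine MemLp.of_le hf ((cut_contDiff R).continuous.aestronglyMeasurable.smul hf.1)
        (Eventually.of_forall fun x => hcutle f x)
    have hl' : Tendsto (fun n => n2 (ψ n - h)) atTop (𝓝 0) := by
      refine tendsto_of_tendsto_of_tendsto_of_le_of_le tendsto_const_nhds hl
        (fun n => n2_nonneg _) fun n => ?_
      refine integral_mono (by simpa using (memLp_two_iff_integrable_sq_norm
        ((hψT n).memLp.sub hhL).1).1 ((hψT n).memLp.sub hhL))
        (by simpa using (memLp_two_iff_integrable_sq_norm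
        ((hφ n).memLp.sub hf).1).1 ((hφ n).memLp.sub hf)) fun x => ?_
      simp only [hψ, hh, Pi.sub_apply, ← smul_sub]
      have := hcutle (fun x => φ n x - f x) x
      gcongr
    have hq' : QCauchy b M G ψ := by
      intro ε hε
      set δ : ℝ := ε / (2 * (2 + (K / R) ^ 2)) with hδ
      have hδ0 : 0 < δ := by positivity
      obtain ⟨n₁, h₁⟩ := hq δ hδ0
      obtain ⟨n₂, h₂⟩ := n2_cauchy hφ hf hl δ hδ0
      refine ⟨max n₁ n₂, fun n hn k hk => ?_⟩
      have hqn := h₁ n (le_trans (le_max_left _ _) hn) k (le_trans (le_max_left _ _) hk)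
      have hnn := h₂ n (le_trans (le_max_right _ _) hn) k (le_trans (le_max_right _ _) hk)
      have e : ψ n - ψ k = fun x => cut R x • (φ n - φ k) x := by
        funext x; simp only [hψ, Pi.sub_apply, smul_sub]
      rw [e]
      have h3 := q_cut_le b M G hK hKle hR one_pos ((hφ n).sub (hφ k))
      have h4 : (2 + (K / R) ^ 2) * δ = ε / 2 := by
        rw [hδ]; field_simp
      have h5 : (K / R) ^ 2 * n2 (φ n - φ k) ≤ (K / R) ^ 2 * δ :=
        mul_le_mul_of_nonneg_left hnn.le (by positivity)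
      nlinarith
    have hev := local_coer hC hE hP hM hPs hMs hm (by positivity : (0 : ℝ) ≤ 2 * R) hψT
      (fun n => suppIn_cut hR _) hhL hl' hq' (hwP.cut KP_transpose R)
      (fun k => (hwM k).cut (KM_transpose k) R)
    have hlim : Tendsto (fun n => (1 + t) * q b M G (φ n) +
        (1 + 1 / t) * (1 / 2 * (K / R) ^ 2 * n2 (φ n))) atTop
        (𝓝 ((1 + t) * Q + (1 + 1 / t) * (1 / 2 * (K / R) ^ 2 * n2 f))) :=
      (hQ.const_mul _).add (((tendsto_n2 (fun n => (hφ n).memLp) hf hl).const_mul _).const_mul _)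
    have h1 : ∫ x, wt (2 * R) x * ‖h x‖ ^ 2 ≤
        (1 + t) * Q + (1 + 1 / t) * (1 / 2 * (K / R) ^ 2 * n2 f) := by
      refine le_of_forall_pos_le_add fun ε hε => ?_
      have h2 : Tendsto (fun n => (1 + t) * q b M G (φ n) +
          (1 + 1 / t) * (1 / 2 * (K / R) ^ 2 * n2 (φ n)) + ε) atTop
          (𝓝 ((1 + t) * Q + (1 + 1 / t) * (1 / 2 * (K / R) ^ 2 * n2 f) + ε)) := hlim.add_const ε
      refine ge_of_tendsto h2 ?_
      filter_upwards [hev ε hε] with n hn
      have := q_cut_le b M G hK hKle hR ht (hφ n)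
      linarith
    refine le_trans ?_ h1
    have hi : Integrable (fun x => wt (2 * R) x * ‖h x‖ ^ 2) volume := by
      have := (memLp_two_iff_integrable_sq_norm hhL.1).1 hhL
      refine (this.const_mul (2 * R)).mono'
        ((continuous_wt _).aestronglyMeasurable.mul this.1) (Eventually.of_forall fun x => ?_)
      rw [Real.norm_eq_abs, abs_of_nonneg (mul_nonneg (wt_nonneg (by positivity) x) (by positivity))]
      exact mul_le_mul_of_nonneg_right (wt_le x) (by positivity)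
    calc ∫ x in Metric.closedBall (0 : Cfg 2) R, ‖x‖ * ‖f x‖ ^ 2
        = ∫ x in Metric.closedBall (0 : Cfg 2) R, wt (2 * R) x * ‖h x‖ ^ 2 := by
          refine setIntegral_congr_fun Metric.isClosed_closedBall.measurableSet fun x hx => ?_
          rw [mem_closedBall_zero_iff] at hx
          simp only [hh, cut_one hR hx, one_smul, wt]
          rw [min_eq_left (by linarith)]
      _ ≤ _ := setIntegral_le_integral hi (Eventually.of_forall fun x =>
          mul_nonneg (wt_nonneg (by positivity) x) (by positivity))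
  have hcov : AECover (volume : Measure (Cfg 2)) atTop
      (fun n : ℕ => Metric.closedBall (0 : Cfg 2) ((n : ℝ) + 1)) :=
    aecover_closedBall (tendsto_atTop_add_const_right _ _ tendsto_natCast_atTop_atTop)
  have hf2i := (memLp_two_iff_integrable_sq_norm hf.1).1 hf
  have hint : Integrable (fun x => ‖x‖ * ‖f x‖ ^ 2) volume := by
    refine hcov.integrable_of_integral_bounded_of_nonneg_ae
      (2 * Q + (2 * (1 / 2 * K ^ 2 * n2 f))) (fun n => ?_)
      (Eventually.of_forall fun x => by positivity) (Eventually.of_forall fun n => ?_)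
    · refine Integrable.mono' ((hf2i.const_mul ((n : ℝ) + 1)).integrableOn)
        ((continuous_norm.aestronglyMeasurable.mul hf2i.1).restrict) ?_
      refine (ae_restrict_iff' Metric.isClosed_closedBall.measurableSet).2
        (Eventually.of_forall fun x hx => ?_)
      rw [mem_closedBall_zero_iff] at hx
      rw [Real.norm_eq_abs, abs_of_nonneg (by positivity)]
      exact mul_le_mul_of_nonneg_right hx (by positivity)
    · have h1 := hball ((n : ℝ) + 1) (by positivity) 1 one_pos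
      have h2 : (K / ((n : ℝ) + 1)) ^ 2 ≤ K ^ 2 := by
        have : K / ((n : ℝ) + 1) ≤ K := div_le_self hK (by linarith [(Nat.cast_nonneg n : (0:ℝ) ≤ n)])
        gcongr
      have h3 : (1 / 2 * (K / ((n : ℝ) + 1)) ^ 2 * n2 f) ≤ 1 / 2 * K ^ 2 * n2 f := by gcongr
      linarith
  refine ⟨hint, ?_⟩
  have hlim := hcov.integral_tendsto_of_countably_generated hint
  have hQ0 : 0 ≤ Q := ge_of_tendsto hQ (Eventually.of_forall fun n => q_nonneg b M G _)
  -- first `R → ∞`, then `t → 0`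
  have hstep : ∀ t : ℝ, 0 < t → ∫ x, ‖x‖ * ‖f x‖ ^ 2 ≤ (1 + t) * Q := by
    intro t ht
    have h1 : Tendsto (fun n : ℕ => (1 + t) * Q +
        (1 + 1 / t) * (1 / 2 * (K / ((n : ℝ) + 1)) ^ 2 * n2 f)) atTop
        (𝓝 ((1 + t) * Q + (1 + 1 / t) * (1 / 2 * 0 ^ 2 * n2 f))) := by
      have h2 : Tendsto (fun n : ℕ => K / ((n : ℝ) + 1)) atTop (𝓝 0) :=
        tendsto_const_nhds.div_atTop
          (tendsto_atTop_add_const_right _ _ tendsto_natCast_atTop_atTop)
      exact ((((h2.pow 2).const_mul (1 / 2)).mul_const _).const_mul _).const_add _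
    have h3 := le_of_tendsto_of_tendsto hlim h1 (Eventually.of_forall fun n =>
      hball ((n : ℝ) + 1) (by positivity) t ht)
    simpa using h3
  refine le_of_forall_pos_le_add fun ε hε => ?_
  have h1 := hstep (ε / (Q + 1)) (by positivity)
  have h2 : ε / (Q + 1) * Q ≤ ε := by
    rw [div_mul_eq_mul_div, div_le_iff₀ (by positivity)]
    nlinarith
  linarith

end Crest.Agent.R330.SCoer186
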