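import Crest.Agent.R330.Graph_893
import Crest.Agent.R330.Rellich_893
import Crest.Agent.R330.SCoerB_186
import Crest.Agent.R330.Dict_416

/-!
# Row 330, S13.CPT (helper893): compactness of the form domain in the symmetry sector, two colours

`Qd : core b R → K` with `‖Qd φ‖² = q φ` (the closed charges). For `v` in the closed graph `Gph (ιC R) Qd`
whose `L²` part satisfies the weak sector equations, 186's coercivity gives `∫ |x| ‖f‖² ≤ ‖W v‖²`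
(`tail_bound`); with the local Rellich theorem every bounded sequence has a subsequence converging
in `L²` (`cpt`).
-/

set_option autoImplicit false
set_option linter.unusedSectionVars false

open MeasureTheory Filter Topology Set
open scoped ContDiff InnerProductSpace ENNReal

noncomputable section

namespace Crest.Agent.R330.Cpt893

open Crest.MathPhysics.MatrixQM
open Crest.Agent.R330.Defs478 (core)
open Crest.Agent.R330.Dict416 (L2 ιC cv_memLp norm_ιC_sub_sq norm_toLp_sq)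
open Crest.Agent.R330.Graph893
open Crest.Agent.R330.SCoer186
open Crest.Agent.R330.SDefs726 (KP KM)

section general

variable {N : ℕ} {F : Type*} [NormedAddCommGroup F] [InnerProductSpace ℂ F]
  [FiniteDimensional ℂ F] {b : ColorBasis N} {M : FermionRep N F} {R : GaugeAction b M}
  {G : GammaNine} {K : Type*} [NormedAddCommGroup K] [InnerProductSpace ℂ K]

theorem ts_core (φ : core b R) : Ts φ.1 := ⟨φ.2.1, φ.2.2.1⟩

theorem n2_sub_core (φ : core b R) (f : L2 N F) :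
    n2 (φ.1 - (f : Cfg N → F)) = ‖ιC R φ - f‖ ^ 2 := by
  have h := norm_ιC_sub_sq (R := R) φ (Lp.memLp f)
  rw [Lp.toLp_coeFn] at h
  rw [h]
  rfl

theorem n2_core (φ : core b R) : n2 φ.1 = ‖ιC R φ‖ ^ 2 := (norm_toLp_sq (cv_memLp φ.2)).symm

theorem exists_seq' {Qd : core b R →ₗ[ℂ] K} (v : Gph (ιC R) Qd) : ∃ φ : ℕ → core b R,
    Tendsto (fun n => gv (ιC R) Qd (φ n)) atTop (𝓝 v) := Graph893.exists_seq v

variable (Qd : core b R →ₗ[ℂ] K) (hQd : ∀ φ, ‖Qd φ‖ ^ 2 = q b M G φ.1)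

include hQd in
theorem q_tendsto {φ : ℕ → core b R} {v : Gph (ιC R) Qd}
    (h : Tendsto (fun n => gv (ιC R) Qd (φ n)) atTop (𝓝 v)) :
    Tendsto (fun n => q b M G (φ n).1) atTop (𝓝 (‖WG (ιC R) Qd v‖ ^ 2)) := by
  have h1 := ((tendsto_W h).norm.pow 2)
  simpa only [hQd] using h1

include hQd in
theorem q_cauchy {φ : ℕ → core b R} {v : Gph (ιC R) Qd}
    (h : Tendsto (fun n => gv (ιC R) Qd (φ n)) atTop (𝓝 v)) :
    QCauchy b M G fun n => (φ n).1 := by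
  intro ε hε
  have h1 := (tendsto_W h).cauchySeq
  rw [Metric.cauchySeq_iff] at h1
  obtain ⟨n₀, h2⟩ := h1 (Real.sqrt ε) (Real.sqrt_pos.2 hε)
  refine ⟨n₀, fun n hn k hk => ?_⟩
  have h3 := h2 n hn k hk
  have h4 : (φ n).1 - (φ k).1 = (φ n - φ k).1 := rfl
  rw [h4, ← hQd, map_sub, ← dist_eq_norm]
  calc dist (Qd (φ n)) (Qd (φ k)) ^ 2 < Real.sqrt ε ^ 2 := by gcongr
    _ = ε := Real.sq_sqrt hε.le

theorem n2_tendsto {φ : ℕ → core b R} {v : Gph (ιC R) Qd}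
    (h : Tendsto (fun n => gv (ιC R) Qd (φ n)) atTop (𝓝 v)) :
    Tendsto (fun n => n2 ((φ n).1 - (JG (ιC R) Qd v : Cfg N → F))) atTop (𝓝 0) := by
  have h1 := tendsto_iff_norm_sub_tendsto_zero.1 (tendsto_J h)
  have h2 := h1.pow 2
  simp only [ne_eq, OfNat.ofNat_ne_zero, not_false_eq_true, zero_pow] at h2
  simpa only [n2_sub_core] using h2

/-- the truncated sequence converges locally along the ultrafilter -/
theorem local_conv {C : ℝ} (hC : 0 ≤ C) (hE : EnergyLB b M G C) {φ : ℕ → Cfg N → F}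
    (hφ : ∀ n, Ts (φ n)) {B : ℝ} (h0 : ∀ n, n2 (φ n) ≤ B) (h1 : ∀ n, q b M G (φ n) ≤ B)
    {r : ℝ} (hr : 0 < r) :
    ∃ Ψ : Cfg N → F, MemLp Ψ 2 volume ∧
      Tendsto (fun n => ∫ x in {x : Cfg N | ‖x‖ ≤ r}, ‖φ n x - Ψ x‖ ^ 2)
        (hyperfilter ℕ : Filter ℕ) (𝓝 0) := by
  obtain ⟨A, hA, hAle⟩ := exists_grad_cut (N := N)
  have hB : 0 ≤ B := (n2_nonneg _).trans (h0 0)
  set ψ : ℕ → Cfg N → F := fun n x => cut r x • φ n x with hψ
  have hψT : ∀ n, Ts (ψ n) := fun n => (hφ n).cut r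
  have hn : ∀ n, n2 (ψ n) ≤ B := by
    intro n
    refine le_trans ?_ (h0 n)
    refine integral_mono (integrable_sq (hψT n)) (integrable_sq (hφ n)) fun x => ?_
    simp only [hψ, norm_smul, Real.norm_eq_abs, abs_of_nonneg (cut_nonneg r x)]
    have h2 : cut r x * ‖φ n x‖ ≤ 1 * ‖φ n x‖ :=
      mul_le_mul_of_nonneg_right (cut_le_one r x) (norm_nonneg _)
    rw [one_mul] at h2
    have h3 : 0 ≤ cut r x * ‖φ n x‖ := mul_nonneg (cut_nonneg r x) (norm_nonneg _)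
    gcongr
  have hq : ∀ n, q b M G (ψ n) ≤ 2 * B + (A / r) ^ 2 * B := by
    intro n
    have h2 := q_cut_le b M G hA hAle hr one_pos (hφ n)
    have h3 := h1 n
    have h4 := h0 n
    have h5 : (A / r) ^ 2 * n2 (φ n) ≤ (A / r) ^ 2 * B :=
      mul_le_mul_of_nonneg_left h4 (by positivity)
    have h6 : q b M G (ψ n) ≤ (1 + 1) * q b M G (φ n) +
        (1 + 1 / 1) * (1 / 2 * (A / r) ^ 2 * n2 (φ n)) := h2
    linarith
  set B' : ℝ := max B (2 * (2 * B + (A / r) ^ 2 * B) + 2 * C * (2 * r) * B) with hB'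
  have hen : ∀ n, en (ψ n) ≤ B' := by
    intro n
    have h2 := en_le hC hE (hψT n) (suppIn_cut hr (φ n))
    have h3 := hq n
    have h4 : 2 * C * (2 * r) * n2 (ψ n) ≤ 2 * C * (2 * r) * B :=
      mul_le_mul_of_nonneg_left (hn n) (by positivity)
    refine le_trans ?_ (le_max_right _ _)
    linarith
  obtain ⟨Ψ, hΨ, hloc⟩ := Rel893.rellich_hyper (φ := ψ) (fun n => (hψT n).1) (fun n => (hψT n).2)
    (C := B') (fun n => (hn n).trans (le_max_left _ _)) (fun n => by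
      refine le_trans (le_of_eq ?_) (hen n)
      unfold en
      refine integral_congr_ae (Eventually.of_forall fun x => ?_)
      simp only [Bar186.gsq, SJop186.gr, Fintype.sum_prod_type])
  refine ⟨Ψ, hΨ, (hloc r).congr fun n => ?_⟩
  have hms : MeasurableSet {x : Cfg N | ‖x‖ ≤ r} := measurableSet_le measurable_norm measurable_const
  refine setIntegral_congr_fun hms fun x hx => ?_
  simp only [hψ, cut_one hr hx, one_smul]

/-- splitting of the distance to a truncated function -/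
theorem n2_split {f φ Ψ : Cfg N → F} (hf : MemLp f 2 volume) (hφ : MemLp φ 2 volume)
    (hΨ : MemLp Ψ 2 volume) {r B : ℝ} (hr : 0 < r)
    (hi : Integrable (fun x => ‖x‖ * ‖f x‖ ^ 2) volume) (hT : ∫ x, ‖x‖ * ‖f x‖ ^ 2 ≤ B) :
    n2 (f - ({x : Cfg N | ‖x‖ ≤ r}.indicator Ψ)) ≤
      2 * n2 (φ - f) + 2 * (∫ x in {x : Cfg N | ‖x‖ ≤ r}, ‖φ x - Ψ x‖ ^ 2) + B / r := by
  have hms : MeasurableSet {x : Cfg N | ‖x‖ ≤ r} :=
    measurableSet_le measurable_norm measurable_const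
  have i1 := Rel893.integrable_norm_sq_of_memLp (hf.sub (hΨ.indicator hms))
  have i2 := Rel893.integrable_norm_sq_of_memLp (hφ.sub hf)
  have i3 : Integrable (fun x => ‖φ x - Ψ x‖ ^ 2) volume :=
    Rel893.integrable_norm_sq_of_memLp (hφ.sub hΨ)
  have i4 := Rel893.integrable_norm_sq_of_memLp hf
  unfold n2
  rw [← integral_add_compl hms i1]
  have e1 : ∫ x in {x : Cfg N | ‖x‖ ≤ r}, ‖(f - ({x : Cfg N | ‖x‖ ≤ r}.indicator Ψ)) x‖ ^ 2 ≤
      2 * (∫ x, ‖(φ - f) x‖ ^ 2) + 2 * (∫ x in {x : Cfg N | ‖x‖ ≤ r}, ‖φ x - Ψ x‖ ^ 2) := by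
    have h1 : ∫ x in {x : Cfg N | ‖x‖ ≤ r}, ‖(f - ({x : Cfg N | ‖x‖ ≤ r}.indicator Ψ)) x‖ ^ 2 ≤
        ∫ x in {x : Cfg N | ‖x‖ ≤ r}, (2 * ‖(φ - f) x‖ ^ 2 + 2 * ‖φ x - Ψ x‖ ^ 2) := by
      refine setIntegral_mono_on i1.integrableOn
        ((i2.const_mul 2).integrableOn.add (i3.const_mul 2).integrableOn) hms fun x hx => ?_
      simp only [Pi.sub_apply, indicator_of_mem hx]
      have h2 : f x - Ψ x = (φ x - Ψ x) - (φ x - f x) := by abel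
      rw [h2]
      have h3 := norm_sub_le (φ x - Ψ x) (φ x - f x)
      nlinarith [norm_nonneg ((φ x - Ψ x) - (φ x - f x)),
        sq_nonneg (‖φ x - Ψ x‖ - ‖φ x - f x‖)]
    refine h1.trans ?_
    rw [integral_add (i2.const_mul 2).integrableOn (i3.const_mul 2).integrableOn,
      integral_const_mul, integral_const_mul]
    have h4 := setIntegral_le_integral (s := {x : Cfg N | ‖x‖ ≤ r}) i2
      (Eventually.of_forall fun x => by positivity)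
    linarith
  have e2 : ∫ x in {x : Cfg N | ‖x‖ ≤ r}ᶜ, ‖(f - ({x : Cfg N | ‖x‖ ≤ r}.indicator Ψ)) x‖ ^ 2 ≤
      B / r := by
    rw [le_div_iff₀ hr, mul_comm, ← integral_const_mul]
    refine le_trans ?_ ((setIntegral_le_integral hi (s := {x : Cfg N | ‖x‖ ≤ r}ᶜ)
      (Eventually.of_forall fun x => by positivity)).trans hT)
    refine setIntegral_mono_on (i1.const_mul r).integrableOn hi.integrableOn hms.compl
      fun x hx => ?_
    have hx' : ¬ ‖x‖ ≤ r := hx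
    simp only [Pi.sub_apply, indicator_of_notMem (s := {x : Cfg N | ‖x‖ ≤ r}) hx', sub_zero]
    exact mul_le_mul_of_nonneg_right (not_le.1 hx').le (by positivity)
  linarith

/-- compactness from tails and approximation by bounded energy -/
theorem cpt_seq {C : ℝ} (hC : 0 ≤ C) (hE : EnergyLB b M G C) (f : ℕ → L2 N F)
    {φ : ℕ → Cfg N → F} (hφ : ∀ n, Ts (φ n)) {B : ℝ} (h0 : ∀ n, n2 (φ n) ≤ B)
    (h1 : ∀ n, q b M G (φ n) ≤ B)
    (happ : Tendsto (fun n => n2 (φ n - (f n : Cfg N → F))) atTop (𝓝 0))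
    (hi : ∀ n, Integrable (fun x => ‖x‖ * ‖(f n : Cfg N → F) x‖ ^ 2) volume)
    {T : ℝ} (hT : ∀ n, ∫ x, ‖x‖ * ‖(f n : Cfg N → F) x‖ ^ 2 ≤ T) :
    ∃ k : ℕ → ℕ, StrictMono k ∧ CauchySeq (fun n => f (k n)) := by
  have hT0 : 0 ≤ T := (integral_nonneg fun x => by positivity).trans (hT 0)
  -- Cauchy along the ultrafilter
  have hle : (hyperfilter ℕ : Filter ℕ) ≤ atTop := Nat.hyperfilter_le_atTop
  have hcau : Cauchy (Filter.map f (hyperfilter ℕ : Filter ℕ)) := by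
    rw [Metric.cauchy_iff]
    refine ⟨inferInstance, fun ε hε => ?_⟩
    -- radius
    set δ : ℝ := (ε / 2) ^ 2 with hδ
    have hδ0 : 0 < δ := by positivity
    set r : ℝ := 4 * (T + 1) / δ with hr
    have hr0 : 0 < r := by positivity
    have hTr : T / r ≤ δ / 4 := by
      rw [div_le_iff₀ hr0, hr]
      have : δ / 4 * (4 * (T + 1) / δ) = T + 1 := by field_simp
      linarith
    obtain ⟨Ψ, hΨ, hloc⟩ := local_conv hC hE hφ h0 h1 hr0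
    have hms : MeasurableSet {x : Cfg N | ‖x‖ ≤ r} :=
      measurableSet_le measurable_norm measurable_const
    have hΨi := hΨ.indicator hms
    set z : L2 N F := hΨi.toLp _ with hz
    have hev : ∀ᶠ n in (hyperfilter ℕ : Filter ℕ), ‖f n - z‖ < ε / 2 := by
      have e1 := (hloc.eventually (gt_mem_nhds (by positivity : 0 < δ / 8)))
      have e2 := ((happ.mono_left hle).eventually (gt_mem_nhds (by positivity : 0 < δ / 8)))
      filter_upwards [e1, e2] with n h2 h3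
      have h4 := n2_split (Lp.memLp (f n)) (hφ n).memLp hΨ hr0 (hi n) (hT n)
      have h5 : ‖f n - z‖ ^ 2 =
          n2 ((f n : Cfg N → F) - ({x : Cfg N | ‖x‖ ≤ r}.indicator Ψ)) := by
        unfold n2
        rw [← norm_toLp_sq ((Lp.memLp (f n)).sub hΨi), MemLp.toLp_sub (Lp.memLp (f n)) hΨi,
          Lp.toLp_coeFn]
      have h6 : ‖f n - z‖ ^ 2 < (ε / 2) ^ 2 := by
        rw [h5, ← hδ]
        linarith
      exact lt_of_pow_lt_pow_left₀ 2 (by positivity) h6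
    refine ⟨Metric.ball z (ε / 2), ?_, fun x hx y hy => ?_⟩
    · rw [Filter.mem_map]
      filter_upwards [hev] with n hn
      rw [mem_preimage, mem_ball_iff_norm]
      exact hn
    · rw [Metric.mem_ball] at hx hy
      calc dist x y ≤ dist x z + dist y z := dist_triangle_right _ _ _
        _ < ε / 2 + ε / 2 := add_lt_add hx hy
        _ = ε := by ring
  obtain ⟨h, hh⟩ := CompleteSpace.complete hcau
  have hcl : MapClusterPt h atTop f := by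
    have h2 : Tendsto f (hyperfilter ℕ : Filter ℕ) (𝓝 h) := hh
    exact (h2.mapClusterPt).mono hle
  obtain ⟨k, hk, hlim⟩ := hcl.tendsto_subseq
  exact ⟨k, hk, hlim.cauchySeq⟩

theorem exists_approx {Qd : core b R →ₗ[ℂ] K} (v : Gph (ιC R) Qd) {ε : ℝ} (hε : 0 < ε) :
    ∃ φ : core b R, ‖gv (ιC R) Qd φ - v‖ ≤ ε := by
  have hex0 := exists_seq' v
  cases hex0 with | intro φ hφ => ?_
  have h1 := tendsto_iff_norm_sub_tendsto_zero.1 hφ
  have h2 := (h1.eventually (gt_mem_nhds hε)).exists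
  cases h2 with | intro j hj => ?_
  exact ⟨φ j, hj.le⟩

/-- **compactness from tails** (all `N`) -/
theorem cpt_of_tail {Qd : core b R →ₗ[ℂ] K} (hQd : ∀ φ, ‖Qd φ‖ ^ 2 = q b M G φ.1)
    {C : ℝ} (hC : 0 ≤ C) (hE : EnergyLB b M G C) (v : ℕ → Gph (ιC R) Qd) {B : ℝ}
    (hB : ∀ n, ‖v n‖ ≤ B)
    (hi : ∀ n, Integrable (fun x => ‖x‖ * ‖(JG (ιC R) Qd (v n) : Cfg N → F) x‖ ^ 2) volume)
    {T : ℝ} (hT : ∀ n, ∫ x, ‖x‖ * ‖(JG (ιC R) Qd (v n) : Cfg N → F) x‖ ^ 2 ≤ T) :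
    ∃ k : ℕ → ℕ, StrictMono k ∧ CauchySeq (fun n => JG (ιC R) Qd (v (k n))) := by
  have hex : ∀ n : ℕ, ∃ φ : core b R, ‖gv (ιC R) Qd φ - v n‖ ≤ 1 / ((n : ℝ) + 1) := fun n =>
    exists_approx (v n) (by positivity)
  choose φ hφ using hex
  have hle1 : ∀ n : ℕ, 1 / ((n : ℝ) + 1) ≤ 1 := by
    intro n
    rw [div_le_one (by positivity)]
    linarith [(Nat.cast_nonneg n : (0 : ℝ) ≤ n)]
  have hnorm : ∀ n, ‖gv (ιC R) Qd (φ n)‖ ≤ B + 1 := by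
    intro n
    have h1 := norm_sub_norm_le (gv (ιC R) Qd (φ n)) (v n)
    linarith [hφ n, hB n, hle1 n]
  have hsq : ∀ n, ‖ιC R (φ n)‖ ^ 2 + ‖Qd (φ n)‖ ^ 2 ≤ (B + 1) ^ 2 := by
    intro n
    have h1 : ‖gv (ιC R) Qd (φ n)‖ ^ 2 = ‖ιC R (φ n)‖ ^ 2 + ‖Qd (φ n)‖ ^ 2 := norm_gv_sq _
    rw [← h1]
    exact pow_le_pow_left₀ (norm_nonneg _) (hnorm n) 2
  have h0 : ∀ n, n2 (φ n).1 ≤ (B + 1) ^ 2 := by
    intro n
    rw [n2_core]
    linarith [hsq n, sq_nonneg ‖Qd (φ n)‖]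
  have h1 : ∀ n, q b M G (φ n).1 ≤ (B + 1) ^ 2 := by
    intro n
    rw [← hQd]
    linarith [hsq n, sq_nonneg ‖ιC R (φ n)‖]
  have happ : Tendsto (fun n => n2 ((φ n).1 - (JG (ιC R) Qd (v n) : Cfg N → F))) atTop (𝓝 0) := by
    have h2 : Tendsto (fun n : ℕ => (1 / ((n : ℝ) + 1)) ^ 2) atTop (𝓝 0) := by
      simpa using (tendsto_one_div_add_atTop_nhds_zero_nat (𝕜 := ℝ)).pow 2
    refine tendsto_of_tendsto_of_tendsto_of_le_of_le tendsto_const_nhds h2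
      (fun n => n2_nonneg _) fun n => ?_
    simp only []
    rw [n2_sub_core]
    have h3 : ‖ιC R (φ n) - JG (ιC R) Qd (v n)‖ ≤ 1 / ((n : ℝ) + 1) := by
      refine le_trans ?_ (hφ n)
      have h4 : ‖gv (ιC R) Qd (φ n) - v n‖ ^ 2 = ‖ιC R (φ n) - JG (ιC R) Qd (v n)‖ ^ 2 +
          ‖WG (ιC R) Qd (gv (ιC R) Qd (φ n) - v n)‖ ^ 2 := norm_sq _
      refine le_of_sq_le_sq ?_ (norm_nonneg _)
      nlinarith [sq_nonneg ‖WG (ιC R) Qd (gv (ιC R) Qd (φ n) - v n)‖]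
    exact pow_le_pow_left₀ (norm_nonneg _) h3 2
  exact cpt_seq hC hE (fun n => JG (ιC R) Qd (v n)) (fun n => ts_core (φ n)) h0 h1 happ hi hT

/-- the literal charges `¼ Q_α` -/
theorem norm_quarter_sq (φ : core b R) :
    ‖((((1 / 4 : ℝ) : ℂ)) • Dict416.QC R G 1 0) φ‖ ^ 2 = q b M G φ.1 := by
  rw [LinearMap.smul_apply, norm_smul, mul_pow, Dict416.norm_QC_sq, Complex.norm_real,
    Real.norm_eq_abs, sq_abs]
  unfold q Defs478.qf
  simp only [Defs478.dcharge_one_zero]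
  ring

theorem norm_quarter_sq' (φ : core b R) :
    ‖((1 / 4 : ℂ) • Dict416.QC R G 1 0) φ‖ ^ 2 = q b M G φ.1 := by
  have h : (1 / 4 : ℂ) = ((1 / 4 : ℝ) : ℂ) := by push_cast; ring
  rw [h]
  exact norm_quarter_sq φ

end general

section two

variable {F : Type*} [NormedAddCommGroup F] [InnerProductSpace ℂ F]
  [FiniteDimensional ℂ F] {b : ColorBasis 2} {M : FermionRep 2 F} {R : GaugeAction b M}
  {G : GammaNine} {K : Type*} [NormedAddCommGroup K] [InnerProductSpace ℂ K]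

/-- **tails of the form domain in the sector** (186's coercivity) -/
theorem tail_bound {Qd : core b R →ₗ[ℂ] K} (hQd : ∀ φ, ‖Qd φ‖ ^ 2 = q b M G φ.1)
    {C : ℝ} (hC : 0 ≤ C) (hE : EnergyLB b M G C) {sP : F →ₗ[ℂ] F} {sM : Fin 3 → F →ₗ[ℂ] F} {c : ℝ}
    (hP : ∀ v, ‖sP v‖ ≤ c * ‖v‖) (hM : ∀ k v, ‖sM k v‖ ≤ c * ‖v‖)
    (hPs : ∀ v w, ⟪sP v, w⟫_ℂ = -⟪v, sP w⟫_ℂ) (hMs : ∀ k v w, ⟪sM k v, w⟫_ℂ = -⟪v, sM k w⟫_ℂ)
    {m : ℝ} (hm : 4 * c + 16 * (C + 1) ≤ |m|) (v : Gph (ιC R) Qd)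
    (hwP : Weak KP (shf sP m) (JG (ιC R) Qd v : Cfg 2 → F))
    (hwM : ∀ k, Weak (KM k) (sM k) (JG (ιC R) Qd v : Cfg 2 → F)) :
    Integrable (fun x => ‖x‖ * ‖(JG (ιC R) Qd v : Cfg 2 → F) x‖ ^ 2) volume ∧
      ∫ x, ‖x‖ * ‖(JG (ιC R) Qd v : Cfg 2 → F) x‖ ^ 2 ≤ ‖WG (ιC R) Qd v‖ ^ 2 := by
  have hex0 := exists_seq' v
  cases hex0 with | intro φ hφ => ?_
  exact coer hC hE hP hM hPs hMs hm (fun n => ts_core (φ n)) (Lp.memLp _) (n2_tendsto Qd hφ)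
    (q_cauchy Qd hQd hφ) (q_tendsto Qd hQd hφ) hwP hwM

/-- **compactness of the form domain in the sector** -/
theorem cpt {Qd : core b R →ₗ[ℂ] K} (hQd : ∀ φ, ‖Qd φ‖ ^ 2 = q b M G φ.1)
    {C : ℝ} (hC : 0 ≤ C) (hE : EnergyLB b M G C) {sP : F →ₗ[ℂ] F} {sM : Fin 3 → F →ₗ[ℂ] F} {c : ℝ}
    (hP : ∀ v, ‖sP v‖ ≤ c * ‖v‖) (hM : ∀ k v, ‖sM k v‖ ≤ c * ‖v‖)
    (hPs : ∀ v w, ⟪sP v, w⟫_ℂ = -⟪v, sP w⟫_ℂ) (hMs : ∀ k v w, ⟪sM k v, w⟫_ℂ = -⟪v, sM k w⟫_ℂ)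
    {m : ℝ} (hm : 4 * c + 16 * (C + 1) ≤ |m|) (v : ℕ → Gph (ιC R) Qd)
    (hwP : ∀ n, Weak KP (shf sP m) (JG (ιC R) Qd (v n) : Cfg 2 → F))
    (hwM : ∀ n k, Weak (KM k) (sM k) (JG (ιC R) Qd (v n) : Cfg 2 → F)) {B : ℝ}
    (hB : ∀ n, ‖v n‖ ≤ B) :
    ∃ k : ℕ → ℕ, StrictMono k ∧ CauchySeq (fun n => JG (ιC R) Qd (v (k n))) := by
  refine cpt_of_tail hQd hC hE v hB (T := B ^ 2) (fun n => (tail_bound hQd hC hE hP hM hPs hMs hm
    (v n) (hwP n) (hwM n)).1) fun n => ((tail_bound hQd hC hE hP hM hPs hMs hm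
    (v n) (hwP n) (hwM n)).2).trans ?_
  have h1 := norm_sq (v n)
  have h2 : ‖v n‖ ^ 2 ≤ B ^ 2 := by
    have := hB n
    gcongr
  nlinarith [sq_nonneg ‖JG (ιC R) Qd (v n)‖]

/-- `hcpt` of `Graph893.exists_eigen_core` from the weak sector equations -/
theorem hcpt {Qd : core b R →ₗ[ℂ] K} (hQd : ∀ φ, ‖Qd φ‖ ^ 2 = q b M G φ.1)
    {C : ℝ} (hC : 0 ≤ C) (hE : EnergyLB b M G C) {sP : F →ₗ[ℂ] F} {sM : Fin 3 → F →ₗ[ℂ] F} {c : ℝ}
    (hP : ∀ v, ‖sP v‖ ≤ c * ‖v‖) (hM : ∀ k v, ‖sM k v‖ ≤ c * ‖v‖)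
    (hPs : ∀ v w, ⟪sP v, w⟫_ℂ = -⟪v, sP w⟫_ℂ) (hMs : ∀ k v w, ⟪sM k v, w⟫_ℂ = -⟪v, sM k w⟫_ℂ)
    {m : ℝ} (hm : 4 * c + 16 * (C + 1) ≤ |m|) {κ : Type*} {u : κ → L2 2 F ≃ₗᵢ[ℂ] L2 2 F}
    {w : κ → ℂ}
    (hW : ∀ f : L2 2 F, (∀ i, u i f = w i • f) →
      Weak KP (shf sP m) (f : Cfg 2 → F) ∧ ∀ k, Weak (KM k) (sM k) (f : Cfg 2 → F))
    (v : ℕ → Gph (ιC R) Qd) (hv : ∀ n, v n ∈ Sct (ιC R) Qd u w) (B : ℝ)
    (hB : ∀ n, ‖v n‖ ≤ B) :
    ∃ k : ℕ → ℕ, StrictMono k ∧ CauchySeq (fun n => JG (ιC R) Qd (v (k n))) :=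
  cpt hQd hC hE hP hM hPs hMs hm v (fun n => (hW _ (hv n)).1) (fun n => (hW _ (hv n)).2) hB

end two

end Crest.Agent.R330.Cpt893
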