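import Mathlib

/-!
# Row 330: abstract discrete spectrum (helper893)

`FT J W` ("form triple"): a Hilbert space `V` (the form domain) with two continuous linear maps
`J : V → H` (the embedding) and `W : V → K` (the square root of the form), `‖v‖² = ‖J v‖² + ‖W v‖²`,
`J` injective (closability) and every bounded sequence of `V` has a subsequence along which `J` is Cauchy
(compactness).

`FT.exists_minimizer` : the bottom of the form on a closed subspace is attained.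
`FT.exists_eigen` : if `V` is infinite dimensional there is an orthonormal sequence of eigenvectors
`e n` with nondecreasing eigenvalues `E n → ∞`, complete, with min-max lower bounds.
-/

set_option autoImplicit false

open Filter Topology
open scoped InnerProductSpace

noncomputable section
namespace Crest.Agent.R330.Spec893

variable {V H K : Type*} [NormedAddCommGroup V] [InnerProductSpace ℂ V]
  [NormedAddCommGroup H] [InnerProductSpace ℂ H] [NormedAddCommGroup K] [InnerProductSpace ℂ K]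

/-- form triple with compact embedding -/
structure FT (J : V →L[ℂ] H) (W : V →L[ℂ] K) : Prop where
  nsq : ∀ v, ‖v‖ ^ 2 = ‖J v‖ ^ 2 + ‖W v‖ ^ 2
  inj : ∀ v, J v = 0 → v = 0
  cpt : ∀ v : ℕ → V, ∀ C : ℝ, (∀ n, ‖v n‖ ≤ C) →
    ∃ k : ℕ → ℕ, StrictMono k ∧ CauchySeq (fun n => J (v (k n)))

theorem norm_add_smul_sq {G : Type*} [NormedAddCommGroup G] [InnerProductSpace ℂ G] (x y : G)
    (c : ℂ) : ‖x + c • y‖ ^ 2 = ‖x‖ ^ 2 + 2 * (c * ⟪x, y⟫_ℂ).re + ‖c‖ ^ 2 * ‖y‖ ^ 2 := by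
  have h := norm_add_sq (𝕜 := ℂ) x (c • y)
  rw [h, inner_smul_right, norm_smul, mul_pow]
  rfl

/-- Euler-Lagrange equation of a minimizer -/
theorem euler {J : V →L[ℂ] H} {W : V →L[ℂ] K} {S : Submodule ℂ V} {e : V} {E : ℝ} (he : e ∈ S)
    (h0 : ‖W e‖ ^ 2 = E * ‖J e‖ ^ 2) (hmin : ∀ v ∈ S, E * ‖J v‖ ^ 2 ≤ ‖W v‖ ^ 2) {v : V}
    (hv : v ∈ S) : ⟪W e, W v⟫_ℂ = (E : ℂ) * ⟪J e, J v⟫_ℂ := by
  set β : ℂ := ⟪W e, W v⟫_ℂ - (E : ℂ) * ⟪J e, J v⟫_ℂ with hβ
  have key : ∀ t : ℝ, 0 ≤ -2 * t * ‖β‖ ^ 2 + t ^ 2 * ‖β‖ ^ 2 * (‖W v‖ ^ 2 - E * ‖J v‖ ^ 2) := by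
    intro t
    set c : ℂ := -(t : ℂ) * (starRingEnd ℂ) β with hc
    have h1 := hmin (e + c • v) (S.add_mem he (S.smul_mem c hv))
    rw [map_add, map_smul, map_add, map_smul, norm_add_smul_sq, norm_add_smul_sq] at h1
    have h2 : (c * ⟪W e, W v⟫_ℂ).re - E * (c * ⟪J e, J v⟫_ℂ).re = -t * ‖β‖ ^ 2 := by
      have h3 : (c * ⟪W e, W v⟫_ℂ).re - E * (c * ⟪J e, J v⟫_ℂ).re = (c * β).re := by
        rw [hβ, mul_sub, Complex.sub_re]
        congr 1
        have : c * ((E : ℂ) * ⟪J e, J v⟫_ℂ) = (E : ℂ) * (c * ⟪J e, J v⟫_ℂ) := by ring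
        rw [this, Complex.re_ofReal_mul]
      rw [h3, hc]
      have h4 : -(t : ℂ) * (starRingEnd ℂ) β * β = ((-t * ‖β‖ ^ 2 : ℝ) : ℂ) := by
        rw [mul_assoc, Complex.conj_mul']
        push_cast
        ring
      rw [h4, Complex.ofReal_re]
    have h5 : ‖c‖ ^ 2 = t ^ 2 * ‖β‖ ^ 2 := by
      rw [hc, norm_mul, norm_neg, RCLike.norm_conj, mul_pow, Complex.norm_real, Real.norm_eq_abs,
        sq_abs]
    rw [h5] at h1
    nlinarith [h1, h2, h0]
  have hb : ‖β‖ ^ 2 = 0 := by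
    set B : ℝ := ‖W v‖ ^ 2 - E * ‖J v‖ ^ 2 with hB
    have hB0 : 0 ≤ B := sub_nonneg.2 (hmin v hv)
    by_contra hne
    have hpos : 0 < ‖β‖ ^ 2 := lt_of_le_of_ne (by positivity) (Ne.symm hne)
    have h1 := key (1 / (B + 1))
    have h2 : (1 / (B + 1)) ^ 2 * ‖β‖ ^ 2 * B ≤ (1 / (B + 1)) * ‖β‖ ^ 2 := by
      have h3 : (1 / (B + 1)) * B ≤ 1 := by
        rw [one_div, inv_mul_le_iff₀ (by positivity)]
        linarith
      have h4 : 0 ≤ (1 / (B + 1)) * ‖β‖ ^ 2 := by positivity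
      nlinarith
    have h3 : 0 < (1 / (B + 1)) * ‖β‖ ^ 2 := by positivity
    linarith
  have hb' : β = 0 := by
    have := pow_eq_zero_iff (two_ne_zero) |>.1 hb
    exact norm_eq_zero.1 this
  exact sub_eq_zero.1 hb'

namespace FT

variable {J : V →L[ℂ] H} {W : V →L[ℂ] K}

theorem norm_J_le (h : FT J W) (v : V) : ‖J v‖ ≤ ‖v‖ := by
  have h1 := h.nsq v
  have h2 : ‖J v‖ ^ 2 ≤ ‖v‖ ^ 2 := by nlinarith [sq_nonneg ‖W v‖]
  exact le_of_sq_le_sq h2 (norm_nonneg _)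

theorem norm_W_le (h : FT J W) (v : V) : ‖W v‖ ≤ ‖v‖ := by
  have h1 := h.nsq v
  have h2 : ‖W v‖ ^ 2 ≤ ‖v‖ ^ 2 := by nlinarith [sq_nonneg ‖J v‖]
  exact le_of_sq_le_sq h2 (norm_nonneg _)

theorem norm_J_pos (h : FT J W) {v : V} (hv : v ≠ 0) : 0 < ‖J v‖ :=
  norm_pos_iff.2 fun h0 => hv (h.inj v h0)

/-- the bottom of the form on a closed subspace is attained -/
theorem exists_minimizer [CompleteSpace V] (h : FT J W) (S : Submodule ℂ V)
    (hS : IsClosed (S : Set V)) (hne : ∃ v ∈ S, v ≠ 0) :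
    ∃ e ∈ S, ‖J e‖ = 1 ∧ ∀ v ∈ S, ‖W e‖ ^ 2 * ‖J v‖ ^ 2 ≤ ‖W v‖ ^ 2 := by
  classical
  -- the set of values of the form on the unit sphere
  set A : Set ℝ := {r | ∃ v ∈ S, ‖J v‖ = 1 ∧ ‖W v‖ ^ 2 = r} with hA
  have hnorm : ∀ v : V, v ≠ 0 → ‖J (((‖J v‖⁻¹ : ℝ) : ℂ) • v)‖ = 1 := by
    intro v hv
    have h1 := h.norm_J_pos hv
    rw [map_smul, norm_smul, Complex.norm_real, Real.norm_eq_abs, abs_of_pos (by positivity)]
    exact inv_mul_cancel₀ h1.ne'
  have hAne : A.Nonempty := by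
    obtain ⟨v, hv, hv0⟩ := hne
    exact ⟨_, _, S.smul_mem _ hv, hnorm v hv0, rfl⟩
  have hAbdd : BddBelow A := ⟨0, by rintro r ⟨v, -, -, rfl⟩; positivity⟩
  set m : ℝ := sInf A with hm
  have hm0 : 0 ≤ m := le_csInf hAne (by rintro r ⟨v, -, -, rfl⟩; positivity)
  have hlow : ∀ v ∈ S, m * ‖J v‖ ^ 2 ≤ ‖W v‖ ^ 2 := by
    intro v hv
    by_cases hv0 : v = 0
    · subst hv0; simp
    have h1 := h.norm_J_pos hv0
    have h2 : m ≤ ‖W (((‖J v‖⁻¹ : ℝ) : ℂ) • v)‖ ^ 2 :=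
      csInf_le hAbdd ⟨_, S.smul_mem _ hv, hnorm v hv0, rfl⟩
    rw [map_smul, norm_smul, Complex.norm_real, Real.norm_eq_abs, abs_of_pos (by positivity),
      mul_pow, inv_pow] at h2
    have h3 : 0 < ‖J v‖ ^ 2 := by positivity
    calc m * ‖J v‖ ^ 2 ≤ ((‖J v‖ ^ 2)⁻¹ * ‖W v‖ ^ 2) * ‖J v‖ ^ 2 := by gcongr
      _ = ‖W v‖ ^ 2 := by field_simp
  -- minimizing sequence
  have hseq : ∀ n : ℕ, ∃ v ∈ S, ‖J v‖ = 1 ∧ ‖W v‖ ^ 2 < m + 1 / ((n : ℝ) + 1) := by
    intro n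
    obtain ⟨r, ⟨v, hv, hv1, hv2⟩, hr⟩ := exists_lt_of_csInf_lt hAne
      (show sInf A < m + 1 / ((n : ℝ) + 1) from lt_add_of_pos_right _ (by positivity))
    exact ⟨v, hv, hv1, by rw [hv2]; exact hr⟩
  choose v hvS hvJ hvW using hseq
  have hvbd : ∀ n, ‖v n‖ ≤ Real.sqrt (m + 2) := by
    intro n
    refine Real.le_sqrt_of_sq_le ?_
    rw [h.nsq, hvJ]
    have h1 := hvW n
    have h2 : 1 / ((n : ℝ) + 1) ≤ 1 := by
      rw [div_le_one (by positivity)]
      linarith [(Nat.cast_nonneg n : (0 : ℝ) ≤ n)]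
    linarith
  obtain ⟨k, hk, hkc⟩ := h.cpt v _ hvbd
  have hkn : ∀ n : ℕ, (n : ℝ) ≤ (k n : ℝ) := fun n => by exact_mod_cast hk.le_apply
  -- the subsequence is Cauchy in V
  have hcs : CauchySeq fun n => v (k n) := by
    rw [Metric.cauchySeq_iff'] at hkc ⊢
    intro ε hε
    -- choose delta
    obtain ⟨δ, hδ, hδε⟩ : ∃ δ : ℝ, 0 < δ ∧ (1 + 2 * m) * δ ^ 2 + 8 * δ < ε ^ 2 := by
      refine ⟨min 1 (ε ^ 2 / (2 * (9 + 2 * m))), by positivity, ?_⟩
      set δ := min 1 (ε ^ 2 / (2 * (9 + 2 * m))) with hδ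
      have h0 : 0 < δ := by positivity
      have h1 : δ ≤ 1 := min_le_left _ _
      have h2 : δ ≤ ε ^ 2 / (2 * (9 + 2 * m)) := min_le_right _ _
      have h3 : δ ^ 2 ≤ δ := by nlinarith
      have h4 : (9 + 2 * m) * δ ≤ ε ^ 2 / 2 := by
        calc (9 + 2 * m) * δ ≤ (9 + 2 * m) * (ε ^ 2 / (2 * (9 + 2 * m))) := by gcongr
          _ = ε ^ 2 / 2 := by field_simp
      have h5 : 0 < ε ^ 2 := by positivity
      nlinarith
    obtain ⟨N1, hN1⟩ := hkc (δ / 2) (by positivity)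
    obtain ⟨N2, hN2⟩ := exists_nat_gt (1 / δ)
    refine ⟨max N1 N2, fun n hn => ?_⟩
    set n0 := max N1 N2 with hn0
    have ha : ∀ p, n0 ≤ p → ‖W (v (k p))‖ ^ 2 < m + δ := by
      intro p hp
      refine (hvW _).trans_le ?_
      have h1 : (N2 : ℝ) ≤ k p := (by exact_mod_cast (le_max_right N1 N2).trans hp : (N2 : ℝ) ≤ p).trans (hkn p)
      have h2 : 1 / ((k p : ℝ) + 1) ≤ δ := by
        rw [div_le_iff₀ (by positivity)]
        have h3 : 1 / δ < (k p : ℝ) := hN2.trans_le h1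
        rw [div_lt_iff₀ hδ] at h3
        nlinarith
      linarith
    have hJ : ‖J (v (k n)) - J (v (k n0))‖ < δ := by
      have h1 := hN1 n ((le_max_left _ _).trans hn)
      have h2 := hN1 n0 (le_max_left _ _)
      rw [dist_eq_norm] at h1 h2
      calc ‖J (v (k n)) - J (v (k n0))‖ = ‖(J (v (k n)) - J (v (k N1))) - (J (v (k n0)) - J (v (k N1)))‖ := by
            congr 1; abel
        _ ≤ _ := norm_sub_le _ _
        _ < δ := by linarith
    set a := v (k n) with haa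
    set b := v (k n0) with hbb
    have haS : a ∈ S := hvS _
    have hbS : b ∈ S := hvS _
    have haJ : ‖J a‖ = 1 := hvJ _
    have hbJ : ‖J b‖ = 1 := hvJ _
    have hWa := ha n hn
    have hWb := ha n0 le_rfl
    have hlow2 := hlow (a + b) (S.add_mem haS hbS)
    have pW := parallelogram_law_with_norm ℂ (W a) (W b)
    have pJ := parallelogram_law_with_norm ℂ (J a) (J b)
    rw [← map_add, ← map_sub] at pW pJ
    have h1 := h.nsq (a - b)
    have hJ2 : ‖J (a - b)‖ ^ 2 ≤ δ ^ 2 := by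
      rw [map_sub]
      exact pow_le_pow_left₀ (norm_nonneg _) hJ.le 2
    have hm' : m * ‖J (a - b)‖ ^ 2 ≤ m * δ ^ 2 := mul_le_mul_of_nonneg_left hJ2 hm0
    rw [haJ, hbJ] at pJ
    rw [dist_eq_norm]
    have h2 : ‖a - b‖ ^ 2 < ε ^ 2 := by
      rw [h1]
      have e1 : ‖J (a + b)‖ ^ 2 = 4 - ‖J (a - b)‖ ^ 2 := by nlinarith [pJ]
      have e2 : ‖W (a - b)‖ ^ 2 = 2 * (‖W a‖ ^ 2 + ‖W b‖ ^ 2) - ‖W (a + b)‖ ^ 2 := by nlinarith [pW]
      rw [e1] at hlow2
      rw [e2]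
      nlinarith
    exact lt_of_pow_lt_pow_left₀ 2 hε.le h2
  obtain ⟨e, he⟩ := cauchySeq_tendsto_of_complete hcs
  have heS : e ∈ S := hS.mem_of_tendsto he (Eventually.of_forall fun n => hvS _)
  have heJ : ‖J e‖ = 1 := by
    have h1 : Tendsto (fun n => ‖J (v (k n))‖) atTop (𝓝 ‖J e‖) :=
      ((J.continuous.tendsto e).comp he).norm
    simp only [hvJ] at h1
    exact tendsto_nhds_unique h1 tendsto_const_nhds |>.symm ▸ rfl
  have heW : ‖W e‖ ^ 2 ≤ m := by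
    have h1 : Tendsto (fun n => ‖W (v (k n))‖ ^ 2) atTop (𝓝 (‖W e‖ ^ 2)) :=
      (((W.continuous.tendsto e).comp he).norm).pow 2
    have h2 : Tendsto (fun n => m + 1 / ((k n : ℝ) + 1)) atTop (𝓝 (m + 0)) := by
      refine tendsto_const_nhds.add ?_
      exact tendsto_one_div_add_atTop_nhds_zero_nat.comp hk.tendsto_atTop
    rw [add_zero] at h2
    exact le_of_tendsto_of_tendsto h1 h2 (Eventually.of_forall fun n => (hvW _).le)
  refine ⟨e, heS, heJ, fun w hw => ?_⟩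
  have h1 : ‖W e‖ ^ 2 * ‖J w‖ ^ 2 ≤ m * ‖J w‖ ^ 2 := by gcongr
  exact h1.trans (hlow w hw)

/-- the `J`-orthogonal complement of a set -/
def perp (J : V →L[ℂ] H) (s : Set V) : Submodule ℂ V where
  carrier := {v | ∀ e ∈ s, ⟪J e, J v⟫_ℂ = 0}
  add_mem' := by
    intro a b ha hb e he
    rw [map_add, inner_add_right, ha e he, hb e he, add_zero]
  zero_mem' := by intro e _; simp
  smul_mem' := by
    intro c a ha e he
    rw [map_smul, inner_smul_right, ha e he, mul_zero]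

theorem mem_perp {J : V →L[ℂ] H} {s : Set V} {v : V} :
    v ∈ perp J s ↔ ∀ e ∈ s, ⟪J e, J v⟫_ℂ = 0 := Iff.rfl

theorem isClosed_perp (J : V →L[ℂ] H) (s : Set V) : IsClosed (perp J s : Set V) := by
  have : (perp J s : Set V) = ⋂ e ∈ s, {v | ⟪J e, J v⟫_ℂ = 0} := by
    ext v; simp [mem_perp, SetLike.mem_coe]
  rw [this]
  refine isClosed_biInter fun e _ => ?_
  exact isClosed_eq (continuous_const.inner J.continuous) continuous_const

theorem perp_anti (J : V →L[ℂ] H) {s t : Set V} (h : s ⊆ t) : perp J t ≤ perp J s :=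
  fun _ hv e he => hv e (h he)

/-- in an infinite dimensional space the complement of a finite set is non-trivial -/
theorem exists_mem_perp (hinf : ¬ FiniteDimensional ℂ V) (J : V →L[ℂ] H) (s : Finset V) :
    ∃ v ∈ perp J (s : Set V), v ≠ 0 := by
  by_contra hcon
  push Not at hcon
  apply hinf
  -- the map `v ↦ (⟪J e, J v⟫)_e` is injective
  let L : V →ₗ[ℂ] (s → ℂ) := LinearMap.pi fun e => (innerₛₗ ℂ (J (e : V))).comp J.toLinearMap
  have hL : Function.Injective L := by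
    rw [injective_iff_map_eq_zero]
    intro v hv
    refine hcon v fun e he => ?_
    have := congrFun hv ⟨e, he⟩
    simpa [L] using this
  exact FiniteDimensional.of_injective L hL

/-- spectral sequence of a form triple -/
structure Eig (J : V →L[ℂ] H) (W : V →L[ℂ] K) (e : ℕ → V) (E : ℕ → ℝ) : Prop where
  orth : ∀ i j, ⟪J (e i), J (e j)⟫_ℂ = if i = j then (1 : ℂ) else 0
  nonneg : ∀ n, 0 ≤ E n
  mono : Monotone E
  tend : Tendsto E atTop atTop
  weak : ∀ n v, ⟪W (e n), W v⟫_ℂ = (E n : ℂ) * ⟪J (e n), J v⟫_ℂ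
  low : ∀ n v, (∀ i < n, ⟪J (e i), J v⟫_ℂ = 0) → E n * ‖J v‖ ^ 2 ≤ ‖W v‖ ^ 2

theorem Eig.complete {e : ℕ → V} {E : ℕ → ℝ} (hE : Eig J W e E) (h : FT J W) {v : V}
    (hv : ∀ i, ⟪J (e i), J v⟫_ℂ = 0) : v = 0 := by
  by_contra hne
  have h1 := h.norm_J_pos hne
  obtain ⟨n, hn⟩ := (hE.tend.eventually (eventually_gt_atTop (‖W v‖ ^ 2 / ‖J v‖ ^ 2))).exists
  have h2 := hE.low n v fun i _ => hv i
  rw [div_lt_iff₀ (by positivity)] at hn
  linarith

theorem exists_eigen [CompleteSpace V] (h : FT J W) (hinf : ¬ FiniteDimensional ℂ V) :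
    ∃ (e : ℕ → V) (E : ℕ → ℝ), Eig J W e E := by
  classical
  have step : ∀ s : Finset V, ∃ x ∈ perp J (s : Set V), ‖J x‖ = 1 ∧
      ∀ v ∈ perp J (s : Set V), ‖W x‖ ^ 2 * ‖J v‖ ^ 2 ≤ ‖W v‖ ^ 2 := fun s =>
    h.exists_minimizer _ (isClosed_perp J _) (exists_mem_perp hinf J s)
  choose nx nx1 nx2 nx3 using step
  obtain ⟨s, s0, ss⟩ : ∃ s : ℕ → Finset V, s 0 = ∅ ∧ ∀ n, s (n + 1) = insert (nx (s n)) (s n) :=
    ⟨fun n => Nat.rec ∅ (fun _ t => insert (nx t) t) n, rfl, fun _ => rfl⟩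
  have smono : Monotone s := by
    refine monotone_nat_of_le_succ fun n => ?_
    rw [ss]; exact Finset.subset_insert _ _
  have smem : ∀ {i n}, i < n → nx (s i) ∈ s n := by
    intro i n hin
    have h1 : nx (s i) ∈ s (i + 1) := by rw [ss]; exact Finset.mem_insert_self _ _
    exact smono hin h1
  have smem' : ∀ {n : ℕ} {x : V}, x ∈ s n → ∃ i < n, x = nx (s i) := by
    intro n
    induction n with
    | zero => intro x hx; simp [s0] at hx
    | succ n ih =>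
      intro x hx
      rw [ss, Finset.mem_insert] at hx
      rcases hx with rfl | hx
      · exact ⟨n, Nat.lt_succ_self n, rfl⟩
      · obtain ⟨i, hi, rfl⟩ := ih hx
        exact ⟨i, hi.trans (Nat.lt_succ_self n), rfl⟩
  obtain ⟨e, he⟩ : ∃ e : ℕ → V, ∀ n, e n = nx (s n) := ⟨_, fun _ => rfl⟩
  obtain ⟨E, hE⟩ : ∃ E : ℕ → ℝ, ∀ n, E n = ‖W (e n)‖ ^ 2 := ⟨_, fun _ => rfl⟩
  have eperp : ∀ n, e n ∈ perp J (↑(s n) : Set V) := fun n => by rw [he]; exact nx1 (s n)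
  have orth0 : ∀ {i j}, i < j → ⟪J (e i), J (e j)⟫_ℂ = 0 := fun {i j} hij =>
    eperp j (e i) (by rw [he]; exact smem hij)
  have nrm : ∀ n, ‖J (e n)‖ = 1 := fun n => by rw [he]; exact nx2 (s n)
  have orth : ∀ i j, ⟪J (e i), J (e j)⟫_ℂ = if i = j then (1 : ℂ) else 0 := by
    intro i j
    rcases lt_trichotomy i j with hij | rfl | hij
    · rw [if_neg hij.ne, orth0 hij]
    · rw [if_pos rfl, inner_self_eq_norm_sq_to_K, nrm]
      simp
    · rw [if_neg hij.ne', ← inner_conj_symm, orth0 hij, map_zero]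
  have low : ∀ n v, (∀ i < n, ⟪J (e i), J v⟫_ℂ = 0) → E n * ‖J v‖ ^ 2 ≤ ‖W v‖ ^ 2 := by
    intro n v hv
    rw [hE, he]
    refine nx3 (s n) v fun x hx => ?_
    obtain ⟨i, hi, rfl⟩ := smem' hx
    rw [← he]
    exact hv i hi
  have mono : Monotone E := by
    refine monotone_nat_of_le_succ fun n => ?_
    have h1 := low n (e (n + 1)) fun i hi => orth0 (hi.trans (Nat.lt_succ_self n))
    rw [nrm, one_pow, mul_one, ← hE] at h1
    exact h1
  have el : ∀ n v, v ∈ perp J (↑(s n) : Set V) → ⟪W (e n), W v⟫_ℂ = (E n : ℂ) * ⟪J (e n), J v⟫_ℂ := by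
    intro n v hv
    refine euler (S := perp J (↑(s n) : Set V)) (eperp n) ?_
      (fun w hw => by rw [hE, he]; exact nx3 (s n) w hw) hv
    rw [hE, nrm, one_pow, mul_one]
  have orthW : ∀ {i j}, i < j → ⟪W (e i), W (e j)⟫_ℂ = 0 := by
    intro i j hij
    rw [el i (e j) (perp_anti J (Finset.coe_subset.2 (smono hij.le)) (eperp j)), orth0 hij, mul_zero]
  have orthW' : ∀ {i j}, i ≠ j → ⟪W (e i), W (e j)⟫_ℂ = 0 := by
    intro i j hij
    rcases lt_or_gt_of_ne hij with h1 | h1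
    · exact orthW h1
    · rw [← inner_conj_symm, orthW h1, map_zero]
  have weak : ∀ n v, ⟪W (e n), W v⟫_ℂ = (E n : ℂ) * ⟪J (e n), J v⟫_ℂ := by
    intro n v
    set p : V := ∑ i ∈ Finset.range n, ⟪J (e i), J v⟫_ℂ • e i with hp
    have h1 : v - p ∈ perp J (↑(s n) : Set V) := by
      intro x hx
      obtain ⟨i, hi, rfl⟩ := smem' hx
      rw [← he]
      rw [map_sub, inner_sub_right, hp, map_sum, inner_sum]
      simp only [map_smul, inner_smul_right, orth]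
      rw [Finset.sum_eq_single i]
      · simp
      · intro j _ hj; rw [if_neg (Ne.symm hj), mul_zero]
      · intro hni; exact absurd (Finset.mem_range.2 hi) hni
    have h2 := el n _ h1
    have h3 : ⟪W (e n), W p⟫_ℂ = 0 := by
      rw [hp, map_sum, inner_sum]
      refine Finset.sum_eq_zero fun i hi => ?_
      rw [map_smul, inner_smul_right, orthW' (Finset.mem_range.1 hi).ne', mul_zero]
    have h4 : ⟪J (e n), J p⟫_ℂ = 0 := by
      rw [hp, map_sum, inner_sum]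
      refine Finset.sum_eq_zero fun i hi => ?_
      rw [map_smul, inner_smul_right, orth, if_neg (Finset.mem_range.1 hi).ne', mul_zero]
    rw [map_sub, map_sub, inner_sub_right, inner_sub_right, h3, h4, sub_zero, sub_zero] at h2
    exact h2
  have tend : Tendsto E atTop atTop := by
    rcases tendsto_atTop_of_monotone mono with h1 | ⟨l, hl⟩
    · exact h1
    exfalso
    have hEl : ∀ n, E n ≤ l := fun n => mono.ge_of_tendsto hl n
    obtain ⟨k, hk, hkc⟩ := h.cpt e (Real.sqrt (1 + l)) (fun n => by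
      refine Real.le_sqrt_of_sq_le ?_
      rw [h.nsq, nrm, ← hE]
      have := hEl n
      linarith)
    rw [Metric.cauchySeq_iff] at hkc
    obtain ⟨N, hN⟩ := hkc 1 one_pos
    have h1 := hN N le_rfl (N + 1) (Nat.le_succ N)
    rw [dist_eq_norm] at h1
    have h2 := norm_sub_sq (𝕜 := ℂ) (J (e (k N))) (J (e (k (N + 1))))
    rw [nrm, nrm, orth0 (hk (Nat.lt_succ_self N))] at h2
    simp only [map_zero, mul_zero, sub_zero, one_pow] at h2
    nlinarith [norm_nonneg (J (e (k N)) - J (e (k (N + 1))))]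
  exact ⟨e, E, orth, fun n => by rw [hE]; positivity, mono, tend, weak, low⟩

end FT

end Crest.Agent.R330.Spec893
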