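import Mathlib
import Crest.Agent.R330.Spec_893

/-!
# Row 330: eigenvectors of a form in a symmetry sector (helper893)

`eigen_sector` : `G` = form domain of a closed form (`J` embedding, `W` square root of the form), `U i`
unitaries of `G` lying over unitaries `u i` of `H`, `S = {v | U i v = c i • v}` the sector. If the form is
compact on `S` and `S` is infinite dimensional there is an orthonormal sequence of vectors of `S` which are
eigenvectors of the form tested on the WHOLE form domain, with eigenvalues `E n → ∞`.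

`eigen_sector_pos` : the same with `0 < E n`.
-/

set_option autoImplicit false

open Filter Topology
open scoped InnerProductSpace

noncomputable section
namespace Crest.Agent.R330.Spec893

variable {V H K : Type*} [NormedAddCommGroup V] [InnerProductSpace ℂ V]
  [NormedAddCommGroup H] [InnerProductSpace ℂ H] [NormedAddCommGroup K] [InnerProductSpace ℂ K]

/-- polarisation of `‖v‖² = ‖J v‖² + ‖W v‖²` -/
theorem inner_polar {J : V →L[ℂ] H} {W : V →L[ℂ] K}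
    (hn : ∀ v, ‖v‖ ^ 2 = ‖J v‖ ^ 2 + ‖W v‖ ^ 2) (x y : V) :
    ⟪x, y⟫_ℂ = ⟪J x, J y⟫_ℂ + ⟪W x, W y⟫_ℂ := by
  have h1 := fun z w : V => norm_add_smul_sq z w
  have key : ∀ c : ℂ, (c * ⟪x, y⟫_ℂ).re = (c * (⟪J x, J y⟫_ℂ + ⟪W x, W y⟫_ℂ)).re := by
    intro c
    have a1 := norm_add_smul_sq x y c
    have a2 := norm_add_smul_sq (J x) (J y) c
    have a3 := norm_add_smul_sq (W x) (W y) c
    rw [← map_smul, ← map_add] at a2 a3
    have b1 := hn (x + c • y)
    have b2 := hn x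
    have b3 := hn y
    rw [mul_add, Complex.add_re]
    rw [a1, a2, a3, b2, b3] at b1
    nlinarith [b1]
  apply Complex.ext
  · simpa using key 1
  · have := key (-Complex.I)
    simpa using this

theorem eigen_sector [CompleteSpace V] [CompleteSpace H] {J : V →L[ℂ] H} {W : V →L[ℂ] K}
    (hn : ∀ v, ‖v‖ ^ 2 = ‖J v‖ ^ 2 + ‖W v‖ ^ 2) (hinj : ∀ v, J v = 0 → v = 0)
    {κ : Type*} (U : κ → V ≃ₗᵢ[ℂ] V) (u : κ → H ≃ₗᵢ[ℂ] H) (hJU : ∀ i v, J (U i v) = u i (J v))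
    (c : κ → ℂ) (S : Submodule ℂ V) (hS : ∀ v, v ∈ S ↔ ∀ i, U i v = c i • v)
    (hcpt : ∀ v : ℕ → V, (∀ n, v n ∈ S) → ∀ C : ℝ, (∀ n, ‖v n‖ ≤ C) →
      ∃ k : ℕ → ℕ, StrictMono k ∧ CauchySeq (fun n => J (v (k n))))
    (hinf : ¬ FiniteDimensional ℂ S) :
    ∃ (e : ℕ → V) (E : ℕ → ℝ), (∀ n, e n ∈ S) ∧
      (∀ i j, ⟪J (e i), J (e j)⟫_ℂ = if i = j then (1 : ℂ) else 0) ∧
      (∀ n, 0 ≤ E n) ∧ Monotone E ∧ Tendsto E atTop atTop ∧
      ∀ n v, ⟪W (e n), W v⟫_ℂ = (E n : ℂ) * ⟪J (e n), J v⟫_ℂ := by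
  -- the sector is closed
  have hcl : IsClosed (S : Set V) := by
    have : (S : Set V) = ⋂ i, {v | U i v = c i • v} := by
      ext v; simp [hS]
    rw [this]
    refine isClosed_iInter fun i => isClosed_eq (U i).continuous (continuous_const_smul _)
  have : CompleteSpace S := hcl.completeSpace_coe
  let JS : S →L[ℂ] H := J.comp S.subtypeL
  let WS : S →L[ℂ] K := W.comp S.subtypeL
  have hFT : FT JS WS :=
    { nsq := fun v => hn v
      inj := fun v hv => Subtype.ext (hinj v hv)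
      cpt := fun v C hC => hcpt (fun n => (v n : V)) (fun n => (v n).2) C hC }
  obtain ⟨e, E, hE⟩ := hFT.exists_eigen hinf
  refine ⟨fun n => (e n : V), E, fun n => (e n).2, hE.orth, hE.nonneg, hE.mono, hE.tend, ?_⟩
  intro n v
  -- `J† J e` stays in the sector
  let T : V →L[ℂ] V := (ContinuousLinearMap.adjoint J).comp J
  have hT : ∀ x y : V, ⟪T x, y⟫_ℂ = ⟪J x, J y⟫_ℂ := by
    intro x y
    show ⟪(ContinuousLinearMap.adjoint J) (J x), y⟫_ℂ = _
    rw [ContinuousLinearMap.adjoint_inner_left]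
  have hTS : T (e n) ∈ S := by
    rw [hS]
    intro i
    have h1 : U i (e n : V) = c i • (e n : V) := (hS _).1 (e n).2 i
    refine ext_inner_right ℂ fun y => ?_
    obtain ⟨z, rfl⟩ := (U i).surjective y
    rw [LinearIsometryEquiv.inner_map_map, hT, inner_smul_left, hT, hJU]
    have h2 : ⟪J (e n : V), J z⟫_ℂ = ⟪u i (J (e n : V)), u i (J z)⟫_ℂ :=
      (LinearIsometryEquiv.inner_map_map (u i) _ _).symm
    rw [h2, ← hJU, h1, map_smul, inner_smul_left]
  set d : V := (e n : V) - ((E n + 1 : ℝ) : ℂ) • T (e n) with hd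
  have hdS : d ∈ S := S.sub_mem (e n).2 (S.smul_mem _ hTS)
  have hort : ∀ w ∈ S, ⟪d, w⟫_ℂ = 0 := by
    intro w hw
    have h1 := hE.weak n ⟨w, hw⟩
    have h1' : ⟪W (e n : V), W w⟫_ℂ = (E n : ℂ) * ⟪J (e n : V), J w⟫_ℂ := h1
    rw [hd, inner_sub_left, inner_smul_left, hT, inner_polar hn, h1', Complex.conj_ofReal]
    push_cast
    ring
  have hd0 : d = 0 := by
    have := hort d hdS
    exact inner_self_eq_zero.1 this
  have he : (e n : V) = ((E n + 1 : ℝ) : ℂ) • T (e n) := sub_eq_zero.1 (hd ▸ hd0)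
  have h2 := inner_polar hn (e n : V) v
  have h3 : ⟪(e n : V), v⟫_ℂ = ((E n + 1 : ℝ) : ℂ) * ⟪J (e n : V), J v⟫_ℂ := by
    conv_lhs => rw [he]
    rw [inner_smul_left, hT, Complex.conj_ofReal]
  rw [h3] at h2
  push_cast at h2
  linear_combination -h2

/-- the same with strictly positive eigenvalues -/
theorem eigen_sector_pos [CompleteSpace V] [CompleteSpace H] {J : V →L[ℂ] H} {W : V →L[ℂ] K}
    (hn : ∀ v, ‖v‖ ^ 2 = ‖J v‖ ^ 2 + ‖W v‖ ^ 2) (hinj : ∀ v, J v = 0 → v = 0)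
    {κ : Type*} (U : κ → V ≃ₗᵢ[ℂ] V) (u : κ → H ≃ₗᵢ[ℂ] H) (hJU : ∀ i v, J (U i v) = u i (J v))
    (c : κ → ℂ) (S : Submodule ℂ V) (hS : ∀ v, v ∈ S ↔ ∀ i, U i v = c i • v)
    (hcpt : ∀ v : ℕ → V, (∀ n, v n ∈ S) → ∀ C : ℝ, (∀ n, ‖v n‖ ≤ C) →
      ∃ k : ℕ → ℕ, StrictMono k ∧ CauchySeq (fun n => J (v (k n))))
    (hinf : ¬ FiniteDimensional ℂ S) :
    ∃ (e : ℕ → V) (E : ℕ → ℝ), (∀ n, e n ∈ S) ∧
      (∀ i j, ⟪J (e i), J (e j)⟫_ℂ = if i = j then (1 : ℂ) else 0) ∧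
      (∀ n, 0 < E n) ∧ Monotone E ∧ Tendsto E atTop atTop ∧
      ∀ n v, ⟪W (e n), W v⟫_ℂ = (E n : ℂ) * ⟪J (e n), J v⟫_ℂ := by
  obtain ⟨e, E, h1, h2, h3, h4, h5, h6⟩ := eigen_sector hn hinj U u hJU c S hS hcpt hinf
  obtain ⟨N, hN⟩ := (h5.eventually (eventually_gt_atTop 0)).exists
  refine ⟨fun n => e (n + N), fun n => E (n + N), fun n => h1 _, ?_, ?_, ?_, ?_, fun n v => h6 _ v⟩
  · intro i j
    rw [h2]
    by_cases hij : i = j
    · rw [if_pos hij, if_pos (by rw [hij])]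
    · rw [if_neg hij, if_neg (by omega)]
  · intro n
    exact hN.trans_le (h4 (Nat.le_add_left N n))
  · intro a b hab
    exact h4 (Nat.add_le_add_right hab N)
  · exact h5.comp (tendsto_add_atTop_nat N)

end Crest.Agent.R330.Spec893
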