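import Mathlib
import Crest.Agent.R330.SpecSec_893

/-!
# Row 330: the graph Hilbert space of a closable form given by charges (helper893)

`D` a complex vector space (the core), `ι : D → H`, `Q : D → K` linear. `Gph ι Q` = closure of the graph
`{(ι φ, Q φ)}` in `WithLp 2 (H × K)` = form domain; `JG`, `WG` the two projections.

`exists_eigen_core` : symmetries `u i` of `H` coming from maps of the core preserving `‖Q φ‖`, compactness on
the sector `{v | u i (J v) = c i • J v}`, infinitely many independent core vectors in the sector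
==> orthonormal eigenvectors in the sector, `0 < E n → ∞`, weak equation against the whole core.
-/

set_option autoImplicit false

open Filter Topology
open scoped InnerProductSpace

noncomputable section
namespace Crest.Agent.R330.Graph893

open Crest.Agent.R330.Spec893

variable {D H K : Type*} [AddCommGroup D] [Module ℂ D]
  [NormedAddCommGroup H] [InnerProductSpace ℂ H] [NormedAddCommGroup K] [InnerProductSpace ℂ K]

/-- the graph map -/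
def gm (ι : D →ₗ[ℂ] H) (Q : D →ₗ[ℂ] K) : D →ₗ[ℂ] WithLp 2 (H × K) :=
  (WithLp.linearEquiv 2 ℂ (H × K)).symm.toLinearMap ∘ₗ (ι.prod Q)

theorem gm_apply (ι : D →ₗ[ℂ] H) (Q : D →ₗ[ℂ] K) (φ : D) : gm ι Q φ = WithLp.toLp 2 (ι φ, Q φ) := rfl

theorem norm_gm_sq (ι : D →ₗ[ℂ] H) (Q : D →ₗ[ℂ] K) (φ : D) :
    ‖gm ι Q φ‖ ^ 2 = ‖ι φ‖ ^ 2 + ‖Q φ‖ ^ 2 := by
  rw [WithLp.prod_norm_sq_eq_of_L2]; rfl

/-- the closed graph -/
def Gph (ι : D →ₗ[ℂ] H) (Q : D →ₗ[ℂ] K) : Submodule ℂ (WithLp 2 (H × K)) :=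
  (LinearMap.range (gm ι Q)).topologicalClosure

/-- embedding of the form domain -/
def JG (ι : D →ₗ[ℂ] H) (Q : D →ₗ[ℂ] K) : Gph ι Q →L[ℂ] H :=
  (WithLp.fstL 2 ℂ H K).comp (Gph ι Q).subtypeL

/-- the closed charge -/
def WG (ι : D →ₗ[ℂ] H) (Q : D →ₗ[ℂ] K) : Gph ι Q →L[ℂ] K :=
  (WithLp.sndL 2 ℂ H K).comp (Gph ι Q).subtypeL

/-- core vectors in the graph space -/
def gv (ι : D →ₗ[ℂ] H) (Q : D →ₗ[ℂ] K) : D →ₗ[ℂ] Gph ι Q :=
  (gm ι Q).codRestrict _ fun φ => Submodule.le_topologicalClosure _ ⟨φ, rfl⟩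

variable {ι : D →ₗ[ℂ] H} {Q : D →ₗ[ℂ] K}

@[simp] theorem JG_gv (φ : D) : JG ι Q (gv ι Q φ) = ι φ := rfl
@[simp] theorem WG_gv (φ : D) : WG ι Q (gv ι Q φ) = Q φ := rfl

theorem norm_sq (v : Gph ι Q) : ‖v‖ ^ 2 = ‖JG ι Q v‖ ^ 2 + ‖WG ι Q v‖ ^ 2 :=
  WithLp.prod_norm_sq_eq_of_L2 (v : WithLp 2 (H × K))

theorem norm_gv_sq (φ : D) : ‖gv ι Q φ‖ ^ 2 = ‖ι φ‖ ^ 2 + ‖Q φ‖ ^ 2 := norm_sq _

theorem isClosed_Gph : IsClosed (Gph ι Q : Set (WithLp 2 (H × K))) :=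
  Submodule.isClosed_topologicalClosure _

instance [CompleteSpace H] [CompleteSpace K] : CompleteSpace (Gph ι Q) :=
  isClosed_Gph.completeSpace_coe

/-- elements of the graph space are limits of core vectors -/
theorem exists_seq (v : Gph ι Q) : ∃ φ : ℕ → D, Tendsto (fun n => gv ι Q (φ n)) atTop (𝓝 v) := by
  have h1 : (v : WithLp 2 (H × K)) ∈ closure (LinearMap.range (gm ι Q) : Set (WithLp 2 (H × K))) := by
    have := v.2
    unfold Gph at this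
    rwa [← SetLike.mem_coe, Submodule.topologicalClosure_coe] at this
  obtain ⟨y, hy, hlim⟩ := mem_closure_iff_seq_limit.1 h1
  choose φ hφ using hy
  refine ⟨φ, ?_⟩
  rw [tendsto_subtype_rng]
  refine hlim.congr fun n => ?_
  rw [← hφ n]
  rfl

theorem tendsto_J {φ : ℕ → D} {v : Gph ι Q} (h : Tendsto (fun n => gv ι Q (φ n)) atTop (𝓝 v)) :
    Tendsto (fun n => ι (φ n)) atTop (𝓝 (JG ι Q v)) :=
  ((JG ι Q).continuous.tendsto v).comp h

theorem tendsto_W {φ : ℕ → D} {v : Gph ι Q} (h : Tendsto (fun n => gv ι Q (φ n)) atTop (𝓝 v)) :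
    Tendsto (fun n => Q (φ n)) atTop (𝓝 (WG ι Q v)) :=
  ((WG ι Q).continuous.tendsto v).comp h

theorem tendsto_gv {φ : ℕ → D} {v : Gph ι Q} (h1 : Tendsto (fun n => ι (φ n)) atTop (𝓝 (JG ι Q v)))
    (h2 : Tendsto (fun n => Q (φ n)) atTop (𝓝 (WG ι Q v))) :
    Tendsto (fun n => gv ι Q (φ n)) atTop (𝓝 v) := by
  rw [tendsto_iff_norm_sub_tendsto_zero] at h1 h2 ⊢
  have h3 : Tendsto (fun n => ‖gv ι Q (φ n) - v‖ ^ 2) atTop (𝓝 0) := by
    have h4 : (fun n => ‖gv ι Q (φ n) - v‖ ^ 2) =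
        fun n => ‖ι (φ n) - JG ι Q v‖ ^ 2 + ‖Q (φ n) - WG ι Q v‖ ^ 2 := by
      funext n
      rw [norm_sq, map_sub, map_sub]
      rfl
    rw [h4]
    have := (h1.pow 2).add (h2.pow 2)
    simpa using this
  have h5 := (Real.continuous_sqrt.tendsto 0).comp h3
  rw [Real.sqrt_zero] at h5
  refine h5.congr fun n => ?_
  exact Real.sqrt_sq (norm_nonneg _)

/-- closability gives injectivity of the embedding -/
theorem inj_of_closable
    (hcl : ∀ (φ : ℕ → D) (k : K), Tendsto (fun n => ι (φ n)) atTop (𝓝 0) →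
      Tendsto (fun n => Q (φ n)) atTop (𝓝 k) → k = 0) (v : Gph ι Q) (hv : JG ι Q v = 0) : v = 0 := by
  obtain ⟨φ, hφ⟩ := exists_seq v
  have h1 := tendsto_J hφ
  rw [hv] at h1
  have h2 := hcl φ _ h1 (tendsto_W hφ)
  have h3 := norm_sq v
  rw [hv, h2] at h3
  simp only [norm_zero, ne_eq, OfNat.ofNat_ne_zero, not_false_eq_true, zero_pow, add_zero] at h3
  exact norm_eq_zero.1 (pow_eq_zero_iff two_ne_zero |>.1 h3)

/-- a symmetry of the core lifts to the graph space -/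
theorem exists_lift [CompleteSpace H] [CompleteSpace K] (u : H ≃ₗᵢ[ℂ] H) (Uc : D →ₗ[ℂ] D)
    (h1 : ∀ φ, ι (Uc φ) = u (ι φ)) (h2 : ∀ φ, ‖Q (Uc φ)‖ = ‖Q φ‖) (v : Gph ι Q) :
    ∃ w : Gph ι Q, JG ι Q w = u (JG ι Q v) ∧ ‖w‖ = ‖v‖ := by
  obtain ⟨φ, hφ⟩ := exists_seq v
  have hn : ∀ ψ : D, ‖gv ι Q (Uc ψ)‖ = ‖gv ι Q ψ‖ := by
    intro ψ
    have h3 : ‖gv ι Q (Uc ψ)‖ ^ 2 = ‖gv ι Q ψ‖ ^ 2 := by
      rw [norm_gv_sq, norm_gv_sq, h1, h2, LinearIsometryEquiv.norm_map]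
    exact (pow_left_inj₀ (norm_nonneg _) (norm_nonneg _) two_ne_zero).1 h3
  have hc : CauchySeq fun n => gv ι Q (Uc (φ n)) := by
    have hc0 := hφ.cauchySeq
    rw [Metric.cauchySeq_iff] at hc0 ⊢
    intro ε hε
    obtain ⟨N, hN⟩ := hc0 ε hε
    refine ⟨N, fun n hn' k hk => ?_⟩
    have := hN n hn' k hk
    rw [dist_eq_norm, ← map_sub] at this ⊢
    rw [← map_sub, hn]
    exact this
  obtain ⟨w, hw⟩ := cauchySeq_tendsto_of_complete hc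
  refine ⟨w, ?_, ?_⟩
  · have h3 := tendsto_J hw
    simp only [h1] at h3
    exact tendsto_nhds_unique h3 ((u.continuous.tendsto _).comp (tendsto_J hφ))
  · have h3 := hw.norm
    simp only [hn] at h3
    exact tendsto_nhds_unique h3 hφ.norm

/-- the lift as a unitary of the graph space -/
theorem exists_unitary [CompleteSpace H] [CompleteSpace K]
    (hinj : ∀ v : Gph ι Q, JG ι Q v = 0 → v = 0) (u : H ≃ₗᵢ[ℂ] H) (Uc Ud : D →ₗ[ℂ] D)
    (h1 : ∀ φ, ι (Uc φ) = u (ι φ)) (h2 : ∀ φ, ‖Q (Uc φ)‖ = ‖Q φ‖)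
    (h3 : ∀ φ, ι (Ud φ) = u.symm (ι φ)) (h4 : ∀ φ, ‖Q (Ud φ)‖ = ‖Q φ‖) :
    ∃ U : Gph ι Q ≃ₗᵢ[ℂ] Gph ι Q, ∀ v, JG ι Q (U v) = u (JG ι Q v) := by
  choose f hf1 hf2 using exists_lift (ι := ι) (Q := Q) u Uc h1 h2
  have hext : ∀ v w : Gph ι Q, JG ι Q v = JG ι Q w → v = w := by
    intro v w h
    exact sub_eq_zero.1 (hinj _ (by rw [map_sub, h, sub_self]))
  let U0 : Gph ι Q →ₗᵢ[ℂ] Gph ι Q :=
    { toFun := f
      map_add' := fun a b => hext _ _ (by rw [hf1, map_add, map_add, map_add, hf1, hf1])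
      map_smul' := fun c a => hext _ _ (by
        rw [hf1, RingHom.id_apply, map_smul, map_smul, map_smul, hf1])
      norm_map' := hf2 }
  have hsurj : Function.Surjective U0 := by
    intro w
    obtain ⟨z, hz, -⟩ := exists_lift (ι := ι) (Q := Q) u.symm Ud h3 h4 w
    refine ⟨z, hext _ _ ?_⟩
    show JG ι Q (f z) = _
    rw [hf1, hz, LinearIsometryEquiv.apply_symm_apply]
  exact ⟨LinearIsometryEquiv.ofSurjective U0 hsurj, fun v => hf1 v⟩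

/-- the sector of the graph space -/
def Sct (ι : D →ₗ[ℂ] H) (Q : D →ₗ[ℂ] K) {κ : Type*} (u : κ → H ≃ₗᵢ[ℂ] H) (c : κ → ℂ) :
    Submodule ℂ (Gph ι Q) where
  carrier := {v | ∀ i, u i (JG ι Q v) = c i • JG ι Q v}
  add_mem' := by
    intro a b ha hb i
    rw [map_add, map_add, ha i, hb i, smul_add]
  zero_mem' := by intro i; simp
  smul_mem' := by
    intro d a ha i
    rw [map_smul, map_smul, ha i, smul_comm]

theorem mem_Sct {κ : Type*} {u : κ → H ≃ₗᵢ[ℂ] H} {c : κ → ℂ} {v : Gph ι Q} :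
    v ∈ Sct ι Q u c ↔ ∀ i, u i (JG ι Q v) = c i • JG ι Q v := Iff.rfl

/-- **eigenvectors of the closed form in a symmetry sector** -/
theorem exists_eigen_core [CompleteSpace H] [CompleteSpace K]
    (hcl : ∀ (φ : ℕ → D) (k : K), Tendsto (fun n => ι (φ n)) atTop (𝓝 0) →
      Tendsto (fun n => Q (φ n)) atTop (𝓝 k) → k = 0)
    {κ : Type*} (u : κ → H ≃ₗᵢ[ℂ] H) (Uc Ud : κ → D →ₗ[ℂ] D)
    (h1 : ∀ i φ, ι (Uc i φ) = u i (ι φ)) (h2 : ∀ i φ, ‖Q (Uc i φ)‖ = ‖Q φ‖)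
    (h3 : ∀ i φ, ι (Ud i φ) = (u i).symm (ι φ)) (h4 : ∀ i φ, ‖Q (Ud i φ)‖ = ‖Q φ‖)
    (c : κ → ℂ)
    (hcpt : ∀ v : ℕ → Gph ι Q, (∀ n, v n ∈ Sct ι Q u c) → ∀ C : ℝ, (∀ n, ‖v n‖ ≤ C) →
      ∃ k : ℕ → ℕ, StrictMono k ∧ CauchySeq (fun n => JG ι Q (v (k n))))
    (φ : ℕ → D) (hφ : ∀ n i, u i (ι (φ n)) = c i • ι (φ n))
    (hind : LinearIndependent ℂ fun n => ι (φ n)) :
    ∃ (e : ℕ → Gph ι Q) (E : ℕ → ℝ), (∀ n, e n ∈ Sct ι Q u c) ∧
      (∀ i j, ⟪JG ι Q (e i), JG ι Q (e j)⟫_ℂ = if i = j then (1 : ℂ) else 0) ∧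
      (∀ n, 0 < E n) ∧ Monotone E ∧ Tendsto E atTop atTop ∧
      ∀ n v, ⟪WG ι Q (e n), WG ι Q v⟫_ℂ = (E n : ℂ) * ⟪JG ι Q (e n), JG ι Q v⟫_ℂ := by
  have hinj := inj_of_closable hcl
  have hU : ∀ i, ∃ U : Gph ι Q ≃ₗᵢ[ℂ] Gph ι Q, ∀ v, JG ι Q (U v) = u i (JG ι Q v) := fun i =>
    exists_unitary hinj (u i) (Uc i) (Ud i) (h1 i) (h2 i) (h3 i) (h4 i)
  choose U hU using hU
  have hns : ∀ v : Gph ι Q, ‖v‖ ^ 2 = ‖JG ι Q v‖ ^ 2 + ‖WG ι Q v‖ ^ 2 := fun v => norm_sq v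
  refine eigen_sector_pos (V := Gph ι Q) (J := JG ι Q) (W := WG ι Q) hns hinj U u hU c
    (Sct ι Q u c) ?_ hcpt ?_
  · intro v
    rw [mem_Sct]
    refine forall_congr' fun i => ?_
    rw [← hU]
    constructor
    · intro h
      refine sub_eq_zero.1 (hinj _ ?_)
      rw [map_sub, h, map_smul, sub_self]
    · intro h
      rw [h, map_smul]
  · intro hfin
    let g : ℕ → Sct ι Q u c := fun n => ⟨gv ι Q (φ n), fun i => hφ n i⟩
    have hg : LinearIndependent ℂ g := by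
      refine LinearIndependent.of_comp ((JG ι Q).toLinearMap ∘ₗ (Sct ι Q u c).subtype) ?_
      exact hind
    exact absurd hg.finite (not_finite_iff_infinite.2 inferInstance)

end Crest.Agent.R330.Graph893
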