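import Mathlib
import Crest.Agent.R330.WeitzY_726
import Crest.Agent.R330.Graph_893
import Crest.Agent.R330.Dict_416
import Crest.Agent.R330.SCoerB_186

/-!
# Row 330, S13.FIN (helper726): the literal ends of the abstract spectral theorem

* `energyLB` : the energy lower bound in the form of `SCoer186.EnergyLB`
* `Qh R G` : `(1/4)` times the sixteen charges; `closable`
* `indep` : core vectors of disjoint supports are linearly independent
* `isEigenpair_of` : the weak equation of the graph space is `IsEigenpair`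
-/

set_option autoImplicit false
set_option linter.unusedSectionVars false

open MeasureTheory Filter Topology Crest.MathPhysics.MatrixQM
open scoped ContDiff InnerProductSpace ENNReal

noncomputable section

namespace Crest.Agent.R330.SFin726

open Crest.Agent.R330.Defs478 Crest.Agent.R330.Dict416 Crest.Agent.R330.Graph893
open Crest.Agent.R330.Weitz726

variable {N : ℕ} {F : Type*} [NormedAddCommGroup F] [InnerProductSpace ℂ F]
  [FiniteDimensional ℂ F]

/-- **the energy lower bound** -/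
theorem energyLB (b : ColorBasis N) (M : FermionRep N F) (G : GammaNine) :
    ∃ C : ℝ, 0 ≤ C ∧ SCoer186.EnergyLB b M G C := by
  obtain ⟨C, hC, hY⟩ := Yop_bound b M G
  refine ⟨C, hC, fun ψ hψ => ?_⟩
  have h := energy_super b M G (hψ.1.of_le (by norm_cast)) hψ.2
  have e1 : SCoer186.en ψ = ∑ k : Fin 9 × Fin (N ^ 2 - 1),
      ∫ x, ‖fderiv ℝ ψ x (EuclideanSpace.single k 1)‖ ^ 2 := by
    unfold SCoer186.en Bar186.gsq
    have : ∀ x, ∑ i : Fin 9, ∑ A : Fin (N ^ 2 - 1), ‖SJop186.gr ψ x (i, A)‖ ^ 2 =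
        ∑ k : Fin 9 × Fin (N ^ 2 - 1), ‖fderiv ℝ ψ x (EuclideanSpace.single k 1)‖ ^ 2 := by
      intro x
      rw [Fintype.sum_prod_type]
      rfl
    simp only [this]
    rw [integral_finsetSum]
    intro k _
    have hk : Continuous fun x => fderiv ℝ ψ x (EuclideanSpace.single k 1) :=
      IBP837.fderiv_apply_continuous (hψ.1.of_le (by simp)) _
    have hkc : HasCompactSupport fun x => fderiv ℝ ψ x (EuclideanSpace.single k 1) :=
      IBP837.hasCompactSupport_fderiv_apply hψ.2 _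
    exact (memLp_two_iff_integrable_sq_norm hk.aestronglyMeasurable).1
      (hk.memLp_of_hasCompactSupport hkc)
  have hi : Integrable (fun x : Cfg N => C * (‖x‖ * ‖ψ x‖ ^ 2)) volume :=
    (SCoer186.integrable_mul_sq hψ continuous_norm).const_mul C
  have h2 : ‖∫ x, (⟪ψ x, Yop b M G x (ψ x)⟫_ℂ).re‖ ≤ ∫ x : Cfg N, C * (‖x‖ * ‖ψ x‖ ^ 2) := by
    refine norm_integral_le_of_norm_le hi (Eventually.of_forall fun x => ?_)
    calc ‖(⟪ψ x, Yop b M G x (ψ x)⟫_ℂ).re‖ ≤ ‖⟪ψ x, Yop b M G x (ψ x)⟫_ℂ‖ :=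
          Complex.abs_re_le_norm _
      _ ≤ ‖ψ x‖ * ‖Yop b M G x (ψ x)‖ := norm_inner_le_norm _ _
      _ ≤ ‖ψ x‖ * (C * ‖x‖ * ‖ψ x‖) := by gcongr; exact hY x _
      _ = _ := by ring
  rw [integral_const_mul, Real.norm_eq_abs] at h2
  have h3 := (abs_le.1 h2).1
  have e2 : SCoer186.q b M G ψ = 1 / 2 * SCoer186.en ψ +
      (∫ x : Cfg N, Bar186.pot b x * ‖ψ x‖ ^ 2) + ∫ x, (⟪ψ x, Yop b M G x (ψ x)⟫_ℂ).re := by
    rw [e1, ← h]
    rfl
  rw [e2]
  linarith

/-! ### the charges as one operator -/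

section charges

variable {b : ColorBasis N} {M : FermionRep N F}

/-- one quarter of the sixteen supercharges -/
def Qh (R : GaugeAction b M) (G : GammaNine) : core b R →ₗ[ℂ] L2' N F :=
  (((1 / 4 : ℝ) : ℂ)) • QC R G 1 0

variable {R : GaugeAction b M} {G : GammaNine}

theorem Qh_apply (φ : core b R) : Qh R G φ = (((1 / 4 : ℝ) : ℂ)) • QC R G 1 0 φ := rfl

theorem dch (G : GammaNine) (α : Fin 16) (φ : Cfg N → F) :
    dcharge b M G 1 0 α φ = supercharge b M G α φ :=
  funext fun x => dcharge_one_zero b M G α φ x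

theorem inner_Qh (φ ψ : core b R) : ⟪Qh R G φ, Qh R G ψ⟫_ℂ =
    (1 / 16 : ℂ) * ∑ α, ∫ x, ⟪supercharge b M G α φ.1 x, supercharge b M G α ψ.1 x⟫_ℂ := by
  rw [Qh_apply, Qh_apply, inner_smul_left, inner_smul_right, inner_QC, Complex.conj_ofReal]
  simp only [dch]
  push_cast
  ring

theorem norm_Qh_sq (φ : core b R) : ‖Qh R G φ‖ ^ 2 = SCoer186.q b M G φ.1 := by
  rw [Qh_apply, norm_smul, mul_pow, norm_QC_sq]
  unfold qf SCoer186.q
  simp only [dch, Complex.norm_real, Real.norm_eq_abs]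
  rw [abs_of_nonneg (by norm_num : (0 : ℝ) ≤ 1 / 4)]
  ring

/-- **closability** -/
theorem closable (φ : ℕ → core b R) (k : L2' N F)
    (h1 : Tendsto (fun n => ιC R (φ n)) atTop (𝓝 0))
    (h2 : Tendsto (fun n => Qh R G (φ n)) atTop (𝓝 k)) : k = 0 := by
  have h1' : Tendsto (fun n => eLpNorm (φ n).1 2 volume) atTop (𝓝 0) := by
    have h := (tendsto_toLp_iff (fun n => cv_memLp (φ n).2)
      (MemLp.zero (μ := (volume : Measure (Cfg N))) (p := 2) (ε := F))).1 h1
    simpa using h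
  have h3 : Tendsto (fun n => QC R G 1 0 (φ n)) atTop (𝓝 ((4 : ℂ) • k)) := by
    have := h2.const_smul (4 : ℂ)
    refine this.congr fun n => ?_
    rw [Qh_apply, smul_smul]
    norm_num
  ext1 α
  have h4 : Tendsto (fun n => qL R G 1 0 α (φ n)) atTop (𝓝 ((4 : ℂ) • k α)) := by
    have h5 := ((PiLp.continuous_ofLp 2 (fun _ : Fin 16 => L2 N F)).tendsto _).comp h3
    exact (tendsto_pi_nhds.1 h5) α
  have h6 : Tendsto (fun n => eLpNorm (supercharge b M G α (φ n).1 -
      (((4 : ℂ) • k α : L2 N F) : Cfg N → F)) 2 volume) atTop (𝓝 0) := by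
    have h := (tendsto_toLp_iff (fun n => cv_memLp_dcharge G 1 0 α (φ n).2)
      (Lp.memLp ((4 : ℂ) • k α))).1 (by rw [Lp.toLp_coeFn]; exact h4)
    simpa only [dch] using h
  have h7 := IBP837.supercharge_closable (fun n => (φ n).2.1.of_le (by simp))
    (fun n => (φ n).2.2.1) (Lp.memLp _) h1' h6
  have h8 : (4 : ℂ) • k α = 0 := by
    rw [Lp.ext_iff]
    exact h7.trans (Lp.coeFn_zero F 2 volume).symm
  show k α = 0
  exact (smul_eq_zero.1 h8).resolve_left (by norm_num)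

/-- core vectors of disjoint supports are independent -/
theorem indep {φ : ℕ → core b R} (h0 : ∀ n, (φ n).1 ≠ 0)
    (hd : ∀ n k, n ≠ k → ∀ x, (φ n).1 x = 0 ∨ (φ k).1 x = 0) :
    LinearIndependent ℂ fun n => ιC R (φ n) := by
  refine linearIndependent_of_ne_zero_of_inner_eq_zero ?_ ?_
  · intro n hn
    have h := norm_ιC_sq (φ n)
    rw [hn, norm_zero] at h
    have hc : Continuous fun x => ‖(φ n).1 x‖ ^ 2 := ((φ n).2.1.continuous.norm.pow 2)
    have h2 : (fun x => ‖(φ n).1 x‖ ^ 2) = 0 := by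
      have h3 : ∫ x, ‖(φ n).1 x‖ ^ 2 = 0 := by rw [← h]; norm_num
      have hi : Integrable (fun x => ‖(φ n).1 x‖ ^ 2) volume :=
        (memLp_two_iff_integrable_sq_norm (φ n).2.1.continuous.aestronglyMeasurable).1
          (cv_memLp (φ n).2)
      have h4 := (integral_eq_zero_iff_of_nonneg (fun x => by positivity) hi).1 h3
      exact (Continuous.ae_eq_iff_eq volume hc continuous_zero).1 h4
    refine h0 n (funext fun x => ?_)
    have := congrFun h2 x
    simpa using this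
  · intro n k hnk
    rw [inner_ιC]
    have : ∀ x, ⟪(φ n).1 x, (φ k).1 x⟫_ℂ = 0 := by
      intro x
      rcases hd n k hnk x with h | h
      · rw [h, inner_zero_left]
      · rw [h, inner_zero_right]
    simp [this]

/-- **the weak equation in the graph space is `IsEigenpair`** -/
theorem isEigenpair_of {v : Gph (ιC R) (Qh R G)} {E : ℝ} {Ψ : Cfg N → F} (hΨ : MemLp Ψ 2 volume)
    (hJ : JG (ιC R) (Qh R G) v = hΨ.toLp Ψ)
    (hw : ∀ ψ : core b R, ⟪WG (ιC R) (Qh R G) v, Qh R G ψ⟫_ℂ =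
      (E : ℂ) * ⟪JG (ιC R) (Qh R G) v, ιC R ψ⟫_ℂ) :
    IsEigenpair b M R G E Ψ := by
  obtain ⟨φ, hφ⟩ := exists_seq v
  have h1 := tendsto_J hφ
  have h2 := tendsto_W hφ
  rw [hJ] at h1
  refine ⟨hΨ, fun n => (φ n).1, fun n => (φ n).2,
    (tendsto_toLp_iff (fun n => cv_memLp (φ n).2) hΨ).1 h1, ?_, ?_⟩
  · intro α ε hε
    have h3 : Tendsto (fun n => QC R G 1 0 (φ n)) atTop (𝓝 ((4 : ℂ) • WG (ιC R) (Qh R G) v)) := by
      have := h2.const_smul (4 : ℂ)
      refine this.congr fun n => ?_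
      rw [Qh_apply, smul_smul]
      norm_num
    have h4 : Tendsto (fun n => qL R G 1 0 α (φ n)) atTop
        (𝓝 (((4 : ℂ) • WG (ιC R) (Qh R G) v) α)) := by
      have h5 := ((PiLp.continuous_ofLp 2 (fun _ : Fin 16 => L2 N F)).tendsto _).comp h3
      exact (tendsto_pi_nhds.1 h5) α
    have h5 := EMetric.cauchySeq_iff.1 h4.cauchySeq ε hε
    obtain ⟨n₀, hn₀⟩ := h5
    refine ⟨n₀, fun n hn k hk => ?_⟩
    have h6 := hn₀ n hn k hk
    unfold qL at h6
    rw [Lp.edist_toLp_toLp] at h6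
    simpa only [dch] using h6
  · intro ψ hψ
    have h3 : Tendsto (fun n => ⟪Qh R G (φ n), Qh R G ⟨ψ, hψ⟩⟫_ℂ) atTop
        (𝓝 ⟪WG (ιC R) (Qh R G) v, Qh R G ⟨ψ, hψ⟩⟫_ℂ) := h2.inner tendsto_const_nhds
    rw [hw, hJ, ιC_apply, Dict416.inner_toLp] at h3
    exact h3.congr fun n => inner_Qh (φ n) ⟨ψ, hψ⟩

end charges

end Crest.Agent.R330.SFin726

end
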