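import Crest.Agent.R330.Cpt13_893
import Crest.Agent.R330.Sym3_613
import Crest.Agent.R330.SFin_726

/-!
# Row 330, S13.CPT (helper893), literal end

`hcpt_lit` : the compactness hypothesis of `Graph893.exists_eigen_core` for the sector of weight `m`
(`m` large), two colours, `ι = ιC R`, `Q = SFin726.Qh R G`, symmetries = the flows of `KM a`, `KP`.
-/

set_option autoImplicit false
set_option linter.unusedSectionVars false

open MeasureTheory Filter Topology Set
open scoped ContDiff InnerProductSpace ENNReal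

noncomputable section

namespace Crest.Agent.R330.Cpt893

open Crest.MathPhysics.MatrixQM
open Crest.Agent.R330.Defs478 (core)
open Crest.Agent.R330.Dict416 (L2 ιC)
open Crest.Agent.R330.Graph893
open Crest.Agent.R330.SCoer186
open Crest.Agent.R330.SDefs726
open Crest.Agent.R330.SFin726 (Qh norm_Qh_sq energyLB)

variable {N : ℕ} {F : Type*} [NormedAddCommGroup F] [InnerProductSpace ℂ F]
  [FiniteDimensional ℂ F] {M : FermionRep N F} {G : GammaNine}

theorem weak_of_flow {a : Matrix (Fin 9) (Fin 9) ℝ} (ha : a.transpose = -a) {m : ℝ}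
    {f : Cfg N → F} (hf : MemLp f 2 volume)
    (hU : ∀ t : ℝ, U M G a t f =ᵐ[volume] Complex.exp ((m * t : ℝ) * Complex.I) • f) :
    Weak a (shf (Sp M G a) m) f := by
  intro η hη
  have hl : LocallyIntegrable f volume := hf.locallyIntegrable (by norm_num)
  have h1 := Sym613.weak_of_weight (M := M) (G := G) ha hl hU (ψ := η)
    (hη.1.of_le (by norm_cast)) hη.2
  have h2 : ∀ x, ⟪SJop186.Jop a (shf (Sp M G a) m) η x, f x⟫_ℂ =
      starRingEnd ℂ (⟪f x, Jg M G a η x⟫_ℂ - (m * Complex.I) * ⟪f x, η x⟫_ℂ) := by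
    intro x
    have h3 : SJop186.Jop a (shf (Sp M G a) m) η x =
        Jg M G a η x - ((m : ℂ) * Complex.I) • η x := by
      simp only [SJop186.Jop, Jg, shf, LinearMap.sub_apply, LinearMap.smul_apply, LinearMap.id_apply]
      abel
    rw [h3, ← inner_conj_symm, inner_sub_right, inner_smul_right]
  simp only [h2]
  rw [integral_conj]
  have hJ : Ts (Jg M G a η) := hη.jop a (Sp M G a)
  have i1 : Integrable (fun x => ⟪f x, Jg M G a η x⟫_ℂ) volume :=
    (L2.integrable_inner (hf.toLp f) (hJ.memLp.toLp _)).congr (by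
      filter_upwards [hf.coeFn_toLp, hJ.memLp.coeFn_toLp] with x hx hy
      rw [hx, hy])
  have i2 : Integrable (fun x => ⟪f x, η x⟫_ℂ) volume :=
    (L2.integrable_inner (hf.toLp f) (hη.memLp.toLp _)).congr (by
      filter_upwards [hf.coeFn_toLp, hη.memLp.coeFn_toLp] with x hx hy
      rw [hx, hy])
  rw [integral_sub i1 (i2.const_mul _), integral_const_mul, h1, sub_self, map_zero]

theorem shf_zero (S : F →ₗ[ℂ] F) : shf S 0 = S := by
  ext v
  simp [shf]

theorem weak_of_flow_fixed {a : Matrix (Fin 9) (Fin 9) ℝ} (ha : a.transpose = -a)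
    {f : Cfg N → F} (hf : MemLp f 2 volume) (hU : ∀ t : ℝ, U M G a t f =ᵐ[volume] f) :
    Weak a (Sp M G a) f := by
  have h := weak_of_flow (M := M) (G := G) (m := 0) ha hf fun t => by
    simpa using hU t
  rwa [shf_zero] at h

/-- a common bound for finitely many linear maps -/
theorem exists_bound_lin (S : Fin 3 → F →ₗ[ℂ] F) (T : F →ₗ[ℂ] F) :
    ∃ c : ℝ, (∀ v, ‖T v‖ ≤ c * ‖v‖) ∧ ∀ k v, ‖S k v‖ ≤ c * ‖v‖ := by
  refine ⟨‖LinearMap.toContinuousLinearMap T‖ +
    ∑ k, ‖LinearMap.toContinuousLinearMap (S k)‖, fun v => ?_, fun k v => ?_⟩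
  · refine ((LinearMap.toContinuousLinearMap T).le_opNorm v).trans ?_
    have : 0 ≤ ∑ k, ‖LinearMap.toContinuousLinearMap (S k)‖ :=
      Finset.sum_nonneg fun _ _ => norm_nonneg _
    exact mul_le_mul_of_nonneg_right (by linarith) (norm_nonneg v)
  · refine ((LinearMap.toContinuousLinearMap (S k)).le_opNorm v).trans ?_
    have h1 : ‖LinearMap.toContinuousLinearMap (S k)‖ ≤
        ∑ k, ‖LinearMap.toContinuousLinearMap (S k)‖ :=
      Finset.single_le_sum (f := fun k => ‖LinearMap.toContinuousLinearMap (S k)‖)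
        (fun _ _ => norm_nonneg _) (Finset.mem_univ k)
    exact mul_le_mul_of_nonneg_right (by linarith [norm_nonneg (LinearMap.toContinuousLinearMap T)])
      (norm_nonneg v)

/-- the weights of the sector -/
def wgt (m : ℝ) : (Fin 3 × ℝ) ⊕ ℝ → ℂ :=
  Sum.elim (fun _ => 1) fun t => Complex.exp ((m * t : ℝ) * Complex.I)

theorem sector_weak {m : ℝ} {u : (Fin 3 × ℝ) ⊕ ℝ → L2 N F ≃ₗᵢ[ℂ] L2 N F}
    (huM : ∀ a t (f : L2 N F), (u (Sum.inl (a, t)) f : Cfg N → F) =ᵐ[volume] U M G (KM a) t f)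
    (huP : ∀ t (f : L2 N F), (u (Sum.inr t) f : Cfg N → F) =ᵐ[volume] U M G KP t f)
    {f : L2 N F} (hf : ∀ i, u i f = wgt m i • f) :
    Weak KP (shf (Sp M G KP) m) (f : Cfg N → F) ∧
      ∀ k, Weak (KM k) (Sp M G (KM k)) (f : Cfg N → F) := by
  refine ⟨weak_of_flow KP_transpose (Lp.memLp f) fun t => ?_, fun k =>
    weak_of_flow_fixed (KM_transpose k) (Lp.memLp f) fun t => ?_⟩
  · have h1 := huP t f
    rw [hf] at h1
    exact h1.symm.trans (Lp.coeFn_smul _ _)
  · have h1 := huM k t f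
    rw [hf] at h1
    have h2 : wgt m (Sum.inl (k, t)) • f = f := by simp [wgt]
    rw [h2] at h1
    exact h1.symm

/-- **the compactness hypothesis of `exists_eigen_core`** -/
theorem hcpt_lit (b : ColorBasis 2) (M : FermionRep 2 F) (R : GaugeAction b M) (G : GammaNine) :
    ∃ m₀ : ℝ, ∀ m : ℝ, m₀ ≤ m → ∀ u : (Fin 3 × ℝ) ⊕ ℝ → L2 2 F ≃ₗᵢ[ℂ] L2 2 F,
      (∀ a t (f : L2 2 F), (u (Sum.inl (a, t)) f : Cfg 2 → F) =ᵐ[volume] U M G (KM a) t f) →
      (∀ t (f : L2 2 F), (u (Sum.inr t) f : Cfg 2 → F) =ᵐ[volume] U M G KP t f) →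
      ∀ v : ℕ → Gph (ιC R) (Qh R G), (∀ n, v n ∈ Sct (ιC R) (Qh R G) u (wgt m)) →
      ∀ B : ℝ, (∀ n, ‖v n‖ ≤ B) →
      ∃ k : ℕ → ℕ, StrictMono k ∧ CauchySeq (fun n => JG (ιC R) (Qh R G) (v (k n))) := by
  have h1 := energyLB b M G
  have h2 := exists_bound_lin (fun k => Sp M G (KM k)) (Sp M G KP)
  cases h1 with | intro C hC => ?_
  cases h2 with | intro c hc => ?_
  exact ⟨4 * c + 16 * (C + 1), fun m hm u huM huP v hv B hB =>
    hcpt (norm_Qh_sq (R := R) (G := G)) hC.1 hC.2 hc.1 hc.2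
    (fun v w => Sym613.Sp_skew KP_transpose v w) (fun k v w => Sym613.Sp_skew (KM_transpose k) v w)
    (hm.trans (le_abs_self m)) (fun f hf => sector_weak huM huP hf) v hv B hB⟩

end Crest.Agent.R330.Cpt893
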