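import Crest.Agent.R330.Strata_737

/-!
# Row 330, S9-CAPBIND (helper737), part B: the local structure of the strata

* `ctrS b c` : configurations commuting with the Lie algebra of the stabiliser of `c`
  (= `R^9 ⊗ centre(k)` for commuting `c`), a subspace of `Nor b c` (`ctrS_le_Nor`), stable under
  `Stab c`.
* `near_stratum` : for `c ∈ Str b (k+1) \ Str b k`, near `c` every point of `Str b (k+1)` is
  `act h (c + r)`, `r ∈ ctrS b c`, `‖r‖ < η`.
* `tubeS b c η δ` : the points `act h (c + y)`, `y ∈ Nor b c`, `‖y‖ < η`, with distance of `y` to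
  `ctrS b c` less than `δ`; open for small `η` (`isOpen_tubeS`).
-/

set_option autoImplicit false
set_option linter.unusedSectionVars false

open Filter Topology Crest.MathPhysics.MatrixQM
open scoped InnerProductSpace

namespace Crest.Agent.R330.Strata737

open Crest.Agent.R330.AcomV302 Crest.Agent.R330.OffCm302
open Crest.Agent.R330.SUgrp596 Crest.Agent.R330.SlA314 Crest.Agent.R330.SlB314
open Crest.Agent.R330.SlC314 Crest.Agent.R330.SlD314 Crest.Agent.R330.SlP314

noncomputable section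

variable {N : ℕ} (b : ColorBasis N)

theorem brx_zero_right (om : Fin (N ^ 2 - 1) → ℝ) : brx b om (0 : Cfg N) = 0 := by
  have h := brx_smul_right b 0 om (0 : Cfg N)
  rwa [zero_smul, zero_smul] at h

/-- the centraliser of the stabiliser algebra of `c` -/
def ctrS (c : Cfg N) : Submodule ℝ (Cfg N) where
  carrier := {r | ∀ om, brx b om c = 0 → brx b om r = 0}
  add_mem' := by
    intro r s hr hs om hom
    rw [brx_add_right, hr om hom, hs om hom, add_zero]
  zero_mem' := fun om _ => brx_zero_right b om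
  smul_mem' := by
    intro t r hr om hom
    rw [brx_smul_right, hr om hom, smul_zero]

theorem mem_ctrS {c r : Cfg N} : r ∈ ctrS b c ↔ ∀ om, brx b om c = 0 → brx b om r = 0 := Iff.rfl

theorem brx_eq_zero_iff (om : Fin (N ^ 2 - 1) → ℝ) (x : Cfg N) :
    brx b om x = 0 ↔ ∀ i, cm b om * mat b x i = mat b x i * cm b om := by
  constructor
  · intro h i
    have h1 := mat_brx b om x i
    rw [h] at h1
    have h2 : mat b (0 : Cfg N) i = 0 := by
      have := mat_smul b 0 (0 : Cfg N) i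
      rw [zero_smul] at this
      rw [this]; simp
    rw [h2] at h1
    have h3 : cm b om * mat b x i - mat b x i * cm b om = 0 := by
      have h4 := h1.symm
      rw [smul_eq_zero] at h4
      exact h4.resolve_left (by simp)
    exact sub_eq_zero.1 h3
  · intro h
    apply mat_inj b
    intro i
    rw [mat_brx, h i, sub_self, smul_zero]
    have := mat_smul b 0 (0 : Cfg N) i
    rw [zero_smul] at this
    rw [this]; simp

/-- commuting configurations in terms of matrices -/
theorem mem_Cm_mat (hN : 0 < N) {c : Cfg N} (hc : c ∈ Cm b) (i j : Fin 9) :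
    mat b c i * mat b c j = mat b c j * mat b c i := by
  obtain ⟨g, p, hp, he⟩ := (mem_Cm_iff hN b c).1 hc
  have h1 : c = b.act g⁻¹ (diagCfg b p) := by rw [← he, act_inv_act]
  have h2 : ∀ i, mat b (diagCfg b p) i = Matrix.diagonal fun a => (p i a : ℂ) := fun i =>
    cmat_diagCfg b p hp i
  rw [h1, mat_act, mat_act, h2, h2]
  set U : Matrix (Fin N) (Fin N) ℂ := ((g⁻¹ : Matrix.specialUnitaryGroup (Fin N) ℂ) :
    Matrix (Fin N) (Fin N) ℂ) with hU
  have h3 : star U * U = 1 := star_mul_self' _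
  have e : ∀ X Y : Matrix (Fin N) (Fin N) ℂ, U * X * star U * (U * Y * star U) =
      U * (X * Y) * star U := by
    intro X Y
    calc U * X * star U * (U * Y * star U) = U * X * (star U * U) * (Y * star U) := by
          simp only [Matrix.mul_assoc]
      _ = _ := by rw [h3]; simp only [Matrix.mul_assoc, Matrix.mul_one]
  rw [e, e, Matrix.diagonal_mul_diagonal, Matrix.diagonal_mul_diagonal]
  congr 2
  congr 1
  funext a
  ring

/-- the central directions are normal to the orbit -/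
theorem ctrS_le_Nor (hN : 0 < N) {c : Cfg N} (hc : c ∈ Cm b) : ctrS b c ≤ Nor b c := by
  intro r hr
  rw [mem_Nor]
  intro om
  -- each `c_i` is in the stabiliser algebra
  have hci : ∀ i j, mat b c i * mat b r j = mat b r j * mat b c i := by
    intro i
    have h1 : brx b (fun A => c (i, A)) c = 0 := by
      rw [brx_eq_zero_iff]
      intro j
      exact mem_Cm_mat b hN hc i j
    exact (brx_eq_zero_iff b _ _).1 (hr _ h1)
  have h : ((inner ℝ (brx b om c) r : ℝ) : ℂ) = 0 := by
    rw [inner_eq b]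
    refine Finset.sum_eq_zero fun i _ => ?_
    rw [mat_brx, smul_mul_assoc, Matrix.trace_smul]
    have h2 : ((cm b om * mat b c i - mat b c i * cm b om) * mat b r i).trace = 0 := by
      rw [Matrix.sub_mul, Matrix.trace_sub, Matrix.mul_assoc, hci i i, ← Matrix.mul_assoc,
        Matrix.trace_mul_comm (cm b om * mat b r i), ← Matrix.mul_assoc, sub_self]
    rw [h2, smul_zero]
  exact_mod_cast h

theorem brx_act (g : Matrix.specialUnitaryGroup (Fin N) ℂ) (om : Fin (N ^ 2 - 1) → ℝ)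
    (x : Cfg N) :
    brx b (fun A => ∑ B, b.adjMat g A B * om B) (b.act g x) = b.act g (brx b om x) := by
  apply mat_inj b
  intro i
  rw [mat_brx, mat_act, mat_act, mat_brx, cm_adj]
  set U : Matrix (Fin N) (Fin N) ℂ := (g : Matrix (Fin N) (Fin N) ℂ) with hU
  have h3 : star U * U = 1 := star_mul_self' _
  have e : ∀ X Y : Matrix (Fin N) (Fin N) ℂ, U * X * star U * (U * Y * star U) =
      U * (X * Y) * star U := by
    intro X Y
    calc U * X * star U * (U * Y * star U) = U * X * (star U * U) * (Y * star U) := by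
          simp only [Matrix.mul_assoc]
      _ = _ := by rw [h3]; simp only [Matrix.mul_assoc, Matrix.mul_one]
  rw [e, e, mul_smul_comm, smul_mul_assoc, Matrix.mul_sub, Matrix.sub_mul]

/-- equivariance of `ctrS` -/
theorem act_mem_ctrS {c r : Cfg N} (g : Matrix.specialUnitaryGroup (Fin N) ℂ)
    (hr : r ∈ ctrS b c) : b.act g r ∈ ctrS b (b.act g c) := by
  intro om hom
  set om' : Fin (N ^ 2 - 1) → ℝ := fun A => ∑ B, b.adjMat g⁻¹ A B * om B with hom'
  have h1 : brx b om' c = 0 := by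
    have h := brx_act b g⁻¹ om (b.act g c)
    rw [act_inv_act, hom] at h
    rw [hom', h]
    exact norm_eq_zero.1 (by rw [act_norm, norm_zero])
  have h2 := hr om' h1
  have h3 := brx_act b g⁻¹ om (b.act g r)
  rw [act_inv_act] at h3
  rw [← hom', h2] at h3
  have h4 := congrArg (b.act g) h3
  rw [act_act_inv] at h4
  rw [← h4]
  exact norm_eq_zero.1 (by rw [act_norm, norm_zero])

/-- the model: diagonal configurations -/
theorem diag_mem_ctrS {p q : Fin 9 → Fin N → ℝ} (hp : ∀ i, ∑ a, p i a = 0)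
    (hq : ∀ i, ∑ a, q i a = 0) (h : ∀ a a', pt p a = pt p a' → pt q a = pt q a') :
    diagCfg b q ∈ ctrS b (diagCfg b p) := by
  intro om hom
  rw [brx_eq_zero_iff] at hom ⊢
  have h2 : ∀ i, mat b (diagCfg b p) i = Matrix.diagonal fun a => (p i a : ℂ) := fun i =>
    cmat_diagCfg b p hp i
  have h3 : ∀ i, mat b (diagCfg b q) i = Matrix.diagonal fun a => (q i a : ℂ) := fun i =>
    cmat_diagCfg b q hq i
  have hz : ∀ a a', pt p a ≠ pt p a' → cm b om a a' = 0 := by
    intro a a' hne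
    obtain ⟨i, hi⟩ := Function.ne_iff.1 hne
    have h4 := congrFun (congrFun (hom i) a) a'
    rw [h2, Matrix.mul_diagonal, Matrix.diagonal_mul] at h4
    have h5 : cm b om a a' * ((p i a' : ℂ) - (p i a : ℂ)) = 0 := by
      rw [mul_sub, h4]; ring
    rcases mul_eq_zero.1 h5 with h6 | h6
    · exact h6
    · exfalso
      apply hi
      have h7 : (p i a' : ℂ) = (p i a : ℂ) := sub_eq_zero.1 h6
      exact (Complex.ofReal_injective h7).symm
  intro i
  ext a a'
  rw [h3, Matrix.mul_diagonal, Matrix.diagonal_mul]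
  by_cases hpa : pt p a = pt p a'
  · have h4 : q i a = q i a' := congrFun (h a a' hpa) i
    rw [h4]; ring
  · rw [hz a a' hpa]; ring

theorem diagCfg_add (p q : Fin 9 → Fin N → ℝ) :
    diagCfg b (p + q) = diagCfg b p + diagCfg b q := by
  ext iA
  change (b.T iA.2 * Matrix.diagonal fun a => ((p iA.1 a + q iA.1 a : ℝ) : ℂ)).trace.re =
    (b.T iA.2 * Matrix.diagonal fun a => (p iA.1 a : ℂ)).trace.re +
      (b.T iA.2 * Matrix.diagonal fun a => (q iA.1 a : ℂ)).trace.re
  rw [← Complex.add_re, ← Matrix.trace_add, ← Matrix.mul_add, Matrix.diagonal_add]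
  simp

/-- **Near a point with exactly `k+1` clusters the stratum is the set of central displacements.** -/
theorem near_stratum {k : ℕ} {c : Cfg N} (hc : c ∉ Str b k) {η : ℝ} (hη : 0 < η) :
    ∀ᶠ x in 𝓝 c, x ∈ Str b (k + 1) → ∃ (h : Matrix.specialUnitaryGroup (Fin N) ℂ) (r : Cfg N),
      r ∈ ctrS b c ∧ ‖r‖ < η ∧ x = b.act h (c + r) := by
  by_contra hcon
  rw [Filter.not_eventually] at hcon
  have hfr : ∃ᶠ x in 𝓝 c, x ∈ Str b (k + 1) ∧ ¬ ∃ (h : Matrix.specialUnitaryGroup (Fin N) ℂ)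
      (r : Cfg N), r ∈ ctrS b c ∧ ‖r‖ < η ∧ x = b.act h (c + r) :=
    hcon.mono fun x hx => Classical.not_imp.1 hx
  obtain ⟨u, hu, hus⟩ : ∃ u : Ultrafilter (Cfg N), (u : Filter (Cfg N)) ≤ 𝓝 c ∧
      ∀ᶠ x in (u : Filter (Cfg N)), x ∈ Str b (k + 1) ∧
        ¬ ∃ (h : Matrix.specialUnitaryGroup (Fin N) ℂ)
      (r : Cfg N), r ∈ ctrS b c ∧ ‖r‖ < η ∧ x = b.act h (c + r) := by
    have hne := Filter.frequently_iff_neBot.1 hfr
    have hle := Ultrafilter.of_le (𝓝 c ⊓ 𝓟 {x | x ∈ Str b (k + 1) ∧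
        ¬ ∃ (h : Matrix.specialUnitaryGroup (Fin N) ℂ)
      (r : Cfg N), r ∈ ctrS b c ∧ ‖r‖ < η ∧ x = b.act h (c + r)})
    exact ⟨_, hle.trans inf_le_left, (hle.trans inf_le_right) (Filter.mem_principal_self _)⟩
  have hs : Str b (k + 1) ∈ u := by
    filter_upwards [hus] with x hx
    exact hx.1
  obtain ⟨G, P, g, p, hev, hG, hPt, hp, he, hk⟩ := limit_struct b u hu hs
  -- `p` has exactly `k + 1` values
  have hnp : k + 1 ≤ nv p := by
    by_contra hlt
    push Not at hlt
    exact hc ⟨g, p, hp, Nat.lt_succ_iff.1 hlt, he⟩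
  -- the displacement
  have hsub : Tendsto (fun x => diagCfg b (P x + (-1 : ℝ) • p)) u (𝓝 0) := by
    have h1 : Tendsto (fun x => P x + (-1 : ℝ) • p) u (𝓝 (p + (-1 : ℝ) • p)) :=
      hPt.add tendsto_const_nhds
    have h2 : p + (-1 : ℝ) • p = 0 := by rw [neg_one_smul, add_neg_cancel]
    rw [h2] at h1
    have h3 := tendsto_diagCfg b h1
    have h0 : diagCfg b (0 : Fin 9 → Fin N → ℝ) = 0 := by
      ext iA
      change (b.T iA.2 * Matrix.diagonal fun a => ((0 : ℝ) : ℂ)).trace.re = 0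
      simp
    rwa [h0] at h3
  have hsmall : ∀ᶠ x in (u : Filter (Cfg N)), ‖diagCfg b (P x + (-1 : ℝ) • p)‖ < η := by
    have h1 := hsub.norm
    rw [norm_zero] at h1
    exact h1.eventually_lt_const hη
  obtain ⟨x, hx1, hx2, hx3, hx4⟩ := (hev.and (hk.and (hsmall.and hus))).exists
  refine hx4.2 ⟨(G x)⁻¹ * g, b.act g⁻¹ (diagCfg b (P x + (-1 : ℝ) • p)), ?_, ?_, ?_⟩
  · have hq : ∀ i, ∑ a, (P x + (-1 : ℝ) • p) i a = 0 := by
      intro i
      simp only [Pi.add_apply, Pi.smul_apply, smul_eq_mul, neg_one_mul, Finset.sum_add_distrib,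
        Finset.sum_neg_distrib]
      rw [hx1.1 i, hp i, neg_zero, add_zero]
    have hker : ∀ a a', pt p a = pt p a' → pt (P x + (-1 : ℝ) • p) a =
        pt (P x + (-1 : ℝ) • p) a' := by
      intro a a' haa
      have h1 : pt (P x) a = pt (P x) a' := ker_of_nv hx2 (hx1.2.1.trans hnp) a a' haa
      funext i
      have h2 : P x i a = P x i a' := congrFun h1 i
      have h3 : p i a = p i a' := congrFun haa i
      simp only [pt, Pi.add_apply, Pi.smul_apply, smul_eq_mul]
      rw [h2, h3]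
    have h1 := act_mem_ctrS b g⁻¹ (diag_mem_ctrS b hp hq hker)
    rwa [← he, act_inv_act] at h1
  · rw [act_norm]; exact hx3
  · have h1 : b.act g (c + b.act g⁻¹ (diagCfg b (P x + (-1 : ℝ) • p))) = diagCfg b (P x) := by
      rw [act_add, act_act_inv, he, ← diagCfg_add]
      congr 1
      rw [neg_one_smul]
      abel
    rw [act_mul, h1, ← hx1.2.2, act_inv_act]

/-! ### slice neighbourhoods -/

/-- the projection on the central directions -/
def PF (c : Cfg N) : Cfg N →L[ℝ] Cfg N := (ctrS b c).starProjection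

theorem PF_mem (c y : Cfg N) : PF b c y ∈ ctrS b c := Submodule.starProjection_apply_mem _ _

theorem PF_of_mem {c r : Cfg N} (h : r ∈ ctrS b c) : PF b c r = r :=
  Submodule.starProjection_eq_self_iff.2 h

/-- the slice neighbourhoods of the stratum through `c` -/
def tubeS (c : Cfg N) (η δ : ℝ) : Set (Cfg N) :=
  {x | ∃ (h : Matrix.specialUnitaryGroup (Fin N) ℂ) (y : Cfg N), y ∈ Nor b c ∧ ‖y‖ < η ∧
    ‖y - PF b c y‖ < δ ∧ b.act h (c + y) = x}

theorem tubeS_subset_tube (c : Cfg N) (η δ : ℝ) : tubeS b c η δ ⊆ tube b c η := by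
  rintro x ⟨h, y, hy, hn, -, he⟩
  exact (mem_tube_iff b c η x).2 ⟨h, y, hy, hn, he⟩

theorem isOpen_tubeS {c : Cfg N} {η : ℝ} (hg : GoodRad b c η) (δ : ℝ) :
    IsOpen (tubeS b c η δ) := by
  rw [isOpen_iff_mem_nhds]
  rintro _ ⟨h, y, hy, hn, hd, rfl⟩
  have hyb : y ∈ box b c η := by
    constructor
    · rw [PT_of_mem_Nor b hy, norm_zero]; exact hg.pos
    · rw [PN_of_mem b hy]; exact hn
  have hy' := box_subset_ball b c η hyb
  have hs : HasStrictFDerivAt (Psi b c) (hg.equiv hy' : Cfg N →L[ℝ] Cfg N) y := by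
    have := (contDiff_Psi b c).contDiffAt.hasStrictFDerivAt (x := y) (by simp)
    rwa [← hg.equiv_coe hy'] at this
  have hW : {v : Cfg N | ‖PN b c v‖ < η ∧ ‖PN b c v - PF b c (PN b c v)‖ < δ} ∈ 𝓝 y := by
    refine IsOpen.mem_nhds ?_ ⟨by rw [PN_of_mem b hy]; exact hn, by
      rw [PN_of_mem b hy]; exact hd⟩
    exact (isOpen_lt (PN b c).continuous.norm continuous_const).inter
      (isOpen_lt (((PN b c).continuous.sub ((PF b c).continuous.comp
        (PN b c).continuous)).norm) continuous_const)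
  have h1 : Psi b c '' {v : Cfg N | ‖PN b c v‖ < η ∧ ‖PN b c v - PF b c (PN b c v)‖ < δ} ∈
      𝓝 (Psi b c y) := by
    rw [← hs.map_nhds_eq_of_equiv]
    exact Filter.image_mem_map hW
  have hcont : Continuous fun x : Cfg N => b.act h⁻¹ x := (Col962.actLI b h⁻¹).continuous
  have h2 : (fun x : Cfg N => b.act h⁻¹ x) ⁻¹' (Psi b c ''
      {v : Cfg N | ‖PN b c v‖ < η ∧ ‖PN b c v - PF b c (PN b c v)‖ < δ}) ∈
      𝓝 (b.act h (c + y)) := by
    refine hcont.continuousAt.preimage_mem_nhds ?_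
    rw [act_inv_act, ← Psi_nor b hy]
    exact h1
  refine Filter.mem_of_superset h2 ?_
  rintro x ⟨v, ⟨hv1, hv2⟩, hvx⟩
  refine ⟨h * gexp b (omL b c v), PN b c v, PN_mem b c v, hv1, hv2, ?_⟩
  rw [act_mul]
  have h3 : b.act (gexp b (omL b c v)) (c + PN b c v) = b.act h⁻¹ x := hvx
  rw [h3, act_act_inv]

/-- near `c` the stratum is contained in all slice neighbourhoods -/
theorem stratum_subset_tubeS (hN : 0 < N) {k : ℕ} {c : Cfg N} (hc1 : c ∈ Str b (k + 1))
    (hc : c ∉ Str b k) {η : ℝ} (hη : 0 < η) :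
    ∃ U : Set (Cfg N), IsOpen U ∧ c ∈ U ∧ ∀ δ > 0, U ∩ Str b (k + 1) ⊆ tubeS b c η δ := by
  obtain ⟨U, hU, hUo, hcU⟩ := eventually_nhds_iff.1 (near_stratum b hc hη)
  refine ⟨U, hUo, hcU, fun δ hδ x hx => ?_⟩
  obtain ⟨h, r, hr, hn, he⟩ := hU x hx.1 hx.2
  have hcm : c ∈ Cm b := by
    obtain ⟨g, p, hp, -, he'⟩ := hc1
    exact (mem_Cm_iff hN b c).2 ⟨g, p, hp, he'⟩
  refine ⟨h, r, ctrS_le_Nor b hN hcm hr, hn, ?_, he.symm⟩
  rw [PF_of_mem b hr, sub_self, norm_zero]
  exact hδ

end

end Crest.Agent.R330.Strata737
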