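import Crest.Agent.R330.Bind6_839
import Crest.Agent.R330.StrataB_737

/-!
# Row 330, CAP binding (helper581): commuting configurations near `c` with the same stabiliser

`c` commuting (`Comc b c`), `ctrS b c` (737) the configurations commuting with the stabiliser
algebra of `c`.

* `mem_ctrS_iff` : `r ∈ ctrS b c ↔ kc (actB b) c ≤ kc (actB b) r`.
* `ctrS_le_Uk`, `comp_mem_kk`.
* `X b c p = c + PF b c (p - c)` : `norm_X_sub_le`, `X_self`, `comc_add`, `kc_add`, `gap_add`.
-/

set_option autoImplicit false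
set_option linter.unusedSectionVars false

open Filter Topology Crest.MathPhysics.MatrixQM
open Crest.Agent.R330.IBP837 Crest.Agent.R330.Defs478 Crest.Agent.R330.Frame839
open Crest.Agent.R330.LS839 Crest.Agent.R330.Clus839 Crest.Agent.R330.Bind6839
open scoped InnerProductSpace

noncomputable section

namespace Crest.Agent.R330.Ctr581

open Strata737 (ctrS PF)

variable {N : ℕ} {b : ColorBasis N} {c : Cfg N}

theorem mem_ctrS_iff {r : Cfg N} : r ∈ ctrS b c ↔ kc (actB b) c ≤ kc (actB b) r := by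
  constructor
  · intro h w hw
    exact h w.ofLp hw
  · intro h om hom
    exact h (show (WithLp.toLp 2 om : Colg N) ∈ kc (actB b) c from hom)

/-- components of `r ∈ ctrS` commute with the stabiliser algebra -/
theorem comp_comm {r : Cfg N} (hr : r ∈ ctrS b c) (i : Fin 9) {w : Colg N}
    (hw : w ∈ kc (actB b) c) : (colAlg b).br (comp r i) w = 0 := by
  have h1 := mem_ctrS_iff.1 hr hw
  rw [mem_kc] at h1
  have h2 := congrArg (fun x : Cfg N => comp x i) h1
  simp only [comp_act, comp_zero] at h2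
  rw [(colAlg b).anti, h2, neg_zero]

theorem comp_mem_kk (hc : Comc b c) {r : Cfg N} (hr : r ∈ ctrS b c) (i : Fin 9) :
    comp r i ∈ kc (actB b) c := by
  rw [kc_eq]
  intro j
  have h1 : comp c j ∈ kc (actB b) c := by
    rw [kc_eq]
    exact (colAlg b).self_mem_kk hc j
  have h2 := comp_comm hr i h1
  rw [(colAlg b).anti, h2, neg_zero]

theorem ctrS_le_Uk (hc : Comc b c) : ctrS b c ≤ Uk b c := fun _ hr i => comp_mem_kk hc hr i

theorem comp_comp (hc : Comc b c) {r s : Cfg N} (hr : r ∈ ctrS b c) (hs : s ∈ ctrS b c)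
    (i j : Fin 9) : (colAlg b).br (comp r i) (comp s j) = 0 :=
  comp_comm hr i (comp_mem_kk hc hs j)

theorem self_mem_ctrS (hc : Comc b c) : c ∈ ctrS b c := mem_ctrS_iff.2 le_rfl

/-- configurations of `ctrS` are commuting -/
theorem comc_of_mem (hc : Comc b c) {r : Cfg N} (hr : r ∈ ctrS b c) : Comc b r :=
  fun i j => comp_comp hc hr hr i j

theorem comc_add (hc : Comc b c) {r : Cfg N} (hr : r ∈ ctrS b c) : Comc b (c + r) :=
  comc_of_mem hc ((ctrS b c).add_mem (self_mem_ctrS hc) hr)

/-- **Same stabiliser algebra** near `c`. -/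
theorem kc_eq_of (hc : Comc b c) {ρ B : ℝ} (hρ : 0 < ρ) (hg : GapAt (actB b) c ρ)
    (hB : ActBound (actB b) B) {x : Cfg N} (hx : x ∈ ctrS b c) (hxc : B * ‖x - c‖ ≤ ρ / 2) :
    kc (actB b) x = kc (actB b) c := by
  refine le_antisymm ?_ (mem_ctrS_iff.1 hx)
  intro w hw
  -- decompose `w = u + v`, `u ∈ kc c`, `v ∈ (kc c)ᗮ`
  set v := (kc (actB b) c)ᗮ.starProjection w with hv
  set u := (kc (actB b) c).starProjection w with hu
  have huv : w = u + v :=
    (Submodule.starProjection_add_starProjection_orthogonal (K := kc (actB b) c) w).symm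
  have hu1 : u ∈ kc (actB b) c := Submodule.starProjection_apply_mem _ _
  have hv1 : v ∈ (kc (actB b) c)ᗮ := Submodule.starProjection_apply_mem _ _
  have h1 : actB b u x = 0 := mem_ctrS_iff.1 hx hu1
  have h2 : actB b v x = 0 := by
    have h3 : actB b w x = 0 := hw
    rw [huv, map_add, ContinuousLinearMap.add_apply, h1, zero_add] at h3
    exact h3
  have h4 := hg v hv1
  have h5 : actB b v c = -actB b v (x - c) := by
    rw [map_sub, h2, zero_sub, neg_neg]
  rw [h5, norm_neg] at h4
  have h6 := hB v (x - c)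
  have h7 : B * ‖v‖ * ‖x - c‖ ≤ ρ / 2 * ‖v‖ := by
    have := mul_le_mul_of_nonneg_right hxc (norm_nonneg v)
    nlinarith
  have h8 : ‖v‖ = 0 := by
    by_contra hne
    have : 0 < ‖v‖ := lt_of_le_of_ne (norm_nonneg _) (Ne.symm hne)
    nlinarith [mul_pos hρ this]
  have h9 : v = 0 := norm_eq_zero.1 h8
  rw [huv, h9, add_zero]
  exact hu1

/-- **Gap** at `x` near `c`. -/
theorem gap_of (hc : Comc b c) {ρ B : ℝ} (hρ : 0 < ρ) (hg : GapAt (actB b) c ρ)
    (hB : ActBound (actB b) B) {x : Cfg N} (hx : x ∈ ctrS b c) (hxc : B * ‖x - c‖ ≤ ρ / 2) :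
    GapAt (actB b) x (ρ / 2) := by
  intro w hw
  rw [kc_eq_of hc hρ hg hB hx hxc] at hw
  have h1 := hg w hw
  have h2 := hB w (x - c)
  have h3 : actB b w c = actB b w x - actB b w (x - c) := by
    rw [map_sub]
    abel
  rw [h3] at h1
  have h4 := norm_sub_le (actB b w x) (actB b w (x - c))
  have h7 : B * ‖w‖ * ‖x - c‖ ≤ ρ / 2 * ‖w‖ := by
    have := mul_le_mul_of_nonneg_right hxc (norm_nonneg w)
    nlinarith
  linarith

/-! ## The commuting part of a configuration -/

variable (b c) in
/-- commuting part of `p` near `c` -/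
def X (p : Cfg N) : Cfg N := c + PF b c (p - c)

theorem X_sub (p : Cfg N) : X b c p - c = PF b c (p - c) := by
  unfold X
  rw [add_sub_cancel_left]

theorem X_self : X b c c = c := by
  unfold X
  rw [sub_self, map_zero, add_zero]

theorem norm_X_sub_le (p : Cfg N) : ‖X b c p - c‖ ≤ ‖p - c‖ := by
  rw [X_sub]
  exact (ctrS b c).norm_starProjection_apply_le _

theorem norm_sub_X_le (p : Cfg N) : ‖p - X b c p‖ ≤ ‖p - c‖ := by
  have h1 : p - X b c p = (ctrS b c)ᗮ.starProjection (p - c) := by
    rw [Submodule.starProjection_orthogonal_val]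
    unfold X PF
    abel
  rw [h1]
  exact (ctrS b c)ᗮ.norm_starProjection_apply_le _

theorem X_mem (hc : Comc b c) (p : Cfg N) : X b c p ∈ ctrS b c :=
  (ctrS b c).add_mem (self_mem_ctrS hc) (Strata737.PF_mem b c _)

theorem comc_X (hc : Comc b c) (p : Cfg N) : Comc b (X b c p) := comc_of_mem hc (X_mem hc p)

theorem X_mem_Uk (hc : Comc b c) (p : Cfg N) : X b c p ∈ Uk b c := ctrS_le_Uk hc (X_mem hc p)

theorem continuous_X : Continuous (X b c) := by
  unfold X
  exact continuous_const.add ((PF b c).continuous.comp (continuous_id.sub continuous_const))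

end Crest.Agent.R330.Ctr581

end
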