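import Crest.Agent.R330.PairA_547
import Crest.Agent.R330.GPar_984

/-!
# Row 330, S8-PAIR, error term e10: the cut-off (helper516)

* `cutE`      : the terms of `Qd (κ • τ)` with a derivative on the scalar cut-off `κ`.
* `Qd_smul`   : `Qd (κ • τ) u = κ u • Qd τ u + cutE κ τ u`.
* `cutE_le`   : `‖cutE κ τ u‖ ≤ C ‖fderiv κ u‖ ‖τ u‖`.
* `cut_L2`    : `∫∫ ‖e‖² ≤ C_l (g r₀²)^{-l} ∫ ‖om‖²` for `‖e (p,z)‖ ≤ K 1_{r₀ ≤ ‖z‖} |a₀| ‖om p‖`.
-/

set_option autoImplicit false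
set_option linter.unusedSectionVars false

open MeasureTheory Filter Topology
open scoped ContDiff InnerProductSpace

noncomputable section

namespace Crest.Agent.R330.Cut516

open Crest.Agent.R330.Frame839 Crest.Agent.R330.IBP837 Crest.Agent.R330.PairA547

variable {V E : Type*} [NormedAddCommGroup V] [InnerProductSpace ℝ V] [FiniteDimensional ℝ V]
  [NormedAddCommGroup E] [InnerProductSpace ℝ E] [FiniteDimensional ℝ E]
  {F : Type*} [NormedAddCommGroup F] [InnerProductSpace ℂ F] [FiniteDimensional ℂ F]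
  {ι κ : Type*} [Fintype ι] [Fintype κ]

variable (A : V →L[ℝ] E →L[ℝ] E) (c : E)

/-- The terms with a derivative of the scalar cut-off `k`. -/
def cutE (Θ : E →ₗ[ℝ] (F →ₗ[ℂ] F)) (eT : OrthonormalBasis ι ℝ (Tn A c))
    (eN : OrthonormalBasis κ ℝ (Tn A c)ᗮ) (k : (Tn A c)ᗮ → ℝ) (τ : (Tn A c)ᗮ → F)
    (u : (Tn A c)ᗮ) : F :=
  (∑ n, (-Complex.I) • Θ (eN n) (fderiv ℝ k u (eN n) • τ u)) +
    ∑ n, ∑ t, Complex.I • Θ (eT t) ((fderiv ℝ k u (eN n) * cf A c eT eN n t u) • τ u)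

variable {A c} {r B : ℝ}

theorem fderiv_smul_apply' {X : Type*} [NormedAddCommGroup X] [NormedSpace ℝ X] {k : X → ℝ}
    {f : X → F} {u : X} (hk : DifferentiableAt ℝ k u) (hf : DifferentiableAt ℝ f u) (e : X) :
    fderiv ℝ (fun v => k v • f v) u e = k u • fderiv ℝ f u e + fderiv ℝ k u e • f u := by
  rw [fderiv_fun_smul hk hf]
  simp

/-- **Product rule for the formal adjoint.** -/
theorem Qd_smul (hr0 : 0 < r) (hr : GapAt A c r) (hB : ActBound A B)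
    (Θ : E →ₗ[ℝ] (F →ₗ[ℂ] F)) (W : E → (F →ₗ[ℂ] F)) (Bf : V →ₗ[ℝ] (F →ₗ[ℝ] F))
    (eT : OrthonormalBasis ι ℝ (Tn A c)) (eN : OrthonormalBasis κ ℝ (Tn A c)ᗮ)
    {k : (Tn A c)ᗮ → ℝ} {τ : (Tn A c)ᗮ → F} {u : (Tn A c)ᗮ} (hu : B * ‖u‖ ≤ r / 2)
    (hk : DifferentiableAt ℝ k u) (hτ : DifferentiableAt ℝ τ u) :
    Qd A c Θ W Bf eT eN (fun v => k v • τ v) u =
      k u • Qd A c Θ W Bf eT eN τ u + cutE A c Θ eT eN k τ u := by
  have hcf : ∀ n t, DifferentiableAt ℝ (cf A c eT eN n t) u := fun n t =>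
    (contDiffAt_cf hr0 hr hB eT eN n t hu).differentiableAt (by simp)
  have h1 : ∀ n t, fderiv ℝ (fun v => cf A c eT eN n t v • k v • τ v) u (eN n) =
      k u • fderiv ℝ (fun v => cf A c eT eN n t v • τ v) u (eN n) +
        (fderiv ℝ k u (eN n) * cf A c eT eN n t u) • τ u := by
    intro n t
    have h2 : (fun v => cf A c eT eN n t v • k v • τ v) =
        fun v => k v • (cf A c eT eN n t v • τ v) := by
      funext v
      rw [smul_comm]
    have h3 : DifferentiableAt ℝ (fun v => cf A c eT eN n t v • τ v) u := (hcf n t).smul hτ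
    rw [h2, fderiv_smul_apply' hk h3, smul_smul]
  unfold Qd cutE
  simp only [h1, fderiv_smul_apply' hk hτ, map_add, map_rsmul, smul_add, Finset.sum_add_distrib,
    map_smul, Finset.smul_sum]
  have e1 : ∀ (z : ℂ) (v : F), k u • z • v = z • k u • v := fun z v => smul_comm _ _ _
  simp only [e1]
  abel

theorem exists_bound (Θ : E →ₗ[ℝ] (F →ₗ[ℂ] F)) :
    ∃ C : ℝ, 0 ≤ C ∧ ∀ v f, ‖Θ v f‖ ≤ C * ‖v‖ * ‖f‖ := by
  have : FiniteDimensional ℝ F := FiniteDimensional.complexToReal F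
  let L : E →ₗ[ℝ] (F →ₗ[ℝ] F) :=
    { toFun := fun v => (Θ v).restrictScalars ℝ
      map_add' := by intro v w; ext f; simp
      map_smul' := by intro a v; ext f; simp }
  let L' : E →L[ℝ] (F →L[ℝ] F) := LinearMap.toContinuousLinearMap
    ((LinearMap.toContinuousLinearMap (𝕜 := ℝ) (E := F) (F' := F)).toLinearMap ∘ₗ L)
  exact ⟨‖L'‖, norm_nonneg L', fun v f => L'.le_opNorm₂ v f⟩

theorem abs_cf_le (hr0 : 0 < r) (hr : GapAt A c r) (hB : ActBound A B) (hB0 : 0 ≤ B)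
    (eT : OrthonormalBasis ι ℝ (Tn A c)) (eN : OrthonormalBasis κ ℝ (Tn A c)ᗮ) (n : κ) (t : ι)
    {u : (Tn A c)ᗮ} (hu : B * ‖u‖ ≤ r / 2) : |cf A c eT eN n t u| ≤ 1 := by
  have hx : B * ‖c + (u : E) - c‖ ≤ r / 2 := by
    rw [add_sub_cancel_left]
    exact hu
  have h1 := nn_bound hr0 hr hB hB0 hx (eT t)
  have h2 : ‖(eT t : Tn A c)‖ = 1 := eT.orthonormal.1 t
  have h3 : ‖(eN n : E)‖ = 1 := eN.orthonormal.1 n
  have h4 : |⟪(eN n : E), nn A c (c + u) (eT t)⟫_ℝ| ≤ ‖(eN n : E)‖ * ‖nn A c (c + u) (eT t)‖ :=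
    abs_real_inner_le_norm _ _
  have h5 : 2 * B / r * ‖c + (u : E) - c‖ ≤ 1 := by
    have : 2 * B / r * ‖c + (u : E) - c‖ = 2 / r * (B * ‖c + (u : E) - c‖) := by ring
    rw [this, div_mul_eq_mul_div, div_le_one hr0]
    linarith
  unfold cf
  rw [h3, one_mul] at h4
  rw [h2, mul_one] at h1
  exact h4.trans (h1.trans h5)

/-- **Pointwise size of the cut-off error.** -/
theorem cutE_le (hr0 : 0 < r) (hr : GapAt A c r) (hB : ActBound A B) (hB0 : 0 ≤ B)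
    {Θ : E →ₗ[ℝ] (F →ₗ[ℂ] F)} {C : ℝ} (hC : ∀ v f, ‖Θ v f‖ ≤ C * ‖v‖ * ‖f‖) (hC0 : 0 ≤ C)
    (eT : OrthonormalBasis ι ℝ (Tn A c)) (eN : OrthonormalBasis κ ℝ (Tn A c)ᗮ)
    (k : (Tn A c)ᗮ → ℝ) (τ : (Tn A c)ᗮ → F) {u : (Tn A c)ᗮ} (hu : B * ‖u‖ ≤ r / 2) :
    ‖cutE A c Θ eT eN k τ u‖ ≤
      C * (Fintype.card κ * (1 + Fintype.card ι)) * (‖fderiv ℝ k u‖ * ‖τ u‖) := by
  set D := ‖fderiv ℝ k u‖ with hD
  have hN : ∀ n, ‖(eN n : E)‖ = 1 := fun n => eN.orthonormal.1 n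
  have hT : ∀ t, ‖(eT t : E)‖ = 1 := fun t => eT.orthonormal.1 t
  have hd : ∀ n, ‖fderiv ℝ k u (eN n)‖ ≤ D := fun n => by
    have h := (fderiv ℝ k u).le_opNorm (eN n)
    have h2 : ‖(eN n : (Tn A c)ᗮ)‖ = 1 := eN.orthonormal.1 n
    rwa [h2, mul_one] at h
  have h1 : ∀ n, ‖(-Complex.I) • Θ (eN n) (fderiv ℝ k u (eN n) • τ u)‖ ≤ C * (D * ‖τ u‖) := by
    intro n
    rw [norm_smul, norm_neg, Complex.norm_I, one_mul]
    refine (hC _ _).trans ?_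
    rw [hN, mul_one, norm_smul]
    have := hd n
    gcongr
  have h2 : ∀ n t, ‖Complex.I • Θ (eT t)
      ((fderiv ℝ k u (eN n) * cf A c eT eN n t u) • τ u)‖ ≤ C * (D * ‖τ u‖) := by
    intro n t
    rw [norm_smul, Complex.norm_I, one_mul]
    refine (hC _ _).trans ?_
    rw [hT, mul_one, norm_smul, norm_mul]
    have h3 := hd n
    have h4 := abs_cf_le hr0 hr hB hB0 eT eN n t hu
    rw [← Real.norm_eq_abs] at h4
    have h5 : ‖fderiv ℝ k u (eN n)‖ * ‖cf A c eT eN n t u‖ ≤ D * 1 := by gcongr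
    rw [mul_one] at h5
    gcongr
  unfold cutE
  refine (norm_add_le _ _).trans ?_
  have h6 : ‖∑ n, (-Complex.I) • Θ (eN n) (fderiv ℝ k u (eN n) • τ u)‖ ≤
      Fintype.card κ * (C * (D * ‖τ u‖)) := by
    refine (norm_sum_le _ _).trans ((Finset.sum_le_sum fun n _ => h1 n).trans (le_of_eq ?_))
    simp
  have h7 : ‖∑ n, ∑ t, Complex.I • Θ (eT t)
      ((fderiv ℝ k u (eN n) * cf A c eT eN n t u) • τ u)‖ ≤
      Fintype.card κ * (Fintype.card ι * (C * (D * ‖τ u‖))) := by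
    refine (norm_sum_le _ _).trans ((Finset.sum_le_sum fun n _ => (norm_sum_le _ _).trans
      (Finset.sum_le_sum fun t _ => h2 n t)).trans (le_of_eq ?_))
    simp
  refine (add_le_add h6 h7).trans (le_of_eq ?_)
  ring

/-- `1_{r₀ ≤ ‖z‖} ≤ (1 + s)⁴ / (r₀² √g)`, `s = √g ‖z‖`, `g ≥ 1`. -/
theorem one_le_s {g r₀ x : ℝ} (hg : 1 ≤ g) (hr₀ : 0 < r₀) (hx : r₀ ≤ x) :
    1 ≤ (1 / r₀ ^ 2) * ((1 + Real.sqrt g * x) ^ 4 * (Real.sqrt g)⁻¹) := by
  set q := Real.sqrt g with hq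
  have hq1 : 1 ≤ q := by
    rw [hq]
    exact Real.one_le_sqrt.mpr hg
  have hx0 : 0 ≤ x := hr₀.le.trans hx
  have h1 : (q * x) ^ 2 ≤ (1 + q * x) ^ 4 := by
    have h2 : 0 ≤ q * x := by positivity
    nlinarith [mul_nonneg h2 h2, sq_nonneg ((1 + q * x) ^ 2 - 1)]
  have h3 : r₀ ^ 2 ≤ x ^ 2 := by gcongr
  have h4 : q * r₀ ^ 2 ≤ (1 + q * x) ^ 4 := by
    have h5 : q * r₀ ^ 2 ≤ q ^ 2 * x ^ 2 := by
      have : q ≤ q ^ 2 := by nlinarith
      gcongr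
    calc _ ≤ q ^ 2 * x ^ 2 := h5
      _ = (q * x) ^ 2 := by ring
      _ ≤ _ := h1
  rw [← div_eq_mul_inv, one_div_mul_eq_div, div_div, one_le_div (by positivity)]
  exact h4

/-- **e10 is of class 3** (714's common form): where the derivative of the cut-off vanishes for
`‖z‖ < r₀` and is bounded by `D`, `‖cutE‖ ≤ K |a₀| (1+s)⁴ g^{-1/2} ‖om p‖`. -/
theorem cutE_class3 (hr0 : 0 < r) (hr : GapAt A c r) (hB : ActBound A B) (hB0 : 0 ≤ B)
    {Θ : E →ₗ[ℝ] (F →ₗ[ℂ] F)} {C : ℝ} (hC : ∀ v f, ‖Θ v f‖ ≤ C * ‖v‖ * ‖f‖) (hC0 : 0 ≤ C)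
    (eT : OrthonormalBasis ι ℝ (Tn A c)) (eN : OrthonormalBasis κ ℝ (Tn A c)ᗮ)
    {k : (Tn A c)ᗮ → ℝ} {τ : (Tn A c)ᗮ → F} {u : (Tn A c)ᗮ} (hu : B * ‖u‖ ≤ r / 2)
    {g r₀ D a₀ zn : ℝ} {w : F} (hg : 1 ≤ g) (hr₀ : 0 < r₀) (hz : 0 ≤ zn)
    (hk0 : zn < r₀ → fderiv ℝ k u = 0) (hkD : ‖fderiv ℝ k u‖ ≤ D) (hτ : τ u = a₀ • w) :
    ‖cutE A c Θ eT eN k τ u‖ ≤
      (C * (Fintype.card κ * (1 + Fintype.card ι)) * D / r₀ ^ 2) * |a₀| *
        (1 + Real.sqrt g * zn) ^ 4 * ((Real.sqrt g)⁻¹ * ‖w‖) := by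
  have h1 := cutE_le hr0 hr hB hB0 hC hC0 eT eN k τ hu
  have hD0 : 0 ≤ D := le_trans (norm_nonneg (fderiv ℝ k u)) hkD
  set M := C * (Fintype.card κ * (1 + Fintype.card ι)) with hM
  have hM0 : 0 ≤ M := by positivity
  rw [hτ, norm_smul, Real.norm_eq_abs] at h1
  by_cases hlt : zn < r₀
  · have h0 : ‖fderiv ℝ k u‖ = 0 := by
      rw [hk0 hlt]
      exact ContinuousLinearMap.opNorm_zero
    rw [h0, zero_mul, mul_zero] at h1
    refine h1.trans ?_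
    positivity
  · have h2 := one_le_s hg hr₀ (le_of_not_gt hlt)
    have h3 : M * (‖fderiv ℝ k u‖ * (|a₀| * ‖w‖)) ≤ M * (D * (|a₀| * ‖w‖)) := by gcongr
    refine h1.trans (h3.trans ?_)
    have h4 : 0 ≤ M * (D * (|a₀| * ‖w‖)) := by positivity
    calc M * (D * (|a₀| * ‖w‖)) = M * (D * (|a₀| * ‖w‖)) * 1 := by ring
      _ ≤ M * (D * (|a₀| * ‖w‖)) *
          ((1 / r₀ ^ 2) * ((1 + Real.sqrt g * zn) ^ 4 * (Real.sqrt g)⁻¹)) := by gcongr
      _ = _ := by ring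

/-- The cut-off `u ↦ kap (L u)` (`L` = projection on `Z`): hypotheses of `cutE_class3`. -/
theorem fderiv_comp_cut {X Z : Type*} [NormedAddCommGroup X] [NormedSpace ℝ X]
    [NormedAddCommGroup Z] [NormedSpace ℝ Z] {kap : Z → ℝ} (hkap : Differentiable ℝ kap)
    (L : X →L[ℝ] Z) (hL : ‖L‖ ≤ 1) {D r₀ : ℝ} (hD : ∀ z, ‖fderiv ℝ kap z‖ ≤ D)
    (h1 : ∀ z, ‖z‖ < r₀ → kap z = 1) (u : X) :
    DifferentiableAt ℝ (fun u => kap (L u)) u ∧
      (‖L u‖ < r₀ → fderiv ℝ (fun u => kap (L u)) u = 0) ∧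
      ‖fderiv ℝ (fun u => kap (L u)) u‖ ≤ D := by
  have hd : HasFDerivAt (fun u => kap (L u)) ((fderiv ℝ kap (L u)).comp L) u :=
    ((hkap (L u)).hasFDerivAt).comp u L.hasFDerivAt
  refine ⟨hd.differentiableAt, fun hlt => ?_, ?_⟩
  · have hev : kap =ᶠ[𝓝 (L u)] fun _ => 1 := by
      have : Metric.ball (0 : Z) r₀ ∈ 𝓝 (L u) :=
        Metric.isOpen_ball.mem_nhds (by simpa using hlt)
      filter_upwards [this] with z hz
      exact h1 z (by simpa using hz)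
    rw [hd.fderiv, hev.fderiv_eq]
    simp
  · rw [hd.fderiv]
    have hD0 : 0 ≤ D := (norm_nonneg _).trans (hD (L u))
    calc ‖(fderiv ℝ kap (L u)).comp L‖ ≤ ‖fderiv ℝ kap (L u)‖ * ‖L‖ :=
          ContinuousLinearMap.opNorm_comp_le _ _
      _ ≤ D * 1 := mul_le_mul (hD _) hL (norm_nonneg _) hD0
      _ = D := mul_one D

/-! ## `L²` bounds on `U × Z` -/

section L2

open scoped ENNReal
open Crest.Agent.R330.GPar984

variable {U Z : Type*} [NormedAddCommGroup U] [InnerProductSpace ℝ U] [FiniteDimensional ℝ U]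
  [MeasurableSpace U] [BorelSpace U]
  [NormedAddCommGroup Z] [InnerProductSpace ℝ Z] [FiniteDimensional ℝ Z]
  [MeasurableSpace Z] [BorelSpace Z]

/-- **General `L²` bound on the product** (for all error terms): if
`‖e (p,z)‖² ≤ h p z * m p` with `∫ h p z dz ≤ M` where `m p ≠ 0`, then `∫‖e‖² ≤ M ∫ m`. -/
theorem L2_prod_le {G : Type*} [NormedAddCommGroup G] {e : U × Z → G}
    (he : AEStronglyMeasurable e (volume.prod volume)) {h : U → Z → ℝ} {m : U → ℝ} {M : ℝ}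
    (hM : 0 ≤ M) (hm0 : ∀ p, 0 ≤ m p) (hh0 : ∀ p z, m p ≠ 0 → 0 ≤ h p z)
    (hb : ∀ p z, ‖e (p, z)‖ ^ 2 ≤ h p z * m p)
    (hi : ∀ p, m p ≠ 0 → Integrable (h p)) (hI : ∀ p, m p ≠ 0 → ∫ z, h p z ≤ M)
    (hmi : Integrable m) :
    MemLp e 2 (volume.prod volume) ∧ ∫ q, ‖e q‖ ^ 2 ∂(volume.prod volume) ≤ M * ∫ p, m p := by
  have key : ∫⁻ q, ENNReal.ofReal (‖e q‖ ^ 2) ∂(volume.prod volume) ≤
      ENNReal.ofReal (M * ∫ p, m p) := by
    rw [lintegral_prod _ ((he.norm.aemeasurable.pow_const 2).ennreal_ofReal)]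
    calc ∫⁻ p, ∫⁻ z, ENNReal.ofReal (‖e (p, z)‖ ^ 2)
        ≤ ∫⁻ p, ENNReal.ofReal (M * m p) := by
          refine lintegral_mono fun p => ?_
          by_cases hp : m p = 0
          · have h0 : ∀ z, ENNReal.ofReal (‖e (p, z)‖ ^ 2) = 0 := fun z => by
              rw [ENNReal.ofReal_eq_zero]
              have := hb p z
              rwa [hp, mul_zero] at this
            simp [h0]
          · calc ∫⁻ z, ENNReal.ofReal (‖e (p, z)‖ ^ 2)
                ≤ ∫⁻ z, ENNReal.ofReal (h p z * m p) :=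
                  lintegral_mono fun z => ENNReal.ofReal_le_ofReal (hb p z)
              _ = ENNReal.ofReal (∫ z, h p z * m p) := by
                  rw [ofReal_integral_eq_lintegral_ofReal ((hi p hp).mul_const _)
                    (ae_of_all _ fun z => mul_nonneg (hh0 p z hp) (hm0 p))]
              _ ≤ ENNReal.ofReal (M * m p) := by
                  apply ENNReal.ofReal_le_ofReal
                  rw [integral_mul_const]
                  exact mul_le_mul_of_nonneg_right (hI p hp) (hm0 p)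
      _ = ENNReal.ofReal (∫ p, M * m p) := by
          rw [ofReal_integral_eq_lintegral_ofReal (hmi.const_mul _)
            (ae_of_all _ fun p => mul_nonneg hM (hm0 p))]
      _ = ENNReal.ofReal (M * ∫ p, m p) := by rw [integral_const_mul]
  have h2 : Integrable (fun q => ‖e q‖ ^ 2) (volume.prod volume) := by
    refine ⟨(he.norm.aemeasurable.pow_const 2).aestronglyMeasurable, ?_⟩
    rw [hasFiniteIntegral_iff_ofReal (ae_of_all _ fun q => sq_nonneg _)]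
    exact key.trans_lt ENNReal.ofReal_lt_top
  refine ⟨(memLp_two_iff_integrable_sq_norm he).2 h2, ?_⟩
  rw [integral_eq_lintegral_of_nonneg_ae (ae_of_all _ fun q => sq_nonneg _)
    h2.aestronglyMeasurable]
  refine ENNReal.toReal_le_of_le_ofReal ?_ key
  exact mul_nonneg hM (integral_nonneg hm0)

/-- **The cut-off error is `O(g^{-l})` for every `l`.** -/
theorem cut_L2 (a K : ℝ) (ha : 0 < a) (l : ℕ) :
    ∃ C : ℝ, 0 ≤ C ∧ ∀ g : ℝ, 0 < g → ∀ r₀ : ℝ, 0 < r₀ → ∀ J : ℝ, 0 ≤ J →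
      ∀ (AX : U → (Z →L[ℝ] Z)) (wv : U → F) (e : U × Z → F),
      (∀ p, wv p ≠ 0 → UB a K (AX p)) → Integrable (fun p => ‖wv p‖ ^ 2) →
      AEStronglyMeasurable e (volume.prod volume) →
      (∀ p z, ‖z‖ < r₀ → e (p, z) = 0) →
      (∀ p z, ‖e (p, z)‖ ≤ J * |G g (AX p) z| * ‖wv p‖) →
      MemLp e 2 (volume.prod volume) ∧
      ∫ q, ‖e q‖ ^ 2 ∂(volume.prod volume) ≤
        J ^ 2 * (C * (g * r₀ ^ 2)⁻¹ ^ l) * ∫ p, ‖wv p‖ ^ 2 := by
  classical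
  obtain ⟨C, hC0, hC⟩ := tail_le (Z := Z) a K ha 0 l
  refine ⟨C, hC0, fun g hg r₀ hr₀ J hJ AX wv e hUB hwv he h0 hb => ?_⟩
  have hmeas : MeasurableSet {z : Z | r₀ ≤ ‖z‖} :=
    measurableSet_le measurable_const measurable_norm
  have hne : ∀ p, ‖wv p‖ ^ 2 ≠ 0 → wv p ≠ 0 := fun p h h1 => h (by simp [h1])
  have hG : ∀ p, wv p ≠ 0 → Integrable (fun z => G g (AX p) z ^ 2) := fun p hp => by
    simpa using integrable_mul_G_sq ha hg (hUB p hp) 0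
  refine L2_prod_le (m := fun p => ‖wv p‖ ^ 2)
    (h := fun p z => ({z : Z | r₀ ≤ ‖z‖}.indicator (fun z => J ^ 2 * G g (AX p) z ^ 2) z)) he
    (by positivity) (fun p => sq_nonneg _) (fun p z _ => ?_) (fun p z => ?_) (fun p hp => ?_)
    (fun p hp => ?_) hwv
  · exact Set.indicator_nonneg (fun z _ => by positivity) z
  · by_cases hz : r₀ ≤ ‖z‖
    · rw [Set.indicator_of_mem (by exact hz)]
      have h1 := hb p z
      calc ‖e (p, z)‖ ^ 2 ≤ (J * |G g (AX p) z| * ‖wv p‖) ^ 2 := by gcongr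
        _ = _ := by rw [mul_pow, mul_pow, sq_abs]
    · rw [h0 p z (lt_of_not_ge hz)]
      simp only [norm_zero, ne_eq, OfNat.ofNat_ne_zero, not_false_eq_true, zero_pow]
      exact mul_nonneg (Set.indicator_nonneg (fun z _ => by positivity) z) (sq_nonneg _)
  · exact ((hG p (hne p hp)).const_mul _).indicator hmeas
  · rw [integral_indicator hmeas, integral_const_mul]
    have h1 := hC g hg r₀ hr₀ (AX p) (hUB p (hne p hp))
    simp only [pow_zero, one_mul] at h1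
    exact mul_le_mul_of_nonneg_left h1 (sq_nonneg J)

end L2

end Crest.Agent.R330.Cut516

end
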