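import Crest.Agent.R330.MomentF_776
import Crest.Agent.R330.Cov_837
import Crest.Agent.R330.Cone_741

/-!
# Row 330, section 7, leaf S7-B3: the moment lemma on the slice (helper349)

`gsq_act` : `|∇φ|²` of an equivariant `φ` is gauge invariant; `mden` the moment density, gauge
invariant; `moment_lintegral` : `∫⁻ mden ≤ C (q_{g,m}(φ) + ∫‖φ‖²)`; `moment_slice` : on any slice
(measure `ν` on `S`, map `s : S → Cfg N` which does not increase the lower integral of invariant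
functions by more than a constant) with `κ ζ² ≤ V4 (s p)`.
-/

set_option autoImplicit false
set_option linter.unusedSectionVars false

open MeasureTheory Filter Topology
open Crest.MathPhysics.MatrixQM
open Crest.Agent.R330.Defs478 Crest.Agent.R330.Moment776
open scoped ContDiff InnerProductSpace ENNReal

noncomputable section

namespace Crest.Agent.R330.LemRm349

variable {N : ℕ} {F : Type*} [NormedAddCommGroup F] [InnerProductSpace ℂ F]
  [FiniteDimensional ℂ F]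

/-! ### Invariance of the densities -/

theorem ofReal_norm_sq (v : F) : ((‖v‖ ^ 2 : ℝ) : ℂ) = ⟪v, v⟫_ℂ := by
  rw [inner_self_eq_norm_sq_to_K]
  norm_cast

theorem sum_adj_smul_sq (b : ColorBasis N) (g : Matrix.specialUnitaryGroup (Fin N) ℂ)
    (u : Fin (N ^ 2 - 1) → F) :
    ∑ A, ‖∑ C, (b.adjMat g C A : ℂ) • u C‖ ^ 2 = ∑ A, ‖u A‖ ^ 2 := by
  have h1 : ∀ A, ((‖∑ C, (b.adjMat g C A : ℂ) • u C‖ ^ 2 : ℝ) : ℂ) =
      ∑ C, ∑ B, ((b.adjMat g C A : ℂ) * (b.adjMat g B A : ℂ)) • ⟪u C, u B⟫_ℂ := by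
    intro A
    rw [ofReal_norm_sq, sum_inner]
    refine Finset.sum_congr rfl fun C _ => ?_
    rw [inner_sum]
    refine Finset.sum_congr rfl fun B _ => ?_
    rw [inner_smul_left, inner_smul_right, Complex.conj_ofReal, smul_eq_mul, mul_assoc]
  have h2 : ((∑ A, ‖∑ C, (b.adjMat g C A : ℂ) • u C‖ ^ 2 : ℝ) : ℂ) =
      ((∑ A, ‖u A‖ ^ 2 : ℝ) : ℂ) := by
    rw [Complex.ofReal_sum]
    simp only [h1]
    rw [Cov837.sum_adj_adj (F := ℂ) g (fun C B => ⟪u C, u B⟫_ℂ), Complex.ofReal_sum]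
    exact Finset.sum_congr rfl fun A _ => (ofReal_norm_sq _).symm
  exact_mod_cast h2

/-- `|∇φ|²` of an equivariant function is gauge invariant. -/
theorem gsq_act {b : ColorBasis N} {M : FermionRep N F} (R : GaugeAction b M) {φ : Cfg N → F}
    (hφ : Differentiable ℝ φ) (he : ∀ g x, φ (b.act g x) = R.ρ g (φ x))
    (g : Matrix.specialUnitaryGroup (Fin N) ℂ) (x : Cfg N) : gsq φ (b.act g x) = gsq φ x := by
  have h0 : Cov837.tg R g φ = φ := (Cov837.tg_eq_self_iff R φ).2 he g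
  have h1 : ∀ i A, ‖fderiv ℝ φ x (EuclideanSpace.single (i, A) 1)‖ ^ 2 =
      ‖∑ C, (b.adjMat g C A : ℂ) •
        fderiv ℝ φ (b.act g x) (EuclideanSpace.single (i, C) (1 : ℝ))‖ ^ 2 := by
    intro i A
    conv_lhs => rw [← h0]
    rw [Cov837.fderiv_tg R g (hφ _), Cov837.norm_rho, Cov837.fderiv_act_single]
  unfold gsq
  rw [Fintype.sum_prod_type, Fintype.sum_prod_type]
  refine Finset.sum_congr rfl fun i _ => ?_
  simp only [h1]
  rw [sum_adj_smul_sq b g fun C =>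
    fderiv ℝ φ (b.act g x) (EuclideanSpace.single (i, C) (1 : ℝ))]

theorem pot_act (b : ColorBasis N) (g : Matrix.specialUnitaryGroup (Fin N) ℂ) (x : Cfg N) :
    Bar186.pot b (b.act g x) = Bar186.pot b x := Cone741.V4_act b g x

theorem pot_nonneg (b : ColorBasis N) (x : Cfg N) : 0 ≤ Bar186.pot b x := Cone741.V4_nonneg b x

theorem continuous_pot (b : ColorBasis N) : Continuous fun x : Cfg N => Bar186.pot b x :=
  Cone741.continuous_V4 b

theorem gsq_nonneg (φ : Cfg N → F) (x : Cfg N) : 0 ≤ gsq φ x :=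
  Finset.sum_nonneg fun _ _ => sq_nonneg _

/-- `‖Dφ(x) v‖² ≤ |∇φ|² ‖v‖²`. -/
theorem fderiv_sq_le (φ : Cfg N → F) (x v : Cfg N) :
    ‖fderiv ℝ φ x v‖ ^ 2 ≤ gsq φ x * ‖v‖ ^ 2 := by
  have h1 : v = ∑ k, v k • EuclideanSpace.single k (1 : ℝ) := by
    ext k
    rw [WithLp.ofLp_sum, Finset.sum_apply]
    simp
  have h2 : fderiv ℝ φ x v = ∑ k, v k • fderiv ℝ φ x (EuclideanSpace.single k 1) := by
    conv_lhs => rw [h1, map_sum]
    simp only [map_smul]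
  have h3 : ‖fderiv ℝ φ x v‖ ≤ ∑ k, |v k| * ‖fderiv ℝ φ x (EuclideanSpace.single k 1)‖ := by
    rw [h2]
    refine (norm_sum_le _ _).trans (le_of_eq ?_)
    exact Finset.sum_congr rfl fun k _ => by rw [norm_smul, Real.norm_eq_abs]
  have h4 := Finset.sum_mul_sq_le_sq_mul_sq Finset.univ (fun k => |v k|)
    (fun k => ‖fderiv ℝ φ x (EuclideanSpace.single k 1)‖)
  have h5 : ‖v‖ ^ 2 = ∑ k, |v k| ^ 2 := by
    rw [EuclideanSpace.norm_sq_eq]
    simp only [Real.norm_eq_abs]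
  calc ‖fderiv ℝ φ x v‖ ^ 2 ≤ (∑ k, |v k| * ‖fderiv ℝ φ x (EuclideanSpace.single k 1)‖) ^ 2 :=
        pow_le_pow_left₀ (norm_nonneg _) h3 2
    _ ≤ _ := h4
    _ = gsq φ x * ‖v‖ ^ 2 := by
        rw [h5, mul_comm]
        rfl

theorem fderiv_norm_sq_le (φ : Cfg N → F) (x : Cfg N) : ‖fderiv ℝ φ x‖ ^ 2 ≤ gsq φ x := by
  have h1 : ‖fderiv ℝ φ x‖ ≤ √(gsq φ x) := by
    refine ContinuousLinearMap.opNorm_le_bound _ (Real.sqrt_nonneg _) fun v => ?_
    rw [← abs_of_nonneg (norm_nonneg (fderiv ℝ φ x v)),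
      ← abs_of_nonneg (mul_nonneg (Real.sqrt_nonneg (gsq φ x)) (norm_nonneg v)), ← sq_le_sq,
      mul_pow, Real.sq_sqrt (gsq_nonneg φ x)]
    exact fderiv_sq_le φ x v
  calc ‖fderiv ℝ φ x‖ ^ 2 ≤ √(gsq φ x) ^ 2 := pow_le_pow_left₀ (norm_nonneg _) h1 2
    _ = gsq φ x := Real.sq_sqrt (gsq_nonneg φ x)

/-! ### The moment density -/

/-- The moment density. -/
def mden (b : ColorBasis N) (g : ℝ) (φ : Cfg N → F) (x : Cfg N) : ℝ :=
  Bar186.pot b x * gsq φ x + g ^ 2 * (Bar186.pot b x ^ 2 * ‖φ x‖ ^ 2) +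
    g * (Bar186.pot b x * ‖φ x‖ ^ 2) + g⁻¹ * gsq φ x

theorem mden_nonneg (b : ColorBasis N) {g : ℝ} (hg : 0 ≤ g) (φ : Cfg N → F) (x : Cfg N) :
    0 ≤ mden b g φ x := by
  have h1 := pot_nonneg b x
  have h2 := gsq_nonneg φ x
  unfold mden
  positivity

theorem mden_act {b : ColorBasis N} {M : FermionRep N F} (R : GaugeAction b M) {φ : Cfg N → F}
    (hφ : Differentiable ℝ φ) (he : ∀ g x, φ (b.act g x) = R.ρ g (φ x)) (g : ℝ)
    (h : Matrix.specialUnitaryGroup (Fin N) ℂ) (x : Cfg N) :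
    mden b g φ (b.act h x) = mden b g φ x := by
  unfold mden
  rw [pot_act, gsq_act R hφ he, he, Cov837.norm_rho]

theorem continuous_gsq {φ : Cfg N → F} (hφ : ContDiff ℝ 1 φ) : Continuous (gsq φ) := by
  unfold gsq
  exact continuous_finsetSum _ fun k _ =>
    ((hφ.continuous_fderiv one_ne_zero).clm_apply continuous_const).norm.pow 2

theorem continuous_mden (b : ColorBasis N) (g : ℝ) {φ : Cfg N → F} (hφ : ContDiff ℝ 1 φ) :
    Continuous (mden b g φ) := by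
  have h1 := continuous_pot b
  have h2 := continuous_gsq hφ
  have h3 := hφ.continuous
  unfold mden
  exact (((h1.mul h2).add (continuous_const.mul ((h1.pow 2).mul (h3.norm.pow 2)))).add
    (continuous_const.mul (h1.mul (h3.norm.pow 2)))).add (continuous_const.mul h2)

theorem gsq_eq_zero {φ : Cfg N → F} {x : Cfg N} (hx : x ∉ tsupport φ) : gsq φ x = 0 := by
  have h0 : fderiv ℝ φ x = 0 := by
    by_contra h
    exact hx (support_fderiv_subset ℝ (f := φ) h)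
  unfold gsq
  simp [h0]

theorem tsupport_subset_of_vanish {φ : Cfg N → F} {ρ : ℝ} (h0 : ∀ x, ρ < ‖x‖ → φ x = 0) :
    tsupport φ ⊆ Metric.closedBall 0 ρ := by
  refine closure_minimal (fun x hx => ?_) Metric.isClosed_closedBall
  rw [Metric.mem_closedBall, dist_zero_right]
  by_contra h
  exact hx (h0 x (not_le.1 h))

theorem hasCompactSupport_of_vanish {φ : Cfg N → F} {ρ : ℝ} (h0 : ∀ x, ρ < ‖x‖ → φ x = 0) :
    HasCompactSupport φ :=
  (isCompact_closedBall (0 : Cfg N) ρ).of_isClosed_subset (isClosed_tsupport _)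
    (tsupport_subset_of_vanish h0)

theorem hasCompactSupport_of_tsupport {φ : Cfg N → F} (hc : HasCompactSupport φ)
    {f : Cfg N → ℝ} (hf : ∀ x, x ∉ tsupport φ → f x = 0) : HasCompactSupport f := by
  refine HasCompactSupport.intro' hc (isClosed_tsupport φ) hf

theorem integrable_of_vanish {φ : Cfg N → F} (hc : HasCompactSupport φ) {f : Cfg N → ℝ}
    (hf : Continuous f) (h0 : ∀ x, x ∉ tsupport φ → f x = 0) : Integrable f :=
  hf.integrable_of_hasCompactSupport (hasCompactSupport_of_tsupport hc h0)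

theorem eq_zero_of_notMem {φ : Cfg N → F} {x : Cfg N} (hx : x ∉ tsupport φ) : φ x = 0 :=
  image_eq_zero_of_notMem_tsupport hx

theorem mden_eq_zero (b : ColorBasis N) (g : ℝ) {φ : Cfg N → F} {x : Cfg N}
    (hx : x ∉ tsupport φ) : mden b g φ x = 0 := by
  unfold mden
  rw [gsq_eq_zero hx, eq_zero_of_notMem hx]
  simp

theorem integral_mden (b : ColorBasis N) (g : ℝ) {φ : Cfg N → F} (hφ : ContDiff ℝ 1 φ)
    (hc : HasCompactSupport φ) :
    ∫ x, mden b g φ x = (∫ x : Cfg N, Bar186.pot b x * gsq φ x) +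
      g ^ 2 * (∫ x : Cfg N, Bar186.pot b x ^ 2 * ‖φ x‖ ^ 2) +
      g * (∫ x : Cfg N, Bar186.pot b x * ‖φ x‖ ^ 2) + g⁻¹ * (∫ x, gsq φ x) := by
  have h1 := continuous_pot b
  have h2 := continuous_gsq hφ
  have h3 := hφ.continuous
  have i1 : Integrable fun x : Cfg N => Bar186.pot b x * gsq φ x :=
    integrable_of_vanish hc (h1.mul h2) fun x hx => by rw [gsq_eq_zero hx, mul_zero]
  have i2 : Integrable fun x : Cfg N => Bar186.pot b x ^ 2 * ‖φ x‖ ^ 2 :=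
    integrable_of_vanish hc ((h1.pow 2).mul (h3.norm.pow 2)) fun x hx => by
      rw [eq_zero_of_notMem hx]; simp
  have i3 : Integrable fun x : Cfg N => Bar186.pot b x * ‖φ x‖ ^ 2 :=
    integrable_of_vanish hc (h1.mul (h3.norm.pow 2)) fun x hx => by
      rw [eq_zero_of_notMem hx]; simp
  have i4 : Integrable fun x : Cfg N => gsq φ x :=
    integrable_of_vanish hc h2 fun x hx => gsq_eq_zero hx
  have j2 := i2.const_mul (g ^ 2)
  have j3 := i3.const_mul g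
  have j4 := i4.const_mul g⁻¹
  have j12 : Integrable fun x : Cfg N => Bar186.pot b x * gsq φ x +
      g ^ 2 * (Bar186.pot b x ^ 2 * ‖φ x‖ ^ 2) := i1.add j2
  have j123 : Integrable fun x : Cfg N => Bar186.pot b x * gsq φ x +
      g ^ 2 * (Bar186.pot b x ^ 2 * ‖φ x‖ ^ 2) + g * (Bar186.pot b x * ‖φ x‖ ^ 2) := j12.add j3
  unfold mden
  rw [integral_add j123 j4, integral_add j12 j3, integral_add i1 j2, integral_const_mul,
    integral_const_mul, integral_const_mul]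

/-- **The moment lemma as one lower integral of a gauge invariant density.** -/
theorem moment_lintegral (b : ColorBasis N) (M : FermionRep N F) (G : GammaNine) {ρ K : ℝ}
    (hρ : 0 ≤ ρ) (hK : 0 ≤ K) : ∃ C : ℝ, 0 ≤ C ∧
    ∀ g m : ℝ, 1 ≤ g → 0 ≤ m → m ^ 2 ≤ K * g → ∀ φ : Cfg N → F, ContDiff ℝ ∞ φ →
    (∀ x, ρ < ‖x‖ → φ x = 0) →
    ∫⁻ x, ENNReal.ofReal (mden b g φ x) ≤
      ENNReal.ofReal (C * (qf b M G g m φ + ∫ x, ‖φ x‖ ^ 2)) := by
  obtain ⟨C, hC, h⟩ := momentF b M G hρ hK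
  refine ⟨C, hC, fun g m hg hm hmK φ hφ h0 => ?_⟩
  have h1 := h g m hg hm hmK φ hφ h0
  have hφ1 : ContDiff ℝ 1 φ := hφ.of_le (by simp)
  have hc := hasCompactSupport_of_vanish h0
  rw [← integral_mden b g hφ1 hc] at h1
  have hi : Integrable (mden b g φ) :=
    integrable_of_vanish hc (continuous_mden b g hφ1) fun x hx => mden_eq_zero b g hx
  rw [← ofReal_integral_eq_lintegral_ofReal hi
    (Eventually.of_forall (mden_nonneg b (by linarith) φ))]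
  exact ENNReal.ofReal_le_ofReal h1

/-! ### The abstract slice -/

/-- Slice hypothesis: the integral of an invariant non-negative function along the slice is at
most `C₀` times its integral over configuration space. -/
def SliceLe (b : ColorBasis N) {S : Type*} [MeasurableSpace S] (ν : Measure S)
    (s : S → Cfg N) (C₀ : ℝ) : Prop :=
  ∀ f : Cfg N → ℝ≥0∞, Measurable f → (∀ h x, f (b.act h x) = f x) →
    ∫⁻ p, f (s p) ∂ν ≤ ENNReal.ofReal C₀ * ∫⁻ x, f x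

/-- The slice moment density. -/
def sden (g ζ : ℝ) (φ : Cfg N → F) (x : Cfg N) : ℝ :=
  ζ ^ 2 * gsq φ x + g ^ 2 * (ζ ^ 4 * ‖φ x‖ ^ 2) + g * (ζ ^ 2 * ‖φ x‖ ^ 2) + g⁻¹ * gsq φ x

theorem sden_nonneg {g : ℝ} (hg : 0 ≤ g) (ζ : ℝ) (φ : Cfg N → F) (x : Cfg N) :
    0 ≤ sden g ζ φ x := by
  have h2 := gsq_nonneg φ x
  unfold sden
  have h3 : 0 ≤ ζ ^ 4 := by positivity
  positivity

theorem sden_le {b : ColorBasis N} {g κ ζ : ℝ} (hg : 0 ≤ g) (hκ : 0 < κ) (hκ1 : κ ≤ 1)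
    {φ : Cfg N → F} {x : Cfg N} (h : κ * ζ ^ 2 ≤ Bar186.pot b x) :
    sden g ζ φ x ≤ (κ⁻¹) ^ 2 * mden b g φ x := by
  have h1 := pot_nonneg b x
  have h2 := gsq_nonneg φ x
  have h3 : ζ ^ 2 ≤ κ⁻¹ * Bar186.pot b x := by
    rw [inv_mul_eq_div, le_div_iff₀ hκ]
    linarith
  have hk1 : 1 ≤ κ⁻¹ := (one_le_inv₀ hκ).2 hκ1
  have hk : κ⁻¹ ≤ κ⁻¹ ^ 2 := by nlinarith
  have h4 : ζ ^ 2 ≤ κ⁻¹ ^ 2 * Bar186.pot b x :=
    h3.trans (mul_le_mul_of_nonneg_right hk h1)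
  have h5 : ζ ^ 4 ≤ κ⁻¹ ^ 2 * Bar186.pot b x ^ 2 := by
    have : ζ ^ 4 = (ζ ^ 2) ^ 2 := by ring
    rw [this, ← mul_pow]
    exact pow_le_pow_left₀ (sq_nonneg _) h3 2
  have h6 : (1 : ℝ) ≤ κ⁻¹ ^ 2 := by nlinarith
  have e1 : ζ ^ 2 * gsq φ x ≤ κ⁻¹ ^ 2 * (Bar186.pot b x * gsq φ x) := by
    rw [← mul_assoc]
    exact mul_le_mul_of_nonneg_right h4 h2
  have e2 : g ^ 2 * (ζ ^ 4 * ‖φ x‖ ^ 2) ≤
      κ⁻¹ ^ 2 * (g ^ 2 * (Bar186.pot b x ^ 2 * ‖φ x‖ ^ 2)) := by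
    calc g ^ 2 * (ζ ^ 4 * ‖φ x‖ ^ 2)
        ≤ g ^ 2 * ((κ⁻¹ ^ 2 * Bar186.pot b x ^ 2) * ‖φ x‖ ^ 2) := by
          refine mul_le_mul_of_nonneg_left ?_ (sq_nonneg g)
          exact mul_le_mul_of_nonneg_right h5 (sq_nonneg _)
      _ = _ := by ring
  have e3 : g * (ζ ^ 2 * ‖φ x‖ ^ 2) ≤ κ⁻¹ ^ 2 * (g * (Bar186.pot b x * ‖φ x‖ ^ 2)) := by
    calc g * (ζ ^ 2 * ‖φ x‖ ^ 2)
        ≤ g * ((κ⁻¹ ^ 2 * Bar186.pot b x) * ‖φ x‖ ^ 2) := by
          refine mul_le_mul_of_nonneg_left ?_ hg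
          exact mul_le_mul_of_nonneg_right h4 (sq_nonneg _)
      _ = _ := by ring
  have e4 : g⁻¹ * gsq φ x ≤ κ⁻¹ ^ 2 * (g⁻¹ * gsq φ x) := by
    have : 0 ≤ g⁻¹ * gsq φ x := by positivity
    nlinarith
  unfold sden mden
  calc _ ≤ κ⁻¹ ^ 2 * (Bar186.pot b x * gsq φ x) +
        κ⁻¹ ^ 2 * (g ^ 2 * (Bar186.pot b x ^ 2 * ‖φ x‖ ^ 2)) +
        κ⁻¹ ^ 2 * (g * (Bar186.pot b x * ‖φ x‖ ^ 2)) + κ⁻¹ ^ 2 * (g⁻¹ * gsq φ x) :=
        add_le_add (add_le_add (add_le_add e1 e2) e3) e4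
    _ = _ := by ring

/-- **The moment lemma on a slice**, lower integral form. -/
theorem moment_slice_lintegral {b : ColorBasis N} {M : FermionRep N F} (R : GaugeAction b M)
    (G : GammaNine) {ρ K κ C₀ : ℝ} (hρ : 0 ≤ ρ) (hK : 0 ≤ K) (hκ : 0 < κ) (hκ1 : κ ≤ 1)
    (hC₀ : 0 ≤ C₀) : ∃ C : ℝ, 0 ≤ C ∧
    ∀ {S : Type} [MeasurableSpace S] (ν : Measure S) (s : S → Cfg N) (ζ : S → ℝ),
    SliceLe b ν s C₀ → (∀ᵐ p ∂ν, κ * ζ p ^ 2 ≤ Bar186.pot b (s p)) →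
    ∀ g m : ℝ, 1 ≤ g → 0 ≤ m → m ^ 2 ≤ K * g → ∀ φ : Cfg N → F, ContDiff ℝ ∞ φ →
    (∀ h x, φ (b.act h x) = R.ρ h (φ x)) → (∀ x, ρ < ‖x‖ → φ x = 0) →
    ∫⁻ p, ENNReal.ofReal (sden g (ζ p) φ (s p)) ∂ν ≤
      ENNReal.ofReal (C * (qf b M G g m φ + ∫ x, ‖φ x‖ ^ 2)) := by
  obtain ⟨C, hC, h⟩ := moment_lintegral b M G hρ hK
  refine ⟨(κ⁻¹) ^ 2 * C₀ * C, by positivity, ?_⟩
  intro S _ ν s ζ hs hζ g m hg hm hmK φ hφ he h0
  have hg0 : 0 ≤ g := by linarith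
  have hφ1 : ContDiff ℝ 1 φ := hφ.of_le (by simp)
  have h1 := h g m hg hm hmK φ hφ h0
  have h2 : ∫⁻ p, ENNReal.ofReal (sden g (ζ p) φ (s p)) ∂ν ≤
      ∫⁻ p, ENNReal.ofReal ((κ⁻¹) ^ 2) * ENNReal.ofReal (mden b g φ (s p)) ∂ν := by
    refine lintegral_mono_ae ?_
    filter_upwards [hζ] with p hp
    rw [← ENNReal.ofReal_mul (by positivity)]
    exact ENNReal.ofReal_le_ofReal (sden_le hg0 hκ hκ1 hp)
  have h3 := hs (fun x => ENNReal.ofReal (mden b g φ x))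
    (continuous_mden b g hφ1).measurable.ennreal_ofReal
    (fun k x => by simp only [mden_act R (hφ1.differentiable one_ne_zero) he])
  rw [lintegral_const_mul' _ _ ENNReal.ofReal_ne_top] at h2
  calc _ ≤ _ := h2
    _ ≤ ENNReal.ofReal ((κ⁻¹) ^ 2) * (ENNReal.ofReal C₀ *
        ENNReal.ofReal (C * (qf b M G g m φ + ∫ x, ‖φ x‖ ^ 2))) := by
        gcongr
        exact h3.trans (by gcongr)
    _ = _ := by
        rw [← ENNReal.ofReal_mul hC₀, ← ENNReal.ofReal_mul (by positivity)]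
        congr 1
        ring

end Crest.Agent.R330.LemRm349

end
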