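import Crest.Agent.R330.DecLit_349
import Crest.Agent.R330.LemRm_349

/-!
# Row 330, section 9, end: control of the gradient (helper349)

`gradB_Qd : GradB (Qd b M G) (Sd b R)` from helper726's energy identity (`energy_holds`).
-/

set_option autoImplicit false
set_option linter.unusedSectionVars false

open MeasureTheory Filter Topology
open Crest.MathPhysics.MatrixQM
open Crest.Agent.R330.Defs478 Crest.Agent.R330.Decay968 Crest.Agent.R330.WS596
open Crest.Agent.R330.Moment776
open scoped ContDiff InnerProductSpace ENNReal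

noncomputable section

namespace Crest.Agent.R330.DecLit349

variable {N : ℕ} {F : Type*} [NormedAddCommGroup F] [InnerProductSpace ℂ F]
  [FiniteDimensional ℂ F] [CompleteSpace F]

/-- (L7) -/
theorem gradB_Qd {b : ColorBasis N} {M : FermionRep N F} (R : GaugeAction b M) (G : GammaNine) :
    GradB (Qd b M G) (Sd b R) := by
  obtain ⟨C, hC, h⟩ := energy_holds b M G
  refine ⟨2 * max C 1, by positivity, fun φ hφ => ?_⟩
  rw [core_iff] at hφ
  have h1 := h 1 0 zero_le_one le_rfl φ hφ.1 hφ.2.1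
  have hφ1 : ContDiff ℝ 1 φ := hφ.1.of_le (by simp)
  have i1 : Integrable (gsq φ) := LemRm349.integrable_of_vanish hφ.2.1
    (LemRm349.continuous_gsq hφ1) fun x hx => LemRm349.gsq_eq_zero hx
  have i2 : Integrable fun x : Cfg N => (1 + ‖x‖) * ‖φ x‖ ^ 2 :=
    LemRm349.integrable_of_vanish hφ.2.1 (by
      have := hφ1.continuous
      fun_prop) fun x hx => by
      rw [LemRm349.eq_zero_of_notMem hx]
      simp
  have i3 : Integrable fun x : Cfg N => C * (1 * ‖x‖ + 0) * ‖φ x‖ ^ 2 :=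
    LemRm349.integrable_of_vanish hφ.2.1 (by
      have := hφ1.continuous
      fun_prop) fun x hx => by
      rw [LemRm349.eq_zero_of_notMem hx]
      simp
  have h2 : 0 ≤ ∫ x, Vsq b G 1 0 x * ‖φ x‖ ^ 2 :=
    integral_nonneg fun x => mul_nonneg (Vsq_nonneg b G 1 0 x) (by positivity)
  have h3 : ∫ x, C * (1 * ‖x‖ + 0) * ‖φ x‖ ^ 2 ≤ ∫ x, max C 1 * ((1 + ‖x‖) * ‖φ x‖ ^ 2) := by
    refine integral_mono i3 (i2.const_mul _) fun x => ?_
    show C * (1 * ‖x‖ + 0) * ‖φ x‖ ^ 2 ≤ max C 1 * ((1 + ‖x‖) * ‖φ x‖ ^ 2)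
    rw [← mul_assoc]
    refine mul_le_mul_of_nonneg_right ?_ (by positivity)
    exact mul_le_mul (le_max_left _ _) (by linarith [norm_nonneg x]) (by positivity)
      (by positivity)
  rw [integral_const_mul] at h3
  have hq : 0 ≤ qf b M G 1 0 φ := by
    unfold qf
    positivity
  have h4 : ∫ x, gsq φ x ≤ 2 * max C 1 *
      (qf b M G 1 0 φ + ∫ x, (1 + ‖x‖) * ‖φ x‖ ^ 2) := by
    have h5 : qf b M G 1 0 φ ≤ max C 1 * qf b M G 1 0 φ :=
      le_mul_of_one_le_left hq (le_max_right _ _)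
    nlinarith
  have e1 : ∫⁻ x, ∑ i, ‖fderiv ℝ φ x (EuclideanSpace.single i 1)‖ₑ ^ 2 =
      ENNReal.ofReal (∫ x, gsq φ x) := by
    rw [ofReal_integral_eq_lintegral_ofReal i1
      (Eventually.of_forall fun x => LemRm349.gsq_nonneg φ x)]
    refine lintegral_congr fun x => ?_
    unfold gsq
    rw [ENNReal.ofReal_sum_of_nonneg fun i _ => by positivity]
    refine Finset.sum_congr rfl fun i _ => ?_
    rw [← ofReal_norm, ENNReal.ofReal_pow (norm_nonneg _)]
  have e2 : ∫⁻ x, ENNReal.ofReal (1 + ‖x‖) * ‖φ x‖ₑ ^ 2 =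
      ENNReal.ofReal (∫ x, (1 + ‖x‖) * ‖φ x‖ ^ 2) := by
    rw [ofReal_integral_eq_lintegral_ofReal i2 (Eventually.of_forall fun x => by positivity)]
    refine lintegral_congr fun x => ?_
    rw [← ofReal_norm, ← ENNReal.ofReal_pow (norm_nonneg _), ← ENNReal.ofReal_mul (by positivity)]
  rw [e1, e2, qe_eq hφ, ← ENNReal.ofReal_add hq (integral_nonneg fun x => by positivity),
    ← ENNReal.ofReal_mul (by positivity)]
  exact ENNReal.ofReal_le_ofReal h4

end Crest.Agent.R330.DecLit349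

end
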