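import Crest.Agent.R330.HardyH_968
import Crest.Agent.R330.WSLit_596
import Crest.Agent.R330.Close_478
import Crest.Agent.R330.Ims_714

/-!
# Row 330, section 9, end: the literal binding of the decay theorem (helper349)

* `Qd b M G α` : the supercharges (`g = 1`, `m = 0`) as helper596's `FOp`; `op_Qd`, `frame_Qd`.
* `Sd b R` : the gauge symmetries; `core_iff`, `qe_eq`, `hi_of`, `ker_iff`.
* `decay_all : HIAll N → DecayAll N`.
-/

set_option autoImplicit false
set_option linter.unusedSectionVars false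

open MeasureTheory Filter Topology
open Crest.MathPhysics.MatrixQM
open Crest.Agent.R330.Defs478 Crest.Agent.R330.Decay968 Crest.Agent.R330.WS596
open Crest.Agent.R330.WSLit596 Crest.Agent.R330.Brid837
open scoped ContDiff InnerProductSpace ENNReal

noncomputable section

namespace Crest.Agent.R330.DecLit349

section

variable {N : ℕ} {F : Type*} [NormedAddCommGroup F] [InnerProductSpace ℂ F]
  [FiniteDimensional ℂ F] [CompleteSpace F]

/-- The supercharges as first order expressions. -/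
def Qd (b : ColorBasis N) (M : FermionRep N F) (G : GammaNine) : Fin 16 → FOp (Cfg N) F :=
  fun α => chF M G (W := wpot b G 1 0) (fun _ β A => wpot_continuous β A) α

/-- (L1) -/
theorem op_Qd (b : ColorBasis N) (M : FermionRep N F) (G : GammaNine) (α : Fin 16)
    (φ : Cfg N → F) : (Qd b M G α).op φ = dcharge b M G 1 0 α φ := by
  rw [dcharge_eq]
  exact chF_op (G := G) _ α φ

/-- The coordinates of a functional. -/
def covec (ℓ : Cfg N →L[ℝ] ℝ) : Cfg N :=
  WithLp.toLp 2 fun k => ℓ (EuclideanSpace.single k 1)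

theorem inner_covec (ℓ : Cfg N →L[ℝ] ℝ) (x : Cfg N) : ⟪covec ℓ, x⟫_ℝ = ℓ x := by
  have h1 : x = ∑ k, x k • EuclideanSpace.single k (1 : ℝ) := by
    ext k
    rw [WithLp.ofLp_sum, Finset.sum_apply]
    simp
  conv_rhs => rw [h1, map_sum]
  rw [PiLp.inner_apply]
  refine Finset.sum_congr rfl fun k _ => ?_
  rw [map_smul, smul_eq_mul]
  rfl

theorem norm_covec (ℓ : Cfg N →L[ℝ] ℝ) : ‖covec ℓ‖ = ‖ℓ‖ := by
  have h : innerSL ℝ (covec ℓ) = ℓ := by
    ext x
    rw [innerSL_apply_apply]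
    exact inner_covec ℓ x
  conv_rhs => rw [← h]
  rw [innerSL_apply_norm]

theorem symbol_Qd (b : ColorBasis N) (M : FermionRep N F) (G : GammaNine) (α : Fin 16)
    (ℓ : Cfg N →L[ℝ] ℝ) (v : F) :
    (Qd b M G α).A (ℓ.smulRight v) = Ims714.kin G M α (covec ℓ) v := by
  unfold Qd chF
  rw [diracF_A, Ims714.kin_apply, Fintype.sum_prod_type]
  refine Finset.sum_congr rfl fun i _ => Finset.sum_congr rfl fun A _ => ?_
  rw [ContinuousLinearMap.smulRight_apply, ← Complex.coe_smul, map_smul, IBP837.dco_apply,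
    Finset.smul_sum, Finset.smul_sum]
  refine Finset.sum_congr rfl fun β _ => ?_
  rw [smul_smul, smul_smul, smul_smul]
  congr 1
  change _ = -Complex.I * (G.γ i α β : ℂ) * ((ℓ (EuclideanSpace.single (i, A) 1) : ℝ) : ℂ)
  ring

/-- (L2) -/
theorem frame_Qd (b : ColorBasis N) (M : FermionRep N F) (G : GammaNine) :
    Frame (Qd b M G) where
  adj α := chF_adj (G := G) _ α
  sym ℓ v := by
    simp only [symbol_Qd, Ims714.norm_kin_sq, norm_covec]
    rw [Finset.sum_const, Finset.card_univ, Fintype.card_fin, nsmul_eq_mul]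
    push_cast
    ring

/-- (L3) the gauge symmetries -/
def Sd (b : ColorBasis N) {M : FermionRep N F} (R : GaugeAction b M) :
    Set ((Cfg N ≃ₗᵢ[ℝ] Cfg N) × (F →L[ℝ] F)) :=
  Set.range fun g : Matrix.specialUnitaryGroup (Fin N) ℂ =>
    (Cov837.actL b g, (LinearMap.toContinuousLinearMap (R.ρ g)).restrictScalars ℝ)

theorem core_iff {b : ColorBasis N} {M : FermionRep N F} (R : GaugeAction b M) {φ : Cfg N → F} :
    Core (Sd b R) φ ↔ IsCoreVec b R φ := by
  constructor
  · intro h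
    exact ⟨h.smooth, h.supp, fun g x => h.eqv _ ⟨g, rfl⟩ x⟩
  · intro h
    refine ⟨h.1, h.2.1, ?_⟩
    rintro _ ⟨g, rfl⟩ x
    exact h.2.2 g x

/-- (L4) -/
theorem qe_eq {b : ColorBasis N} {M : FermionRep N F} {R : GaugeAction b M} {G : GammaNine}
    {φ : Cfg N → F} (h : IsCoreVec b R φ) :
    qe (Qd b M G) φ = ENNReal.ofReal (qf b M G 1 0 φ) := by
  unfold qe qf
  have h1 : ∀ α, ∫⁻ x, ‖(Qd b M G α).op φ x‖ₑ ^ 2 =
      ENNReal.ofReal (∫ x, ‖dcharge b M G 1 0 α φ x‖ ^ 2) := by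
    intro α
    rw [op_Qd]
    have hm : MemLp (dcharge b M G 1 0 α φ) 2 volume := core_memLp_dcharge h
    rw [ofReal_integral_eq_lintegral_ofReal (hm.integrable_norm_pow (by norm_num))
      (Eventually.of_forall fun x => by positivity)]
    refine lintegral_congr fun x => ?_
    rw [← ofReal_norm, ← ENNReal.ofReal_pow (norm_nonneg _)]
  simp only [h1]
  rw [← ENNReal.ofReal_sum_of_nonneg fun α _ => integral_nonneg fun x => by positivity,
    ENNReal.ofReal_mul (by norm_num)]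
  congr 1
  rw [ENNReal.ofReal_div_of_pos (by norm_num)]
  norm_num

/-- (L5) -/
theorem hi_of {b : ColorBasis N} {M : FermionRep N F} {R : GaugeAction b M} {G : GammaNine}
    {κ : ℝ} (h : HIAnn245.HI b M R G κ) :
    ∃ R₀ : ℝ, 0 < R₀ ∧ Decay968.HI (Qd b M G) (Sd b R) κ R₀ := by
  obtain ⟨ρ, hρ, h⟩ := h
  refine ⟨ρ, hρ, fun φ hφ h0 => ?_⟩
  rw [core_iff] at hφ
  rw [qe_eq hφ]
  rcases le_or_gt κ 0 with hκ | hκ
  · rw [ENNReal.ofReal_of_nonpos hκ, zero_mul]
    exact zero_le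
  have h1 := h φ hφ h0
  have hi : Integrable fun x => ‖φ x‖ ^ 2 / ‖x‖ ^ 2 := by
    have hm : MemLp φ 2 volume := hφ.1.continuous.memLp_of_hasCompactSupport hφ.2.1
    have h2 := (hm.integrable_norm_pow (by norm_num)).const_mul (ρ ^ 2)⁻¹
    refine h2.mono' ?_ (Eventually.of_forall fun x => ?_)
    · exact ((hφ.1.continuous.norm.pow 2).measurable.div
        (continuous_norm.pow 2).measurable).aestronglyMeasurable
    · rw [Real.norm_of_nonneg (by positivity)]
      by_cases hx : ‖x‖ < ρ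
      · rw [h0 x hx]
        simp
      · rw [not_lt] at hx
        rw [div_eq_inv_mul]
        have : (‖x‖ ^ 2)⁻¹ ≤ (ρ ^ 2)⁻¹ :=
          inv_anti₀ (by positivity) (pow_le_pow_left₀ hρ.le hx 2)
        exact mul_le_mul_of_nonneg_right this (by positivity)
  have h3 : ∫⁻ x, ‖φ x‖ₑ ^ 2 / ‖x‖ₑ ^ 2 = ENNReal.ofReal (∫ x, ‖φ x‖ ^ 2 / ‖x‖ ^ 2) := by
    rw [ofReal_integral_eq_lintegral_ofReal hi (Eventually.of_forall fun x => by positivity)]
    refine lintegral_congr fun x => ?_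
    by_cases hx : x = 0
    · subst hx
      rw [h0 0 (by simpa using hρ)]
      simp
    · have hx0 : 0 < ‖x‖ ^ 2 := by positivity
      rw [ENNReal.ofReal_div_of_pos hx0, ENNReal.ofReal_pow (norm_nonneg _),
        ENNReal.ofReal_pow (norm_nonneg _), ofReal_norm, ofReal_norm]
  rw [h3, ← ENNReal.ofReal_mul hκ.le]
  exact ENNReal.ofReal_le_ofReal h1

/-- (L6) -/
theorem ker_iff {b : ColorBasis N} {M : FermionRep N F} {R : GaugeAction b M} {G : GammaNine}
    {ψ : Cfg N → F} : Ker (Qd b M G) (Sd b R) ψ ↔ ψ ∈ zset b M R G 1 0 := by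
  constructor
  · rintro ⟨h1, φ, h2, h3, h4⟩
    refine ⟨h1, φ, fun n => (core_iff R).1 (h2 n), h3, fun α => ?_⟩
    have := h4 α
    simp only [op_Qd] at this
    exact this
  · rintro ⟨h1, φ, h2, h3, h4⟩
    refine ⟨h1, φ, fun n => (core_iff R).2 (h2 n), h3, fun α => ?_⟩
    simp only [op_Qd]
    exact h4 α

/-- (L8), one datum. -/
theorem decay_of {b : ColorBasis N} {M : FermionRep N F} {R : GaugeAction b M} {G : GammaNine}
    (hH : ∀ κ, κ < 49 / 8 → HIAnn245.HI b M R G κ) {ψ : Cfg N → F} (hψ : ψ ∈ zset b M R G 1 0)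
    {s : ℝ} (hs : 0 ≤ s) (hs2 : s < 5 / 2) :
    Integrable fun x => ‖x‖ ^ (2 * s) * ‖ψ x‖ ^ 2 := by
  have h1 : (s + 1) ^ 2 / 2 < 49 / 8 := by nlinarith
  obtain ⟨κ, hκ1, hκ2⟩ := exists_between h1
  obtain ⟨R₀, hR₀, hHI⟩ := hi_of (hH κ hκ2)
  have hk : Ker (Qd b M G) (Sd b R) ψ := ker_iff.2 hψ
  have hsol := Ker.sol (frame_Qd b M G).adj hk
  have h2 := hsol.moment (frame_Qd b M G) hR₀ hHI hs hκ1
  have hψm : AEStronglyMeasurable ψ volume := hψ.1.1
  have hm : AEStronglyMeasurable (fun x => ‖x‖ ^ (2 * s) * ‖ψ x‖ ^ 2)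
      (volume : Measure (Cfg N)) := by
    refine AEStronglyMeasurable.mul ?_ (hψm.norm.pow 2)
    exact (measurable_norm.pow_const (2 * s)).aestronglyMeasurable
  refine ⟨hm, ?_⟩
  rw [hasFiniteIntegral_iff_ofReal (Eventually.of_forall fun x => by positivity)]
  refine lt_of_le_of_lt ?_ (lt_top_iff_ne_top.2 h2)
  refine lintegral_mono fun x => ?_
  have h3 : ‖x‖ ^ (2 * s) ≤ (1 + ‖x‖ ^ 2) ^ s := by
    rw [Real.rpow_mul (norm_nonneg _), Real.rpow_two]
    exact Real.rpow_le_rpow (by positivity) (by linarith) hs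
  rw [← ofReal_norm, ← ENNReal.ofReal_pow (norm_nonneg _), ← ENNReal.ofReal_mul (by positivity)]
  exact ENNReal.ofReal_le_ofReal (mul_le_mul_of_nonneg_right h3 (by positivity))

end

/-- **The field `decay` of `StepIn`.** -/
theorem decay_all {N : ℕ} (h : Close478.HIAll N) : Close478.DecayAll N := by
  intro F _ _ _ _ b M R G ψ hψ s hs hs2
  have : CompleteSpace F := complete_F F
  exact decay_of (fun κ hκ => h F b M R G κ hκ) hψ hs hs2


end Crest.Agent.R330.DecLit349

end
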