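import Crest.Agent.R330.Decay_968

/-!
# Row 330, S9 (helper968): decay of the solutions from an exterior Hardy inequality, part 2

* `Sol.hardy_bdd` : the weighted inequality for bounded radial weights with `|∇w| ≤ K/(1+|x|)`.
* `wt t L` : the weight `((1+|x|²)/(1+|x|²/L²))^(t/2)`.
* `exists_decay` : for `0 ≤ s`, `(s+1)²/2 < k` there is `C` with
  `∫_{|x| ≥ 4 R₀} (1+|x|²)^s |u|² ≤ C ∫_{|x| < 4 R₀} |u|²` for all solutions `u`.
* `Sol.memLp` : solutions are square integrable if `1/2 < k`.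
-/

set_option autoImplicit false
set_option linter.unusedSectionVars false
set_option linter.unusedVariables false

open MeasureTheory Set Filter Topology ENNReal
open scoped ContDiff InnerProductSpace

noncomputable section

namespace Crest.Agent.R330.Decay968

open Moll596 WS596

variable {E : Type*} [NormedAddCommGroup E] [InnerProductSpace ℝ E] [FiniteDimensional ℝ E]
  [MeasurableSpace E] [BorelSpace E]
variable {F : Type*} [NormedAddCommGroup F] [InnerProductSpace ℂ F] [CompleteSpace F]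
variable {κ : Type*} [Fintype κ]
variable {Q : κ → FOp E F} {S : Set ((E ≃ₗᵢ[ℝ] E) × (F →L[ℝ] F))} {u : E → F}
  {k R₀ : ℝ}

/-! ### Bounded weights -/

theorem enorm_sq_le {a : ℝ} {G : Type*} [SeminormedAddCommGroup G] {v : G} (h : ‖v‖ ≤ a) :
    ‖v‖ₑ ^ 2 ≤ ENNReal.ofReal (a ^ 2) := by
  rw [← ofReal_norm, ← ENNReal.ofReal_pow (norm_nonneg _)]
  exact ENNReal.ofReal_le_ofReal (pow_le_pow_left₀ (norm_nonneg _) h 2)

theorem div_sq_le_jw {K : ℝ} (hK : 0 ≤ K) (x : E) :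
    ENNReal.ofReal ((K / (1 + ‖x‖)) ^ 2) ≤ ENNReal.ofReal (K ^ 2) * jw x := by
  rw [jw, ← ENNReal.ofReal_mul (by positivity)]
  refine ENNReal.ofReal_le_ofReal ?_
  have h := norm_nonneg x
  rw [div_pow, mul_one_div]
  gcongr
  nlinarith

/-- **The weighted inequality**, bounded radial weights. -/
theorem Sol.hardy_bdd (hQ : Frame Q) (hR₀ : 0 < R₀) (hH : HI Q S k R₀) (h : Sol Q S u)
    {w : E → ℝ} (hw : ContDiff ℝ ∞ w) (hrad : ∀ x y, ‖x‖ = ‖y‖ → w x = w y)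
    (h0 : ∀ x, ‖x‖ ≤ 2 * R₀ → w x = 0) {K : ℝ} (hK : 0 ≤ K) (hb : ∀ x, |w x| ≤ K)
    (hdb : ∀ x, ‖fderiv ℝ w x‖ ≤ K / (1 + ‖x‖)) :
    ENNReal.ofReal k * ∫⁻ x, ‖w x • u x‖ₑ ^ 2 / ‖x‖ₑ ^ 2 ≤
      (1 / 2) * ∫⁻ x, ‖fderiv ℝ w x‖ₑ ^ 2 * ‖u x‖ₑ ^ 2 := by
  obtain ⟨C, hC0, hC⟩ := exists_cut_bound E
  set wn : ℕ → E → ℝ := fun n x => cut ((n : ℝ) + 1) x * w x with hwn
  have hn1 : ∀ n : ℕ, (1 : ℝ) ≤ (n : ℝ) + 1 := fun n => by
    have : (0 : ℝ) ≤ n := Nat.cast_nonneg n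
    linarith
  have hsm : ∀ n, ContDiff ℝ ∞ (wn n) := fun n => (cut_smooth _).mul hw
  have hdn : ∀ n x, fderiv ℝ (wn n) x = cut ((n : ℝ) + 1) x • fderiv ℝ w x +
      w x • fderiv ℝ (cut ((n : ℝ) + 1)) x := fun n x => by
    have h1 : DifferentiableAt ℝ (cut ((n : ℝ) + 1) : E → ℝ) x :=
      (cut_smooth _).differentiable (by simp) x
    have h2 : DifferentiableAt ℝ w x := hw.differentiable (by simp) x
    exact fderiv_fun_mul h1 h2
  have hcc : ∀ n, ENNReal.ofReal k * ∫⁻ x, ‖wn n x • u x‖ₑ ^ 2 / ‖x‖ₑ ^ 2 ≤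
      (1 / 2) * ∫⁻ x, ‖fderiv ℝ (wn n) x‖ₑ ^ 2 * ‖u x‖ₑ ^ 2 := fun n =>
    h.hardy_cc hQ hR₀ hH (hsm n) ((cut_supp (by linarith [hn1 n])).mul_right)
      (fun x y hxy => by simp only [hwn, hrad x y hxy, cut_radial _ hxy])
      fun x hx => by simp only [hwn, h0 x hx, mul_zero]
  have hev : ∀ x : E, ∀ᶠ n : ℕ in atTop, ‖x‖ ≤ (n : ℝ) + 1 := fun x => by
    obtain ⟨m, hm⟩ := exists_nat_ge ‖x‖
    filter_upwards [eventually_ge_atTop m] with n hn
    have : (m : ℝ) ≤ n := by exact_mod_cast hn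
    linarith
  have hm1 : ∀ n, AEMeasurable (fun x => ENNReal.ofReal k * (‖wn n x • u x‖ₑ ^ 2 / ‖x‖ₑ ^ 2))
      (volume : Measure E) := fun n => by
    refine AEMeasurable.const_mul ?_ _
    refine AEMeasurable.div ?_ (measurable_enorm.pow_const 2).aemeasurable
    exact aem_sq ((hsm n).continuous.aestronglyMeasurable.smul h.meas)
  have hm2 : ∀ n, AEMeasurable (fun x => ‖fderiv ℝ (wn n) x‖ₑ ^ 2 * ‖u x‖ₑ ^ 2)
      (volume : Measure E) := fun n => by
    refine AEMeasurable.mul ?_ (aem_sq h.meas)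
    exact ((hsm n).continuous_fderiv (by simp)).measurable.enorm.pow_const 2 |>.aemeasurable
  -- the right side converges
  have hR : Tendsto (fun n => ∫⁻ x, ‖fderiv ℝ (wn n) x‖ₑ ^ 2 * ‖u x‖ₑ ^ 2) atTop
      (𝓝 (∫⁻ x, ‖fderiv ℝ w x‖ₑ ^ 2 * ‖u x‖ₑ ^ 2)) := by
    refine tendsto_lintegral_of_dominated_convergence'
      (fun x => ENNReal.ofReal ((K + K * C) ^ 2) * (jw x * ‖u x‖ₑ ^ 2)) hm2 (fun n => ?_) ?_ ?_
    · refine Eventually.of_forall fun x => ?_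
      simp only
      rw [← mul_assoc]
      gcongr
      refine (enorm_sq_le (a := (K + K * C) / (1 + ‖x‖)) ?_).trans
        (div_sq_le_jw (by positivity) x)
      rw [hdn]
      refine (norm_add_le _ _).trans ?_
      rw [norm_smul, norm_smul, Real.norm_of_nonneg (cut_nonneg _ _), Real.norm_eq_abs, add_div]
      refine add_le_add ?_ ?_
      · calc cut ((n : ℝ) + 1) x * ‖fderiv ℝ w x‖ ≤ 1 * (K / (1 + ‖x‖)) := by
              gcongr
              · exact cut_le_one _ _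
              · exact hdb x
          _ = K / (1 + ‖x‖) := one_mul _
      · calc |w x| * ‖fderiv ℝ (cut ((n : ℝ) + 1)) x‖ ≤ K * (C / (1 + ‖x‖)) := by
              gcongr
              · exact hb x
              · exact hC _ (hn1 n) x
          _ = K * C / (1 + ‖x‖) := by ring
    · rw [lintegral_const_mul' _ _ ENNReal.ofReal_ne_top]
      exact ENNReal.mul_ne_top ENNReal.ofReal_ne_top h.fin
    · refine Eventually.of_forall fun x => ?_
      refine tendsto_const_nhds.congr' ?_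
      filter_upwards [hev x] with n hn
      have h1 : cut ((n : ℝ) + 1) x = 1 := cut_one (by linarith [hn1 n]) hn
      rw [hdn, fderiv_cut_of_one h1, h1, one_smul, smul_zero, add_zero]
  -- Fatou on the left side
  have hL : ENNReal.ofReal k * ∫⁻ x, ‖w x • u x‖ₑ ^ 2 / ‖x‖ₑ ^ 2 ≤
      liminf (fun n => ENNReal.ofReal k * ∫⁻ x, ‖wn n x • u x‖ₑ ^ 2 / ‖x‖ₑ ^ 2) atTop := by
    simp only [← lintegral_const_mul' _ _ (ENNReal.ofReal_ne_top (r := k))]
    refine le_trans ?_ (lintegral_liminf_le' hm1)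
    refine lintegral_mono fun x => ?_
    refine le_of_eq ?_
    symm
    refine Tendsto.liminf_eq (tendsto_const_nhds.congr' ?_)
    filter_upwards [hev x] with n hn
    have h1 : cut ((n : ℝ) + 1) x = 1 := cut_one (by linarith [hn1 n]) hn
    simp only [hwn, h1, one_mul]
  refine hL.trans ?_
  have hR' : Tendsto (fun n => (1 / 2 : ℝ≥0∞) * ∫⁻ x, ‖fderiv ℝ (wn n) x‖ₑ ^ 2 * ‖u x‖ₑ ^ 2) atTop
      (𝓝 ((1 / 2) * ∫⁻ x, ‖fderiv ℝ w x‖ₑ ^ 2 * ‖u x‖ₑ ^ 2)) :=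
    ENNReal.Tendsto.const_mul hR (Or.inr (by
      rw [one_div]; exact ENNReal.inv_ne_top.2 (by norm_num)))
  rw [← hR'.liminf_eq]
  exact liminf_le_liminf (Eventually.of_forall hcc)

/-! ### The weights -/

/-- `((1+s)/(1+s/L²))^(t/2)`. -/
def gt (t L s : ℝ) : ℝ := Real.exp (t / 2 * (Real.log (1 + s) - Real.log (1 + s / L ^ 2)))

/-- `((1+|x|²)/(1+|x|²/L²))^(t/2)`. -/
def wt (t L : ℝ) (x : E) : ℝ := gt t L (‖x‖ ^ 2)

theorem gt_pos (t L s : ℝ) : 0 < gt t L s := Real.exp_pos _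

theorem wt_pos (t L : ℝ) (x : E) : 0 < wt t L x := gt_pos _ _ _

theorem wt_smooth (t L : ℝ) : ContDiff ℝ ∞ (wt t L : E → ℝ) := by
  unfold wt gt
  refine Real.contDiff_exp.comp (contDiff_const.mul (ContDiff.sub ?_ ?_))
  · refine (contDiff_const.add (contDiff_norm_sq ℝ)).log fun x => ?_
    positivity
  · refine (contDiff_const.add ((contDiff_norm_sq ℝ).div_const _)).log fun x => ?_
    positivity

theorem hasDerivAt_gt (t L : ℝ) {s : ℝ} (hs : 0 ≤ s) :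
    HasDerivAt (gt t L) (gt t L s * (t / 2 * (1 / (1 + s) - 1 / L ^ 2 / (1 + s / L ^ 2)))) s := by
  have h1 : HasDerivAt (fun s : ℝ => 1 + s) 1 s := (hasDerivAt_id s).const_add 1
  have h2 : HasDerivAt (fun s : ℝ => 1 + s / L ^ 2) (1 / L ^ 2) s :=
    ((hasDerivAt_id s).div_const _).const_add 1
  have h3 := (h1.log (by positivity)).sub (h2.log (by positivity))
  exact (h3.const_mul (t / 2)).exp

theorem gt_le_exp {t L s : ℝ} (ht : 0 ≤ t) (hs : 0 ≤ s) :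
    gt t L s ≤ Real.exp (t / 2 * Real.log (1 + s)) := by
  unfold gt
  refine Real.exp_le_exp.2 (mul_le_mul_of_nonneg_left ?_ (by positivity))
  have : 0 ≤ Real.log (1 + s / L ^ 2) := Real.log_nonneg (by
    have : 0 ≤ s / L ^ 2 := by positivity
    linarith)
  linarith

theorem gt_le_const {t L s : ℝ} (ht : 0 ≤ t) (hL : 1 ≤ L) (hs : 0 ≤ s) :
    gt t L s ≤ Real.exp (t / 2 * Real.log (L ^ 2)) := by
  unfold gt
  refine Real.exp_le_exp.2 (mul_le_mul_of_nonneg_left ?_ (by positivity))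
  have hL0 : (0 : ℝ) < L := by linarith
  have h1 : (0 : ℝ) < 1 + s / L ^ 2 := by positivity
  rw [← Real.log_div (by positivity) h1.ne']
  refine Real.log_le_log (by positivity) ?_
  rw [div_le_iff₀ h1]
  have h2 : L ^ 2 * (1 + s / L ^ 2) = L ^ 2 + s := by field_simp
  rw [h2]
  nlinarith

theorem norm_fderiv_wt {t L : ℝ} (ht : 0 ≤ t) (hL : 1 ≤ L) (x : E) :
    ‖fderiv ℝ (wt t L : E → ℝ) x‖ ≤ t * (‖x‖ / (1 + ‖x‖ ^ 2)) * wt t L x := by
  have hL0 : (0 : ℝ) < L := by linarith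
  set s : ℝ := ‖x‖ ^ 2 with hs
  have hs0 : 0 ≤ s := by positivity
  set c : ℝ := 1 / (1 + s) - 1 / L ^ 2 / (1 + s / L ^ 2) with hc
  have h1 : HasFDerivAt (fun x : E => ‖x‖ ^ 2) (2 • innerSL ℝ x) x :=
    (hasStrictFDerivAt_norm_sq x).hasFDerivAt
  have h2 : HasFDerivAt (wt t L : E → ℝ) ((gt t L s * (t / 2 * c)) • (2 • innerSL ℝ x)) x :=
    HasDerivAt.comp_hasFDerivAt (h₂ := gt t L) x (hasDerivAt_gt t L hs0) h1
  rw [h2.fderiv, norm_smul, two_smul]
  have h3 : c = 1 / (1 + s) - 1 / (L ^ 2 + s) := by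
    rw [hc]
    congr 1
    rw [div_div]
    congr 1
    field_simp
  have h4 : 0 ≤ c := by
    rw [h3, sub_nonneg]
    exact one_div_le_one_div_of_le (by positivity) (by nlinarith)
  have h5 : c ≤ 1 / (1 + s) := by
    rw [h3]
    have : 0 ≤ 1 / (L ^ 2 + s) := by positivity
    linarith
  rw [Real.norm_of_nonneg (by positivity [gt_pos t L s])]
  have h6 : ‖innerSL ℝ x + innerSL ℝ x‖ ≤ 2 * ‖x‖ := by
    refine (norm_add_le _ _).trans ?_
    rw [innerSL_apply_norm]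
    linarith
  calc gt t L s * (t / 2 * c) * ‖innerSL ℝ x + innerSL ℝ x‖
      ≤ gt t L s * (t / 2 * (1 / (1 + s))) * (2 * ‖x‖) := by
        have := (gt_pos t L s).le
        gcongr
    _ = t * (‖x‖ / (1 + s)) * gt t L s := by ring

theorem tendsto_gt (t : ℝ) {s : ℝ} (hs : 0 ≤ s) :
    Tendsto (fun n : ℕ => gt t ((n : ℝ) + 1) s) atTop (𝓝 (Real.exp (t / 2 * Real.log (1 + s)))) := by
  unfold gt
  refine (Real.continuous_exp.tendsto _).comp ?_
  have h1 : Tendsto (fun n : ℕ => 1 + s / ((n : ℝ) + 1) ^ 2) atTop (𝓝 1) := by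
    have h2 : Tendsto (fun n : ℕ => s / ((n : ℝ) + 1) ^ 2) atTop (𝓝 0) := by
      refine tendsto_const_nhds.div_atTop ?_
      exact (tendsto_pow_atTop (by norm_num)).comp
        (tendsto_atTop_add_const_right _ _ tendsto_natCast_atTop_atTop)
    simpa using h2.const_add 1
  have h3 : Tendsto (fun n : ℕ => Real.log (1 + s / ((n : ℝ) + 1) ^ 2)) atTop (𝓝 0) := by
    have := (Real.continuousAt_log (one_ne_zero)).tendsto.comp h1
    simpa [Function.comp_def] using this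
  have h4 := ((tendsto_const_nhds (x := Real.log (1 + s))).sub h3).const_mul (t / 2)
  simpa using h4

theorem exp_half_sq {t s : ℝ} (hs : 0 ≤ s) :
    Real.exp (t / 2 * Real.log (1 + s)) ^ 2 = (1 + s) ^ t := by
  rw [Real.rpow_def_of_pos (by positivity), ← Real.exp_nat_mul]
  congr 1
  push_cast
  ring

/-! ### Decay -/

/-- **Decay of the solutions.** -/
theorem exists_decay (hQ : Frame Q) (hR₀ : 0 < R₀) (hH : HI Q S k R₀) {s : ℝ} (hs : 0 ≤ s)
    (hk : (s + 1) ^ 2 / 2 < k) :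
    ∃ C : ℝ, 0 ≤ C ∧ ∀ u : E → F, Sol Q S u →
      ∫⁻ x in {x | 4 * R₀ ≤ ‖x‖}, ENNReal.ofReal ((1 + ‖x‖ ^ 2) ^ s) * ‖u x‖ₑ ^ 2 ≤
        ENNReal.ofReal C * ∫⁻ x in {x | ‖x‖ < 4 * R₀}, ‖u x‖ₑ ^ 2 := by
  set t : ℝ := s + 1 with ht
  have ht0 : 0 ≤ t := by linarith
  -- the bound of the gradient of the inner cut-off
  have hR2 : (0 : ℝ) < 2 * R₀ := by linarith
  obtain ⟨C₁, hC₁⟩ : ∃ C : ℝ, ∀ x : E, ‖fderiv ℝ (ext (2 * R₀) : E → ℝ) x‖ * (1 + ‖x‖) ≤ C := by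
    have h1 : Continuous fun x : E => ‖fderiv ℝ (cut (2 * R₀) : E → ℝ) x‖ * (1 + ‖x‖) :=
      ((cut_smooth (2 * R₀)).continuous_fderiv (by simp)).norm.mul
        (continuous_const.add continuous_norm)
    have h2 : HasCompactSupport fun x : E => ‖fderiv ℝ (cut (2 * R₀) : E → ℝ) x‖ * (1 + ‖x‖) := by
      have h3 : HasCompactSupport fun x : E => ‖fderiv ℝ (cut (2 * R₀) : E → ℝ) x‖ :=
        ((cut_supp (E := E) hR2).fderiv ℝ).comp_left (g := fun L => ‖L‖) norm_zero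
      exact h3.mul_right
    obtain ⟨C, hC⟩ := h2.exists_bound_of_continuous h1
    refine ⟨C, fun x => ?_⟩
    rw [fderiv_ext, norm_neg]
    exact (le_abs_self _).trans (hC x)
  have hC₁0 : 0 ≤ C₁ := le_trans (by positivity) (hC₁ 0)
  set P : ℝ := Real.exp (t / 2 * Real.log (1 + (4 * R₀) ^ 2)) with hP
  have hP0 : 0 < P := Real.exp_pos _
  set C₂ : ℝ := C₁ * P + t * P with hC₂
  have hC₂0 : 0 ≤ C₂ := by positivity
  have hkt : 0 < k - t ^ 2 / 2 := by linarith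
  refine ⟨C₂ ^ 2 / 2 / (k - t ^ 2 / 2), by positivity, fun u h => ?_⟩
  set A : Set E := {x | 4 * R₀ ≤ ‖x‖} with hA
  have hAm : MeasurableSet A := measurableSet_le measurable_const measurable_norm
  have hAc : Aᶜ = {x : E | ‖x‖ < 4 * R₀} := by
    ext x
    simp [hA]
  rw [← hAc]
  -- the weights
  set W : ℕ → E → ℝ := fun n x => ext (2 * R₀) x * wt t ((n : ℝ) + 1) x with hW
  have hn1 : ∀ n : ℕ, (1 : ℝ) ≤ (n : ℝ) + 1 := fun n => by
    have : (0 : ℝ) ≤ n := Nat.cast_nonneg n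
    linarith
  have hsm : ∀ n, ContDiff ℝ ∞ (W n) := fun n => (ext_smooth _).mul (wt_smooth _ _)
  have hdW : ∀ n x, fderiv ℝ (W n) x = ext (2 * R₀) x • fderiv ℝ (wt t ((n : ℝ) + 1)) x +
      wt t ((n : ℝ) + 1) x • fderiv ℝ (ext (2 * R₀)) x := fun n x => by
    have h1 : DifferentiableAt ℝ (ext (2 * R₀) : E → ℝ) x :=
      (ext_smooth _).differentiable (by simp) x
    have h2 : DifferentiableAt ℝ (wt t ((n : ℝ) + 1) : E → ℝ) x :=
      (wt_smooth _ _).differentiable (by simp) x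
    exact fderiv_fun_mul h1 h2
  have hdiv : ∀ x : E, ‖x‖ / (1 + ‖x‖ ^ 2) ≤ 2 / (1 + ‖x‖) := fun x => by
    have := norm_nonneg x
    rw [div_le_div_iff₀ (by positivity) (by positivity)]
    nlinarith
  have hdiv1 : ∀ x : E, ‖x‖ / (1 + ‖x‖ ^ 2) ≤ 1 := fun x => by
    have := norm_nonneg x
    rw [div_le_one (by positivity)]
    nlinarith
  have hext1 : ∀ x : E, ‖fderiv ℝ (ext (2 * R₀) : E → ℝ) x‖ ≤ C₁ := fun x => by
    refine le_trans ?_ (hC₁ x)
    have := norm_nonneg x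
    nlinarith [norm_nonneg (fderiv ℝ (ext (2 * R₀) : E → ℝ) x)]
  have hmain : ∀ n : ℕ, ENNReal.ofReal (k - t ^ 2 / 2) *
      ∫⁻ x in A, ‖W n x • u x‖ₑ ^ 2 / ‖x‖ₑ ^ 2 ≤
        ENNReal.ofReal (C₂ ^ 2 / 2) * ∫⁻ x in Aᶜ, ‖u x‖ₑ ^ 2 := by
    intro n
    set L : ℝ := (n : ℝ) + 1 with hL
    set Kn : ℝ := Real.exp (t / 2 * Real.log (L ^ 2)) with hKn
    have hKn0 : 0 < Kn := Real.exp_pos _
    have hwK : ∀ x : E, wt t L x ≤ Kn := fun x => gt_le_const ht0 (hn1 n) (by positivity)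
    have hgb : ∀ x : E, ‖fderiv ℝ (W n) x‖ ≤ (2 * t * Kn + C₁ * Kn + Kn) / (1 + ‖x‖) := fun x => by
      rw [hdW]
      refine (norm_add_le _ _).trans ?_
      rw [norm_smul, norm_smul, Real.norm_of_nonneg (ext_nonneg _ _),
        Real.norm_of_nonneg (wt_pos _ _ _).le, add_div, add_div]
      have h1 : ext (2 * R₀) x * ‖fderiv ℝ (wt t L) x‖ ≤ 2 * t * Kn / (1 + ‖x‖) := by
        calc ext (2 * R₀) x * ‖fderiv ℝ (wt t L) x‖
            ≤ 1 * (t * (‖x‖ / (1 + ‖x‖ ^ 2)) * wt t L x) := by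
              gcongr
              · exact ext_le_one _ _
              · exact norm_fderiv_wt ht0 (hn1 n) x
          _ ≤ 1 * (t * (2 / (1 + ‖x‖)) * Kn) :=
              mul_le_mul_of_nonneg_left (mul_le_mul (mul_le_mul_of_nonneg_left (hdiv x) ht0)
                (hwK x) (wt_pos _ _ _).le (by positivity)) zero_le_one
          _ = 2 * t * Kn / (1 + ‖x‖) := by ring
      have h2 : wt t L x * ‖fderiv ℝ (ext (2 * R₀)) x‖ ≤ C₁ * Kn / (1 + ‖x‖) := by
        rw [le_div_iff₀ (by positivity), mul_assoc, mul_comm C₁]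
        have := hC₁ x
        have h3 := hwK x
        have h4 := (wt_pos t L x).le
        have h5 : 0 ≤ ‖fderiv ℝ (ext (2 * R₀) : E → ℝ) x‖ * (1 + ‖x‖) := by positivity
        exact mul_le_mul h3 this h5 hKn0.le
      have h3 : 0 ≤ Kn / (1 + ‖x‖) := by positivity
      linarith
    have hineq := h.hardy_bdd hQ hR₀ hH (hsm n)
      (fun x y hxy => by simp only [hW, wt, ext_radial _ hxy, hxy])
      (fun x hx => by simp only [hW, ext_zero hR2 hx, zero_mul])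
      (K := 2 * t * Kn + C₁ * Kn + Kn) (by positivity)
      (fun x => by
        rw [abs_of_nonneg (mul_nonneg (ext_nonneg _ _) (wt_pos _ _ _).le)]
        calc ext (2 * R₀) x * wt t L x ≤ 1 * Kn := by
              gcongr
              · exact (wt_pos _ _ _).le
              · exact ext_le_one _ _
              · exact hwK x
          _ ≤ 2 * t * Kn + C₁ * Kn + Kn := by
              have : 0 ≤ 2 * t * Kn + C₁ * Kn := by positivity
              linarith) hgb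
    have hm1 : AEMeasurable (fun x => ‖W n x • u x‖ₑ ^ 2 / ‖x‖ₑ ^ 2) (volume : Measure E) :=
      (aem_sq ((hsm n).continuous.aestronglyMeasurable.smul h.meas)).div
        (measurable_enorm.pow_const 2).aemeasurable
    -- pointwise bounds
    have hpA : ∀ x ∈ A, ‖fderiv ℝ (W n) x‖ₑ ^ 2 * ‖u x‖ₑ ^ 2 ≤
        ENNReal.ofReal (t ^ 2) * (‖W n x • u x‖ₑ ^ 2 / ‖x‖ₑ ^ 2) := fun x hx => by
      have hx' : 4 * R₀ ≤ ‖x‖ := hx
      have hx0 : 0 < ‖x‖ := by linarith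
      have h1 : ext (2 * R₀) x = 1 := ext_one hR2 (by linarith)
      have h2 : ‖fderiv ℝ (W n) x‖ ≤ t * (wt t L x / ‖x‖) := by
        rw [hdW, fderiv_ext_of_one h1, h1, one_smul, smul_zero, add_zero]
        refine (norm_fderiv_wt ht0 (hn1 n) x).trans ?_
        rw [mul_assoc]
        refine mul_le_mul_of_nonneg_left ?_ ht0
        rw [div_mul_eq_mul_div, div_le_div_iff₀ (by positivity) hx0]
        nlinarith [(wt_pos t L x).le]
      have h3 : W n x = wt t L x := by simp only [hW, h1, one_mul, hL]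
      have h4 : ‖W n x • u x‖ₑ ^ 2 / ‖x‖ₑ ^ 2 =
          ENNReal.ofReal ((wt t L x / ‖x‖) ^ 2) * ‖u x‖ₑ ^ 2 := by
        rw [h3, enorm_smul, mul_pow, ← ofReal_norm (wt t L x), Real.norm_of_nonneg (wt_pos _ _ _).le,
          ← ofReal_norm x, div_pow, ENNReal.ofReal_div_of_pos (by positivity),
          ENNReal.ofReal_pow (wt_pos _ _ _).le, ENNReal.ofReal_pow hx0.le, mul_comm, mul_div_assoc,
          mul_comm]
      rw [h4, ← mul_assoc, ← ENNReal.ofReal_mul (by positivity), ← mul_pow t]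
      gcongr
      exact enorm_sq_le h2
    have hpAc : ∀ x ∈ Aᶜ, ‖fderiv ℝ (W n) x‖ₑ ^ 2 * ‖u x‖ₑ ^ 2 ≤
        ENNReal.ofReal (C₂ ^ 2) * ‖u x‖ₑ ^ 2 := fun x hx => by
      rw [hAc] at hx
      have hx' : ‖x‖ < 4 * R₀ := hx
      gcongr
      refine enorm_sq_le ?_
      have hwP : wt t L x ≤ P := by
        refine (gt_le_exp ht0 (by positivity)).trans ?_
        rw [hP]
        gcongr
      rw [hdW]
      refine (norm_add_le _ _).trans ?_
      rw [norm_smul, norm_smul, Real.norm_of_nonneg (ext_nonneg _ _),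
        Real.norm_of_nonneg (wt_pos _ _ _).le, hC₂, add_comm]
      refine add_le_add ?_ ?_
      · rw [mul_comm]
        exact mul_le_mul (hext1 x) hwP (wt_pos _ _ _).le hC₁0
      · calc ext (2 * R₀) x * ‖fderiv ℝ (wt t L) x‖
            ≤ 1 * (t * (‖x‖ / (1 + ‖x‖ ^ 2)) * wt t L x) := by
              gcongr
              · exact ext_le_one _ _
              · exact norm_fderiv_wt ht0 (hn1 n) x
          _ ≤ 1 * (t * 1 * P) :=
              mul_le_mul_of_nonneg_left (mul_le_mul (mul_le_mul_of_nonneg_left (hdiv1 x) ht0)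
                hwP (wt_pos _ _ _).le (by positivity)) zero_le_one
          _ = t * P := by ring
    -- `a` is finite
    have hafin : ∫⁻ x in A, ‖W n x • u x‖ₑ ^ 2 / ‖x‖ₑ ^ 2 ≠ ⊤ := by
      have hb : ∀ x ∈ A, ‖W n x • u x‖ₑ ^ 2 / ‖x‖ₑ ^ 2 ≤
          ENNReal.ofReal (Kn ^ 2 * (1 + 1 / (4 * R₀) ^ 2)) * (jw x * ‖u x‖ₑ ^ 2) := fun x hx => by
        have hx' : 4 * R₀ ≤ ‖x‖ := hx
        have hx0 : 0 < ‖x‖ := by linarith
        have h1 : ext (2 * R₀) x = 1 := ext_one hR2 (by linarith)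
        have h3 : W n x = wt t L x := by simp only [hW, h1, one_mul, hL]
        rw [h3, enorm_smul, mul_pow, ← ofReal_norm (wt t L x), Real.norm_of_nonneg (wt_pos _ _ _).le,
          ← ofReal_norm x, ← ENNReal.ofReal_pow (wt_pos _ _ _).le, ← ENNReal.ofReal_pow hx0.le,
          mul_comm, mul_div_assoc, ← ENNReal.ofReal_div_of_pos (by positivity), mul_comm,
          ← mul_assoc]
        gcongr
        rw [jw, ← ENNReal.ofReal_mul (by positivity)]
        refine ENNReal.ofReal_le_ofReal ?_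
        rw [mul_assoc, div_eq_mul_one_div]
        have h5 : wt t L x ^ 2 ≤ Kn ^ 2 := pow_le_pow_left₀ (wt_pos _ _ _).le (hwK x) 2
        have h6 : 1 / ‖x‖ ^ 2 ≤ (1 + 1 / (4 * R₀) ^ 2) * (1 / (1 + ‖x‖ ^ 2)) := by
          rw [mul_one_div, div_le_div_iff₀ (by positivity) (by positivity), one_mul]
          have h7 : 1 ≤ 1 / (4 * R₀) ^ 2 * ‖x‖ ^ 2 := by
            rw [one_div, inv_mul_eq_div, one_le_div (by positivity)]
            exact pow_le_pow_left₀ (by linarith) hx' 2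
          nlinarith
        gcongr
      refine ne_top_of_le_ne_top ?_ (setLIntegral_mono_ae'  hAm (Eventually.of_forall hb))
      rw [lintegral_const_mul' _ _ ENNReal.ofReal_ne_top]
      refine ENNReal.mul_ne_top ENNReal.ofReal_ne_top (ne_top_of_le_ne_top h.fin ?_)
      exact setLIntegral_le_lintegral _ _
    set a : ℝ≥0∞ := ∫⁻ x in A, ‖W n x • u x‖ₑ ^ 2 / ‖x‖ₑ ^ 2 with ha
    set B : ℝ≥0∞ := ∫⁻ x in Aᶜ, ‖u x‖ₑ ^ 2 with hB
    have h8 : ENNReal.ofReal k * a ≤ ENNReal.ofReal (t ^ 2 / 2) * a +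
        ENNReal.ofReal (C₂ ^ 2 / 2) * B := by
      calc ENNReal.ofReal k * a ≤ ENNReal.ofReal k * ∫⁻ x, ‖W n x • u x‖ₑ ^ 2 / ‖x‖ₑ ^ 2 := by
            gcongr
            exact setLIntegral_le_lintegral _ _
        _ ≤ (1 / 2) * ∫⁻ x, ‖fderiv ℝ (W n) x‖ₑ ^ 2 * ‖u x‖ₑ ^ 2 := hineq
        _ = (1 / 2) * ((∫⁻ x in A, ‖fderiv ℝ (W n) x‖ₑ ^ 2 * ‖u x‖ₑ ^ 2) +
              ∫⁻ x in Aᶜ, ‖fderiv ℝ (W n) x‖ₑ ^ 2 * ‖u x‖ₑ ^ 2) := by
            rw [lintegral_add_compl _ hAm]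
        _ ≤ (1 / 2) * (ENNReal.ofReal (t ^ 2) * a + ENNReal.ofReal (C₂ ^ 2) * B) := by
            gcongr
            · rw [ha, ← lintegral_const_mul' _ _ ENNReal.ofReal_ne_top]
              exact setLIntegral_mono_ae' hAm (Eventually.of_forall hpA)
            · rw [hB, ← lintegral_const_mul' _ _ ENNReal.ofReal_ne_top]
              exact setLIntegral_mono_ae' hAm.compl (Eventually.of_forall hpAc)
        _ = _ := by
            have h9 : ∀ r : ℝ, 0 ≤ r → (1 / 2 : ℝ≥0∞) * ENNReal.ofReal r =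
                ENNReal.ofReal (r / 2) := fun r hr => by
              rw [ENNReal.ofReal_div_of_pos (by norm_num), one_div, ENNReal.div_eq_inv_mul]
              norm_num
            rw [mul_add, ← mul_assoc, ← mul_assoc, h9 _ (by positivity), h9 _ (by positivity)]
    have h10 : ENNReal.ofReal k = ENNReal.ofReal (k - t ^ 2 / 2) + ENNReal.ofReal (t ^ 2 / 2) := by
      rw [← ENNReal.ofReal_add hkt.le (by positivity)]
      congr 1
      ring
    rw [h10, add_mul, add_comm] at h8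
    exact (ENNReal.add_le_add_iff_left (ENNReal.mul_ne_top ENNReal.ofReal_ne_top hafin)).1 h8
  -- Fatou
  have hfat : ∫⁻ x in A, ENNReal.ofReal ((1 + ‖x‖ ^ 2) ^ s) * ‖u x‖ₑ ^ 2 ≤
      liminf (fun n => ∫⁻ x in A, ‖W n x • u x‖ₑ ^ 2 / ‖x‖ₑ ^ 2) atTop := by
    have hm1 : ∀ n, AEMeasurable (fun x => ‖W n x • u x‖ₑ ^ 2 / ‖x‖ₑ ^ 2)
        ((volume : Measure E).restrict A) := fun n =>
      ((aem_sq ((hsm n).continuous.aestronglyMeasurable.smul h.meas)).div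
        (measurable_enorm.pow_const 2).aemeasurable).restrict
    refine le_trans ?_ (lintegral_liminf_le' hm1)
    refine setLIntegral_mono_ae' hAm (Eventually.of_forall fun x hx => ?_)
    have hx' : 4 * R₀ ≤ ‖x‖ := hx
    have hx0 : 0 < ‖x‖ := by linarith
    have h1 : ext (2 * R₀) x = 1 := ext_one hR2 (by linarith)
    have h2 : Tendsto (fun n : ℕ => ‖W n x • u x‖ₑ ^ 2 / ‖x‖ₑ ^ 2) atTop
        (𝓝 (ENNReal.ofReal ((1 + ‖x‖ ^ 2) ^ t / ‖x‖ ^ 2) * ‖u x‖ₑ ^ 2)) := by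
      have h3 : ∀ n, ‖W n x • u x‖ₑ ^ 2 / ‖x‖ₑ ^ 2 =
          ENNReal.ofReal ((gt t ((n : ℝ) + 1) (‖x‖ ^ 2)) ^ 2 / ‖x‖ ^ 2) * ‖u x‖ₑ ^ 2 := fun n => by
        have h4 : W n x = gt t ((n : ℝ) + 1) (‖x‖ ^ 2) := by simp only [hW, h1, one_mul, wt]
        rw [h4, enorm_smul, mul_pow, ← ofReal_norm (gt t ((n : ℝ) + 1) (‖x‖ ^ 2)),
          Real.norm_of_nonneg (gt_pos _ _ _).le, ← ofReal_norm x,
          ← ENNReal.ofReal_pow (gt_pos _ _ _).le, ← ENNReal.ofReal_pow hx0.le,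
          mul_comm, mul_div_assoc, ← ENNReal.ofReal_div_of_pos (by positivity), mul_comm]
      simp only [h3]
      refine ENNReal.Tendsto.mul_const ?_ (Or.inr (by simp))
      refine (ENNReal.continuous_ofReal.tendsto _).comp ?_
      refine Tendsto.div_const ?_ _
      rw [← exp_half_sq (by positivity : (0 : ℝ) ≤ ‖x‖ ^ 2)]
      exact (tendsto_gt t (by positivity)).pow 2
    rw [h2.liminf_eq]
    gcongr
    rw [le_div_iff₀ (by positivity), ht, Real.rpow_add_one (by positivity)]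
    gcongr
    linarith
  have h11 : ENNReal.ofReal (k - t ^ 2 / 2) *
      liminf (fun n => ∫⁻ x in A, ‖W n x • u x‖ₑ ^ 2 / ‖x‖ₑ ^ 2) atTop ≤
        ENNReal.ofReal (C₂ ^ 2 / 2) * ∫⁻ x in Aᶜ, ‖u x‖ₑ ^ 2 := by
    rw [← ENNReal.liminf_const_mul_of_ne_top ENNReal.ofReal_ne_top]
    exact (liminf_le_liminf (Eventually.of_forall hmain)).trans (by simp)
  have h12 : ENNReal.ofReal (k - t ^ 2 / 2) *
      ∫⁻ x in A, ENNReal.ofReal ((1 + ‖x‖ ^ 2) ^ s) * ‖u x‖ₑ ^ 2 ≤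
        ENNReal.ofReal (C₂ ^ 2 / 2) * ∫⁻ x in Aᶜ, ‖u x‖ₑ ^ 2 :=
    (mul_le_mul_right hfat _).trans h11
  have hne : ENNReal.ofReal (k - t ^ 2 / 2) ≠ 0 := by
    rw [Ne, ENNReal.ofReal_eq_zero, not_le]
    exact hkt
  have h13 := (ENNReal.mul_le_iff_le_inv hne ENNReal.ofReal_ne_top).1 h12
  refine h13.trans (le_of_eq ?_)
  rw [← mul_assoc, ENNReal.ofReal_div_of_pos hkt, ENNReal.div_eq_inv_mul]

/-- Local square integrals are finite. -/
theorem Sol.lintegral_ball_ne_top (h : Sol Q S u) (ρ : ℝ) :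
    ∫⁻ x in {x | ‖x‖ < ρ}, ‖u x‖ₑ ^ 2 ≠ ⊤ := by
  have hm : MeasurableSet {x : E | ‖x‖ < ρ} := measurableSet_lt measurable_norm measurable_const
  have hb : ∀ x ∈ {x : E | ‖x‖ < ρ}, ‖u x‖ₑ ^ 2 ≤
      ENNReal.ofReal (1 + ρ ^ 2) * (jw x * ‖u x‖ₑ ^ 2) := fun x hx => by
    have hx' : ‖x‖ < ρ := hx
    rw [← mul_assoc, jw, ← ENNReal.ofReal_mul (by positivity)]
    have h1 : (1 : ℝ) ≤ (1 + ρ ^ 2) * (1 / (1 + ‖x‖ ^ 2)) := by
      rw [mul_one_div, one_le_div (by positivity)]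
      have := pow_le_pow_left₀ (norm_nonneg x) hx'.le 2
      linarith
    calc ‖u x‖ₑ ^ 2 = 1 * ‖u x‖ₑ ^ 2 := (one_mul _).symm
      _ ≤ _ := by
        gcongr
        rw [← ENNReal.ofReal_one]
        exact ENNReal.ofReal_le_ofReal h1
  refine ne_top_of_le_ne_top ?_ (setLIntegral_mono_ae' hm (Eventually.of_forall hb))
  rw [lintegral_const_mul' _ _ ENNReal.ofReal_ne_top]
  refine ENNReal.mul_ne_top ENNReal.ofReal_ne_top (ne_top_of_le_ne_top h.fin ?_)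
  exact setLIntegral_le_lintegral _ _

/-- **All moments below the Hardy exponent are finite.** -/
theorem Sol.moment (hQ : Frame Q) (hR₀ : 0 < R₀) (hH : HI Q S k R₀) {s : ℝ} (hs : 0 ≤ s)
    (hk : (s + 1) ^ 2 / 2 < k) (h : Sol Q S u) :
    ∫⁻ x, ENNReal.ofReal ((1 + ‖x‖ ^ 2) ^ s) * ‖u x‖ₑ ^ 2 ≠ ⊤ := by
  obtain ⟨C, hC, hdec⟩ := exists_decay hQ hR₀ hH hs hk
  have hm : MeasurableSet {x : E | 4 * R₀ ≤ ‖x‖} := measurableSet_le measurable_const measurable_norm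
  have hc : {x : E | 4 * R₀ ≤ ‖x‖}ᶜ = {x : E | ‖x‖ < 4 * R₀} := by
    ext x
    simp
  have hm' : MeasurableSet {x : E | ‖x‖ < 4 * R₀} := by
    rw [← hc]
    exact hm.compl
  rw [← lintegral_add_compl _ hm, hc]
  have h0 := h.lintegral_ball_ne_top (4 * R₀)
  refine ENNReal.add_ne_top.2 ⟨ne_top_of_le_ne_top (ENNReal.mul_ne_top ENNReal.ofReal_ne_top h0)
    (hdec u h), ?_⟩
  have hb : ∀ x ∈ {x : E | ‖x‖ < 4 * R₀}, ENNReal.ofReal ((1 + ‖x‖ ^ 2) ^ s) * ‖u x‖ₑ ^ 2 ≤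
      ENNReal.ofReal ((1 + (4 * R₀) ^ 2) ^ s) * ‖u x‖ₑ ^ 2 := fun x hx => by
    have hx' : ‖x‖ < 4 * R₀ := hx
    gcongr
  refine ne_top_of_le_ne_top ?_ (setLIntegral_mono_ae' hm' (Eventually.of_forall hb))
  rw [lintegral_const_mul' _ _ ENNReal.ofReal_ne_top]
  exact ENNReal.mul_ne_top ENNReal.ofReal_ne_top h0

/-- **Solutions are square integrable.** -/
theorem Sol.memLp (hQ : Frame Q) (hR₀ : 0 < R₀) (hH : HI Q S k R₀) (hk : 1 / 2 < k)
    (h : Sol Q S u) : MemLp u 2 volume := by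
  refine memLp_of_n2 h.meas ?_
  have h1 := h.moment hQ hR₀ hH le_rfl (by norm_num; linarith)
  simpa using h1

end Crest.Agent.R330.Decay968

end
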