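import Crest.Agent.R330.WS_596

/-!
# Row 330, S9 (helper968): decay of the solutions from an exterior Hardy inequality

A finite family of formally symmetric first order differential expressions `Q a` (helper596's `FOp`)
on a finite dimensional Euclidean space `E`, with symbols `Σ_a ‖σ_a(ℓ) v‖² = 8 ‖ℓ‖² ‖v‖²`;
`S` : pairs (isometry of `E`, map of `F`), `Core S` : the smooth compactly supported functions with
these symmetries.

* `HI Q S k R₀` : the exterior Hardy inequality `k ∫ |φ|²/|x|² ≤ (1/16) Σ ‖Q_a φ‖²` for core functions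
  which vanish on `|x| < R₀`.
* `Sol Q S u` : `u` is a weak solution of all `Q_a u = 0`, with the symmetries, `u/⟨x⟩ ∈ L²`.
* `Sol.hardy_cc`, `Sol.hardy_bdd` : `k ∫ w² |u|²/|x|² ≤ 1/2 ∫ |∇w|² |u|²`.
* `Sol.decay` : for `1 ≤ t`, `t²/2 < k` : `∫_{|x| ≥ 4 R₀} (1+|x|²)^t/|x|² |u|² ≤ C ∫_{|x| ≤ 4 R₀} |u|²`.
-/

set_option autoImplicit false
set_option linter.unusedSectionVars false
set_option linter.unusedVariables false

open MeasureTheory Set Filter Topology ENNReal
open scoped ContDiff InnerProductSpace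

noncomputable section

namespace Crest.Agent.R330.Decay968

open Moll596 WS596

variable {E : Type*} [NormedAddCommGroup E] [InnerProductSpace ℝ E] [FiniteDimensional ℝ E]
  [MeasurableSpace E] [BorelSpace E]
variable {F : Type*} [NormedAddCommGroup F] [InnerProductSpace ℂ F] [CompleteSpace F]
variable {κ : Type*} [Fintype κ]

/-! ### Definitions -/

/-- Smooth compactly supported functions with the symmetries `S`. -/
structure Core (S : Set ((E ≃ₗᵢ[ℝ] E) × (F →L[ℝ] F))) (φ : E → F) : Prop where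
  smooth : ContDiff ℝ ∞ φ
  supp : HasCompactSupport φ
  eqv : ∀ p ∈ S, ∀ x, φ (p.1 x) = p.2 (φ x)

/-- The form `(1/16) Σ_a ‖Q_a φ‖²`. -/
def qe (Q : κ → FOp E F) (φ : E → F) : ℝ≥0∞ := (1 / 16) * ∑ a, ∫⁻ x, ‖(Q a).op φ x‖ₑ ^ 2

/-- Formally symmetric family with Dirac type symbols. -/
structure Frame (Q : κ → FOp E F) : Prop where
  adj : ∀ a, Adj (Q a) (Q a)
  sym : ∀ (ℓ : E →L[ℝ] ℝ) (v : F),
    ∑ a, ‖(Q a).A (ℓ.smulRight v)‖ ^ 2 = 8 * (‖ℓ‖ ^ 2 * ‖v‖ ^ 2)

/-- **The exterior Hardy inequality.** -/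
def HI (Q : κ → FOp E F) (S : Set ((E ≃ₗᵢ[ℝ] E) × (F →L[ℝ] F))) (k R₀ : ℝ) : Prop :=
  ∀ φ : E → F, Core S φ → (∀ x, ‖x‖ < R₀ → φ x = 0) →
    ENNReal.ofReal k * ∫⁻ x, ‖φ x‖ₑ ^ 2 / ‖x‖ₑ ^ 2 ≤ qe Q φ

/-- The weight `1/(1+|x|²)`. -/
def jw (x : E) : ℝ≥0∞ := ENNReal.ofReal (1 / (1 + ‖x‖ ^ 2))

/-- Weak solutions with `u/⟨x⟩ ∈ L²`. -/
structure Sol (Q : κ → FOp E F) (S : Set ((E ≃ₗᵢ[ℝ] E) × (F →L[ℝ] F))) (u : E → F) : Prop where
  meas : AEStronglyMeasurable u volume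
  fin : ∫⁻ x, jw x * ‖u x‖ₑ ^ 2 ≠ ⊤
  weak : ∀ a, Wk (Q a) u (fun _ => 0)
  eqv : ∀ p ∈ S, ∀ᵐ x, u (p.1 x) = p.2 (u x)

/-! ### Elementary facts -/

theorem jw_ne_zero (x : E) : jw x ≠ 0 := by
  unfold jw
  rw [Ne, ENNReal.ofReal_eq_zero, not_le]
  positivity

theorem jw_ne_top (x : E) : jw x ≠ ⊤ := ENNReal.ofReal_ne_top

theorem measurable_jw : Measurable (jw : E → ℝ≥0∞) := by
  unfold jw
  fun_prop

theorem aem_sq {u : E → F} (hu : AEStronglyMeasurable u volume) :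
    AEMeasurable (fun x => ‖u x‖ₑ ^ 2) (volume : Measure E) := hu.enorm.pow_const 2

/-- `L²` norms from a pointwise bound by the weight. -/
theorem n2_le_of_jw {u : E → F} {w : E → ℝ} {K : ℝ} (hK : 0 ≤ K)
    (hw : ∀ x, w x ^ 2 ≤ K * (1 / (1 + ‖x‖ ^ 2))) :
    ∫⁻ x, ‖w x • u x‖ₑ ^ 2 ≤ ENNReal.ofReal K * ∫⁻ x, jw x * ‖u x‖ₑ ^ 2 := by
  rw [← lintegral_const_mul' _ _ ENNReal.ofReal_ne_top]
  refine lintegral_mono fun x => ?_
  rw [enorm_smul, mul_pow, ← mul_assoc]
  gcongr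
  rw [jw, ← ENNReal.ofReal_mul hK, ← ofReal_norm, ← ENNReal.ofReal_pow (norm_nonneg _),
    Real.norm_eq_abs, sq_abs]
  exact ENNReal.ofReal_le_ofReal (hw x)

theorem memLp_of_n2 {v : E → F} (hv : AEStronglyMeasurable v volume)
    (h : ∫⁻ x, ‖v x‖ₑ ^ 2 ≠ ⊤) : MemLp v 2 volume := by
  refine ⟨hv, ?_⟩
  have h1 := sq_eLpNorm v
  by_contra hcon
  rw [not_lt, top_le_iff] at hcon
  rw [hcon, ENNReal.top_pow (by norm_num)] at h1
  exact h h1.symm

theorem n2_ne_top {v : E → F} (hv : MemLp v 2 volume) : ∫⁻ x, ‖v x‖ₑ ^ 2 ≠ ⊤ := by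
  rw [← sq_eLpNorm]
  exact (ENNReal.pow_lt_top hv.2).ne

section sol

variable {Q : κ → FOp E F} {S : Set ((E ≃ₗᵢ[ℝ] E) × (F →L[ℝ] F))} {u : E → F}

theorem Sol.memLp_smul (h : Sol Q S u) {w : E → ℝ} (hw : Continuous w) {K : ℝ} (hK : 0 ≤ K)
    (hb : ∀ x, w x ^ 2 ≤ K * (1 / (1 + ‖x‖ ^ 2))) : MemLp (fun x => w x • u x) 2 volume :=
  memLp_of_n2 (hw.aestronglyMeasurable.smul h.meas)
    (ne_top_of_le_ne_top (ENNReal.mul_ne_top ENNReal.ofReal_ne_top h.fin) (n2_le_of_jw hK hb))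

/-- A continuous function with compact support is bounded by the weight. -/
theorem exists_jw_bound {w : E → ℝ} (hw : Continuous w) (hc : HasCompactSupport w) :
    ∃ K : ℝ, 0 ≤ K ∧ ∀ x, w x ^ 2 ≤ K * (1 / (1 + ‖x‖ ^ 2)) := by
  have h1 : Continuous fun x => w x ^ 2 * (1 + ‖x‖ ^ 2) := by fun_prop
  have h2 : HasCompactSupport fun x => w x ^ 2 * (1 + ‖x‖ ^ 2) := by
    refine hc.mono' ?_
    intro x hx
    apply subset_tsupport
    intro h0
    apply hx
    simp only [h0]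
    ring
  obtain ⟨C, hC⟩ := h2.exists_bound_of_continuous h1
  refine ⟨C, (norm_nonneg _).trans (hC 0), fun x => ?_⟩
  have h3 : (0 : ℝ) < 1 + ‖x‖ ^ 2 := by positivity
  rw [mul_one_div, le_div_iff₀ h3]
  exact (le_abs_self _).trans (hC x)

theorem Sol.memLp_cc (h : Sol Q S u) {w : E → ℝ} (hw : Continuous w) (hc : HasCompactSupport w) :
    MemLp (fun x => w x • u x) 2 volume := by
  obtain ⟨K, hK, hb⟩ := exists_jw_bound hw hc
  exact h.memLp_smul hw hK hb

theorem Sol.locInt (h : Sol Q S u) : LocallyIntegrable u volume := by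
  rw [locallyIntegrable_iff]
  intro C hC
  obtain ⟨R, hR0, hR⟩ : ∃ R : ℝ, 0 < R ∧ ∀ x ∈ C, ‖x‖ ≤ R := by
    obtain ⟨R, hR⟩ := hC.isBounded.exists_norm_le
    exact ⟨max R 1, lt_max_of_lt_right one_pos, fun x hx => (hR x hx).trans (le_max_left _ _)⟩
  have h1 := (h.memLp_cc (cut_smooth R).continuous (cut_supp hR0)).restrict C
  have hfin : IsFiniteMeasure (volume.restrict C) := ⟨by
    rw [Measure.restrict_apply_univ]
    exact hC.measure_lt_top⟩
  have h2 : Integrable (fun x => cut R x • u x) (volume.restrict C) :=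
    h1.integrable (by norm_num)
  refine h2.congr ?_
  filter_upwards [ae_restrict_mem hC.measurableSet] with x hx
  rw [cut_one hR0 (hR x hx), one_smul]

end sol

/-! ### Exterior cut-off -/

/-- `0` on `|x| ≤ R`, `1` on `|x| ≥ 2 R`. -/
def ext (R : ℝ) (x : E) : ℝ := 1 - cut R x

theorem ext_smooth (R : ℝ) : ContDiff ℝ ∞ (ext R : E → ℝ) := contDiff_const.sub (cut_smooth R)

theorem ext_nonneg (R : ℝ) (x : E) : 0 ≤ ext R x := sub_nonneg.2 (cut_le_one R x)

theorem ext_le_one (R : ℝ) (x : E) : ext R x ≤ 1 := sub_le_self _ (cut_nonneg R x)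

theorem ext_zero {R : ℝ} (hR : 0 < R) {x : E} (hx : ‖x‖ ≤ R) : ext R x = 0 := by
  rw [ext, cut_one hR hx, sub_self]

theorem ext_one {R : ℝ} (hR : 0 < R) {x : E} (hx : 2 * R ≤ ‖x‖) : ext R x = 1 := by
  rw [ext, cut_zero hR hx, sub_zero]

theorem ext_radial (R : ℝ) {x y : E} (h : ‖x‖ = ‖y‖) : ext R x = ext R y := by
  rw [ext, ext, cut_radial R h]

theorem fderiv_ext (R : ℝ) (x : E) : fderiv ℝ (ext R : E → ℝ) x = -fderiv ℝ (cut R) x := by
  unfold ext
  rw [fderiv_const_sub]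

/-- The derivative vanishes where the cut-off is `0`. -/
theorem fderiv_ext_of_zero {R : ℝ} {x : E} (hx : ext R x = 0) : fderiv ℝ (ext R : E → ℝ) x = 0 := by
  have h1 : IsLocalMin (ext R : E → ℝ) x := Eventually.of_forall fun y => by
    rw [hx]
    exact ext_nonneg R y
  exact h1.fderiv_eq_zero

/-- The derivative vanishes where the cut-off is `1`. -/
theorem fderiv_ext_of_one {R : ℝ} {x : E} (hx : ext R x = 1) : fderiv ℝ (ext R : E → ℝ) x = 0 := by
  have h1 : IsLocalMax (ext R : E → ℝ) x := Eventually.of_forall fun y => by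
    rw [hx]
    exact ext_le_one R y
  exact h1.fderiv_eq_zero

theorem fderiv_cut_of_zero {R : ℝ} {x : E} (hx : cut R x = 0) :
    fderiv ℝ (cut R : E → ℝ) x = 0 := by
  have h1 : IsLocalMin (cut R : E → ℝ) x := Eventually.of_forall fun y => by
    rw [hx]
    exact cut_nonneg R y
  exact h1.fderiv_eq_zero

theorem fderiv_cut_of_one {R : ℝ} {x : E} (hx : cut R x = 1) :
    fderiv ℝ (cut R : E → ℝ) x = 0 := by
  have h1 : IsLocalMax (cut R : E → ℝ) x := Eventually.of_forall fun y => by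
    rw [hx]
    exact cut_le_one R y
  exact h1.fderiv_eq_zero

variable (E) in
/-- `|∇ cut_R| ≤ C/(1+|x|)`, `R ≥ 1`, `C` independent of `R`. -/
theorem exists_cut_bound : ∃ C : ℝ, 0 ≤ C ∧ ∀ R : ℝ, 1 ≤ R → ∀ x : E,
    ‖fderiv ℝ (cut R : E → ℝ) x‖ ≤ C / (1 + ‖x‖) := by
  obtain ⟨C, hC0, hC⟩ := exists_cut0_bound E
  refine ⟨3 * C, by positivity, fun R hR x => ?_⟩
  have hR0 : (0 : ℝ) < R := by linarith
  by_cases hx : 2 * R ≤ ‖x‖
  · rw [fderiv_cut_of_zero (cut_zero hR0 hx), norm_zero]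
    positivity
  · rw [not_le] at hx
    rw [fderiv_cut, norm_smul, norm_inv, Real.norm_of_nonneg hR0.le, le_div_iff₀ (by positivity),
      inv_mul_eq_div, div_mul_eq_mul_div, div_le_iff₀ hR0]
    have h1 := hC (R⁻¹ • x)
    have h2 : 1 + ‖x‖ ≤ 3 * R := by linarith
    calc ‖fderiv ℝ cut0 (R⁻¹ • x)‖ * (1 + ‖x‖) ≤ C * (3 * R) := by gcongr
      _ = 3 * C * R := by ring

/-! ### The weighted identity -/

section main

variable {Q : κ → FOp E F} {S : Set ((E ≃ₗᵢ[ℝ] E) × (F →L[ℝ] F))} {u : E → F}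
  {k R₀ : ℝ}

/-- Symbols, extended real valued. -/
theorem Frame.sym_enorm (hQ : Frame Q) (ℓ : E →L[ℝ] ℝ) (v : F) :
    ∑ a, ‖(Q a).A (ℓ.smulRight v)‖ₑ ^ 2 = 8 * (‖ℓ‖ₑ ^ 2 * ‖v‖ₑ ^ 2) := by
  have h1 : ∀ v : F, ‖v‖ₑ ^ 2 = ENNReal.ofReal (‖v‖ ^ 2) := fun v => by
    rw [← ofReal_norm, ENNReal.ofReal_pow (norm_nonneg _)]
  have h2 : ‖ℓ‖ₑ ^ 2 = ENNReal.ofReal (‖ℓ‖ ^ 2) := by
    rw [← ofReal_norm, ENNReal.ofReal_pow (norm_nonneg _)]
  simp only [h1]
  rw [← ENNReal.ofReal_sum_of_nonneg (fun a _ => by positivity), hQ.sym, h2,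
    ENNReal.ofReal_mul (by norm_num), ENNReal.ofReal_mul (by positivity)]
  norm_num

/-- **The weighted inequality**, compactly supported radial weights. -/
theorem Sol.hardy_cc (hQ : Frame Q) (hR₀ : 0 < R₀) (hH : HI Q S k R₀) (h : Sol Q S u) {w : E → ℝ}
    (hw : ContDiff ℝ ∞ w) (hc : HasCompactSupport w) (hrad : ∀ x y, ‖x‖ = ‖y‖ → w x = w y)
    (h0 : ∀ x, ‖x‖ ≤ 2 * R₀ → w x = 0) :
    ENNReal.ofReal k * ∫⁻ x, ‖w x • u x‖ₑ ^ 2 / ‖x‖ₑ ^ 2 ≤
      (1 / 2) * ∫⁻ x, ‖fderiv ℝ w x‖ₑ ^ 2 * ‖u x‖ₑ ^ 2 := by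
  set v : E → F := fun x => w x • u x with hv
  set Z : κ → E → F := fun a x => (Q a).A ((fderiv ℝ w x).smulRight (u x)) with hZ
  have hvL : MemLp v 2 volume := h.memLp_cc hw.continuous hc
  have hdw : Continuous (fderiv ℝ w) := hw.continuous_fderiv (by simp)
  have hZm : ∀ a, AEStronglyMeasurable (Z a) volume := fun a =>
    (Q a).A.continuous.comp_aestronglyMeasurable
      ((ContinuousLinearMap.smulRightL ℝ E F).aestronglyMeasurable_comp₂
        hdw.aestronglyMeasurable h.meas)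
  have hDL : MemLp (fun x => ‖fderiv ℝ w x‖ • u x) 2 volume := by
    refine h.memLp_cc hdw.norm ?_
    exact (hc.fderiv ℝ).comp_left (g := fun L => ‖L‖) norm_zero
  have hZL : ∀ a, MemLp (Z a) 2 volume := fun a => by
    refine hDL.of_le_mul (c := ‖(Q a).A‖) (hZm a) (Eventually.of_forall fun x => ?_)
    calc ‖(Q a).A ((fderiv ℝ w x).smulRight (u x))‖
        ≤ ‖(Q a).A‖ * ‖(fderiv ℝ w x).smulRight (u x)‖ := ContinuousLinearMap.le_opNorm _ _
      _ = ‖(Q a).A‖ * ‖‖fderiv ℝ w x‖ • u x‖ := by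
          rw [ContinuousLinearMap.norm_smulRight_apply, norm_smul, norm_norm]
  have hW : ∀ a, Wk (Q a) v (Z a) := fun a => by
    have h1 := Wk.smul (hQ.adj a) h.locInt (χ := fun _ => (0 : F))
      (locallyIntegrable_const 0) (h.weak a) hw
    simpa only [smul_zero, zero_add] using h1
  obtain ⟨φ, hφs, hφc, hφe, hφ1, hφ2⟩ := weak_strong hQ.adj hvL hZL hW
  have hex : ContDiff ℝ ∞ (ext R₀ : E → ℝ) := ext_smooth R₀
  have hv0 : ∀ x, ‖x‖ ≤ 2 * R₀ → v x = 0 := fun x hx => by simp only [hv, h0 x hx, zero_smul]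
  -- the cut-off functions
  have hcore : ∀ n, Core S (fun x => ext R₀ x • φ n x) := fun n =>
    { smooth := hex.smul (hφs n)
      supp := (hφc n).smul_left
      eqv := fun p hp x => by
        have h1 := hφe n p.1 p.2 (by
          filter_upwards [h.eqv p hp] with y hy
          simp only [hv]
          rw [hy, map_smul, hrad _ _ (p.1.norm_map y)]) x
        simp only [h1, map_smul, ext_radial R₀ (p.1.norm_map x)] }
  have hHn : ∀ n, ENNReal.ofReal k * ∫⁻ x, ‖ext R₀ x • φ n x‖ₑ ^ 2 / ‖x‖ₑ ^ 2 ≤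
      qe Q (fun x => ext R₀ x • φ n x) := fun n =>
    hH _ (hcore n) fun x hx => by simp only [ext_zero hR₀ hx.le, zero_smul]
  -- left side
  set hh : E → ℝ := fun x => if R₀ ≤ ‖x‖ then ‖x‖⁻¹ else 0 with hhh
  have hh_meas : Measurable hh := Measurable.ite (measurableSet_le measurable_const measurable_norm)
    measurable_norm.inv measurable_const
  have hh_le : ∀ x, ‖hh x‖ ≤ R₀⁻¹ := fun x => by
    simp only [hhh]
    split_ifs with hx
    · rw [norm_inv, norm_norm]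
      exact inv_anti₀ hR₀ hx
    · rw [norm_zero]
      positivity
  have key : ∀ f : E → F, (∀ x, ‖x‖ < R₀ → f x = 0) → ∀ x,
      ‖f x‖ₑ ^ 2 / ‖x‖ₑ ^ 2 = ‖hh x • f x‖ₑ ^ 2 := fun f hf x => by
    by_cases hx : R₀ ≤ ‖x‖
    · have hx0 : ‖x‖ ≠ 0 := (hR₀.trans_le hx).ne'
      have h1 : hh x = ‖x‖⁻¹ := if_pos hx
      rw [h1, enorm_smul, enorm_inv hx0, enorm_norm, mul_pow, ENNReal.inv_pow.symm, mul_comm]
      rfl
    · rw [hf x (not_le.1 hx)]
      simp
  have hL1 : Tendsto (fun n => ENNReal.ofReal k * ∫⁻ x, ‖ext R₀ x • φ n x‖ₑ ^ 2 / ‖x‖ₑ ^ 2) atTop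
      (𝓝 (ENNReal.ofReal k * ∫⁻ x, ‖v x‖ₑ ^ 2 / ‖x‖ₑ ^ 2)) := by
    refine ENNReal.Tendsto.const_mul ?_ (Or.inr ENNReal.ofReal_ne_top)
    have e1 : ∀ n, ∫⁻ x, ‖ext R₀ x • φ n x‖ₑ ^ 2 / ‖x‖ₑ ^ 2 =
        eLpNorm (fun x => hh x • ext R₀ x • φ n x) 2 volume ^ 2 := fun n => by
      rw [sq_eLpNorm]
      refine lintegral_congr fun x => key (fun x => ext R₀ x • φ n x) (fun y hy => ?_) x
      simp only [ext_zero hR₀ hy.le, zero_smul]
    have e2 : ∫⁻ x, ‖v x‖ₑ ^ 2 / ‖x‖ₑ ^ 2 = eLpNorm (fun x => hh x • v x) 2 volume ^ 2 := by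
      rw [sq_eLpNorm]
      exact lintegral_congr fun x => key v (fun y hy => hv0 y (by linarith)) x
    simp only [e1, e2]
    refine (ENNReal.continuous_pow 2).continuousAt.tendsto.comp ?_
    have hm1 : ∀ n, AEStronglyMeasurable (fun x => hh x • ext R₀ x • φ n x) volume := fun n =>
      hh_meas.aestronglyMeasurable.smul
        (hex.continuous.aestronglyMeasurable.smul (hφs n).continuous.aestronglyMeasurable)
    have hm2 : AEStronglyMeasurable (fun x => hh x • v x) volume :=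
      hh_meas.aestronglyMeasurable.smul hvL.1
    have hdiff : Tendsto (fun n => eLpNorm (fun x => hh x • ext R₀ x • φ n x - hh x • v x) 2 volume)
        atTop (𝓝 0) := by
      have hb : ∀ n, eLpNorm (fun x => hh x • ext R₀ x • φ n x - hh x • v x) 2 volume ≤
          ENNReal.ofReal R₀⁻¹ * eLpNorm (fun x => φ n x - v x) 2 volume := fun n => by
        refine eLpNorm_le_mul_eLpNorm_of_ae_le_mul (Eventually.of_forall fun x => ?_) 2
        have h3 : hh x • ext R₀ x • φ n x - hh x • v x = hh x • ext R₀ x • (φ n x - v x) := by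
          rw [smul_sub, smul_sub]
          congr 2
          by_cases hx : ‖x‖ ≤ 2 * R₀
          · rw [hv0 x hx, smul_zero]
          · rw [ext_one hR₀ (not_le.1 hx).le, one_smul]
        rw [h3, norm_smul, norm_smul, Real.norm_of_nonneg (ext_nonneg R₀ x)]
        calc ‖hh x‖ * (ext R₀ x * ‖φ n x - v x‖) ≤ R₀⁻¹ * (1 * ‖φ n x - v x‖) := by
              gcongr
              · exact mul_nonneg (ext_nonneg R₀ x) (norm_nonneg _)
              · exact hh_le x
              · exact ext_le_one R₀ x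
          _ = R₀⁻¹ * ‖φ n x - v x‖ := by rw [one_mul]
      have ht := ENNReal.Tendsto.const_mul (a := ENNReal.ofReal R₀⁻¹) hφ1
        (Or.inr ENNReal.ofReal_ne_top)
      rw [mul_zero] at ht
      exact tendsto_of_tendsto_of_tendsto_of_le_of_le tendsto_const_nhds ht (fun _ => zero_le) hb
    have hfin : eLpNorm (fun x => hh x • v x) 2 volume ≠ ⊤ := by
      have : MemLp (fun x => hh x • v x) 2 volume := by
        refine hvL.of_le_mul (c := R₀⁻¹) hm2 (Eventually.of_forall fun x => ?_)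
        rw [norm_smul]
        exact mul_le_mul_of_nonneg_right (hh_le x) (norm_nonneg _)
      exact this.2.ne
    have hup : ∀ n, eLpNorm (fun x => hh x • ext R₀ x • φ n x) 2 volume ≤
        eLpNorm (fun x => hh x • ext R₀ x • φ n x - hh x • v x) 2 volume +
          eLpNorm (fun x => hh x • v x) 2 volume := fun n => by
      have e : (fun x => hh x • ext R₀ x • φ n x) =
          (fun x => hh x • ext R₀ x • φ n x - hh x • v x) + fun x => hh x • v x := by
        funext x; simp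
      conv_lhs => rw [e]
      exact eLpNorm_add_le ((hm1 n).sub hm2) hm2 (by norm_num)
    have hlo : ∀ n, eLpNorm (fun x => hh x • v x) 2 volume -
        eLpNorm (fun x => hh x • ext R₀ x • φ n x - hh x • v x) 2 volume ≤
          eLpNorm (fun x => hh x • ext R₀ x • φ n x) 2 volume := fun n => by
      rw [tsub_le_iff_right]
      have e : (fun x => hh x • v x) = (fun x => hh x • ext R₀ x • φ n x) -
          fun x => hh x • ext R₀ x • φ n x - hh x • v x := by
        funext x; simp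
      conv_lhs => rw [e]
      exact eLpNorm_sub_le (hm1 n) ((hm1 n).sub hm2) (by norm_num)
    refine tendsto_of_tendsto_of_tendsto_of_le_of_le ?_ ?_ hlo hup
    · have := ENNReal.Tendsto.sub (tendsto_const_nhds (x := eLpNorm (fun x => hh x • v x) 2 volume))
        hdiff (Or.inl hfin)
      simpa using this
    · simpa using hdiff.add (tendsto_const_nhds (x := eLpNorm (fun x => hh x • v x) 2 volume))
  -- right side
  obtain ⟨C, hC⟩ : ∃ C : ℝ, ∀ x : E, ‖fderiv ℝ (ext R₀ : E → ℝ) x‖ ≤ C := by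
    obtain ⟨C, hC⟩ := ((cut_supp (E := E) hR₀).fderiv ℝ).exists_bound_of_continuous
      ((cut_smooth R₀).continuous_fderiv (by simp))
    refine ⟨C, fun x => ?_⟩
    rw [fderiv_ext, norm_neg]
    exact hC x
  have hR1 : ∀ a n, eLpNorm (fun x => (Q a).op (fun y => ext R₀ y • φ n y) x) 2 volume ≤
      (eLpNorm (fun x => (Q a).op (φ n) x - Z a x) 2 volume + eLpNorm (Z a) 2 volume) +
        ENNReal.ofReal (‖(Q a).A‖ * C) * eLpNorm (fun x => φ n x - v x) 2 volume := fun a n => by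
    have hm3 : AEStronglyMeasurable (fun x => ext R₀ x • (Q a).op (φ n) x) volume :=
      hex.continuous.aestronglyMeasurable.smul
        ((Q a).op_continuous (hφs n)).aestronglyMeasurable
    have hdex : Continuous (fderiv ℝ (ext R₀ : E → ℝ)) := hex.continuous_fderiv (by simp)
    have hm4 : AEStronglyMeasurable
        (fun x => (Q a).A ((fderiv ℝ (ext R₀ : E → ℝ) x).smulRight (φ n x))) volume :=
      (Q a).A.continuous.comp_aestronglyMeasurable
        ((ContinuousLinearMap.smulRightL ℝ E F).aestronglyMeasurable_comp₂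
          hdex.aestronglyMeasurable (hφs n).continuous.aestronglyMeasurable)
    have e1 : (fun x => (Q a).op (fun y => ext R₀ y • φ n y) x) =
        (fun x => ext R₀ x • (Q a).op (φ n) x) +
          fun x => (Q a).A ((fderiv ℝ (ext R₀ : E → ℝ) x).smulRight (φ n x)) := by
      funext x
      rw [FOp.op_smul _ hex (hφs n)]
      rfl
    rw [e1]
    refine (eLpNorm_add_le hm3 hm4 (by norm_num)).trans (add_le_add ?_ ?_)
    · have h5 : eLpNorm (fun x => ext R₀ x • (Q a).op (φ n) x) 2 volume ≤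
          eLpNorm ((Q a).op (φ n)) 2 volume := by
        refine eLpNorm_mono fun x => ?_
        rw [norm_smul, Real.norm_of_nonneg (ext_nonneg R₀ x)]
        exact mul_le_of_le_one_left (norm_nonneg _) (ext_le_one R₀ x)
      refine h5.trans ?_
      have e2 : (Q a).op (φ n) = (fun x => (Q a).op (φ n) x - Z a x) + Z a := by
        funext x; simp
      conv_lhs => rw [e2]
      exact eLpNorm_add_le (((Q a).op_continuous (hφs n)).aestronglyMeasurable.sub (hZm a)) (hZm a)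
        (by norm_num)
    · refine eLpNorm_le_mul_eLpNorm_of_ae_le_mul (Eventually.of_forall fun x => ?_) 2
      by_cases hx : ‖x‖ ≤ 2 * R₀
      · calc ‖(Q a).A ((fderiv ℝ (ext R₀ : E → ℝ) x).smulRight (φ n x))‖
            ≤ ‖(Q a).A‖ * ‖(fderiv ℝ (ext R₀ : E → ℝ) x).smulRight (φ n x)‖ :=
              ContinuousLinearMap.le_opNorm _ _
          _ = ‖(Q a).A‖ * (‖fderiv ℝ (ext R₀ : E → ℝ) x‖ * ‖φ n x‖) := by
              rw [ContinuousLinearMap.norm_smulRight_apply]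
          _ ≤ ‖(Q a).A‖ * (C * ‖φ n x‖) := by gcongr; exact hC x
          _ = ‖(Q a).A‖ * C * ‖φ n x - v x‖ := by rw [hv0 x hx, sub_zero]; ring
      · rw [fderiv_ext_of_one (ext_one hR₀ (not_le.1 hx).le)]
        have : (0 : E →L[ℝ] ℝ).smulRight (φ n x) = 0 := by ext; simp
        rw [this, map_zero, norm_zero]
        have hC0 : 0 ≤ C := (norm_nonneg _).trans (hC x)
        positivity
  have hR2 : ∀ a, Tendsto (fun n =>
      (eLpNorm (fun x => (Q a).op (φ n) x - Z a x) 2 volume + eLpNorm (Z a) 2 volume) +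
        ENNReal.ofReal (‖(Q a).A‖ * C) * eLpNorm (fun x => φ n x - v x) 2 volume) atTop
      (𝓝 (eLpNorm (Z a) 2 volume)) := fun a => by
    have h6 := ((hφ2 a).add (tendsto_const_nhds (x := eLpNorm (Z a) 2 volume))).add
      (ENNReal.Tendsto.const_mul (a := ENNReal.ofReal (‖(Q a).A‖ * C)) hφ1
        (Or.inr ENNReal.ofReal_ne_top))
    simpa using h6
  have hR3 : Tendsto (fun n => (1 / 16 : ℝ≥0∞) * ∑ a,
      ((eLpNorm (fun x => (Q a).op (φ n) x - Z a x) 2 volume + eLpNorm (Z a) 2 volume) +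
        ENNReal.ofReal (‖(Q a).A‖ * C) * eLpNorm (fun x => φ n x - v x) 2 volume) ^ 2) atTop
      (𝓝 ((1 / 16) * ∑ a, eLpNorm (Z a) 2 volume ^ 2)) := by
    refine ENNReal.Tendsto.const_mul ?_ (Or.inr (by
      rw [one_div]; exact ENNReal.inv_ne_top.2 (by norm_num)))
    exact tendsto_finsetSum _ fun a _ =>
      (ENNReal.continuous_pow 2).continuousAt.tendsto.comp (hR2 a)
  have hlim := le_of_tendsto_of_tendsto' hL1 hR3 fun n => by
    refine (hHn n).trans ?_
    unfold qe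
    gcongr with a
    rw [← sq_eLpNorm]
    gcongr
    exact hR1 a n
  refine hlim.trans (le_of_eq ?_)
  simp only [sq_eLpNorm]
  have hZm' : ∀ a, AEMeasurable (fun x => ‖Z a x‖ₑ ^ 2) volume := fun a => aem_sq (hZm a)
  rw [← lintegral_finsetSum' _ fun a _ => hZm' a]
  have h7 : ∀ x, ∑ a, ‖Z a x‖ₑ ^ 2 = 8 * (‖fderiv ℝ w x‖ₑ ^ 2 * ‖u x‖ₑ ^ 2) := fun x =>
    hQ.sym_enorm _ _
  simp only [h7]
  rw [lintegral_const_mul' _ _ (by norm_num), ← mul_assoc]
  congr 1
  rw [one_div, one_div, show (16 : ℝ≥0∞) = 2 * 8 by norm_num, ENNReal.mul_inv (by norm_num)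
    (by norm_num), mul_assoc, ENNReal.inv_mul_cancel (by norm_num) (by norm_num), mul_one]

end main

end Crest.Agent.R330.Decay968

end
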