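import Crest.Agent.R330.SlA_314

/-!
Row 330, S5b (slice theorem), part B: the bracket, the quadratic estimate (QUAD) for orbits,
the nearest point property and (STAR).
-/

set_option autoImplicit false
noncomputable section

open Matrix
open Crest.MathPhysics.MatrixQM
open Crest.Agent.R330.SlA314

namespace Crest.Agent.R330.SlB314

variable {N : ℕ} (b : ColorBasis N)

/-- colour bracket `[u,v]^A = f_ABC u^B v^C` -/
def br (u v : Fin (N ^ 2 - 1) → ℝ) : Fin (N ^ 2 - 1) → ℝ :=
  fun A => ∑ B, ∑ C, b.structConst A B C * u B * v C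

/-- infinitesimal gauge transformation `[om, x]_i = [om, x_i]` -/
def brx (om : Fin (N ^ 2 - 1) → ℝ) (x : Cfg N) : Cfg N :=
  WithLp.toLp 2 fun iA => br b om (fun A => x (iA.1, A)) iA.2

theorem structConst_eq (A B C : Fin (N ^ 2 - 1)) :
    ((b.structConst A B C : ℝ) : ℂ) =
      -Complex.I * ((b.T A * b.T B - b.T B * b.T A) * b.T C).trace := by
  unfold ColorBasis.structConst
  apply Complex.conj_eq_iff_re.1
  rw [map_mul, map_neg, Complex.conj_I, starRingEnd_apply, ← Matrix.trace_conjTranspose]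
  simp only [Matrix.conjTranspose_mul, Matrix.conjTranspose_sub, (b.herm A).eq, (b.herm B).eq,
    (b.herm C).eq]
  have : (b.T C * (b.T B * b.T A - b.T A * b.T B)).trace =
      - ((b.T A * b.T B - b.T B * b.T A) * b.T C).trace := by
    rw [Matrix.trace_mul_comm, ← Matrix.trace_neg, ← Matrix.neg_mul, neg_sub]
  rw [this]
  ring

theorem structConst_cyc (A B C : Fin (N ^ 2 - 1)) :
    b.structConst A B C = b.structConst B C A := by
  have h : ((b.structConst A B C : ℝ) : ℂ) = ((b.structConst B C A : ℝ) : ℂ) := by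
    rw [structConst_eq, structConst_eq]
    congr 1
    simp only [Matrix.sub_mul, trace_sub]
    rw [Matrix.trace_mul_cycle (b.T A) (b.T B) (b.T C),
      Matrix.trace_mul_cycle (b.T C) (b.T A) (b.T B),
      Matrix.trace_mul_cycle (b.T B) (b.T A) (b.T C)]
  exact_mod_cast h

theorem cm_br (u v : Fin (N ^ 2 - 1) → ℝ) :
    cm b (br b u v) = -Complex.I • (cm b u * cm b v - cm b v * cm b u) := by
  have htr : (-Complex.I • (cm b u * cm b v - cm b v * cm b u)).trace = 0 := by
    rw [trace_smul, trace_sub, Matrix.trace_mul_comm, sub_self, smul_zero]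
  rw [complete b _ htr]
  conv_lhs => rw [cm]
  refine Finset.sum_congr rfl fun A _ => ?_
  congr 1
  unfold br
  push_cast
  have h1 : (b.T A * (-Complex.I • (cm b u * cm b v - cm b v * cm b u))).trace =
      ∑ B, ∑ C, (-Complex.I * ((b.T B * b.T C - b.T C * b.T B) * b.T A).trace) * u B * v C := by
    rw [mul_smul_comm, trace_smul, Matrix.trace_mul_comm]
    unfold cm
    have h2 : (∑ B, (u B : ℂ) • b.T B) * (∑ C, (v C : ℂ) • b.T C) -
        (∑ C, (v C : ℂ) • b.T C) * (∑ B, (u B : ℂ) • b.T B) =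
        ∑ B, ∑ C, ((u B : ℂ) * (v C : ℂ)) • (b.T B * b.T C - b.T C * b.T B) := by
      rw [Finset.sum_mul, Finset.sum_mul]
      simp only [Finset.mul_sum, smul_mul_smul_comm, smul_sub, Finset.sum_sub_distrib]
      congr 1
      rw [Finset.sum_comm]
      refine Finset.sum_congr rfl fun B _ => Finset.sum_congr rfl fun C _ => ?_
      rw [mul_comm]
    rw [h2]
    simp only [Finset.sum_mul, trace_sum, smul_mul_assoc, trace_smul, smul_eq_mul,
      Finset.mul_sum]
    refine Finset.sum_congr rfl fun B _ => Finset.sum_congr rfl fun C _ => ?_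
    ring
  rw [h1]
  refine Finset.sum_congr rfl fun B _ => Finset.sum_congr rfl fun C _ => ?_
  rw [structConst_cyc, structConst_eq]

theorem mat_brx (om : Fin (N ^ 2 - 1) → ℝ) (x : Cfg N) (i : Fin 9) :
    mat b (brx b om x) i = -Complex.I • (cm b om * mat b x i - mat b x i * cm b om) := by
  rw [mat_eq, mat_eq, ← cm_br]
  rfl

theorem brx_add_left (u v : Fin (N ^ 2 - 1) → ℝ) (x : Cfg N) :
    brx b (u + v) x = brx b u x + brx b v x := by
  apply mat_inj b; intro i
  rw [mat_add, mat_brx, mat_brx, mat_brx, cm_add, ← smul_add]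
  congr 1
  noncomm_ring

theorem brx_smul_left (t : ℝ) (v : Fin (N ^ 2 - 1) → ℝ) (x : Cfg N) :
    brx b (t • v) x = t • brx b v x := by
  apply mat_inj b; intro i
  rw [mat_smul, mat_brx, mat_brx, cm_smul, smul_mul_assoc, mul_smul_comm, ← smul_sub,
    smul_comm]

theorem brx_add_right (u : Fin (N ^ 2 - 1) → ℝ) (x y : Cfg N) :
    brx b u (x + y) = brx b u x + brx b u y := by
  apply mat_inj b; intro i
  rw [mat_add, mat_brx, mat_brx, mat_brx, mat_add, ← smul_add]
  congr 1
  noncomm_ring

theorem brx_smul_right (t : ℝ) (v : Fin (N ^ 2 - 1) → ℝ) (x : Cfg N) :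
    brx b v (t • x) = t • brx b v x := by
  apply mat_inj b; intro i
  rw [mat_smul, mat_brx, mat_brx, mat_smul, smul_mul_assoc, mul_smul_comm, ← smul_sub,
    smul_comm]

/-- `om ↦ [om, x]` as a linear map -/
def adL (x : Cfg N) : (Fin (N ^ 2 - 1) → ℝ) →ₗ[ℝ] Cfg N where
  toFun om := brx b om x
  map_add' u v := brx_add_left b u v x
  map_smul' t v := brx_smul_left b t v x

@[simp] theorem adL_apply (x : Cfg N) (om : Fin (N ^ 2 - 1) → ℝ) : adL b x om = brx b om x := rfl

/-- tangent space of the orbit -/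
def Tan (c : Cfg N) : Submodule ℝ (Cfg N) := LinearMap.range (adL b c)

/-- normal space of the orbit -/
def Nor (c : Cfg N) : Submodule ℝ (Cfg N) := (Tan b c)ᗮ

theorem mem_Nor {c y : Cfg N} :
    y ∈ Nor b c ↔ ∀ om, inner ℝ (brx b om c) y = (0 : ℝ) := by
  unfold Nor Tan
  rw [Submodule.mem_orthogonal]
  constructor
  · intro h om
    exact h _ ⟨om, rfl⟩
  · rintro h _ ⟨om, rfl⟩
    exact h om

end Crest.Agent.R330.SlB314
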