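import Crest.Agent.R330.Frame_839
import Crest.Agent.R330.SlB_314
import Crest.Agent.R330.Brid_837
import Crest.Agent.R330.Col_962

/-!
# Row 330, section 6c (helper839): the charges in a gauge slice, pointwise formula (LS)

* `Colg N` : colour space with its norm; `actB b : Colg N →L Cfg N →L Cfg N`, `actB b w x = [w, x]`.
* `Theta M G α e = Σ_{iAβ} γ^i_αβ e_i^A θ_β^A`.
* `kin_basis` : the kinetic part in any orthonormal basis.
* `kin_split` : the kinetic part in the frame `N ⊕ T` at a point `x` near `c`.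
* `wb` : polarised quartic potential; `wpot_add` : expansion at `x = p + z`.
* `LS` : the pointwise formula; `LS_err` : the remainder bound.
-/

set_option autoImplicit false
set_option linter.unusedSectionVars false

open MeasureTheory Filter Topology Crest.MathPhysics.MatrixQM
open Crest.Agent.R330.IBP837 Crest.Agent.R330.Defs478 Crest.Agent.R330.Frame839
open scoped ContDiff InnerProductSpace ENNReal

noncomputable section

namespace Crest.Agent.R330.LS839

variable {N : ℕ}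

/-- Colour space. -/
abbrev Colg (N : ℕ) := EuclideanSpace ℝ (Fin (N ^ 2 - 1))

/-- The infinitesimal action as a bilinear map. -/
def actL (b : ColorBasis N) : Colg N →ₗ[ℝ] Cfg N →ₗ[ℝ] Cfg N :=
  LinearMap.mk₂ ℝ (fun w x => SlB314.brx b w.ofLp x)
    (fun w w' x => by rw [WithLp.ofLp_add, SlB314.brx_add_left])
    (fun r w x => by rw [WithLp.ofLp_smul, SlB314.brx_smul_left])
    (fun w x x' => SlB314.brx_add_right b _ x x')
    (fun r w x => SlB314.brx_smul_right b r _ x)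

/-- The infinitesimal action as a continuous bilinear map. -/
def actB (b : ColorBasis N) : Colg N →L[ℝ] Cfg N →L[ℝ] Cfg N := (actL b).toContinuousBilinearMap

theorem actB_apply (b : ColorBasis N) (w : Colg N) (x : Cfg N) :
    actB b w x = SlB314.brx b w.ofLp x := rfl

theorem exists_actBound (b : ColorBasis N) : ∃ B : ℝ, 0 < B ∧ ActBound (actB b) B := by
  refine ⟨‖actB b‖ + 1, by positivity, fun w x => ?_⟩
  refine ((actB b).le_opNorm₂ w x).trans ?_
  gcongr
  linarith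

/-- `Tn` is the tangent space of 314. -/
theorem Tn_eq (b : ColorBasis N) (c : Cfg N) : Tn (actB b) c = SlB314.Tan b c := by
  ext x
  constructor
  · rintro ⟨w, hw⟩
    exact ⟨w.ofLp, hw⟩
  · rintro ⟨w, hw⟩
    exact ⟨WithLp.toLp 2 w, hw⟩

theorem Nor_eq (b : ColorBasis N) (c : Cfg N) : (Tn (actB b) c)ᗮ = SlB314.Nor b c := by
  rw [Tn_eq]
  rfl

variable {F : Type*} [NormedAddCommGroup F] [InnerProductSpace ℂ F] [FiniteDimensional ℂ F]

/-- `Θ_α(e) = Σ γ^i_αβ e_i^A θ_β^A`. -/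
def Theta (M : FermionRep N F) (G : GammaNine) (α : Fin 16) (e : Cfg N) : F →ₗ[ℂ] F :=
  ∑ k : Fin 9 × Fin (N ^ 2 - 1), ((e k : ℝ) : ℂ) • dco M G α k

theorem Theta_add (M : FermionRep N F) (G : GammaNine) (α : Fin 16) (e e' : Cfg N) :
    Theta M G α (e + e') = Theta M G α e + Theta M G α e' := by
  unfold Theta
  rw [← Finset.sum_add_distrib]
  refine Finset.sum_congr rfl fun k _ => ?_
  rw [← add_smul]
  congr 1
  simp

theorem Theta_smul (M : FermionRep N F) (G : GammaNine) (α : Fin 16) (r : ℝ) (e : Cfg N) :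
    Theta M G α (r • e) = (r : ℂ) • Theta M G α e := by
  unfold Theta
  rw [Finset.smul_sum]
  refine Finset.sum_congr rfl fun k _ => ?_
  rw [smul_smul]
  congr 1
  simp

theorem Theta_single (M : FermionRep N F) (G : GammaNine) (α : Fin 16)
    (k : Fin 9 × Fin (N ^ 2 - 1)) :
    Theta M G α (EuclideanSpace.single k 1) = dco M G α k := by
  unfold Theta
  rw [Finset.sum_eq_single k]
  · simp
  · intro l _ hl
    have : (EuclideanSpace.single k (1 : ℝ) : Cfg N) l = 0 := by simp [hl]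
    rw [this]
    simp
  · simp

theorem Theta_symm (M : FermionRep N F) (G : GammaNine) (α : Fin 16) (e : Cfg N) :
    (Theta M G α e).IsSymmetric :=
  isSymmetric_sum _ fun k _ => isSymmetric_real_smul (dco_symm M G α k) _

/-- The bilinear map whose contraction is the kinetic term. -/
def kb (M : FermionRep N F) (G : GammaNine) (α : Fin 16) (D : Cfg N →L[ℝ] F) :
    Cfg N →ₗ[ℝ] Cfg N →ₗ[ℝ] F :=
  LinearMap.mk₂ ℝ (fun e e' => Theta M G α e (D e'))
    (fun e₁ e₂ e' => by rw [Theta_add]; rfl)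
    (fun r e e' => by
      rw [Theta_smul, LinearMap.smul_apply]
      exact Complex.coe_smul _ _)
    (fun e e₁ e₂ => by rw [map_add, map_add])
    (fun r e e' => by
      rw [map_smul]
      have : (r • D e' : F) = (r : ℂ) • D e' := (Complex.coe_smul _ _).symm
      rw [this, map_smul]
      exact Complex.coe_smul _ _)

theorem kb_apply (M : FermionRep N F) (G : GammaNine) (α : Fin 16) (D : Cfg N →L[ℝ] F)
    (e e' : Cfg N) : kb M G α D e e' = Theta M G α e (D e') := rfl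

theorem kin_eq (M : FermionRep N F) (G : GammaNine) (α : Fin 16) (φ : Cfg N → F) (x : Cfg N) :
    kin M G α φ x = ∑ k : Fin 9 × Fin (N ^ 2 - 1),
      (-Complex.I) • dco M G α k (fderiv ℝ φ x (EuclideanSpace.single k 1)) := by
  unfold kin
  rw [Fintype.sum_prod_type]
  refine Finset.sum_congr rfl fun i _ => Finset.sum_congr rfl fun A _ => ?_
  rw [dco_apply, Finset.smul_sum]
  refine Finset.sum_congr rfl fun β _ => ?_
  rw [smul_smul]

/-- **The kinetic part in any orthonormal basis.** -/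
theorem kin_basis {ι : Type*} [Fintype ι] (e : OrthonormalBasis ι ℝ (Cfg N))
    (M : FermionRep N F) (G : GammaNine) (α : Fin 16) (φ : Cfg N → F) (x : Cfg N) :
    kin M G α φ x = (-Complex.I) • ∑ s, Theta M G α (e s) (fderiv ℝ φ x (e s)) := by
  have h := contraction_basis (kb M G α (fderiv ℝ φ x))
    (EuclideanSpace.basisFun (Fin 9 × Fin (N ^ 2 - 1)) ℝ) e
  simp only [kb_apply, EuclideanSpace.basisFun_apply, Theta_single] at h
  rw [← h, kin_eq, Finset.smul_sum]

/-- Orthonormal basis of the sum of a subspace and its orthogonal complement. -/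
def sumBasis {E : Type*} [NormedAddCommGroup E] [InnerProductSpace ℝ E] [FiniteDimensional ℝ E]
    (K : Submodule ℝ E) {ι κ : Type*} [Fintype ι] [Fintype κ] (n : OrthonormalBasis ι ℝ Kᗮ)
    (t : OrthonormalBasis κ ℝ K) : OrthonormalBasis (ι ⊕ κ) ℝ E := by
  classical
  refine OrthonormalBasis.mk (v := Sum.elim (fun s => (n s : E)) (fun a => (t a : E))) ?_ ?_
  · rw [orthonormal_iff_ite]
    rintro (i | i) (j | j)
    · have := n.inner_eq_ite i j
      simpa using this
    · have : ⟪((n i : Kᗮ) : E), ((t j : K) : E)⟫_ℝ = 0 :=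
        (Submodule.mem_orthogonal' _ _).1 (n i).2 _ (t j).2
      simpa using this
    · have : ⟪((t i : K) : E), ((n j : Kᗮ) : E)⟫_ℝ = 0 :=
        (Submodule.mem_orthogonal _ _).1 (n j).2 _ (t i).2
      simpa using this
    · have := t.inner_eq_ite i j
      simpa using this
  · intro x _
    have h1 := Submodule.starProjection_add_starProjection_orthogonal (K := K) x
    rw [← h1]
    have hK : ∀ u : K, (u : E) ∈ Submodule.span ℝ
        (Set.range (Sum.elim (fun s => (n s : E)) (fun a => (t a : E)))) := by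
      intro u
      have h2 : (u : E) = ∑ a, ⟪t a, u⟫_ℝ • ((t a : K) : E) := by
        conv_lhs => rw [← t.sum_repr' u]
        simp
      rw [h2]
      exact Submodule.sum_mem _ fun a _ =>
        Submodule.smul_mem _ _ (Submodule.subset_span ⟨Sum.inr a, rfl⟩)
    have hN : ∀ u : Kᗮ, (u : E) ∈ Submodule.span ℝ
        (Set.range (Sum.elim (fun s => (n s : E)) (fun a => (t a : E)))) := by
      intro u
      have h2 : (u : E) = ∑ a, ⟪n a, u⟫_ℝ • ((n a : Kᗮ) : E) := by
        conv_lhs => rw [← n.sum_repr' u]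
        simp
      rw [h2]
      exact Submodule.sum_mem _ fun a _ =>
        Submodule.smul_mem _ _ (Submodule.subset_span ⟨Sum.inl a, rfl⟩)
    exact Submodule.add_mem _ (hK ⟨_, Submodule.starProjection_apply_mem _ _⟩)
      (hN ⟨_, Submodule.starProjection_apply_mem _ _⟩)

theorem sumBasis_inl {E : Type*} [NormedAddCommGroup E] [InnerProductSpace ℝ E]
    [FiniteDimensional ℝ E] (K : Submodule ℝ E) {ι κ : Type*} [Fintype ι] [Fintype κ]
    (n : OrthonormalBasis ι ℝ Kᗮ) (t : OrthonormalBasis κ ℝ K) (s : ι) :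
    sumBasis K n t (Sum.inl s) = (n s : E) := by
  unfold sumBasis
  simp

theorem sumBasis_inr {E : Type*} [NormedAddCommGroup E] [InnerProductSpace ℝ E]
    [FiniteDimensional ℝ E] (K : Submodule ℝ E) {ι κ : Type*} [Fintype ι] [Fintype κ]
    (n : OrthonormalBasis ι ℝ Kᗮ) (t : OrthonormalBasis κ ℝ K) (a : κ) :
    sumBasis K n t (Sum.inr a) = (t a : E) := by
  unfold sumBasis
  simp

/-- The kinetic part in a frame `Kᗮ ⊕ K`. -/
theorem kin_sum (K : Submodule ℝ (Cfg N)) {ι κ : Type*} [Fintype ι] [Fintype κ]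
    (n : OrthonormalBasis ι ℝ Kᗮ) (t : OrthonormalBasis κ ℝ K)
    (M : FermionRep N F) (G : GammaNine) (α : Fin 16) (φ : Cfg N → F) (x : Cfg N) :
    kin M G α φ x = (-Complex.I) • (∑ s, Theta M G α (n s) (fderiv ℝ φ x (n s)) +
      ∑ a, Theta M G α (t a) (fderiv ℝ φ x (t a))) := by
  rw [kin_basis (sumBasis K n t), Fintype.sum_sum_type]
  simp only [sumBasis_inl, sumBasis_inr]

/-! ## The potential -/

/-- Polarised quartic potential `(1/2) Σ f_ABC x_i^B y_j^C γ^ij_αβ`. -/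
def wb (b : ColorBasis N) (G : GammaNine) (α β : Fin 16) (A : Fin (N ^ 2 - 1)) (x y : Cfg N) : ℝ :=
  ∑ B, ∑ C, ∑ i, ∑ j, 1 / 2 * b.structConst A B C * x (i, B) * y (j, C) * G.γ2 i j α β

/-- The mass term. -/
def wl (G : GammaNine) (α β : Fin 16) (A : Fin (N ^ 2 - 1)) (x : Cfg N) : ℝ :=
  ∑ j : Fin 9, cc j * x (j, A) * (Gam G * G.γ j) α β

theorem wpot_wb (b : ColorBasis N) (G : GammaNine) (g m : ℝ) (α β : Fin 16)
    (A : Fin (N ^ 2 - 1)) (x : Cfg N) :
    wpot b G g m α β A x = g * wb b G α β A x x - m * wl G α β A x := rfl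

theorem wb_add_left (b : ColorBasis N) (G : GammaNine) (α β : Fin 16) (A : Fin (N ^ 2 - 1))
    (x x' y : Cfg N) : wb b G α β A (x + x') y = wb b G α β A x y + wb b G α β A x' y := by
  unfold wb
  simp only [← Finset.sum_add_distrib]
  refine Finset.sum_congr rfl fun B _ => Finset.sum_congr rfl fun C _ =>
    Finset.sum_congr rfl fun i _ => Finset.sum_congr rfl fun j _ => ?_
  have : (x + x') (i, B) = x (i, B) + x' (i, B) := rfl
  rw [this]
  ring

theorem wb_add_right (b : ColorBasis N) (G : GammaNine) (α β : Fin 16) (A : Fin (N ^ 2 - 1))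
    (x y y' : Cfg N) : wb b G α β A x (y + y') = wb b G α β A x y + wb b G α β A x y' := by
  unfold wb
  simp only [← Finset.sum_add_distrib]
  refine Finset.sum_congr rfl fun B _ => Finset.sum_congr rfl fun C _ =>
    Finset.sum_congr rfl fun i _ => Finset.sum_congr rfl fun j _ => ?_
  have : (y + y') (j, C) = y (j, C) + y' (j, C) := rfl
  rw [this]
  ring

theorem wb_symm (b : ColorBasis N) (G : GammaNine) (α β : Fin 16) (A : Fin (N ^ 2 - 1))
    (x y : Cfg N) : wb b G α β A x y = wb b G α β A y x := by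
  unfold wb
  rw [Finset.sum_comm]
  refine Finset.sum_congr rfl fun B _ => Finset.sum_congr rfl fun C _ => ?_
  rw [Finset.sum_comm]
  refine Finset.sum_congr rfl fun i _ => Finset.sum_congr rfl fun j _ => ?_
  rw [Crest.Agent.R330.Col962.f_swap23 b A C B]
  have h : G.γ2 i j α β = - G.γ2 j i α β := by
    unfold GammaNine.γ2
    simp only [Matrix.smul_apply, Matrix.sub_apply, smul_eq_mul]
    ring
  have h' : G.γ2 j i α β = - G.γ2 i j α β := by rw [h]; ring
  rw [h']
  ring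

theorem wl_add (G : GammaNine) (α β : Fin 16) (A : Fin (N ^ 2 - 1)) (x y : Cfg N) :
    wl G α β A (x + y) = wl G α β A x + wl G α β A y := by
  unfold wl
  rw [← Finset.sum_add_distrib]
  refine Finset.sum_congr rfl fun j _ => ?_
  have : (x + y) (j, A) = x (j, A) + y (j, A) := rfl
  rw [this]
  ring

/-- **Expansion of the potential.** -/
theorem wpot_add (b : ColorBasis N) (G : GammaNine) (g m : ℝ) (α β : Fin 16)
    (A : Fin (N ^ 2 - 1)) (p z : Cfg N) :
    wpot b G g m α β A (p + z) = wpot b G g m α β A p + 2 * g * wb b G α β A p z +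
      (g * wb b G α β A z z - m * wl G α β A z) := by
  rw [wpot_wb, wpot_wb, wl_add, wb_add_left, wb_add_right, wb_add_right, wb_symm b G α β A z p]
  ring

/-- `wb` through the bracket. -/
theorem wb_eq (b : ColorBasis N) (G : GammaNine) (α β : Fin 16) (A : Fin (N ^ 2 - 1))
    (x y : Cfg N) : wb b G α β A x y =
      ∑ i, ∑ j, 1 / 2 * SlB314.br b (fun B => x (i, B)) (fun C => y (j, C)) A * G.γ2 i j α β := by
  unfold wb SlB314.br
  simp only [Finset.mul_sum, Finset.sum_mul]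
  have h1 : ∀ B : Fin (N ^ 2 - 1), (∑ C, ∑ i, ∑ j,
      1 / 2 * b.structConst A B C * x (i, B) * y (j, C) * G.γ2 i j α β) =
      ∑ i, ∑ j, ∑ C, 1 / 2 * b.structConst A B C * x (i, B) * y (j, C) * G.γ2 i j α β := by
    intro B
    rw [Finset.sum_comm]
    exact Finset.sum_congr rfl fun i _ => Finset.sum_comm
  simp only [h1]
  rw [Finset.sum_comm]
  refine Finset.sum_congr rfl fun i _ => ?_
  rw [Finset.sum_comm]
  refine Finset.sum_congr rfl fun j _ => Finset.sum_congr rfl fun B _ =>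
    Finset.sum_congr rfl fun C _ => ?_
  ring

/-! ## The pointwise formula -/

section LS

variable (b : ColorBasis N) (M : FermionRep N F) (G : GammaNine) (g m : ℝ) (α : Fin 16)
  (c : Cfg N) {ι κ : Type*} [Fintype ι] [Fintype κ]
  (n : OrthonormalBasis ι ℝ (Tn (actB b) c)ᗮ) (t : OrthonormalBasis κ ℝ (Tn (actB b) c))
  (Bf : Colg N →ₗ[ℝ] (F →ₗ[ℝ] F))

/-- Main part at `x = p + z`: normal derivatives (with the oblique correction frozen at `p`) and
the potential up to first order in `z`. -/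
def lsMain (p z : Cfg N) (φ : Cfg N → F) : F :=
  (-Complex.I) • (∑ s, Theta M G α (n s) (fderiv ℝ φ (p + z) (n s)) -
    ∑ a, Theta M G α (t a) (fderiv ℝ φ (p + z) (nn (actB b) c p (t a)))) +
  vco M (fun β A => wpot b G g m α β A p + 2 * g * wb b G α β A p z) (φ (p + z))

/-- Remainder at `x = p + z`. -/
def lsErr (p z : Cfg N) (φ : Cfg N → F) : F :=
  (-Complex.I) • (∑ a, Theta M G α (t a) (Bf (om (actB b) c (p + z) (t a)) (φ (p + z))) -
    ∑ a, Theta M G α (t a) (fderiv ℝ φ (p + z)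
      (nn (actB b) c (p + z) (t a) - nn (actB b) c p (t a)))) +
  vco M (fun β A => g * wb b G α β A z z - m * wl G α β A z) (φ (p + z))

theorem vco_add (M : FermionRep N F) (w w' : Fin 16 → Fin (N ^ 2 - 1) → ℝ) (v : F) :
    vco M (fun β A => w β A + w' β A) v = vco M w v + vco M w' v := by
  simp only [vco_apply, ← Finset.sum_add_distrib]
  refine Finset.sum_congr rfl fun A _ => Finset.sum_congr rfl fun β _ => ?_
  push_cast
  rw [add_smul]

/-- **(LS), pointwise.** -/
theorem LS {p z : Cfg N} {φ : Cfg N → F} (h : InfEq (actB b) Bf φ (p + z)) :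
    dcharge b M G g m α φ (p + z) =
      lsMain b M G g m α c n t p z φ + lsErr b M G g m α c t Bf p z φ := by
  have hW : (∑ A : Fin (N ^ 2 - 1), ∑ β : Fin 16,
      ((wpot b G g m α β A (p + z) : ℝ) : ℂ) • M.θ β A (φ (p + z))) =
      vco M (fun β A => wpot b G g m α β A p + 2 * g * wb b G α β A p z) (φ (p + z)) +
      vco M (fun β A => g * wb b G α β A z z - m * wl G α β A z) (φ (p + z)) := by
    rw [← vco_add, vco_apply]
    simp only [wpot_add]
  unfold dcharge
  rw [hW, kin_sum (Tn (actB b) c) n t]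
  have hv : ∀ a, fderiv ℝ φ (p + z) (t a) =
      Bf (om (actB b) c (p + z) (t a)) (φ (p + z)) -
        fderiv ℝ φ (p + z) (nn (actB b) c (p + z) (t a) - nn (actB b) c p (t a)) -
        fderiv ℝ φ (p + z) (nn (actB b) c p (t a)) := by
    intro a
    rw [vert h (t a), map_sub]
    abel
  have hs : ∑ a, Theta M G α (t a) (fderiv ℝ φ (p + z) (t a)) =
      ∑ a, Theta M G α (t a) (Bf (om (actB b) c (p + z) (t a)) (φ (p + z))) -
      ∑ a, Theta M G α (t a) (fderiv ℝ φ (p + z)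
        (nn (actB b) c (p + z) (t a) - nn (actB b) c p (t a))) -
      ∑ a, Theta M G α (t a) (fderiv ℝ φ (p + z) (nn (actB b) c p (t a))) := by
    rw [← Finset.sum_sub_distrib, ← Finset.sum_sub_distrib]
    refine Finset.sum_congr rfl fun a _ => ?_
    conv_lhs => rw [hv a]
    rw [map_sub, map_sub]
  rw [hs]
  unfold lsMain lsErr
  module

/-! ### Bounds -/

theorem exists_Theta_bound (M : FermionRep N F) (G : GammaNine) :
    ∃ C : ℝ, 0 ≤ C ∧ ∀ α e v, ‖Theta M G α e v‖ ≤ C * ‖e‖ * ‖v‖ := by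
  refine ⟨∑ α, ∑ k, ‖(dco M G α k).toContinuousLinearMap‖, by positivity, fun α e v => ?_⟩
  have h1 : ‖Theta M G α e v‖ ≤ ∑ k, ‖e‖ * (‖(dco M G α k).toContinuousLinearMap‖ * ‖v‖) := by
    unfold Theta
    rw [LinearMap.sum_apply]
    refine (norm_sum_le _ _).trans (Finset.sum_le_sum fun k _ => ?_)
    rw [LinearMap.smul_apply, norm_smul, Complex.norm_real]
    gcongr
    · exact PiLp.norm_apply_le e k
    · exact (dco M G α k).toContinuousLinearMap.le_opNorm v
  refine h1.trans ?_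
  rw [← Finset.mul_sum, ← Finset.sum_mul]
  have h2 : ∑ k, ‖(dco M G α k).toContinuousLinearMap‖ ≤
      ∑ α, ∑ k, ‖(dco M G α k).toContinuousLinearMap‖ :=
    Finset.single_le_sum (f := fun α => ∑ k, ‖(dco M G α k).toContinuousLinearMap‖)
      (fun _ _ => by positivity) (Finset.mem_univ α)
  calc ‖e‖ * ((∑ k, ‖(dco M G α k).toContinuousLinearMap‖) * ‖v‖)
      ≤ ‖e‖ * ((∑ α, ∑ k, ‖(dco M G α k).toContinuousLinearMap‖) * ‖v‖) := by gcongr
    _ = _ := by ring

theorem exists_vco_bound (M : FermionRep N F) :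
    ∃ C : ℝ, 0 ≤ C ∧ ∀ (w : Fin 16 → Fin (N ^ 2 - 1) → ℝ) (K : ℝ) (v : F),
      (∀ β A, |w β A| ≤ K) → ‖vco M w v‖ ≤ C * K * ‖v‖ := by
  refine ⟨∑ A, ∑ β, ‖(M.θ β A).toContinuousLinearMap‖, by positivity, fun w K v hK => ?_⟩
  rw [vco_apply]
  have h1 : ∀ A β, ‖((w β A : ℝ) : ℂ) • M.θ β A v‖ ≤
      ‖(M.θ β A).toContinuousLinearMap‖ * (K * ‖v‖) := by
    intro A β
    rw [norm_smul, Complex.norm_real]
    have e1 : ‖M.θ β A v‖ ≤ ‖(M.θ β A).toContinuousLinearMap‖ * ‖v‖ :=
      (M.θ β A).toContinuousLinearMap.le_opNorm v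
    have e2 : ‖w β A‖ ≤ K := hK β A
    have e3 : 0 ≤ K := (norm_nonneg _).trans e2
    calc ‖w β A‖ * ‖M.θ β A v‖ ≤ K * (‖(M.θ β A).toContinuousLinearMap‖ * ‖v‖) := by gcongr
      _ = _ := by ring
  refine (norm_sum_le _ _).trans ?_
  calc ∑ A, ‖∑ β, ((w β A : ℝ) : ℂ) • M.θ β A v‖
      ≤ ∑ A, ∑ β, ‖(M.θ β A).toContinuousLinearMap‖ * (K * ‖v‖) :=
        Finset.sum_le_sum fun A _ => (norm_sum_le _ _).trans (Finset.sum_le_sum fun β _ => h1 A β)
    _ = _ := by
        simp only [← Finset.sum_mul]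
        ring

theorem wb_bound_one (b : ColorBasis N) (G : GammaNine) (α β : Fin 16) (A : Fin (N ^ 2 - 1)) :
    ∃ C : ℝ, 0 ≤ C ∧ ∀ (x y : Cfg N), |wb b G α β A x y| ≤ C * (‖x‖ * ‖y‖) := by
  refine ⟨∑ B, ∑ C, ∑ i, ∑ j, |1 / 2 * b.structConst A B C * G.γ2 i j α β|,
    Finset.sum_nonneg fun B _ => Finset.sum_nonneg fun C _ => Finset.sum_nonneg fun i _ =>
      Finset.sum_nonneg fun j _ => abs_nonneg _, fun x y => ?_⟩
  unfold wb
  simp only [Finset.sum_mul]
  refine (Finset.abs_sum_le_sum_abs _ _).trans (Finset.sum_le_sum fun B _ => ?_)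
  refine (Finset.abs_sum_le_sum_abs _ _).trans (Finset.sum_le_sum fun C _ => ?_)
  refine (Finset.abs_sum_le_sum_abs _ _).trans (Finset.sum_le_sum fun i _ => ?_)
  refine (Finset.abs_sum_le_sum_abs _ _).trans (Finset.sum_le_sum fun j _ => ?_)
  have e : 1 / 2 * b.structConst A B C * x (i, B) * y (j, C) * G.γ2 i j α β =
      (1 / 2 * b.structConst A B C * G.γ2 i j α β) * (x (i, B) * y (j, C)) := by ring
  rw [e, abs_mul, abs_mul (x (i, B))]
  exact mul_le_mul_of_nonneg_left (mul_le_mul (PiLp.norm_apply_le x (i, B))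
    (PiLp.norm_apply_le y (j, C)) (abs_nonneg _) (norm_nonneg _)) (abs_nonneg _)

theorem exists_wb_bound (b : ColorBasis N) (G : GammaNine) :
    ∃ C : ℝ, 0 ≤ C ∧ ∀ α β A (x y : Cfg N), |wb b G α β A x y| ≤ C * ‖x‖ * ‖y‖ := by
  choose c hc hb using fun α β A => wb_bound_one b G α β A
  have h0 : ∀ α β, 0 ≤ ∑ A, c α β A := fun α β => Finset.sum_nonneg fun A _ => hc α β A
  have h1 : ∀ α, 0 ≤ ∑ β, ∑ A, c α β A := fun α => Finset.sum_nonneg fun β _ => h0 α β
  refine ⟨∑ α, ∑ β, ∑ A, c α β A, Finset.sum_nonneg fun α _ => h1 α, fun α β A x y => ?_⟩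
  refine (hb α β A x y).trans ?_
  rw [mul_assoc]
  refine mul_le_mul_of_nonneg_right ?_ (by positivity)
  refine (Finset.single_le_sum (f := fun A => c α β A) (fun A _ => hc α β A)
    (Finset.mem_univ A)).trans ?_
  refine (Finset.single_le_sum (f := fun β => ∑ A, c α β A) (fun β _ => h0 α β)
    (Finset.mem_univ β)).trans ?_
  exact Finset.single_le_sum (f := fun α => ∑ β, ∑ A, c α β A) (fun α _ => h1 α)
    (Finset.mem_univ α)

theorem exists_wl_bound (G : GammaNine) :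
    ∃ C : ℝ, 0 ≤ C ∧ ∀ α β (A : Fin (N ^ 2 - 1)) (x : Cfg N), |wl G α β A x| ≤ C * ‖x‖ := by
  refine ⟨∑ α, ∑ β, ∑ j : Fin 9, |cc j * (Gam G * G.γ j) α β|, by positivity,
    fun α β A x => ?_⟩
  have h1 : |wl G α β A x| ≤ ∑ j : Fin 9, |cc j * (Gam G * G.γ j) α β| * ‖x‖ := by
    unfold wl
    refine (Finset.abs_sum_le_sum_abs _ _).trans (Finset.sum_le_sum fun j _ => ?_)
    have e : cc j * x (j, A) * (Gam G * G.γ j) α β =
      (cc j * (Gam G * G.γ j) α β) * x (j, A) := by ring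
    rw [e, abs_mul]
    gcongr
    exact PiLp.norm_apply_le x (j, A)
  refine h1.trans ?_
  rw [← Finset.sum_mul]
  gcongr
  calc ∑ j : Fin 9, |cc j * (Gam G * G.γ j) α β|
      ≤ ∑ β, ∑ j : Fin 9, |cc j * (Gam G * G.γ j) α β| :=
        Finset.single_le_sum (f := fun β => ∑ j : Fin 9, |cc j * (Gam G * G.γ j) α β|)
          (fun _ _ => by positivity) (Finset.mem_univ β)
    _ ≤ _ :=
        Finset.single_le_sum (f := fun α => ∑ β, ∑ j : Fin 9, |cc j * (Gam G * G.γ j) α β|)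
          (fun _ _ => by positivity) (Finset.mem_univ α)

end LS

theorem sum_Theta_le (M : FermionRep N F) (G : GammaNine) {C1 K : ℝ} (h1 : 0 ≤ C1) (hK : 0 ≤ K)
    (hT : ∀ (α : Fin 16) (e : Cfg N) (v : F), ‖Theta M G α e v‖ ≤ C1 * ‖e‖ * ‖v‖) (α : Fin 16)
    (T : Submodule ℝ (Cfg N)) {κ : Type} [Fintype κ] (t : OrthonormalBasis κ ℝ T) (f : κ → F)
    (hf : ∀ a, ‖f a‖ ≤ K) :
    ‖∑ a, Theta M G α (t a) (f a)‖ ≤ (Module.finrank ℝ (Cfg N) : ℝ) * (C1 * K) := by
  have hcard : (Fintype.card κ : ℝ) ≤ (Module.finrank ℝ (Cfg N) : ℝ) := by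
    have e1 : Fintype.card κ = Module.finrank ℝ T :=
      (Module.finrank_eq_card_basis t.toBasis).symm
    rw [e1]
    exact_mod_cast Submodule.finrank_le _
  have ht : ∀ a, ‖((t a : T) : Cfg N)‖ = 1 := fun a => t.orthonormal.1 a
  have h2 : ∀ a ∈ (Finset.univ : Finset κ), ‖Theta M G α (t a) (f a)‖ ≤ C1 * K := by
    intro a _
    refine (hT _ _ _).trans ?_
    rw [ht a, mul_one]
    exact mul_le_mul_of_nonneg_left (hf a) h1
  refine (norm_sum_le _ _).trans ((Finset.sum_le_sum h2).trans ?_)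
  rw [Finset.sum_const, Finset.card_univ, nsmul_eq_mul]
  exact mul_le_mul_of_nonneg_right hcard (by positivity)

/-- **Remainder bound**: the constant depends only on the data, on the gap `r`, on the bound `B`
of the action, on the bound of the infinitesimal action on `F` and on the bound of the mass. -/
theorem LS_err (b : ColorBasis N) (M : FermionRep N F) (G : GammaNine) {r B CF m₀ : ℝ}
    (hr0 : 0 < r) (hB0 : 0 ≤ B) (hB : ActBound (actB b) B) (hCF : 0 ≤ CF) (hm0 : 0 ≤ m₀) :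
    ∃ C : ℝ, 0 ≤ C ∧ ∀ (g m : ℝ), 0 ≤ g → |m| ≤ m₀ → ∀ (α : Fin 16) (c : Cfg N),
      GapAt (actB b) c r → ∀ (κ : Type) [Fintype κ]
      (t : OrthonormalBasis κ ℝ (Tn (actB b) c)) (Bf : Colg N →ₗ[ℝ] (F →ₗ[ℝ] F)),
      (∀ w v, ‖Bf w v‖ ≤ CF * ‖w‖ * ‖v‖) → ∀ (p z : Cfg N), B * ‖p + z - c‖ ≤ r / 2 →
      B * ‖p - c‖ ≤ r / 2 → ∀ φ : Cfg N → F,
      ‖lsErr b M G g m α c t Bf p z φ‖ ≤ C * (‖φ (p + z)‖ + ‖z‖ * ‖fderiv ℝ φ (p + z)‖ +
        g * ‖z‖ ^ 2 * ‖φ (p + z)‖ + ‖z‖ * ‖φ (p + z)‖) := by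
  obtain ⟨C1, h1, hT⟩ := exists_Theta_bound M G
  obtain ⟨C2, h2, hV⟩ := exists_vco_bound M
  obtain ⟨C3, h3, hW⟩ := exists_wb_bound b G
  obtain ⟨C4, h4, hL⟩ := exists_wl_bound (N := N) G
  have hD0 : (0 : ℝ) ≤ (Module.finrank ℝ (Cfg N) : ℝ) := Nat.cast_nonneg _
  refine ⟨(Module.finrank ℝ (Cfg N) : ℝ) * (C1 * (CF * (2 / r))) +
    (Module.finrank ℝ (Cfg N) : ℝ) * (C1 * (4 * B / r)) + C2 * C3 + C2 * (m₀ * C4),
    by positivity, fun g m hg hm α c hr κ _ t Bf hBf p z hx hp φ => ?_⟩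
  have ht' : ∀ a, ‖t a‖ = 1 := fun a => t.orthonormal.1 a
  have hz := norm_nonneg z
  have a1 := sum_Theta_le M G h1 (K := CF * (2 / r) * ‖φ (p + z)‖) (by positivity) hT α
    (Tn (actB b) c) t (fun a => Bf (om (actB b) c (p + z) (t a)) (φ (p + z))) (fun a => by
      have e2 := hBf (om (actB b) c (p + z) (t a)) (φ (p + z))
      have e3 := om_bound hr0 hr hB hx (t a)
      rw [ht' a, mul_one] at e3
      refine e2.trans ?_
      refine mul_le_mul_of_nonneg_right (mul_le_mul_of_nonneg_left e3 hCF) (norm_nonneg _))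
  have a2 := sum_Theta_le M G h1 (K := ‖fderiv ℝ φ (p + z)‖ * (4 * B / r * ‖z‖))
    (by positivity) hT α (Tn (actB b) c) t (fun a => fderiv ℝ φ (p + z)
      (nn (actB b) c (p + z) (t a) - nn (actB b) c p (t a))) (fun a => by
      have e2 := (fderiv ℝ φ (p + z)).le_opNorm
        (nn (actB b) c (p + z) (t a) - nn (actB b) c p (t a))
      have e3 := nn_sub_bound hr0 hr hB hB0 hx hp (t a)
      rw [ht' a, mul_one, add_sub_cancel_left] at e3
      exact e2.trans (mul_le_mul_of_nonneg_left e3 (norm_nonneg _)))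
  have a3 : ‖vco M (fun β A => g * wb b G α β A z z - m * wl G α β A z) (φ (p + z))‖ ≤
      C2 * (g * (C3 * ‖z‖ * ‖z‖) + m₀ * (C4 * ‖z‖)) * ‖φ (p + z)‖ := by
    refine hV _ _ _ fun β A => ?_
    refine (abs_sub _ _).trans ?_
    rw [abs_mul, abs_mul, abs_of_nonneg hg]
    exact add_le_add (mul_le_mul_of_nonneg_left (hW _ _ _ _ _) hg)
      (mul_le_mul hm (hL _ _ _ _) (abs_nonneg _) hm0)
  unfold lsErr
  refine (norm_add_le _ _).trans ?_
  rw [norm_smul, norm_neg, Complex.norm_I, one_mul]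
  refine (add_le_add (norm_sub_le _ _) le_rfl).trans ?_
  refine (add_le_add (add_le_add a1 a2) a3).trans ?_
  generalize (Module.finrank ℝ (Cfg N) : ℝ) = D at *
  have hφ := norm_nonneg (φ (p + z))
  have hdφ := norm_nonneg (fderiv ℝ φ (p + z))
  generalize ‖fderiv ℝ φ (p + z)‖ = P1 at *
  generalize ‖φ (p + z)‖ = P0 at *
  generalize ‖z‖ = Z at *
  have q1 : 0 ≤ D * (C1 * (CF * (2 / r))) := by positivity
  have q2 : 0 ≤ D * (C1 * (4 * B / r)) := by positivity
  have q3 : 0 ≤ C2 * C3 := by positivity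
  have q4 : 0 ≤ C2 * (m₀ * C4) := by positivity
  have e1 : D * (C1 * (CF * (2 / r) * P0)) = D * (C1 * (CF * (2 / r))) * P0 := by ring
  have e2 : D * (C1 * (P1 * (4 * B / r * Z))) = D * (C1 * (4 * B / r)) * (Z * P1) := by ring
  have e3 : C2 * (g * (C3 * Z * Z) + m₀ * (C4 * Z)) * P0 =
      C2 * C3 * (g * Z ^ 2 * P0) + C2 * (m₀ * C4) * (Z * P0) := by ring
  rw [e1, e2, e3]
  generalize D * (C1 * (CF * (2 / r))) = Q1 at *
  generalize D * (C1 * (4 * B / r)) = Q2 at *
  generalize C2 * C3 = Q3 at *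
  generalize C2 * (m₀ * C4) = Q4 at *
  have p1 : 0 ≤ Z * P1 := by positivity
  have p2 : 0 ≤ g * Z ^ 2 * P0 := by positivity
  have p3 : 0 ≤ Z * P0 := by positivity
  generalize Z * P1 = R1 at *
  generalize g * Z ^ 2 * P0 = R2 at *
  generalize Z * P0 = R3 at *
  nlinarith [mul_nonneg q1 p1, mul_nonneg q1 p2, mul_nonneg q1 p3, mul_nonneg q2 hφ,
    mul_nonneg q2 p2, mul_nonneg q2 p3, mul_nonneg q3 hφ, mul_nonneg q3 p1, mul_nonneg q3 p3,
    mul_nonneg q4 hφ, mul_nonneg q4 p1, mul_nonneg q4 p2]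

end Crest.Agent.R330.LS839

end
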