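import Crest.Agent.R330.Diag_304
import Crest.Agent.R330.LS_839
import Crest.Agent.R330.Cone_741

/-!
# Row 330, leaf S6A/S6D, part 2 (helper304): the literal colour algebra

* `colAlg b : ColAlg (Colg N)` : 839's abstract colour algebra, literally; `brBound` : constant `2`.
* `row x i`, `mem_kk_row`, `mem_perp_row` : the commutant and its complement for `dg b p`.
* `gap_colAlg`, `gapAt` : the gap is the separation of the points.
* `V4_row` : the abstract quartic potential is `Cone741.V4`.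
* `Blk b p`, `Zt b p` : block configurations, transverse off-diagonal configurations; `Zt` ⊆ `Nor`,
  `Nor = Blk + Zt`.
* `V4_low` : `V4 (dg p + y + z) ≥ 1/2 V4 y + r²/8 ‖z‖²` for `56 (‖y‖² + ‖z‖²) ≤ r²`.
-/

set_option autoImplicit false
set_option linter.unusedSectionVars false

open MeasureTheory Crest.MathPhysics.MatrixQM
open scoped BigOperators Matrix InnerProductSpace
open Crest.Agent.R330.SlB314 (br brx Tan Nor)
open Crest.Agent.R330.LS839 (Colg actB)
open Crest.Agent.R330.Clus839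

noncomputable section

namespace Crest.Agent.R330.Diag304

open Blk304 (hm cf hs)

variable {N : ℕ} (b : ColorBasis N)

theorem hm_br (u v : Fin (N ^ 2 - 1) → ℝ) :
    hm b (br b u v) = (-Complex.I) • (hm b u * hm b v - hm b v * hm b u) :=
  SlB314.cm_br b u v

theorem br_add_left (u u' v : Fin (N ^ 2 - 1) → ℝ) : br b (u + u') v = br b u v + br b u' v := by
  apply Blk304.hm_inj b
  rw [Blk304.hm_add, hm_br, hm_br, hm_br, Blk304.hm_add, ← smul_add]
  congr 1
  noncomm_ring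

theorem br_smul_left (t : ℝ) (u v : Fin (N ^ 2 - 1) → ℝ) : br b (t • u) v = t • br b u v := by
  apply Blk304.hm_inj b
  rw [Blk304.hm_smul, hm_br, hm_br, Blk304.hm_smul, smul_mul_assoc, mul_smul_comm, ← smul_sub,
    smul_comm]

theorem br_anti (u v : Fin (N ^ 2 - 1) → ℝ) : br b u v = - br b v u := by
  apply Blk304.hm_inj b
  rw [Blk304.hm_neg, hm_br, hm_br, ← smul_neg, neg_sub]

theorem br_add_right (u v v' : Fin (N ^ 2 - 1) → ℝ) : br b u (v + v') = br b u v + br b u v' := by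
  rw [br_anti, br_add_left, br_anti b v u, br_anti b v' u]
  abel

theorem br_smul_right (t : ℝ) (u v : Fin (N ^ 2 - 1) → ℝ) : br b u (t • v) = t • br b u v := by
  rw [br_anti, br_smul_left, br_anti b v u, smul_neg, neg_neg]

theorem br_jac (u v w : Fin (N ^ 2 - 1) → ℝ) :
    br b u (br b v w) = br b (br b u v) w + br b v (br b u w) := by
  apply Blk304.hm_inj b
  simp only [Blk304.hm_add, hm_br, smul_mul_assoc, mul_smul_comm, ← smul_sub, ← smul_add]
  congr 2
  noncomm_ring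

theorem sum_mul_eq_trace (u v : Fin (N ^ 2 - 1) → ℝ) :
    ((∑ A, u A * v A : ℝ) : ℂ) = (hm b u * hm b v).trace :=
  (Blk304.trace_hm_mul_hm b u v).symm

theorem br_inv (u v w : Fin (N ^ 2 - 1) → ℝ) :
    ∑ A, br b u v A * w A = ∑ A, u A * br b v w A := by
  apply Complex.ofReal_injective
  rw [sum_mul_eq_trace b, sum_mul_eq_trace b, hm_br, hm_br, smul_mul_assoc, mul_smul_comm,
    Matrix.trace_smul, Matrix.trace_smul]
  congr 1
  rw [Matrix.sub_mul, Matrix.mul_sub, Matrix.trace_sub, Matrix.trace_sub, Matrix.mul_assoc]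
  congr 1
  rw [Matrix.mul_assoc, Matrix.trace_mul_comm (hm b v), Matrix.mul_assoc]

theorem inner_colg (u v : Colg N) : ⟪u, v⟫_ℝ = ∑ A, u A * v A := by
  rw [PiLp.inner_apply]
  refine Finset.sum_congr rfl fun A _ => ?_
  simp [mul_comm]

theorem norm_colg_sq (u : Colg N) : ‖u‖ ^ 2 = hs (hm b u.ofLp) := by
  rw [Blk304.hs_hm, EuclideanSpace.norm_sq_eq]
  simp

/-- the colour algebra -/
def colAlg : ColAlg (Colg N) where
  br := LinearMap.mk₂ ℝ (fun u v => WithLp.toLp 2 (br b u.ofLp v.ofLp))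
    (fun u u' v => by rw [WithLp.ofLp_add, br_add_left]; rfl)
    (fun t u v => by rw [WithLp.ofLp_smul, br_smul_left]; rfl)
    (fun u v v' => by rw [WithLp.ofLp_add, br_add_right]; rfl)
    (fun t u v => by rw [WithLp.ofLp_smul, br_smul_right]; rfl)
  anti u v := by
    rw [LinearMap.mk₂_apply, LinearMap.mk₂_apply, br_anti]
    rfl
  jac u v w := by
    simp only [LinearMap.mk₂_apply]
    rw [br_jac]
    rfl
  inv u v w := by
    rw [inner_colg, inner_colg]
    exact br_inv b u.ofLp v.ofLp w.ofLp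

theorem colAlg_br (u v : Colg N) : (colAlg b).br u v = WithLp.toLp 2 (br b u.ofLp v.ofLp) := rfl

/-- Cauchy-Schwarz for the Hilbert-Schmidt norm -/
theorem hs_mul_le (X Y : Matrix (Fin N) (Fin N) ℂ) : hs (X * Y) ≤ hs X * hs Y := by
  unfold Blk304.hs
  rw [Finset.sum_mul]
  refine Finset.sum_le_sum fun a _ => ?_
  have h1 : ∀ c, ‖(X * Y) a c‖ ^ 2 ≤ (∑ k, ‖X a k‖ ^ 2) * ∑ k, ‖Y k c‖ ^ 2 := by
    intro c
    rw [Matrix.mul_apply]
    have h2 : ‖∑ k, X a k * Y k c‖ ≤ ∑ k, ‖X a k‖ * ‖Y k c‖ :=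
      (norm_sum_le _ _).trans (Finset.sum_le_sum fun k _ => by rw [norm_mul])
    calc ‖∑ k, X a k * Y k c‖ ^ 2 ≤ (∑ k, ‖X a k‖ * ‖Y k c‖) ^ 2 := by gcongr
      _ ≤ _ := Finset.sum_mul_sq_le_sq_mul_sq _ _ _
  calc ∑ c, ‖(X * Y) a c‖ ^ 2 ≤ ∑ c, (∑ k, ‖X a k‖ ^ 2) * ∑ k, ‖Y k c‖ ^ 2 :=
        Finset.sum_le_sum fun c _ => h1 c
    _ = (∑ k, ‖X a k‖ ^ 2) * ∑ k, ∑ c, ‖Y k c‖ ^ 2 := by
        rw [← Finset.mul_sum, Finset.sum_comm]

theorem hs_sub_le (X Y : Matrix (Fin N) (Fin N) ℂ) : hs (X - Y) ≤ 2 * hs X + 2 * hs Y := by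
  unfold Blk304.hs
  rw [Finset.mul_sum, Finset.mul_sum, ← Finset.sum_add_distrib]
  refine Finset.sum_le_sum fun a _ => ?_
  rw [Finset.mul_sum, Finset.mul_sum, ← Finset.sum_add_distrib]
  refine Finset.sum_le_sum fun c _ => ?_
  rw [Matrix.sub_apply]
  have := norm_sub_le (X a c) (Y a c)
  have h0 := norm_nonneg (X a c - Y a c)
  nlinarith [sq_nonneg (‖X a c‖ - ‖Y a c‖), norm_nonneg (X a c), norm_nonneg (Y a c)]

theorem brBound : (colAlg b).BrBound 2 := by
  intro u v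
  have h1 : ‖(colAlg b).br u v‖ ^ 2 ≤ (2 * ‖u‖ * ‖v‖) ^ 2 := by
    rw [norm_colg_sq b, colAlg_br, hm_br, Blk304.hs_neg_I_smul, mul_pow, mul_pow, norm_colg_sq b u,
      norm_colg_sq b v]
    have h2 := hs_sub_le (hm b u.ofLp * hm b v.ofLp) (hm b v.ofLp * hm b u.ofLp)
    have h3 := hs_mul_le (hm b u.ofLp) (hm b v.ofLp)
    have h4 := hs_mul_le (hm b v.ofLp) (hm b u.ofLp)
    nlinarith
  exact (pow_le_pow_iff_left₀ (norm_nonneg _) (by positivity) two_ne_zero).1 h1

/-! ## Rows -/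

/-- the `i`-th colour vector of a configuration -/
def row (x : Cfg N) (i : Fin 9) : Colg N := WithLp.toLp 2 (fun A => x (i, A))

theorem mat_row (x : Cfg N) (i : Fin 9) : Blk304.mat b x i = hm b (row x i).ofLp := rfl

theorem sum_norm_row (x : Cfg N) : ∑ i, ‖row x i‖ ^ 2 = ‖x‖ ^ 2 := by
  rw [EuclideanSpace.norm_sq_eq, Fintype.sum_prod_type]
  refine Finset.sum_congr rfl fun i _ => ?_
  rw [EuclideanSpace.norm_sq_eq]
  rfl

theorem row_brx (om : Fin (N ^ 2 - 1) → ℝ) (x : Cfg N) (i : Fin 9) :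
    row (brx b om x) i = (colAlg b).br (WithLp.toLp 2 om) (row x i) := rfl

theorem V4_row (x : Cfg N) : (colAlg b).V4 (row x) = Cone741.V4 b x := by
  unfold ColAlg.V4 Cone741.V4
  congr 1
  refine Finset.sum_congr rfl fun i _ => Finset.sum_congr rfl fun j _ => ?_
  rw [EuclideanSpace.norm_sq_eq]
  refine Finset.sum_congr rfl fun A _ => ?_
  rw [Real.norm_eq_abs, sq_abs]
  rfl

theorem comm_dg {p : Fin N → EuclideanSpace ℝ (Fin 9)} (hp : ∑ a, p a = 0) :
    (colAlg b).Comm (row (dg b p)) := by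
  intro i j
  rw [colAlg_br]
  have h : br b (row (dg b p) i).ofLp (row (dg b p) j).ofLp = 0 := by
    apply Blk304.hm_inj b
    rw [hm_br, ← mat_row, ← mat_row, mat_dg b hp, mat_dg b hp, Matrix.diagonal_mul_diagonal,
      Matrix.diagonal_mul_diagonal, Blk304.hm_zero]
    have : (fun a => ((p a i : ℝ) : ℂ) * ((p a j : ℝ) : ℂ)) =
        fun a => ((p a j : ℝ) : ℂ) * ((p a i : ℝ) : ℂ) := by
      ext a; ring
    rw [this, sub_self, smul_zero]
  rw [h]
  rfl

theorem mem_kk_row {p : Fin N → EuclideanSpace ℝ (Fin 9)} (hp : ∑ a, p a = 0) (w : Colg N) :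
    w ∈ (colAlg b).kk (row (dg b p)) ↔ pk b p w.ofLp = w.ofLp := by
  rw [pk_eq_self_iff, ← brx_dg_eq_zero b hp, ColAlg.mem_kk]
  constructor
  · intro h
    ext ⟨i, A⟩
    have h1 := h i
    rw [(colAlg b).anti, neg_eq_zero] at h1
    exact congrArg (fun v : Colg N => v A) h1
  · intro h i
    rw [(colAlg b).anti, neg_eq_zero]
    have h1 := row_brx b w.ofLp (dg b p) i
    rw [h] at h1
    rw [← WithLp.toLp_ofLp 2 w, ← h1]
    rfl

theorem mem_perp_row {p : Fin N → EuclideanSpace ℝ (Fin 9)} (hp : ∑ a, p a = 0) (w : Colg N) :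
    w ∈ ((colAlg b).kk (row (dg b p)))ᗮ ↔ pk b p w.ofLp = 0 := by
  rw [Submodule.mem_orthogonal]
  constructor
  · intro h
    have h1 := h (WithLp.toLp 2 (pk b p w.ofLp)) ((mem_kk_row b hp _).2 (pk_pk b p _))
    rw [inner_colg] at h1
    have h2 : ∑ A, pk b p w.ofLp A * pk b p w.ofLp A = 0 := by
      have h3 := pk_symm b p (pk b p w.ofLp) w.ofLp
      rw [pk_pk] at h3
      rw [← h3]
      exact h1
    funext A
    have h4 := (Finset.sum_eq_zero_iff_of_nonneg (fun A _ => mul_self_nonneg _)).1 h2 A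
      (Finset.mem_univ _)
    exact mul_self_eq_zero.1 h4
  · intro h u hu
    rw [mem_kk_row b hp] at hu
    rw [inner_colg]
    have h1 := pk_symm b p u.ofLp w.ofLp
    rw [hu, h] at h1
    rw [h1]
    simp

/-- the separation gap for the colour algebra -/
theorem gap_colAlg {p : Fin N → EuclideanSpace ℝ (Fin 9)} (hp : ∑ a, p a = 0) {r : ℝ} (hr : 0 ≤ r)
    (hs : Sep p r) : (colAlg b).Gap (row (dg b p)) r := by
  intro w hw
  rw [mem_perp_row b hp] at hw
  have h1 := gap b hp hr hs hw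
  have h2 : ∑ A, w.ofLp A ^ 2 = ‖w‖ ^ 2 := by
    rw [EuclideanSpace.norm_sq_eq]; simp
  rw [h2] at h1
  refine h1.trans (le_of_eq ?_)
  rw [← sum_norm_row]
  refine Finset.sum_congr rfl fun i _ => ?_
  rw [row_brx, (colAlg b).anti, norm_neg]

/-- the separation gap for the gauge frame of 839 -/
theorem gapAt {p : Fin N → EuclideanSpace ℝ (Fin 9)} (hp : ∑ a, p a = 0) {r : ℝ} (hr : 0 ≤ r)
    (hs : Sep p r) : Frame839.GapAt (actB b) (dg b p) r := by
  intro w hw
  have hw' : pk b p w.ofLp = 0 := by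
    rw [← mem_perp_row b hp]
    refine Submodule.mem_orthogonal _ _ |>.2 fun u hu => ?_
    refine (Submodule.mem_orthogonal _ _).1 hw u ?_
    rw [Frame839.mem_kc, LS839.actB_apply, brx_dg_eq_zero b hp, ← pk_eq_self_iff]
    exact (mem_kk_row b hp u).1 hu
  have h1 := gap b hp hr hs hw'
  have h2 : ∑ A, w.ofLp A ^ 2 = ‖w‖ ^ 2 := by
    rw [EuclideanSpace.norm_sq_eq]; simp
  rw [h2, ← mul_pow] at h1
  rw [LS839.actB_apply]
  exact (pow_le_pow_iff_left₀ (by positivity) (norm_nonneg _) two_ne_zero).1 h1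


/-! ## Block and transverse configurations -/

/-- `R⁹ ⊗ k` : block-diagonal configurations -/
def BlkC (p : Fin N → EuclideanSpace ℝ (Fin 9)) : Submodule ℝ (Cfg N) where
  carrier := {y | ∀ i a a', p a ≠ p a' → Blk304.mat b y i a a' = 0}
  add_mem' h1 h2 i a a' h := by
    rw [Blk304.mat_add, Matrix.add_apply, h1 i a a' h, h2 i a a' h, add_zero]
  zero_mem' i a a' _ := by rw [Blk304.mat_zero]; rfl
  smul_mem' t y h1 i a a' h := by
    rw [Blk304.mat_smul, Matrix.smul_apply, h1 i a a' h, smul_zero]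

/-- `Z_c` : off-diagonal configurations transverse to the gauge directions -/
def Zt (p : Fin N → EuclideanSpace ℝ (Fin 9)) : Submodule ℝ (Cfg N) where
  carrier := {z | (∀ i a a', p a = p a' → Blk304.mat b z i a a' = 0) ∧
    ∀ a a', ∑ i, ((p a' i - p a i : ℝ) : ℂ) * Blk304.mat b z i a a' = 0}
  add_mem' h1 h2 := by
    refine ⟨fun i a a' h => ?_, fun a a' => ?_⟩
    · rw [Blk304.mat_add, Matrix.add_apply, h1.1 i a a' h, h2.1 i a a' h, add_zero]
    · simp only [Blk304.mat_add, Matrix.add_apply, mul_add, Finset.sum_add_distrib]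
      rw [h1.2 a a', h2.2 a a', add_zero]
  zero_mem' := by
    refine ⟨fun i a a' _ => by rw [Blk304.mat_zero]; rfl, fun a a' => ?_⟩
    simp [Blk304.mat_zero]
  smul_mem' t y h1 := by
    refine ⟨fun i a a' h => ?_, fun a a' => ?_⟩
    · rw [Blk304.mat_smul, Matrix.smul_apply, h1.1 i a a' h, smul_zero]
    · have : ∀ i, ((p a' i - p a i : ℝ) : ℂ) * Blk304.mat b (t • y) i a a' =
          (t : ℂ) * (((p a' i - p a i : ℝ) : ℂ) * Blk304.mat b y i a a') := by
        intro i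
        rw [Blk304.mat_smul, Matrix.smul_apply, smul_eq_mul]
        ring
      simp only [this]
      rw [← Finset.mul_sum, h1.2 a a', mul_zero]

theorem mem_BlkC {p : Fin N → EuclideanSpace ℝ (Fin 9)} {y : Cfg N} :
    y ∈ BlkC b p ↔ ∀ i a a', p a ≠ p a' → Blk304.mat b y i a a' = 0 := Iff.rfl

theorem mem_Zt {p : Fin N → EuclideanSpace ℝ (Fin 9)} {z : Cfg N} :
    z ∈ Zt b p ↔ (∀ i a a', p a = p a' → Blk304.mat b z i a a' = 0) ∧
      ∀ a a', ∑ i, ((p a' i - p a i : ℝ) : ℂ) * Blk304.mat b z i a a' = 0 := Iff.rfl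

theorem BlkC_row {p : Fin N → EuclideanSpace ℝ (Fin 9)} (hp : ∑ a, p a = 0) {y : Cfg N} :
    y ∈ BlkC b p ↔ ∀ i, row y i ∈ (colAlg b).kk (row (dg b p)) := by
  rw [mem_BlkC]
  refine forall_congr' fun i => ?_
  rw [mem_kk_row b hp, pk_eq_self_iff]
  rfl

theorem Zt_row {p : Fin N → EuclideanSpace ℝ (Fin 9)} (hp : ∑ a, p a = 0) {z : Cfg N} :
    z ∈ Zt b p ↔ (colAlg b).Zc (row (dg b p)) (row z) := by
  rw [mem_Zt]
  unfold ColAlg.Zc
  refine and_congr (forall_congr' fun i => ?_) ?_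
  · rw [mem_perp_row b hp, pk_eq_zero_iff]
    rfl
  · have h1 : ∀ a a', hm b (∑ i, (colAlg b).br (row (dg b p) i) (row z i)).ofLp a a' =
        Complex.I * ∑ i, ((p a' i - p a i : ℝ) : ℂ) * Blk304.mat b z i a a' := by
      intro a a'
      have h2 : hm b (∑ i, (colAlg b).br (row (dg b p) i) (row z i)).ofLp =
          ∑ i, hm b ((colAlg b).br (row (dg b p) i) (row z i)).ofLp := by
        have h3 : ∀ s : Finset (Fin 9),
            hm b (∑ i ∈ s, (colAlg b).br (row (dg b p) i) (row z i)).ofLp =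
            ∑ i ∈ s, hm b ((colAlg b).br (row (dg b p) i) (row z i)).ofLp := by
          intro s
          classical
          induction s using Finset.induction_on with
          | empty => simp [Blk304.hm_zero]
          | insert a s ha ih =>
            rw [Finset.sum_insert ha, Finset.sum_insert ha, WithLp.ofLp_add, Blk304.hm_add, ih]
        exact h3 _
      rw [h2, Matrix.sum_apply, Finset.mul_sum]
      refine Finset.sum_congr rfl fun i _ => ?_
      rw [colAlg_br, hm_br, ← mat_row, ← mat_row, mat_dg b hp]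
      simp only [Matrix.smul_apply, Matrix.sub_apply, Matrix.mul_diagonal, Matrix.diagonal_mul,
        smul_eq_mul]
      push_cast
      ring
    constructor
    · intro h
      have h2 : hm b (∑ i, (colAlg b).br (row (dg b p) i) (row z i)).ofLp = hm b 0 := by
        ext a a'
        rw [h1, h a a', mul_zero, Blk304.hm_zero]
        rfl
      have h3 := Blk304.hm_inj b h2
      rw [← WithLp.toLp_ofLp 2 (∑ i, (colAlg b).br (row (dg b p) i) (row z i)), h3]
      rfl
    · intro h a a'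
      have h2 := h1 a a'
      rw [h] at h2
      have h3 : hm b (0 : Colg N).ofLp a a' = 0 := by
        rw [WithLp.ofLp_zero, Blk304.hm_zero]; rfl
      rw [h3] at h2
      rcases mul_eq_zero.1 h2.symm with h4 | h4
      · exact absurd h4 Complex.I_ne_zero
      · exact h4

/-- block part of a configuration -/
def prB (p : Fin N → EuclideanSpace ℝ (Fin 9)) (x : Cfg N) : Cfg N :=
  Blk304.mk b (fun i => blk p (Blk304.mat b x i))

theorem mat_prB (p : Fin N → EuclideanSpace ℝ (Fin 9)) (x : Cfg N) (i : Fin 9) :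
    Blk304.mat b (prB b p x) i = blk p (Blk304.mat b x i) :=
  Blk304.mat_mk b (fun i => blk_herm (Blk304.mat_herm b x i))
    (fun i => by rw [blk_trace, Blk304.mat_trace]) i

theorem prB_mem (p : Fin N → EuclideanSpace ℝ (Fin 9)) (x : Cfg N) : prB b p x ∈ BlkC b p := by
  intro i a a' h
  rw [mat_prB, blk_of_ne h]

theorem sub_prB_mem {p : Fin N → EuclideanSpace ℝ (Fin 9)} (hp : ∑ a, p a = 0) {x : Cfg N}
    (hx : x ∈ Nor b (dg b p)) : x - prB b p x ∈ Zt b p := by
  rw [mem_Nor_dg b hp] at hx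
  refine ⟨fun i a a' h => ?_, fun a a' => ?_⟩
  · rw [Blk304.mat_sub, Matrix.sub_apply, mat_prB, blk_of_eq h, sub_self]
  · by_cases h : p a = p a'
    · refine Finset.sum_eq_zero fun i _ => ?_
      rw [h, sub_self, Complex.ofReal_zero, zero_mul]
    · rw [← hx a a']
      refine Finset.sum_congr rfl fun i _ => ?_
      rw [Blk304.mat_sub, Matrix.sub_apply, mat_prB, blk_of_ne h, sub_zero]

theorem BlkC_le_Nor {p : Fin N → EuclideanSpace ℝ (Fin 9)} (hp : ∑ a, p a = 0) :
    BlkC b p ≤ Nor b (dg b p) := by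
  intro y hy
  rw [mem_Nor_dg b hp]
  intro a a'
  refine Finset.sum_eq_zero fun i _ => ?_
  by_cases h : p a = p a'
  · rw [h, sub_self, Complex.ofReal_zero, zero_mul]
  · rw [hy i a a' h, mul_zero]

theorem Zt_le_Nor {p : Fin N → EuclideanSpace ℝ (Fin 9)} (hp : ∑ a, p a = 0) :
    Zt b p ≤ Nor b (dg b p) := by
  intro z hz
  rw [mem_Nor_dg b hp]
  exact hz.2

theorem inner_BlkC_Zt {p : Fin N → EuclideanSpace ℝ (Fin 9)} {y z : Cfg N}
    (hy : y ∈ BlkC b p) (hz : z ∈ Zt b p) : ⟪y, z⟫_ℝ = 0 := by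
  rw [Blk304.inner_eq b]
  refine Finset.sum_eq_zero fun i _ => Finset.sum_eq_zero fun a _ => Finset.sum_eq_zero
    fun a' _ => ?_
  by_cases h : p a = p a'
  · rw [hz.1 i a a' h]; simp
  · rw [hy i a a' h]; simp

/-- `N_c = (R⁹ ⊗ k) ⊕ Z_c` -/
theorem Nor_eq_sup {p : Fin N → EuclideanSpace ℝ (Fin 9)} (hp : ∑ a, p a = 0) :
    Nor b (dg b p) = BlkC b p ⊔ Zt b p := by
  apply le_antisymm
  · intro x hx
    rw [Submodule.mem_sup]
    exact ⟨prB b p x, prB_mem b p x, x - prB b p x, sub_prB_mem b hp hx, by abel⟩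
  · exact sup_le (BlkC_le_Nor b hp) (Zt_le_Nor b hp)

theorem dg_mem_BlkC {p : Fin N → EuclideanSpace ℝ (Fin 9)} (hp : ∑ a, p a = 0) :
    dg b p ∈ BlkC b p := by
  intro i a a' h
  rw [mat_dg b hp, Matrix.diagonal_apply_ne _ (fun hq => h (by rw [hq]))]

/-- **Lower bound of the quartic potential in the slice, uniform in the points.** -/
theorem V4_low {p : Fin N → EuclideanSpace ℝ (Fin 9)} (hp : ∑ a, p a = 0) {r : ℝ} (hr : 0 ≤ r)
    (hs : Sep p r) {y z : Cfg N} (hy : y ∈ BlkC b p) (hz : z ∈ Zt b p)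
    (hyz : 56 * (‖y‖ ^ 2 + ‖z‖ ^ 2) ≤ r ^ 2) :
    1 / 2 * Cone741.V4 b y + 1 / 8 * r ^ 2 * ‖z‖ ^ 2 ≤ Cone741.V4 b (dg b p + y + z) := by
  have h := (colAlg b).V4_slice (comm_dg b hp) (gap_colAlg b hp hr hs) (brBound b)
    ((BlkC_row b hp).1 hy) ((Zt_row b hp).1 hz) (by
      rw [sum_norm_row, sum_norm_row]
      linarith)
  rw [V4_row, sum_norm_row] at h
  have h2 : (fun i => row (dg b p) i + row y i + row z i) = row (dg b p + y + z) := rfl
  rw [h2, V4_row] at h
  exact h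

end Crest.Agent.R330.Diag304
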