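import Crest.Agent.R330.Blk_304
import Crest.Agent.R330.SlB_314
import Crest.Agent.R330.Clus_839
import Crest.Agent.R330.AcomV_302

/-!
# Row 330, leaf S6A (helper304): diagonal configurations, block algebra, the gap

`p : Fin N → EuclideanSpace ℝ (Fin 9)`, `Σ_a p_a = 0`; `dg b p` = configuration with the diagonal
matrices `diag(p_a · i)`.

* `mat_dg`, `norm_dg_sq`, `exists_dg` : every commuting configuration is `act g x = dg b p`.
* `brx_dg` : entries of `[om, dg p]`; `brx_dg_eq_zero` : the kernel `k`.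
* `norm_brx_sq` : `‖[om, dg p]‖² = Σ |om_{aa'}|² ‖p_{a'} - p_a‖²`; `gap` : separation gap.
* `mem_Nor_dg` : the normal space entrywise.
* `act_dg` : stabiliser.
* `colAlg b` : 839's `ColAlg` on colour space, `BrBound 2`; `V4_low` : the literal lower bound of the
  quartic potential in the slice, uniform in `p`.
-/

set_option autoImplicit false
set_option linter.unusedSectionVars false

open MeasureTheory Crest.MathPhysics.MatrixQM
open scoped BigOperators Matrix InnerProductSpace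
open Crest.Agent.R330.SlB314 (br brx Tan Nor)

noncomputable section

namespace Crest.Agent.R330.Diag304

open Blk304 (hm cf hs)

variable {N : ℕ} (b : ColorBasis N)

theorem mat_eq (x : Cfg N) (i : Fin 9) : SlA314.mat b x i = Blk304.mat b x i := rfl

theorem cm_eq (u : Fin (N ^ 2 - 1) → ℝ) : SlA314.cm b u = hm b u := rfl

/-- the diagonal configuration -/
def dg (p : Fin N → EuclideanSpace ℝ (Fin 9)) : Cfg N :=
  Blk304.mk b (fun i => Matrix.diagonal fun a => ((p a i : ℝ) : ℂ))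

theorem dg_herm (p : Fin N → EuclideanSpace ℝ (Fin 9)) (i : Fin 9) :
    (Matrix.diagonal fun a => ((p a i : ℝ) : ℂ)).IsHermitian := by
  rw [Matrix.IsHermitian, Matrix.diagonal_conjTranspose]
  congr 1
  funext a
  simp

theorem mat_dg {p : Fin N → EuclideanSpace ℝ (Fin 9)} (hp : ∑ a, p a = 0) (i : Fin 9) :
    Blk304.mat b (dg b p) i = Matrix.diagonal fun a => ((p a i : ℝ) : ℂ) := by
  refine Blk304.mat_mk b (dg_herm p) (fun i => ?_) i
  rw [Matrix.trace_diagonal, ← Complex.ofReal_sum]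
  have h := congrArg (fun v : EuclideanSpace ℝ (Fin 9) => v i) hp
  simp only [PiLp.zero_apply] at h
  rw [← Complex.ofReal_zero, ← h]
  congr 1
  simp

theorem dg_eq_diagCfg (p : Fin N → EuclideanSpace ℝ (Fin 9)) :
    dg b p = AcomV302.diagCfg b (fun i a => p a i) := rfl

theorem dg_smul (t : ℝ) {p : Fin N → EuclideanSpace ℝ (Fin 9)} (hp : ∑ a, p a = 0) :
    dg b (fun a => t • p a) = t • dg b p := by
  apply Blk304.mat_inj b
  intro i
  rw [Blk304.mat_smul, mat_dg b hp, mat_dg b (by rw [← Finset.smul_sum, hp, smul_zero])]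
  ext a a'
  by_cases h : a = a'
  · subst h; simp
  · simp [Matrix.diagonal_apply_ne _ h]

theorem norm_dg_sq {p : Fin N → EuclideanSpace ℝ (Fin 9)} (hp : ∑ a, p a = 0) :
    ‖dg b p‖ ^ 2 = ∑ a, ‖p a‖ ^ 2 := by
  rw [Blk304.norm_sq_eq b]
  have h : ∀ i, hs (Blk304.mat b (dg b p) i) = ∑ a, (p a i) ^ 2 := by
    intro i
    rw [mat_dg b hp]
    unfold Blk304.hs
    refine Finset.sum_congr rfl fun a _ => ?_
    rw [Finset.sum_eq_single a]
    · simp
    · intro a' _ h
      rw [Matrix.diagonal_apply_ne _ (Ne.symm h)]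
      simp
    · intro h; exact absurd (Finset.mem_univ _) h
  simp only [h]
  rw [Finset.sum_comm]
  refine Finset.sum_congr rfl fun a _ => ?_
  rw [EuclideanSpace.norm_sq_eq]
  simp

/-! ## Entries of brackets -/

theorem mat_brx_dg {p : Fin N → EuclideanSpace ℝ (Fin 9)} (hp : ∑ a, p a = 0)
    (om : Fin (N ^ 2 - 1) → ℝ) (i : Fin 9) (a a' : Fin N) :
    Blk304.mat b (brx b om (dg b p)) i a a' =
      -Complex.I * hm b om a a' * (((p a' i - p a i : ℝ)) : ℂ) := by
  have h := SlB314.mat_brx b om (dg b p) i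
  rw [mat_eq, mat_eq, cm_eq, mat_dg b hp] at h
  rw [h]
  simp only [Matrix.smul_apply, Matrix.sub_apply, Matrix.mul_diagonal, Matrix.diagonal_mul,
    smul_eq_mul]
  push_cast
  ring

theorem norm_brx_sq {p : Fin N → EuclideanSpace ℝ (Fin 9)} (hp : ∑ a, p a = 0)
    (om : Fin (N ^ 2 - 1) → ℝ) :
    ‖brx b om (dg b p)‖ ^ 2 = ∑ a, ∑ a', ‖hm b om a a'‖ ^ 2 * ‖p a' - p a‖ ^ 2 := by
  rw [Blk304.norm_sq_eq b]
  unfold Blk304.hs
  rw [Finset.sum_comm]
  refine Finset.sum_congr rfl fun a _ => ?_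
  rw [Finset.sum_comm]
  refine Finset.sum_congr rfl fun a' _ => ?_
  rw [EuclideanSpace.norm_sq_eq, Finset.mul_sum]
  refine Finset.sum_congr rfl fun i _ => ?_
  rw [mat_brx_dg b hp, norm_mul, norm_mul, norm_neg, Complex.norm_I, Complex.norm_real, mul_pow,
    mul_pow]
  simp

theorem brx_dg_eq_zero {p : Fin N → EuclideanSpace ℝ (Fin 9)} (hp : ∑ a, p a = 0)
    (om : Fin (N ^ 2 - 1) → ℝ) :
    brx b om (dg b p) = 0 ↔ ∀ a a', p a ≠ p a' → hm b om a a' = 0 := by
  constructor
  · intro h a a' hne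
    have h1 := norm_brx_sq b hp om
    rw [h, norm_zero, zero_pow two_ne_zero] at h1
    have h2 := (Finset.sum_eq_zero_iff_of_nonneg (fun a _ => Finset.sum_nonneg fun a' _ =>
      by positivity)).1 h1.symm a (Finset.mem_univ _)
    have h3 := (Finset.sum_eq_zero_iff_of_nonneg (fun a' _ => by positivity)).1 h2 a'
      (Finset.mem_univ _)
    rcases mul_eq_zero.1 h3 with h4 | h4
    · simpa using h4
    · exfalso
      apply hne
      have : ‖p a' - p a‖ = 0 := by simpa using h4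
      exact (sub_eq_zero.1 (norm_eq_zero.1 this)).symm
  · intro h
    have h1 := norm_brx_sq b hp om
    have h2 : ‖brx b om (dg b p)‖ ^ 2 = 0 := by
      rw [h1]
      refine Finset.sum_eq_zero fun a _ => Finset.sum_eq_zero fun a' _ => ?_
      by_cases hq : p a = p a'
      · rw [hq, sub_self, norm_zero]; ring
      · rw [h a a' hq, norm_zero]; ring
    simpa using h2

/-! ## Block projection -/

/-- block part of a matrix -/
def blk (p : Fin N → EuclideanSpace ℝ (Fin 9)) (M : Matrix (Fin N) (Fin N) ℂ) :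
    Matrix (Fin N) (Fin N) ℂ := fun a a' => by
  classical exact if p a = p a' then M a a' else 0

theorem blk_of_eq {p : Fin N → EuclideanSpace ℝ (Fin 9)} {M : Matrix (Fin N) (Fin N) ℂ}
    {a a' : Fin N} (h : p a = p a') : blk p M a a' = M a a' := by
  unfold blk; rw [if_pos h]

theorem blk_of_ne {p : Fin N → EuclideanSpace ℝ (Fin 9)} {M : Matrix (Fin N) (Fin N) ℂ}
    {a a' : Fin N} (h : p a ≠ p a') : blk p M a a' = 0 := by
  unfold blk; rw [if_neg h]

theorem blk_herm {p : Fin N → EuclideanSpace ℝ (Fin 9)} {M : Matrix (Fin N) (Fin N) ℂ}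
    (hM : M.IsHermitian) : (blk p M).IsHermitian := by
  ext a a'
  rw [Matrix.conjTranspose_apply]
  by_cases h : p a = p a'
  · rw [blk_of_eq h, blk_of_eq h.symm]
    exact congrFun (congrFun hM a) a'
  · rw [blk_of_ne h, blk_of_ne (Ne.symm h), star_zero]

theorem blk_trace {p : Fin N → EuclideanSpace ℝ (Fin 9)} (M : Matrix (Fin N) (Fin N) ℂ) :
    (blk p M).trace = M.trace := by
  unfold Matrix.trace
  refine Finset.sum_congr rfl fun a _ => ?_
  rw [Matrix.diag_apply, Matrix.diag_apply, blk_of_eq rfl]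

/-- block projection of a colour vector -/
def pk (p : Fin N → EuclideanSpace ℝ (Fin 9)) (u : Fin (N ^ 2 - 1) → ℝ) :
    Fin (N ^ 2 - 1) → ℝ := cf b (blk p (hm b u))

theorem hm_pk (p : Fin N → EuclideanSpace ℝ (Fin 9)) (u : Fin (N ^ 2 - 1) → ℝ) :
    hm b (pk b p u) = blk p (hm b u) :=
  Blk304.hm_cf b (blk_herm (Blk304.hm_herm b u)) (by rw [blk_trace, Blk304.hm_trace])


theorem pk_add (p : Fin N → EuclideanSpace ℝ (Fin 9)) (u v : Fin (N ^ 2 - 1) → ℝ) :
    pk b p (u + v) = pk b p u + pk b p v := by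
  apply Blk304.hm_inj b
  rw [Blk304.hm_add, hm_pk, hm_pk, hm_pk, Blk304.hm_add]
  ext a a'
  by_cases h : p a = p a'
  · simp [blk_of_eq h]
  · simp [blk_of_ne h]

theorem pk_smul (p : Fin N → EuclideanSpace ℝ (Fin 9)) (t : ℝ) (u : Fin (N ^ 2 - 1) → ℝ) :
    pk b p (t • u) = t • pk b p u := by
  apply Blk304.hm_inj b
  rw [Blk304.hm_smul, hm_pk, hm_pk, Blk304.hm_smul]
  ext a a'
  by_cases h : p a = p a'
  · simp [blk_of_eq h]
  · simp [blk_of_ne h]

/-- the block projection is symmetric -/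
theorem pk_symm (p : Fin N → EuclideanSpace ℝ (Fin 9)) (u v : Fin (N ^ 2 - 1) → ℝ) :
    ∑ A, pk b p u A * v A = ∑ A, u A * pk b p v A := by
  rw [Blk304.sum_mul_eq b, Blk304.sum_mul_eq b, hm_pk, hm_pk]
  refine Finset.sum_congr rfl fun a _ => Finset.sum_congr rfl fun a' _ => ?_
  by_cases h : p a = p a'
  · rw [blk_of_eq h, blk_of_eq h]
  · rw [blk_of_ne h, blk_of_ne h]
    simp

theorem pk_pk (p : Fin N → EuclideanSpace ℝ (Fin 9)) (u : Fin (N ^ 2 - 1) → ℝ) :
    pk b p (pk b p u) = pk b p u := by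
  apply Blk304.hm_inj b
  rw [hm_pk, hm_pk]
  ext a a'
  by_cases h : p a = p a'
  · rw [blk_of_eq h]
  · rw [blk_of_ne h, blk_of_ne h]

theorem pk_eq_self_iff (p : Fin N → EuclideanSpace ℝ (Fin 9)) (u : Fin (N ^ 2 - 1) → ℝ) :
    pk b p u = u ↔ ∀ a a', p a ≠ p a' → hm b u a a' = 0 := by
  constructor
  · intro h a a' hne
    rw [← h, hm_pk, blk_of_ne hne]
  · intro h
    apply Blk304.hm_inj b
    rw [hm_pk]
    ext a a'
    by_cases hq : p a = p a'
    · rw [blk_of_eq hq]
    · rw [blk_of_ne hq, h a a' hq]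

theorem pk_eq_zero_iff (p : Fin N → EuclideanSpace ℝ (Fin 9)) (u : Fin (N ^ 2 - 1) → ℝ) :
    pk b p u = 0 ↔ ∀ a a', p a = p a' → hm b u a a' = 0 := by
  constructor
  · intro h a a' heq
    have h1 := hm_pk b p u
    rw [h, Blk304.hm_zero] at h1
    have := congrFun (congrFun h1 a) a'
    rw [blk_of_eq heq] at this
    exact this.symm
  · intro h
    apply Blk304.hm_inj b
    rw [hm_pk, Blk304.hm_zero]
    ext a a'
    by_cases hq : p a = p a'
    · rw [blk_of_eq hq, h a a' hq]; rfl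
    · rw [blk_of_ne hq]; rfl

/-! ## The normal space -/

theorem inner_brx_dg {p : Fin N → EuclideanSpace ℝ (Fin 9)} (hp : ∑ a, p a = 0)
    (om : Fin (N ^ 2 - 1) → ℝ) (y : Cfg N) :
    ⟪brx b om (dg b p), y⟫_ℝ = ∑ a, ∑ a', (-Complex.I * hm b om a a' *
      (starRingEnd ℂ) (∑ i, ((p a' i - p a i : ℝ) : ℂ) * Blk304.mat b y i a a')).re := by
  rw [Blk304.inner_eq b, Finset.sum_comm]
  refine Finset.sum_congr rfl fun a _ => ?_
  rw [Finset.sum_comm]
  refine Finset.sum_congr rfl fun a' _ => ?_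
  rw [map_sum, Finset.mul_sum, Complex.re_sum]
  refine Finset.sum_congr rfl fun i _ => ?_
  rw [mat_brx_dg b hp, map_mul, Complex.conj_ofReal]
  congr 1
  ring

theorem mem_Nor_dg {p : Fin N → EuclideanSpace ℝ (Fin 9)} (hp : ∑ a, p a = 0) (y : Cfg N) :
    y ∈ Nor b (dg b p) ↔
      ∀ a a', ∑ i, ((p a' i - p a i : ℝ) : ℂ) * Blk304.mat b y i a a' = 0 := by
  rw [SlB314.mem_Nor]
  constructor
  · intro h
    set S : Matrix (Fin N) (Fin N) ℂ := fun a a' =>
      ∑ i, ((p a' i - p a i : ℝ) : ℂ) * Blk304.mat b y i a a' with hS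
    have hSH : (Complex.I • S).IsHermitian := by
      ext a a'
      rw [Matrix.conjTranspose_apply, Matrix.smul_apply, Matrix.smul_apply, smul_eq_mul,
        smul_eq_mul, star_mul', Complex.star_def, Complex.conj_I]
      have : (starRingEnd ℂ) (S a' a) = - S a a' := by
        simp only [hS, map_sum, map_mul, Complex.conj_ofReal, ← Finset.sum_neg_distrib]
        refine Finset.sum_congr rfl fun i _ => ?_
        have h1 : (starRingEnd ℂ) (Blk304.mat b y i a' a) = Blk304.mat b y i a a' :=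
          congrFun (congrFun (Blk304.mat_herm b y i) a) a'
        rw [h1]
        push_cast
        ring
      rw [this]
      ring
    have hS0 : (Complex.I • S).trace = 0 := by
      rw [Matrix.trace_smul]
      have : S.trace = 0 := by
        unfold Matrix.trace
        refine Finset.sum_eq_zero fun a _ => ?_
        simp [hS, Matrix.diag_apply]
      rw [this, smul_zero]
    have h1 := h (cf b (Complex.I • S))
    rw [inner_brx_dg b hp, Blk304.hm_cf b hSH hS0] at h1
    have h2 : ∀ a a', (-Complex.I * (Complex.I • S) a a' * (starRingEnd ℂ) (S a a')).re =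
        ‖S a a'‖ ^ 2 := by
      intro a a'
      rw [Matrix.smul_apply, smul_eq_mul, ← mul_assoc, neg_mul, Complex.I_mul_I, neg_neg, one_mul,
        Complex.mul_conj, Complex.ofReal_re, Complex.normSq_eq_norm_sq]
    have h3 : ∑ a, ∑ a', ‖S a a'‖ ^ 2 = 0 := by
      rw [← h1]
      exact Finset.sum_congr rfl fun a _ => Finset.sum_congr rfl fun a' _ => (h2 a a').symm
    intro a a'
    have h4 := (Finset.sum_eq_zero_iff_of_nonneg (fun a _ => Finset.sum_nonneg fun a' _ =>
      sq_nonneg _)).1 h3 a (Finset.mem_univ _)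
    have h5 := (Finset.sum_eq_zero_iff_of_nonneg (fun a' _ => sq_nonneg _)).1 h4 a'
      (Finset.mem_univ _)
    have h6 : S a a' = 0 := norm_eq_zero.1 (pow_eq_zero_iff two_ne_zero |>.1 h5)
    exact h6
  · intro h om
    rw [inner_brx_dg b hp]
    refine Finset.sum_eq_zero fun a _ => Finset.sum_eq_zero fun a' _ => ?_
    rw [h a a', map_zero, mul_zero, Complex.zero_re]

/-! ## The stabiliser -/

theorem act_dg {p : Fin N → EuclideanSpace ℝ (Fin 9)} (hp : ∑ a, p a = 0)
    (g : Matrix.specialUnitaryGroup (Fin N) ℂ) :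
    b.act g (dg b p) = dg b p ↔
      ∀ a a', p a ≠ p a' → (g : Matrix (Fin N) (Fin N) ℂ) a a' = 0 := by
  have key : b.act g (dg b p) = dg b p ↔
      ∀ i, (g : Matrix (Fin N) (Fin N) ℂ) * (Matrix.diagonal fun a => ((p a i : ℝ) : ℂ)) =
        (Matrix.diagonal fun a => ((p a i : ℝ) : ℂ)) * (g : Matrix (Fin N) (Fin N) ℂ) := by
    constructor
    · intro h i
      have h1 := Blk304.mat_act b g (dg b p) i
      rw [h, mat_dg b hp] at h1
      conv_rhs => rw [h1]
      rw [Matrix.mul_assoc _ (star _), Blk304.su_star_mul, Matrix.mul_one]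
    · intro h
      apply Blk304.mat_inj b
      intro i
      rw [Blk304.mat_act, mat_dg b hp, h i, Matrix.mul_assoc, Blk304.su_mul_star, Matrix.mul_one]
  rw [key]
  constructor
  · intro h a a' hne
    by_contra hg
    apply hne
    ext i
    have h1 := congrFun (congrFun (h i) a) a'
    rw [Matrix.mul_diagonal, Matrix.diagonal_mul] at h1
    have h2 : ((p a' i : ℝ) : ℂ) = ((p a i : ℝ) : ℂ) := by
      have : (g : Matrix (Fin N) (Fin N) ℂ) a a' * (((p a' i : ℝ) : ℂ) - ((p a i : ℝ) : ℂ)) = 0 := by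
        rw [mul_sub, h1]; ring
      rcases mul_eq_zero.1 this with h3 | h3
      · exact absurd h3 hg
      · exact sub_eq_zero.1 h3
    exact_mod_cast h2.symm
  · intro h i
    ext a a'
    rw [Matrix.mul_diagonal, Matrix.diagonal_mul]
    by_cases hq : p a = p a'
    · rw [hq, mul_comm]
    · rw [h a a' hq]; ring


/-! ## Commuting configurations -/

/-- every commuting configuration is conjugate to a diagonal one -/
theorem exists_dg (hN : 0 < N) (x : Cfg N)
    (hx : ∀ i j, Blk304.mat b x i * Blk304.mat b x j = Blk304.mat b x j * Blk304.mat b x i) :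
    ∃ g : Matrix.specialUnitaryGroup (Fin N) ℂ, ∃ p : Fin N → EuclideanSpace ℝ (Fin 9),
      ∑ a, p a = 0 ∧ b.act g x = dg b p := by
  obtain ⟨C, hC, h⟩ := AcomV302.near_commuting N hN
  obtain ⟨g, q, hq, hle⟩ := h b x
  have hV : AcomV302.Vq b x = 0 := by
    unfold AcomV302.Vq
    refine Finset.sum_eq_zero fun i _ => Finset.sum_eq_zero fun j _ => ?_
    rw [← AcomV302.hs_comm_cmat hN]
    have h1 : CoerCfg87.cmat b (CoerCfg87.comp x i) * CoerCfg87.cmat b (CoerCfg87.comp x j) -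
        CoerCfg87.cmat b (CoerCfg87.comp x j) * CoerCfg87.cmat b (CoerCfg87.comp x i) = 0 :=
      sub_eq_zero.2 (hx i j)
    rw [h1]
    simp [Coerc383.hs]
  rw [hV, mul_zero] at hle
  have h0 : ‖b.act g x - AcomV302.diagCfg b q‖ ^ 4 = 0 := le_antisymm hle (by positivity)
  have h1 : b.act g x = AcomV302.diagCfg b q := by
    have := pow_eq_zero_iff (n := 4) (by norm_num) |>.1 h0
    exact sub_eq_zero.1 (norm_eq_zero.1 this)
  refine ⟨g, fun a => WithLp.toLp 2 (fun i => q i a), ?_, h1⟩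
  ext i
  simpa using hq i

/-- two clusters: some pair of points is at distance `≥ ‖x‖ / √N`. -/
theorem exists_far {p : Fin N → EuclideanSpace ℝ (Fin 9)} (hp : ∑ a, p a = 0) (hN : 0 < N) :
    ∃ a a', ‖dg b p‖ ≤ Real.sqrt N * ‖p a - p a'‖ := by
  classical
  haveI : Nonempty (Fin N) := ⟨⟨0, hN⟩⟩
  obtain ⟨a, -, ha⟩ := Finset.exists_max_image Finset.univ (fun a : Fin N => ‖p a‖)
    Finset.univ_nonempty
  have h1 : ‖dg b p‖ ≤ Real.sqrt N * ‖p a‖ := by
    have h2 : ‖dg b p‖ ^ 2 ≤ (Real.sqrt N * ‖p a‖) ^ 2 := by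
      rw [norm_dg_sq b hp, mul_pow, Real.sq_sqrt (by positivity)]
      calc ∑ c, ‖p c‖ ^ 2 ≤ ∑ _c : Fin N, ‖p a‖ ^ 2 :=
            Finset.sum_le_sum fun c _ => by
              have := ha c (Finset.mem_univ _)
              gcongr
        _ = N * ‖p a‖ ^ 2 := by simp
    exact (pow_le_pow_iff_left₀ (norm_nonneg _) (by positivity) two_ne_zero).1 h2
  obtain ⟨a', -, ha'⟩ := Finset.exists_max_image Finset.univ (fun a' : Fin N => ‖p a - p a'‖)
    Finset.univ_nonempty
  refine ⟨a, a', h1.trans ?_⟩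
  have h3 : (N : ℝ) • p a = ∑ c, (p a - p c) := by
    rw [Finset.sum_sub_distrib, hp, sub_zero, Finset.sum_const, Finset.card_univ, Fintype.card_fin,
      ← Nat.cast_smul_eq_nsmul ℝ]
  have h4 : (N : ℝ) * ‖p a‖ ≤ N * ‖p a - p a'‖ := by
    calc (N : ℝ) * ‖p a‖ = ‖(N : ℝ) • p a‖ := by
          rw [norm_smul, Real.norm_eq_abs, abs_of_nonneg (by positivity)]
      _ ≤ ∑ c, ‖p a - p c‖ := by rw [h3]; exact norm_sum_le _ _
      _ ≤ ∑ _c : Fin N, ‖p a - p a'‖ := Finset.sum_le_sum fun c _ => ha' c (Finset.mem_univ _)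
      _ = N * ‖p a - p a'‖ := by simp
  have hN' : (0 : ℝ) < N := by exact_mod_cast hN
  exact mul_le_mul_of_nonneg_left (le_of_mul_le_mul_left h4 hN') (Real.sqrt_nonneg _)

theorem exists_ne {p : Fin N → EuclideanSpace ℝ (Fin 9)} (hp : ∑ a, p a = 0) (hN : 0 < N)
    (h : dg b p ≠ 0) : ∃ a a', p a ≠ p a' := by
  obtain ⟨a, a', h1⟩ := exists_far b hp hN
  refine ⟨a, a', fun hq => h ?_⟩
  rw [hq, sub_self, norm_zero, mul_zero] at h1
  exact norm_eq_zero.1 (le_antisymm h1 (norm_nonneg _))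

/-- minimal separation at least `r` -/
def Sep (p : Fin N → EuclideanSpace ℝ (Fin 9)) (r : ℝ) : Prop :=
  ∀ a a', p a ≠ p a' → r ≤ ‖p a - p a'‖

theorem exists_sep (p : Fin N → EuclideanSpace ℝ (Fin 9)) : ∃ r > 0, Sep p r := by
  classical
  set s : Finset (Fin N × Fin N) := Finset.univ.filter (fun q => p q.1 ≠ p q.2) with hs
  rcases s.eq_empty_or_nonempty with h | h
  · refine ⟨1, one_pos, fun a a' hne => ?_⟩
    have : (a, a') ∈ s := by simp [hs, hne]
    rw [h] at this
    exact absurd this (Finset.notMem_empty _)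
  · obtain ⟨q, hq, hmin⟩ := Finset.exists_min_image s (fun q => ‖p q.1 - p q.2‖) h
    refine ⟨‖p q.1 - p q.2‖, ?_, fun a a' hne => hmin (a, a') (by simp [hs, hne])⟩
    have : p q.1 ≠ p q.2 := (Finset.mem_filter.1 hq).2
    exact norm_pos_iff.2 (sub_ne_zero.2 this)

/-- the gap of the adjoint action is the separation -/
theorem gap {p : Fin N → EuclideanSpace ℝ (Fin 9)} (hp : ∑ a, p a = 0) {r : ℝ} (hr : 0 ≤ r)
    (hs : Sep p r) {om : Fin (N ^ 2 - 1) → ℝ} (hom : pk b p om = 0) :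
    r ^ 2 * ∑ A, om A ^ 2 ≤ ‖brx b om (dg b p)‖ ^ 2 := by
  rw [norm_brx_sq b hp, ← Blk304.hs_hm b]
  unfold Blk304.hs
  rw [Finset.mul_sum]
  refine Finset.sum_le_sum fun a _ => ?_
  rw [Finset.mul_sum]
  refine Finset.sum_le_sum fun a' _ => ?_
  by_cases hq : p a = p a'
  · rw [(pk_eq_zero_iff b p om).1 hom a a' hq, norm_zero]
    ring_nf
    exact le_refl _
  · rw [mul_comm]
    have := hs a a' hq
    rw [norm_sub_rev] at this
    gcongr

end Crest.Agent.R330.Diag304
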