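import Mathlib

/-!
# Row 330 (helper973): unitary matrices are diagonalisable

* `exists_eigenbasis` : a linear isometry of a finite-dimensional complex inner product space has
  an orthonormal eigenbasis.
* `exists_diag` : `g = u · diag(d) · u*` with `u ∈ U(N)` for `g ∈ U(N)`.
-/

set_option autoImplicit false

noncomputable section

open scoped InnerProductSpace Matrix ComplexConjugate

namespace Crest.Agent.R330.Diag973

open Module Module.End

section op

variable {E : Type*} [NormedAddCommGroup E] [InnerProductSpace ℂ E] {T : E →ₗ[ℂ] E}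

theorem inj_of_isom (hT : ∀ x y, ⟪T x, T y⟫_ℂ = ⟪x, y⟫_ℂ) : Function.Injective T := by
  rw [← LinearMap.ker_eq_bot, LinearMap.ker_eq_bot']
  intro x hx
  have h1 := hT x x
  rw [hx, inner_zero_left] at h1
  exact inner_self_eq_zero.1 h1.symm

theorem conj_mul_of_eig (hT : ∀ x y, ⟪T x, T y⟫_ℂ = ⟪x, y⟫_ℂ) {v : E} {μ : ℂ} (hv : T v = μ • v)
    (h0 : v ≠ 0) : conj μ * μ = 1 := by
  have h1 := hT v v
  rw [hv, inner_smul_left, inner_smul_right, ← mul_assoc] at h1
  have h2 : ⟪v, v⟫_ℂ ≠ 0 := inner_self_ne_zero.2 h0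
  exact mul_right_cancel₀ h2 (h1.trans (one_mul _).symm)

theorem orth_eig (hT : ∀ x y, ⟪T x, T y⟫_ℂ = ⟪x, y⟫_ℂ) :
    OrthogonalFamily ℂ (fun μ => eigenspace T μ) fun μ => (eigenspace T μ).subtypeₗᵢ := by
  rintro μ ν hμν ⟨v, hv⟩ ⟨w, hw⟩
  by_cases hv' : v = 0
  · simp [hv']
  rw [mem_eigenspace_iff] at hv hw
  have h1 := conj_mul_of_eig hT hv hv'
  have h2 := hT v w
  rw [hv, hw, inner_smul_left, inner_smul_right, ← mul_assoc] at h2
  show ⟪v, w⟫_ℂ = 0
  by_contra h3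
  have h4 : conj μ * ν = 1 := mul_right_cancel₀ h3 (h2.trans (one_mul _).symm)
  have h5 : conj μ ≠ 0 := fun h => by rw [h, zero_mul] at h1; exact zero_ne_one h1
  exact hμν (mul_left_cancel₀ h5 (h1.trans h4.symm))

theorem orth_eig' (hT : ∀ x y, ⟪T x, T y⟫_ℂ = ⟪x, y⟫_ℂ) :
    OrthogonalFamily ℂ (fun μ : Eigenvalues T => eigenspace T μ) fun μ =>
      (eigenspace T μ).subtypeₗᵢ :=
  (orth_eig hT).comp Subtype.coe_injective

theorem inv_compl (hT : ∀ x y, ⟪T x, T y⟫_ℂ = ⟪x, y⟫_ℂ) (v : E)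
    (hv : v ∈ (⨆ μ, eigenspace T μ)ᗮ) : T v ∈ (⨆ μ, eigenspace T μ)ᗮ := by
  rw [← Submodule.iInf_orthogonal, Submodule.mem_iInf] at hv ⊢
  intro μ w hw
  by_cases h0 : w = 0
  · rw [h0, inner_zero_left]
  have hw' := mem_eigenspace_iff.1 hw
  have h1 := conj_mul_of_eig hT hw' h0
  have h2 : μ ≠ 0 := fun h => by rw [h, mul_zero] at h1; exact zero_ne_one h1
  have h3 : w = T (μ⁻¹ • w) := by rw [map_smul, hw', smul_smul, inv_mul_cancel₀ h2, one_smul]
  rw [h3, hT]
  exact hv μ _ ((eigenspace T μ).smul_mem _ hw)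

variable [FiniteDimensional ℂ E]

theorem compl_eq_bot (hT : ∀ x y, ⟪T x, T y⟫_ℂ = ⟪x, y⟫_ℂ) : (⨆ μ, eigenspace T μ)ᗮ = ⊥ := by
  by_contra h
  set W : Submodule ℂ E := (⨆ μ, eigenspace T μ)ᗮ with hW
  have : Nontrivial W := Submodule.nontrivial_iff_ne_bot.2 h
  obtain ⟨μ, hμ⟩ := Module.End.exists_eigenvalue (T.restrict (inv_compl hT))
  obtain ⟨v, hv⟩ := hμ.exists_hasEigenvector
  have h1 : T v = μ • (v : E) := by
    have h2 := congrArg (Subtype.val) hv.apply_eq_smul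
    simpa using h2
  have h3 : (v : E) ∈ ⨆ μ, eigenspace T μ :=
    (le_iSup (fun μ => eigenspace T μ) μ) (mem_eigenspace_iff.2 h1)
  have h4 : ⟪(v : E), (v : E)⟫_ℂ = 0 := v.2 _ h3
  exact hv.2 (Subtype.ext (inner_self_eq_zero.1 h4))

/-- **A linear isometry of a finite-dimensional complex inner product space has an orthonormal
eigenbasis.** -/
theorem exists_eigenbasis (hT : ∀ x y, ⟪T x, T y⟫_ℂ = ⟪x, y⟫_ℂ) {n : ℕ} (hn : finrank ℂ E = n) :
    ∃ (e : OrthonormalBasis (Fin n) ℂ E) (d : Fin n → ℂ), ∀ i, T (e i) = d i • e i := by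
  have h1 : (⨆ μ : Eigenvalues T, eigenspace T μ)ᗮ = ⊥ := by
    show (⨆ μ : { μ // eigenspace T μ ≠ ⊥ }, eigenspace T μ)ᗮ = ⊥
    rw [iSup_ne_bot_subtype, compl_eq_bot hT]
  have h2 : DirectSum.IsInternal fun μ : Eigenvalues T => eigenspace T μ :=
    (orth_eig' hT).isInternal_iff.mpr h1
  refine ⟨h2.subordinateOrthonormalBasis hn (orth_eig' hT), fun i =>
    (h2.subordinateOrthonormalBasisIndex hn i (orth_eig' hT)).val, fun i => ?_⟩
  exact mem_eigenspace_iff.1 (h2.subordinateOrthonormalBasis_subordinate hn i (orth_eig' hT))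

end op

section mat

variable {n : ℕ}

/-- **Unitary matrices are diagonalisable by unitary matrices.** -/
theorem exists_diag (g : Matrix (Fin n) (Fin n) ℂ) (hg : star g * g = 1) :
    ∃ (u : Matrix (Fin n) (Fin n) ℂ) (d : Fin n → ℂ), u * star u = 1 ∧ star u * u = 1 ∧
      g * u = u * Matrix.diagonal d ∧ ∀ i, conj (d i) * d i = 1 := by
  set T : EuclideanSpace ℂ (Fin n) →ₗ[ℂ] EuclideanSpace ℂ (Fin n) := Matrix.toEuclideanLin g
  have hT : ∀ x y, ⟪T x, T y⟫_ℂ = ⟪x, y⟫_ℂ := by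
    intro x y
    have h1 : ⟪T x, T y⟫_ℂ = ⟪x, Matrix.toEuclideanLin (gᴴ) (T y)⟫_ℂ := by
      rw [Matrix.toEuclideanLin_conjTranspose_eq_adjoint, LinearMap.adjoint_inner_right]
    rw [h1]
    congr 1
    have h2 : gᴴ * g = 1 := hg
    show Matrix.toEuclideanLin gᴴ (Matrix.toEuclideanLin g y) = y
    simp only [Matrix.toLpLin_apply, Matrix.mulVec_mulVec, h2, Matrix.one_mulVec]
  obtain ⟨e, d, hed⟩ := exists_eigenbasis hT (n := n) (by simp)
  set u : Matrix (Fin n) (Fin n) ℂ := fun i j => e j i with hu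
  have h1 : star u * u = 1 := by
    ext j k
    rw [Matrix.mul_apply, Matrix.one_apply]
    have h2 : ⟪e j, e k⟫_ℂ = if j = k then 1 else 0 := orthonormal_iff_ite.1 e.orthonormal j k
    rw [← h2, PiLp.inner_apply]
    refine Finset.sum_congr rfl fun i _ => ?_
    rw [Matrix.star_apply, RCLike.inner_apply, mul_comm]
    rfl
  refine ⟨u, d, mul_eq_one_comm.1 h1, h1, ?_, fun i => ?_⟩
  · ext i j
    rw [Matrix.mul_diagonal]
    have h2 := congrArg (fun v : EuclideanSpace ℂ (Fin n) => v i) (hed j)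
    simp only [PiLp.smul_apply, smul_eq_mul] at h2
    rw [mul_comm, hu]
    refine Eq.trans ?_ h2
    rfl
  · refine conj_mul_of_eig hT (hed i) ?_
    exact e.toBasis.ne_zero i |> fun h => by simpa using h

end mat

end Crest.Agent.R330.Diag973

end
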