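import Crest.Agent.R330.TG_372
import Crest.Agent.R330.TCore_383

/-!
# Row 330, S8-ISO (helper406): Fubini on the slice of a chart, for 372's Gram limit

* `det_dilN` : `|det (dilN s t)| = s ^ dim Blk * t ^ dim (Zt X0)` for 372's `splitC C`.
* `nI_scale` : `nI P σ g X = g ^ (-dim (Zt X0) / 2) * nI P σ 1 X`.
* `slice_norm` : the normalised Gaussian integrates to one on the fibres:
  `∫_{Nor} (nI)⁻¹ exp (- g ⟪A z, z⟫) h (X, Y) = ∫_X ∫_Y h (X, Y)`.
-/

set_option autoImplicit false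
set_option linter.unusedSectionVars false

open MeasureTheory Filter Topology Crest.MathPhysics.MatrixQM
open scoped ContDiff InnerProductSpace ENNReal

noncomputable section

namespace Crest.Agent.R330.Fub406

open Crest.Agent.R330.Defs478 Crest.Agent.R330.LS839 Crest.Agent.R330.Frame839
  Crest.Agent.R330.Clus839 Crest.Agent.R330.Bind6839 Crest.Agent.R330.SlG944
  Crest.Agent.R330.SlF944 Crest.Agent.R330.TDef414 Crest.Agent.R330.LitA974
  Crest.Agent.R330.TG372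
open Crest.Agent.R330.SlB314 (Nor Tan brx)

variable {N p : ℕ} {b : ColorBasis N} {S : Type} [Group S] [Fintype S] (C : Chn b p S)
  {X0 : Pos p}

/-! ### coordinates of the slice -/

theorem coord_emb (h : C.Reg X0) : MeasurableEmbedding (fun q : (Pos p × C.Blk) × C.Zt X0 =>
      ((⟨C.cf q.1.1 + q.1.2 + q.2, Submodule.add_mem _ (Submodule.add_mem _
        (cf_mem_Nor C h _) (Blk_le_Nor C h q.1.2.2)) q.2.2.2⟩ : Nor b (C.cf X0)))) := by
  have h1 : Measurable (fun q : (Pos p × C.Blk) × C.Zt X0 =>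
      ((⟨C.cf q.1.1 + q.1.2 + q.2, Submodule.add_mem _ (Submodule.add_mem _
        (cf_mem_Nor C h _) (Blk_le_Nor C h q.1.2.2)) q.2.2.2⟩ : Nor b (C.cf X0)))) :=
    (mp_coord C h).measurable
  refine h1.measurableEmbedding fun q q' he => ?_
  have he' : C.cf q.1.1 + q.1.2 + q.2 = C.cf q'.1.1 + q'.1.2 + q'.2 := congrArg Subtype.val he
  have e1 := congrArg C.cfT he'
  rw [cfT_coord C q.1.2.2 q.2.2.1, cfT_coord C q'.1.2.2 q'.2.2.1] at e1
  have e2 := congrArg C.PY he'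
  rw [PY_coord C q.1.2.2 q.2.2.1, PY_coord C q'.1.2.2 q'.2.2.1] at e2
  have e3 := congrArg C.PM he'
  rw [PM_coord C q.1.2.2 q.2.2.1, PM_coord C q'.1.2.2 q'.2.2.1] at e3
  exact Prod.ext (Prod.ext e1 (Subtype.ext e2)) (Subtype.ext e3)

/-- integrability on the slice, in coordinates -/
theorem integrable_nor_iff (h : C.Reg X0) {G : Type*} [NormedAddCommGroup G] {f : Cfg N → G} :
    Integrable (fun u : Nor b (C.cf X0) => f u) ↔
      Integrable (fun q : (Pos p × C.Blk) × C.Zt X0 => f (C.cf q.1.1 + q.1.2 + q.2)) :=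
  ((mp_coord C h).integrable_comp_emb (coord_emb C h)).symm

/-- Fubini, without integrability hypothesis on the slice -/
theorem integral_nor_prod (h : C.Reg X0) {G : Type*} [NormedAddCommGroup G] [NormedSpace ℝ G]
    (f : Cfg N → G) : ∫ u : Nor b (C.cf X0), f u =
      ∫ q : (Pos p × C.Blk) × C.Zt X0, f (C.cf q.1.1 + q.1.2 + q.2) :=
  ((mp_coord C h).integral_comp (coord_emb C h) (fun u : Nor b (C.cf X0) => f u)).symm

/-! ### the determinant of the dilation -/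

theorem hcX (X0 : Pos p) : (splitC C).PX (C.cf X0) = C.cf X0 := by
  rw [splitC_PX, C.cfT_cf]

theorem dil_coord (s t : ℝ) (X : Pos p) {Y z : Cfg N} (hY : Y ∈ C.Blk) (hz : z ∈ Tup C.kkᗮ) :
    (splitC C).dil s t (C.cf X + Y + z) = C.cf X + s • Y + t • z := by
  rw [Ovl372.Split.dil_apply, splitC_PX, splitC_PY, splitC_PM, cfT_coord C hY hz,
    PY_coord C hY hz, PM_coord C hY hz]

theorem gauss_scale (d : ℕ) {s : ℝ} (hs : 0 < s) :
    (Real.pi / s ^ 2) ^ ((d : ℝ) / 2) * s ^ d = (Real.pi / 1 ^ 2) ^ ((d : ℝ) / 2) := by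
  rw [Real.div_rpow Real.pi_pos.le (by positivity), Real.div_rpow Real.pi_pos.le (by positivity)]
  have h1 : (s ^ 2) ^ ((d : ℝ) / 2) = s ^ d := by
    rw [← Real.rpow_natCast s 2, ← Real.rpow_mul hs.le, ← Real.rpow_natCast s d]
    congr 1
    push_cast
    ring
  rw [h1]
  have h2 : (0 : ℝ) < s ^ d := by positivity
  rw [one_pow, Real.one_rpow]
  field_simp

/-- Gaussian integral of the dilated norm on the slice -/
theorem integral_gauss_dil (h : C.Reg X0) {s t : ℝ} (hs : 0 < s) (ht : 0 < t) :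
    ∫ v : Nor b (C.cf X0), Real.exp (-(1 : ℝ) * ‖(splitC C).dil s t v‖ ^ 2) =
      (∫ X : Pos p, Real.exp (-(1 : ℝ) * ‖X‖ ^ 2)) *
        (Real.pi / s ^ 2) ^ ((Module.finrank ℝ C.Blk : ℝ) / 2) *
        (Real.pi / t ^ 2) ^ ((Module.finrank ℝ (C.Zt X0) : ℝ) / 2) := by
  rw [integral_nor_prod C h fun u => Real.exp (-(1 : ℝ) * ‖(splitC C).dil s t u‖ ^ 2)]
  have e1 : ∀ q : (Pos p × C.Blk) × C.Zt X0,
      Real.exp (-(1 : ℝ) * ‖(splitC C).dil s t (C.cf q.1.1 + q.1.2 + q.2)‖ ^ 2) =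
        (Real.exp (-(1 : ℝ) * ‖q.1.1‖ ^ 2) * Real.exp (-(s ^ 2) * ‖q.1.2‖ ^ 2)) *
          Real.exp (-(t ^ 2) * ‖q.2‖ ^ 2) := by
    intro q
    rw [dil_coord C s t q.1.1 q.1.2.2 q.2.2.1,
      norm_sq_coord C (C.Blk.smul_mem s q.1.2.2) ((Tup C.kkᗮ).smul_mem t q.2.2.1), norm_smul,
      norm_smul, ← Real.exp_add, ← Real.exp_add]
    congr 1
    rw [mul_pow, mul_pow, Real.norm_eq_abs, Real.norm_eq_abs, sq_abs, sq_abs]
    simp only [Submodule.coe_norm]
    ring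
  simp only [e1]
  rw [Measure.volume_eq_prod, integral_prod_mul
    (fun q : Pos p × C.Blk => Real.exp (-(1 : ℝ) * ‖q.1‖ ^ 2) * Real.exp (-(s ^ 2) * ‖q.2‖ ^ 2))
    (fun z : C.Zt X0 => Real.exp (-(t ^ 2) * ‖z‖ ^ 2)), Measure.volume_eq_prod, integral_prod_mul
    (fun X : Pos p => Real.exp (-(1 : ℝ) * ‖X‖ ^ 2))
    (fun Y : C.Blk => Real.exp (-(s ^ 2) * ‖Y‖ ^ 2)),
    GaussianFourier.integral_rexp_neg_mul_sq_norm (V := C.Blk) (by positivity : 0 < s ^ 2),
    GaussianFourier.integral_rexp_neg_mul_sq_norm (V := C.Zt X0) (by positivity : 0 < t ^ 2)]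

theorem det_dilN (h : C.Reg X0) {s t : ℝ} (hs : 0 < s) (ht : 0 < t)
    (hc : (splitC C).PX (C.cf X0) = C.cf X0) :
    |LinearMap.det ((splitC C).dilN hc s t)| =
      s ^ Module.finrank ℝ C.Blk * t ^ Module.finrank ℝ (C.Zt X0) := by
  set D := (splitC C).dilN hc s t with hD
  have hdet : LinearMap.det D ≠ 0 := (splitC C).det_dilN_ne hc hs.ne' ht.ne'
  have h1 := Ovl372.integral_lin (V := Nor b (C.cf X0)) (E := ℝ) D hdet
    (fun u : Nor b (C.cf X0) => Real.exp (-(1 : ℝ) * ‖(u : Cfg N)‖ ^ 2))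
  have h2 := integral_gauss_dil C h hs ht
  have h3 := integral_gauss_dil C h one_pos one_pos
  have e3 : ∀ v : Nor b (C.cf X0), (splitC C).dil 1 1 (v : Cfg N) = v := fun v =>
    (splitC C).dil_one v
  simp only [e3] at h3
  have e2 : ∀ v : Nor b (C.cf X0), ((D v : Nor b (C.cf X0)) : Cfg N) = (splitC C).dil s t v :=
    fun v => rfl
  simp only [e2] at h1
  rw [h2, h3, smul_eq_mul] at h1
  set Ix := ∫ X : Pos p, Real.exp (-(1 : ℝ) * ‖X‖ ^ 2) with hIx
  have hIx0 : 0 < Ix := by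
    rw [hIx, GaussianFourier.integral_rexp_neg_mul_sq_norm (V := Pos p) one_pos]
    positivity
  rw [← gauss_scale (Module.finrank ℝ C.Blk) hs, ← gauss_scale (Module.finrank ℝ (C.Zt X0)) ht]
    at h1
  have p1 : 0 < (Real.pi / s ^ 2) ^ ((Module.finrank ℝ C.Blk : ℝ) / 2) := by positivity
  have p2 : 0 < (Real.pi / t ^ 2) ^ ((Module.finrank ℝ (C.Zt X0) : ℝ) / 2) := by positivity
  have p3 : 0 < Ix * (Real.pi / s ^ 2) ^ ((Module.finrank ℝ C.Blk : ℝ) / 2) *
      (Real.pi / t ^ 2) ^ ((Module.finrank ℝ (C.Zt X0) : ℝ) / 2) := by positivity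
  refine mul_right_cancel₀ p3.ne' (h1.symm.trans ?_)
  ring

/-- the amplitude `a = g^{dim Blk / 6 + dim Zt / 4}` of 372's Gram limit -/
theorem amp_det (h : C.Reg X0) {g : ℝ} (hg : 0 < g)
    (hc : (splitC C).PX (C.cf X0) = C.cf X0) :
    (g ^ ((Module.finrank ℝ C.Blk : ℝ) / 6) * g ^ ((Module.finrank ℝ (C.Zt X0) : ℝ) / 4)) ^ 2 *
      |LinearMap.det ((splitC C).dilN hc (g ^ (-(1 : ℝ) / 3)) (g ^ (-(1 : ℝ) / 2)))| = 1 := by
  rw [det_dilN C h (Real.rpow_pos_of_pos hg _) (Real.rpow_pos_of_pos hg _) hc,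
    ← Real.rpow_natCast (g ^ (-(1 : ℝ) / 3)), ← Real.rpow_natCast (g ^ (-(1 : ℝ) / 2)),
    ← Real.rpow_mul hg.le, ← Real.rpow_mul hg.le, ← Real.rpow_add hg,
    ← Real.rpow_natCast _ 2, ← Real.rpow_mul hg.le, ← Real.rpow_add hg, ← Real.rpow_add hg]
  rw [show ((Module.finrank ℝ C.Blk : ℝ) / 6 + (Module.finrank ℝ (C.Zt X0) : ℝ) / 4) *
      ((2 : ℕ) : ℝ) + (-(1 : ℝ) / 3 * (Module.finrank ℝ C.Blk : ℝ) +
      -(1 : ℝ) / 2 * (Module.finrank ℝ (C.Zt X0) : ℝ)) = 0 by push_cast; ring, Real.rpow_zero]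

/-! ### the normalisation -/

variable {C} {F : Type*} [NormedAddCommGroup F] [InnerProductSpace ℂ F]
  [FiniteDimensional ℂ F] {M : FermionRep N F} {R : GaugeAction b M} {G : GammaNine}

theorem nI_scale (P : TPack C M R G) (σ : Sl C) {g : ℝ} (hg : 0 < g) {X : Pos p}
    (hr : ‖X - σ.X0‖ < σ.r) :
    nI P σ g X = g ^ (-(Module.finrank ℝ (C.Zt σ.X0) : ℝ) / 2) * nI P σ 1 X := by
  rw [TCore383.nI_eq P σ hg hr, TCore383.nI_eq P σ one_pos hr,
    Real.div_rpow Real.pi_pos.le hg.le, div_one, neg_div, Real.rpow_neg hg.le]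
  ring

/-- the Gaussian is integrable on the fibre -/
theorem integrable_gauss (P : TPack C M R G) (σ : Sl C) {g : ℝ} (hg : 0 < g) {X : Pos p}
    (hr : ‖X - σ.X0‖ < σ.r) :
    Integrable fun z : C.Zt σ.X0 => Real.exp (-(g * ⟪P.A X z, z⟫_ℝ)) := by
  by_contra h
  have h1 := TCore383.nI_pos P σ hg hr
  unfold nI at h1
  rw [integral_undef h] at h1
  exact lt_irrefl _ h1

/-- the normalised Gaussian kernel in coordinates -/
def nK (P : TPack C M R G) (σ : Sl C) (g : ℝ) (X : Pos p) (z : Cfg N) : ℝ :=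
  (nI P σ g (σ.X0 + X))⁻¹ * Real.exp (-(g * ⟪P.A (σ.X0 + X) z, z⟫_ℝ))

theorem nK_nonneg (P : TPack C M R G) (σ : Sl C) {g : ℝ} (X : Pos p) (z : Cfg N) :
    0 ≤ nK P σ g X z :=
  mul_nonneg (inv_nonneg.2 (integral_nonneg fun _ => (Real.exp_pos _).le)) (Real.exp_pos _).le

theorem ball_add (σ : Sl C) {X : Pos p} (hX : ‖X‖ < σ.r) : ‖σ.X0 + X - σ.X0‖ < σ.r := by
  rwa [add_sub_cancel_left]

theorem integrable_nK (P : TPack C M R G) (σ : Sl C) {g : ℝ} (hg : 0 < g) {X : Pos p}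
    (hX : ‖X‖ < σ.r) : Integrable fun z : C.Zt σ.X0 => nK P σ g X z :=
  (integrable_gauss P σ hg (ball_add σ hX)).const_mul _

theorem integral_nK (P : TPack C M R G) (σ : Sl C) {g : ℝ} (hg : 0 < g) {X : Pos p}
    (hX : ‖X‖ < σ.r) : ∫ z : C.Zt σ.X0, nK P σ g X z = 1 := by
  unfold nK
  rw [integral_const_mul]
  exact inv_mul_cancel₀ (TCore383.nI_pos P σ hg (ball_add σ hX)).ne'

theorem continuousOn_nK (P : TPack C M R G) (σ : Sl C) {g : ℝ} (hg : 0 < g) :
    ContinuousOn (fun q : Pos p × Cfg N => nK P σ g q.1 q.2) {q | ‖q.1‖ < σ.r} := by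
  intro q hq
  refine ContinuousAt.continuousWithinAt ?_
  have h0 : ContinuousAt (fun q : Pos p × Cfg N => σ.X0 + q.1) q := by fun_prop
  have h1 : ContinuousAt (fun q : Pos p × Cfg N => nI P σ g (σ.X0 + q.1)) q :=
    ContinuousAt.comp (f := fun q : Pos p × Cfg N => σ.X0 + q.1) (g := nI P σ g)
      (TCore383.contDiffAt_nI P σ hg (ball_add σ hq)).continuousAt h0
  have h2 : ContinuousAt (fun q : Pos p × Cfg N => P.A (σ.X0 + q.1)) q :=
    ContinuousAt.comp (f := fun q : Pos p × Cfg N => σ.X0 + q.1) (g := P.A)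
      (P.A_smooth _ (σ.reg _ (ball_add σ hq))).continuousAt h0
  have h3 : ContinuousAt (fun q : Pos p × Cfg N => P.A (σ.X0 + q.1) q.2) q :=
    h2.clm_apply continuousAt_snd
  have h4 : ContinuousAt (fun q : Pos p × Cfg N => ⟪P.A (σ.X0 + q.1) q.2, q.2⟫_ℝ) q :=
    h3.inner continuousAt_snd
  exact (h1.inv₀ (TCore383.nI_pos P σ hg (ball_add σ hq)).ne').mul
    ((continuousAt_const.mul h4).neg.rexp)

section norm

variable {E : Type*} [NormedAddCommGroup E] [NormedSpace ℝ E]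

/-- abstract form: a Markov kernel density over a measurable set -/
theorem kernel_aux {α β : Type*} [MeasurableSpace α] [MeasurableSpace β] {μ : Measure α}
    {ν : Measure β} [SFinite μ] [SFinite ν] {K : α → β → ℝ} {h : α → E} {S : Set α}
    (hS : MeasurableSet S)
    (hK : AEStronglyMeasurable (fun q : α × β => K q.1 q.2)
      ((μ.prod ν).restrict (S ×ˢ Set.univ)))
    (hh : Integrable h μ) (hs : ∀ x, x ∉ S → h x = 0) (h0 : ∀ x y, 0 ≤ K x y)
    (h1 : ∀ x ∈ S, Integrable (K x) ν) (h2 : ∀ x ∈ S, ∫ y, K x y ∂ν = 1) :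
    Integrable (fun q : α × β => K q.1 q.2 • h q.1) (μ.prod ν) := by
  have hm : AEStronglyMeasurable (fun q : α × β => K q.1 q.2 • h q.1) (μ.prod ν) := by
    have e1 : (fun q : α × β => K q.1 q.2 • h q.1) =
        (S ×ˢ Set.univ).indicator fun q => K q.1 q.2 • h q.1 := by
      funext q
      by_cases hq : q.1 ∈ S
      · rw [Set.indicator_of_mem (by exact ⟨hq, Set.mem_univ _⟩)]
      · rw [Set.indicator_of_notMem (by exact fun h => hq h.1), hs _ hq, smul_zero]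
    rw [e1, aestronglyMeasurable_indicator_iff (hS.prod MeasurableSet.univ)]
    exact hK.smul (hh.1.comp_quasiMeasurePreserving Measure.quasiMeasurePreserving_fst).restrict
  rw [integrable_prod_iff hm]
  refine ⟨Eventually.of_forall fun x => ?_, ?_⟩
  · by_cases hx : x ∈ S
    · exact Integrable.smul_const (f := K x) (h1 x hx) (h x)
    · simp only [hs _ hx, smul_zero]
      exact integrable_zero _ _ _
  · refine hh.norm.congr (Eventually.of_forall fun x => ?_)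
    simp only
    by_cases hx : x ∈ S
    · have e2 : ∀ y, ‖K x y • h x‖ = K x y * ‖h x‖ := fun y => by
        rw [norm_smul, Real.norm_of_nonneg (h0 _ _)]
      simp only [e2]
      rw [integral_mul_const, h2 x hx, one_mul]
    · simp [hs _ hx]

theorem kernel_int [CompleteSpace E] {α β : Type*} [MeasurableSpace α] [MeasurableSpace β]
    {μ : Measure α} {ν : Measure β} [SFinite μ] [SFinite ν] {K : α → β → ℝ} {h : α → E}
    {S : Set α} (hI : Integrable (fun q : α × β => K q.1 q.2 • h q.1) (μ.prod ν))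
    (hs : ∀ x, x ∉ S → h x = 0) (h2 : ∀ x ∈ S, ∫ y, K x y ∂ν = 1) :
    ∫ q, K q.1 q.2 • h q.1 ∂(μ.prod ν) = ∫ x, h x ∂μ := by
  rw [integral_prod _ hI]
  refine integral_congr_ae (Eventually.of_forall fun x => ?_)
  simp only
  by_cases hx : x ∈ S
  · rw [integral_smul_const, h2 x hx, one_smul]
  · simp [hs _ hx]

theorem aesm_nK (P : TPack C M R G) (σ : Sl C) {g : ℝ} (hg : 0 < g) :
    AEStronglyMeasurable (fun q : (Pos p × C.Blk) × C.Zt σ.X0 => nK P σ g q.1.1 (q.2 : Cfg N))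
      (((volume : Measure (Pos p × C.Blk)).prod (volume : Measure (C.Zt σ.X0))).restrict
        ({x : Pos p × C.Blk | ‖x.1‖ < σ.r} ×ˢ Set.univ)) := by
  have hSo : IsOpen ({x : Pos p × C.Blk | ‖x.1‖ < σ.r} ×ˢ (Set.univ : Set (C.Zt σ.X0))) :=
    (isOpen_lt (continuous_norm.comp continuous_fst) continuous_const).prod isOpen_univ
  have hc : Continuous fun q : (Pos p × C.Blk) × C.Zt σ.X0 => (q.1.1, (q.2 : Cfg N)) :=
    (continuous_fst.comp continuous_fst).prodMk (continuous_subtype_val.comp continuous_snd)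
  have h1 : ContinuousOn (fun q : (Pos p × C.Blk) × C.Zt σ.X0 =>
      nK P σ g q.1.1 (q.2 : Cfg N)) ({x : Pos p × C.Blk | ‖x.1‖ < σ.r} ×ˢ Set.univ) :=
    ContinuousOn.comp (g := fun q : Pos p × Cfg N => nK P σ g q.1 q.2)
      (f := fun q : (Pos p × C.Blk) × C.Zt σ.X0 => (q.1.1, (q.2 : Cfg N)))
      (t := {q | ‖q.1‖ < σ.r}) (continuousOn_nK P σ hg) hc.continuousOn fun q hq => hq.1
  exact h1.aestronglyMeasurable hSo.measurableSet

theorem integrable_prod_nK (P : TPack C M R G) (σ : Sl C) {g : ℝ} (hg : 0 < g)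
    {h : Pos p → Cfg N → E} (hh : Integrable fun q : Pos p × C.Blk => h q.1 q.2)
    (hs : ∀ X Y, σ.r ≤ ‖X‖ → h X Y = 0) :
    Integrable (fun q : (Pos p × C.Blk) × C.Zt σ.X0 => nK P σ g q.1.1 q.2 • h q.1.1 q.1.2)
      ((volume : Measure (Pos p × C.Blk)).prod (volume : Measure (C.Zt σ.X0))) :=
  kernel_aux (K := fun (x : Pos p × C.Blk) (z : C.Zt σ.X0) => nK P σ g x.1 (z : Cfg N))
    (h := fun x : Pos p × C.Blk => h x.1 x.2) (S := {x | ‖x.1‖ < σ.r})
    (isOpen_lt (by fun_prop) continuous_const).measurableSet (aesm_nK P σ hg) hh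
    (fun x hx => hs _ _ (not_lt.1 hx)) (fun x y => nK_nonneg P σ _ _)
    (fun x hx => integrable_nK P σ hg hx) (fun x hx => integral_nK P σ hg hx)

/-- **the normalised Gaussian integrates to one on the fibres** -/
theorem slice_norm [CompleteSpace E] (P : TPack C M R G) (σ : Sl C) {g : ℝ} (hg : 0 < g)
    {h : Pos p → Cfg N → E} (hh : Integrable fun q : Pos p × C.Blk => h q.1 q.2)
    (hs : ∀ X Y, σ.r ≤ ‖X‖ → h X Y = 0) :
    ∫ v : Nor b (C.cf σ.X0), nK P σ g (C.cfT v) (C.PM v) • h (C.cfT v) (C.PY v) =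
      ∫ X : Pos p, ∫ Y : C.Blk, h X Y := by
  have h0 : C.Reg σ.X0 := σ.reg _ (by simpa using σ.pos)
  have hI := integrable_prod_nK P σ hg hh hs
  have h3 := kernel_int (K := fun (x : Pos p × C.Blk) (z : C.Zt σ.X0) => nK P σ g x.1 (z : Cfg N))
    (h := fun x : Pos p × C.Blk => h x.1 x.2) (S := {x | ‖x.1‖ < σ.r}) hI
    (fun x hx => hs _ _ (not_lt.1 hx)) (fun x hx => integral_nK P σ hg hx)
  rw [integral_nor_prod C h0 fun v => nK P σ g (C.cfT v) (C.PM v) • h (C.cfT v) (C.PY v)]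
  have e1 : ∀ q : (Pos p × C.Blk) × C.Zt σ.X0,
      nK P σ g (C.cfT (C.cf q.1.1 + q.1.2 + q.2)) (C.PM (C.cf q.1.1 + q.1.2 + q.2)) •
        h (C.cfT (C.cf q.1.1 + q.1.2 + q.2)) (C.PY (C.cf q.1.1 + q.1.2 + q.2)) =
        nK P σ g q.1.1 q.2 • h q.1.1 q.1.2 := fun q => by
    rw [cfT_coord C q.1.2.2 q.2.2.1, PM_coord C q.1.2.2 q.2.2.1, PY_coord C q.1.2.2 q.2.2.1]
  simp only [e1]
  refine h3.trans ?_
  rw [Measure.volume_eq_prod] at hh ⊢
  exact integral_prod _ hh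

/-- integrability on the slice -/
theorem integrable_slice_nK (P : TPack C M R G) (σ : Sl C) {g : ℝ} (hg : 0 < g)
    {h : Pos p → Cfg N → E} (hh : Integrable fun q : Pos p × C.Blk => h q.1 q.2)
    (hs : ∀ X Y, σ.r ≤ ‖X‖ → h X Y = 0) :
    Integrable fun v : Nor b (C.cf σ.X0) =>
      nK P σ g (C.cfT v) (C.PM v) • h (C.cfT v) (C.PY v) := by
  have h0 : C.Reg σ.X0 := σ.reg _ (by simpa using σ.pos)
  rw [integrable_nor_iff C h0 (f := fun v => nK P σ g (C.cfT v) (C.PM v) • h (C.cfT v) (C.PY v))]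
  refine (integrable_prod_nK P σ hg hh hs).congr (Eventually.of_forall fun q => ?_)
  simp only
  rw [cfT_coord C q.1.2.2 q.2.2.1, PM_coord C q.1.2.2 q.2.2.1, PY_coord C q.1.2.2 q.2.2.1]

end norm

end Crest.Agent.R330.Fub406

end
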