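import Mathlib

/-!
# Row 330, S8 (helper893): the `ε/3` passage for pairings

`x g`, `x' g` approximated in `L²` by `y k g`, `y' k g` (`k` = index of a fixed profile), pairings of the
approximants convergent for every `k` ==> the pairing of `x g`, `x' g` converges.
`tendsto_inner` : Hilbert space form; `tendsto_pairing` : integral form.
-/

set_option autoImplicit false
set_option linter.unusedSectionVars false

open MeasureTheory Filter Topology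
open scoped InnerProductSpace ENNReal

noncomputable section

namespace Crest.Agent.R330.Gram893

/-- Hilbert space form -/
theorem tendsto_inner {H : Type*} [NormedAddCommGroup H] [InnerProductSpace ℂ H]
    {ι κ : Type*} {l : Filter ι} {l' : Filter κ} [l'.NeBot] {X X' : ι → H} {Y Y' : κ → ι → H}
    (h : ∀ ε : ℝ, 0 < ε → ∀ᶠ k in l', ∀ᶠ g in l, ‖X g - Y k g‖ ≤ ε)
    (h' : ∀ ε : ℝ, 0 < ε → ∀ᶠ k in l', ∀ᶠ g in l, ‖X' g - Y' k g‖ ≤ ε)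
    (hb : ∀ᶠ k in l', ∃ C : ℝ, ∀ᶠ g in l, ‖Y k g‖ ≤ C)
    (hb' : ∀ᶠ k in l', ∃ C : ℝ, ∀ᶠ g in l, ‖Y' k g‖ ≤ C)
    {L : κ → ℂ} (hL : ∀ᶠ k in l', Tendsto (fun g => ⟪Y k g, Y' k g⟫_ℂ) l (𝓝 (L k)))
    {L0 : ℂ} (hL0 : Tendsto L l' (𝓝 L0)) :
    Tendsto (fun g => ⟪X g, X' g⟫_ℂ) l (𝓝 L0) := by
  -- bounds on `X`, `X'`
  obtain ⟨k₁, h1, ⟨C, hC⟩, h1', ⟨C', hC'⟩⟩ :=
    ((h 1 one_pos).and (hb.and ((h' 1 one_pos).and hb'))).exists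
  have hX : ∀ᶠ g in l, ‖X g‖ ≤ 1 + |C| := by
    filter_upwards [h1, hC] with g h2 h3
    have h4 := norm_add_le (X g - Y k₁ g) (Y k₁ g)
    rw [sub_add_cancel] at h4
    linarith [le_abs_self C]
  have hX' : ∀ᶠ g in l, ‖X' g‖ ≤ 1 + |C'| := by
    filter_upwards [h1', hC'] with g h2 h3
    have h4 := norm_add_le (X' g - Y' k₁ g) (Y' k₁ g)
    rw [sub_add_cancel] at h4
    linarith [le_abs_self C']
  rw [Metric.tendsto_nhds]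
  intro ε hε
  set B : ℝ := 3 + |C| + |C'| with hB
  have hB0 : 0 < B := by positivity
  set δ : ℝ := min 1 (ε / (6 * B)) with hδ
  have hδ0 : 0 < δ := by positivity
  have hδ1 : δ ≤ 1 := min_le_left _ _
  have hδ2 : δ * B ≤ ε / 6 := by
    have h5 : δ ≤ ε / (6 * B) := min_le_right _ _
    calc δ * B ≤ ε / (6 * B) * B := by gcongr
      _ = ε / 6 := by field_simp
  obtain ⟨k, h2, h2', h3, h4⟩ := ((h δ hδ0).and ((h' δ hδ0).and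
    (hL.and (hL0.eventually (Metric.ball_mem_nhds L0 (by positivity : 0 < ε / 3)))))).exists
  have h5 := h3.eventually (Metric.ball_mem_nhds (L k) (by positivity : 0 < ε / 3))
  filter_upwards [h2, h2', h5, hX, hX'] with g h6 h6' h7 h8 h8'
  have h4' : dist (L k) L0 < ε / 3 := h4
  have h7' : dist (⟪Y k g, Y' k g⟫_ℂ) (L k) < ε / 3 := h7
  have hY : ‖Y k g‖ ≤ 2 + |C| := by
    have h9 := norm_sub_norm_le (Y k g) (X g)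
    rw [norm_sub_rev] at h9
    linarith
  have e : ⟪X g, X' g⟫_ℂ - ⟪Y k g, Y' k g⟫_ℂ =
      ⟪X g - Y k g, X' g⟫_ℂ + ⟪Y k g, X' g - Y' k g⟫_ℂ := by
    rw [inner_sub_left, inner_sub_right]
    ring
  have h9 : dist (⟪X g, X' g⟫_ℂ) (⟪Y k g, Y' k g⟫_ℂ) ≤ 2 * (δ * B) := by
    rw [dist_eq_norm, e]
    refine (norm_add_le _ _).trans ?_
    have n1 : ‖⟪X g - Y k g, X' g⟫_ℂ‖ ≤ δ * B := by
      refine (norm_inner_le_norm _ _).trans ?_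
      have : ‖X' g‖ ≤ B := by rw [hB]; linarith [abs_nonneg C]
      gcongr
    have n2 : ‖⟪Y k g, X' g - Y' k g⟫_ℂ‖ ≤ δ * B := by
      refine (norm_inner_le_norm _ _).trans ?_
      have : ‖Y k g‖ ≤ B := by rw [hB]; linarith [abs_nonneg C']
      calc ‖Y k g‖ * ‖X' g - Y' k g‖ ≤ B * δ := by gcongr
        _ = δ * B := mul_comm _ _
    linarith
  calc dist (⟪X g, X' g⟫_ℂ) L0 ≤ dist (⟪X g, X' g⟫_ℂ) (⟪Y k g, Y' k g⟫_ℂ) +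
        dist (⟪Y k g, Y' k g⟫_ℂ) (L k) + dist (L k) L0 := dist_triangle4 _ _ _ _
    _ < ε := by linarith

section L2

variable {α : Type*} [MeasurableSpace α] {μ : Measure α}
  {F : Type*} [NormedAddCommGroup F] [InnerProductSpace ℂ F]

theorem norm_toLp_sq {f : α → F} (hf : MemLp f 2 μ) :
    ‖(hf.toLp f : Lp F 2 μ)‖ ^ 2 = ∫ x, ‖f x‖ ^ 2 ∂μ := by
  have h1 : ‖(hf.toLp f : Lp F 2 μ)‖ ^ 2 = (⟪hf.toLp f, hf.toLp f⟫_ℂ).re := by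
    rw [inner_self_eq_norm_sq_to_K]
    norm_cast
  rw [h1, L2.inner_def]
  have h2 : ∀ᵐ x ∂μ, (⟪(hf.toLp f : α → F) x, (hf.toLp f : α → F) x⟫_ℂ : ℂ) =
      ((‖f x‖ ^ 2 : ℝ) : ℂ) := by
    filter_upwards [hf.coeFn_toLp] with x hx
    rw [hx, inner_self_eq_norm_sq_to_K]
    norm_cast
  rw [integral_congr_ae h2, integral_complex_ofReal, Complex.ofReal_re]

theorem inner_toLp {f f' : α → F} (hf : MemLp f 2 μ) (hf' : MemLp f' 2 μ) :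
    ⟪(hf.toLp f : Lp F 2 μ), hf'.toLp f'⟫_ℂ = ∫ x, ⟪f x, f' x⟫_ℂ ∂μ := by
  rw [L2.inner_def]
  refine integral_congr_ae ?_
  filter_upwards [hf.coeFn_toLp, hf'.coeFn_toLp] with x hx hx'
  rw [hx, hx']

/-- Cauchy-Schwarz -/
theorem norm_integral_inner_le {f f' : α → F} (hf : MemLp f 2 μ) (hf' : MemLp f' 2 μ) :
    ‖∫ x, ⟪f x, f' x⟫_ℂ ∂μ‖ ≤ Real.sqrt (∫ x, ‖f x‖ ^ 2 ∂μ) * Real.sqrt (∫ x, ‖f' x‖ ^ 2 ∂μ) := by
  rw [← inner_toLp hf hf', ← norm_toLp_sq hf, ← norm_toLp_sq hf', Real.sqrt_sq (norm_nonneg _),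
    Real.sqrt_sq (norm_nonneg _)]
  exact norm_inner_le_norm _ _

open Classical in
/-- the class in `L²`, zero if not square integrable -/
def cl (μ : Measure α) (f : α → F) : Lp F 2 μ := if h : MemLp f 2 μ then h.toLp f else 0

theorem cl_eq {f : α → F} (h : MemLp f 2 μ) : cl μ f = h.toLp f := by
  unfold cl
  rw [dif_pos h]

theorem norm_cl_sq {f : α → F} (h : MemLp f 2 μ) : ‖cl μ f‖ ^ 2 = ∫ x, ‖f x‖ ^ 2 ∂μ := by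
  rw [cl_eq h, norm_toLp_sq]

theorem norm_cl_sub_sq {f f' : α → F} (h : MemLp f 2 μ) (h' : MemLp f' 2 μ) :
    ‖cl μ f - cl μ f'‖ ^ 2 = ∫ x, ‖f x - f' x‖ ^ 2 ∂μ := by
  rw [cl_eq h, cl_eq h', ← MemLp.toLp_sub, norm_toLp_sq]
  rfl

theorem inner_cl {f f' : α → F} (h : MemLp f 2 μ) (h' : MemLp f' 2 μ) :
    ⟪cl μ f, cl μ f'⟫_ℂ = ∫ x, ⟪f x, f' x⟫_ℂ ∂μ := by
  rw [cl_eq h, cl_eq h', inner_toLp]

/-- **the `ε/3` passage** -/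
theorem tendsto_pairing {ι κ : Type*} {l : Filter ι} {l' : Filter κ} [l'.NeBot]
    {x x' : ι → α → F} {y y' : κ → ι → α → F}
    (hx : ∀ᶠ g in l, MemLp (x g) 2 μ) (hx' : ∀ᶠ g in l, MemLp (x' g) 2 μ)
    (hy : ∀ᶠ k in l', ∀ᶠ g in l, MemLp (y k g) 2 μ)
    (hy' : ∀ᶠ k in l', ∀ᶠ g in l, MemLp (y' k g) 2 μ)
    (h : ∀ ε : ℝ, 0 < ε → ∀ᶠ k in l', ∀ᶠ g in l, ∫ a, ‖x g a - y k g a‖ ^ 2 ∂μ ≤ ε)
    (h' : ∀ ε : ℝ, 0 < ε → ∀ᶠ k in l', ∀ᶠ g in l, ∫ a, ‖x' g a - y' k g a‖ ^ 2 ∂μ ≤ ε)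
    (hb : ∀ᶠ k in l', ∃ C : ℝ, ∀ᶠ g in l, ∫ a, ‖y k g a‖ ^ 2 ∂μ ≤ C)
    (hb' : ∀ᶠ k in l', ∃ C : ℝ, ∀ᶠ g in l, ∫ a, ‖y' k g a‖ ^ 2 ∂μ ≤ C)
    {L : κ → ℂ} (hL : ∀ᶠ k in l', Tendsto (fun g => ∫ a, ⟪y k g a, y' k g a⟫_ℂ ∂μ) l (𝓝 (L k)))
    {L0 : ℂ} (hL0 : Tendsto L l' (𝓝 L0)) :
    Tendsto (fun g => ∫ a, ⟪x g a, x' g a⟫_ℂ ∂μ) l (𝓝 L0) := by
  have key : ∀ {z : ι → α → F} {w : κ → ι → α → F}, (∀ᶠ g in l, MemLp (z g) 2 μ) →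
      (∀ᶠ k in l', ∀ᶠ g in l, MemLp (w k g) 2 μ) →
      (∀ ε : ℝ, 0 < ε → ∀ᶠ k in l', ∀ᶠ g in l, ∫ a, ‖z g a - w k g a‖ ^ 2 ∂μ ≤ ε) →
      ∀ ε : ℝ, 0 < ε → ∀ᶠ k in l', ∀ᶠ g in l, ‖cl μ (z g) - cl μ (w k g)‖ ≤ ε := by
    intro z w hz hw hzw ε hε
    filter_upwards [hzw (ε ^ 2) (by positivity), hw] with k h1 h2
    filter_upwards [h1, h2, hz] with g h3 h4 h5
    rw [← norm_cl_sub_sq h5 h4] at h3
    exact le_of_sq_le_sq h3 hε.le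
  have keyb : ∀ {w : κ → ι → α → F}, (∀ᶠ k in l', ∀ᶠ g in l, MemLp (w k g) 2 μ) →
      (∀ᶠ k in l', ∃ C : ℝ, ∀ᶠ g in l, ∫ a, ‖w k g a‖ ^ 2 ∂μ ≤ C) →
      ∀ᶠ k in l', ∃ C : ℝ, ∀ᶠ g in l, ‖cl μ (w k g)‖ ≤ C := by
    intro w hw hwb
    filter_upwards [hw, hwb] with k h1 h2
    obtain ⟨C, hC⟩ := h2
    refine ⟨Real.sqrt |C|, ?_⟩
    filter_upwards [h1, hC] with g h3 h4
    rw [← norm_cl_sq h3] at h4
    exact Real.le_sqrt_of_sq_le (h4.trans (le_abs_self C))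
  have hm := tendsto_inner (l := l) (l' := l') (X := fun g => cl μ (x g))
    (X' := fun g => cl μ (x' g)) (Y := fun k g => cl μ (y k g)) (Y' := fun k g => cl μ (y' k g))
    (key hx hy h) (key hx' hy' h') (keyb hy hb) (keyb hy' hb') (L := L) (by
      filter_upwards [hL, hy, hy'] with k h1 h2 h3
      refine h1.congr' ?_
      filter_upwards [h2, h3] with g h4 h5
      rw [inner_cl h4 h5]) hL0
  refine hm.congr' ?_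
  filter_upwards [hx, hx'] with g h1 h2
  rw [inner_cl h1 h2]

end L2

end Crest.Agent.R330.Gram893
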