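import Crest.Agent.R330.LitB_974

/-!
# Row 330, S8-ISO (L3) (helper383)

`iso_int` : for `χ`, `χ'` continuous, `χ` of compact support, `r` continuous on `tsupport χ`,
`∫ X, r X * ∫ Y : C.Blk, ⟪Psi g Y (χ X), Psi g Y (χ' X)⟫ → ∫ X, r X * ⟪χ X, χ' X⟫`.
-/

set_option autoImplicit false
set_option linter.unusedSectionVars false

open MeasureTheory Filter Topology Crest.MathPhysics.MatrixQM
open scoped ContDiff InnerProductSpace ENNReal Real

noncomputable section

namespace Crest.Agent.R330.IsoX383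

open Crest.Agent.R330.TDef414
open Crest.Agent.R330.LitB974 (hcs_psi continuous_psi)

variable {N p : ℕ} {b : ColorBasis N} {S : Type} [Group S] [Fintype S] {C : Chn b p S}
  {F : Type*} [NormedAddCommGroup F] [InnerProductSpace ℂ F] [FiniteDimensional ℂ F]
  {M : FermionRep N F} {R : GaugeAction b M} {G : GammaNine}

/-- Gram matrix of the block states. -/
def gmat (P : TPack C M R G) (g : ℝ) (f f' : F) : ℂ := ∫ Y : C.Blk, ⟪P.Psi g Y f, P.Psi g Y f'⟫_ℂ

theorem integrable_gmat (P : TPack C M R G) {g : ℝ} (hg : ContDiff ℝ ∞ (P.Psi g)) (f f' : F) :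
    Integrable fun Y : C.Blk => ⟪P.Psi g Y f, P.Psi g Y f'⟫_ℂ := by
  refine Continuous.integrable_of_hasCompactSupport
    ((continuous_psi hg f).inner (continuous_psi hg f')) ?_
  refine (hcs_psi P g f).mono fun Y hY => ?_
  rw [Function.mem_support] at hY ⊢
  intro h
  apply hY
  rw [h, inner_zero_left]

/-- the block pairing in an orthonormal basis -/
theorem gmat_expand (P : TPack C M R G) {g : ℝ} (hg : ContDiff ℝ ∞ (P.Psi g)) {ι : Type*}
    [Fintype ι] (e : OrthonormalBasis ι ℂ (C.Fx M G)) (f f' : C.Fx M G) :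
    gmat P g f f' = ∑ i, ∑ j, (⟪f, e i⟫_ℂ * ⟪e j, f'⟫_ℂ) * gmat P g (e i) (e j) := by
  have h1 : ∀ f : C.Fx M G, (f : F) = ∑ i, ⟪e i, f⟫_ℂ • (e i : F) := by
    intro f
    have := congrArg (fun v : C.Fx M G => (v : F)) (e.sum_repr' f)
    simp only [Submodule.coe_sum, Submodule.coe_smul] at this
    exact this.symm
  have h2 : ∀ Y : C.Blk, ⟪P.Psi g Y (f : F), P.Psi g Y (f' : F)⟫_ℂ =
      ∑ i, ∑ j, (⟪f, e i⟫_ℂ * ⟪e j, f'⟫_ℂ) *
        ⟪P.Psi g Y (e i : F), P.Psi g Y (e j : F)⟫_ℂ := by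
    intro Y
    conv_lhs => rw [h1 f, h1 f', map_sum, map_sum, sum_inner]
    refine Finset.sum_congr rfl fun i _ => ?_
    rw [inner_sum]
    refine Finset.sum_congr rfl fun j _ => ?_
    rw [map_smul, map_smul, inner_smul_left, inner_smul_right, inner_conj_symm]
    ring
  unfold gmat
  simp only [h2]
  rw [integral_finsetSum _ fun i _ => integrable_finsetSum _ fun j _ =>
    (integrable_gmat P hg _ _).const_mul _]
  refine Finset.sum_congr rfl fun i _ => ?_
  rw [integral_finsetSum _ fun j _ => (integrable_gmat P hg _ _).const_mul _]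
  exact Finset.sum_congr rfl fun j _ => integral_const_mul _ _

theorem inner_expand {ι : Type*} [Fintype ι] (e : OrthonormalBasis ι ℂ (C.Fx M G))
    (f f' : C.Fx M G) : ⟪(f : F), (f' : F)⟫_ℂ =
      ∑ i, ∑ j, (⟪f, e i⟫_ℂ * ⟪e j, f'⟫_ℂ) * ⟪(e i : F), (e j : F)⟫_ℂ := by
  have h1 : ∀ f : C.Fx M G, (f : F) = ∑ i, ⟪e i, f⟫_ℂ • (e i : F) := by
    intro f
    have := congrArg (fun v : C.Fx M G => (v : F)) (e.sum_repr' f)
    simp only [Submodule.coe_sum, Submodule.coe_smul] at this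
    exact this.symm
  conv_lhs => rw [h1 f, h1 f', sum_inner]
  refine Finset.sum_congr rfl fun i _ => ?_
  rw [inner_sum]
  refine Finset.sum_congr rfl fun j _ => ?_
  rw [inner_smul_left, inner_smul_right, inner_conj_symm]
  ring

/-- integrability of the coefficients -/
theorem integrable_coef {r : Pos p → ℝ} {χ χ' : Pos p → C.Fx M G} (hχ : Continuous χ)
    (hχ' : Continuous χ') (hc : HasCompactSupport χ) (hr : ContinuousOn r (tsupport χ))
    (v v' : C.Fx M G) :
    Integrable fun X : Pos p => (r X : ℂ) * (⟪χ X, v⟫_ℂ * ⟪v', χ' X⟫_ℂ) := by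
  have h1 : Function.support (fun X : Pos p => (r X : ℂ) * (⟪χ X, v⟫_ℂ * ⟪v', χ' X⟫_ℂ)) ⊆
      tsupport χ := by
    intro X hX
    by_contra h0
    apply hX
    have h2 : χ X = 0 := image_eq_zero_of_notMem_tsupport h0
    simp only
    rw [h2, inner_zero_left, zero_mul, mul_zero]
  rw [← integrableOn_iff_integrable_of_support_subset h1]
  refine ContinuousOn.integrableOn_compact hc ?_
  have h2 : ContinuousOn (fun X => ((r X : ℝ) : ℂ)) (tsupport χ) :=
    Complex.continuous_ofReal.comp_continuousOn hr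
  exact h2.mul (((hχ.inner continuous_const).mul (continuous_const.inner hχ')).continuousOn)

/-- **(L3)** -/
theorem iso_int (P : TPack C M R G) {r : Pos p → ℝ} {χ χ' : Pos p → C.Fx M G}
    (hχ : Continuous χ) (hχ' : Continuous χ') (hc : HasCompactSupport χ)
    (hr : ContinuousOn r (tsupport χ)) :
    Tendsto (fun g => ∫ X, (r X : ℂ) * ∫ Y : C.Blk,
        ⟪P.Psi g Y (χ X : F), P.Psi g Y (χ' X : F)⟫_ℂ) atTop
      (𝓝 (∫ X, (r X : ℂ) * ⟪(χ X : F), (χ' X : F)⟫_ℂ)) := by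
  classical
  set e := stdOrthonormalBasis ℂ (C.Fx M G) with he
  set c : Fin (Module.finrank ℂ (C.Fx M G)) → Fin (Module.finrank ℂ (C.Fx M G)) → ℂ :=
    fun i j => ∫ X, (r X : ℂ) * (⟪χ X, e i⟫_ℂ * ⟪e j, χ' X⟫_ℂ) with hcdef
  have hint := fun i j => integrable_coef (C := C) (M := M) (G := G) hχ hχ' hc hr (e i) (e j)
  have h1 : (∫ X, (r X : ℂ) * ⟪(χ X : F), (χ' X : F)⟫_ℂ) =
      ∑ i, ∑ j, c i j * ⟪(e i : F), (e j : F)⟫_ℂ := by
    have h2 : ∀ X, (r X : ℂ) * ⟪(χ X : F), (χ' X : F)⟫_ℂ = ∑ i, ∑ j,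
        ((r X : ℂ) * (⟪χ X, e i⟫_ℂ * ⟪e j, χ' X⟫_ℂ)) * ⟪(e i : F), (e j : F)⟫_ℂ := by
      intro X
      rw [inner_expand e, Finset.mul_sum]
      refine Finset.sum_congr rfl fun i _ => ?_
      rw [Finset.mul_sum]
      exact Finset.sum_congr rfl fun j _ => by ring
    simp only [h2]
    rw [integral_finsetSum _ fun i _ => integrable_finsetSum _ fun j _ => (hint i j).mul_const _]
    refine Finset.sum_congr rfl fun i _ => ?_
    rw [integral_finsetSum _ fun j _ => (hint i j).mul_const _]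
    exact Finset.sum_congr rfl fun j _ => integral_mul_const _ _
  have h3 : ∀ᶠ g in atTop, (∑ i, ∑ j, c i j * gmat P g (e i) (e j)) = ∫ X, (r X : ℂ) *
      ∫ Y : C.Blk, ⟪P.Psi g Y (χ X : F), P.Psi g Y (χ' X : F)⟫_ℂ := by
    filter_upwards [P.Psi_smooth] with g hg
    have h2 : ∀ X, (r X : ℂ) * (∫ Y : C.Blk, ⟪P.Psi g Y (χ X : F), P.Psi g Y (χ' X : F)⟫_ℂ) =
        ∑ i, ∑ j, ((r X : ℂ) * (⟪χ X, e i⟫_ℂ * ⟪e j, χ' X⟫_ℂ)) * gmat P g (e i) (e j) := by
      intro X
      have h4 := gmat_expand P hg e (χ X) (χ' X)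
      unfold gmat at h4 ⊢
      rw [h4, Finset.mul_sum]
      refine Finset.sum_congr rfl fun i _ => ?_
      rw [Finset.mul_sum]
      exact Finset.sum_congr rfl fun j _ => by ring
    simp only [h2]
    rw [integral_finsetSum _ fun i _ => integrable_finsetSum _ fun j _ => (hint i j).mul_const _]
    refine Finset.sum_congr rfl fun i _ => ?_
    rw [integral_finsetSum _ fun j _ => (hint i j).mul_const _]
    exact Finset.sum_congr rfl fun j _ => (integral_mul_const _ _).symm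
  rw [h1]
  refine Tendsto.congr' h3 ?_
  exact tendsto_finsetSum _ fun i _ => tendsto_finsetSum _ fun j _ =>
    (P.Psi_iso (e i) (e i).2 (e j) (e j).2).const_mul _

end Crest.Agent.R330.IsoX383

end
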