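import Crest.Agent.R330.TCoreG_383
import Crest.Agent.R330.LitB_974

/-!
# Row 330, S8-ISO (L1) (helper383): `L²` bound of the trial states of an arbitrary block state

* `isBlk_sub`, `TG_sub` (any amplitude function, any chart).
* `norm_tauG_sq_le`, `tauG_mass`.
* `l2_TG` : `∃ K ≥ 0, ∀ g > 0, ∀ Φ ρ, IsBlk P Φ ρ → ρ ≤ σ.r / 4 → ∀ B ≥ 0,
  (∀ f ∈ C.Fx M G, ∫ Y : C.Blk, ‖Φ Y f‖² ≤ B ‖f‖²) → ∫ x, ‖TG P σ g Φ χ.fn x‖² ≤ K * B`.
-/

set_option autoImplicit false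
set_option linter.unusedSectionVars false

open MeasureTheory Filter Topology Crest.MathPhysics.MatrixQM
open scoped ContDiff InnerProductSpace ENNReal Real

noncomputable section

namespace Crest.Agent.R330.L2TG383

open Crest.Agent.R330.Defs478 Crest.Agent.R330.LS839 Crest.Agent.R330.Frame839
  Crest.Agent.R330.Clus839
  Crest.Agent.R330.Bind6839 Crest.Agent.R330.SlG944 Crest.Agent.R330.SlF944
  Crest.Agent.R330.IBP837 Crest.Agent.R330.FreeC122 Crest.Agent.R330.TDef414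
open Crest.Agent.R330.SlB314 (Nor Tan br brx)
open Crest.Agent.R330.SlD314 (tube)
open Crest.Agent.R330.SlA314 (act_inner act_norm act_add act_sub)
open Crest.Agent.R330.TG372 (tauG TG IsBlk isBlk_Psi isBlk_scale tauG_sub)
open Crest.Agent.R330.TCoreG383 (TG_act TG_slice TG_off isCore_TG tauG_ne)
open Crest.Agent.R330.LitA974 (PM_mem_Zt cf_mem_Nor continuous_PM continuous_PY cfT_coord PY_coord
  PM_coord lintegral_nor norm_nor_lt PY_mem)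
open Crest.Agent.R330.LitB974 (gm gm_nonneg gm_zero_pos gm_scale lint_gm reg0 exists_bds nI_ge norm_U)

variable {N p : ℕ} {b : ColorBasis N} {S : Type} [Group S] [Fintype S] {C : Chn b p S}
  {F : Type*} [NormedAddCommGroup F] [InnerProductSpace ℂ F] [FiniteDimensional ℂ F]
  {M : FermionRep N F} {R : GaugeAction b M} {G : GammaNine}

local notation "SU" => Matrix.specialUnitaryGroup (Fin N) ℂ

/-! ## differences -/

theorem isBlk_sub {P : TPack C M R G} {Φ Φ' : Cfg N → F →L[ℂ] F} {ρ : ℝ} (H : IsBlk P Φ ρ)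
    (H' : IsBlk P Φ' ρ) : IsBlk P (fun Y => Φ Y - Φ' Y) ρ where
  smooth := H.smooth.sub H'.smooth
  supp Y hY hn := by rw [H.supp Y hY hn, H'.supp Y hY hn, sub_zero]
  mem Y hY f hf := by
    rw [sub_apply]
    exact Submodule.sub_mem _ (H.mem Y hY f hf) (H'.mem Y hY f hf)
  cov h X X' hX hX' he Y hY f hf := by
    obtain ⟨h1, h2⟩ := H.cov h X X' hX hX' he Y hY f hf
    obtain ⟨-, h3⟩ := H'.cov h X X' hX hX' he Y hY f hf
    refine ⟨h1, ?_⟩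
    rw [sub_apply, sub_apply, map_sub, h2, h3]

theorem isBlk_mono {P : TPack C M R G} {Φ : Cfg N → F →L[ℂ] F} {ρ ρ' : ℝ} (H : IsBlk P Φ ρ)
    (h : ρ ≤ ρ') : IsBlk P Φ ρ' where
  smooth := H.smooth
  supp Y hY hn := H.supp Y hY (h.trans hn)
  mem := H.mem
  cov := H.cov

/-- the extension by choice is linear in the slice function, without any hypothesis -/
theorem ext_sub (R : GaugeAction b M) (c : Cfg N) (r : ℝ) (f f' : Cfg N → F) (x : Cfg N) :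
    ext R c r (fun u => f u - f' u) x = ext R c r f x - ext R c r f' x := by
  unfold SlG944.ext
  split_ifs with h
  · rw [map_sub]
  · rw [sub_zero]

theorem TG_sub (P : TPack C M R G) (σ : Sl C) (g : ℝ) (Φ Φ' : Cfg N → F →L[ℂ] F)
    (χ : Pos p → C.Fx M G) (x : Cfg N) :
    TG P σ g (fun Y => Φ Y - Φ' Y) χ x = TG P σ g Φ χ x - TG P σ g Φ' χ x := by
  unfold TG372.TG
  rw [← ext_sub]
  congr 1
  funext u
  rw [← smul_sub, tauG_sub]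

/-! ## size of `tauG` -/

theorem norm_tauG_sq (P : TPack C M R G) (σ : Sl C) (g : ℝ) {Φ : Cfg N → F →L[ℂ] F} {ρ : ℝ}
    (H : IsBlk P Φ ρ) (χ : Pos p → C.Fx M G) (u : Cfg N)
    (hX : C.BReg (σ.X0 + C.cfT u)) : ‖tauG P σ g Φ χ u‖ ^ 2 =
      nrm P σ g (σ.X0 + C.cfT u) ^ 2 * kap σ.r (‖C.PM u‖ ^ 2) ^ 2 *
      Real.exp (-(g * ⟪P.A (σ.X0 + C.cfT u) (C.PM u), C.PM u⟫_ℝ)) *
      ‖Φ (C.PY u) (χ (σ.X0 + C.cfT u) : F)‖ ^ 2 := by
  unfold TG372.tauG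
  rw [norm_smul, Complex.norm_real, Real.norm_eq_abs, mul_pow, sq_abs,
    norm_U hX (H.mem _ (PY_mem C u) _ (χ (σ.X0 + C.cfT u)).2), mul_pow, mul_pow]
  congr 2
  rw [← Real.exp_nat_mul]
  congr 1
  push_cast
  ring

theorem tauG_zero (P : TPack C M R G) (σ : Sl C) (g : ℝ) (Φ : Cfg N → F →L[ℂ] F)
    {χ : Pos p → C.Fx M G} {u : Cfg N}
    (h : χ (σ.X0 + C.cfT u) = 0) : tauG P σ g Φ χ u = 0 := by
  unfold TG372.tauG
  rw [h, ZeroMemClass.coe_zero, map_zero, map_zero, smul_zero]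

theorem norm_tauG_sq_le (P : TPack C M R G) (σ : Sl C) {a a' j0 j1 g : ℝ} (ha : 0 < a)
    (ha' : 0 < a') (hg : 0 < g)
    (hA : ∀ X, ‖X - σ.X0‖ ≤ σ.r / 4 → ∀ z ∈ C.Zt σ.X0, a * ‖z‖ ^ 2 ≤ ⟪P.A X z, z⟫_ℝ ∧
      ⟪P.A X z, z⟫_ℝ ≤ a' * ‖z‖ ^ 2)
    (hj : ∀ y ∈ Nor b (C.cf σ.X0), ‖y‖ ≤ σ.r / 2 → j0 ≤ σ.j y ∧ σ.j y ≤ j1)
    {Φ : Cfg N → F →L[ℂ] F} {ρ : ℝ} (H : IsBlk P Φ ρ) (χ : Amp M G σ)
    {u : Cfg N} (hu : u ∈ Nor b (C.cf σ.X0)) : ‖tauG P σ g Φ χ.fn u‖ ^ 2 ≤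
      (j1 / ((Real.sqrt g ^ Module.finrank ℝ (C.Zt σ.X0))⁻¹ * gm (C.Zt σ.X0) 0 a')) *
      (Real.exp (-(g * a) * ‖C.PM u‖ ^ 2) * ‖Φ (C.PY u) (χ.fn (σ.X0 + C.cfT u) : F)‖ ^ 2) := by
  have hL : 0 < (Real.sqrt g ^ Module.finrank ℝ (C.Zt σ.X0))⁻¹ * gm (C.Zt σ.X0) 0 a' := by
    have := gm_zero_pos (Z := C.Zt σ.X0) ha'
    have hs : 0 < Real.sqrt g := Real.sqrt_pos.2 hg
    positivity
  have hj1 : 0 ≤ j1 := by
    have h0 := σ.jpos 0 (Nor b (C.cf σ.X0)).zero_mem (by rw [norm_zero]; exact σ.pos)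
    have h1 := (hj 0 (Nor b (C.cf σ.X0)).zero_mem (by rw [norm_zero]; linarith [σ.pos])).2
    linarith
  by_cases h0 : χ.fn (σ.X0 + C.cfT u) = 0
  · rw [tauG_zero P σ g Φ h0, norm_zero, zero_pow two_ne_zero]
    have := gm_zero_pos (Z := C.Zt σ.X0) ha'
    positivity
  · have hts : σ.X0 + C.cfT u ∈ tsupport χ.fn := subset_tsupport _ h0
    have hball := χ.supp hts
    rw [mem_ball_iff_norm, add_sub_cancel_left] at hball
    have hX : ‖σ.X0 + C.cfT u - σ.X0‖ ≤ σ.r / 4 := by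
      rw [add_sub_cancel_left]
      exact hball.le
    have hB := χ.off _ hts
    have hz : C.PM u ∈ C.Zt σ.X0 := PM_mem_Zt C (reg0 σ) hu
    have hcf : C.cf (C.cfT u) ∈ Nor b (C.cf σ.X0) := cf_mem_Nor C (reg0 σ) _
    have hn : ‖C.cf (C.cfT u)‖ ≤ σ.r / 2 := by
      rw [C.cf.norm_map]
      linarith [σ.pos]
    have hI := nI_ge P σ ha ha' hg (hA _ hX)
    have hnrm : nrm P σ g (σ.X0 + C.cfT u) ^ 2 ≤
        j1 / ((Real.sqrt g ^ Module.finrank ℝ (C.Zt σ.X0))⁻¹ * gm (C.Zt σ.X0) 0 a') := by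
      unfold nrm
      have h2 := hj _ hcf hn
      have h3 : 0 < σ.j (C.cf (C.cfT u)) := σ.jpos _ hcf (by linarith [σ.pos])
      rw [add_sub_cancel_left, Real.sq_sqrt (div_nonneg h3.le (hL.le.trans hI))]
      exact div_le_div₀ hj1 h2.2 hL hI
    rw [norm_tauG_sq P σ g H χ.fn u hB]
    have hk : kap σ.r (‖C.PM u‖ ^ 2) ^ 2 ≤ 1 :=
      pow_le_one₀ (kap_nonneg _ _) (kap_le_one _ _)
    have he : Real.exp (-(g * ⟪P.A (σ.X0 + C.cfT u) (C.PM u), C.PM u⟫_ℝ)) ≤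
        Real.exp (-(g * a) * ‖C.PM u‖ ^ 2) := by
      refine Real.exp_le_exp.2 ?_
      have h1 := mul_le_mul_of_nonneg_left (hA _ hX _ hz).1 hg.le
      linarith
    calc _ ≤ (j1 / ((Real.sqrt g ^ Module.finrank ℝ (C.Zt σ.X0))⁻¹ * gm (C.Zt σ.X0) 0 a')) * 1 *
          Real.exp (-(g * a) * ‖C.PM u‖ ^ 2) *
          ‖Φ (C.PY u) (χ.fn (σ.X0 + C.cfT u) : F)‖ ^ 2 := by gcongr
      _ = _ := by ring

/-- the Bochner bound in `lintegral` form -/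
theorem lint_blk {P : TPack C M R G} {Φ : Cfg N → F →L[ℂ] F} {ρ : ℝ} (H : IsBlk P Φ ρ) {B : ℝ}
    (hΦ : ∀ f ∈ C.Fx M G, ∫ Y : C.Blk, ‖Φ Y f‖ ^ 2 ≤ B * ‖f‖ ^ 2) (f : C.Fx M G) :
    ∫⁻ Y : C.Blk, ‖Φ Y (f : F)‖ₑ ^ 2 ≤ ENNReal.ofReal (B * ‖f‖ ^ 2) := by
  have hc : Continuous fun Y : C.Blk => Φ Y (f : F) :=
    (H.smooth.continuous.comp continuous_subtype_val).clm_apply continuous_const
  have hcs : HasCompactSupport fun Y : C.Blk => Φ Y (f : F) := by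
    refine HasCompactSupport.intro (isCompact_closedBall (0 : C.Blk) ρ) fun Y hY => ?_
    have h1 : ρ ≤ ‖(Y : Cfg N)‖ := by
      have : ¬ ‖Y‖ ≤ ρ := fun h => hY (mem_closedBall_zero_iff.2 h)
      exact (not_le.1 this).le
    rw [H.supp Y Y.2 h1]
    rfl
  have hint : Integrable fun Y : C.Blk => ‖Φ Y (f : F)‖ ^ 2 :=
    Continuous.integrable_of_hasCompactSupport (hc.norm.pow 2)
      (hcs.comp_left (g := fun v : F => ‖v‖ ^ 2) (by simp))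
  calc ∫⁻ Y : C.Blk, ‖Φ Y (f : F)‖ₑ ^ 2 = ∫⁻ Y : C.Blk, ENNReal.ofReal (‖Φ Y (f : F)‖ ^ 2) := by
        refine lintegral_congr fun Y => ?_
        rw [← ofReal_norm, ENNReal.ofReal_pow (norm_nonneg _)]
    _ = ENNReal.ofReal (∫ Y : C.Blk, ‖Φ Y (f : F)‖ ^ 2) :=
        (ofReal_integral_eq_lintegral_ofReal hint
          (Eventually.of_forall fun Y => by positivity)).symm
    _ ≤ ENNReal.ofReal (B * ‖f‖ ^ 2) := ENNReal.ofReal_le_ofReal (hΦ f f.2)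

/-- **Mass of `tauG` on the slice**, all `g > 0`. -/
theorem tauG_mass (P : TPack C M R G) (σ : Sl C) (χ : Amp M G σ) :
    ∃ K : ℝ, 0 ≤ K ∧ ∀ g : ℝ, 0 < g → ∀ (Φ : Cfg N → F →L[ℂ] F) (ρ : ℝ), IsBlk P Φ ρ →
      ∀ B : ℝ, 0 ≤ B → (∀ f ∈ C.Fx M G, ∫ Y : C.Blk, ‖Φ Y f‖ ^ 2 ≤ B * ‖f‖ ^ 2) →
      ∫⁻ u : Nor b (C.cf σ.X0), ENNReal.ofReal (‖tauG P σ g Φ χ.fn u‖ ^ 2) ≤
        ENNReal.ofReal (K * B) := by
  obtain ⟨a, a', j0, j1, ha, ha', hj0, hj1, hA, hj⟩ := exists_bds P σ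
  obtain ⟨D, hD⟩ : ∃ D : ℝ, ∀ X, ‖χ.fn X‖ ≤ D :=
    χ.compact.exists_bound_of_continuous χ.smooth.continuous
  have hD0 : 0 ≤ D := (norm_nonneg _).trans (hD 0)
  set V : ℝ≥0∞ := volume (Metric.closedBall (0 : Pos p) (σ.r / 4)) with hV
  have hVt : V ≠ (⊤ : ℝ≥0∞) := measure_closedBall_lt_top.ne
  have hg0 := gm_zero_pos (Z := C.Zt σ.X0) ha'
  have hgn := gm_nonneg (Z := C.Zt σ.X0) 0 a
  refine ⟨(j1 / gm (C.Zt σ.X0) 0 a') * gm (C.Zt σ.X0) 0 a * D ^ 2 * V.toReal, by positivity,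
    fun g hg Φ ρ H B hB0 hΦ => ?_⟩
  have hs : 0 < Real.sqrt g := Real.sqrt_pos.2 hg
  set E := Module.finrank ℝ (C.Zt σ.X0) with hE
  set c : ℝ := j1 / ((Real.sqrt g ^ E)⁻¹ * gm (C.Zt σ.X0) 0 a') with hc
  have hc0 : 0 ≤ c := by positivity
  set f : Cfg N → ℝ≥0∞ := fun u => ENNReal.ofReal c *
    (ENNReal.ofReal (Real.exp (-(g * a) * ‖C.PM u‖ ^ 2)) *
      ENNReal.ofReal (‖Φ (C.PY u) (χ.fn (σ.X0 + C.cfT u) : F)‖ ^ 2)) with hf
  have hfm : Measurable f := by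
    have h1 : Continuous fun u : Cfg N => ‖C.PM u‖ := (continuous_PM C).norm
    have h2 : Continuous fun u : Cfg N => Real.exp (-(g * a) * ‖C.PM u‖ ^ 2) :=
      (continuous_const.mul (h1.pow 2)).rexp
    have h3 : Continuous fun u : Cfg N => (χ.fn (σ.X0 + C.cfT u) : F) :=
      continuous_subtype_val.comp (χ.smooth.continuous.comp
        (continuous_const.add C.cfT.continuous))
    have h4 : Continuous fun u : Cfg N =>
        ‖Φ (C.PY u) (χ.fn (σ.X0 + C.cfT u) : F)‖ ^ 2 :=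
      (((H.smooth.continuous.comp (continuous_PY C)).clm_apply h3).norm).pow 2
    exact ((h2.measurable.ennreal_ofReal).mul (h4.measurable.ennreal_ofReal)).const_mul _
  have h1 : ∫⁻ u : Nor b (C.cf σ.X0), ENNReal.ofReal (‖tauG P σ g Φ χ.fn u‖ ^ 2) ≤
      ∫⁻ u : Nor b (C.cf σ.X0), f u := by
    refine lintegral_mono fun u => ?_
    have h2 := norm_tauG_sq_le P σ ha ha' hg hA hj H χ u.2
    rw [hf]
    simp only
    rw [← ENNReal.ofReal_mul (Real.exp_pos _).le, ← ENNReal.ofReal_mul hc0]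
    exact ENNReal.ofReal_le_ofReal h2
  refine h1.trans ?_
  rw [lintegral_nor C (reg0 σ) hfm]
  have h2 : ∀ X : Pos p, ∫⁻ Y : C.Blk, ∫⁻ z : C.Zt σ.X0, f (C.cf X + Y + z) =
      ENNReal.ofReal c * (ENNReal.ofReal (gm (C.Zt σ.X0) 0 (g * a)) *
        ∫⁻ Y : C.Blk, ‖Φ Y (χ.fn (σ.X0 + X) : F)‖ₑ ^ 2) := by
    intro X
    have h3 : ∀ (Y : C.Blk) (z : C.Zt σ.X0), f (C.cf X + Y + z) = ENNReal.ofReal c *
        (ENNReal.ofReal (‖z‖ ^ (2 * 0) * Real.exp (-(g * a) * ‖z‖ ^ 2)) *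
          ‖Φ Y (χ.fn (σ.X0 + X) : F)‖ₑ ^ 2) := by
      intro Y z
      rw [hf]
      simp only
      rw [cfT_coord C Y.2 z.2.1, PY_coord C Y.2 z.2.1, PM_coord C Y.2 z.2.1,
        ENNReal.ofReal_pow (norm_nonneg (Φ Y (χ.fn (σ.X0 + X) : F))), ofReal_norm,
        Nat.mul_zero, pow_zero, one_mul]
      rfl
    have h4 : ∀ Y : C.Blk, ∫⁻ z : C.Zt σ.X0, f (C.cf X + Y + z) = ENNReal.ofReal c *
        (ENNReal.ofReal (gm (C.Zt σ.X0) 0 (g * a)) *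
          ‖Φ Y (χ.fn (σ.X0 + X) : F)‖ₑ ^ 2) := by
      intro Y
      simp only [h3]
      rw [lintegral_const_mul' _ _ ENNReal.ofReal_ne_top, lintegral_mul_const'',
        lint_gm 0 (mul_pos hg ha)]
      exact (Continuous.measurable (by fun_prop : Continuous fun z : C.Zt σ.X0 =>
        ‖z‖ ^ (2 * 0) * Real.exp (-(g * a) * ‖z‖ ^ 2))).ennreal_ofReal.aemeasurable
    simp only [h4]
    rw [lintegral_const_mul' _ _ ENNReal.ofReal_ne_top,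
      lintegral_const_mul' _ _ ENNReal.ofReal_ne_top]
  simp only [h2]
  have h5 : ∀ X : Pos p, ENNReal.ofReal c * (ENNReal.ofReal (gm (C.Zt σ.X0) 0 (g * a)) *
      ∫⁻ Y : C.Blk, ‖Φ Y (χ.fn (σ.X0 + X) : F)‖ₑ ^ 2) ≤
      (Metric.closedBall (0 : Pos p) (σ.r / 4)).indicator (fun _ => ENNReal.ofReal
        (c * gm (C.Zt σ.X0) 0 (g * a) * (B * D ^ 2))) X := by
    intro X
    by_cases hX : X ∈ Metric.closedBall (0 : Pos p) (σ.r / 4)
    · rw [Set.indicator_of_mem hX]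
      have h6 : ∫⁻ Y : C.Blk, ‖Φ Y (χ.fn (σ.X0 + X) : F)‖ₑ ^ 2 ≤
          ENNReal.ofReal (B * D ^ 2) := by
        refine (lint_blk H hΦ _).trans (ENNReal.ofReal_le_ofReal ?_)
        have := hD (σ.X0 + X)
        gcongr
      rw [mul_assoc c, ENNReal.ofReal_mul hc0, ENNReal.ofReal_mul (gm_nonneg _ _)]
      gcongr
    · rw [Set.indicator_of_notMem hX]
      have h7 : χ.fn (σ.X0 + X) = 0 := by
        by_contra h8
        have h9 := χ.supp (subset_tsupport _ h8)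
        rw [mem_ball_iff_norm, add_sub_cancel_left] at h9
        exact hX (mem_closedBall_zero_iff.2 h9.le)
      rw [h7]
      simp
  refine (lintegral_mono h5).trans ?_
  rw [lintegral_indicator Metric.isClosed_closedBall.measurableSet, setLIntegral_const, ← hV]
  have hA0 : 0 ≤ c * gm (C.Zt σ.X0) 0 (g * a) * (B * D ^ 2) := by
    have := gm_nonneg (Z := C.Zt σ.X0) 0 (g * a)
    positivity
  have hVe : ENNReal.ofReal (c * gm (C.Zt σ.X0) 0 (g * a) * (B * D ^ 2)) * V =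
      ENNReal.ofReal (c * gm (C.Zt σ.X0) 0 (g * a) * (B * D ^ 2) * V.toReal) := by
    rw [ENNReal.ofReal_mul hA0, ENNReal.ofReal_toReal hVt]
  rw [hVe]
  refine ENNReal.ofReal_le_ofReal (le_of_eq ?_)
  rw [gm_scale 0 a hg, hc, ← hE]
  field_simp

/-! ## the `L²` norm of the trial state -/

theorem norm_TG_act (P : TPack C M R G) (σ : Sl C) (g : ℝ) {Φ : Cfg N → F →L[ℂ] F} {ρ : ℝ}
    (H : IsBlk P Φ ρ) (χ : Amp M G σ) (k : SU) (x : Cfg N) :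
    ‖TG P σ g Φ χ.fn (b.act k x)‖ = ‖TG P σ g Φ χ.fn x‖ := by
  rw [TG_act P σ g H χ k x, Cov837.norm_rho]

/-- **(L1)** -/
theorem l2_TG [Nontrivial F] (P : TPack C M R G) (σ : Sl C) (χ : Amp M G σ) :
    ∃ K : ℝ, 0 ≤ K ∧ ∀ g : ℝ, 0 < g → ∀ (Φ : Cfg N → F →L[ℂ] F) (ρ : ℝ), IsBlk P Φ ρ →
      ρ ≤ σ.r / 4 → ∀ B : ℝ, 0 ≤ B →
      (∀ f ∈ C.Fx M G, ∫ Y : C.Blk, ‖Φ Y f‖ ^ 2 ≤ B * ‖f‖ ^ 2) →
      ∫ x, ‖TG P σ g Φ χ.fn x‖ ^ 2 ≤ K * B := by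
  obtain ⟨K, hK, hmass⟩ := tauG_mass P σ χ
  obtain ⟨a, a', j0, j1, ha, ha', hj0, hj1, hA, hj⟩ := exists_bds P σ
  refine ⟨j0⁻¹ * K, by positivity, fun g hg Φ ρ H hρ B hB hΦ => ?_⟩
  have hcore := isCore_TG P σ hg H hρ χ
  have hcont : Continuous (TG P σ g Φ χ.fn) := hcore.1.continuous
  have hmeas : Measurable fun x => ‖TG P σ g Φ χ.fn x‖ₑ ^ 2 :=
    (hcont.enorm.measurable).pow_const 2
  have hinv : ∀ (k : SU) x, ‖TG P σ g Φ χ.fn (b.act k x)‖ₑ ^ 2 = ‖TG P σ g Φ χ.fn x‖ₑ ^ 2 := by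
    intro k x
    rw [← ofReal_norm, ← ofReal_norm, norm_TG_act P σ g H χ]
  have h1 : ∫⁻ x, ‖TG P σ g Φ χ.fn x‖ₑ ^ 2 =
      ∫⁻ x in tube b (C.cf σ.X0) σ.r, ‖TG P σ g Φ χ.fn x‖ₑ ^ 2 := by
    rw [← lintegral_indicator (SlD314.isOpen_tube b _ _).measurableSet]
    refine lintegral_congr fun x => ?_
    by_cases hx : x ∈ tube b (C.cf σ.X0) σ.r
    · rw [Set.indicator_of_mem hx]
    · rw [Set.indicator_of_notMem hx, TG_off P σ g Φ χ.fn hx]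
      simp
  have h2 : ∫⁻ x, ‖TG P σ g Φ χ.fn x‖ₑ ^ 2 ≤ ENNReal.ofReal (j0⁻¹ * K * B) := by
    rw [h1, σ.int _ hmeas hinv]
    calc ∫⁻ y in Metric.ball (0 : Nor b (C.cf σ.X0)) σ.r,
          ENNReal.ofReal (σ.j y) * ‖TG P σ g Φ χ.fn (C.cf σ.X0 + y)‖ₑ ^ 2
        ≤ ∫⁻ y in Metric.ball (0 : Nor b (C.cf σ.X0)) σ.r,
          ENNReal.ofReal j0⁻¹ * ENNReal.ofReal (‖tauG P σ g Φ χ.fn y‖ ^ 2) := by
          refine setLIntegral_mono' Metric.isOpen_ball.measurableSet fun y hy => ?_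
          have hy' : ‖(y : Cfg N)‖ < σ.r := by simpa using hy
          rw [TG_slice P σ g H χ y.2 hy', ← ofReal_norm,
            ← ENNReal.ofReal_pow (norm_nonneg _), ← ENNReal.ofReal_mul (σ.jpos y y.2 hy').le,
            ← ENNReal.ofReal_mul (by positivity)]
          refine ENNReal.ofReal_le_ofReal ?_
          have hjp := σ.jpos y y.2 hy'
          rw [norm_smul, Complex.norm_real, Real.norm_eq_abs, abs_of_pos (inv_pos.2 hjp), mul_pow]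
          have e : σ.j y * ((σ.j y)⁻¹ ^ 2 * ‖tauG P σ g Φ χ.fn y‖ ^ 2) =
              (σ.j y)⁻¹ * ‖tauG P σ g Φ χ.fn y‖ ^ 2 := by
            field_simp
          rw [e]
          by_cases h0 : tauG P σ g Φ χ.fn y = 0
          · rw [h0]
            simp
          · obtain ⟨-, h3, h4, h5⟩ := tauG_ne P σ g H χ h0
            have h6 := norm_nor_lt C y σ.r h3.le (h4.le.trans hρ) h5.le
            have h7 := (hj y y.2 h6).1
            gcongr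
      _ ≤ ∫⁻ y : Nor b (C.cf σ.X0),
          ENNReal.ofReal j0⁻¹ * ENNReal.ofReal (‖tauG P σ g Φ χ.fn y‖ ^ 2) :=
          setLIntegral_le_lintegral _ _
      _ = ENNReal.ofReal j0⁻¹ * ∫⁻ y : Nor b (C.cf σ.X0),
          ENNReal.ofReal (‖tauG P σ g Φ χ.fn y‖ ^ 2) :=
          lintegral_const_mul' _ _ ENNReal.ofReal_ne_top
      _ ≤ ENNReal.ofReal j0⁻¹ * ENNReal.ofReal (K * B) := by
          gcongr
          exact hmass g hg Φ ρ H B hB hΦ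
      _ = ENNReal.ofReal (j0⁻¹ * K * B) := by
          rw [← ENNReal.ofReal_mul (by positivity), mul_assoc]
  have h3 : ∫ x, ‖TG P σ g Φ χ.fn x‖ ^ 2 =
      (∫⁻ x, ‖TG P σ g Φ χ.fn x‖ₑ ^ 2).toReal := by
    rw [integral_eq_lintegral_of_nonneg_ae (f := fun x => ‖TG P σ g Φ χ.fn x‖ ^ 2)
      (Eventually.of_forall fun x => sq_nonneg _) (hcont.norm.pow 2).aestronglyMeasurable]
    congr 1
    refine lintegral_congr fun x => ?_
    rw [ENNReal.ofReal_pow (norm_nonneg _), ofReal_norm]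
  rw [h3]
  refine (ENNReal.toReal_mono ENNReal.ofReal_ne_top h2).trans (le_of_eq ?_)
  rw [ENNReal.toReal_ofReal (by positivity)]

end Crest.Agent.R330.L2TG383

end
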