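import Crest.Agent.R330.HChart_815
import Crest.Agent.R330.TCore_383
import Crest.Agent.R330.OrthCh_815

/-!
# Row 330, (L4) (helper815): chart independence

* `rr P σ σ' X` : the ratio `((j_c I_c) / (j_c' I_c'))^{1/2}` of two charts at the position `X`.
* `Cross P` : the pairing limit of two charts for one amplitude, with the weight `rr`.
* `rr_one` : `rr = 1` on the common part of two charts. `hchart` : `Cross P ⇒ HChart P`.
-/

set_option autoImplicit false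
set_option linter.unusedSectionVars false

open MeasureTheory Filter Topology Crest.MathPhysics.MatrixQM
open scoped ContDiff InnerProductSpace ENNReal ComplexConjugate

noncomputable section

namespace Crest.Agent.R330.Rho815

open Crest.Agent.R330.Defs478 Crest.Agent.R330.TDef414 Crest.Agent.R330.TCore383
  Crest.Agent.R330.HChart815

variable {N p : ℕ} {b : ColorBasis N} {S : Type} [Group S] [Fintype S] {C : Chn b p S}
  {F : Type*} [NormedAddCommGroup F] [InnerProductSpace ℂ F] [FiniteDimensional ℂ F]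
  {M : FermionRep N F} {R : GaugeAction b M} {G : GammaNine}

/-- The ratio of two charts. -/
def rr (P : TPack C M R G) (σ σ' : Sl C) (X : Pos p) : ℝ :=
  Real.sqrt (σ.j (C.cf (X - σ.X0)) * nI P σ 1 X / (σ'.j (C.cf (X - σ'.X0)) * nI P σ' 1 X))

/-- The pairing limit of two charts for one amplitude. -/
def Cross (P : TPack C M R G) : Prop :=
  ∀ (σ σ' : Sl C) (χ : Amp M G σ) (χ' : Amp M G σ'), χ.fn = χ'.fn →
    Tendsto (fun g => ∫ x, ⟪Tgen P σ g χ.fn x, Tgen P σ' g χ'.fn x⟫_ℂ) atTop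
      (𝓝 (∫ X, (rr P σ σ' X : ℂ) * ⟪(χ.fn X : F), (χ.fn X : F)⟫_ℂ))

/-- Core vectors. -/
def HCoreP (P : TPack C M R G) : Prop :=
  ∀ (σ : Sl C) (χ : Amp M G σ), ∀ᶠ g in atTop, IsCoreVec b R (Tgen P σ g χ.fn)

variable (P : TPack C M R G)

/-- `j_c I_c`. -/
def aj (σ : Sl C) (X : Pos p) : ℝ := σ.j (C.cf (X - σ.X0)) * nI P σ 1 X

theorem aj_pos (σ : Sl C) {X : Pos p} (hr : ‖X - σ.X0‖ < σ.r) : 0 < aj P σ X := by
  obtain ⟨h1, h2⟩ := cf_ball σ hr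
  exact mul_pos (σ.jpos _ h1 h2) (nI_pos P σ one_pos hr)

theorem aj_cont (σ : Sl C) {X : Pos p} (hr : ‖X - σ.X0‖ < σ.r) : ContinuousAt (aj P σ) X := by
  obtain ⟨h1, h2⟩ := cf_ball σ hr
  have h3 : ContDiffAt ℝ ∞ (fun X : Pos p => C.cf (X - σ.X0)) X :=
    C.cf.toContinuousLinearMap.contDiff.contDiffAt.comp X (contDiffAt_id.sub contDiffAt_const)
  have h4 : ContDiffAt ℝ ∞ (fun X : Pos p => σ.j (C.cf (X - σ.X0))) X :=
    (σ.smooth _ h1 h2).comp X h3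
  exact (h4.mul (contDiffAt_nI P σ one_pos hr)).continuousAt

theorem rr_eq (σ σ' : Sl C) (X : Pos p) : rr P σ σ' X = Real.sqrt (aj P σ X / aj P σ' X) := rfl

theorem rr_inv (σ σ' : Sl C) (X : Pos p) : rr P σ' σ X = (rr P σ σ' X)⁻¹ := by
  rw [rr_eq, rr_eq, ← Real.sqrt_inv, inv_div]

theorem rr_self (σ : Sl C) {X : Pos p} (hr : ‖X - σ.X0‖ < σ.r) : rr P σ σ X = 1 := by
  rw [rr_eq, div_self (aj_pos P σ hr).ne', Real.sqrt_one]

/-- The common part of two charts. -/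
def UC (σ σ' : Sl C) : Set (Pos p) :=
  {X | C.BReg X} ∩ (Metric.ball σ.X0 (σ.r / 4) ∩ Metric.ball σ'.X0 (σ'.r / 4))

theorem isOpen_UC (σ σ' : Sl C) : IsOpen (UC σ σ') :=
  (Chn.isOpen_breg (C := C)).inter (Metric.isOpen_ball.inter Metric.isOpen_ball)

theorem mem_UC {σ σ' : Sl C} {χ : Amp M G σ} {χ' : Amp M G σ'} (h : χ.fn = χ'.fn) {X : Pos p}
    (hX : X ∈ tsupport χ.fn) : X ∈ UC σ σ' :=
  ⟨χ.off X hX, χ.supp hX, χ'.supp (by rwa [← h])⟩

theorem lt_left {σ σ' : Sl C} {X : Pos p} (hX : X ∈ UC σ σ') : ‖X - σ.X0‖ < σ.r := by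
  have h := hX.2.1
  rw [Metric.mem_ball, dist_eq_norm] at h
  linarith [σ.pos]

theorem lt_right {σ σ' : Sl C} {X : Pos p} (hX : X ∈ UC σ σ') : ‖X - σ'.X0‖ < σ'.r := by
  have h := hX.2.2
  rw [Metric.mem_ball, dist_eq_norm] at h
  linarith [σ'.pos]

theorem rr_contOn (σ σ' : Sl C) : ContinuousOn (rr P σ σ') (UC σ σ') := by
  intro X hX
  refine ContinuousAt.continuousWithinAt ?_
  exact ((aj_cont P σ (lt_left hX)).div (aj_cont P σ' (lt_right hX))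
    (aj_pos P σ' (lt_right hX)).ne').sqrt

theorem rr_pos {σ σ' : Sl C} {X : Pos p} (hX : X ∈ UC σ σ') : 0 < rr P σ σ' X :=
  Real.sqrt_pos.2 (div_pos (aj_pos P σ (lt_left hX)) (aj_pos P σ' (lt_right hX)))

theorem tsupport_ampB (f0 : C.Fx M G) (β : Pos p → ℝ) :
    tsupport (fun X => ((β X : ℝ) : ℂ) • f0) ⊆ tsupport β := by
  refine closure_mono fun x hx => ?_
  intro h0
  apply hx
  show ((β x : ℝ) : ℂ) • f0 = 0
  rw [h0, Complex.ofReal_zero, zero_smul]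

/-- The amplitude `β • f0`. -/
def ampB (f0 : C.Fx M G) {β : Pos p → ℝ} (hβ : ContDiff ℝ ∞ β) (σ : Sl C)
    (h1 : tsupport β ⊆ Metric.ball σ.X0 (σ.r / 4)) (h2 : tsupport β ⊆ {X | C.BReg X}) :
    Amp M G σ where
  fn X := ((β X : ℝ) : ℂ) • f0
  smooth := (Complex.ofRealCLM.contDiff.comp hβ).smul contDiff_const
  supp := (tsupport_ampB f0 β).trans h1
  off _ hX := h2 (tsupport_ampB f0 β hX)

theorem inner_ampB {f0 : C.Fx M G} (hf0 : ‖f0‖ = 1) (t : ℝ) :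
    ⟪(((t : ℂ) • f0 : C.Fx M G) : F), (((t : ℂ) • f0 : C.Fx M G) : F)⟫_ℂ = ((t ^ 2 : ℝ) : ℂ) := by
  rw [inner_self_eq_norm_sq_to_K]
  have h1 : ‖(((t : ℂ) • f0 : C.Fx M G) : F)‖ = |t| := by
    rw [← Submodule.coe_norm, norm_smul, hf0, mul_one, Complex.norm_real, Real.norm_eq_abs]
  rw [h1]
  have h2 : ((|t| : ℝ) : ℂ) ^ 2 = ((t ^ 2 : ℝ) : ℂ) := by
    rw [← Complex.ofReal_pow, sq_abs]
  exact h2

/-- **`rr = 1` on the common part of two charts.** -/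
theorem rr_one (hC : Cross P) {f0 : C.Fx M G} (hf0 : ‖f0‖ = 1) (σ σ' : Sl C) :
    ∀ X ∈ UC σ σ', rr P σ σ' X = 1 := by
  refine ratio_one (μ := volume) (isOpen_UC σ σ') (rr_contOn P σ σ')
    (fun X hX => rr_pos P hX) fun β hβ hβc hβU _ => ?_
  have s1 : tsupport β ⊆ {X | C.BReg X} := hβU.trans Set.inter_subset_left
  have s2 : tsupport β ⊆ Metric.ball σ.X0 (σ.r / 4) := fun X hX => (hβU hX).2.1
  have s3 : tsupport β ⊆ Metric.ball σ'.X0 (σ'.r / 4) := fun X hX => (hβU hX).2.2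
  set χ : Amp M G σ := ampB f0 hβ σ s2 s1 with hχ
  set χ' : Amp M G σ' := ampB f0 hβ σ' s3 s1 with hχ'
  have l1 := hC σ σ' χ χ' rfl
  have l2 := hC σ' σ χ' χ rfl
  have e : ∀ (r : Pos p → ℝ), (∫ X, (r X : ℂ) * ⟪(χ.fn X : F), (χ.fn X : F)⟫_ℂ) =
      ((∫ X, β X ^ 2 * r X : ℝ) : ℂ) := by
    intro r
    rw [← integral_complex_ofReal]
    refine integral_congr_ae (Eventually.of_forall fun X => ?_)
    change (r X : ℂ) * ⟪(((β X : ℂ) • f0 : C.Fx M G) : F), (((β X : ℂ) • f0 : C.Fx M G) : F)⟫_ℂ =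
      ((β X ^ 2 * r X : ℝ) : ℂ)
    rw [inner_ampB hf0]
    push_cast
    ring
  have e' : (∫ X, (rr P σ' σ X : ℂ) * ⟪(χ'.fn X : F), (χ'.fn X : F)⟫_ℂ) =
      ((∫ X, β X ^ 2 * (rr P σ σ' X)⁻¹ : ℝ) : ℂ) := by
    have h1 : (fun X => (rr P σ' σ X : ℂ) * ⟪(χ'.fn X : F), (χ'.fn X : F)⟫_ℂ) =
        fun X => (((rr P σ σ' X)⁻¹ : ℝ) : ℂ) * ⟪(χ.fn X : F), (χ.fn X : F)⟫_ℂ := by
      funext X
      rw [rr_inv]
      rfl
    rw [h1]
    exact e _
  rw [e] at l1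
  rw [e'] at l2
  have l3 : Tendsto (fun g => ∫ x, ⟪Tgen P σ g χ.fn x, Tgen P σ' g χ'.fn x⟫_ℂ) atTop
      (𝓝 (conj ((∫ X, β X ^ 2 * (rr P σ σ' X)⁻¹ : ℝ) : ℂ))) := by
    refine ((Complex.continuous_conj.tendsto _).comp l2).congr fun g => ?_
    change conj (∫ x, ⟪Tgen P σ' g χ'.fn x, Tgen P σ g χ.fn x⟫_ℂ) = _
    rw [← integral_conj]
    refine integral_congr_ae (Eventually.of_forall fun x => ?_)
    exact inner_conj_symm _ _
  have h2 := tendsto_nhds_unique l1 l3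
  rw [Complex.conj_ofReal] at h2
  exact Complex.ofReal_injective h2

/-- The weighted limit of a common amplitude is the limit without weight. -/
theorem weight_one (hC : Cross P) {σ σ' : Sl C} {χ : Amp M G σ} {χ' : Amp M G σ'}
    (h : χ.fn = χ'.fn) : (∫ X, (rr P σ σ' X : ℂ) * ⟪(χ.fn X : F), (χ.fn X : F)⟫_ℂ) =
      ∫ X, ⟪(χ.fn X : F), (χ.fn X : F)⟫_ℂ := by
  refine integral_congr_ae (Eventually.of_forall fun X => ?_)
  show (rr P σ σ' X : ℂ) * ⟪(χ.fn X : F), (χ.fn X : F)⟫_ℂ = ⟪(χ.fn X : F), (χ.fn X : F)⟫_ℂ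
  by_cases h0 : χ.fn X = 0
  · rw [h0, Submodule.coe_zero, inner_zero_left, mul_zero]
  · have hX : X ∈ tsupport χ.fn := subset_tsupport _ h0
    have hn : ‖((‖χ.fn X‖⁻¹ : ℝ) : ℂ) • χ.fn X‖ = 1 := by
      rw [norm_smul, Complex.norm_real, norm_inv, norm_norm,
        inv_mul_cancel₀ (norm_ne_zero_iff.2 h0)]
    rw [rr_one P hC hn σ σ' X (mem_UC h hX), Complex.ofReal_one, one_mul]

/-- **The pairing limit of two charts for one amplitude.** -/
theorem cross_limit (hC : Cross P) {σ σ' : Sl C} {χ : Amp M G σ} {χ' : Amp M G σ'}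
    (h : χ.fn = χ'.fn) :
    Tendsto (fun g => ∫ x, ⟪Tgen P σ g χ.fn x, Tgen P σ' g χ'.fn x⟫_ℂ) atTop
      (𝓝 (∫ X, ⟪(χ.fn X : F), (χ.fn X : F)⟫_ℂ)) := by
  rw [← weight_one P hC h]
  exact hC σ σ' χ χ' h

/-- **Chart independence** (167's `HChart`). -/
theorem hchart (hcore : HCoreP P) (hC : Cross P) (σ σ' : Sl C) (χ : Amp M G σ) (χ' : Amp M G σ')
    (h : χ.fn = χ'.fn) :
    Tendsto (fun g => ∫ x, ‖Tgen P σ g χ.fn x - Tgen P σ' g χ'.fn x‖ ^ 2) atTop (𝓝 0) := by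
  have l3 := cross_limit P hC (χ := χ') (χ' := χ') rfl
  rw [← h] at l3
  refine diff_of_gram ?_ ?_ (cross_limit P hC (χ := χ) (χ' := χ) rfl) (cross_limit P hC h) ?_
  · filter_upwards [hcore σ χ] with g hg
    exact OrthCh815.memLp_core hg
  · filter_upwards [hcore σ' χ'] with g hg
    exact OrthCh815.memLp_core hg
  · rw [← h]
    exact l3

end Crest.Agent.R330.Rho815

end
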