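import Crest.Agent.R330.Gram5_372
import Crest.Agent.R330.Gram3_893
import Crest.Agent.R330.L2TG_383
import Crest.Agent.R330.IsoX_383
import Crest.Agent.R330.Fub_406
import Crest.Agent.R330.Rho_815

/-!
# Row 330, S8-ISO (helper372): `Cross P`

The pairing limit of two charts for one amplitude: gram_TG (fixed profile), the fibre integral
(406), the limit of the profile (383), the passage to the limit (893) with `Psi_scale`.
-/

set_option autoImplicit false
set_option linter.unusedSectionVars false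

open MeasureTheory Filter Topology Crest.MathPhysics.MatrixQM
open scoped ContDiff InnerProductSpace ENNReal Real

noncomputable section

namespace Crest.Agent.R330.Gram6372

open Crest.Agent.R330.Defs478 Crest.Agent.R330.LS839 Crest.Agent.R330.Frame839
  Crest.Agent.R330.Clus839
  Crest.Agent.R330.Bind6839 Crest.Agent.R330.SlG944 Crest.Agent.R330.SlF944
  Crest.Agent.R330.TDef414 Crest.Agent.R330.TG372 Crest.Agent.R330.TGC372
  Crest.Agent.R330.Gram4372 Crest.Agent.R330.Gram5372 Crest.Agent.R330.LitA974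
  Crest.Agent.R330.L2TG383
open Crest.Agent.R330.TCore383 (aT cfT_act PK_act PY_act PM_act act_cf contDiff_PY
  contDiffAt_pos contDiffAt_aT aT_act cfT_ball norm_le_sum nI_eq nI_pos contDiffAt_nI nrm_pos
  contDiffAt_nrm dt_pos cf_ball nrm_sq)
open Crest.Agent.R330.SlB314 (Nor Tan br brx)
open Crest.Agent.R330.SlD314 (tube)
open Crest.Agent.R330.Rho815 (UC isOpen_UC mem_UC lt_left lt_right rr_contOn Cross)

variable {N p : ℕ} {b : ColorBasis N} {S : Type} [Group S] [Fintype S] {C : Chn b p S}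

variable {F : Type*} [NormedAddCommGroup F] [InnerProductSpace ℂ F] [FiniteDimensional ℂ F]
  {M : FermionRep N F} {R : GaugeAction b M} {G : GammaNine}

/-- the scalar identity -/
theorem weight_eq (P : TPack C M R G) {σ σ' : Sl C} {X : Pos p} (hX : X ∈ UC σ σ') :
    nrm P σ 1 X * ((σ'.j (C.cf (X - σ'.X0)))⁻¹ * nrm P σ' 1 X) =
      (nI P σ 1 X)⁻¹ * Rho815.rr P σ σ' X := by
  obtain ⟨h1, h2⟩ := cf_ball σ (lt_left hX)
  obtain ⟨h3, h4⟩ := cf_ball σ' (lt_right hX)
  have j1 := σ.jpos _ h1 h2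
  have j2 := σ'.jpos _ h3 h4
  have i1 := nI_pos P σ one_pos (lt_left hX)
  have i2 := nI_pos P σ' one_pos (lt_right hX)
  have n1 := nrm_pos P σ one_pos (lt_left hX)
  have n2 := nrm_pos P σ' one_pos (lt_right hX)
  have r1 := Rho815.rr_pos P hX
  have s1 := nrm_sq P σ one_pos (lt_left hX)
  have s2 := nrm_sq P σ' one_pos (lt_right hX)
  have s3 : Rho815.rr P σ σ' X ^ 2 = σ.j (C.cf (X - σ.X0)) * nI P σ 1 X /
      (σ'.j (C.cf (X - σ'.X0)) * nI P σ' 1 X) := by
    unfold Rho815.rr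
    exact Real.sq_sqrt (by positivity)
  refine (sq_eq_sq₀ (by positivity) (by positivity)).1 ?_
  rw [mul_pow, mul_pow, mul_pow, s1, s2, s3]
  field_simp

/-- the integrand over positions and blocks -/
def hh (P : TPack C M R G) (σ σ' : Sl C) (Ψ : Cfg N → F →L[ℂ] F) (χ : Pos p → C.Fx M G)
    (X : Pos p) (Y : Cfg N) : ℂ :=
  (Rho815.rr P σ σ' X : ℂ) * ⟪Ψ Y (χ X : F), Ψ Y (χ X : F)⟫_ℂ

theorem hh_integrable (P : TPack C M R G) {σ σ' : Sl C} {χ : Amp M G σ} {χ' : Amp M G σ'}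
    (h : χ.fn = χ'.fn) {Ψ : Cfg N → F →L[ℂ] F} {ρ : ℝ} (H : IsBlk P Ψ ρ) :
    Integrable fun q : Pos p × C.Blk => hh P σ σ' Ψ χ.fn (σ.X0 + q.1) q.2 := by
  have hc : Continuous fun q : Pos p × C.Blk => hh P σ σ' Ψ χ.fn (σ.X0 + q.1) q.2 := by
    rw [continuous_iff_continuousAt]
    intro q
    have ht : Continuous fun q : Pos p × C.Blk => σ.X0 + q.1 := continuous_const.add continuous_fst
    by_cases hq : σ.X0 + q.1 ∈ tsupport χ.fn
    · have h1 : ContinuousAt (Rho815.rr P σ σ') (σ.X0 + q.1) :=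
        (rr_contOn P σ σ').continuousAt ((isOpen_UC σ σ').mem_nhds (mem_UC h hq))
      have h2 : ContinuousAt (fun q : Pos p × C.Blk => Rho815.rr P σ σ' (σ.X0 + q.1)) q :=
        ContinuousAt.comp (f := fun q : Pos p × C.Blk => σ.X0 + q.1) h1 ht.continuousAt
      have h3 : Continuous fun q : Pos p × C.Blk =>
          Ψ (q.2 : Cfg N) ((χ.fn (σ.X0 + q.1) : C.Fx M G) : F) :=
        (H.smooth.continuous.comp (continuous_subtype_val.comp continuous_snd)).clm_apply
          (continuous_subtype_val.comp (χ.smooth.continuous.comp ht))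
      exact (Complex.continuous_ofReal.continuousAt.comp h2).mul (h3.inner h3).continuousAt
    · have h1 : ∀ᶠ q' in 𝓝 q, σ.X0 + q'.1 ∉ tsupport χ.fn :=
        ht.continuousAt.eventually ((isClosed_tsupport χ.fn).isOpen_compl.mem_nhds hq)
      refine continuousAt_const.congr (f := fun _ => (0 : ℂ)) ?_
      filter_upwards [h1] with q' hq'
      unfold hh
      rw [image_eq_zero_of_notMem_tsupport hq']
      simp
  refine hc.integrable_of_hasCompactSupport (HasCompactSupport.intro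
    ((isCompact_closedBall (0 : Pos p) (σ.r / 4)).prod (isCompact_closedBall (0 : C.Blk) ρ))
    fun q hq => ?_)
  unfold hh
  rw [Set.mem_prod, not_and_or, mem_closedBall_zero_iff, mem_closedBall_zero_iff] at hq
  rcases hq with hq | hq
  · have h1 : χ.fn (σ.X0 + q.1) = 0 := by
      by_contra h2
      have h3 := supp_ball χ (subset_tsupport _ h2)
      rw [add_sub_cancel_left] at h3
      exact hq h3.le
    rw [h1]
    simp
  · have h1 : Ψ (q.2 : Cfg N) = 0 := H.supp _ q.2.2 (not_le.1 hq).le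
    rw [h1]
    simp

/-- the limit of the pairing with a fixed profile, as an integral over positions -/
theorem Lim_int (P : TPack C M R G) {σ σ' : Sl C} {χ : Amp M G σ} {χ' : Amp M G σ'}
    (h : χ.fn = χ'.fn) {Ψ : Cfg N → F →L[ℂ] F} {ρ : ℝ} (H : IsBlk P Ψ ρ) :
    ∫ v : Nor b (C.cf σ.X0), Lim P σ σ' Ψ χ.fn χ'.fn v =
      ∫ X, (Rho815.rr P σ σ' X : ℂ) * ∫ Y : C.Blk, ⟪Ψ Y (χ.fn X : F), Ψ Y (χ.fn X : F)⟫_ℂ := by
  have h1 := Fub406.slice_norm P σ one_pos (h := fun X Y => hh P σ σ' Ψ χ.fn (σ.X0 + X) Y)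
    (hh_integrable P h H) (fun X Y hX => by
      unfold hh
      have h2 : χ.fn (σ.X0 + X) = 0 := by
        by_contra h2
        have h3 := supp_ball χ (subset_tsupport _ h2)
        rw [add_sub_cancel_left] at h3
        have := σ.pos
        linarith
      rw [h2]
      simp)
  have h2 : ∫ v : Nor b (C.cf σ.X0), Lim P σ σ' Ψ χ.fn χ'.fn v =
      ∫ v : Nor b (C.cf σ.X0), Fub406.nK P σ 1 (C.cfT v) (C.PM v) •
        hh P σ σ' Ψ χ.fn (σ.X0 + C.cfT v) (C.PY v) := by
    refine integral_congr_ae (Eventually.of_forall fun v => ?_)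
    simp only
    unfold Lim hh Fub406.nK
    rw [← h]
    by_cases h0 : χ.fn (σ.X0 + C.cfT (v : Cfg N)) = 0
    · rw [h0]
      simp
    · have hX : σ.X0 + C.cfT (v : Cfg N) ∈ UC σ σ' := mem_UC h (subset_tsupport _ h0)
      rw [weight_eq P hX, Complex.real_smul, ← mul_assoc, one_mul]
      congr 1
      push_cast
      ring
  have h3 : ∀ X : Pos p, ∫ Y : C.Blk, hh P σ σ' Ψ χ.fn X Y =
      (Rho815.rr P σ σ' X : ℂ) * ∫ Y : C.Blk, ⟪Ψ Y (χ.fn X : F), Ψ Y (χ.fn X : F)⟫_ℂ := by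
    intro X
    unfold hh
    rw [integral_const_mul]
  rw [h2, h1]
  simp only [h3]
  exact integral_add_left_eq_self (fun X : Pos p => (Rho815.rr P σ σ' X : ℂ) *
    ∫ Y : C.Blk, ⟪Ψ Y (χ.fn X : F), Ψ Y (χ.fn X : F)⟫_ℂ) σ.X0

/-- the fixed profile family is close -/
theorem close [Nontrivial F] (P : TPack C M R G) (σ : Sl C) (χ : Amp M G σ) {ε : ℝ} (hε : 0 < ε) :
    ∀ᶠ k in atTop, ∀ᶠ g in atTop,
      ∫ x, ‖Tgen P σ g χ.fn x - TG P σ g (Psc P k g) χ.fn x‖ ^ 2 ≤ ε := by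
  obtain ⟨K, hK, hl2⟩ := l2_TG P σ χ
  have hε' : 0 < ε / (K + 1) := by positivity
  filter_upwards [P.Psi_scale _ hε', isBlk_Psi P, eventually_gt_atTop 0] with k h1 h2 hk0
  have hs : ∀ᶠ g in atTop, P.s g < σ.r / 4 :=
    P.s_lim.eventually_lt_const (by have := σ.pos; linarith)
  have hr : ∀ᶠ g in atTop, P.s k / ((g / k) ^ ((1 : ℝ) / 3)) < σ.r / 4 :=
    (tendsto_radius hk0 (P.s k)).eventually_lt_const (by have := σ.pos; linarith)
  filter_upwards [h1, isBlk_Psi P, eventually_gt_atTop 0, hs, hr] with g h3 h4 hg h5 h6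
  have hI := isBlk_sub (isBlk_mono h4 (le_max_left (P.s g) (P.s k / ((g / k) ^ ((1 : ℝ) / 3)))))
    (isBlk_mono (isBlk_Psc hk0 hg h2) (le_max_right (P.s g) (P.s k / ((g / k) ^ ((1 : ℝ) / 3)))))
  have h7 := hl2 g hg _ _ hI (max_le h5.le h6.le) _ hε'.le (fun f hf => h3 f hf)
  have h8 : ∀ x, Tgen P σ g χ.fn x - TG P σ g (Psc P k g) χ.fn x =
      TG P σ g (fun Y => P.Psi g Y - Psc P k g Y) χ.fn x := fun x =>
    (TG_sub P σ g (P.Psi g) (Psc P k g) χ.fn x).symm
  simp only [h8]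
  refine h7.trans ?_
  rw [mul_div_assoc', div_le_iff₀ (by positivity)]
  nlinarith

theorem memLp_TG [Nontrivial F] (P : TPack C M R G) (σ : Sl C) (χ : Amp M G σ) :
    ∀ᶠ k in atTop, ∀ᶠ g in atTop, MemLp (TG P σ g (Psc P k g) χ.fn) 2 volume := by
  filter_upwards [isBlk_Psi P, eventually_gt_atTop 0] with k hk hk0
  have hr : ∀ᶠ g in atTop, P.s k / ((g / k) ^ ((1 : ℝ) / 3)) < σ.r / 4 :=
    (tendsto_radius hk0 (P.s k)).eventually_lt_const (by have := σ.pos; linarith)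
  filter_upwards [eventually_gt_atTop 0, hr] with g hg h6
  exact OrthCh815.memLp_core (coreG P σ hg (isBlk_Psc hk0 hg hk) h6.le χ)

theorem bdd_TG [Nontrivial F] (P : TPack C M R G) (σ : Sl C) (χ : Amp M G σ) :
    ∀ᶠ k in atTop, ∃ B : ℝ, ∀ᶠ g in atTop, ∫ x, ‖TG P σ g (Psc P k g) χ.fn x‖ ^ 2 ≤ B := by
  filter_upwards [isBlk_Psi P, eventually_gt_atTop 0] with k hk hk0
  have h1 := gram_TG P σ σ χ χ (fun X hX => (supp_ball χ hX).le) hk0 hk
    (fun s t hs ht => Fub406.det_dilN C (reg0 σ) hs ht (hcc σ.X0))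
  refine ⟨‖∫ v : Nor b (C.cf σ.X0), Lim P σ σ (P.Psi k) χ.fn χ.fn v‖ + 1, ?_⟩
  filter_upwards [h1.norm.eventually_lt_const (lt_add_one _)] with g hg
  have h2 : ∫ x, ⟪TG P σ g (Psc P k g) χ.fn x, TG P σ g (Psc P k g) χ.fn x⟫_ℂ =
      ((∫ x, ‖TG P σ g (Psc P k g) χ.fn x‖ ^ 2 : ℝ) : ℂ) := by
    rw [← integral_complex_ofReal]
    refine integral_congr_ae (Eventually.of_forall fun x => ?_)
    simp only
    rw [inner_self_eq_norm_sq_to_K]
    push_cast
    rfl
  rw [h2, Complex.norm_real, Real.norm_eq_abs] at hg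
  exact (le_abs_self _).trans hg.le

/-- **the pairing limit of two charts** -/
theorem cross [Nontrivial F] (P : TPack C M R G) : Cross P := by
  intro σ σ' χ χ' h
  have hs' : ∀ X ∈ tsupport χ.fn, ‖X - σ'.X0‖ ≤ σ'.r / 4 := fun X hX =>
    (supp_ball χ' (by rwa [← h])).le
  refine Gram893.tendsto_pairing (μ := volume) (l := atTop) (l' := atTop)
    (x := fun g => Tgen P σ g χ.fn) (x' := fun g => Tgen P σ' g χ'.fn)
    (y := fun k g => TG P σ g (Psc P k g) χ.fn) (y' := fun k g => TG P σ' g (Psc P k g) χ'.fn)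
    ?_ ?_ (memLp_TG P σ χ) (memLp_TG P σ' χ') (fun ε hε => close P σ χ hε)
    (fun ε hε => close P σ' χ' hε) (bdd_TG P σ χ) (bdd_TG P σ' χ')
    (L := fun k => ∫ X, (Rho815.rr P σ σ' X : ℂ) *
      ∫ Y : C.Blk, ⟪P.Psi k Y (χ.fn X : F), P.Psi k Y (χ.fn X : F)⟫_ℂ) ?_ ?_
  · filter_upwards [TCore383.core P σ χ] with g hg
    exact OrthCh815.memLp_core hg
  · filter_upwards [TCore383.core P σ' χ'] with g hg
    exact OrthCh815.memLp_core hg
  · filter_upwards [isBlk_Psi P, eventually_gt_atTop 0] with k hk hk0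
    have h1 := gram_TG P σ σ' χ χ' hs' hk0 hk
      (fun s t hs ht => Fub406.det_dilN C (reg0 σ) hs ht (hcc σ.X0))
    rw [Lim_int P h hk] at h1
    exact h1
  · exact IsoX383.iso_int P χ.smooth.continuous χ.smooth.continuous χ.compact
      ((rr_contOn P σ σ').mono fun X hX => mem_UC h hX)

end Crest.Agent.R330.Gram6372
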