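import Crest.Agent.R330.Rho_815
import Crest.Agent.R330.AmpLoc_815
import Crest.Agent.R330.Perm2_167

/-!
# Row 330, T3 (helper815): `HIso` from `Cross` by polarisation

* `int_polar` : the polarisation identity for integrals of inner products.
* `hiso` : `∫ ⟪Tgen σ χ, Tgen σ χ'⟫ → ∫ ⟪χ, χ'⟫` from the limits for equal amplitudes.
-/

set_option autoImplicit false
set_option linter.unusedSectionVars false

open MeasureTheory Filter Topology Crest.MathPhysics.MatrixQM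
open scoped ContDiff InnerProductSpace ENNReal ComplexConjugate

noncomputable section

namespace Crest.Agent.R330.Iso8815

open Crest.Agent.R330.Defs478 Crest.Agent.R330.TDef414 Crest.Agent.R330.TCore383
  Crest.Agent.R330.HChart815 Crest.Agent.R330.Rho815 Crest.Agent.R330.AmpLoc815

section abs

variable {E : Type*} [MeasurableSpace E] {μ : Measure E} {F : Type*} [NormedAddCommGroup F]
  [InnerProductSpace ℂ F]

theorem inner_polar (u v : F) : ⟪u, v⟫_ℂ = (1 / 2 : ℂ) *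
    ((⟪u + v, u + v⟫_ℂ - ⟪u, u⟫_ℂ - ⟪v, v⟫_ℂ) -
      Complex.I * (⟪u + Complex.I • v, u + Complex.I • v⟫_ℂ - ⟪u, u⟫_ℂ - ⟪v, v⟫_ℂ)) := by
  simp only [inner_add_left, inner_add_right, inner_smul_left, inner_smul_right,
    Complex.conj_I]
  have hI : Complex.I * Complex.I = -1 := Complex.I_mul_I
  linear_combination (1 / 2 * ⟪u, v⟫_ℂ - 1 / 2 * ⟪v, u⟫_ℂ
    - 1 / 2 * Complex.I * ⟪v, v⟫_ℂ) * hI

theorem int_polar {f f' : E → F} (h : MemLp f 2 μ) (h' : MemLp f' 2 μ) :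
    ∫ x, ⟪f x, f' x⟫_ℂ ∂μ = (1 / 2 : ℂ) *
      ((∫ x, ⟪f x + f' x, f x + f' x⟫_ℂ ∂μ - ∫ x, ⟪f x, f x⟫_ℂ ∂μ - ∫ x, ⟪f' x, f' x⟫_ℂ ∂μ) -
        Complex.I * (∫ x, ⟪f x + Complex.I • f' x, f x + Complex.I • f' x⟫_ℂ ∂μ -
          ∫ x, ⟪f x, f x⟫_ℂ ∂μ - ∫ x, ⟪f' x, f' x⟫_ℂ ∂μ)) := by
  have i1 := int_inner (h.add h') (h.add h')
  have i2 := int_inner h h
  have i3 := int_inner h' h'
  have i4 := int_inner (h.add (h'.const_smul Complex.I)) (h.add (h'.const_smul Complex.I))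
  have i1' : Integrable (fun x => ⟪f x + f' x, f x + f' x⟫_ℂ) μ := i1
  have i4' : Integrable (fun x => ⟪f x + Complex.I • f' x, f x + Complex.I • f' x⟫_ℂ) μ := i4
  have j1 : Integrable (fun x => ⟪f x + f' x, f x + f' x⟫_ℂ - ⟪f x, f x⟫_ℂ) μ := i1'.sub i2
  have j2 : Integrable (fun x => ⟪f x + f' x, f x + f' x⟫_ℂ - ⟪f x, f x⟫_ℂ - ⟪f' x, f' x⟫_ℂ) μ :=
    j1.sub i3
  have j3 : Integrable (fun x => ⟪f x + Complex.I • f' x, f x + Complex.I • f' x⟫_ℂ -
      ⟪f x, f x⟫_ℂ) μ := i4'.sub i2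
  have j4 : Integrable (fun x => ⟪f x + Complex.I • f' x, f x + Complex.I • f' x⟫_ℂ -
      ⟪f x, f x⟫_ℂ - ⟪f' x, f' x⟫_ℂ) μ := j3.sub i3
  rw [← integral_sub i1' i2, ← integral_sub j1 i3, ← integral_sub i4' i2, ← integral_sub j3 i3,
    ← integral_const_mul, ← integral_sub j2 (j4.const_mul _), ← integral_const_mul]
  exact integral_congr_ae (Eventually.of_forall fun x => inner_polar (f x) (f' x))

end abs

variable {N p : ℕ} {b : ColorBasis N} {S : Type} [Group S] [Fintype S] {C : Chn b p S}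
  {F : Type*} [NormedAddCommGroup F] [InnerProductSpace ℂ F] [FiniteDimensional ℂ F]
  {M : FermionRep N F} {R : GaugeAction b M} {G : GammaNine}

/-- Multiples of an amplitude. -/
def smulA {σ : Sl C} (a : ℂ) (χ : Amp M G σ) : Amp M G σ where
  fn X := a • χ.fn X
  smooth := χ.smooth.const_smul a
  supp := (closure_mono fun x hx => by
    intro h0
    apply hx
    show a • χ.fn x = 0
    rw [h0, smul_zero]).trans χ.supp
  off X hX := χ.off X ((closure_mono fun x hx => by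
    intro h0
    apply hx
    show a • χ.fn x = 0
    rw [h0, smul_zero]) hX)

theorem memLp_amp {σ : Sl C} (χ : Amp M G σ) : MemLp (fun X => (χ.fn X : F)) 2 volume := by
  have h1 : Continuous (fun X => (χ.fn X : F)) := continuous_subtype_val.comp χ.smooth.continuous
  refine h1.memLp_of_hasCompactSupport ?_
  exact χ.compact.comp_left (g := fun f : C.Fx M G => (f : F)) rfl

/-- **(T3)** `HIso` from `Cross`. -/
theorem hiso (P : TPack C M R G) (hcore : HCoreP P) (hC : Cross P) (σ : Sl C)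
    (χ χ' : Amp M G σ) :
    Tendsto (fun g => ∫ x, ⟪Tgen P σ g χ.fn x, Tgen P σ g χ'.fn x⟫_ℂ) atTop
      (𝓝 (∫ X, ⟪(χ.fn X : F), (χ'.fn X : F)⟫_ℂ)) := by
  rw [int_polar (memLp_amp χ) (memLp_amp χ')]
  have l1 := cross_limit P hC (χ := χ) (χ' := χ) rfl
  have l2 := cross_limit P hC (χ := χ') (χ' := χ') rfl
  have l3 := cross_limit P hC (χ := addA χ χ') (χ' := addA χ χ') rfl
  have l4 := cross_limit P hC (χ := addA χ (smulA Complex.I χ'))
    (χ' := addA χ (smulA Complex.I χ')) rfl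
  have key := (((l3.sub l1).sub l2).sub ((((l4.sub l1).sub l2)).const_mul Complex.I)).const_mul
    (1 / 2 : ℂ)
  refine key.congr' ?_
  filter_upwards [hcore σ χ, hcore σ χ'] with g hg hg'
  have e1 : ∀ x, Tgen P σ g (addA χ χ').fn x = Tgen P σ g χ.fn x + Tgen P σ g χ'.fn x :=
    fun x => Perm167.Tgen_add P σ g χ.fn χ'.fn x
  have e2 : ∀ x, Tgen P σ g (addA χ (smulA Complex.I χ')).fn x =
      Tgen P σ g χ.fn x + Complex.I • Tgen P σ g χ'.fn x := by
    intro x
    have h1 := Perm167.Tgen_add P σ g χ.fn (smulA Complex.I χ').fn x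
    have h2 := Perm167.Tgen_smul P σ g Complex.I χ'.fn x
    rw [← h2]
    exact h1
  rw [int_polar (OrthCh815.memLp_core hg) (OrthCh815.memLp_core hg')]
  simp only [e1, e2]

end Crest.Agent.R330.Iso8815

end
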