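import Crest.Agent.R330.Gram_167
import Crest.Agent.R330.TCore_383
import Crest.Agent.R330.LitC_974
import Crest.Agent.R330.Rho_815
import Crest.Agent.R330.Iso8_815

/-!
# Row 330, S8-PERM (helper167): the Gram matrix from 372's `Cross`

`gramT_of_cross : Cross P → GramT P` : everything else in (T3), (T4) is filled in.
-/

set_option autoImplicit false

open MeasureTheory Filter Topology Crest.MathPhysics.MatrixQM
open scoped ContDiff InnerProductSpace ENNReal

noncomputable section

namespace Crest.Agent.R330.GramX167

open Crest.Agent.R330.TDef414 Crest.Agent.R330.Gram167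

variable {N p : ℕ} {b : ColorBasis N} {S : Type} [Group S] [Fintype S] {C : Chn b p S}
variable {F : Type} [NormedAddCommGroup F] [InnerProductSpace ℂ F] [FiniteDimensional ℂ F]
  [Nontrivial F]
variable {M : FermionRep N F} {R : GaugeAction b M} {G : GammaNine}

theorem hcore (P : TPack C M R G) : HCore P := fun σ χ => TCore383.core P σ χ

theorem hconc (P : TPack C M R G) : HConc P := fun σ χ => LitC974.conc P σ χ

theorem hiso (P : TPack C M R G) (hC : Rho815.Cross P) : HIso P := fun σ χ χ' =>
  Iso8815.hiso P (hcore P) hC σ χ χ'

theorem hchart (P : TPack C M R G) (hC : Rho815.Cross P) : HChart P := fun σ σ' χ χ' h =>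
  Rho815.hchart P (hcore P) hC σ σ' χ χ' h

/-- **(T3) + (T4)** from `Cross`. -/
theorem gramT_of_cross (P : TPack C M R G) (hC : Rho815.Cross P) : ChSys399.GramT P :=
  gramT (hcore P) (hiso P hC) (hchart P hC) (hconc P)

end Crest.Agent.R330.GramX167

end
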