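import Crest.Agent.R330.E4L_776
import Crest.Agent.R330.AFld_984

/-!
# Row 330, S8-PAIR, e4 in the names of `TDef_414` (helper776)

`e4_half_T` : for a chart centre `X0` and a point `X` (both regular), any submodule `Z` equal to
`C.Zt X0`, any weight `Φ ‖z‖ ⟪A z, z⟫` with `⟪A z, z⟫ = QX b C.kk (C.cf X) z` (e.g. `A = Afld C X`,
or `P.A X` through 288's identification): the even half of `Wq z z f` has mean zero.
-/

set_option autoImplicit false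
set_option linter.unusedSectionVars false

open MeasureTheory Filter Topology Crest.MathPhysics.MatrixQM
open scoped ContDiff InnerProductSpace ENNReal

noncomputable section

namespace Crest.Agent.R330.E4T776

open Crest.Agent.R330.IBP837 Crest.Agent.R330.Defs478 Crest.Agent.R330.Frame839
  Crest.Agent.R330.LS839 Crest.Agent.R330.Clus839 Crest.Agent.R330.Bind6839
  Crest.Agent.R330.GBind984 Crest.Agent.R330.E4L776 Crest.Agent.R330.TDef414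
  Crest.Agent.R330.AFld984

variable {N p : ℕ} {b : ColorBasis N} {S : Type} [Group S] [Fintype S] {C : Chn b p S}
  {F : Type*} [NormedAddCommGroup F] [InnerProductSpace ℂ F] [FiniteDimensional ℂ F]

theorem reg_kc {X : Pos p} (h : C.Reg X) : kc (actB b) (C.cf X) = C.kk := h

/-- **(e4) for the charts of `TDef_414`.** -/
theorem e4_mean_T {X0 X : Pos p} (h0 : C.Reg X0) (hX : C.Reg X) {Z : Submodule ℝ (Cfg N)}
    (hZ : Z = C.Zt X0) {A : Cfg N →L[ℝ] Cfg N}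
    (hA : ∀ z ∈ Z, ⟪A z, z⟫_ℝ = QX b C.kk (C.cf X) z)
    (Φ : ℝ → ℝ → ℝ) (μ : Measure Z) [μ.IsAddHaarMeasure]
    (hm : AEStronglyMeasurable (fun z : Z => Φ ‖z‖ ⟪A z, z⟫_ℝ) μ)
    (hi : Integrable (fun z : Z => Φ ‖z‖ ⟪A z, z⟫_ℝ * ‖z‖ ^ 2) μ)
    (M : FermionRep N F) (G : GammaNine) (α : Fin 16) (f : F) :
    ∫ z : Z, Φ ‖z‖ ⟪A z, z⟫_ℝ • vco M (wk b G (C.cf X0) α z) f ∂μ = 0 := by
  rw [Zt_eq C h0] at hZ
  subst hZ
  have hA' : ∀ z : Zs b (C.cf X0), ⟪A z, z⟫_ℝ = QX b (kc (actB b) (C.cf X0)) (C.cf X) z := by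
    intro z
    rw [hA z z.2, reg_kc h0]
  simp only [hA'] at hm hi ⊢
  exact e4_mean (comc_cf C X0) (comc_cf C X) ((reg_kc hX).trans (reg_kc h0).symm) Φ μ hm hi M G α f

/-- **(e4) for the charts of `TDef_414`, even half.** -/
theorem e4_half_T {X0 X : Pos p} (h0 : C.Reg X0) (hX : C.Reg X) {Z : Submodule ℝ (Cfg N)}
    (hZ : Z = C.Zt X0) {A : Cfg N →L[ℝ] Cfg N}
    (hA : ∀ z ∈ Z, ⟪A z, z⟫_ℝ = QX b C.kk (C.cf X) z)
    (Φ : ℝ → ℝ → ℝ) (μ : Measure Z) [μ.IsAddHaarMeasure]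
    (hm : AEStronglyMeasurable (fun z : Z => Φ ‖z‖ ⟪A z, z⟫_ℝ) μ)
    (hi : Integrable (fun z : Z => Φ ‖z‖ ⟪A z, z⟫_ℝ * ‖z‖ ^ 2) μ)
    {M : FermionRep N F} {Γ : F →ₗ[ℂ] F}
    (h1 : ∀ L ∈ Od M C.kk, ∀ f, Γ (L f) = L (Γ f))
    (h2 : ∀ L ∈ Od M C.kkᗮ, ∀ f, Γ (L f) = - L (Γ f)) (G : GammaNine) (α : Fin 16)
    {f : F} (hf : Γ f = f) :
    ∫ z : Z, Φ ‖z‖ ⟪A z, z⟫_ℝ •
      ((1 / 2 : ℂ) • (vco M (fun β A => wb b G α β A z z) f +
        Γ (vco M (fun β A => wb b G α β A z z) f))) ∂μ = 0 := by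
  rw [← reg_kc h0] at h1 h2
  have e : ∀ z : Z, (1 / 2 : ℂ) • (vco M (fun β A => wb b G α β A z z) f +
        Γ (vco M (fun β A => wb b G α β A z z) f)) = vco M (wk b G (C.cf X0) α z) f := fun z =>
    half_Wq h1 h2 G α z hf
  simp only [e]
  exact e4_mean_T h0 hX hZ hA Φ μ hm hi M G α f

/-- The hypothesis on the quadratic form for `Afld`. -/
theorem inner_Afld' {X : Pos p} (hX : C.Reg X) (z : Cfg N) :
    ⟪Afld C X z, z⟫_ℝ = QX b C.kk (C.cf X) z := inner_Afld C hX z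

end Crest.Agent.R330.E4T776

end
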