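import Crest.Agent.R330.PairI_658

/-!
# Row 330, S8-T5: the light function of a trial state (helper658)

`om P σ.X0 g χ.fn q = U_X (Psi_g(Y) (χ X))`, `X = σ.X0 + cfT q`, `Y = PY q`.

* `contDiff_om`, `contDiff_omL` : smoothness on `Cfg N` and on `L = R⁹ ⊗ kk`.
* `om_supp`, `om_far`  : supports: `om` and its derivative vanish for `‖q‖ > r / 3` (`g` large).
* `par_Fl`, `par_om`   : a parity of `kkᗮ` which is `1` on the heavy vacua at `X0` is `1` on `Fl`, on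
  all heavy vacua and on `om`.
-/

set_option autoImplicit false
set_option linter.unusedSectionVars false

open MeasureTheory Filter Topology Crest.MathPhysics.MatrixQM
open scoped ContDiff InnerProductSpace ENNReal

noncomputable section

namespace Crest.Agent.R330.PairI658

open Crest.Agent.R330.Defs478 Crest.Agent.R330.LS839 Crest.Agent.R330.Frame839
  Crest.Agent.R330.Clus839 Crest.Agent.R330.Bind6839 Crest.Agent.R330.TDef414
  Crest.Agent.R330.SlG944 Crest.Agent.R330.IBP837 Crest.Agent.R330.PairA547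
  Crest.Agent.R330.PairB547 Crest.Agent.R330.PairE547 Crest.Agent.R330.PairL_862
  Crest.Agent.R330.BrT5658 Crest.Agent.R330.BrT5b658 Crest.Agent.R330.BrT5c658
open LightC916 (rhoE rhoS fderiv_om)

variable {N p : ℕ} {b : ColorBasis N} {S : Type} [Group S] [Fintype S] {C : Chn b p S}
  {F : Type*} [NormedAddCommGroup F] [InnerProductSpace ℂ F] [FiniteDimensional ℂ F]
  {M : FermionRep N F} {R : GaugeAction b M} {G : GammaNine}

/-! ## Smoothness and supports -/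

theorem contDiff_om (P : TPack C M R G) (σ : Sl C) {g : ℝ} (hΨ : ContDiff ℝ ∞ (P.Psi g))
    (χ : Amp M G σ) : ContDiff ℝ ∞ (LightC916.om P σ.X0 g χ.fn) := by
  rw [contDiff_iff_contDiffAt]
  exact fun y => TCore383.contDiffAt_wT P σ hΨ χ y

theorem contDiff_omL (P : TPack C M R G) (σ : Sl C) {g : ℝ} (hΨ : ContDiff ℝ ∞ (P.Psi g))
    (χ : Amp M G σ) (L : Submodule ℝ (Cfg N)) :
    ContDiff ℝ ∞ fun q : L => LightC916.om P σ.X0 g χ.fn (q : Cfg N) :=
  (contDiff_om P σ hΨ χ).comp L.subtypeL.contDiff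

theorem om_supp (P : TPack C M R G) (σ : Sl C) (g : ℝ) (χ : Amp M G σ) {q : Cfg N}
    (h : LightC916.om P σ.X0 g χ.fn q ≠ 0) :
    σ.X0 + C.cfT q ∈ tsupport χ.fn ∧ ‖C.cfT q‖ < σ.r / 4 ∧ ‖C.PY q‖ < P.s g := by
  have h1 : χ.fn (σ.X0 + C.cfT q) ≠ 0 := fun h0 => h (om_zero P σ.X0 g h0)
  have h2 := subset_tsupport _ h1
  refine ⟨h2, ?_, ?_⟩
  · have h3 := χ.supp h2
    rw [Metric.mem_ball, dist_eq_norm, add_sub_cancel_left] at h3
    exact h3
  · by_contra h3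
    apply h
    unfold LightC916.om
    rw [P.Psi_supp g _ (LitA974.PY_mem C q) (not_lt.1 h3)]
    simp

theorem norm_light (q : Cfg N) (hq : q ∈ Tup C.kk) : ‖q‖ ≤ ‖C.cfT q‖ + ‖C.PY q‖ := by
  have h1 : q = C.cf (C.cfT q) + C.PY q := by
    unfold Chn.PY
    rw [PK_of_mem hq]
    abel
  calc ‖q‖ = ‖C.cf (C.cfT q) + C.PY q‖ := by rw [← h1]
    _ ≤ ‖C.cf (C.cfT q)‖ + ‖C.PY q‖ := norm_add_le _ _
    _ = _ := by rw [C.cf.norm_map]

theorem om_near (P : TPack C M R G) (σ : Sl C) {g : ℝ} (hs : P.s g < σ.r / 12) (χ : Amp M G σ)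
    {L : Submodule ℝ (Cfg N)} (hL : L = Tup C.kk) {q : L}
    (h : LightC916.om P σ.X0 g χ.fn (q : Cfg N) ≠ 0) : ‖q‖ < σ.r / 3 := by
  obtain ⟨-, h2, h3⟩ := om_supp P σ g χ h
  have h4 : ((q : L) : Cfg N) ∈ Tup C.kk := by
    have : ∀ y, y ∈ L → y ∈ Tup C.kk := fun y hy => by rwa [hL] at hy
    exact this _ q.2
  have h5 := norm_light _ h4
  have h6 : ‖q‖ = ‖(q : Cfg N)‖ := rfl
  rw [h6]
  linarith

/-- outside the ball of radius `r / 3` the light function and its derivative vanish -/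
theorem om_far (P : TPack C M R G) (σ : Sl C) {g : ℝ} (hs : P.s g < σ.r / 12) (χ : Amp M G σ)
    {L : Submodule ℝ (Cfg N)} (hL : L = Tup C.kk) {q : L} (h : σ.r / 3 < ‖q‖) :
    LightC916.om P σ.X0 g χ.fn (q : Cfg N) = 0 ∧
      fderiv ℝ (fun q : L => LightC916.om P σ.X0 g χ.fn (q : Cfg N)) q = 0 := by
  have h1 : ∀ q : L, σ.r / 3 < ‖q‖ → LightC916.om P σ.X0 g χ.fn (q : Cfg N) = 0 := by
    intro q hq
    by_contra hne
    exact absurd (om_near P σ hs χ hL hne) (not_lt.2 hq.le)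
  refine ⟨h1 q h, ?_⟩
  have h2 : (fun q : L => LightC916.om P σ.X0 g χ.fn (q : Cfg N)) =ᶠ[𝓝 q] fun _ => 0 := by
    filter_upwards [(isOpen_lt continuous_const continuous_norm).mem_nhds h] with y hy
    exact h1 y hy
  rw [h2.fderiv_eq]
  simp

theorem hcs_om (P : TPack C M R G) (σ : Sl C) {g : ℝ} (hs : P.s g < σ.r / 12) (χ : Amp M G σ)
    {L : Submodule ℝ (Cfg N)} (hL : L = Tup C.kk) :
    HasCompactSupport fun q : L => LightC916.om P σ.X0 g χ.fn (q : Cfg N) := by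
  refine HasCompactSupport.intro (isCompact_closedBall (0 : L) (σ.r / 3)) fun q hq => ?_
  rw [mem_closedBall_zero_iff, not_le] at hq
  exact (om_far P σ hs χ hL hq).1

/-- all the conditions on `g` hold eventually -/
theorem eventually_s (P : TPack C M R G) (σ : Sl C) : ∀ᶠ g in atTop, P.s g < σ.r / 12 :=
  P.s_lim.eventually (isOpen_Iio.mem_nhds (by
    have := σ.pos
    simp only [Set.mem_Iio]
    linarith))

/-! ## The parity -/

theorem par_thv {X0 : Pos p} (h0 : C.Reg X0) {Γ : F →ₗ[ℂ] F}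
    (h : PairL_862.Par b M (C.cf X0) Γ) (β : Fin 16) {u : Colg N} (hu : u ∈ C.kkᗮ) (f : F) :
    Γ (thv M β u f) = -thv M β u (Γ f) := by
  refine h.odd _ (thv_mem M β ?_) f
  rw [show kc (actB b) (C.cf X0) = C.kk from h0]
  exact hu

theorem par_thv' {X0 : Pos p} (h0 : C.Reg X0) {Γ : F →ₗ[ℂ] F}
    (h : PairL_862.Par b M (C.cf X0) Γ) (β : Fin 16) {u : Colg N} (hu : u ∈ C.kk) (f : F) :
    Γ (thv M β u f) = thv M β u (Γ f) := by
  refine h.even _ (thv_mem M β ?_) f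
  rw [show kc (actB b) (C.cf X0) = C.kk from h0]
  exact hu

theorem par_gan {X0 : Pos p} (h0 : C.Reg X0) {Γ : F →ₗ[ℂ] F}
    (h : PairL_862.Par b M (C.cf X0) Γ) (α : Fin 16) {u : Colg N} (hu : u ∈ C.kkᗮ) (f : F) :
    gan M G α u (Γ f) = -Γ (gan M G α u f) := by
  unfold gan
  simp only [LinearMap.sub_apply, LinearMap.smul_apply, LinearMap.sum_apply, map_sub, map_smul,
    map_sum, par_thv h0 h _ hu, smul_neg, Finset.sum_neg_distrib]
  abel

theorem par_mem_Fl {X0 : Pos p} (h0 : C.Reg X0) {Γ : F →ₗ[ℂ] F}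
    (h : PairL_862.Par b M (C.cf X0) Γ) {f : F} (hf : f ∈ C.Fl M G) : Γ f ∈ C.Fl M G := by
  intro α u hu
  rw [par_gan h0 h α hu, hf α u hu, map_zero, neg_zero]

theorem par_U (P : TPack C M R G) {X0 : Pos p} (h0 : C.Reg X0) {Γ : F →ₗ[ℂ] F}
    (h : PairL_862.Par b M (C.cf X0) Γ) {X : Pos p} (hX : C.BReg X) {f : F}
    (hf : f ∈ C.Fl M G) : Γ (P.U X f) = P.U X (Γ f) :=
  P.U_par X hX Γ (fun β _ hu f => par_thv h0 h β hu f) (fun β _ hu f => par_thv' h0 h β hu f) f hf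

/-- the parity is `1` on `Fl` -/
theorem par_Fl (P : TPack C M R G) {X0 : Pos p} (h0 : C.Reg X0) {Γ : F →ₗ[ℂ] F}
    (h : PairL_862.Par b M (C.cf X0) Γ) {X1 : Pos p} (hX1 : C.BReg X1)
    (hv : ∀ f ∈ C.Fl M G, Γ (P.U X1 f) = P.U X1 f) {f : F} (hf : f ∈ C.Fl M G) : Γ f = f := by
  have h1 := par_U P h0 h hX1 hf
  rw [hv f hf] at h1
  have h2 : Γ f - f ∈ C.Fl M G := Submodule.sub_mem _ (par_mem_Fl h0 h hf) hf
  have h3 : P.U X1 (Γ f - f) = 0 := by rw [map_sub, ← h1, sub_self]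
  have h4 := P.U_inner X1 hX1 _ h2 _ h2
  rw [h3, inner_zero_left] at h4
  exact sub_eq_zero.1 (inner_self_eq_zero.1 h4.symm)

/-- the parity is `1` on all heavy vacua -/
theorem par_vac (P : TPack C M R G) {X0 : Pos p} (h0 : C.Reg X0) {Γ : F →ₗ[ℂ] F}
    (h : PairL_862.Par b M (C.cf X0) Γ) {X1 : Pos p} (hX1 : C.BReg X1)
    (hv : ∀ f ∈ C.Fl M G, Γ (P.U X1 f) = P.U X1 f) {X : Pos p} (hX : C.BReg X) {f : F}
    (hf : f ∈ C.Fl M G) : Γ (P.U X f) = P.U X f := by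
  rw [par_U P h0 h hX hf, par_Fl P h0 h hX1 hv hf]

/-- **the light function is even** -/
theorem par_om (P : TPack C M R G) (σ : Sl C) {Γ : F →ₗ[ℂ] F}
    (h : PairL_862.Par b M (C.cf σ.X0) Γ) {X1 : Pos p} (hX1 : C.BReg X1)
    (hv : ∀ f ∈ C.Fl M G, Γ (P.U X1 f) = P.U X1 f) (g : ℝ) (χ : Amp M G σ) (q : Cfg N) :
    Γ (LightC916.om P σ.X0 g χ.fn q) = LightC916.om P σ.X0 g χ.fn q := by
  by_cases h1 : LightC916.om P σ.X0 g χ.fn q = 0
  · rw [h1, map_zero]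
  · have h2 := (om_supp P σ g χ h1).1
    exact par_vac P (reg0 σ) h hX1 hv (χ.off _ h2)
      (P.Psi_mem g _ (LitA974.PY_mem C q) _ (χ.fn _).2)

/-- the light function has values in the heavy vacua -/
theorem om_vac (P : TPack C M R G) (X0 : Pos p) (g : ℝ) (χ : Pos p → C.Fx M G) (q : Cfg N) :
    ∃ f ∈ C.Fl M G, LightC916.om P X0 g χ q = P.U (X0 + C.cfT q) f :=
  ⟨_, P.Psi_mem g _ (LitA974.PY_mem C q) _ (χ _).2, rfl⟩

end Crest.Agent.R330.PairI658

end
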