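import Crest.Agent.R330.PairT_714
import Crest.Agent.R330.LemA_342

/-!
# R330/PairU_714 : the parity and the vacua of a chart (helper714)

* `ParT.vac` : the parity is one on the heavy vacua `P.U X f`, `f ∈ Fl`, at every `X ∈ BReg`.
* `parT_of` : a parity of `k^⊥` which is one on the heavy vacua at the centre is a `ParT`.
-/

set_option autoImplicit false
set_option linter.unusedSectionVars false

open MeasureTheory Filter Topology Crest.MathPhysics.MatrixQM
open scoped ContDiff InnerProductSpace ENNReal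

noncomputable section

namespace Crest.Agent.R330.PairU714

open Crest.Agent.R330.Defs478 Crest.Agent.R330.LS839 Crest.Agent.R330.Frame839
  Crest.Agent.R330.Bind6839 Crest.Agent.R330.TDef414 Crest.Agent.R330.PairL_862
  Crest.Agent.R330.PairT714

variable {N p : ℕ} {b : ColorBasis N} {S : Type} [Group S] [Fintype S] {C : Chn b p S}
variable {F : Type*} [NormedAddCommGroup F] [InnerProductSpace ℂ F] [FiniteDimensional ℂ F]
variable {M : FermionRep N F} {R : GaugeAction b M} {G : GammaNine}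

theorem thv_light {σ : Sl C} {Γ : F →ₗ[ℂ] F} (h : Par b M (C.cf σ.X0) Γ) (β : Fin 16)
    {u : Colg N} (hu : u ∈ C.kk) (f : F) : Γ (thv M β u f) = thv M β u (Γ f) := by
  refine h.even _ (thv_mem M β ?_) f
  rw [BrT5658.reg0 σ]
  exact hu

theorem thv_heavy {σ : Sl C} {Γ : F →ₗ[ℂ] F} (h : Par b M (C.cf σ.X0) Γ) (β : Fin 16)
    {u : Colg N} (hu : u ∈ C.kkᗮ) (f : F) : Γ (thv M β u f) = -thv M β u (Γ f) := by
  refine h.odd _ (thv_mem M β ?_) f
  rw [BrT5658.reg0 σ]
  exact hu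

/-- The parity preserves the light Fock space. -/
theorem mem_Fl {σ : Sl C} {Γ : F →ₗ[ℂ] F} (h : Par b M (C.cf σ.X0) Γ) {f : F}
    (hf : f ∈ C.Fl M G) : Γ f ∈ C.Fl M G := by
  intro α u hu
  have h1 := hf α u hu
  have h2 : gan M G α u (Γ f) = -Γ (gan M G α u f) := by
    unfold gan
    simp only [LinearMap.sub_apply, LinearMap.smul_apply, LinearMap.sum_apply, map_sub, map_smul,
      map_sum, thv_heavy h _ hu, smul_neg, Finset.sum_neg_distrib]
    abel
  rw [h2, h1, map_zero, neg_zero]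

/-- The heavy vacua commute with the parity. -/
theorem par_U {σ : Sl C} {Γ : F →ₗ[ℂ] F} (h : Par b M (C.cf σ.X0) Γ) (P : TPack C M R G)
    {X : Pos p} (hX : C.BReg X) {f : F} (hf : f ∈ C.Fl M G) : Γ (P.U X f) = P.U X (Γ f) :=
  P.U_par X hX Γ (fun β _ hu f => thv_heavy h β hu f) (fun β _ hu f => thv_light h β hu f) f hf

/-- The parity is one on the heavy vacua. -/
theorem ParT.vac {σ : Sl C} {Γ : F →ₗ[ℂ] F} (h : ParT M G σ Γ) (P : TPack C M R G)
    {X : Pos p} (hX : C.BReg X) {f : F} (hf : f ∈ C.Fl M G) : Γ (P.U X f) = P.U X f := by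
  rw [par_U h.par P hX hf, h.fix f hf]

/-- The parity is one on the vectors killed by the heavy charges. -/
theorem ParT.vac' {σ : Sl C} {Γ : F →ₗ[ℂ] F} (h : ParT M G σ Γ) (P : TPack C M R G)
    {X : Pos p} (hX : C.BReg X) {f : F} (hf : ∀ z ∈ Tup C.kkᗮ, ∀ α,
      Complex.I • Theta M G α (P.A X z) f + wB b M G 1 α (C.cf X) z f = 0) : Γ f = f := by
  obtain ⟨f', hf', rfl⟩ := P.U_full X hX f hf
  exact ParT.vac h P hX hf'

theorem par_of_isPar {c : Cfg N} {Γ : F →ₗ[ℂ] F} (h : LemA342.IsPar b c M Γ) : Par b M c Γ where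
  even := h.comm
  odd := h.anti
  inv := h.inv
  unit f f' := by rw [h.symm, h.inv]
  symm := h.symm
  norm f := by
    have h1 : ⟪Γ f, Γ f⟫_ℂ = ⟪f, f⟫_ℂ := by rw [h.symm, h.inv]
    rw [inner_self_eq_norm_sq_to_K, inner_self_eq_norm_sq_to_K] at h1
    have h2 : ‖Γ f‖ ^ 2 = ‖f‖ ^ 2 := by exact_mod_cast h1
    exact (sq_eq_sq₀ (norm_nonneg _) (norm_nonneg _)).1 h2

/-- A parity of `k^⊥` equal to one on the heavy vacua at the centre. -/
theorem parT_of (P : TPack C M R G) {σ : Sl C} (hX : C.BReg σ.X0) {Γ : F →ₗ[ℂ] F}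
    (hΓ : Par b M (C.cf σ.X0) Γ) (hv : ∀ f ∈ C.Fl M G, Γ (P.U σ.X0 f) = P.U σ.X0 f) :
    ParT M G σ Γ := by
  refine ⟨hΓ, fun f hf => ?_⟩
  have h1 : P.U σ.X0 (Γ f) = P.U σ.X0 f := by rw [← par_U hΓ P hX hf, hv f hf]
  have hg := mem_Fl hΓ hf
  have h2 := P.U_inner σ.X0 hX _ (Submodule.sub_mem _ hg hf) _ (Submodule.sub_mem _ hg hf)
  rw [map_sub, h1, sub_self, inner_zero_left] at h2
  exact sub_eq_zero.1 (inner_self_eq_zero.1 h2.symm)

end Crest.Agent.R330.PairU714

end
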