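import Crest.Agent.R330.PairD_714
import Crest.Agent.R330.PairL_862
import Crest.Agent.R330.BrT5c_658
import Crest.Agent.R330.TrialSys_796

/-!
# R330/PairT_714 : (T5) for one chart, from its inputs (helper714)

`P : TPack C M R G`, `σ : Sl C`, `c = C.cf σ.X0`, coordinates `(q, z) ∈ L × Z`,
`L = Tup C.kk`, `Z = C.Zt σ.X0` (`= Uk b c × Zs b c`).

* `gsT`, `a0T`, `PT` : normalised Gaussian, amplitude, projection onto the heavy vacua.
* `DualAt P σ` : (T5) for the chart `σ`.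
* `TestAt P σ` : what a core vector gives in the coordinates of the chart (T5-TEST).
* `BridgeAt P σ` : the pairing with the charge in these coordinates.
* `ErrAt P σ m α χ` : the expansion of the adjoint charge on the trial function.
* `dualAt_of` : `DualAt` from these and the fibre moments.
-/

set_option autoImplicit false
set_option linter.unusedSectionVars false

open MeasureTheory Filter Topology Crest.MathPhysics.MatrixQM
open scoped ContDiff InnerProductSpace ENNReal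

noncomputable section

namespace Crest.Agent.R330.PairT714

open Crest.Agent.R330.Defs478
  Crest.Agent.R330.LS839 Crest.Agent.R330.Frame839
  Crest.Agent.R330.Bind6839 Crest.Agent.R330.TDef414 Crest.Agent.R330.PairB547
  Crest.Agent.R330.PairE547 Crest.Agent.R330.PairL_862 Crest.Agent.R330.PairC714
  Crest.Agent.R330.PairD714 Crest.Agent.R330.TrialSys796

variable {N p : ℕ} {b : ColorBasis N} {S : Type} [Group S] [Fintype S] {C : Chn b p S}
variable {F : Type*} [NormedAddCommGroup F] [InnerProductSpace ℂ F] [FiniteDimensional ℂ F]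
variable {M : FermionRep N F} {R : GaugeAction b M} {G : GammaNine}

/-- light slice coordinates of the chart -/
abbrev LL (_σ : Sl C) := ↥(Tup C.kk)

/-- transverse slice coordinates of the chart -/
abbrev ZZ (σ : Sl C) := ↥(C.Zt σ.X0)

section gen

variable {L Z : Submodule ℝ (Cfg N)}

/-- centre component of the slice coordinate `q` -/
def Xq (σ : Sl C) (q : L) : Pos p := σ.X0 + C.cfT q

/-- the normalised Gaussian of the fibre -/
def gsT (P : TPack C M R G) (σ : Sl C) (g : ℝ) (q : L) (z : Z) : ℝ :=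
  Real.exp (-(g / 2 * ⟪P.A (Xq σ q) z, z⟫_ℝ)) / √(nI P σ g (Xq σ q))

end gen

/-- the heavy vacua at `X` -/
def VT (P : TPack C M R G) (X : Pos p) : Submodule ℂ F :=
  (C.Fl M G).map ((P.U X : F →L[ℂ] F) : F →ₗ[ℂ] F)

/-- the projection onto the heavy vacua at `X` -/
def PT (P : TPack C M R G) (X : Pos p) : F →L[ℂ] F := (VT P X).starProjection

theorem PT_symm (P : TPack C M R G) (X : Pos p) (v w : F) :
    ⟪PT P X v, w⟫_ℂ = ⟪v, PT P X w⟫_ℂ :=
  Submodule.starProjection_isSymmetric (VT P X) v w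

/-- the base region of the chart -/
def Sb (σ : Sl C) (L : Submodule ℝ (Cfg N)) : Set L := {q | ‖q‖ ≤ σ.r / 3}

/-- (T5) for one chart. -/
def DualAt (P : TPack C M R G) (σ : Sl C) : Prop :=
  ∀ m : ℝ, m = 0 ∨ m = 1 → ∀ (χ : Amp M G σ) (α : Fin 16), ∀ ε : ℝ, 0 < ε →
    ∀ᶠ g in atTop, ∀ φ : Cfg N → F, IsCoreVec b R φ →
      ‖∫ x, ⟪φ x, dcharge b M G g m α (Tgen P σ g χ.fn) x -
        Tgen P σ g (C.Dx M G m α χ.fn) x⟫_ℂ‖ ≤ ε * Real.sqrt (En b M G g m φ)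

/-- the parities used in the chart -/
structure ParT (M : FermionRep N F) (G : GammaNine) (σ : Sl C) (Γ : F →ₗ[ℂ] F) : Prop where
  par : Par b M (C.cf σ.X0) Γ
  fix : ∀ f ∈ C.Fl M G, Γ f = f

/-- (T5-TEST) core vectors in the coordinates of the chart, spaces `L`, `Z`. -/
def TestG (P : TPack C M R G) (σ : Sl C) (L Z : Submodule ℝ (Cfg N)) : Prop :=
  ∀ Γ : F →ₗ[ℂ] F, ParT M G σ Γ → ∃ K : ℝ, 0 ≤ K ∧ ∀ m : ℝ, m = 0 ∨ m = 1 →
    ∀ᶠ g in atTop, ∀ φ : Cfg N → F, IsCoreVec b R φ → ∃ Φ : L × Z → F,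
      (∀ x : L × Z, ‖x.1‖ ≤ σ.r / 3 → ‖x.2‖ ≤ σ.r / 4 →
        Φ x = φ (C.cf σ.X0 + x.1 + x.2)) ∧
      Adm volume volume (Sb σ L) (gsT P σ g) (fun q => PT P (Xq σ q)) Γ
        (fun q => ‖C.PY q‖) K g Φ (K * En b M G g m φ)

/-- (T5-TEST). -/
def TestAt (P : TPack C M R G) (σ : Sl C) : Prop := TestG P σ (Tup C.kk) (C.Zt σ.X0)

theorem testAt_iff (P : TPack C M R G) (σ : Sl C) :
    TestAt P σ ↔ TestG P σ (Uk b (C.cf σ.X0)) (Zs b (C.cf σ.X0)) := by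
  rw [BrT5658.Uk_eq (BrT5658.reg0 σ), BrT5658.Zs_eq (BrT5658.reg0 σ)]
  rfl

/-- the trial function in the coordinates of the chart -/
def tauT (P : TPack C M R G) (σ : Sl C) (g : ℝ) (χ : Pos p → C.Fx M G) (x : LL σ × ZZ σ) : F :=
  tau P σ g χ ((x.1 : Cfg N) + x.2)

/-- the adjoint slice charge in the coordinates of the chart -/
def QT (M : FermionRep N F) (G : GammaNine) (σ : Sl C) (g m : ℝ) (α : Fin 16)
    (τ : LL σ × ZZ σ → F) (x : LL σ × ZZ σ) : F :=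
  QdP (BrT5658.dec_sl σ) (ThL M G α) (Wp (WqL b M G α) (WlL M G α) g m)
    (BfL b M) (stdOrthonormalBasis ℝ (Tn (actB b) (C.cf σ.X0)))
    (stdOrthonormalBasis ℝ (Tup C.kk)) (stdOrthonormalBasis ℝ (C.Zt σ.X0)) τ x

/-- (658) the bridge. -/
theorem bridgeAt [Nontrivial F] (P : TPack C M R G) (σ : Sl C) (m : ℝ) (χ : Amp M G σ)
    (α : Fin 16) : ∀ᶠ g in atTop, ∀ φ : Cfg N → F, IsCoreVec b R φ →
    ∫ x, ⟪φ x, dcharge b M G g m α (Tgen P σ g χ.fn) x -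
        Tgen P σ g (C.Dx M G m α χ.fn) x⟫_ℂ =
      ∫ x : LL σ × ZZ σ, ⟪φ (C.cf σ.X0 + x.1 + x.2),
        QT M G σ g m α (tauT P σ g χ.fn) x - tauT P σ g (C.Dx M G m α χ.fn) x⟫_ℂ := by
  have h := BrT5c658.bridge_gen P σ χ (χ.D m α) (BrT5658.dec_sl σ)
    (stdOrthonormalBasis ℝ (Tn (actB b) (C.cf σ.X0)))
    (stdOrthonormalBasis ℝ (Tup C.kk)) (stdOrthonormalBasis ℝ (C.Zt σ.X0))
  filter_upwards [h] with g hg φ hφ
  exact hg m α φ hφ

/-- (547, 916, 776, 151) the expansion: error terms of the three classes, amplitude `a`. -/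
def ErrAt (P : TPack C M R G) (σ : Sl C) (a : ℝ → LL σ → ZZ σ → ℝ) (Γ : F →ₗ[ℂ] F) (m : ℝ)
    (α : Fin 16) (χ : Amp M G σ) : Prop :=
  ∃ (s : Sizes (LL σ)) (e1 e2 e3 : ℝ → LL σ × ZZ σ → F),
    (∀ q, s.y q = ‖C.PY q‖) ∧ Moms volume s ∧ s.Supp (Sb σ (Tup C.kk)) ∧
    Cls a s.h1 e1 ∧ Cls a s.h2 e2 ∧ Cls a s.h3 e3 ∧
    (∀ᶠ g in atTop, AEStronglyMeasurable (e1 g) (volume.prod volume) ∧
      AEStronglyMeasurable (e2 g) (volume.prod volume) ∧
      AEStronglyMeasurable (e3 g) (volume.prod volume) ∧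
      (∀ x, Γ (e1 g x) = -e1 g x) ∧
      (∀ q ∈ Sb σ (Tup C.kk), PT P (Xq σ q) (∫ z, gsT P σ g q z • e2 g (q, z)) = 0) ∧
      (∀ x, QT M G σ g m α (tauT P σ g χ.fn) x - tauT P σ g (C.Dx M G m α χ.fn) x =
        e1 g x + e2 g x + e3 g x) ∧
      (∀ x, ¬ (‖x.1‖ ≤ σ.r / 3 ∧ ‖x.2‖ ≤ σ.r / 4) →
        QT M G σ g m α (tauT P σ g χ.fn) x - tauT P σ g (C.Dx M G m α χ.fn) x = 0))

theorem continuous_PY (σ : Sl C) : Continuous fun q : LL σ => ‖C.PY q‖ := by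
  unfold Chn.PY
  have h1 : Continuous fun q : LL σ => (q : Cfg N) := continuous_subtype_val
  exact ((C.PK.continuous.comp h1).sub
    (C.cf.continuous.comp (C.cfT.continuous.comp h1))).norm

/-- **(T5) for one chart.** -/
theorem dualAt_of [Nontrivial F] (P : TPack C M R G) (σ : Sl C) {Γ : F →ₗ[ℂ] F}
    (hΓ : ParT M G σ Γ) (hT : TestAt P σ) {a : ℝ → LL σ → ZZ σ → ℝ}
    (hM : FibMom volume a (Sb σ (Tup C.kk)))
    (hgs : ∀ᶠ g in atTop, ∀ q ∈ Sb σ (Tup C.kk), MemLp (fun z : ZZ σ => gsT P σ g q z) 2 volume)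
    (hE : ∀ m : ℝ, m = 0 ∨ m = 1 → ∀ α (χ : Amp M G σ), ErrAt P σ a Γ m α χ) :
    DualAt P σ := by
  intro m hm χ α ε hε
  obtain ⟨K, hK, hT⟩ := hT Γ hΓ
  obtain ⟨s, e1, e2, e3, hy, hmom, hsupp, c1, c2, c3, hx⟩ := hE m hm α χ
  have hε' : 0 < ε / (√K + 1) := by positivity
  have hy' : (fun q : LL σ => ‖C.PY q‖) = s.y := funext fun q => (hy q).symm
  have key := bloc (μ := (volume : Measure (LL σ))) (ν := (volume : Measure (ZZ σ))) hmom hM
    hsupp c1 c2 c3 (hx.mono fun g h => h.1) (hx.mono fun g h => h.2.1)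
    (hx.mono fun g h => h.2.2.1)
    (by
      rw [← hy']
      exact ((continuous_PY σ).comp continuous_fst).aestronglyMeasurable)
    hgs (P := fun q => PT P (Xq σ q)) (fun q _ => PT_symm P (Xq σ q)) hΓ.par.symm hK
    (hx.mono fun g h => h.2.2.2.1) (hx.mono fun g h => h.2.2.2.2.1) hε'
  filter_upwards [key, hT m hm, bridgeAt P σ m χ α, hx] with g g1 g2 g3 g4 φ hφ
  obtain ⟨-, -, -, -, -, heq, h0⟩ := g4
  obtain ⟨Φ, hΦ, hadm⟩ := g2 φ hφ
  rw [hy'] at hadm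
  have h1 := g1 Φ _ hadm
  rw [g3 φ hφ]
  have h2 : ∀ x : LL σ × ZZ σ, ⟪φ (C.cf σ.X0 + x.1 + x.2),
      QT M G σ g m α (tauT P σ g χ.fn) x - tauT P σ g (C.Dx M G m α χ.fn) x⟫_ℂ =
      ⟪Φ x, e1 g x + e2 g x + e3 g x⟫_ℂ := by
    intro x
    by_cases hx2 : ‖x.1‖ ≤ σ.r / 3 ∧ ‖x.2‖ ≤ σ.r / 4
    · rw [← hΦ x hx2.1 hx2.2, heq x]
    · rw [← heq x, h0 x hx2, inner_zero_right, inner_zero_right]
  simp only [h2]
  refine h1.trans ?_
  rw [Real.sqrt_mul hK]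
  have h3 : √K / (√K + 1) ≤ 1 := by
    rw [div_le_one (by positivity)]
    linarith
  calc ε / (√K + 1) * (√K * √(En b M G g m φ)) =
      ε * √(En b M G g m φ) * (√K / (√K + 1)) := by ring
    _ ≤ ε * √(En b M G g m φ) * 1 := by gcongr
    _ = ε * √(En b M G g m φ) := mul_one _

end Crest.Agent.R330.PairT714

end
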