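import Crest.Agent.R330.T5G_151
import Crest.Agent.R330.PairT_714

/-!
# Row 330, S8-T5: the Gaussian inputs in the names of `PairT_714` (helper151)
-/

set_option autoImplicit false
set_option linter.unusedSectionVars false

open MeasureTheory Filter Topology Crest.MathPhysics.MatrixQM
open scoped ContDiff InnerProductSpace ENNReal

noncomputable section

namespace Crest.Agent.R330.T5G151

open Crest.Agent.R330.Defs478
  Crest.Agent.R330.LS839 Crest.Agent.R330.Frame839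
  Crest.Agent.R330.Bind6839 Crest.Agent.R330.TDef414 Crest.Agent.R330.PairB547
  Crest.Agent.R330.PairE547 Crest.Agent.R330.PairL_862 Crest.Agent.R330.PairC714
  Crest.Agent.R330.PairD714 Crest.Agent.R330.TrialSys796 Crest.Agent.R330.PairT714

variable {N p : ℕ} {b : ColorBasis N} {S : Type} [Group S] [Fintype S] {C : Chn b p S}
variable {F : Type*} [NormedAddCommGroup F] [InnerProductSpace ℂ F] [FiniteDimensional ℂ F]
variable {M : FermionRep N F} {R : GaugeAction b M} {G : GammaNine}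

/-- The amplitude of the trial functions of the chart. -/
def aT5 (P : TPack C M R G) (σ : Sl C) (g : ℝ) (q : LL σ) (z : ZZ σ) : ℝ :=
  aL P σ (Tup C.kk) (C.Zt σ.X0) g (q, z)

theorem gsT_714 (P : TPack C M R G) (σ : Sl C) {L Z : Submodule ℝ (Cfg N)} (g : ℝ) (q : L)
    (z : Z) : PairT714.gsT P σ g q z = T5G151.gsT P σ g (Xq σ q) z := rfl

theorem cfT_Sb (σ : Sl C) {L : Submodule ℝ (Cfg N)} {q : L} (hq : q ∈ Sb σ L) :
    ‖C.cfT (q : Cfg N)‖ ≤ σ.r / 3 := (cfT_le _).trans hq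

theorem Xq_lt (σ : Sl C) {L : Submodule ℝ (Cfg N)} {q : L} (hq : q ∈ Sb σ L) :
    ‖Xq σ q - σ.X0‖ < σ.r := by
  have h1 := cfT_Sb σ hq
  have hr := σ.pos
  unfold Xq
  rw [add_sub_cancel_left]
  linarith

/-- `FibMom` of `dualAt_of`. -/
theorem fibMomT (P : TPack C M R G) (σ : Sl C) :
    FibMom (volume : Measure (ZZ σ)) (aT5 P σ) (Sb σ (Tup C.kk)) :=
  fibMom_of P σ rfl (ρ := σ.r / 3) (by have := σ.pos; linarith) fun _ hq => cfT_Sb σ hq

/-- `hgs` of `dualAt_of`. -/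
theorem memLpT (P : TPack C M R G) (σ : Sl C) :
    ∀ᶠ g in atTop, ∀ q ∈ Sb σ (Tup C.kk),
      MemLp (fun z : ZZ σ => PairT714.gsT P σ g q z) 2 volume := by
  filter_upwards [eventually_gt_atTop 0] with g hg q hq
  exact memLp_gsT P σ hg (Xq_lt σ hq)

theorem sq_gsT (P : TPack C M R G) (σ : Sl C) {g : ℝ} (hg : 0 < g) {q : LL σ}
    (hq : q ∈ Sb σ (Tup C.kk)) : ∫ z : ZZ σ, PairT714.gsT P σ g q z ^ 2 = 1 :=
  integral_gsT_sq P σ hg (Xq_lt σ hq)

/-- `∫ gs a = √j`. -/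
theorem int_gs_aT5 (P : TPack C M R G) (σ : Sl C) {g : ℝ} (hg : 0 < g) {q : LL σ}
    (hq : q ∈ Sb σ (Tup C.kk)) :
    Integrable (fun z : ZZ σ => PairT714.gsT P σ g q z * aT5 P σ g q z) ∧
    ∫ z : ZZ σ, PairT714.gsT P σ g q z * aT5 P σ g q z = Real.sqrt (jX σ (Xq σ q)) :=
  int_gs_aL P σ hg (by have := cfT_Sb σ hq; have := σ.pos; linarith)

/-- `∫ gs ∂_w a = ∂_w √j`. -/
theorem vac_dT5 (P : TPack C M R G) (σ : Sl C) {g : ℝ} (hg : 0 < g) {q : LL σ}
    (hq : q ∈ Sb σ (Tup C.kk)) (w : LL σ) :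
    Integrable (fun z : ZZ σ => PairT714.gsT P σ g q z *
      fderiv ℝ (aL P σ (Tup C.kk) (C.Zt σ.X0) g) (q, z) (w, 0)) ∧
    ∫ z : ZZ σ, PairT714.gsT P σ g q z *
        fderiv ℝ (aL P σ (Tup C.kk) (C.Zt σ.X0) g) (q, z) (w, 0) =
      Real.sqrt (jX σ (Xq σ q)) * ((2 * jX σ (Xq σ q))⁻¹ *
        fderiv ℝ (jX σ) (Xq σ q) (C.cfT w)) :=
  vac_dL P σ hg (by have := cfT_Sb σ hq; have := σ.pos; linarith) w

/-- `τ = κ a om`. -/
theorem tauT_smul (P : TPack C M R G) (σ : Sl C) (g : ℝ) (χ : Amp M G σ) (x : LL σ × ZZ σ) :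
    tauT P σ g χ.fn x = (kapZ σ (C.Zt σ.X0) x.2 * aT5 P σ g x.1 x.2) •
      BrT5658.omT P σ g χ.fn x.1 :=
  tau_smul P σ rfl rfl g χ x

/-- The amplitude is real analytic data: continuity on `L × Z`. -/
theorem continuous_aT5 (P : TPack C M R G) (σ : Sl C) {g : ℝ} (hg : 0 < g) :
    Continuous fun x : LL σ × ZZ σ => aT5 P σ g x.1 x.2 :=
  (contDiff_aL P σ (L := Tup C.kk) rfl hg).continuous

end Crest.Agent.R330.T5G151

end
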