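import Crest.Agent.R330.PairE2_547

/-!
# Row 330, S8-PAIR: the vacuum component of the even errors of order one (helper547)

At a fixed base point `p`: `⟪w, ∫ gs z • err2 (p, z)⟫ = 0` from the four facts
(moments of `∂_L a₀`, weak form of (V*), mean of the quadratic potential, Berry).
-/

set_option autoImplicit false
set_option linter.unusedSectionVars false

open MeasureTheory Filter Topology
open scoped ContDiff InnerProductSpace

noncomputable section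

namespace Crest.Agent.R330.PairE547

open Crest.Agent.R330.Frame839 Crest.Agent.R330.IBP837 Crest.Agent.R330.PairA547
  Crest.Agent.R330.PairB547

variable {V E : Type*} [NormedAddCommGroup V] [InnerProductSpace ℝ V] [FiniteDimensional ℝ V]
  [NormedAddCommGroup E] [InnerProductSpace ℝ E] [FiniteDimensional ℝ E]
  {F : Type*} [NormedAddCommGroup F] [InnerProductSpace ℂ F] [FiniteDimensional ℂ F]
  {ι κ η : Type*} [Fintype ι] [Fintype κ] [Fintype η]

variable {A : V →L[ℝ] E →L[ℝ] E} {c : E} {L Z : Submodule ℝ E}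

theorem inner_evp {Γ : F →ₗ[ℂ] F} {w : F} (hw : ∀ f, ⟪w, Γ f⟫_ℂ = ⟪w, f⟫_ℂ) (f : F) :
    ⟪w, evp Γ f⟫_ℂ = ⟪w, f⟫_ℂ := by
  unfold evp
  rw [← Complex.coe_smul, inner_smul_right, inner_add_right, hw]
  push_cast
  ring

theorem evp_add (Γ : F →ₗ[ℂ] F) (f f' : F) : evp Γ (f + f') = evp Γ f + evp Γ f' := by
  unfold evp
  rw [map_add]
  module

/-- **(v), abstract.** -/
theorem vac_abs [MeasurableSpace Z] {μ : Measure Z} (Θ : E →ₗ[ℝ] (F →ₗ[ℂ] F))
    (Wq : E →ₗ[ℝ] E →ₗ[ℝ] (F →ₗ[ℂ] F)) (Bf : V →ₗ[ℝ] (F →ₗ[ℝ] F)) {Γ : F →ₗ[ℂ] F}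
    (PX : L →ₗ[ℝ] E) (eT : OrthonormalBasis η ℝ (Tn A c)) (u : OrthonormalBasis ι ℝ L) (g : ℝ)
    {a₀ : L × Z → ℝ} {ψ ρe : L → F} {p : L} {gs : Z → ℝ} {sj : ℝ} {dsj : ι → ℝ} {w : F}
    (hw : ∀ f, ⟪w, Γ f⟫_ℂ = ⟪w, f⟫_ℂ)
    (i1 : ∀ s, Integrable (fun z => gs z * fderiv ℝ a₀ (p, z) (u s, 0)) μ)
    (h1 : ∀ s, ∫ z, gs z * fderiv ℝ a₀ (p, z) (u s, 0) ∂μ = dsj s)
    (i2 : Integrable (fun z => gs z * a₀ (p, z)) μ)
    (h2 : ∫ z, gs z * a₀ (p, z) ∂μ = sj)
    (h3 : ⟪w, (∑ s, (-Complex.I) • Θ (u s) (dsj s • ψ p)) +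
      sj • ∑ t, (-Complex.I) • Bf (om A c (c + PX p) (eT t)) (Θ (eT t) (ψ p))⟫_ℂ = 0)
    (i4 : Integrable (fun z => (gs z * a₀ (p, z)) • evp Γ (Wq (z : E) z (ψ p))) μ)
    (h4 : ⟪w, ∫ z, (gs z * a₀ (p, z)) • evp Γ (Wq (z : E) z (ψ p)) ∂μ⟫_ℂ = 0)
    (h5 : ⟪w, ρe p⟫_ℂ = 0) :
    ⟪w, ∫ z, gs z • err2 Θ Wq Bf Γ PX eT u g a₀ ψ ρe (p, z) ∂μ⟫_ℂ = 0 := by
  have hD : ∀ z : Z, gs z • err2 Θ Wq Bf Γ PX eT u g a₀ ψ ρe (p, z) =
      (∑ s, (gs z * fderiv ℝ a₀ (p, z) (u s, 0)) • ((-Complex.I) • Θ (u s) (ψ p))) +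
      (gs z * a₀ (p, z)) • ρe p +
      (gs z * a₀ (p, z)) • evp Γ (∑ t, (-Complex.I) • Bf (om A c (c + PX p) (eT t))
        (Θ (eT t) (ψ p))) +
      g • ((gs z * a₀ (p, z)) • evp Γ (Wq (z : E) z (ψ p))) := by
    intro z
    unfold err2 EV MX
    simp only
    rw [evp_add]
    have e1 : evp Γ (g • Wq (z : E) z (ψ p)) = g • evp Γ (Wq (z : E) z (ψ p)) := by
      unfold evp
      rw [map_rsmul]
      module
    have e2 : gs z • (∑ s, (-Complex.I) • Θ (u s) (fderiv ℝ a₀ (p, z) (u s, 0) • ψ p)) =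
        ∑ s, (gs z * fderiv ℝ a₀ (p, z) (u s, 0)) • ((-Complex.I) • Θ (u s) (ψ p)) := by
      rw [Finset.smul_sum]
      refine Finset.sum_congr rfl fun s _ => ?_
      rw [map_rsmul, smul_comm (-Complex.I), smul_smul]
    rw [e1, ← e2]
    module
  simp only [hD]
  rw [integral_add, integral_add, integral_add, integral_finset_sum]
  · simp only [integral_smul_const, integral_smul, h1, h2]
    rw [inner_add_right, inner_add_right, inner_add_right]
    have r1 : ∀ (r : ℝ) (f : F), ⟪w, r • f⟫_ℂ = r * ⟪w, f⟫_ℂ := fun r f => by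
      rw [← Complex.coe_smul, inner_smul_right]
    rw [r1 g, h4, r1 sj (ρe p), h5, r1 sj (evp _ _), inner_evp hw, ← r1 sj]
    rw [inner_add_right] at h3
    have e3 : ∀ s, dsj s • ((-Complex.I) • Θ (u s) (ψ p)) =
        (-Complex.I) • Θ (u s) (dsj s • ψ p) := fun s => by
      rw [map_rsmul, smul_comm (-Complex.I)]
    simp only [e3]
    rw [mul_zero, mul_zero, add_zero, add_zero]
    exact h3
  · intro s _
    exact (i1 s).smul_const _
  · exact integrable_finset_sum _ fun s _ => (i1 s).smul_const _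
  · exact i2.smul_const _
  · exact (integrable_finset_sum _ fun s _ => (i1 s).smul_const _).add (i2.smul_const _)
  · exact i2.smul_const _
  · exact ((integrable_finset_sum _ fun s _ => (i1 s).smul_const _).add (i2.smul_const _)).add
      (i2.smul_const _)
  · exact i4.smul g

/-- projection form -/
theorem proj_zero_of_inner {S : Submodule ℂ F} {f : F} (h : ∀ w ∈ S, ⟪w, f⟫_ℂ = 0) :
    S.starProjection f = 0 := by
  rw [Submodule.starProjection_apply, Submodule.coe_eq_zero]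
  exact Submodule.orthogonalProjectionOnto_apply_of_mem_orthogonal
    ((Submodule.mem_orthogonal S f).2 h)

end Crest.Agent.R330.PairE547

end
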