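import Crest.Agent.R330.VacT_288
import Crest.Agent.R330.T5Gb_151
import Crest.Agent.R330.PairV_547

/-!
# Row 330, S8-PAIR (v): (V*) as the hypothesis `h3` of `PairE547.vac_abs` (helper288)

* `fderiv_log_light` : for `e` light, `∂_e log |det J|` at the centre position `X` is
  `∂_{cfT e} log j`.
* `h3` : the vacuum component of `Σ (-i) Θ(∂√j) f + √j Σ (-i) Bop(om t) Θ(t) f` is zero.
-/

set_option autoImplicit false
set_option linter.unusedSectionVars false

open MeasureTheory Filter Topology Crest.MathPhysics.MatrixQM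
open scoped InnerProductSpace ContDiff

noncomputable section

namespace Crest.Agent.R330.VacP288

open Crest.Agent.R330.Defs478
  Crest.Agent.R330.LS839 Crest.Agent.R330.Frame839
  Crest.Agent.R330.Bind6839 Crest.Agent.R330.TDef414 Crest.Agent.R330.PairB547
  Crest.Agent.R330.PairE547 Crest.Agent.R330.PairL_862 Crest.Agent.R330.PairT714
  Crest.Agent.R330.T5G151 Crest.Agent.R330.VacC288 Crest.Agent.R330.VacT288
  Crest.Agent.R330.FactI161 Crest.Agent.R330.Cliff442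
open Crest.Agent.R330.Lift406 (Bop)
open Crest.Agent.R330.SlB314 (Nor)

variable {N p : ℕ} {b : ColorBasis N} {S : Type} [Group S] [Fintype S] {C : Chn b p S}
variable {F : Type*} [NormedAddCommGroup F] [InnerProductSpace ℂ F] [FiniteDimensional ℂ F]
variable {M : FermionRep N F} {R : GaugeAction b M} {G : GammaNine}

theorem reg0 (σ : Sl C) : C.Reg σ.X0 := σ.reg σ.X0 (by rw [sub_self, norm_zero]; exact σ.pos)

/-- The heavy vacua of 714 are those of `VacT_288`. -/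
theorem VT_eq [Nontrivial F] (P : TPack C M R G) {X : Pos p} (hX : C.BReg X) :
    VT P X = VX C M G X := map_U P hX

theorem PT_eq [Nontrivial F] (P : TPack C M R G) {X : Pos p} (hX : C.BReg X) (f : F) :
    PT P X f = PV C M G X f := by
  rw [← starProjection_VX hX.reg, ← VT_eq P hX]
  rfl

theorem smallX (σ : Sl C) {r B : ℝ} (hB0 : 0 ≤ B) (h : B * σ.r ≤ r / 2) {X : Pos p}
    (hX : ‖X - σ.X0‖ < σ.r) : B * ‖C.cf X - C.cf σ.X0‖ ≤ r / 2 := by
  rw [← map_sub, C.cf.norm_map]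
  exact (mul_le_mul_of_nonneg_left hX.le hB0).trans h

/-- `∂_e log |det J| = ∂_{cfT e} log j` for light `e`. -/
theorem fderiv_log_light (σ : Sl C) {r B : ℝ} (hr0 : 0 < r)
    (hr : GapAt (actB b) (C.cf σ.X0) r) (hB0 : 0 ≤ B) (hB : ActBound (actB b) B)
    (h : B * σ.r ≤ r / 2) {X : Pos p} (hX : ‖X - σ.X0‖ < σ.r) {e : Cfg N} (he : e ∈ Tup C.kk) :
    fderiv ℝ (fun y : Cfg N => Real.log |LinearMap.det (VacJ288.J (actB b) (C.cf σ.X0) y)|)
      (C.cf X) e = (jX σ X)⁻¹ * fderiv ℝ (jX σ) X (C.cfT e) := by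
  set D : Cfg N → ℝ := fun y => Real.log |LinearMap.det (VacJ288.J (actB b) (C.cf σ.X0) y)|
    with hD
  have hx := smallX σ hB0 h hX
  have hdf : DifferentiableAt ℝ D (C.cf X) :=
    (VacJ288.contDiffAt_log_detJ hr0 hr hB hx).differentiableAt (by simp)
  have h1 : fderiv ℝ D (C.cf X) e = fderiv ℝ D (C.cf X) (C.cf (C.cfT e)) := by
    have h2 : e = C.cf (C.cfT e) + C.PY e := by
      have h3 : C.PK e = e := Submodule.starProjection_eq_self_iff.2 he
      unfold Chn.PY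
      rw [h3]
      abel
    have h4 : fderiv ℝ D (C.cf X) (C.PY e) = 0 :=
      grad_blk (reg0 σ) hr0 hr hB hx (BrT5658.PY_mem he)
    conv_lhs => rw [h2]
    rw [map_add, h4, add_zero]
  obtain ⟨κ, hκ, hj⟩ := SlU692.j_eq σ
  have hcf : HasFDerivAt (fun Y : Pos p => C.cf Y) (C.cf.toContinuousLinearMap) X :=
    C.cf.toContinuousLinearMap.hasFDerivAt
  have h2 : HasFDerivAt (fun Y : Pos p => Real.log κ + D (C.cf Y))
      ((fderiv ℝ D (C.cf X)).comp C.cf.toContinuousLinearMap) X :=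
    (HasFDerivAt.comp X (g := D) (f := fun Y : Pos p => C.cf Y) hdf.hasFDerivAt hcf).const_add _
  have hpos := jX_pos σ hX
  have h3 : HasFDerivAt (fun Y : Pos p => Real.log (jX σ Y)) ((jX σ X)⁻¹ • fderiv ℝ (jX σ) X) X :=
    ((jX_smooth σ hX).differentiableAt (by simp)).hasFDerivAt.log hpos.ne'
  have hev : (fun Y : Pos p => Real.log (jX σ Y)) =ᶠ[𝓝 X]
      fun Y : Pos p => Real.log κ + D (C.cf Y) := by
    have hopen : ∀ᶠ Y : Pos p in 𝓝 X, ‖Y - σ.X0‖ < σ.r := by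
      have hc : Continuous fun Y : Pos p => ‖Y - σ.X0‖ := by fun_prop
      exact hc.continuousAt.eventually (gt_mem_nhds hX)
    filter_upwards [hopen] with Y hY
    have h5 := hj r B hr0 hr hB (C.cf (Y - σ.X0)) (cf_mem_nor σ _) (by rw [C.cf.norm_map]; exact hY)
    have h6 : C.cf σ.X0 + C.cf (Y - σ.X0) = C.cf Y := by rw [← map_add]; congr 1; abel
    rw [h6] at h5
    have h7 : jX σ Y = κ * |LinearMap.det (VacJ288.J (actB b) (C.cf σ.X0) (C.cf Y))| := h5
    have h8 : |LinearMap.det (VacJ288.J (actB b) (C.cf σ.X0) (C.cf Y))| ≠ 0 := by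
      intro h0
      have := jX_pos σ hY
      rw [h7, h0, mul_zero] at this
      exact lt_irrefl _ this
    rw [h7, Real.log_mul hκ.ne' h8]
  have h4 := (h3.congr_of_eventuallyEq hev.symm).unique h2
  rw [h1]
  have h5 := congrArg (fun T : Pos p →L[ℝ] ℝ => T (C.cfT e)) h4
  exact h5.symm

/-- (V*) with an orthonormal basis of any space equal to the light space. -/
theorem vstar_L {X0 X : Pos p} (h0 : C.Reg X0) (hX : C.Reg X) {r B : ℝ} (hr0 : 0 < r)
    (hr : GapAt (actB b) (C.cf X0) r) (hB : ActBound (actB b) B)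
    (hx : B * ‖C.cf X - C.cf X0‖ ≤ r / 2) {f : F} (hf : f ∈ VX C M G X) (α : Fin 16)
    {κ ι : Type*} [Fintype κ] [Fintype ι]
    (t : OrthonormalBasis κ ℝ (Tn (actB b) (C.cf X0)))
    {L : Submodule ℝ (Cfg N)} (hL : Uk b (C.cf X0) = L) (n : OrthonormalBasis ι ℝ L) :
    PV C M G X (∑ a, (-Complex.I) • Bop b M (om (actB b) (C.cf X0) (C.cf X) (t a) : Colg N).ofLp
        (Theta M G α (t a) f)) =
      (Complex.I / 2) • ∑ s, ((fderiv ℝ (fun y : Cfg N =>
        Real.log |LinearMap.det (VacJ288.J (actB b) (C.cf X0) y)|) (C.cf X) (n s) : ℝ) : ℂ) •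
          Theta M G α (n s) f := by
  subst hL
  exact vstar h0 hX hr0 hr hB hx hf α t n

/-- light operators commute with the projection -/
theorem PV_light {X : Pos p} (hX : C.Reg X) {e : Cfg N} (he : e ∈ Tup C.kk) {f : F}
    (hf : f ∈ VX C M G X) (α : Fin 16) : PV C M G X (Theta M G α e f) = Theta M G α e f := by
  have hc := ctr (AEq288.comc_cf X) hX hf
  have h1 : PV C M G X f = f := (cr M).proj_of_mem (pcs_cf hX) hf
  have hy : ∀ γ, yv G α e γ ∈ C.kk := fun γ =>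
    Submodule.sum_mem _ fun i _ => Submodule.smul_mem _ _ (he i)
  rw [Theta_thv, LinearMap.sum_apply, map_sum]
  refine Finset.sum_congr rfl fun γ _ => ?_
  have h2 := hc.light γ _ (hy γ) f
  unfold PV at h1 ⊢
  rw [h2, h1]

/-- `⟪w, v⟫` sees the vacuum component of `v` only. -/
theorem inner_PV {X : Pos p} (hX : C.Reg X) {w : F} (hw : w ∈ VX C M G X) (v : F) :
    ⟪w, v⟫_ℂ = ⟪w, PV C M G X v⟫_ℂ := by
  have h1 : PV C M G X w = w := (cr M).proj_of_mem (pcs_cf hX) hw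
  have h2 : ⟪PV C M G X w, v⟫_ℂ = ⟪w, PV C M G X v⟫_ℂ := (cr M).proj_symm (pcs_cf hX) w v
  rw [← h2, h1]

/-- **`h3` of `PairE547.vac_abs`.** -/
theorem h3 (σ : Sl C) {q : LL σ} (hq : q ∈ Sb σ (Tup C.kk)) {f w : F}
    (hf : f ∈ VX C M G (Xq σ q)) (hw : w ∈ VX C M G (Xq σ q)) (α : Fin 16)
    {κ ι : Type*} [Fintype κ] [Fintype ι]
    (eT : OrthonormalBasis κ ℝ (Tn (actB b) (C.cf σ.X0)))
    (u : OrthonormalBasis ι ℝ (Tup C.kk)) :
    ⟪w, (∑ s, (-Complex.I) • ThL M G α (u s) ((Real.sqrt (jX σ (Xq σ q)) *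
        ((2 * jX σ (Xq σ q))⁻¹ * fderiv ℝ (jX σ) (Xq σ q) (C.cfT (u s)))) • f)) +
      Real.sqrt (jX σ (Xq σ q)) • ∑ t, (-Complex.I) • BfL b M
        (om (actB b) (C.cf σ.X0) (C.cf σ.X0 + C.cf (C.cfT q)) (eT t))
        (ThL M G α (eT t) f)⟫_ℂ = 0 := by
  obtain ⟨r, B, hr0, hB0, hB, hr, h⟩ := σ.gap
  have hXn := Xq_lt σ hq
  have hX := σ.reg _ hXn
  have hx := smallX σ hB0 h hXn
  have hcX : C.cf σ.X0 + C.cf (C.cfT q) = C.cf (Xq σ q) := by
    unfold Xq
    rw [map_add]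
  rw [hcX, inner_PV hX hw, map_add]
  set X := Xq σ q with hXd
  have e1 : PV C M G X (∑ s, (-Complex.I) • ThL M G α (u s) ((Real.sqrt (jX σ X) *
        ((2 * jX σ X)⁻¹ * fderiv ℝ (jX σ) X (C.cfT (u s)))) • f)) =
      ∑ s, ((-Complex.I) * ((Real.sqrt (jX σ X) *
        ((2 * jX σ X)⁻¹ * fderiv ℝ (jX σ) X (C.cfT (u s))) : ℝ) : ℂ)) • Theta M G α (u s) f := by
    rw [map_sum]
    refine Finset.sum_congr rfl fun s _ => ?_
    rw [ThL_apply, ← Complex.coe_smul, map_smul, map_smul, map_smul, PV_light hX (u s).2 hf α,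
      smul_smul]
  have e2 := vstar_L (reg0 σ) hX hr0 hr hB hx hf α eT (Uk_eq (reg0 σ)) u
  have e3 : PV C M G X (Real.sqrt (jX σ X) • ∑ t, (-Complex.I) • BfL b M
        (om (actB b) (C.cf σ.X0) (C.cf X) (eT t)) (ThL M G α (eT t) f)) =
      ((Real.sqrt (jX σ X) : ℝ) : ℂ) • (Complex.I / 2) • ∑ s, ((fderiv ℝ (fun y : Cfg N =>
        Real.log |LinearMap.det (VacJ288.J (actB b) (C.cf σ.X0) y)|) (C.cf X) (u s) : ℝ) : ℂ) •
          Theta M G α (u s) f := by
    rw [← Complex.coe_smul, map_smul]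
    congr 1
  rw [e1, e3, Finset.smul_sum, Finset.smul_sum, ← Finset.sum_add_distrib]
  rw [Finset.sum_eq_zero, inner_zero_right]
  intro s _
  rw [fderiv_log_light σ hr0 hr hB0 hB h hXn (u s).2, smul_smul, smul_smul, ← add_smul]
  have hj := (jX_pos σ hXn).ne'
  have : (-Complex.I) * ((Real.sqrt (jX σ X) *
        ((2 * jX σ X)⁻¹ * fderiv ℝ (jX σ) X (C.cfT (u s))) : ℝ) : ℂ) +
      ((Real.sqrt (jX σ X) : ℝ) : ℂ) * (Complex.I / 2) *
        (((jX σ X)⁻¹ * fderiv ℝ (jX σ) X (C.cfT (u s)) : ℝ) : ℂ) = 0 := by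
    push_cast
    have hj' : ((jX σ X : ℝ) : ℂ) ≠ 0 := by exact_mod_cast hj
    field_simp
    ring
  rw [this, zero_smul]

end Crest.Agent.R330.VacP288

end
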