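import Crest.Agent.R330.PairV_547
import Crest.Agent.R330.PairU_714
import Crest.Agent.R330.PairI2_658
import Crest.Agent.R330.T5Gb_151
import Crest.Agent.R330.VacP_288
import Crest.Agent.R330.E4T_776

/-!
# Row 330, S8-PAIR: the vacuum component of the even errors, literal (helper776)

`q ∈ Sb`, `X = Xq σ q`: `PT P X (∫ z, gsT P σ g q z • err2 .. (q, z)) = 0`.

* `hw_T` : `⟪w, Γ f⟫ = ⟪w, f⟫` for `w ∈ VT P X`.
* `wq_int`, `wq_zero` : integrability and mean zero of `(gs a₀) • evp Γ (Wq z z ψ)`.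
* `vac_of` : the statement at `X ∈ BReg` from the frame identity; `frm` : the frame identity (288).
* `vac_T5` : the statement for every amplitude and every `q ∈ Sb`.
-/

set_option autoImplicit false
set_option linter.unusedSectionVars false

open MeasureTheory Filter Topology Crest.MathPhysics.MatrixQM
open scoped ContDiff InnerProductSpace ENNReal

noncomputable section

namespace Crest.Agent.R330.PairV776

open Crest.Agent.R330.Defs478 Crest.Agent.R330.LS839 Crest.Agent.R330.Frame839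
  Crest.Agent.R330.Clus839 Crest.Agent.R330.Bind6839 Crest.Agent.R330.TDef414
  Crest.Agent.R330.PairB547 Crest.Agent.R330.PairE547 Crest.Agent.R330.PairL_862
  Crest.Agent.R330.PairT714 Crest.Agent.R330.T5G151 Crest.Agent.R330.PairI658
  Crest.Agent.R330.GBind984
open LightC916 (rhoE rhoS om)

variable {N p : ℕ} {b : ColorBasis N} {S : Type} [Group S] [Fintype S] {C : Chn b p S}
  {F : Type*} [NormedAddCommGroup F] [InnerProductSpace ℂ F] [FiniteDimensional ℂ F]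
  {M : FermionRep N F} {R : GaugeAction b M} {G : GammaNine}

/-! ## The parity -/

/-- the parity is `1` against the heavy vacua -/
theorem hw_T (P : TPack C M R G) {σ : Sl C} {Γ : F →ₗ[ℂ] F} (hΓ : ParT M G σ Γ) {X : Pos p}
    (hX : C.BReg X) {w : F} (hw : w ∈ VT P X) (f : F) : ⟪w, Γ f⟫_ℂ = ⟪w, f⟫_ℂ := by
  obtain ⟨f', hf', rfl⟩ := hw
  have h1 : Γ (P.U X f') = P.U X f' := PairU714.ParT.vac hΓ P hX hf'
  show ⟪P.U X f', Γ f⟫_ℂ = ⟪P.U X f', f⟫_ℂ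
  rw [← hΓ.par.symm, h1]

/-! ## The quadratic potential -/

theorem gs_aL (P : TPack C M R G) (σ : Sl C) {g : ℝ} {q : LL σ}
    (hq : q ∈ Sb σ (Tup C.kk)) (z : ZZ σ) :
    PairT714.gsT P σ g q z * aL P σ (Tup C.kk) (C.Zt σ.X0) g (q, z) =
      Real.sqrt (jX σ (Xq σ q)) * PairT714.gsT P σ g q z ^ 2 := by
  have h1 := cfT_Sb σ hq
  have hr := σ.pos
  have h2 := aL_eq_gsT P σ (Tup C.kk) (C.Zt σ.X0) g (x := (q, z))
    (h1.trans (by linarith))
  rw [h2]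
  show PairT714.gsT P σ g q z * (Real.sqrt (jX σ (Xq σ q)) * PairT714.gsT P σ g q z) = _
  ring

/-- second moments of the squared Gaussian -/
theorem int_gs_sq_norm (P : TPack C M R G) (σ : Sl C) {g : ℝ} (hg : 0 < g) {q : LL σ}
    (hq : q ∈ Sb σ (Tup C.kk)) :
    Integrable (fun z : ZZ σ => PairT714.gsT P σ g q z ^ 2 * ‖z‖ ^ 2) := by
  have hr := σ.pos
  have h1 := cfT_Sb σ hq
  obtain ⟨K, -, hK⟩ := aG_mom P σ (ρ := σ.r / 2) (by linarith) 1
  have hX : ‖Xq σ q - σ.X0‖ ≤ σ.r / 2 := by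
    unfold Xq
    rw [add_sub_cancel_left]
    linarith
  have h2 := (hK (Xq σ q) hX g hg).1
  have hj := jX_pos σ (Xq_lt σ hq)
  have h3 := h2.const_mul (g * jX σ (Xq σ q))⁻¹
  refine h3.congr (ae_of_all _ fun z => ?_)
  simp only
  rw [aG_eq_gsT P σ (Xq σ q) hj.le, pow_one, mul_pow, Real.sq_sqrt hj.le]
  show _ = PairT714.gsT P σ g q z ^ 2 * ‖z‖ ^ 2
  rw [gsT_714]
  have hg' := hg.ne'
  have hj' := hj.ne'
  field_simp

theorem norm_WqL_le (b : ColorBasis N) (M : FermionRep N F) (G : GammaNine) : ∃ K : ℝ, 0 < K ∧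
    ∀ α x f, ‖WqL b M G α x x f‖ ≤ K * ‖x‖ ^ 2 * ‖f‖ := by
  obtain ⟨K, hK, hC⟩ := cstI b M G
  refine ⟨K, hK, fun α x f => ((hC α).Wq x x f).trans (le_of_eq ?_)⟩
  ring

theorem wq_int (P : TPack C M R G) (σ : Sl C) {Γ : F →ₗ[ℂ] F} (hΓ : ParT M G σ Γ) {g : ℝ}
    (hg : 0 < g) {q : LL σ} (hq : q ∈ Sb σ (Tup C.kk)) (α : Fin 16) (f : F) :
    Integrable (fun z : ZZ σ => (PairT714.gsT P σ g q z *
      aL P σ (Tup C.kk) (C.Zt σ.X0) g (q, z)) • evp Γ (WqL b M G α (z : Cfg N) z f)) := by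
  obtain ⟨K, hK, hW⟩ := norm_WqL_le b M G
  have h1 := (int_gs_sq_norm P σ hg hq).const_mul (Real.sqrt (jX σ (Xq σ q)) * (K * ‖f‖))
  refine h1.mono' ?_ (ae_of_all _ fun z => ?_)
  · have hc1 : Continuous fun z : ZZ σ => PairT714.gsT P σ g q z *
        aL P σ (Tup C.kk) (C.Zt σ.X0) g (q, z) := by
      simp only [gs_aL P σ hq]
      have hc0 : Continuous fun z : ZZ σ => PairT714.gsT P σ g q z :=
        (continuous_gsT P σ g (Xq σ q)).comp continuous_subtype_val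
      exact continuous_const.mul (hc0.pow 2)
    have hc2 : Continuous fun z : ZZ σ => WqL b M G α (z : Cfg N) z f :=
      continuous_WqL b M G α continuous_subtype_val continuous_subtype_val continuous_const
    have hc3 : Continuous fun z : ZZ σ => evp Γ (WqL b M G α (z : Cfg N) z f) := by
      unfold evp
      exact (hc2.add (Γ.continuous_of_finiteDimensional.comp hc2)).const_smul _
    exact (hc1.smul hc3).aestronglyMeasurable
  · rw [norm_smul, gs_aL P σ hq, Real.norm_of_nonneg (by positivity)]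
    have h2 : ‖evp Γ (WqL b M G α (z : Cfg N) z f)‖ ≤ K * ‖z‖ ^ 2 * ‖f‖ :=
      (norm_evp_le (fun f => (hΓ.par.norm f).le) _).trans (hW α z f)
    calc Real.sqrt (jX σ (Xq σ q)) * PairT714.gsT P σ g q z ^ 2 *
        ‖evp Γ (WqL b M G α (z : Cfg N) z f)‖ ≤
        Real.sqrt (jX σ (Xq σ q)) * PairT714.gsT P σ g q z ^ 2 * (K * ‖z‖ ^ 2 * ‖f‖) := by
          gcongr
      _ = _ := by ring

/-- **the quadratic potential has mean zero** -/
theorem wq_zero [Nontrivial F] (P : TPack C M R G) (σ : Sl C) {Γ : F →ₗ[ℂ] F}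
    (hΓ : ParT M G σ Γ) {g : ℝ} (hg : 0 < g) {q : LL σ} (hq : q ∈ Sb σ (Tup C.kk))
    (hX : C.BReg (Xq σ q)) (α : Fin 16) {f : F} (hf : Γ f = f) :
    ∫ z : ZZ σ, (PairT714.gsT P σ g q z *
      aL P σ (Tup C.kk) (C.Zt σ.X0) g (q, z)) • evp Γ (WqL b M G α (z : Cfg N) z f) = 0 := by
  have h0 : C.Reg σ.X0 := BrT5658.reg0 σ
  have hA : ∀ z ∈ C.Zt σ.X0, ⟪P.A (Xq σ q) z, z⟫_ℝ = QX b C.kk (C.cf (Xq σ q)) z := by
    intro z _
    rw [VacT288.A_eq' P hX]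
    rfl
  set Φ : ℝ → ℝ → ℝ := fun _ t => Real.sqrt (jX σ (Xq σ q)) *
    (Real.exp (-(g / 2 * t)) / Real.sqrt (nI P σ g (Xq σ q))) ^ 2 with hΦ
  have e1 : ∀ z : ZZ σ, PairT714.gsT P σ g q z *
      aL P σ (Tup C.kk) (C.Zt σ.X0) g (q, z) = Φ ‖z‖ ⟪P.A (Xq σ q) z, z⟫_ℝ := fun z => by
    rw [gs_aL P σ hq]
    rfl
  have e2 : ∀ z : ZZ σ, evp Γ (WqL b M G α (z : Cfg N) z f) =
      (1 / 2 : ℂ) • (IBP837.vco M (fun β A => wb b G α β A z z) f +
        Γ (IBP837.vco M (fun β A => wb b G α β A z z) f)) := fun z => by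
    unfold evp
    rw [WqL_apply, ← Complex.coe_smul]
    norm_num
  have hc : Continuous fun z : ZZ σ => Φ ‖z‖ ⟪P.A (Xq σ q) z, z⟫_ℝ := by
    rw [hΦ]
    fun_prop
  have hi : Integrable fun z : ZZ σ => Φ ‖z‖ ⟪P.A (Xq σ q) z, z⟫_ℝ * ‖z‖ ^ 2 := by
    refine ((int_gs_sq_norm P σ hg hq).const_mul (Real.sqrt (jX σ (Xq σ q)))).congr
      (ae_of_all _ fun z => ?_)
    simp only
    rw [← e1, gs_aL P σ hq]
    ring
  simp only [e1, e2]
  refine E4T776.e4_half_T h0 hX.reg rfl hA Φ volume hc.aestronglyMeasurable hi ?_ ?_ G α hf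
  · intro L hL f
    refine hΓ.par.even L ?_ f
    rwa [E4T776.reg_kc h0]
  · intro L hL f
    refine hΓ.par.odd L ?_ f
    rwa [E4T776.reg_kc h0]

/-! ## The statement -/

section main

variable {ι η : Type*} [Fintype ι] [Fintype η]

/-- the frame identity at `q` (288) -/
def Frm (P : TPack C M R G) (σ : Sl C) (α : Fin 16)
    (eT : OrthonormalBasis η ℝ (Tn (actB b) (C.cf σ.X0)))
    (u : OrthonormalBasis ι ℝ (LL σ)) (q : LL σ) : Prop :=
  ∀ w ∈ VT P (Xq σ q), ∀ f ∈ VT P (Xq σ q),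
    ⟪w, (∑ s, (-Complex.I) • ThL M G α (u s) ((Real.sqrt (jX σ (Xq σ q)) *
        ((2 * jX σ (Xq σ q))⁻¹ * fderiv ℝ (jX σ) (Xq σ q) (C.cfT (u s)))) • f)) +
      Real.sqrt (jX σ (Xq σ q)) • ∑ t, (-Complex.I) • BfL b M
        (Frame839.om (actB b) (C.cf σ.X0) (C.cf σ.X0 + PXI C (Tup C.kk) q) (eT t))
          (ThL M G α (eT t) f)⟫_ℂ = 0

/-- **(v) at a regular point from the frame identity.** -/
theorem vac_of [Nontrivial F] (P : TPack C M R G) (σ : Sl C) {Γ : F →ₗ[ℂ] F}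
    (hΓ : ParT M G σ Γ) {g : ℝ} (hg : 0 < g) {q : LL σ} (hq : q ∈ Sb σ (Tup C.kk))
    (hX : C.BReg (Xq σ q)) (α : Fin 16) (χ : Pos p → C.Fx M G)
    (eT : OrthonormalBasis η ℝ (Tn (actB b) (C.cf σ.X0))) (u : OrthonormalBasis ι ℝ (LL σ))
    (h3 : Frm P σ α eT u q) :
    PT P (Xq σ q) (∫ z : ZZ σ, PairT714.gsT P σ g q z • err2 (ThL M G α) (WqL b M G α)
      (BfL b M) Γ (PXI C (Tup C.kk)) eT u g (aL P σ (Tup C.kk) (C.Zt σ.X0) g)
      (fun q => om P σ.X0 g χ q) (fun q => rhoE P σ.X0 g α χ q) (q, z)) = 0 := by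
  refine proj_zero_of_inner fun w hw => ?_
  obtain ⟨f, hf, hψ⟩ := om_vac P σ.X0 g χ (q : Cfg N)
  have hψV : om P σ.X0 g χ (q : Cfg N) ∈ VT P (Xq σ q) := ⟨f, hf, hψ.symm⟩
  have hΓψ : Γ (om P σ.X0 g χ (q : Cfg N)) = om P σ.X0 g χ (q : Cfg N) := by
    rw [hψ]
    exact PairU714.ParT.vac hΓ P hX hf
  refine vac_abs (ThL M G α) (WqL b M G α) (BfL b M) (PXI C (Tup C.kk)) eT u g
    (hw_T P hΓ hX hw) (fun s => (vac_dT5 P σ hg hq (u s)).1)
    (fun s => (vac_dT5 P σ hg hq (u s)).2) (int_gs_aT5 P σ hg hq).1 (int_gs_aT5 P σ hg hq).2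
    (h3 w hw _ hψV) (wq_int P σ hΓ hg hq α _) ?_ ?_
  · rw [wq_zero P σ hΓ hg hq hX α hΓψ, inner_zero_right]
  · obtain ⟨f', hf', rfl⟩ := hw
    exact LightC916.berry_zero P σ.X0 g α χ q hX hf'

/-- At a point where the amplitude vanishes. -/
theorem vac_zero (P : TPack C M R G) (σ : Sl C) (Γ : F →ₗ[ℂ] F) (g : ℝ) {q : LL σ}
    (α : Fin 16) {χ : Pos p → C.Fx M G} (h : χ (Xq σ q) = 0)
    (eT : OrthonormalBasis η ℝ (Tn (actB b) (C.cf σ.X0))) (u : OrthonormalBasis ι ℝ (LL σ))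
    (z : ZZ σ) :
    err2 (ThL M G α) (WqL b M G α)
      (BfL b M) Γ (PXI C (Tup C.kk)) eT u g (aL P σ (Tup C.kk) (C.Zt σ.X0) g)
      (fun q => om P σ.X0 g χ q) (fun q => rhoE P σ.X0 g α χ q) (q, z) = 0 := by
  have h1 : om P σ.X0 g χ (q : Cfg N) = 0 := om_zero P σ.X0 g h
  have h2 : rhoE P σ.X0 g α χ (q : Cfg N) = 0 := by
    unfold rhoE
    have h3 : χ (σ.X0 + C.cfT q) = 0 := h
    rw [h3]
    simp
  unfold err2 EV MX evp
  simp only [h1, h2, smul_zero, map_zero, Finset.sum_const_zero, add_zero]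

/-- The frame identity (288). -/
theorem frm [Nontrivial F] (P : TPack C M R G) (σ : Sl C) (α : Fin 16)
    (eT : OrthonormalBasis η ℝ (Tn (actB b) (C.cf σ.X0)))
    (u : OrthonormalBasis ι ℝ (LL σ)) {q : LL σ} (hq : q ∈ Sb σ (Tup C.kk))
    (hX : C.BReg (Xq σ q)) : Frm P σ α eT u q := by
  intro w hw f hf
  rw [VacP288.VT_eq P hX] at hw hf
  exact VacP288.h3 σ hq hf hw α eT u

/-- **(v)**: the vacuum component of the even errors of order one is zero. -/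
theorem vac_T5 [Nontrivial F] (P : TPack C M R G) (σ : Sl C) {Γ : F →ₗ[ℂ] F}
    (hΓ : ParT M G σ Γ) {g : ℝ} (hg : 0 < g) (α : Fin 16) (χ : Amp M G σ)
    (eT : OrthonormalBasis η ℝ (Tn (actB b) (C.cf σ.X0))) (u : OrthonormalBasis ι ℝ (LL σ))
    {q : LL σ} (hq : q ∈ Sb σ (Tup C.kk)) :
    PT P (Xq σ q) (∫ z : ZZ σ, PairT714.gsT P σ g q z • err2 (ThL M G α) (WqL b M G α)
      (BfL b M) Γ (PXI C (Tup C.kk)) eT u g (aL P σ (Tup C.kk) (C.Zt σ.X0) g)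
      (fun q => om P σ.X0 g χ.fn q) (fun q => rhoE P σ.X0 g α χ.fn q) (q, z)) = 0 := by
  by_cases hX : Xq σ q ∈ tsupport χ.fn
  · exact vac_of P σ hΓ hg hq (χ.off _ hX) α χ.fn eT u (frm P σ α eT u hq (χ.off _ hX))
  · have h0 : χ.fn (Xq σ q) = 0 := image_eq_zero_of_notMem_tsupport hX
    simp only [vac_zero P σ Γ g α h0 eT u, smul_zero, integral_zero, map_zero]

end main

end Crest.Agent.R330.PairV776

end
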