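import Crest.Agent.R330.PairT_714
import Crest.Agent.R330.Gram_167
import Crest.Agent.R330.Pou_365
import Crest.Agent.R330.TCore_383
import Crest.Agent.R330.Brid_837
import Crest.Agent.R330.ChSys_399

/-!
# Row 330, T5-SM: the dual estimate from small charts (helper478)

* `hchart_of_gramT` : change of charts from the Gram matrix.
* `dual_move` : the dual estimate for one amplitude moves to another chart.
* `dualT_of_small` : `DualT P` from one chart with `DualAt P σ` at every centre in `BReg`.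
-/

set_option autoImplicit false
set_option linter.unusedSectionVars false

open MeasureTheory Filter Topology Crest.MathPhysics.MatrixQM
open scoped ContDiff InnerProductSpace ENNReal

noncomputable section

namespace Crest.Agent.R330.T5Sm478

open Crest.Agent.R330.Defs478 Crest.Agent.R330.TDef414 Crest.Agent.R330.TrialSys796
  Crest.Agent.R330.IBP837 Crest.Agent.R330.Brid837 Crest.Agent.R330.PairT714
  Crest.Agent.R330.ChSys399 Crest.Agent.R330.FreeX399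

variable {N p : ℕ} {b : ColorBasis N} {S : Type} [Group S] [Fintype S] {C : Chn b p S}
  {F : Type} [NormedAddCommGroup F] [InnerProductSpace ℂ F] [FiniteDimensional ℂ F]
  {M : FermionRep N F} {R : GaugeAction b M} {G : GammaNine}

theorem inner_self_int (f : Cfg N → F) : ∫ x, ⟪f x, f x⟫_ℂ = ((∫ x, ‖f x‖ ^ 2 : ℝ) : ℂ) := by
  rw [← integral_complex_ofReal]
  refine integral_congr_ae (Eventually.of_forall fun x => ?_)
  show ⟪f x, f x⟫_ℂ = _
  rw [inner_self_eq_norm_sq_to_K]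
  push_cast
  rfl

theorem int4 {f₁ f₂ f₃ f₄ : Cfg N → ℂ} (i1 : Integrable f₁) (i2 : Integrable f₂)
    (i3 : Integrable f₃) (i4 : Integrable f₄) :
    ∫ x, (f₁ x - f₂ x - f₃ x + f₄ x) =
      (∫ x, f₁ x) - (∫ x, f₂ x) - (∫ x, f₃ x) + ∫ x, f₄ x := by
  have a1 : ∫ x, (f₁ x - f₂ x) = (∫ x, f₁ x) - ∫ x, f₂ x := integral_sub i1 i2
  have a2 : ∫ x, (f₁ x - f₂ x - f₃ x) = (∫ x, (f₁ x - f₂ x)) - ∫ x, f₃ x :=
    integral_sub (i1.sub i2) i3
  have a3 : ∫ x, (f₁ x - f₂ x - f₃ x + f₄ x) = (∫ x, (f₁ x - f₂ x - f₃ x)) + ∫ x, f₄ x :=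
    integral_add ((i1.sub i2).sub i3) i4
  rw [a3, a2, a1]

theorem int3 {f₁ f₂ f₃ : Cfg N → ℂ} (i1 : Integrable f₁) (i2 : Integrable f₂)
    (i3 : Integrable f₃) :
    ∫ x, (f₁ x + f₂ x - f₃ x) = (∫ x, f₁ x) + (∫ x, f₂ x) - ∫ x, f₃ x := by
  have a1 : ∫ x, (f₁ x + f₂ x) = (∫ x, f₁ x) + ∫ x, f₂ x := integral_add i1 i2
  have a2 : ∫ x, (f₁ x + f₂ x - f₃ x) = (∫ x, (f₁ x + f₂ x)) - ∫ x, f₃ x :=
    integral_sub (i1.add i2) i3
  rw [a2, a1]

/-- (G3) from the Gram matrix: all four pairings have the same limit. -/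
theorem hchart_of_gramT [Nontrivial F] {P : TPack C M R G} (hG : GramT P) :
    Gram167.HChart P := by
  intro σ σ' χ χ' h
  set L : ℂ := ∑ s, ∫ X, ⟪R.ρ (C.w s) (χ.fn X : F), (χ.fn (C.O s X) : F)⟫_ℂ with hL
  have h1 : Tendsto (fun g => ∫ x, ⟪Tgen P σ g χ.fn x, Tgen P σ g χ.fn x⟫_ℂ) atTop (𝓝 L) :=
    hG σ σ χ χ
  have h2 : Tendsto (fun g => ∫ x, ⟪Tgen P σ g χ.fn x, Tgen P σ' g χ'.fn x⟫_ℂ) atTop (𝓝 L) := by
    have := hG σ σ' χ χ'
    rw [← h] at this ⊢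
    exact this
  have h3 : Tendsto (fun g => ∫ x, ⟪Tgen P σ' g χ'.fn x, Tgen P σ g χ.fn x⟫_ℂ) atTop (𝓝 L) := by
    have := hG σ' σ χ' χ
    rw [← h] at this ⊢
    exact this
  have h4 : Tendsto (fun g => ∫ x, ⟪Tgen P σ' g χ'.fn x, Tgen P σ' g χ'.fn x⟫_ℂ) atTop
      (𝓝 L) := by
    have := hG σ' σ' χ' χ'
    rw [← h] at this ⊢
    exact this
  have h5 : Tendsto (fun g => (∫ x, ⟪Tgen P σ g χ.fn x, Tgen P σ g χ.fn x⟫_ℂ) -
      (∫ x, ⟪Tgen P σ g χ.fn x, Tgen P σ' g χ'.fn x⟫_ℂ) -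
      (∫ x, ⟪Tgen P σ' g χ'.fn x, Tgen P σ g χ.fn x⟫_ℂ) +
      (∫ x, ⟪Tgen P σ' g χ'.fn x, Tgen P σ' g χ'.fn x⟫_ℂ)) atTop (𝓝 0) := by
    have := ((h1.sub h2).sub h3).add h4
    have h0 : L - L - L + L = 0 := by ring
    rwa [h0] at this
  have h6 := (Complex.continuous_re.tendsto 0).comp h5
  rw [Complex.zero_re] at h6
  refine h6.congr' ?_
  filter_upwards [TCore383.core P σ χ, TCore383.core P σ' χ'] with g hg hg'
  have e1 : ∀ x, ⟪Tgen P σ g χ.fn x - Tgen P σ' g χ'.fn x,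
      Tgen P σ g χ.fn x - Tgen P σ' g χ'.fn x⟫_ℂ =
      ⟪Tgen P σ g χ.fn x, Tgen P σ g χ.fn x⟫_ℂ - ⟪Tgen P σ g χ.fn x, Tgen P σ' g χ'.fn x⟫_ℂ -
        ⟪Tgen P σ' g χ'.fn x, Tgen P σ g χ.fn x⟫_ℂ +
        ⟪Tgen P σ' g χ'.fn x, Tgen P σ' g χ'.fn x⟫_ℂ := by
    intro x
    rw [inner_sub_left, inner_sub_right, inner_sub_right]
    ring
  have i1 := core_inner_int hg hg.1.continuous
  have i2 := core_inner_int hg hg'.1.continuous
  have i3 := core_inner_int hg' hg.1.continuous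
  have i4 := core_inner_int hg' hg'.1.continuous
  have e2 : ((∫ x, ‖Tgen P σ g χ.fn x - Tgen P σ' g χ'.fn x‖ ^ 2 : ℝ) : ℂ) =
      (∫ x, ⟪Tgen P σ g χ.fn x, Tgen P σ g χ.fn x⟫_ℂ) -
      (∫ x, ⟪Tgen P σ g χ.fn x, Tgen P σ' g χ'.fn x⟫_ℂ) -
      (∫ x, ⟪Tgen P σ' g χ'.fn x, Tgen P σ g χ.fn x⟫_ℂ) +
      (∫ x, ⟪Tgen P σ' g χ'.fn x, Tgen P σ' g χ'.fn x⟫_ℂ) := by
    rw [← inner_self_int]
    simp only [e1]
    exact int4 i1 i2 i3 i4
  exact (congrArg Complex.re e2.symm).trans (Complex.ofReal_re _)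

/-! ## the estimate moves to another chart -/

theorem sqrt_int_le {g m : ℝ} {φ : Cfg N → F} :
    Real.sqrt (∫ x, ‖φ x‖ ^ 2) ≤ Real.sqrt (En b M G g m φ) := by
  refine Real.sqrt_le_sqrt ?_
  unfold En
  have : 0 ≤ qf b M G g m φ := by
    unfold qf
    refine mul_nonneg (by norm_num) (Finset.sum_nonneg fun α _ => integral_nonneg fun x => ?_)
    positivity
  linarith

theorem sqrt_charge_le {g m : ℝ} {α : Fin 16} {φ : Cfg N → F} :
    Real.sqrt (∫ x, ‖dcharge b M G g m α φ x‖ ^ 2) ≤ 4 * Real.sqrt (En b M G g m φ) := by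
  have h0 : ∀ β, 0 ≤ ∫ x, ‖dcharge b M G g m β φ x‖ ^ 2 := fun β =>
    integral_nonneg fun x => by positivity
  have h1 : ∫ x, ‖dcharge b M G g m α φ x‖ ^ 2 ≤ 4 ^ 2 * En b M G g m φ := by
    have h2 : ∫ x, ‖dcharge b M G g m α φ x‖ ^ 2 ≤ ∑ β, ∫ x, ‖dcharge b M G g m β φ x‖ ^ 2 :=
      Finset.single_le_sum (f := fun β => ∫ x, ‖dcharge b M G g m β φ x‖ ^ 2)
        (fun β _ => h0 β) (Finset.mem_univ α)
    have h3 : 0 ≤ ∫ x, ‖φ x‖ ^ 2 := integral_nonneg fun x => by positivity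
    unfold En qf
    linarith
  calc Real.sqrt (∫ x, ‖dcharge b M G g m α φ x‖ ^ 2)
      ≤ Real.sqrt (4 ^ 2 * En b M G g m φ) := Real.sqrt_le_sqrt h1
    _ = 4 * Real.sqrt (En b M G g m φ) := by
        rw [Real.sqrt_mul (by norm_num), Real.sqrt_sq (by norm_num)]

/-- The dual estimate for one amplitude, from the same amplitude in another chart. -/
theorem dual_move [Nontrivial F] {P : TPack C M R G} (hCh : Gram167.HChart P) {σ σ' : Sl C}
    (hD : DualAt P σ') {m : ℝ} (hm : m = 0 ∨ m = 1) (ψ : Amp M G σ) (ψ' : Amp M G σ')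
    (h : ψ.fn = ψ'.fn) (α : Fin 16) {ε : ℝ} (hε : 0 < ε) :
    ∀ᶠ g in atTop, ∀ φ : Cfg N → F, IsCoreVec b R φ →
      ‖∫ x, ⟪φ x, dcharge b M G g m α (Tgen P σ g ψ.fn) x -
        Tgen P σ g (C.Dx M G m α ψ.fn) x⟫_ℂ‖ ≤ ε * Real.sqrt (En b M G g m φ) := by
  have hδ : 0 < ε / 10 := by positivity
  have hd : (ψ.D m α).fn = (ψ'.D m α).fn := by
    show C.Dx M G m α ψ.fn = C.Dx M G m α ψ'.fn
    rw [h]
  have c1 : ∀ᶠ g in atTop,
      ∫ x, ‖Tgen P σ g ψ.fn x - Tgen P σ' g ψ'.fn x‖ ^ 2 < (ε / 10) ^ 2 :=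
    (hCh σ σ' ψ ψ' h).eventually (gt_mem_nhds (by positivity))
  have c2 : ∀ᶠ g in atTop,
      ∫ x, ‖Tgen P σ g (ψ.D m α).fn x - Tgen P σ' g (ψ'.D m α).fn x‖ ^ 2 < (ε / 10) ^ 2 :=
    (hCh σ σ' (ψ.D m α) (ψ'.D m α) hd).eventually (gt_mem_nhds (by positivity))
  filter_upwards [c1, c2, hD m hm ψ' α (ε / 2) (by positivity), TCore383.core P σ ψ,
    TCore383.core P σ' ψ', TCore383.core P σ (ψ.D m α), TCore383.core P σ' (ψ'.D m α)]
    with g g1 g2 g3 k1 k2 k3 k4 φ hφ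
  set T := Tgen P σ g ψ.fn with hT
  set T' := Tgen P σ' g ψ'.fn with hT'
  set U := Tgen P σ g (C.Dx M G m α ψ.fn) with hU
  set U' := Tgen P σ' g (C.Dx M G m α ψ'.fn) with hU'
  have k3' : IsCoreVec b R U := k3
  have k4' : IsCoreVec b R U' := k4
  have hA : IsCoreVec b R (T - T') := core_sub k1 k2
  have hB : IsCoreVec b R (U - U') := core_sub k3' k4'
  have e1 : ∀ x, ⟪φ x, dcharge b M G g m α T x - U x⟫_ℂ =
      ⟪φ x, dcharge b M G g m α T' x - U' x⟫_ℂ + ⟪φ x, dcharge b M G g m α (T - T') x⟫_ℂ -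
        ⟪φ x, (U - U') x⟫_ℂ := by
    intro x
    rw [dcharge_sub (cv_diff k1) (cv_diff k2), Pi.sub_apply, Pi.sub_apply, ← inner_add_right,
      ← inner_sub_right]
    congr 1
    abel
  have i1 : Integrable fun x => ⟪φ x, dcharge b M G g m α T' x - U' x⟫_ℂ :=
    core_inner_int hφ ((continuous_dcharge b M G g m α (cv_c1 k2)).sub k4'.1.continuous)
  have i2 : Integrable fun x => ⟪φ x, dcharge b M G g m α (T - T') x⟫_ℂ :=
    core_inner_int hφ (continuous_dcharge b M G g m α (cv_c1 hA))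
  have i3 : Integrable fun x => ⟪φ x, (U - U') x⟫_ℂ := core_inner_int hφ hB.1.continuous
  have e2 : ∫ x, ⟪φ x, dcharge b M G g m α T x - U x⟫_ℂ =
      (∫ x, ⟪φ x, dcharge b M G g m α T' x - U' x⟫_ℂ) +
        (∫ x, ⟪dcharge b M G g m α φ x, (T - T') x⟫_ℂ) - ∫ x, ⟪φ x, (U - U') x⟫_ℂ := by
    rw [dcharge_symm (cv_c1 hφ) (cv_c1 hA) (Or.inl hφ.2.1)]
    simp only [e1]
    exact int3 i1 i2 i3
  have s0 : 0 ≤ Real.sqrt (En b M G g m φ) := Real.sqrt_nonneg _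
  have b2 : ‖∫ x, ⟪dcharge b M G g m α φ x, (T - T') x⟫_ℂ‖ ≤
      4 * Real.sqrt (En b M G g m φ) * (ε / 10) := by
    refine (Gram167.norm_inner_le (core_memLp_dcharge hφ) (core_memLp hA)).trans ?_
    refine mul_le_mul sqrt_charge_le ?_ (Real.sqrt_nonneg _) (by positivity)
    rw [← Real.sqrt_sq hδ.le]
    exact Real.sqrt_le_sqrt (le_of_lt g1)
  have b3 : ‖∫ x, ⟪φ x, (U - U') x⟫_ℂ‖ ≤ Real.sqrt (En b M G g m φ) * (ε / 10) := by
    refine (Gram167.norm_inner_le (core_memLp hφ) (core_memLp hB)).trans ?_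
    refine mul_le_mul sqrt_int_le ?_ (Real.sqrt_nonneg _) s0
    rw [← Real.sqrt_sq hδ.le]
    exact Real.sqrt_le_sqrt (le_of_lt g2)
  rw [e2]
  calc ‖(∫ x, ⟪φ x, dcharge b M G g m α T' x - U' x⟫_ℂ) +
        (∫ x, ⟪dcharge b M G g m α φ x, (T - T') x⟫_ℂ) - ∫ x, ⟪φ x, (U - U') x⟫_ℂ‖
      ≤ ‖∫ x, ⟪φ x, dcharge b M G g m α T' x - U' x⟫_ℂ‖ +
        ‖∫ x, ⟪dcharge b M G g m α φ x, (T - T') x⟫_ℂ‖ + ‖∫ x, ⟪φ x, (U - U') x⟫_ℂ‖ :=
        (norm_sub_le _ _).trans (add_le_add_left (norm_add_le _ _) _)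
    _ ≤ ε / 2 * Real.sqrt (En b M G g m φ) + 4 * Real.sqrt (En b M G g m φ) * (ε / 10) +
        Real.sqrt (En b M G g m φ) * (ε / 10) := add_le_add (add_le_add (g3 φ hφ) b2) b3
    _ = ε * Real.sqrt (En b M G g m φ) := by ring

/-! ## sums of amplitudes -/

theorem Dx_sum {ι : Type*} (s : Finset ι) {f : ι → Pos p → C.Fx M G}
    (hf : ∀ i ∈ s, ContDiff ℝ ∞ (f i)) (m : ℝ) (α : Fin 16) :
    C.Dx M G m α (fun X => ∑ i ∈ s, f i X) = fun X => ∑ i ∈ s, C.Dx M G m α (f i) X := by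
  classical
  induction s using Finset.induction_on with
  | empty =>
    funext X
    simp only [Finset.sum_empty]
    have h0 : (fun _ : Pos p => (0 : C.Fx M G)) = 0 := rfl
    rw [h0]
    exact dirac_zero
  | insert i s hi ih =>
    have h1 : (fun X => ∑ j ∈ insert i s, f j X) = f i + fun X => ∑ j ∈ s, f j X := by
      funext y
      simp [Finset.sum_insert hi]
    have h2 : ∀ j ∈ s, ContDiff ℝ ∞ (f j) := fun j hj => hf j (Finset.mem_insert_of_mem hj)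
    have h3 := ih h2
    rw [h1]
    funext X
    rw [Finset.sum_insert hi, ← congrFun h3 X]
    exact dirac_add ((hf i (Finset.mem_insert_self i s)).differentiable (by simp) X)
      ((ContDiff.sum fun j hj => h2 j hj).differentiable (by simp) X)

/-- **T5-SM**: the dual estimate from one chart at every centre. -/
theorem dualT_of_small' [Nontrivial F] {P : TPack C M R G} (hCh : Gram167.HChart P)
    (hS : ∀ X0 : Pos p, C.BReg X0 → ∃ σ : Sl C, σ.X0 = X0 ∧ DualAt P σ) : DualT P := by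
  classical
  intro m hm σ χ α ε hε
  have h1 : ∀ X0 : {X : Pos p // C.BReg X}, ∃ σ : Sl C, σ.X0 = X0.1 ∧ DualAt P σ :=
    fun X0 => hS X0.1 X0.2
  choose τ hτ hD using h1
  have hcov : tsupport χ.fn ⊆ ⋃ X0 : {X : Pos p // C.BReg X},
      Metric.ball (X0 : Pos p) ((τ X0).r / 4) := by
    intro x hx
    have hr : 0 < (τ ⟨x, χ.off x hx⟩).r / 4 := by
      have := (τ ⟨x, χ.off x hx⟩).pos
      positivity
    exact Set.mem_iUnion.2 ⟨⟨x, χ.off x hx⟩, Metric.mem_ball_self hr⟩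
  obtain ⟨s, ψ, h2, h3, h4, h5⟩ := Pou365.exists_rep
    (U := fun X0 : {X : Pos p // C.BReg X} => Metric.ball (X0 : Pos p) ((τ X0).r / 4))
    (fun X0 => Metric.isOpen_ball) χ.smooth χ.compact hcov
  -- the pieces as amplitudes of both charts
  let A : {X : Pos p // C.BReg X} → Amp M G σ := fun i =>
    ⟨ψ i, h2 i, (h4 i).trans (Set.inter_subset_right.trans χ.supp), fun X hX => χ.off X (h4 i hX).2⟩
  let B : ∀ i : {X : Pos p // C.BReg X}, Amp M G (τ i) := fun i =>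
    ⟨ψ i, h2 i, by rw [hτ i]; exact (h4 i).trans Set.inter_subset_left,
      fun X hX => χ.off X (h4 i hX).2⟩
  have hc : 0 < ε / (s.card + 1) := by positivity
  have h6 : ∀ᶠ g in atTop, ∀ i ∈ s, ∀ φ : Cfg N → F, IsCoreVec b R φ →
      ‖∫ x, ⟪φ x, dcharge b M G g m α (Tgen P σ g (A i).fn) x -
        Tgen P σ g (C.Dx M G m α (A i).fn) x⟫_ℂ‖ ≤
        ε / (s.card + 1) * Real.sqrt (En b M G g m φ) :=
    (eventually_all_finset s).2 fun i _ => dual_move hCh (hD i) hm (A i) (B i) rfl α hc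
  have h7 : ∀ᶠ g in atTop, ∀ i ∈ s, IsCoreVec b R (Tgen P σ g (A i).fn) :=
    (eventually_all_finset s).2 fun i _ => TCore383.core P σ (A i)
  have h8 : ∀ᶠ g in atTop, ∀ i ∈ s, IsCoreVec b R (Tgen P σ g (C.Dx M G m α (A i).fn)) :=
    (eventually_all_finset s).2 fun i _ => TCore383.core P σ ((A i).D m α)
  filter_upwards [h6, h7, h8] with g g1 g2 g3 φ hφ
  have hχ : χ.fn = fun X => ∑ i ∈ s, (A i).fn X := funext h5
  have e1 : ∀ x, Tgen P σ g χ.fn x = ∑ i ∈ s, (1 : ℂ) • Tgen P σ g (A i).fn x := by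
    intro x
    rw [hχ, Perm167.Tgen_sum]
    simp
  have e2 : ∀ x, Tgen P σ g (C.Dx M G m α χ.fn) x =
      ∑ i ∈ s, Tgen P σ g (C.Dx M G m α (A i).fn) x := by
    intro x
    rw [hχ, Dx_sum s (fun i _ => (A i).smooth) m α, Perm167.Tgen_sum]
  have e3 : ∀ x, dcharge b M G g m α (Tgen P σ g χ.fn) x =
      ∑ i ∈ s, dcharge b M G g m α (Tgen P σ g (A i).fn) x := by
    intro x
    have e4 : Tgen P σ g χ.fn = fun x => ∑ i ∈ s, (1 : ℂ) • Tgen P σ g (A i).fn x := funext e1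
    rw [e4, FreeX399.dcharge_sum s (fun _ => (1 : ℂ)) (fun i hi => cv_diff (g2 i hi))]
    simp
  have e5 : ∀ x, ⟪φ x, dcharge b M G g m α (Tgen P σ g χ.fn) x -
      Tgen P σ g (C.Dx M G m α χ.fn) x⟫_ℂ = ∑ i ∈ s, ⟪φ x,
        dcharge b M G g m α (Tgen P σ g (A i).fn) x -
          Tgen P σ g (C.Dx M G m α (A i).fn) x⟫_ℂ := by
    intro x
    rw [e3, e2, ← Finset.sum_sub_distrib, inner_sum]
  have hI : ∀ i ∈ s, Integrable fun x => ⟪φ x,
      dcharge b M G g m α (Tgen P σ g (A i).fn) x -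
        Tgen P σ g (C.Dx M G m α (A i).fn) x⟫_ℂ := fun i hi =>
    core_inner_int hφ ((continuous_dcharge b M G g m α (cv_c1 (g2 i hi))).sub
      (g3 i hi).1.continuous)
  simp only [e5]
  rw [integral_finsetSum _ hI]
  have s0 : 0 ≤ Real.sqrt (En b M G g m φ) := Real.sqrt_nonneg _
  have hcard : (0 : ℝ) < s.card + 1 := by positivity
  calc ‖∑ i ∈ s, ∫ x, ⟪φ x, dcharge b M G g m α (Tgen P σ g (A i).fn) x -
        Tgen P σ g (C.Dx M G m α (A i).fn) x⟫_ℂ‖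
      ≤ ∑ i ∈ s, ε / (s.card + 1) * Real.sqrt (En b M G g m φ) :=
        (norm_sum_le _ _).trans (Finset.sum_le_sum fun i hi => g1 i hi φ hφ)
    _ = s.card / (s.card + 1) * (ε * Real.sqrt (En b M G g m φ)) := by
        rw [Finset.sum_const, nsmul_eq_mul]
        ring
    _ ≤ 1 * (ε * Real.sqrt (En b M G g m φ)) := by
        refine mul_le_mul_of_nonneg_right ?_ (by positivity)
        rw [div_le_one hcard]
        linarith
    _ = ε * Real.sqrt (En b M G g m φ) := one_mul _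

/-- **T5-SM** in 714's form. -/
theorem dualT_of_small [Nontrivial F] {P : TPack C M R G} (hG : GramT P)
    (hS : ∀ X0 : Pos p, C.BReg X0 → ∃ σ : Sl C, σ.X0 = X0 ∧ DualAt P σ) : DualT P :=
  dualT_of_small' (hchart_of_gramT hG) hS

end Crest.Agent.R330.T5Sm478

end
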