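import Crest.Agent.R330.FibQ_581

/-!
# Row 330, S7-R (helper581): `lemF`, constants independent of the parity

* `sign_near'` : one sign, the radius does not depend on `Γ`.
* `lemF` : 342's input of Lemma R.
-/

set_option autoImplicit false
set_option linter.unusedSectionVars false
set_option linter.unusedVariables false

open MeasureTheory Filter Topology Crest.MathPhysics.MatrixQM
open Crest.Agent.R330.IBP837 Crest.Agent.R330.Defs478 Crest.Agent.R330.Frame839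
open Crest.Agent.R330.LS839 Crest.Agent.R330.Clus839 Crest.Agent.R330.Bind6839
open Crest.Agent.R330.Cliff442 Crest.Agent.R330.AX984 Crest.Agent.R330.GBind984
open Crest.Agent.R330.Fib892 Crest.Agent.R330.FactI161 Crest.Agent.R330.ParVac581
open Crest.Agent.R330.SqrtPD984 Crest.Agent.R330.GPar984
open Crest.Agent.R330.Transp491 Crest.Agent.R330.Transp2491 Crest.Agent.R330.Transp3491
open Crest.Agent.R330.FibJ581 Crest.Agent.R330.FibP581
open scoped ContDiff InnerProductSpace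

noncomputable section

namespace Crest.Agent.R330.LemF581

section abs

variable {V F : Type*} [NormedAddCommGroup V] [InnerProductSpace ℝ V] [FiniteDimensional ℝ V]
  [NormedAddCommGroup F] [InnerProductSpace ℂ F] [FiniteDimensional ℂ F] {M : CRep V F}

/-- The sign is locally constant, uniformly in the parity. -/
theorem par_near' [Nontrivial F] (hI : M.Irr) {T : Type*} [NormedAddCommGroup T] [NormedSpace ℝ T]
    {Jt : T → V →ₗ[ℝ] V} {t₀ : T} (hc : ∀ y, ContDiffAt ℝ 0 (fun t => Jt t y) t₀)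
    (h0 : PCS (Jt t₀)) :
    ∀ᶠ t in 𝓝 t₀, ∀ Γ : F →ₗ[ℂ] F, (∀ g ∈ M.vacJ (Jt t₀), Γ g = g) → PCS (Jt t) →
      Par M (Jt t) Γ → ∀ g ∈ M.vacJ (Jt t), Γ g = g := by
  obtain ⟨f, hf, hf0⟩ := (Submodule.ne_bot_iff _).1 (CRep.vacJ_ne_bot (M := M) h0)
  have h2 : ContinuousAt (fun t => M.proj (Jt t) f) t₀ :=
    (M.contDiffAt_proj (n := 0) hc contDiffAt_const).continuousAt
  have h3 : M.proj (Jt t₀) f ≠ 0 := by rwa [M.proj_of_mem h0 hf]
  filter_upwards [h2.eventually_ne h3] with t ht Γ h1 hJ hP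
  exact par_pos hI hJ hP (h1 f hf) ht

end abs

section lit

variable {N : ℕ} {b : ColorBasis N} {c : Cfg N} {G : GammaNine}
  {F : Type*} [NormedAddCommGroup F] [InnerProductSpace ℂ F] [FiniteDimensional ℂ F]
  {M : FermionRep N F} {σ : Ten (Fin 16) (Colg N) (W16 N)}

/-- **One sign for the whole chart**, radius independent of the parity. -/
theorem sign_near' [Nontrivial F] (M : FermionRep N F) (G : GammaNine)
    (hσ : ∀ β x, σ.pr β x = row β x) (hc : Comc b c) :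
    ∃ η : ℝ, 0 < η ∧ ∀ Γ : F →ₗ[ℂ] F, LemA342.IsPar b c M Γ →
      (∀ f ∈ (cr M).vacJ (Jm G σ (kc (actB b) c) (adX b c)), Γ f = f) →
      ∀ X : Cfg N, Comc b X → kc (actB b) X = kc (actB b) c → ‖X - c‖ ≤ η →
      ∀ f ∈ (cr M).vacJ (Jm G σ (kc (actB b) X) (adX b X)), Γ f = f := by
  obtain ⟨s, hs, h⟩ := exists_fam b hc
  have h2 : ∀ y, ContDiffAt ℝ 0 (fun X => Jm G σ (kc (actB b) c) (adX b X) y) c := fun y =>
    (contDiffAt_Jm G σ (m := 1) (by simp) (h.ll_pd hs)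
      (Eventually.of_forall fun X => adX_skew b X)
      (fun i => (contDiff_adX b i).contDiffAt) y).of_le (by simp)
  have h3 := par_near' (M := cr M) (cr_irr' (M := M)) h2 (Jm_pcs G σ h hs)
  obtain ⟨η, hη, h4⟩ := Metric.eventually_nhds_iff_ball.1 h3
  refine ⟨η / 2, half_pos hη, fun Γ hΓ h1 X hX hk hn f hf => ?_⟩
  obtain ⟨s', hs', h'⟩ := fam_of_eq hX hk
  rw [hk] at hf
  refine h4 X ?_ Γ h1 (Jm_pcs G σ h' hs') (par_of hσ hs' h' hΓ) f hf
  rw [Metric.mem_ball, dist_eq_norm]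
  linarith

variable {r B : ℝ}

/-- `FibP581.fibP` with constants independent of the parity. -/
theorem fibP' (M : FermionRep N F) (G : GammaNine) (hr0 : 0 < r) (hr : GapAt (actB b) c r)
    (hB : ActBound (actB b) B) (hB0 : 0 ≤ B) (hc : Comc b c) [Nontrivial F] :
    ∃ η : ℝ, 0 < η ∧ ∃ K : ℝ, 0 ≤ K ∧ ∀ Γ : F →ₗ[ℂ] F, LemA342.IsPar b c M Γ →
      (∀ f ∈ (cr M).vacJ (FibP581.JX b G c c), Γ f = f) →
      ∀ p : Cfg N, ‖p - c‖ ≤ η → B * ‖p - c‖ ≤ r / 2 →
      ∀ (κ κ' : Type) [Fintype κ] [Fintype κ'] (v : OrthonormalBasis κ ℝ (Zs b c))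
      (t : OrthonormalBasis κ' ℝ (Tn (actB b) c)) (g : ℝ), 0 < g →
      ∀ f : Zs b c → F, ContDiff ℝ 2 f → HasCompactSupport f →
      Fibp b c M G Γ K v t g p f := by
  obtain ⟨η1, hη1, K1, hK1, h1⟩ := at_X M G hr0 hr hB hB0 hc
  obtain ⟨η2, hη2, K', hK', h2⟩ := F1b581.fibre (F := F) b M G hr0 hB0 hB hK1
  obtain ⟨η3, hη3, h3'⟩ := sign_near' (b := b) (c := c) (σ := tenS N) M G tenS_pr hc
  refine ⟨min η1 (min η2 η3), lt_min hη1 (lt_min hη2 hη3), K', hK', fun Γ hΓ hv p hp hpB κ κ' _ _ v t g hg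
    f hf hfc => ?_⟩
  have eJ : FibP581.JX b G c c = Jm G (tenS N) (kc (actB b) c) (adX b c) := rfl
  rw [eJ] at hv
  have h3 := h3' Γ hΓ hv
  have hp1 : ‖p - c‖ ≤ η1 := hp.trans (min_le_left _ _)
  have hp2 : ‖p - c‖ ≤ η2 := hp.trans ((min_le_right _ _).trans (min_le_left _ _))
  have hp3 : ‖p - c‖ ≤ η3 := hp.trans ((min_le_right _ _).trans (min_le_right _ _))
  set X := Ctr581.X b c p with hX
  have hXc : ‖X - c‖ ≤ ‖p - c‖ := Ctr581.norm_X_sub_le p
  have hXp : ‖p - X‖ ≤ ‖p - c‖ := Ctr581.norm_sub_X_le p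
  have hXB : B * ‖X - c‖ ≤ r / 2 := (mul_le_mul_of_nonneg_left hXc hB0).trans hpB
  have hXm := Ctr581.X_mem hc p
  have hcX := Ctr581.comc_X hc p
  have hk := Ctr581.kc_eq_of hc hr0 hr hB hXm hXB
  obtain ⟨hF1, hF2⟩ := h1 X (Ctr581.X_mem_Uk hc p) hcX hk (hXc.trans hp1) hXB κ κ' v t g hg f hf
    hfc
  obtain ⟨a1, a2, a3⟩ := h2 g hg.le c hr κ κ' v t p X hpB hXB (hXp.trans hp2) f
    (hf.of_le (by norm_num)) hfc hF1
  refine ⟨a1, fun hodd => a3 ?_, a2 _ hF2⟩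
  -- the odd part has no vacuum component
  obtain ⟨s, hs, hfam⟩ := fam_of_eq hcX hk
  have hvX : ∀ f ∈ (cr M).vacJ (FibP581.JX b G c X), Γ f = f := by
    have eX : FibP581.JX b G c X = Jm G (tenS N) (kc (actB b) X) (adX b X) := by
      rw [hk]
      rfl
    rw [eX]
    exact h3 X hcX hk (hXc.trans hp3)
  have hcont : Continuous (gX b c g X) := by
    unfold gX QX
    fun_prop
  have hint : Integrable fun y : Zs b c => gX b c g X y • f y :=
    Continuous.integrable_of_hasCompactSupport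
      ((hcont.comp continuous_subtype_val).smul hf.continuous) (hfc.smul_left)
  have hz : ∀ z, PrK (Zs b c) (gX b c g X) ((cr M).proj (FibP581.JX b G c X)) f z = 0 := fun z =>
    PrK_odd (J := FibP581.JX b G c X) (pcs_Jl hfam hs G) hΓ.symm hvX (Zs b c)
      (gX b c g X) hint hodd z
  simpa only [hz, sub_zero] using hF2


/-- **342's input of Lemma R.** -/
theorem lemF (b : ColorBasis N) (M : FermionRep N F) (G : GammaNine) {c : Cfg N} (hc : Comc b c)
    [Nontrivial F] {r B : ℝ} (hr0 : 0 < r) (hr : GapAt (actB b) c r) (hB : ActBound (actB b) B)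
    (hB0 : 0 ≤ B) :
    ∃ ρ : ℝ, 0 < ρ ∧ B * ρ ≤ r / 2 ∧ ∃ K : ℝ, 0 ≤ K ∧ ∀ Γ : F →ₗ[ℂ] F, LemA342.IsPar b c M Γ →
      (∀ f ∈ (cr M).vacJ (FibP581.JX b G c c), Γ f = f) → FibQ581.FibPack b c M G Γ ρ K := by
  obtain ⟨η1, hη1, K, hK, H'⟩ := fibP' M G hr0 hr hB hB0 hc
  have hB1 : 0 < B + 1 := by linarith
  set η := min η1 (r / (2 * (B + 1))) with hη
  have hη0 : 0 < η := lt_min hη1 (by positivity)
  have hBη : B * η ≤ r / 2 := by
    have h1 : η ≤ r / (2 * (B + 1)) := min_le_right _ _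
    have h2 : B * η ≤ (B + 1) * (r / (2 * (B + 1))) := by
      have h3 : 0 ≤ r / (2 * (B + 1)) := by positivity
      nlinarith
    refine h2.trans (le_of_eq ?_)
    field_simp
  have hp : ∀ u : Uk b c, ‖u‖ ≤ η → ‖c + (u : Cfg N) - c‖ ≤ η1 ∧
      B * ‖c + (u : Cfg N) - c‖ ≤ r / 2 := by
    intro u hu
    rw [add_sub_cancel_left]
    exact ⟨hu.trans (min_le_left _ _), (mul_le_mul_of_nonneg_left hu hB0).trans hBη⟩
  refine ⟨η, hη0, hBη, K, hK, fun Γ hΓ hv => ⟨?_, ?_, ?_⟩⟩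
  · intro κ κ' _ _ v t g hg u hu f hf hfc
    obtain ⟨h1, h2⟩ := hp u hu
    exact (H' Γ hΓ hv (c + u) h1 h2 κ κ' v t g hg f hf hfc).F2
  · intro κ κ' _ _ v t g hg μU _
    refine LemC342.oddIneq_of_fibre v t hr0 hr hB hBη hB0 (μZ := volume) ?_
    intro u hu f hf hfc hodd
    obtain ⟨h1, h2⟩ := hp u hu
    exact (H' Γ hΓ hv (c + u) h1 h2 κ κ' v t g hg f hf hfc).F1o hodd
  · intro κ κ' _ _ v t g hg u hu f hf hfc
    obtain ⟨h1, h2⟩ := hp u hu
    exact (H' Γ hΓ hv (c + u) h1 h2 κ κ' v t g hg f hf hfc).F1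

end lit

end Crest.Agent.R330.LemF581

end
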