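import Mathlib

/-!
# Hardy inequalities for vector valued functions (helper151)

`E` a finite dimensional real normed space with a Haar measure, `F` a real (or complex) inner product
space, `f : E → F` of class `C¹` with compact support, `v : κ → E` a finite family of directions.

* `ibp_sq` : `∫ c 2⟪f, ∂_v f⟫ = - ∫ (∂_v c) ‖f‖²`.
* `expand` : `∫ ω ∑ ‖∂_k f + X_k f‖² = ∫ ω ∑ ‖∂_k f‖² - ∫ (∑ ∂_k (ω X_k) - ω ∑ X_k²) ‖f‖²`.
* `hardy_gen` : `∫ (∑ ∂_k (ω X_k) - ω ∑ X_k²) ‖f‖² ≤ ∫ ω ∑ ‖∂_k f‖²`.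
* `hardy_weight` : weights `(|y|² + δ)^s`, `y` the coordinates along an orthonormal family (from any
  centre), `a = s + (k - 2)/2 ∈ [0, k]`: `a² ∫ (|y|²+δ)^(s-1) ‖f‖² ≤ ∫ (|y|²+δ)^s ∑ ‖∂_k f‖²`.
* `hardy` : `((k-2)/2)² ∫ ‖f‖²/(|y|²+δ) ≤ ∫ ∑ ‖∂_k f‖²`.
-/

set_option autoImplicit false
set_option linter.unusedSectionVars false
set_option linter.overlappingInstances false

open MeasureTheory Filter Topology Set
open scoped InnerProductSpace

noncomputable section

namespace Crest.Agent.R330.Hardy151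

section general

variable {E F : Type*} [NormedAddCommGroup E] [NormedSpace ℝ E] [MeasurableSpace E] [BorelSpace E]
  [FiniteDimensional ℝ E] {μ : Measure E} [μ.IsAddHaarMeasure]
  [NormedAddCommGroup F] [InnerProductSpace ℝ F]

omit [FiniteDimensional ℝ E] in
/-- Functions continuous on the support of `f` and vanishing outside are integrable. -/
theorem integrable_of_supp {G : Type*} [NormedAddCommGroup G]
    {K : Set E} (hK : IsCompact K) {g : E → G} (hg : ContinuousOn g K) (h0 : ∀ x ∉ K, g x = 0) :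
    Integrable g μ := by
  have h1 : IntegrableOn g K μ := hg.integrableOn_compact hK
  refine (integrableOn_iff_integrable_of_support_subset fun x hx => ?_).1 h1
  by_contra h'
  exact hx (h0 x h')

/-- `∂_v ‖f‖² = 2 ⟪f, ∂_v f⟫`. -/
theorem fderiv_normSq {f : E → F} {x : E} (hf : DifferentiableAt ℝ f x) (v : E) :
    fderiv ℝ (fun y => ‖f y‖ ^ 2) x v = 2 * ⟪f x, fderiv ℝ f x v⟫_ℝ := by
  rw [(hf.hasFDerivAt.norm_sq).fderiv]
  simp [two_smul, two_mul]

variable {f : E → F} (hf : ContDiff ℝ 1 f) (hc : HasCompactSupport f)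
include hf hc

omit [MeasurableSpace E] [BorelSpace E] [FiniteDimensional ℝ E] hf hc in
theorem zero_of_notMem {x : E} (hx : x ∉ tsupport f) : f x = 0 := image_eq_zero_of_notMem_tsupport hx

omit [MeasurableSpace E] [BorelSpace E] [FiniteDimensional ℝ E] hf hc in
theorem fderiv_zero_of_notMem {x : E} (hx : x ∉ tsupport f) : fderiv ℝ f x = 0 := by
  by_contra h'
  exact hx (support_fderiv_subset ℝ h')

/-- **Integration by parts** for `‖f‖²`. -/
theorem ibp_sq {c : E → ℝ} (hcd : ∀ x ∈ tsupport f, ContDiffAt ℝ 1 c x) (v : E) :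
    ∫ x, c x * (2 * ⟪f x, fderiv ℝ f x v⟫_ℝ) ∂μ = - ∫ x, fderiv ℝ c x v * ‖f x‖ ^ 2 ∂μ := by
  have hK : IsCompact (tsupport f) := hc
  have hfc : Continuous f := hf.continuous
  have hfd : Continuous fun x => fderiv ℝ f x v :=
    (hf.continuous_fderiv one_ne_zero).clm_apply continuous_const
  have hcc : ContinuousOn c (tsupport f) := fun x hx => (hcd x hx).continuousAt.continuousWithinAt
  have hcd' : ContinuousOn (fun x => fderiv ℝ c x v) (tsupport f) := fun x hx => by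
    have h1 : ContinuousAt (fderiv ℝ c) x := (hcd x hx).continuousAt_fderiv (by simp)
    exact (h1.clm_apply continuousAt_const).continuousWithinAt
  have hsub : tsupport (fun y => ‖f y‖ ^ 2) ⊆ tsupport f := by
    refine closure_mono fun x hx h' => hx ?_
    simp [h']
  have e : ∀ x, fderiv ℝ (fun y => ‖f y‖ ^ 2) x v = 2 * ⟪f x, fderiv ℝ f x v⟫_ℝ := fun x =>
    fderiv_normSq (hf.differentiable (by simp) x) v
  have h1 := integral_mul_fderiv_eq_neg_fderiv_mul_of_integrable (μ := μ) (f := c)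
    (g := fun y => ‖f y‖ ^ 2) (v := v) ?_ ?_ ?_ ?_ ?_
  · simp only [e] at h1
    exact h1
  · refine integrable_of_supp hK (hcd'.mul (hfc.norm.pow 2).continuousOn) fun x hx => ?_
    rw [zero_of_notMem hx]
    simp
  · simp only [e]
    refine integrable_of_supp hK
      (hcc.mul ((continuous_const.mul (hfc.inner hfd)).continuousOn)) fun x hx => ?_
    rw [zero_of_notMem hx]
    simp
  · refine integrable_of_supp hK (hcc.mul (hfc.norm.pow 2).continuousOn) fun x hx => ?_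
    rw [zero_of_notMem hx]
    simp
  · exact fun x hx => (hcd x (hsub hx)).differentiableAt (by simp)
  · exact fun x _ => (hf.differentiable (by simp) x).norm_sq ℝ

variable {κ : Type*} [Fintype κ] {v : κ → E} {X : κ → E → ℝ} {w : E → ℝ}

/-- **Completing the square.** -/
theorem expand (hX : ∀ k, ∀ x ∈ tsupport f, ContDiffAt ℝ 1 (X k) x)
    (hw : ∀ x ∈ tsupport f, ContDiffAt ℝ 1 w x) :
    ∫ x, w x * ∑ k, ‖fderiv ℝ f x (v k) + X k x • f x‖ ^ 2 ∂μ =
      ∫ x, w x * ∑ k, ‖fderiv ℝ f x (v k)‖ ^ 2 ∂μ -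
      ∫ x, (∑ k, fderiv ℝ (fun y => w y * X k y) x (v k) - w x * ∑ k, X k x ^ 2) *
        ‖f x‖ ^ 2 ∂μ := by
  have hK : IsCompact (tsupport f) := hc
  have hfc : Continuous f := hf.continuous
  have hfd : ∀ v, Continuous fun x => fderiv ℝ f x v := fun v =>
    (hf.continuous_fderiv one_ne_zero).clm_apply continuous_const
  have hwc : ContinuousOn w (tsupport f) := fun x hx => (hw x hx).continuousAt.continuousWithinAt
  have hXc : ∀ k, ContinuousOn (X k) (tsupport f) := fun k x hx =>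
    (hX k x hx).continuousAt.continuousWithinAt
  have hwX : ∀ k, ∀ x ∈ tsupport f, ContDiffAt ℝ 1 (fun y => w y * X k y) x := fun k x hx =>
    (hw x hx).mul (hX k x hx)
  have hd : ∀ k, ContinuousOn (fun x => fderiv ℝ (fun y => w y * X k y) x (v k)) (tsupport f) :=
    fun k x hx => by
      have h1 : ContinuousAt (fderiv ℝ (fun y => w y * X k y)) x :=
        (hwX k x hx).continuousAt_fderiv (by simp)
      exact (h1.clm_apply continuousAt_const).continuousWithinAt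
  have i1 : Integrable (fun x => w x * ∑ k, ‖fderiv ℝ f x (v k)‖ ^ 2) μ := by
    refine integrable_of_supp hK (hwc.mul (continuous_finsetSum _ fun k _ =>
      (hfd (v k)).norm.pow 2).continuousOn) fun x hx => ?_
    rw [fderiv_zero_of_notMem hx]
    simp
  have i2 : ∀ k, Integrable (fun x => w x * X k x * (2 * ⟪f x, fderiv ℝ f x (v k)⟫_ℝ)) μ := by
    intro k
    refine integrable_of_supp hK ((hwc.mul (hXc k)).mul
      ((continuous_const.mul (hfc.inner (hfd (v k)))).continuousOn)) fun x hx => ?_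
    rw [zero_of_notMem hx]
    simp
  have i3 : Integrable (fun x => w x * (∑ k, X k x ^ 2) * ‖f x‖ ^ 2) μ := by
    refine integrable_of_supp hK ((hwc.mul (continuousOn_finsetSum _ fun k _ =>
      (hXc k).pow 2)).mul (hfc.norm.pow 2).continuousOn) fun x hx => ?_
    rw [zero_of_notMem hx]
    simp
  have i4 : ∀ k, Integrable (fun x => fderiv ℝ (fun y => w y * X k y) x (v k) * ‖f x‖ ^ 2) μ := by
    intro k
    refine integrable_of_supp hK ((hd k).mul (hfc.norm.pow 2).continuousOn) fun x hx => ?_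
    rw [zero_of_notMem hx]
    simp
  have e1 : ∀ x, w x * ∑ k, ‖fderiv ℝ f x (v k) + X k x • f x‖ ^ 2 =
      (w x * ∑ k, ‖fderiv ℝ f x (v k)‖ ^ 2 +
        ∑ k, w x * X k x * (2 * ⟪f x, fderiv ℝ f x (v k)⟫_ℝ)) +
        w x * (∑ k, X k x ^ 2) * ‖f x‖ ^ 2 := by
    intro x
    have : ∀ k, ‖fderiv ℝ f x (v k) + X k x • f x‖ ^ 2 = ‖fderiv ℝ f x (v k)‖ ^ 2 +
        X k x * (2 * ⟪f x, fderiv ℝ f x (v k)⟫_ℝ) + X k x ^ 2 * ‖f x‖ ^ 2 := by
      intro k
      rw [norm_add_sq_real, inner_smul_right, real_inner_comm, norm_smul, mul_pow, Real.norm_eq_abs,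
        sq_abs]
      ring
    simp only [this, Finset.sum_add_distrib, mul_add, Finset.mul_sum, Finset.sum_mul]
    congr 1
    · congr 1
      exact Finset.sum_congr rfl fun k _ => by ring
    · exact Finset.sum_congr rfl fun k _ => by ring
  have e2 : ∀ x, (∑ k, fderiv ℝ (fun y => w y * X k y) x (v k) - w x * ∑ k, X k x ^ 2) *
      ‖f x‖ ^ 2 = (∑ k, fderiv ℝ (fun y => w y * X k y) x (v k) * ‖f x‖ ^ 2) -
        w x * (∑ k, X k x ^ 2) * ‖f x‖ ^ 2 := by
    intro x
    rw [sub_mul, Finset.sum_mul]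
  simp only [e1, e2]
  have j2 : Integrable (fun x => ∑ k, w x * X k x * (2 * ⟪f x, fderiv ℝ f x (v k)⟫_ℝ)) μ :=
    integrable_finsetSum _ fun k _ => i2 k
  have j4 : Integrable (fun x => ∑ k, fderiv ℝ (fun y => w y * X k y) x (v k) * ‖f x‖ ^ 2) μ :=
    integrable_finsetSum _ fun k _ => i4 k
  have j1 : Integrable (fun x => w x * ∑ k, ‖fderiv ℝ f x (v k)‖ ^ 2 +
      ∑ k, w x * X k x * (2 * ⟪f x, fderiv ℝ f x (v k)⟫_ℝ)) μ := i1.add j2
  rw [integral_add j1 i3, integral_add i1 j2, integral_sub j4 i3,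
    integral_finsetSum _ fun k _ => i2 k, integral_finsetSum _ fun k _ => i4 k]
  have e3 : ∑ k, ∫ x, w x * X k x * (2 * ⟪f x, fderiv ℝ f x (v k)⟫_ℝ) ∂μ =
      -∑ k, ∫ x, fderiv ℝ (fun y => w y * X k y) x (v k) * ‖f x‖ ^ 2 ∂μ := by
    rw [← Finset.sum_neg_distrib]
    exact Finset.sum_congr rfl fun k _ => ibp_sq hf hc (hwX k) (v k)
  rw [e3]
  ring

/-- **General Hardy inequality.** -/
theorem hardy_gen (hX : ∀ k, ∀ x ∈ tsupport f, ContDiffAt ℝ 1 (X k) x)
    (hw : ∀ x ∈ tsupport f, ContDiffAt ℝ 1 w x) (h0 : ∀ x ∈ tsupport f, 0 ≤ w x) :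
    ∫ x, (∑ k, fderiv ℝ (fun y => w y * X k y) x (v k) - w x * ∑ k, X k x ^ 2) *
        ‖f x‖ ^ 2 ∂μ ≤ ∫ x, w x * ∑ k, ‖fderiv ℝ f x (v k)‖ ^ 2 ∂μ := by
  have h1 := expand (μ := μ) hf hc (v := v) hX hw
  have h2 : 0 ≤ ∫ x, w x * ∑ k, ‖fderiv ℝ f x (v k) + X k x • f x‖ ^ 2 ∂μ := by
    refine integral_nonneg fun x => ?_
    by_cases hx : x ∈ tsupport f
    · exact mul_nonneg (h0 x hx) (Finset.sum_nonneg fun k _ => sq_nonneg _)
    · show 0 ≤ w x * ∑ k, ‖fderiv ℝ f x (v k) + X k x • f x‖ ^ 2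
      rw [fderiv_zero_of_notMem hx, zero_of_notMem hx]
      simp
  linarith

end general

/-! ### Orthonormal families -/

section radial

variable {E F : Type*} [NormedAddCommGroup E] [InnerProductSpace ℝ E] [MeasurableSpace E]
  [BorelSpace E] [FiniteDimensional ℝ E] {μ : Measure E} [μ.IsAddHaarMeasure]
  [NormedAddCommGroup F] [InnerProductSpace ℝ F] {κ : Type*} [Fintype κ] {v : κ → E} {c : κ → ℝ}

/-- Coordinate along `v k`, from the centre `c`. -/
def yc (v : κ → E) (c : κ → ℝ) (k : κ) (x : E) : ℝ := ⟪v k, x⟫_ℝ - c k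

/-- Squared distance to the flat `⟪v k, x⟫ = c k`. -/
def r2 (v : κ → E) (c : κ → ℝ) (x : E) : ℝ := ∑ k, yc v c k x ^ 2

omit [MeasurableSpace E] [BorelSpace E] [FiniteDimensional ℝ E] in
theorem r2_nonneg (x : E) : 0 ≤ r2 v c x := Finset.sum_nonneg fun _ _ => sq_nonneg _

omit [MeasurableSpace E] [BorelSpace E] [FiniteDimensional ℝ E] [Fintype κ] in
theorem hasFDerivAt_yc (k : κ) (x : E) : HasFDerivAt (yc v c k) (innerSL ℝ (v k)) x :=
  ((innerSL ℝ (v k)).hasFDerivAt).sub_const (c k)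

omit [MeasurableSpace E] [BorelSpace E] [FiniteDimensional ℝ E] [Fintype κ] in
theorem contDiff_yc (k : κ) {n : WithTop ℕ∞} : ContDiff ℝ n (yc v c k) :=
  (innerSL ℝ (v k)).contDiff.sub contDiff_const

omit [MeasurableSpace E] [BorelSpace E] [FiniteDimensional ℝ E] in
theorem contDiff_r2 {n : WithTop ℕ∞} : ContDiff ℝ n (r2 v c) :=
  ContDiff.sum fun k _ => (contDiff_yc k).pow 2

omit [MeasurableSpace E] [BorelSpace E] [FiniteDimensional ℝ E] in
theorem hasFDerivAt_r2 (x : E) :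
    HasFDerivAt (r2 v c) (∑ k, (2 * yc v c k x) • innerSL ℝ (v k)) x := by
  have h1 : HasFDerivAt (fun y => ∑ k, yc v c k y ^ 2)
      (∑ k, ((2 : ℕ) * yc v c k x ^ (2 - 1)) • innerSL ℝ (v k)) x :=
    HasFDerivAt.fun_sum fun k _ => by
      simpa using (hasFDerivAt_yc (v := v) (c := c) k x).pow 2
  have h2 : ∑ k, ((2 : ℕ) * yc v c k x ^ (2 - 1)) • innerSL ℝ (v k) =
      ∑ k, (2 * yc v c k x) • innerSL ℝ (v k) := by simp
  rw [h2] at h1
  exact h1

omit [MeasurableSpace E] [BorelSpace E] [FiniteDimensional ℝ E] in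
theorem hasFDerivAt_rho (δ p : ℝ) {x : E} (hx : 0 < r2 v c x + δ) :
    HasFDerivAt (fun y => (r2 v c y + δ) ^ p)
      ((p * (r2 v c x + δ) ^ (p - 1)) • ∑ k, (2 * yc v c k x) • innerSL ℝ (v k)) x :=
  ((hasFDerivAt_r2 x).add_const δ).rpow_const (Or.inl hx.ne')

omit [MeasurableSpace E] [BorelSpace E] [FiniteDimensional ℝ E] in
theorem contDiffAt_rho (δ p : ℝ) {x : E} (hx : 0 < r2 v c x + δ) :
    ContDiffAt ℝ 1 (fun y => (r2 v c y + δ) ^ p) x :=
  ((contDiff_r2.contDiffAt).add contDiffAt_const).rpow_const_of_ne hx.ne'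

omit [MeasurableSpace E] [BorelSpace E] [FiniteDimensional ℝ E] in
/-- The derivative of `|y|²` in the direction `v j`. -/
theorem sum_inner (hv : Orthonormal ℝ v) (j : κ) (x : E) :
    (∑ k, (2 * yc v c k x) • innerSL ℝ (v k)) (v j) = 2 * yc v c j x := by
  classical
  rw [sum_apply]
  simp only [smul_apply, innerSL_apply_apply, smul_eq_mul]
  rw [Finset.sum_eq_single j]
  · rw [orthonormal_iff_ite.1 hv j j, if_pos rfl, mul_one]
  · intro k _ hk
    rw [orthonormal_iff_ite.1 hv k j, if_neg hk, mul_zero]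
  · exact fun h => absurd (Finset.mem_univ j) h

variable {f : E → F} (hf : ContDiff ℝ 1 f) (hc : HasCompactSupport f) (hv : Orthonormal ℝ v)
include hf hc hv

/-- **Weighted Hardy inequality**, regularised; `a = s + (k - 2)/2`. -/
theorem hardy_weight {s δ a : ℝ} (ha : a = s + ((Fintype.card κ : ℝ) - 2) / 2) (ha0 : 0 ≤ a)
    (ha1 : a ≤ Fintype.card κ) (hδ : 0 ≤ δ) (hρ : ∀ x ∈ tsupport f, 0 < r2 v c x + δ) :
    a ^ 2 * ∫ x, (r2 v c x + δ) ^ (s - 1) * ‖f x‖ ^ 2 ∂μ ≤
      ∫ x, (r2 v c x + δ) ^ s * ∑ k, ‖fderiv ℝ f x (v k)‖ ^ 2 ∂μ := by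
  classical
  have hK : IsCompact (tsupport f) := hc
  have hX : ∀ k, ∀ x ∈ tsupport f,
      ContDiffAt ℝ 1 (fun y => a * yc v c k y * (r2 v c y + δ) ^ (-1 : ℝ)) x := fun k x hx =>
    (contDiffAt_const.mul (contDiff_yc k).contDiffAt).mul (contDiffAt_rho δ (-1) (hρ x hx))
  have hw : ∀ x ∈ tsupport f, ContDiffAt ℝ 1 (fun y => (r2 v c y + δ) ^ s) x := fun x hx =>
    contDiffAt_rho δ s (hρ x hx)
  have h1 := hardy_gen (μ := μ) hf hc (v := v) hX hw fun x hx =>
    Real.rpow_nonneg (hρ x hx).le s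
  refine le_trans ?_ h1
  rw [← integral_const_mul]
  -- the coefficient
  have key : ∀ x ∈ tsupport f, a ^ 2 * (r2 v c x + δ) ^ (s - 1) ≤
      ∑ k, fderiv ℝ (fun y => (r2 v c y + δ) ^ s * (a * yc v c k y * (r2 v c y + δ) ^ (-1 : ℝ))) x
        (v k) - (r2 v c x + δ) ^ s * ∑ k, (a * yc v c k x * (r2 v c x + δ) ^ (-1 : ℝ)) ^ 2 := by
    intro x hx
    have hr := hρ x hx
    set ρ := r2 v c x + δ with hρd
    have e1 : ∀ k, fderiv ℝ (fun y => (r2 v c y + δ) ^ s *
        (a * yc v c k y * (r2 v c y + δ) ^ (-1 : ℝ))) x (v k) =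
        a * (2 * s - 2) * ρ ^ (s - 2) * yc v c k x ^ 2 + a * ρ ^ (s - 1) := by
      intro k
      have d1 := hasFDerivAt_rho (v := v) (c := c) δ s hr
      have d2 := ((hasFDerivAt_yc (v := v) (c := c) k x).const_mul a).fun_mul
        (hasFDerivAt_rho (v := v) (c := c) δ (-1) hr)
      have d3 := (d1.fun_mul d2).fderiv
      rw [d3]
      simp only [add_apply, smul_apply, smul_eq_mul,
        sum_inner hv k x, innerSL_apply_apply]
      rw [orthonormal_iff_ite.1 hv k k, if_pos rfl, ← hρd]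
      have r1 : ρ ^ (s - 1) = ρ ^ (s - 2) * ρ := by
        rw [← Real.rpow_add_one hr.ne']; congr 1; ring
      have r2' : ρ ^ s = ρ ^ (s - 2) * ρ ^ 2 := by
        rw [← Real.rpow_natCast ρ 2, ← Real.rpow_add hr]; congr 1; push_cast; ring
      have r3 : ρ ^ (-1 - 1 : ℝ) = (ρ ^ 2)⁻¹ := by
        rw [← Real.rpow_natCast ρ 2, ← Real.rpow_neg hr.le]; congr 1; push_cast; ring
      rw [r1, r2', r3, Real.rpow_neg_one]
      field_simp
      ring
    have e2 : ∑ k, (a * yc v c k x * ρ ^ (-1 : ℝ)) ^ 2 = a ^ 2 * r2 v c x * (ρ ^ 2)⁻¹ := by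
      unfold r2
      rw [Finset.mul_sum, Finset.sum_mul]
      refine Finset.sum_congr rfl fun k _ => ?_
      rw [Real.rpow_neg_one]
      field_simp
    rw [Finset.sum_congr rfl fun k _ => e1 k, e2, Finset.sum_add_distrib, ← Finset.mul_sum,
      Finset.sum_const, Finset.card_univ, nsmul_eq_mul]
    have e3 : ∑ k, yc v c k x ^ 2 = r2 v c x := rfl
    have r1 : ρ ^ (s - 1) = ρ ^ (s - 2) * ρ := by
      rw [← Real.rpow_add_one hr.ne']; congr 1; ring
    have r2' : ρ ^ s = ρ ^ (s - 2) * ρ ^ 2 := by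
      rw [← Real.rpow_natCast ρ 2, ← Real.rpow_add hr]; congr 1; push_cast; ring
    rw [e3, r1, r2']
    have hp : 0 < ρ ^ (s - 2) := Real.rpow_pos_of_pos hr _
    have e4 : ρ ^ (s - 2) * ρ ^ 2 * (a ^ 2 * r2 v c x * (ρ ^ 2)⁻¹) =
        ρ ^ (s - 2) * (a ^ 2 * r2 v c x) := by
      field_simp
    rw [e4]
    have e5 : a * (2 * s - 2) * ρ ^ (s - 2) * r2 v c x +
        Fintype.card κ * (a * (ρ ^ (s - 2) * ρ)) - ρ ^ (s - 2) * (a ^ 2 * r2 v c x) -
        a ^ 2 * (ρ ^ (s - 2) * ρ) = ρ ^ (s - 2) * (a * (Fintype.card κ - a) * δ) := by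
      have hs : s = a - ((Fintype.card κ : ℝ) - 2) / 2 := by rw [ha]; ring
      have hr2 : r2 v c x = ρ - δ := by rw [hρd]; ring
      rw [hr2]
      have : 2 * s - 2 = 2 * a - Fintype.card κ := by rw [hs]; ring
      rw [this]
      ring
    have e6 : 0 ≤ ρ ^ (s - 2) * (a * (Fintype.card κ - a) * δ) :=
      mul_nonneg hp.le (mul_nonneg (mul_nonneg ha0 (sub_nonneg.2 ha1)) hδ)
    linarith
  have hfc : Continuous f := hf.continuous
  refine integral_mono ?_ ?_ fun x => ?_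
  · refine integrable_of_supp hK ?_ fun x hx => ?_
    · refine continuousOn_const.mul (ContinuousOn.mul (fun x hx => ?_)
        (hfc.norm.pow 2).continuousOn)
      exact (contDiffAt_rho δ (s - 1) (hρ x hx)).continuousAt.continuousWithinAt
    · rw [zero_of_notMem hx]
      simp
  · refine integrable_of_supp hK ?_ fun x hx => ?_
    · refine ContinuousOn.mul (ContinuousOn.sub (continuousOn_finsetSum _ fun k _ x hx => ?_)
        (ContinuousOn.mul (fun x hx => (hw x hx).continuousAt.continuousWithinAt)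
          (continuousOn_finsetSum _ fun k _ => ContinuousOn.pow (fun x hx =>
            (hX k x hx).continuousAt.continuousWithinAt) 2))) (hfc.norm.pow 2).continuousOn
      have h2 : ContinuousAt (fderiv ℝ (fun y => (r2 v c y + δ) ^ s *
          (a * yc v c k y * (r2 v c y + δ) ^ (-1 : ℝ)))) x :=
        ((hw x hx).mul (hX k x hx)).continuousAt_fderiv (by simp)
      exact (h2.clm_apply continuousAt_const).continuousWithinAt
    · rw [zero_of_notMem hx]
      simp
  · show a ^ 2 * ((r2 v c x + δ) ^ (s - 1) * ‖f x‖ ^ 2) ≤ _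
    by_cases hx : x ∈ tsupport f
    · rw [← mul_assoc]
      exact mul_le_mul_of_nonneg_right (key x hx) (sq_nonneg _)
    · rw [zero_of_notMem hx]
      simp

/-- **Hardy's inequality**, regularised. -/
theorem hardy_reg {δ : ℝ} (hk : 2 ≤ Fintype.card κ) (hδ : 0 < δ) :
    (((Fintype.card κ : ℝ) - 2) / 2) ^ 2 * ∫ x, ‖f x‖ ^ 2 / (r2 v c x + δ) ∂μ ≤
      ∫ x, ∑ k, ‖fderiv ℝ f x (v k)‖ ^ 2 ∂μ := by
  have hk' : (2 : ℝ) ≤ Fintype.card κ := by exact_mod_cast hk
  have h1 := hardy_weight (μ := μ) (c := c) hf hc hv (s := 0) (δ := δ)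
    (a := ((Fintype.card κ : ℝ) - 2) / 2) (by ring) (by linarith) (by linarith) hδ.le
    fun x _ => add_pos_of_nonneg_of_pos (r2_nonneg x) hδ
  have e1 : ∀ x, (r2 v c x + δ) ^ ((0 : ℝ) - 1) * ‖f x‖ ^ 2 = ‖f x‖ ^ 2 / (r2 v c x + δ) := by
    intro x
    rw [zero_sub, Real.rpow_neg_one, div_eq_mul_inv, mul_comm]
  simp only [e1, Real.rpow_zero, one_mul] at h1
  exact h1

/-- **Hardy's inequality**: `‖f‖²/|y|²` is integrable. -/
theorem hardy (hk : 3 ≤ Fintype.card κ) :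
    Integrable (fun x => ‖f x‖ ^ 2 / r2 v c x) μ ∧
    (((Fintype.card κ : ℝ) - 2) / 2) ^ 2 * ∫ x, ‖f x‖ ^ 2 / r2 v c x ∂μ ≤
      ∫ x, ∑ k, ‖fderiv ℝ f x (v k)‖ ^ 2 ∂μ := by
  have hK : IsCompact (tsupport f) := hc
  have hfc : Continuous f := hf.continuous
  have hk' : (3 : ℝ) ≤ Fintype.card κ := by exact_mod_cast hk
  set A : ℝ := (((Fintype.card κ : ℝ) - 2) / 2) ^ 2 with hA
  have hA0 : 0 < A := by rw [hA]; have : (0 : ℝ) < ((Fintype.card κ : ℝ) - 2) / 2 := by linarith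
                         positivity
  set I : ℝ := ∫ x, ∑ k, ‖fderiv ℝ f x (v k)‖ ^ 2 ∂μ with hI
  have hI0 : 0 ≤ I := integral_nonneg fun x => Finset.sum_nonneg fun k _ => sq_nonneg _
  have hm : Continuous fun x : E => r2 v c x := (contDiff_r2 (n := 1)).continuous
  set g : ℕ → E → ENNReal := fun n x => ENNReal.ofReal (‖f x‖ ^ 2 / (r2 v c x + 1 / ((n : ℝ) + 1)))
    with hg
  have hn : ∀ n : ℕ, (0 : ℝ) < 1 / ((n : ℝ) + 1) := fun n => Nat.one_div_pos_of_nat
  have hgm : ∀ n, Measurable (g n) := fun n => by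
    refine ENNReal.measurable_ofReal.comp (Continuous.measurable ?_)
    exact (hfc.norm.pow 2).div (hm.add continuous_const) fun x =>
      (add_pos_of_nonneg_of_pos (r2_nonneg x) (hn n)).ne'
  have hgI : ∀ n, ∫⁻ x, g n x ∂μ ≤ ENNReal.ofReal (I / A) := by
    intro n
    have h1 := hardy_reg (μ := μ) (c := c) hf hc hv (by omega) (hn n)
    rw [← hA, ← hI] at h1
    have h2 : Integrable (fun x => ‖f x‖ ^ 2 / (r2 v c x + 1 / ((n : ℝ) + 1))) μ := by
      refine integrable_of_supp hK (Continuous.continuousOn ?_) fun x hx => ?_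
      · exact (hfc.norm.pow 2).div (hm.add continuous_const) fun x =>
          (add_pos_of_nonneg_of_pos (r2_nonneg x) (hn n)).ne'
      · rw [zero_of_notMem hx]
        simp
    rw [hg, ← ofReal_integral_eq_lintegral_ofReal h2 (Eventually.of_forall fun x =>
      div_nonneg (sq_nonneg _) (add_pos_of_nonneg_of_pos (r2_nonneg x) (hn n)).le)]
    refine ENNReal.ofReal_le_ofReal ?_
    rw [le_div_iff₀ hA0, mul_comm]
    exact h1
  have hle : ∀ x, ENNReal.ofReal (‖f x‖ ^ 2 / r2 v c x) ≤ liminf (fun n => g n x) atTop := by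
    intro x
    rcases (r2_nonneg (v := v) (c := c) x).eq_or_lt with h0 | h0
    · rw [← h0]
      simp
    · refine le_of_eq (Tendsto.liminf_eq ?_).symm
      refine (ENNReal.continuous_ofReal.tendsto _).comp ?_
      refine Tendsto.div tendsto_const_nhds ?_ h0.ne'
      have h1 := (tendsto_one_div_add_atTop_nhds_zero_nat (𝕜 := ℝ)).const_add (r2 v c x)
      simpa using h1
  have hfin : ∫⁻ x, ENNReal.ofReal (‖f x‖ ^ 2 / r2 v c x) ∂μ ≤ ENNReal.ofReal (I / A) := by
    refine (lintegral_mono hle).trans ((lintegral_liminf_le hgm).trans ?_)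
    refine (liminf_le_liminf (Eventually.of_forall hgI)).trans ?_
    simp
  have hnn : 0 ≤ᵐ[μ] fun x => ‖f x‖ ^ 2 / r2 v c x :=
    Eventually.of_forall fun x => div_nonneg (sq_nonneg _) (r2_nonneg x)
  have hms : AEStronglyMeasurable (fun x => ‖f x‖ ^ 2 / r2 v c x) μ :=
    ((hfc.norm.pow 2).measurable.div hm.measurable).aestronglyMeasurable
  have hint : Integrable (fun x => ‖f x‖ ^ 2 / r2 v c x) μ := by
    refine ⟨hms, ?_⟩
    rw [hasFiniteIntegral_iff_ofReal hnn]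
    exact hfin.trans_lt ENNReal.ofReal_lt_top
  refine ⟨hint, ?_⟩
  rw [← ofReal_integral_eq_lintegral_ofReal hint hnn,
    ENNReal.ofReal_le_ofReal_iff (by positivity)] at hfin
  rw [le_div_iff₀ hA0] at hfin
  linarith

end radial

end Crest.Agent.R330.Hardy151

end
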