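import Crest.Agent.R330.Poinc_151
import Crest.Agent.R330.Hardy_151

/-!
# The harmonic oscillator in `n` dimensions, vector valued (helper151)

* `pi_gap` : spectral gap of `∂_i + λ_i x_i` on `Fin n → ℝ`, ground state `∏ hs (λ_i) (x_i)`.
* `gap_onb` : `C (∫ ‖f‖² - ‖∫ h f‖²) ≤ ∫ ∑ ‖∂_i f + λ_i ⟪b_i, x - x₀⟫ f‖²` for an orthonormal basis `b`,
  `0 ≤ C ≤ 2 λ_i`, `h = gsE b λ x₀` (`gsE_eq`, `contDiff_gsE`, `hasFDerivAt_gsE`, `normSq_gsE`, `dist_gsE`).
* `lin_identity`, `osc_identity` : completing the square.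
* `osc_gap` : `(∑ λ) ∫ ‖f‖² + C (∫ ‖f‖² - ‖∫ h f‖²) ≤ ∫ ∑ ‖∂_i f‖² + ∫ (∑ λ_i² y_i²) ‖f‖²`.
* `gsOp`, `gap_op`, `op_identity` : the same for a positive symmetric operator `A`,
  `h = Z exp (-⟪A (x - x₀), x - x₀⟫ / 2)`, any orthonormal basis.
-/

set_option autoImplicit false
set_option linter.unusedSectionVars false

open MeasureTheory Filter Topology Set Real
open scoped InnerProductSpace ENNReal

noncomputable section

namespace Crest.Agent.R330.Osc151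

open Gauss151 Poinc151

/-- `Fin (n+1) → ℝ` as a product. -/
def consL (n : ℕ) : (Fin (n + 1) → ℝ) ≃ₗ[ℝ] ℝ × (Fin n → ℝ) where
  toFun x := (x 0, fun j => x j.succ)
  invFun p := Fin.cons p.1 p.2
  map_add' _ _ := rfl
  map_smul' _ _ := rfl
  left_inv x := by
    funext j
    refine Fin.cases ?_ (fun i => ?_) j
    · rfl
    · rfl
  right_inv p := by
    ext
    · rfl
    · rfl

def consE (n : ℕ) : (Fin (n + 1) → ℝ) ≃L[ℝ] ℝ × (Fin n → ℝ) := (consL n).toContinuousLinearEquiv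

theorem consE_apply (n : ℕ) (x : Fin (n + 1) → ℝ) : consE n x = (x 0, fun j => x j.succ) := rfl

theorem consE_symm_apply (n : ℕ) (p : ℝ × (Fin n → ℝ)) : (consE n).symm p = Fin.cons p.1 p.2 := rfl

theorem consE_symm_one (n : ℕ) :
    (consE n).symm ((1 : ℝ), (0 : Fin n → ℝ)) = Pi.single 0 1 := by
  rw [consE_symm_apply]
  funext j
  refine Fin.cases ?_ (fun i => ?_) j
  · simp
  · simp

theorem consE_symm_single (n : ℕ) (k : Fin n) :
    (consE n).symm ((0 : ℝ), (Pi.single k 1 : Fin n → ℝ)) = Pi.single k.succ 1 := by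
  rw [consE_symm_apply]
  funext j
  refine Fin.cases ?_ (fun i => ?_) j
  · simp
  · simp [Pi.single_apply, Fin.succ_inj]

theorem measurePreserving_consE (n : ℕ) :
    MeasurePreserving (consE n) (volume : Measure (Fin (n + 1) → ℝ))
      ((volume : Measure ℝ).prod (volume : Measure (Fin n → ℝ))) := by
  have h := volume_preserving_piFinSuccAbove (fun _ : Fin (n + 1) => ℝ) 0
  have h2 : (MeasurableEquiv.piFinSuccAbove (fun _ : Fin (n + 1) => ℝ) 0 :
      (Fin (n + 1) → ℝ) → ℝ × (Fin n → ℝ)) = consE n := by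
    funext x
    rfl
  rw [h2] at h
  exact h

/-- The ground state. -/
def gst {ι : Type*} [Fintype ι] (lam : ι → ℝ) (x : ι → ℝ) : ℝ := ∏ i, hs (lam i) (x i)

theorem continuous_gst {ι : Type*} [Fintype ι] (lam : ι → ℝ) : Continuous (gst lam) :=
  continuous_finsetProd _ fun i _ => continuous_hs.comp (continuous_apply i)

theorem integrable_gst_sq {ι : Type*} [Fintype ι] {lam : ι → ℝ} (hl : ∀ i, 0 < lam i) :
    Integrable (fun x : ι → ℝ => gst lam x ^ 2) := by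
  have h1 : ∀ x : ι → ℝ, gst lam x ^ 2 = ∏ i, hs (lam i) (x i) ^ 2 := fun x =>
    (Finset.prod_pow _ _ _).symm
  simp only [h1]
  exact Integrable.fintype_prod fun i => integrable_hs_sq (hl i)

theorem integral_gst_sq {ι : Type*} [Fintype ι] {lam : ι → ℝ} (hl : ∀ i, 0 < lam i) :
    ∫ x : ι → ℝ, gst lam x ^ 2 = 1 := by
  have h1 : ∀ x : ι → ℝ, gst lam x ^ 2 = ∏ i, hs (lam i) (x i) ^ 2 := fun x =>
    (Finset.prod_pow _ _ _).symm
  simp only [h1]
  rw [integral_fintype_prod_volume_eq_prod (fun i (y : ℝ) => hs (lam i) y ^ 2)]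
  exact Finset.prod_eq_one fun i _ => integral_hs_sq (hl i)

variable {F : Type*} [NormedAddCommGroup F] [InnerProductSpace ℝ F] [CompleteSpace F]

/-- **Spectral gap** on `Fin n → ℝ`. -/
theorem pi_gap {C : ℝ} (hC : 0 ≤ C) : ∀ (n : ℕ) (lam : Fin n → ℝ), (∀ i, 0 < lam i) →
    (∀ i, C ≤ 2 * lam i) →
    Poinc F (volume : Measure (Fin n → ℝ)) (fun i : Fin n => (Pi.single i 1 : Fin n → ℝ))
      (fun i x => lam i * x i) (gst lam) C := by
  intro n
  induction n with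
  | zero =>
    intro lam _ _ f _ _
    have h1 : ∀ x : Fin 0 → ℝ, gst lam x = 1 := fun x => by simp [gst]
    have h2 : (volume : Measure (Fin 0 → ℝ)) = Measure.dirac (fun i => i.elim0) := by
      rw [volume_pi]
      exact Measure.pi_of_empty _ _
    simp [h1, h2]
  | succ n ih =>
    intro lam hl hl2
    have h1 : Poinc F (volume : Measure ℝ) (fun _ : Unit => (1 : ℝ)) (fun _ x => lam 0 * x)
        (hs (lam 0)) C := by
      intro f hf hc
      have h2 := gap1 hf hc (hl 0)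
      have h3 : 0 ≤ (∫ x, ‖f x‖ ^ 2) - ‖∫ x, hs (lam 0) x • f x‖ ^ 2 := by
        rw [← dist_line continuous_hs hf.continuous hc (integrable_hs_sq (hl 0))
          (integral_hs_sq (hl 0))]
        exact integral_nonneg fun x => sq_nonneg _
      have h4 := mul_le_mul_of_nonneg_right (hl2 0) h3
      simpa using h4.trans h2
    have h2 := ih (fun j => lam j.succ) (fun j => hl _) fun j => hl2 _
    have h3 := Poinc.prod hC h1 h2 (fun _ => by fun_prop) (fun _ => by fun_prop) continuous_hs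
      (continuous_gst _) (integrable_hs_sq (hl 0)) (integrable_gst_sq fun j => hl _)
      (integral_hs_sq (hl 0)) (integral_gst_sq fun j => hl _)
    have h4 := (h3.equiv (consE n) (measurePreserving_consE n))
    intro f hf hc
    have h6 := h4 f hf hc
    have e1 : ∀ x : Fin (n + 1) → ℝ, hs (lam 0) (consE n x).1 *
        gst (fun j => lam j.succ) (consE n x).2 = gst lam x := by
      intro x
      unfold gst
      rw [Fin.prod_univ_succ]
      rfl
    have e2 : ∀ x : Fin (n + 1) → ℝ, ∑ k : Unit ⊕ Fin n, ‖fderiv ℝ f x ((consE n).symm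
        (Sum.elim (fun _ : Unit => ((1 : ℝ), (0 : Fin n → ℝ)))
          (fun k => ((0 : ℝ), (Pi.single k 1 : Fin n → ℝ))) k)) +
        (Sum.elim (fun _ (p : ℝ × (Fin n → ℝ)) => lam 0 * p.1)
          (fun k p => lam k.succ * p.2 k) k) (consE n x) • f x‖ ^ 2 =
        ∑ i, ‖fderiv ℝ f x (Pi.single i 1) + (lam i * x i) • f x‖ ^ 2 := by
      intro x
      rw [Fintype.sum_sum_type, Fin.sum_univ_succ]
      simp only [Sum.elim_inl, Sum.elim_inr, consE_symm_one, consE_symm_single, consE_apply,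
        Finset.univ_unique, Finset.sum_singleton]
    rw [integral_congr_ae (ae_of_all _ e2)] at h6
    simp only [e1] at h6
    exact h6

/-! ### Inner product spaces -/

section inner

variable {E : Type*} [NormedAddCommGroup E] [InnerProductSpace ℝ E] [FiniteDimensional ℝ E]
  [MeasurableSpace E] [BorelSpace E] {ι : Type*} [Fintype ι]

/-- Coordinates. -/
def crd {n : ℕ} (b : OrthonormalBasis (Fin n) ℝ E) : E ≃L[ℝ] (Fin n → ℝ) :=
  b.repr.toContinuousLinearEquiv.trans (EuclideanSpace.equiv (Fin n) ℝ)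

theorem crd_apply {n : ℕ} (b : OrthonormalBasis (Fin n) ℝ E) (x : E) (i : Fin n) :
    crd b x i = ⟪b i, x⟫_ℝ := by
  show (b.repr x) i = _
  exact b.repr_apply_apply x i

theorem crd_symm_single {n : ℕ} (b : OrthonormalBasis (Fin n) ℝ E) (i : Fin n) :
    (crd b).symm (Pi.single i 1) = b i := by
  rw [ContinuousLinearEquiv.symm_apply_eq]
  funext j
  rw [crd_apply, orthonormal_iff_ite.1 b.orthonormal j i, Pi.single_apply]

theorem measurePreserving_crd {n : ℕ} (b : OrthonormalBasis (Fin n) ℝ E) :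
    MeasurePreserving (crd b) (volume : Measure E) (volume : Measure (Fin n → ℝ)) :=
  (PiLp.volume_preserving_ofLp (Fin n)).comp b.measurePreserving_repr

/-- The ground state `∏ (λ_i/π)^{1/4} exp (-λ_i ⟪b_i, x - x₀⟫² / 2)`. -/
def gsE (b : OrthonormalBasis ι ℝ E) (lam : ι → ℝ) (x₀ x : E) : ℝ :=
  ∏ i, hs (lam i) ⟪b i, x - x₀⟫_ℝ

theorem contDiff_gsE (b : OrthonormalBasis ι ℝ E) (lam : ι → ℝ) (x₀ : E) {n : WithTop ℕ∞} :
    ContDiff ℝ n (gsE b lam x₀) := by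
  unfold gsE
  exact contDiff_prod fun i _ => contDiff_hs.comp
    (contDiff_const.inner ℝ (contDiff_id.sub contDiff_const))

theorem gsE_pos (b : OrthonormalBasis ι ℝ E) {lam : ι → ℝ} (hl : ∀ i, 0 < lam i) (x₀ x : E) :
    0 < gsE b lam x₀ x :=
  Finset.prod_pos fun i _ => hs_pos (hl i) _

/-- Exponential form. -/
theorem gsE_eq (b : OrthonormalBasis ι ℝ E) (lam : ι → ℝ) (x₀ x : E) :
    gsE b lam x₀ x = (∏ i, √√(lam i / π)) * exp (-(∑ i, lam i * ⟪b i, x - x₀⟫_ℝ ^ 2) / 2) := by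
  unfold gsE hs
  rw [Finset.prod_mul_distrib, ← Real.exp_sum]
  congr 2
  rw [neg_div, Finset.sum_div, ← Finset.sum_neg_distrib]
  exact Finset.sum_congr rfl fun i _ => by ring

theorem hasFDerivAt_gsE (b : OrthonormalBasis ι ℝ E) (lam : ι → ℝ) (x₀ x v : E) :
    fderiv ℝ (gsE b lam x₀) x v = -(∑ i, lam i * ⟪b i, x - x₀⟫_ℝ * ⟪b i, v⟫_ℝ) * gsE b lam x₀ x := by
  have h0 : gsE b lam x₀ = fun x => (∏ i, √√(lam i / π)) *
      exp (-(∑ i, lam i * ⟪b i, x - x₀⟫_ℝ ^ 2) / 2) := funext fun x => gsE_eq b lam x₀ x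
  have h1 : ∀ i, HasFDerivAt (fun x => ⟪b i, x - x₀⟫_ℝ) (innerSL ℝ (b i)) x := fun i => by
    have h := (innerSL ℝ (b i)).hasFDerivAt.comp x ((hasFDerivAt_id x).sub_const x₀)
    exact h
  have h2 : HasFDerivAt (fun x => -(∑ i, lam i * ⟪b i, x - x₀⟫_ℝ ^ 2) / 2)
      ((2 : ℝ)⁻¹ • -(∑ i, lam i • ((2 * ⟪b i, x - x₀⟫_ℝ) • innerSL ℝ (b i)))) x := by
    have h3 : HasFDerivAt (fun x => -(∑ i, lam i * ⟪b i, x - x₀⟫_ℝ ^ 2))
        (-(∑ i, lam i • ((2 * ⟪b i, x - x₀⟫_ℝ) • innerSL ℝ (b i)))) x := by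
      refine (HasFDerivAt.fun_sum fun i _ => ?_).neg
      have h4 := (h1 i).pow 2
      have h5 := h4.const_mul (lam i)
      refine h5.congr_fderiv ?_
      ext y
      simp
    exact h3.mul_const (2 : ℝ)⁻¹
  have h3 := (h2.exp).const_mul (∏ i, √√(lam i / π))
  rw [h0, h3.fderiv]
  simp only [_root_.smul_apply, _root_.neg_apply, _root_.sum_apply, smul_eq_mul,
    innerSL_apply_apply]
  have h6 : ∑ i, lam i * (2 * ⟪b i, x - x₀⟫_ℝ * ⟪b i, v⟫_ℝ) =
      2 * ∑ i, lam i * ⟪b i, x - x₀⟫_ℝ * ⟪b i, v⟫_ℝ := by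
    rw [Finset.mul_sum]
    exact Finset.sum_congr rfl fun i _ => by ring
  rw [h6]
  ring

theorem gap_fin {n : ℕ} {C : ℝ} (hC : 0 ≤ C) (b : OrthonormalBasis (Fin n) ℝ E) {lam : Fin n → ℝ}
    (hl : ∀ i, 0 < lam i) (h2 : ∀ i, C ≤ 2 * lam i) :
    Poinc F (volume : Measure E) (fun i : Fin n => b i) (fun i x => lam i * ⟪b i, x⟫_ℝ)
      (fun x => ∏ i, hs (lam i) ⟪b i, x⟫_ℝ) C := by
  have h := (pi_gap (F := F) hC n lam hl h2).equiv (crd b) (measurePreserving_crd b)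
  simp only [crd_symm_single, crd_apply, gst] at h
  exact h

theorem normSq_fin {n : ℕ} (b : OrthonormalBasis (Fin n) ℝ E) {lam : Fin n → ℝ}
    (hl : ∀ i, 0 < lam i) :
    Integrable (fun x : E => (∏ i, hs (lam i) ⟪b i, x⟫_ℝ) ^ 2) ∧
    ∫ x : E, (∏ i, hs (lam i) ⟪b i, x⟫_ℝ) ^ 2 = 1 := by
  have hemb : MeasurableEmbedding (crd b) := (crd b).toHomeomorph.measurableEmbedding
  have h1 := ((measurePreserving_crd b).integrable_comp_emb hemb).2 (integrable_gst_sq hl)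
  have h2 := (measurePreserving_crd b).integral_comp hemb (fun y => gst lam y ^ 2)
  rw [integral_gst_sq hl] at h2
  have e : ∀ x, gst lam (crd b x) ^ 2 = (∏ i, hs (lam i) ⟪b i, x⟫_ℝ) ^ 2 := fun x => by
    simp only [gst, crd_apply]
  constructor
  · exact h1.congr (ae_of_all _ e)
  · rw [← h2]
    exact integral_congr_ae (ae_of_all _ fun x => (e x).symm)

/-- Translations. -/
theorem translate {κ : Type*} [Fintype κ] {v : κ → E} {a : κ → E → ℝ} {H : E → ℝ} {C : ℝ}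
    (h : Poinc F (volume : Measure E) v a H C) (x₀ : E) :
    Poinc F (volume : Measure E) v (fun k x => a k (x - x₀)) (fun x => H (x - x₀)) C := by
  intro f hf hc
  have h1 := h (fun y => f (y + x₀)) (hf.comp (contDiff_id.add contDiff_const))
    (hc.comp_homeomorph (Homeomorph.addRight x₀))
  have e1 : ∀ x v, fderiv ℝ (fun y => f (y + x₀)) x v = fderiv ℝ f (x + x₀) v := by
    intro x v
    rw [fderiv_comp_add_right]
  simp only [e1] at h1
  have e2 := integral_sub_right_eq_self (μ := (volume : Measure E))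
    (fun x => ‖f (x + x₀)‖ ^ 2) x₀
  have e3 := integral_sub_right_eq_self (μ := (volume : Measure E))
    (fun x => H x • f (x + x₀)) x₀
  have e4 := integral_sub_right_eq_self (μ := (volume : Measure E))
    (fun x => ∑ k, ‖fderiv ℝ f (x + x₀) (v k) + a k x • f (x + x₀)‖ ^ 2) x₀
  simp only [sub_add_cancel] at e2 e3 e4
  rw [← e2, ← e3, ← e4] at h1
  exact h1

/-- **Spectral gap of the oscillator** along an orthonormal basis, centre `x₀`. -/
theorem gap_onb {C : ℝ} (hC : 0 ≤ C) (b : OrthonormalBasis ι ℝ E) {lam : ι → ℝ}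
    (hl : ∀ i, 0 < lam i) (h2 : ∀ i, C ≤ 2 * lam i) (x₀ : E) :
    Poinc F (volume : Measure E) (fun i : ι => b i) (fun i x => lam i * ⟪b i, x - x₀⟫_ℝ)
      (gsE b lam x₀) C := by
  set σ : ι ≃ Fin (Fintype.card ι) := Fintype.equivFin ι
  have h := gap_fin (F := F) hC (b.reindex σ) (lam := fun i => lam (σ.symm i)) (fun i => hl _)
    fun i => h2 _
  have h3 := translate h x₀
  have e1 : (fun x : E => ∏ i, hs (lam (σ.symm i)) ⟪b.reindex σ i, x - x₀⟫_ℝ) =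
      gsE b lam x₀ := by
    funext x
    unfold gsE
    rw [← Equiv.prod_comp σ]
    simp
  rw [e1] at h3
  have h4 := h3.reindex σ
  simp only [OrthonormalBasis.reindex_apply, Equiv.symm_apply_apply] at h4
  exact h4

theorem normSq_gsE (b : OrthonormalBasis ι ℝ E) {lam : ι → ℝ} (hl : ∀ i, 0 < lam i) (x₀ : E) :
    Integrable (fun x : E => gsE b lam x₀ x ^ 2) ∧ ∫ x : E, gsE b lam x₀ x ^ 2 = 1 := by
  set σ : ι ≃ Fin (Fintype.card ι) := Fintype.equivFin ι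
  have h := normSq_fin (b.reindex σ) (lam := fun i => lam (σ.symm i)) (fun i => hl _)
  have e1 : ∀ x : E, ∏ i, hs (lam (σ.symm i)) ⟪b.reindex σ i, x - x₀⟫_ℝ = gsE b lam x₀ x := by
    intro x
    unfold gsE
    rw [← Equiv.prod_comp σ]
    simp
  constructor
  · have h1 := h.1.comp_sub_right x₀
    simp only [e1] at h1
    exact h1
  · have h1 := integral_sub_right_eq_self (μ := (volume : Measure E))
      (fun x => (∏ i, hs (lam (σ.symm i)) ⟪b.reindex σ i, x⟫_ℝ) ^ 2) x₀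
    simp only [e1] at h1
    rw [h1]
    exact h.2

/-! ### Identities -/

section ident

variable {μ : Measure E} [μ.IsAddHaarMeasure] {κ : Type*} [Fintype κ] {f : E → F}

/-- General first order linear fields: `∫ ∑ ‖∂_k f + (L_k (x - x₀)) f‖²`. -/
theorem lin_identity (hf : ContDiff ℝ 1 f) (hc : HasCompactSupport f) (v : κ → E)
    (L : κ → E →L[ℝ] ℝ) (x₀ : E) :
    ∫ x, ∑ k, ‖fderiv ℝ f x (v k) + (L k (x - x₀)) • f x‖ ^ 2 ∂μ =
      (∫ x, ∑ k, ‖fderiv ℝ f x (v k)‖ ^ 2 ∂μ) +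
      (∫ x, (∑ k, L k (x - x₀) ^ 2) * ‖f x‖ ^ 2 ∂μ) -
      (∑ k, L k (v k)) * ∫ x, ‖f x‖ ^ 2 ∂μ := by
  have hX : ∀ k, ContDiff ℝ 1 fun x => L k (x - x₀) := fun k =>
    (L k).contDiff.comp (contDiff_id.sub contDiff_const)
  have h := Hardy151.expand (μ := μ) hf hc (v := v) (X := fun k x => L k (x - x₀)) (w := fun _ => 1)
    (fun k x _ => (hX k).contDiffAt) (fun x _ => contDiffAt_const)
  simp only [one_mul] at h
  rw [h]
  have e1 : ∀ x k, fderiv ℝ (fun y => L k (y - x₀)) x (v k) = L k (v k) := by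
    intro x k
    have h1 : HasFDerivAt (fun y => L k (y - x₀)) (L k) x := by
      have h2 := (L k).hasFDerivAt.comp x ((hasFDerivAt_id x).sub_const x₀)
      exact h2
    rw [h1.fderiv]
  simp only [e1]
  have hfc : Continuous f := hf.continuous
  have hs : ∀ x, f x = 0 → ‖f x‖ ^ 2 = 0 := fun x hx => by rw [hx]; simp
  have i1 : Integrable (fun x => (∑ k, L k (v k)) * ‖f x‖ ^ 2) μ :=
    integrable_cc hc (continuous_const.mul (hfc.norm.pow 2)) fun x hx => by rw [hs x hx, mul_zero]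
  have i2 : Integrable (fun x => (∑ k, L k (x - x₀) ^ 2) * ‖f x‖ ^ 2) μ :=
    integrable_cc hc ((continuous_finsetSum _ fun k _ => ((hX k).continuous).pow 2).mul
      (hfc.norm.pow 2)) fun x hx => by rw [hs x hx, mul_zero]
  have e2 : ∀ x, (∑ k, L k (v k) - ∑ k, L k (x - x₀) ^ 2) * ‖f x‖ ^ 2 =
      (∑ k, L k (v k)) * ‖f x‖ ^ 2 - (∑ k, L k (x - x₀) ^ 2) * ‖f x‖ ^ 2 := fun x => by ring
  simp only [e2]
  rw [integral_sub i1 i2, integral_const_mul]
  ring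

/-- **Oscillator identity** along an orthonormal family. -/
theorem osc_identity (hf : ContDiff ℝ 1 f) (hc : HasCompactSupport f) {v : κ → E}
    (hv : Orthonormal ℝ v) (lam : κ → ℝ) (x₀ : E) :
    ∫ x, ∑ k, ‖fderiv ℝ f x (v k) + (lam k * ⟪v k, x - x₀⟫_ℝ) • f x‖ ^ 2 ∂μ =
      (∫ x, ∑ k, ‖fderiv ℝ f x (v k)‖ ^ 2 ∂μ) +
      (∫ x, (∑ k, lam k ^ 2 * ⟪v k, x - x₀⟫_ℝ ^ 2) * ‖f x‖ ^ 2 ∂μ) -
      (∑ k, lam k) * ∫ x, ‖f x‖ ^ 2 ∂μ := by
  have h := lin_identity (μ := μ) hf hc v (fun k => lam k • innerSL ℝ (v k)) x₀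
  simp only [_root_.smul_apply, innerSL_apply_apply, smul_eq_mul, mul_pow] at h
  rw [h]
  congr 2
  refine Finset.sum_congr rfl fun k _ => ?_
  rw [real_inner_self_eq_norm_sq, hv.1 k]
  ring

end ident

section gaps

variable {f : E → F}

/-- Distance to the ground state line. -/
theorem dist_gsE (hf : Continuous f) (hc : HasCompactSupport f) (b : OrthonormalBasis ι ℝ E)
    {lam : ι → ℝ} (hl : ∀ i, 0 < lam i) (x₀ : E) :
    ∫ x, ‖f x - gsE b lam x₀ x • ∫ y, gsE b lam x₀ y • f y‖ ^ 2 =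
      (∫ x, ‖f x‖ ^ 2) - ‖∫ y, gsE b lam x₀ y • f y‖ ^ 2 :=
  dist_line ((contDiff_gsE b lam x₀ (n := 0)).continuous) hf hc (normSq_gsE b hl x₀).1
    (normSq_gsE b hl x₀).2

/-- **Gap of the harmonic oscillator** `-Δ + ∑ λ² y²` above `∑ λ`. -/
theorem osc_gap (hf : ContDiff ℝ 1 f) (hc : HasCompactSupport f) {C : ℝ} (hC : 0 ≤ C)
    (b : OrthonormalBasis ι ℝ E) {lam : ι → ℝ} (hl : ∀ i, 0 < lam i) (h2 : ∀ i, C ≤ 2 * lam i)
    (x₀ : E) :
    (∑ k, lam k) * (∫ x, ‖f x‖ ^ 2) +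
        C * ((∫ x, ‖f x‖ ^ 2) - ‖∫ x, gsE b lam x₀ x • f x‖ ^ 2) ≤
      (∫ x, ∑ k, ‖fderiv ℝ f x (b k)‖ ^ 2) +
        ∫ x, (∑ k, lam k ^ 2 * ⟪b k, x - x₀⟫_ℝ ^ 2) * ‖f x‖ ^ 2 := by
  have h1 := gap_onb (F := F) hC b hl h2 x₀ f hf hc
  have h3 := osc_identity (μ := (volume : Measure E)) hf hc b.orthonormal lam x₀
  linarith

omit [FiniteDimensional ℝ E] [MeasurableSpace E] [BorelSpace E] [CompleteSpace F] in
/-- The Hilbert–Schmidt norm does not depend on the orthonormal basis. -/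
theorem hs_indep {κ : Type*} [Fintype κ] (b : OrthonormalBasis ι ℝ E)
    (w : OrthonormalBasis κ ℝ E) (L : E →ₗ[ℝ] F) : ∑ i, ‖L (b i)‖ ^ 2 = ∑ k, ‖L (w k)‖ ^ 2 := by
  have h1 : ∀ i, L (b i) = ∑ k, ⟪w k, b i⟫_ℝ • L (w k) := fun i => by
    conv_lhs => rw [← w.sum_repr' (b i)]
    rw [map_sum]
    exact Finset.sum_congr rfl fun k _ => by rw [map_smul]
  have h2 : ∀ i, ‖L (b i)‖ ^ 2 = ∑ k, ∑ j, (⟪w k, b i⟫_ℝ * ⟪w j, b i⟫_ℝ) * ⟪L (w k), L (w j)⟫_ℝ := by
    intro i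
    rw [← real_inner_self_eq_norm_sq, h1 i, sum_inner]
    refine Finset.sum_congr rfl fun k _ => ?_
    rw [inner_sum]
    refine Finset.sum_congr rfl fun j _ => ?_
    rw [inner_smul_left, inner_smul_right]
    simp
    ring
  simp only [h2]
  rw [Finset.sum_comm]
  refine Finset.sum_congr rfl fun k _ => ?_
  rw [Finset.sum_comm]
  have h3 : ∀ j, ∑ i, ⟪w k, b i⟫_ℝ * ⟪w j, b i⟫_ℝ * ⟪L (w k), L (w j)⟫_ℝ =
      ⟪w k, w j⟫_ℝ * ⟪L (w k), L (w j)⟫_ℝ := by
    intro j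
    rw [← Finset.sum_mul]
    congr 1
    have h4 := b.sum_inner_mul_inner (w k) (w j)
    rw [← h4]
    exact Finset.sum_congr rfl fun i _ => by rw [real_inner_comm (b i) (w j)]
  simp only [h3]
  classical
  rw [Finset.sum_eq_single k]
  · rw [real_inner_self_eq_norm_sq, w.orthonormal.1 k, real_inner_self_eq_norm_sq]
    ring
  · intro j _ hj
    rw [w.orthonormal.2 (Ne.symm hj), zero_mul]
  · intro h
    exact absurd (Finset.mem_univ k) h

/-! ### Oscillators given by a positive operator -/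

variable {A : E →ₗ[ℝ] E} (hA : A.IsSymmetric)

/-- Ground state `Z exp (-⟪A (x - x₀), x - x₀⟫ / 2)`. -/
def gsOp (x₀ x : E) : ℝ := gsE (hA.eigenvectorBasis rfl) (hA.eigenvalues rfl) x₀ x

/-- Its normalisation. -/
def zOp : ℝ := ∏ i, √√(hA.eigenvalues rfl i / π)

omit [MeasurableSpace E] [BorelSpace E] in
theorem eig_apply (i) : A (hA.eigenvectorBasis rfl i) =
    (hA.eigenvalues rfl i) • hA.eigenvectorBasis rfl i := hA.apply_eigenvectorBasis rfl i

omit [MeasurableSpace E] [BorelSpace E] in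
theorem quad_eq (x : E) : ∑ i, hA.eigenvalues rfl i * ⟪hA.eigenvectorBasis rfl i, x⟫_ℝ ^ 2 =
    ⟪A x, x⟫_ℝ := by
  have h1 := (hA.eigenvectorBasis rfl).sum_inner_mul_inner (A x) x
  rw [← h1]
  refine Finset.sum_congr rfl fun i _ => ?_
  rw [hA x, eig_apply, inner_smul_right, real_inner_comm]
  ring

theorem gsOp_eq (x₀ x : E) : gsOp hA x₀ x = zOp hA * exp (-⟪A (x - x₀), x - x₀⟫_ℝ / 2) := by
  unfold gsOp zOp
  rw [gsE_eq, quad_eq]

omit [MeasurableSpace E] [BorelSpace E] in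
theorem eig_ge {c : ℝ} (h : ∀ x, c * ‖x‖ ^ 2 ≤ ⟪A x, x⟫_ℝ) (i) : c ≤ hA.eigenvalues rfl i := by
  have h1 := h (hA.eigenvectorBasis rfl i)
  rw [(hA.eigenvectorBasis rfl).orthonormal.1 i, eig_apply, inner_smul_left,
    real_inner_self_eq_norm_sq, (hA.eigenvectorBasis rfl).orthonormal.1 i] at h1
  simpa using h1

omit [MeasurableSpace E] [BorelSpace E] in
theorem zOp_pos {c : ℝ} (hc0 : 0 < c) (h : ∀ x, c * ‖x‖ ^ 2 ≤ ⟪A x, x⟫_ℝ) : 0 < zOp hA :=
  Finset.prod_pos fun i _ => Real.sqrt_pos.2 (Real.sqrt_pos.2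
    (div_pos (hc0.trans_le (eig_ge hA h i)) pi_pos))

theorem normSq_gsOp {c : ℝ} (hc0 : 0 < c) (h : ∀ x, c * ‖x‖ ^ 2 ≤ ⟪A x, x⟫_ℝ) (x₀ : E) :
    Integrable (fun x : E => gsOp hA x₀ x ^ 2) ∧ ∫ x : E, gsOp hA x₀ x ^ 2 = 1 :=
  normSq_gsE _ (fun i => hc0.trans_le (eig_ge hA h i)) x₀

theorem contDiff_gsOp (x₀ : E) {n : WithTop ℕ∞} : ContDiff ℝ n (gsOp hA x₀) := contDiff_gsE _ _ _

theorem fderiv_gsOp (x₀ x v : E) :
    fderiv ℝ (gsOp hA x₀) x v = -⟪A (x - x₀), v⟫_ℝ * gsOp hA x₀ x := by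
  unfold gsOp
  rw [hasFDerivAt_gsE]
  congr 2
  have h1 := (hA.eigenvectorBasis rfl).sum_inner_mul_inner (A (x - x₀)) v
  rw [← h1]
  refine Finset.sum_congr rfl fun i _ => ?_
  rw [hA (x - x₀), eig_apply, inner_smul_right, real_inner_comm (hA.eigenvectorBasis rfl i)]

/-- **Spectral gap**, operator form, any orthonormal basis `w`. -/
theorem gap_op {κ : Type*} [Fintype κ] (w : OrthonormalBasis κ ℝ E) {c : ℝ} (hc0 : 0 < c)
    (h : ∀ x, c * ‖x‖ ^ 2 ≤ ⟪A x, x⟫_ℝ) (x₀ : E) :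
    Poinc F (volume : Measure E) (fun k => w k) (fun k x => ⟪A (x - x₀), w k⟫_ℝ)
      (gsOp hA x₀) (2 * c) := by
  intro f hf hc
  have h1 := gap_onb (F := F) (C := 2 * c) (by positivity) (hA.eigenvectorBasis rfl)
    (fun i => hc0.trans_le (eig_ge hA h i))
    (fun i => mul_le_mul_of_nonneg_left (eig_ge hA h i) (by norm_num)) x₀ f hf hc
  have e1 : ∀ x, ∑ i, ‖fderiv ℝ f x (hA.eigenvectorBasis rfl i) +
      (hA.eigenvalues rfl i * ⟪hA.eigenvectorBasis rfl i, x - x₀⟫_ℝ) • f x‖ ^ 2 =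
      ∑ k, ‖fderiv ℝ f x (w k) + ⟪A (x - x₀), w k⟫_ℝ • f x‖ ^ 2 := by
    intro x
    have h2 := hs_indep (F := F) (hA.eigenvectorBasis rfl) w
      ((fderiv ℝ f x : E →ₗ[ℝ] F) +
        ((innerSL ℝ (A (x - x₀)) : E →L[ℝ] ℝ) : E →ₗ[ℝ] ℝ).smulRight (f x))
    simp only [LinearMap.add_apply, LinearMap.smulRight_apply, ContinuousLinearMap.coe_coe,
      innerSL_apply_apply] at h2
    rw [← h2]
    refine Finset.sum_congr rfl fun i _ => ?_
    rw [hA (x - x₀), eig_apply, inner_smul_right, real_inner_comm (hA.eigenvectorBasis rfl i)]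
  simp only [e1] at h1
  exact h1

/-- Identity, operator form. -/
theorem op_identity {μ : Measure E} [μ.IsAddHaarMeasure] {κ : Type*} [Fintype κ]
    (w : OrthonormalBasis κ ℝ E) (A : E →ₗ[ℝ] E) (x₀ : E)
    (hf : ContDiff ℝ 1 f) (hc : HasCompactSupport f) :
    ∫ x, ∑ k, ‖fderiv ℝ f x (w k) + ⟪A (x - x₀), w k⟫_ℝ • f x‖ ^ 2 ∂μ =
      (∫ x, ∑ k, ‖fderiv ℝ f x (w k)‖ ^ 2 ∂μ) + (∫ x, ‖A (x - x₀)‖ ^ 2 * ‖f x‖ ^ 2 ∂μ) -
      (∑ k, ⟪A (w k), w k⟫_ℝ) * ∫ x, ‖f x‖ ^ 2 ∂μ := by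
  have h := lin_identity (μ := μ) hf hc (fun k => w k)
    (fun k => (innerSL ℝ (w k)).comp (LinearMap.toContinuousLinearMap A)) x₀
  simp only [ContinuousLinearMap.comp_apply, innerSL_apply_apply,
    LinearMap.coe_toContinuousLinearMap'] at h
  have e1 : ∀ x : E, ∑ k, ⟪w k, A (x - x₀)⟫_ℝ ^ 2 = ‖A (x - x₀)‖ ^ 2 := by
    intro x
    rw [← real_inner_self_eq_norm_sq, ← w.sum_inner_mul_inner]
    exact Finset.sum_congr rfl fun k _ => by rw [real_inner_comm, pow_two]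
  have e2 : ∀ x y : E, ⟪A x, y⟫_ℝ = ⟪y, A x⟫_ℝ := fun x y => real_inner_comm _ _
  simp only [e1] at h
  simp only [e2]
  exact h

end gaps

end inner

end Crest.Agent.R330.Osc151

end
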