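import Crest.Agent.R330.FibA_892
import Crest.Agent.R330.Cliff5_442
import Crest.Agent.R330.Osc_151
import Crest.Agent.R330.GPar_984

/-!
# Row 330, S8-FIB (helper892), part B: ground states and gap of a system of linear charges

Over `FibA_892.Lin Γ T P A c e`.

* `energy_sq` : `Σ_α ∫ ‖B_α f‖² = 2c (½ ∫ Σ_s |∂_s f + g ⟨A z, e_s⟩ f|² + g Σ_k (lam_k/2) ∫ |ann_k f|²)`.
* `grad_pot_le` : `½∫|∇f|² + ½g²∫|Az|²|f|² ≤ (2c)⁻¹ Σ ∫‖B_α f‖² + (g/2) tr A ∫‖f‖²`.
* `LinJ J T P` : `J` the partial complex structure of `T = J P`.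
* `kill` : `B_α (χ v) = 0` for `v ∈ vacJ J`, `∂χ = -g ⟨A z, ·⟩ χ`.
* `gap` : `g a ∫ ‖f - G ⊗ P_J f‖² ≤ (2c)⁻¹ Σ ∫‖B_α f‖²`.
-/

set_option autoImplicit false
set_option linter.unusedSectionVars false
set_option linter.unusedVariables false
set_option linter.deprecated false

open MeasureTheory Filter Topology
open scoped InnerProductSpace ContDiff
open Crest.Agent.R330.Cliff442 Crest.Agent.R330.DirG837

noncomputable section

namespace Crest.Agent.R330.Fib892

variable {E V F ι κ : Type*} [NormedAddCommGroup E] [InnerProductSpace ℝ E] [FiniteDimensional ℝ E]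
  [NormedAddCommGroup V] [InnerProductSpace ℝ V] [FiniteDimensional ℝ V]
  [NormedAddCommGroup F] [InnerProductSpace ℂ F] [FiniteDimensional ℂ F]
  [Fintype ι] [Fintype κ]

variable {M : CRep V F} {Γ : ι → E →ₗ[ℝ] V} {T P J : V →ₗ[ℝ] V} {A : E →L[ℝ] E} {c g : ℝ}
  {e : OrthonormalBasis κ ℝ E} {f : E → F}

/-- `J` is the partial complex structure of `T = J P`. -/
structure LinJ (J T P : V →ₗ[ℝ] V) : Prop where
  pcs : PCS J
  hT : ∀ x, T x = J (P x)
  hP : ∀ x, P x = -J (T x)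
  hker : ∀ x, T x = 0 → J x = 0

section alg

variable (h : Lin Γ T P A c e)
include h

theorem Lin.P_u {ν : Type*} {s : Finset ν} {u v : ν → V} {lam : ν → ℝ} (hn : NF T s u v lam)
    {k : ν} (hk : k ∈ s) : P (u k) = lam k • u k ∧ P (v k) = lam k • v k := by
  have hev : ∀ (w : V) (l : ℝ), 0 < l → T (T w) = -(l ^ 2) • w → P w = l • w := by
    intro w l hl hw
    have h1 : P (P w - l • w) = -(l • (P w - l • w)) := by
      rw [map_sub, h.psq, hw, map_smul]
      module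
    have h2 := h.ppos (P w - l • w)
    rw [h1, inner_neg_left, inner_smul_left, real_inner_self_eq_norm_sq] at h2
    have h3 : ‖P w - l • w‖ ^ 2 ≤ 0 := by
      have : 0 ≤ -(l * ‖P w - l • w‖ ^ 2) := by simpa using h2
      nlinarith [sq_nonneg ‖P w - l • w‖]
    have h4 : ‖P w - l • w‖ = 0 := by
      have := sq_nonneg ‖P w - l • w‖
      exact pow_eq_zero_iff two_ne_zero |>.1 (le_antisymm h3 this)
    exact sub_eq_zero.1 (norm_eq_zero.1 h4)
  constructor
  · exact hev _ _ (hn.pos k hk) (by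
      rw [hn.au k hk, map_smul, hn.av k hk, smul_smul]; congr 1; ring)
  · exact hev _ _ (hn.pos k hk) (by
      rw [hn.av k hk, map_smul, hn.au k hk, smul_smul]; congr 1; ring)

/-- The frequencies of `T` are bounded below by the lower bound of `A`. -/
theorem Lin.lam_ge {ν : Type*} {s : Finset ν} {u v : ν → V} {lam : ν → ℝ} (hn : NF T s u v lam)
    {a : ℝ} (hA : ∀ z, a * ‖z‖ ^ 2 ≤ ⟪A z, z⟫_ℝ) {k : ν} (hk : k ∈ s) : a ≤ lam k := by
  set x := u k with hx
  set y : ι → E := fun α => ∑ s, ⟪Γ α (e s), x⟫_ℝ • e s with hy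
  have hyi : ∀ α w, ⟪y α, w⟫_ℝ = ⟪Γ α w, x⟫_ℝ := by
    intro α w
    rw [hy]
    simp only [sum_inner, real_inner_smul_left]
    conv_rhs => rw [← e.sum_repr' w, map_sum, sum_inner]
    refine Finset.sum_congr rfl fun s _ => ?_
    rw [map_smul, real_inner_smul_left]
    ring
  have h1 : ∀ α, ⟪A (y α), y α⟫_ℝ = lam k * ‖y α‖ ^ 2 := by
    intro α
    rw [h.asym, hyi, ← h.inter, h.psym, (h.P_u hn hk).1, real_inner_smul_right, ← hyi,
      real_inner_self_eq_norm_sq]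
  have h2 : ∑ α, ‖y α‖ ^ 2 = c := by
    have h3 : ∀ α, ‖y α‖ ^ 2 = ∑ s, ⟪Γ α (e s), x⟫_ℝ * ⟪Γ α (e s), x⟫_ℝ := by
      intro α
      rw [← real_inner_self_eq_norm_sq, hyi, hy]
      simp only [map_sum, map_smul, sum_inner, real_inner_smul_left]
    simp only [h3]
    have h4 := congrArg (fun w => ⟪w, v k⟫_ℝ) (h.fr2 x)
    simp only [sum_inner, real_inner_smul_left] at h4
    have h5 : ∀ w, ⟪T w, v k⟫_ℝ = -(lam k * ⟪w, x⟫_ℝ) := by
      intro w
      rw [h.skew, hn.av k hk, real_inner_smul_right]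
    simp only [h5] at h4
    have h6 : ⟪x, x⟫_ℝ = 1 := by
      rw [real_inner_self_eq_norm_sq, (hn.prs.pr k hk).1]; norm_num
    rw [h6] at h4
    have h7 : -(lam k) * ∑ α, ∑ s, ⟪Γ α (e s), x⟫_ℝ * ⟪Γ α (e s), x⟫_ℝ = -(lam k) * c := by
      rw [Finset.mul_sum]
      calc ∑ α, -(lam k) * ∑ s, ⟪Γ α (e s), x⟫_ℝ * ⟪Γ α (e s), x⟫_ℝ
          = ∑ α, ∑ s, ⟪Γ α (e s), x⟫_ℝ * -(lam k * ⟪Γ α (e s), x⟫_ℝ) := by
            refine Finset.sum_congr rfl fun α _ => ?_
            rw [Finset.mul_sum]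
            refine Finset.sum_congr rfl fun s _ => ?_
            ring
        _ = c * -(lam k * 1) := h4
        _ = -(lam k) * c := by ring
    have h8 : -(lam k) ≠ 0 := neg_ne_zero.2 (hn.pos k hk).ne'
    exact mul_left_cancel₀ h8 h7
  have h3 : a * c ≤ lam k * c := by
    rw [← h2, Finset.mul_sum, Finset.mul_sum]
    exact Finset.sum_le_sum fun α _ => by rw [← h1]; exact hA _
  exact le_of_mul_le_mul_right h3 h.cpos

/-- `J` has the normal form of `T`, with frequencies `1`. -/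
theorem Lin.NF_J (hJ : LinJ J T P) {ν : Type*} {s : Finset ν} {u v : ν → V} {lam : ν → ℝ}
    (hn : NF T s u v lam) : NF J s u v (fun _ => 1) := by
  refine ⟨hn.prs, fun _ _ => one_pos, fun k hk => ?_, fun k hk => ?_, fun x hx => ?_⟩
  · have h1 := hJ.hT (u k)
    rw [(h.P_u hn hk).1, map_smul, hn.au k hk] at h1
    have h2 : lam k • (J (u k) + v k) = 0 := by
      rw [smul_add, ← h1]
      module
    have h3 := (smul_eq_zero.1 h2).resolve_left (hn.pos k hk).ne'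
    rw [neg_one_smul]
    exact eq_neg_of_add_eq_zero_left h3
  · have h1 := hJ.hT (v k)
    rw [(h.P_u hn hk).2, map_smul, hn.av k hk] at h1
    rw [one_smul]
    exact (smul_right_injective V (hn.pos k hk).ne' h1).symm
  · exact hJ.hker x (hn.ker x hx)

end alg

/-- **The Gaussian with a vacuum vector is killed.** -/
theorem kill (h : Lin Γ T P A c e) (hJ : LinJ J T P) {χ : E → ℝ} {z : E}
    (hχ : DifferentiableAt ℝ χ z) (hd : ∀ w, fderiv ℝ χ z w = -(g * ⟪A z, w⟫_ℝ) * χ z) {v : F}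
    (hv : v ∈ M.vacJ J) (α : ι) : chg M Γ T e g α (fun y => χ y • v) z = 0 := by
  have h1 : ∀ w, fderiv ℝ (fun y => χ y • v) z w = ((-(g * ⟪A z, w⟫_ℝ) * χ z : ℝ) : ℂ) • v := by
    intro w
    rw [(hχ.hasFDerivAt.smul_const v).fderiv]
    simp only [ContinuousLinearMap.smulRight_apply]
    rw [hd, Complex.coe_smul]
  have h2 : M.θ (T (Γ α z)) v = -Complex.I • M.θ (P (Γ α z)) v := by
    have h3 := M.mem_vacJ.1 hv (P (Γ α z))
    rw [← hJ.hT] at h3
    have h4 : J (T (Γ α z)) = -P (Γ α z) := by rw [hJ.hP, neg_neg]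
    rw [h4, M.neg, LinearMap.neg_apply] at h3
    rw [h3]
    module
  have h5 : P (Γ α z) = ∑ s, ⟪A z, e s⟫_ℝ • Γ α (e s) := by
    rw [h.inter]
    conv_lhs => rw [← e.sum_repr' (A z), map_sum]
    refine Finset.sum_congr rfl fun s _ => ?_
    rw [map_smul, real_inner_comm]
  rw [chg_apply]
  simp only [h1]
  have h6 : (χ z • v : F) = ((χ z : ℝ) : ℂ) • v := (Complex.coe_smul _ _).symm
  rw [h6, map_smul, h2, h5, M.sum, LinearMap.sum_apply, Finset.smul_sum, Finset.smul_sum,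
    Finset.smul_sum, ← Finset.sum_add_distrib]
  refine Finset.sum_eq_zero fun s _ => ?_
  rw [M.smul, LinearMap.smul_apply, map_smul]
  simp only [smul_smul]
  rw [← add_smul]
  push_cast
  ring_nf
  simp

section energy

variable [MeasurableSpace E] [BorelSpace E]

/-- **Energy identity, completed squares.** -/
theorem energy_sq (h : Lin Γ T P A c e) {ν : Type*} {s : Finset ν} {u v : ν → V} {lam : ν → ℝ}
    (hn : NF T s u v lam) (hf : ContDiff ℝ 2 f) (hc : HasCompactSupport f) :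
    ∑ α, ∫ z, ‖chg M Γ T e g α f z‖ ^ 2 =
      2 * c * (1 / 2 * (∫ z, ∑ s, ‖fderiv ℝ f z (e s) + ⟪(g • (A : E →ₗ[ℝ] E)) (z - 0), e s⟫_ℝ • f z‖ ^ 2) +
        g * ∫ z, ∑ k ∈ s, lam k / 2 * ‖M.ann (u k) (v k) (f z)‖ ^ 2) := by
  have hfc : Continuous f := hf.continuous
  set b := stdOrthonormalBasis ℝ V with hb
  let _ : InnerProductSpace ℝ F := InnerProductSpace.complexToReal
  have hf1 : ContDiff ℝ 1 f := hf.of_le (by norm_num)
  have h1 := Osc151.op_identity (μ := (volume : Measure E)) e (g • (A : E →ₗ[ℝ] E)) 0 hf1 hc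
  have i1 : Integrable fun z => ‖f z‖ ^ 2 :=
    integrable_cs (hfc.norm.pow 2) (cs_of_zero hc fun z hz => by rw [hz]; simp)
  have i2 : Integrable fun z => (⟪f z, M.quad b T (f z)⟫_ℂ).re := by
    have i3 : Integrable fun z => ⟪f z, M.quad b T (f z)⟫_ℂ := by
      refine integrable_cs (hfc.inner ((continuous_lin (M.quad b T)).comp hfc))
        (cs_of_zero hc fun z hz => ?_)
      rw [hz, inner_zero_left]
    exact i3.re
  have h2 : (∫ z, (⟪f z, M.quad b T (f z)⟫_ℂ).re) + 1 / 2 * (∑ k ∈ s, lam k) * ∫ z, ‖f z‖ ^ 2 =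
      ∫ z, ∑ k ∈ s, lam k / 2 * ‖M.ann (u k) (v k) (f z)‖ ^ 2 := by
    rw [← integral_const_mul, ← integral_add i2 (i1.const_mul _)]
    exact integral_congr_ae (Eventually.of_forall fun z => M.re_inner_quad b hn (f z))
  have h3 : ∑ s, ⟪(g • (A : E →ₗ[ℝ] E)) (e s), e s⟫_ℝ = g * ∑ k ∈ s, lam k := by
    rw [← h.trace b hn, Finset.mul_sum]
    refine Finset.sum_congr rfl fun s _ => ?_
    rw [LinearMap.smul_apply, real_inner_smul_left]
    rfl
  have h4 : ∫ z, ‖(g • (A : E →ₗ[ℝ] E)) (z - 0)‖ ^ 2 * ‖f z‖ ^ 2 =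
      g ^ 2 * ∫ z, ‖A z‖ ^ 2 * ‖f z‖ ^ 2 := by
    rw [← integral_const_mul]
    refine integral_congr_ae (Eventually.of_forall fun z => ?_)
    simp only [sub_zero, LinearMap.smul_apply, norm_smul, mul_pow, Real.norm_eq_abs, sq_abs]
    rw [mul_assoc]
    rfl
  rw [h3, h4] at h1
  rw [h.energy b hf hc, ← h2, h1]
  ring

/-- Gradient and potential are controlled. -/
theorem grad_pot_le (h : Lin Γ T P A c e) (hg : 0 ≤ g) (hf : ContDiff ℝ 2 f)
    (hc : HasCompactSupport f) :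
    1 / 2 * (∫ z, ∑ s, ‖fderiv ℝ f z (e s)‖ ^ 2) +
        1 / 2 * g ^ 2 * (∫ z, ‖A z‖ ^ 2 * ‖f z‖ ^ 2) ≤
      (2 * c)⁻¹ * ∑ α, (∫ z, ‖chg M Γ T e g α f z‖ ^ 2) +
        g / 2 * (∑ s, ⟪A (e s), e s⟫_ℝ) * ∫ z, ‖f z‖ ^ 2 := by
  have hfc : Continuous f := hf.continuous
  set b := stdOrthonormalBasis ℝ V with hb
  obtain ⟨m, u, v, lam, hn⟩ := h.skew.exists_NF
  have i1 : Integrable fun z => ‖f z‖ ^ 2 :=
    integrable_cs (hfc.norm.pow 2) (cs_of_zero hc fun z hz => by rw [hz]; simp)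
  have i2 : Integrable fun z => (⟪f z, M.quad b T (f z)⟫_ℂ).re := by
    have i3 : Integrable fun z => ⟪f z, M.quad b T (f z)⟫_ℂ := by
      refine integrable_cs (hfc.inner ((continuous_lin (M.quad b T)).comp hfc))
        (cs_of_zero hc fun z hz => ?_)
      rw [hz, inner_zero_left]
    exact i3.re
  have h1 : -(1 / 2 * (∑ k ∈ Finset.range m, lam k) * ∫ z, ‖f z‖ ^ 2) ≤
      ∫ z, (⟪f z, M.quad b T (f z)⟫_ℂ).re := by
    rw [← integral_const_mul, ← integral_neg]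
    exact integral_mono (i1.const_mul _).neg i2 fun z => M.quad_ge b hn (f z)
  have h2 := h.energy (M := M) (g := g) b hf hc
  have h3 := h.cpos
  rw [h2, h.trace b hn, ← mul_assoc (2 * c)⁻¹, inv_mul_cancel₀ (by positivity), one_mul]
  have h4 := mul_le_mul_of_nonneg_left h1 hg
  linarith

/-- `A` is positive. -/
theorem Lin.pd (h : Lin Γ T P A c e) {a : ℝ} (ha : 0 < a) (hA : ∀ z, a * ‖z‖ ^ 2 ≤ ⟪A z, z⟫_ℝ) :
    SqrtPD984.PD A := by
  refine ⟨h.asym, fun v hv => lt_of_lt_of_le ?_ (hA v)⟩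
  have : 0 < ‖v‖ := norm_pos_iff.2 hv
  positivity

theorem Lin.symG (h : Lin Γ T P A c e) (g : ℝ) : (g • (A : E →ₗ[ℝ] E)).IsSymmetric := by
  intro x y
  simp only [LinearMap.smul_apply, ContinuousLinearMap.coe_coe, real_inner_smul_left,
    real_inner_smul_right]
  rw [h.asym]

/-- The two normalised Gaussians agree. -/
theorem Lin.gs_eq (h : Lin Γ T P A c e) {a : ℝ} (ha : 0 < a) (hg : 0 < g)
    (hA : ∀ z, a * ‖z‖ ^ 2 ≤ ⟪A z, z⟫_ℝ) : Osc151.gsOp (h.symG g) 0 = GPar984.G g A := by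
  have hpd := h.pd ha hA
  have hA' : ∀ z, (g * a) * ‖z‖ ^ 2 ≤ ⟪(g • (A : E →ₗ[ℝ] E)) z, z⟫_ℝ := by
    intro z
    rw [LinearMap.smul_apply, real_inner_smul_left, mul_assoc]
    exact mul_le_mul_of_nonneg_left (hA z) hg.le
  have hga : 0 < g * a := mul_pos hg ha
  set C : ℝ := (g / Real.pi) ^ (Module.finrank ℝ E / 4 : ℝ) *
    Real.sqrt |GPar984.dt (SqrtPD984.psq A)| with hC
  have e1 : ∀ z, GPar984.G g A z = C * Real.exp (-(g / 2) * ⟪A z, z⟫_ℝ) := fun z => rfl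
  have e2 : ∀ z, Osc151.gsOp (h.symG g) 0 z =
      Osc151.zOp (h.symG g) * Real.exp (-(g / 2) * ⟪A z, z⟫_ℝ) := by
    intro z
    rw [Osc151.gsOp_eq]
    congr 2
    rw [sub_zero, LinearMap.smul_apply, real_inner_smul_left]
    simp only [ContinuousLinearMap.coe_coe]
    ring
  have hz : 0 < Osc151.zOp (h.symG g) := Osc151.zOp_pos (h.symG g) hga hA'
  have hCp : 0 < C := by
    have h1 := GPar984.G_pos hg hpd (0 : E)
    rw [e1] at h1
    exact (pos_iff_pos_of_mul_pos h1).2 (Real.exp_pos _)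
  have h1 := (Osc151.normSq_gsOp (h.symG g) hga hA' 0).2
  have h2 := GPar984.integral_G_sq hg hpd
  simp only [e1, e2, mul_pow] at h1 h2
  rw [integral_const_mul] at h1 h2
  have h3 : Osc151.zOp (h.symG g) ^ 2 = C ^ 2 := by
    have h4 : (∫ z : E, Real.exp (-(g / 2) * ⟪A z, z⟫_ℝ) ^ 2) ≠ 0 := by
      intro h0
      rw [h0, mul_zero] at h1
      exact zero_ne_one h1
    exact mul_right_cancel₀ h4 (h1.trans h2.symm)
  have h4 : Osc151.zOp (h.symG g) = C := (pow_left_inj₀ hz.le hCp.le two_ne_zero).1 h3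
  funext z
  rw [e1, e2, h4]

/-- The fibre projection on `G ⊗ vacJ J`. -/
def fib (M : CRep V F) (J : V →ₗ[ℝ] V) (g : ℝ) (A : E →L[ℝ] E) (f : E → F) (z : E) : F :=
  GPar984.G g A z • M.proj J (∫ w, GPar984.G g A w • f w)

/-- **Gap of a system of linear charges.** -/
theorem gap (h : Lin Γ T P A c e) (hJ : LinJ J T P) {a : ℝ} (ha : 0 < a) (hg : 0 < g)
    (hA : ∀ z, a * ‖z‖ ^ 2 ≤ ⟪A z, z⟫_ℝ) (hf : ContDiff ℝ 2 f) (hc : HasCompactSupport f) :
    g * a * ∫ z, ‖f z - fib M J g A f z‖ ^ 2 ≤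
      (2 * c)⁻¹ * ∑ α, (∫ z, ‖chg M Γ T e g α f z‖ ^ 2) := by
  let _ : InnerProductSpace ℝ F := InnerProductSpace.complexToReal
  have hpd := h.pd ha hA
  have hga : 0 < g * a := mul_pos hg ha
  have hfc : Continuous f := hf.continuous
  have hf1 : ContDiff ℝ 1 f := hf.of_le (by norm_num)
  have hA' : ∀ z, (g * a) * ‖z‖ ^ 2 ≤ ⟪(g • (A : E →ₗ[ℝ] E)) z, z⟫_ℝ := by
    intro z
    rw [LinearMap.smul_apply, real_inner_smul_left, mul_assoc]
    exact mul_le_mul_of_nonneg_left (hA z) hg.le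
  obtain ⟨n, u, v, lam, hn⟩ := h.skew.exists_NF
  set G := GPar984.G g A with hG
  have hGc : Continuous G := GPar984.continuous_G g A
  have hG1 : ∫ z, G z ^ 2 = 1 := GPar984.integral_G_sq hg hpd
  have hG2 : Integrable fun z => G z ^ 2 := by
    by_contra hcon
    rw [integral_undef hcon] at hG1
    exact zero_ne_one hG1
  -- bosonic gap
  have b1 := Osc151.gap_op (F := F) (h.symG g) e hga hA' 0 f hf1 hc
  rw [h.gs_eq ha hg hA, ← hG] at b1
  -- energy
  have b2 := energy_sq (M := M) (g := g) h hn hf hc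
  set m₀ : F := ∫ w, G w • f w with hm₀
  have hB0 : 0 ≤ ∫ z, ∑ k ∈ Finset.range n, lam k / 2 * ‖M.ann (u k) (v k) (f z)‖ ^ 2 :=
    integral_nonneg fun z => Finset.sum_nonneg fun k hk =>
      mul_nonneg (by linarith [hn.pos k hk]) (sq_nonneg _)
  -- projection in the fibre
  have i1 : Integrable fun z => ‖f z‖ ^ 2 :=
    integrable_cs (hfc.norm.pow 2) (cs_of_zero hc fun z hz => by rw [hz]; simp)
  have hPc : Continuous fun z => M.proj J (f z) := (continuous_lin _).comp hfc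
  have i2 : Integrable fun z => G z • f z :=
    integrable_cs (hGc.smul hfc) (cs_of_zero hc fun z hz => by rw [hz, smul_zero])
  have i3 : Integrable fun z => G z • (f z - M.proj J (f z)) :=
    integrable_cs (hGc.smul (hfc.sub hPc)) (cs_of_zero hc fun z hz => by
      rw [hz, map_zero, sub_zero, smul_zero])
  have i4 : Integrable fun z => ‖f z - M.proj J (f z)‖ ^ 2 :=
    integrable_cs ((hfc.sub hPc).norm.pow 2) (cs_of_zero hc fun z hz => by
      rw [hz, map_zero, sub_zero, norm_zero]; norm_num)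
  have c1 : m₀ - M.proj J m₀ = ∫ w, G w • (f w - M.proj J (f w)) := by
    have h1 : (∫ w, G w • (f w - M.proj J (f w))) = (LinearMap.toContinuousLinearMap
        ((1 : Module.End ℂ F) - M.proj J)) (∫ w, G w • f w) := by
      rw [← ContinuousLinearMap.integral_comp_comm _ i2]
      refine integral_congr_ae (Eventually.of_forall fun z => ?_)
      simp only [LinearMap.coe_toContinuousLinearMap', LinearMap.sub_apply, Module.End.one_apply]
      have h2 : (G z • f z : F) = ((G z : ℝ) : ℂ) • f z := (Complex.coe_smul _ _).symm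
      rw [h2, map_smul, ← smul_sub, Complex.coe_smul]
    rw [h1]
    rfl
  have c2 : ‖m₀ - M.proj J m₀‖ ^ 2 ≤ ∫ z, ‖f z - M.proj J (f z)‖ ^ 2 := by
    rw [c1]
    exact Poinc151.norm_integral_smul_le hG2 i4 i3 hG1
  have c3 : a * ∫ z, ‖f z - M.proj J (f z)‖ ^ 2 ≤
      ∫ z, ∑ k ∈ Finset.range n, lam k / 2 * ‖M.ann (u k) (v k) (f z)‖ ^ 2 := by
    rw [← integral_const_mul]
    refine integral_mono (i4.const_mul a) ?_ fun z => ?_
    · refine integrable_cs (continuous_finsetSum _ fun k _ => continuous_const.mul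
        (((continuous_lin _).comp hfc).norm.pow 2)) (cs_of_zero hc fun z hz => ?_)
      refine Finset.sum_eq_zero fun k _ => ?_
      rw [hz, map_zero, norm_zero]; norm_num
    · have h1 := M.num_gap hJ.pcs (f z)
      rw [M.re_inner_num hJ.pcs (h.NF_J hJ hn)] at h1
      simp only
      calc a * ‖f z - M.proj J (f z)‖ ^ 2 ≤
            a * ∑ k ∈ Finset.range n, 1 / 2 * ‖M.ann (u k) (v k) (f z)‖ ^ 2 :=
            mul_le_mul_of_nonneg_left h1 ha.le
        _ ≤ _ := by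
            rw [Finset.mul_sum]
            refine Finset.sum_le_sum fun k hk => ?_
            have h2 := h.lam_ge hn hA hk
            nlinarith [sq_nonneg ‖M.ann (u k) (v k) (f z)‖]
  -- distance
  have d1 : ∫ z, ‖f z - fib M J g A f z‖ ^ 2 =
      ((∫ z, ‖f z‖ ^ 2) - ‖m₀‖ ^ 2) + ‖m₀ - M.proj J m₀‖ ^ 2 := by
    have e1 : ∀ z, ‖f z - fib M J g A f z‖ ^ 2 = ‖f z‖ ^ 2 - 2 * ⟪M.proj J m₀, G z • f z⟫_ℝ +
        G z ^ 2 * ‖M.proj J m₀‖ ^ 2 := by
      intro z
      have h1 : fib M J g A f z = G z • M.proj J m₀ := rfl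
      rw [h1, norm_sub_sq_real, inner_smul_right, inner_smul_right, norm_smul, mul_pow,
        Real.norm_eq_abs, sq_abs, real_inner_comm]
    have e2 : ⟪M.proj J m₀, m₀⟫_ℝ = ‖M.proj J m₀‖ ^ 2 := by
      have h1 : ⟪M.proj J m₀, m₀⟫_ℝ = (⟪M.proj J m₀, m₀⟫_ℂ).re := rfl
      rw [h1, M.proj_symm hJ.pcs, M.inner_proj_self hJ.pcs, Complex.ofReal_re]
    have i12 : Integrable (fun z => ‖f z‖ ^ 2 - 2 * ⟪M.proj J m₀, G z • f z⟫_ℝ) :=
      i1.sub ((i2.const_inner _).const_mul 2)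
    simp only [e1]
    rw [integral_add i12 (hG2.mul_const _), integral_sub i1 ((i2.const_inner _).const_mul 2),
      integral_mul_const, hG1, integral_const_mul, integral_inner i2, ← hm₀, e2]
    have h3 := M.norm_sq_split hJ.pcs m₀
    linarith
  have hc0 := h.cpos
  rw [d1, b2, ← mul_assoc (2 * c)⁻¹, inv_mul_cancel₀ (by positivity), one_mul, mul_add]
  have f1 : g * a * ((∫ z, ‖f z‖ ^ 2) - ‖m₀‖ ^ 2) ≤
      1 / 2 * ∫ z, ∑ s, ‖fderiv ℝ f z (e s) + ⟪(g • (A : E →ₗ[ℝ] E)) (z - 0), e s⟫_ℝ • f z‖ ^ 2 := by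
    linarith
  have f2 : g * a * ‖m₀ - M.proj J m₀‖ ^ 2 ≤
      g * ∫ z, ∑ k ∈ Finset.range n, lam k / 2 * ‖M.ann (u k) (v k) (f z)‖ ^ 2 := by
    rw [mul_assoc]
    exact mul_le_mul_of_nonneg_left
      ((mul_le_mul_of_nonneg_left c2 ha.le).trans c3) hg.le
  linarith

end energy

end Crest.Agent.R330.Fib892

end
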