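import Crest.Agent.R330.Transp2_491
import Crest.Agent.R330.F1b_581
import Crest.Agent.R330.FibB_892
import Crest.Agent.R330.AX_984

/-!
# Row 330, section 9.1(e) (helper491): (F1), (F2) at `X` on the fixed slice, `C²` functions

* `F1_D`, `F2_D` : transport from `Zs b X` (as a submodule `K = Zb`) to `Zs b c`, in the shape
  `F1b581.Dn`, `F1b581.SB`.
* `F1_of_lin` : (F1) with explicit constant from `Fib892.Lin`.
* `fib_eq_PrK` : the fibre projection of 892 is `PrK` with the Gaussian weight of any extension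
  of the form.
-/

set_option autoImplicit false
set_option linter.unusedSectionVars false

open MeasureTheory Filter Topology Crest.MathPhysics.MatrixQM
open Crest.Agent.R330.IBP837 Crest.Agent.R330.Defs478 Crest.Agent.R330.Frame839
open Crest.Agent.R330.LS839 Crest.Agent.R330.Clus839 Crest.Agent.R330.Bind6839
open Crest.Agent.R330.Transp491 Crest.Agent.R330.Transp2491
open scoped ContDiff InnerProductSpace ENNReal

noncomputable section

namespace Crest.Agent.R330.Transp3491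

/-! ## Change of variables for `C¹` functions -/

section general

variable {F : Type*} [NormedAddCommGroup F] [InnerProductSpace ℂ F] [FiniteDimensional ℂ F]
  {E₁ E₂ : Type*}
    [NormedAddCommGroup E₁] [InnerProductSpace ℝ E₁]
    [FiniteDimensional ℝ E₁] [MeasurableSpace E₁] [BorelSpace E₁] [NormedAddCommGroup E₂]
    [InnerProductSpace ℝ E₂] [FiniteDimensional ℝ E₂] [MeasurableSpace E₂] [BorelSpace E₂]

/-- Pointwise comparison of the gradients. -/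
theorem grad_comp_le {κ ι : Type*} [Fintype κ] [Fintype ι] (s : E₁ ≃L[ℝ] E₂)
    (hs : ∀ z, ‖s.symm z‖ ≤ ‖z‖) (e : OrthonormalBasis ι ℝ E₁) (v : OrthonormalBasis κ ℝ E₂)
    (f : E₂ → F) (w : E₁) :
    ∑ i, ‖fderiv ℝ f (s w) (v i)‖ ^ 2 ≤
      Fintype.card κ * ∑ i, ‖fderiv ℝ (fun w => f (s w)) w (e i)‖ ^ 2 := by
  have h2 : fderiv ℝ f (s w) =
      (fderiv ℝ (fun w => f (s w)) w).comp (s.symm : E₂ →L[ℝ] E₁) := by
    rw [fderiv_sb s f w]
    ext v
    simp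
  have h3 := F1b581.opNorm_sq_le e (fderiv ℝ (fun w => f (s w)) w)
  have h4 : ∀ i, ‖fderiv ℝ f (s w) (v i)‖ ^ 2 ≤
      ∑ i, ‖fderiv ℝ (fun w => f (s w)) w (e i)‖ ^ 2 := by
    intro i
    refine le_trans ?_ h3
    refine pow_le_pow_left₀ (norm_nonneg _) ?_ 2
    rw [h2]
    change ‖(fderiv ℝ (fun w => f (s w)) w) (s.symm (v i))‖ ≤ _
    refine ((fderiv ℝ (fun w => f (s w)) w).le_opNorm _).trans ?_
    have h5 : ‖s.symm (v i)‖ ≤ 1 := (hs (v i)).trans (le_of_eq (v.orthonormal.1 i))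
    calc _ ≤ ‖fderiv ℝ (fun w => f (s w)) w‖ * 1 := by gcongr
      _ = _ := mul_one _
  refine (Finset.sum_le_sum fun i _ => h4 i).trans (le_of_eq ?_)
  rw [Finset.sum_const, Finset.card_univ, nsmul_eq_mul]

/-- Comparison of the `D` integrals. -/
theorem Dn_le {κ ι : Type*} [Fintype κ] [Fintype ι] (s : E₁ ≃L[ℝ] E₂) {J : ℝ} (hJ : 0 < J)
    (hJs : (volume : Measure E₁).map s = ENNReal.ofReal J • (volume : Measure E₂))
    (hs : ∀ z, ‖s.symm z‖ ≤ ‖z‖) (hs' : ∀ w, ‖s w‖ ≤ 2 * ‖w‖)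
    (e : OrthonormalBasis ι ℝ E₁) (v : OrthonormalBasis κ ℝ E₂) (g : ℝ)
    {f : E₂ → F} (hf : ContDiff ℝ 1 f) (hfc : HasCompactSupport f) :
    J * F1b581.Dn volume v g f ≤
      (Fintype.card κ + 4) * F1b581.Dn volume e g (fun w => f (s w)) := by
  have hf' : ContDiff ℝ 1 (fun w => f (s w)) := hf.comp s.contDiff
  have hfc' : HasCompactSupport (fun w => f (s w)) := hfc.comp_homeomorph s.toHomeomorph
  unfold F1b581.Dn
  rw [← smul_eq_mul, ← integral_sb s hJ hJs (fun z => F1b581.dens v g f z),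
    ← integral_const_mul]
  refine integral_mono_of_nonneg (Filter.Eventually.of_forall fun w =>
    F1b581.dens_nonneg v g f (s w)) ?_ (Filter.Eventually.of_forall fun w => ?_)
  · refine Integrable.const_mul ?_ _
    exact (F1b581.cont_dens e g hf').integrable_of_hasCompactSupport (F1b581.supp_dens e g hfc')
  · change F1b581.dens v g f (s w) ≤ (Fintype.card κ + 4) * F1b581.dens e g (fun w => f (s w)) w
    unfold F1b581.dens
    have h1 := grad_comp_le s hs e v f w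
    have h2 := hs' w
    have h3 : ‖s w‖ ^ 2 ≤ 4 * ‖w‖ ^ 2 := by
      nlinarith [norm_nonneg (s w), norm_nonneg w]
    have h4 : 0 ≤ g ^ 2 * ‖f (s w)‖ ^ 2 := by positivity
    have h5 : g ^ 2 * ‖s w‖ ^ 2 * ‖f (s w)‖ ^ 2 ≤ 4 * (g ^ 2 * ‖w‖ ^ 2 * ‖f (s w)‖ ^ 2) := by
      nlinarith
    have h6 : 0 ≤ ∑ i, ‖fderiv ℝ (fun w => f (s w)) w (e i)‖ ^ 2 :=
      Finset.sum_nonneg fun i _ => by positivity
    have h7 : 0 ≤ g ^ 2 * ‖w‖ ^ 2 * ‖f (s w)‖ ^ 2 := by positivity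
    have h8 : (0 : ℝ) ≤ Fintype.card κ := Nat.cast_nonneg _
    nlinarith [mul_nonneg h8 h7]

end general

/-! ## Transport to the fixed slice -/

variable {N : ℕ} {b : ColorBasis N} {c : Cfg N}
  {F : Type*} [NormedAddCommGroup F] [InnerProductSpace ℂ F] [FiniteDimensional ℂ F]

theorem SB_Bh (M : FermionRep N F) (G : GammaNine) {κ κ' : Type} [Fintype κ] [Fintype κ']
    (v : OrthonormalBasis κ ℝ (Zs b c)) (t : OrthonormalBasis κ' ℝ (Tn (actB b) c))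
    (g : ℝ) (p : Cfg N) (f : Zs b c → F) :
    F1b581.SB b c M G v t g p f = ∑ α, ∫ z, ‖Bh M G g α v t p f z‖ ^ 2 := rfl

/-- **(F1) at `p` on the fixed slice**, `C²` functions, shape of `F1b_581`. -/
theorem F1_D (M : FermionRep N F) (G : GammaNine) {r B : ℝ}
    (hr0 : 0 < r) (hr : GapAt (actB b) c r) (hB : ActBound (actB b) B) (hB0 : 0 ≤ B)
    {p : Cfg N} (hp : p ∈ Uk b c) (hc : Comc b p) (hx : B * ‖p - c‖ ≤ r / 2)
    {ι : Type*} {κ η : Type} [Fintype ι] [Fintype κ] [Fintype η] {K : Submodule ℝ (Cfg N)}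
    (hK : K = Zb (actB b) c (Zs b c) p) (e : OrthonormalBasis ι ℝ K)
    (v : OrthonormalBasis κ ℝ (Zs b c)) (t : OrthonormalBasis η ℝ (Tn (actB b) c)) {C g : ℝ}
    (H : ∀ f : K → F, ContDiff ℝ 2 f → HasCompactSupport f →
      F1b581.Dn volume e g f ≤
      C * (∑ α, (∫ w, ‖Bf (thL M G α) (wBL b M G g α p) e f w‖ ^ 2) + g * ∫ w, ‖f w‖ ^ 2))
    {f : Zs b c → F} (hf : ContDiff ℝ 2 f) (hfc : HasCompactSupport f) :
    F1b581.Dn volume v g f ≤
      ((Fintype.card κ + 4) * C) * (F1b581.SB b c M G v t g p f + g * ∫ z, ‖f z‖ ^ 2) := by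
  subst hK
  have hM : ∀ α, ∀ w ∈ (kc (actB b) c)ᗮ, wBL b M G g α p (actB b w p) = 0 :=
    fun α w _ => wB_act hc M G g α w
  set s := sb hr0 hr hB hx (slice hp) with hsdef
  obtain ⟨J, hJ, hJs⟩ := exists_map_smul s
  have hf' : ContDiff ℝ 2 (fun w => f (s w)) := hf.comp s.contDiff
  have hfc' : HasCompactSupport (fun w => f (s w)) := hfc.comp_homeomorph s.toHomeomorph
  have h := H (fun w => f (s w)) hf' hfc'
  simp only [hsdef, fun α => Bf_comp hr0 hr hB hx (slice hp) (hM α) e v t f] at h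
  simp only [← hsdef] at h
  rw [integral_sb s hJ hJs (fun z => ‖f z‖ ^ 2)] at h
  simp only [fun α => integral_sb s hJ hJs
    (fun z => ‖Bc (actB b) c p (thL M G α) (wBL b M G g α p) v t f z‖ ^ 2), smul_eq_mul,
    ← Finset.mul_sum] at h
  simp only [Bh_eq] at h
  have h1 := Dn_le s hJ hJs (sb_symm_norm hr0 hr hB hx (slice hp))
    (sb_norm hr0 hr hB hB0 hx (slice hp)) e v g (hf.of_le (by norm_num)) hfc
  have h8 : (0 : ℝ) ≤ Fintype.card κ := Nat.cast_nonneg _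
  refine le_of_mul_le_mul_left (a := J) ?_ hJ
  rw [SB_Bh]
  have h2 := mul_le_mul_of_nonneg_left h (by linarith : (0 : ℝ) ≤ Fintype.card κ + 4)
  refine h1.trans (h2.trans (le_of_eq ?_))
  ring

/-- **(F2) at `p` on the fixed slice**, `C²` functions, shape of `F1b_581`. -/
theorem F2_D (M : FermionRep N F) (G : GammaNine) {r B : ℝ}
    (hr0 : 0 < r) (hr : GapAt (actB b) c r) (hB : ActBound (actB b) B)
    {p : Cfg N} (hp : p ∈ Uk b c) (hc : Comc b p) (hx : B * ‖p - c‖ ≤ r / 2)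
    {ι : Type*} {κ η : Type} [Fintype ι] [Fintype κ] [Fintype η] {K : Submodule ℝ (Cfg N)}
    (hK : K = Zb (actB b) c (Zs b c) p) (e : OrthonormalBasis ι ℝ K)
    (v : OrthonormalBasis κ ℝ (Zs b c)) (t : OrthonormalBasis η ℝ (Tn (actB b) c)) {C g : ℝ}
    {γ : Cfg N → ℝ} (hγ : ∀ w v, γ (w + actB b v p) = γ w) (P : F →ₗ[ℂ] F)
    (H : ∀ f : K → F, ContDiff ℝ 2 f → HasCompactSupport f →
      g * ∫ w, ‖f w - PrK K γ P f w‖ ^ 2 ≤
      C * ∑ α, ∫ w, ‖Bf (thL M G α) (wBL b M G g α p) e f w‖ ^ 2)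
    {f : Zs b c → F} (hf : ContDiff ℝ 2 f) (hfc : HasCompactSupport f) :
    g * ∫ z, ‖f z - PrK (Zs b c) γ P f z‖ ^ 2 ≤ C * F1b581.SB b c M G v t g p f := by
  subst hK
  have hM : ∀ α, ∀ w ∈ (kc (actB b) c)ᗮ, wBL b M G g α p (actB b w p) = 0 :=
    fun α w _ => wB_act hc M G g α w
  have h := H (fun w => f (sb hr0 hr hB hx (slice hp) w))
    (hf.comp (sb hr0 hr hB hx (slice hp)).contDiff)
    (hfc.comp_homeomorph (sb hr0 hr hB hx (slice hp)).toHomeomorph)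
  simp only [PrK_comp hr0 hr hB hx (slice hp) (fun w v _ => hγ w v)] at h
  have h2 := gapF2 hr0 hr hB hx (slice hp) (Th := thL M G)
    (Mz := fun α => wBL b M G g α p) hM e v t f (PrK (Zs b c) γ P f) h
  simp only [Bh_eq] at h2
  rw [SB_Bh]
  exact h2

/-! ## From the systems of linear charges of 892 -/

section lin

open Crest.Agent.R330.Cliff442

variable {E V ι κ : Type*} [NormedAddCommGroup E] [InnerProductSpace ℝ E]
  [FiniteDimensional ℝ E] [MeasurableSpace E] [BorelSpace E]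
  [NormedAddCommGroup V] [InnerProductSpace ℝ V] [FiniteDimensional ℝ V]
  [Fintype ι] [Fintype κ]
  {M : CRep V F} {Γ : ι → E →ₗ[ℝ] V} {T P : V →ₗ[ℝ] V} {A : E →L[ℝ] E} {c' g : ℝ}
  {e : OrthonormalBasis κ ℝ E} {f : E → F}

/-- (F1) with explicit constant. -/
theorem F1_of_lin (h : Fib892.Lin Γ T P A c' e) {a τ : ℝ} (ha : 0 < a)
    (hA : ∀ z, a * ‖z‖ ^ 2 ≤ ⟪A z, z⟫_ℝ) (hτ : ∑ s, ⟪A (e s), e s⟫_ℝ ≤ τ) (hg : 0 ≤ g)
    (hf : ContDiff ℝ 2 f) (hc : HasCompactSupport f) :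
    F1b581.Dn volume e g f ≤ (2 * (1 + (a⁻¹) ^ 2)) * ((2 * c')⁻¹ + τ / 2) *
      (∑ α, (∫ z, ‖Fib892.chg M Γ T e g α f z‖ ^ 2) + g * ∫ z, ‖f z‖ ^ 2) := by
  have h1 := Fib892.grad_pot_le (M := M) h hg hf hc
  have hcp := h.cpos
  have hf1 : ContDiff ℝ 1 f := hf.of_le (by norm_num)
  have hfc : Continuous f := hf.continuous
  have ifz : Integrable fun z => ‖z‖ ^ 2 * ‖f z‖ ^ 2 := by
    refine Continuous.integrable_of_hasCompactSupport ?_ ?_
    · exact (continuous_norm.pow 2).mul (hfc.norm.pow 2)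
    · refine HasCompactSupport.mul_left ?_
      exact hc.comp_left (g := fun v => ‖v‖ ^ 2) (by simp)
  have ifA : Integrable fun z => ‖A z‖ ^ 2 * ‖f z‖ ^ 2 := by
    refine Continuous.integrable_of_hasCompactSupport ?_ ?_
    · exact (A.continuous.norm.pow 2).mul (hfc.norm.pow 2)
    · refine HasCompactSupport.mul_left ?_
      exact hc.comp_left (g := fun v => ‖v‖ ^ 2) (by simp)
  have ig : Integrable fun z => ∑ s, ‖fderiv ℝ f z (e s)‖ ^ 2 := by
    refine integrable_finsetSum _ fun s _ => ?_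
    refine Continuous.integrable_of_hasCompactSupport ?_ ?_
    · exact (F1b581.cont_fderiv hf1 (e s)).norm.pow 2
    · refine HasCompactSupport.intro hc.isCompact fun z hz => ?_
      rw [(F1b581.supp_zero hz).1]
      simp
  have h2 : F1b581.Dn volume e g f = (∫ z, ∑ s, ‖fderiv ℝ f z (e s)‖ ^ 2) +
      g ^ 2 * ∫ z, ‖z‖ ^ 2 * ‖f z‖ ^ 2 := by
    unfold F1b581.Dn F1b581.dens
    rw [← integral_const_mul, ← integral_add ig (ifz.const_mul _)]
    refine integral_congr_ae (Filter.Eventually.of_forall fun z => ?_)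
    change _ + _ = _ + _
    ring
  have h3 : a ^ 2 * ∫ z, ‖z‖ ^ 2 * ‖f z‖ ^ 2 ≤ ∫ z, ‖A z‖ ^ 2 * ‖f z‖ ^ 2 := by
    rw [← integral_const_mul]
    refine integral_mono (ifz.const_mul _) ifA fun z => ?_
    change a ^ 2 * (‖z‖ ^ 2 * ‖f z‖ ^ 2) ≤ ‖A z‖ ^ 2 * ‖f z‖ ^ 2
    have h4 : a * ‖z‖ ≤ ‖A z‖ := by
      rcases eq_or_ne z 0 with rfl | hz
      · simp
      · have hz' : 0 < ‖z‖ := norm_pos_iff.2 hz
        have h5 := (hA z).trans (real_inner_le_norm (A z) z)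
        refine le_of_mul_le_mul_right (a := ‖z‖) ?_ hz'
        nlinarith
    have h5 : (a * ‖z‖) ^ 2 ≤ ‖A z‖ ^ 2 := pow_le_pow_left₀ (by positivity) h4 2
    nlinarith [sq_nonneg ‖f z‖]
  set G1 := ∫ z, ∑ s, ‖fderiv ℝ f z (e s)‖ ^ 2 with hG1
  set G2 := ∫ z, ‖A z‖ ^ 2 * ‖f z‖ ^ 2 with hG2
  set G3 := ∫ z, ‖z‖ ^ 2 * ‖f z‖ ^ 2 with hG3
  set S := ∑ α, (∫ z, ‖Fib892.chg M Γ T e g α f z‖ ^ 2) with hS
  set Q := ∫ z, ‖f z‖ ^ 2 with hQ
  have p1 : 0 ≤ G1 := integral_nonneg fun z => Finset.sum_nonneg fun s _ => by positivity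
  have p2 : 0 ≤ G2 := integral_nonneg fun z => by positivity
  have p3 : 0 ≤ G3 := integral_nonneg fun z => by positivity
  have p4 : 0 ≤ S := Finset.sum_nonneg fun α _ => integral_nonneg fun z => by positivity
  have p5 : 0 ≤ Q := integral_nonneg fun z => by positivity
  have hτ0 : 0 ≤ τ := by
    refine le_trans (Finset.sum_nonneg fun s _ => ?_) hτ
    exact le_trans (by positivity) (hA (e s))
  set R := (2 * c')⁻¹ * S + τ / 2 * (g * Q) with hR
  have h6 : 1 / 2 * G1 + 1 / 2 * g ^ 2 * G2 ≤ R := by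
    refine h1.trans ?_
    have : g / 2 * (∑ s, ⟪A (e s), e s⟫_ℝ) * Q ≤ g / 2 * τ * Q := by gcongr
    rw [hR]
    linarith
  have ha2 : 0 < a ^ 2 := by positivity
  have h7 : G3 ≤ (a⁻¹) ^ 2 * G2 := by
    rw [inv_pow]
    rw [← div_eq_inv_mul, le_div_iff₀ ha2]
    linarith
  have h8 : G1 + g ^ 2 * G3 ≤ 2 * (1 + (a⁻¹) ^ 2) * R := by
    have e1 : g ^ 2 * G3 ≤ (a⁻¹) ^ 2 * (g ^ 2 * G2) := by
      calc g ^ 2 * G3 ≤ g ^ 2 * ((a⁻¹) ^ 2 * G2) := by gcongr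
        _ = _ := by ring
    have e2 : g ^ 2 * G2 ≤ 2 * R := by nlinarith
    have e3 : G1 ≤ 2 * R := by
      have : 0 ≤ g ^ 2 * G2 := by positivity
      nlinarith
    have e4 : (a⁻¹) ^ 2 * (g ^ 2 * G2) ≤ (a⁻¹) ^ 2 * (2 * R) := by gcongr
    nlinarith
  have h9 : R ≤ ((2 * c')⁻¹ + τ / 2) * (S + g * Q) := by
    have e1 : 0 ≤ (2 * c')⁻¹ := by positivity
    have e2 : 0 ≤ g * Q := by positivity
    rw [hR]
    nlinarith [mul_nonneg e1 e2, mul_nonneg hτ0 p4]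
  rw [h2]
  refine h8.trans ?_
  calc 2 * (1 + (a⁻¹) ^ 2) * R ≤ 2 * (1 + (a⁻¹) ^ 2) * (((2 * c')⁻¹ + τ / 2) * (S + g * Q)) := by
        gcongr
    _ = _ := by ring

/-- The fibre projection of 892 is `PrK`. -/
theorem fib_eq_PrK {K : Submodule ℝ E} {J : V →ₗ[ℝ] V} {A : K →L[ℝ] K} (hA : SqrtPD984.PD A)
    (hg : 0 < g) {γ : E → ℝ} (hγ : ∀ z : K, γ z = Real.exp (-(g / 2) * ⟪A z, z⟫_ℝ))
    (f : K → F) (z : K) :
    Fib892.fib M J g A f z = PrK K γ (M.proj J) f z := by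
  set C : ℝ := (g / Real.pi) ^ (Module.finrank ℝ K / 4 : ℝ) *
    Real.sqrt |GPar984.dt (SqrtPD984.psq A)| with hC
  have e1 : ∀ z : K, GPar984.G g A z = C * γ z := fun z => by
    rw [hγ]
    rfl
  have h1 := GPar984.integral_G_sq hg hA
  simp only [e1, mul_pow] at h1
  rw [integral_const_mul] at h1
  unfold Fib892.fib PrK
  simp only [e1]
  have h2 : ∫ w : K, (C * γ w) • f w = C • ∫ w : K, γ w • f w := by
    rw [← integral_smul]
    refine integral_congr_ae (Filter.Eventually.of_forall fun w => ?_)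
    change (C * γ w) • f w = C • γ w • f w
    rw [smul_smul]
  rw [h2]
  have h3 : (∫ y : K, γ y ^ 2) ≠ 0 := by
    intro h0
    rw [h0, mul_zero] at h1
    exact zero_ne_one h1
  have h4 : C ^ 2 = (∫ y : K, γ y ^ 2)⁻¹ := eq_inv_of_mul_eq_one_left h1
  rw [← Complex.coe_smul C (∫ w : K, γ w • f w), map_smul, Complex.coe_smul, smul_smul]
  congr 1
  rw [div_eq_mul_inv, ← h4]
  ring

/-- (F2) in the form with `PrK`. -/
theorem F2_of_lin {K : Submodule ℝ E} {Γ : ι → K →ₗ[ℝ] V} {A : K →L[ℝ] K}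
    {e : OrthonormalBasis κ ℝ K} {J : V →ₗ[ℝ] V} (h : Fib892.Lin Γ T P A c' e)
    (hJ : Fib892.LinJ J T P) {a : ℝ} (ha : 0 < a) (hA : ∀ z, a * ‖z‖ ^ 2 ≤ ⟪A z, z⟫_ℝ)
    (hg : 0 < g) {γ : E → ℝ} (hγ : ∀ z : K, γ z = Real.exp (-(g / 2) * ⟪A z, z⟫_ℝ))
    {f : K → F} (hf : ContDiff ℝ 2 f) (hc : HasCompactSupport f) :
    g * ∫ z, ‖f z - PrK K γ (M.proj J) f z‖ ^ 2 ≤
      (a⁻¹ * (2 * c')⁻¹) * ∑ α, (∫ z, ‖Fib892.chg M Γ T e g α f z‖ ^ 2) := by
  have h1 := Fib892.gap (M := M) h hJ ha hg hA hf hc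
  simp only [fib_eq_PrK (M := M) (J := J) (h.pd ha hA) hg hγ f] at h1
  refine le_of_mul_le_mul_left (a := a) ?_ ha
  calc _ = g * a * ∫ z, ‖f z - PrK K γ (M.proj J) f z‖ ^ 2 := by ring
    _ ≤ _ := h1
    _ = _ := by field_simp

end lin

end Crest.Agent.R330.Transp3491
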