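import Crest.Agent.R330.FibC_892
import Crest.Agent.R330.HMain_942
import Crest.Agent.R330.GBind_984
import Crest.Agent.R330.Transp3_491

/-!
# Row 330, S8-FIB (helper892), part D: the literal heavy charges

* `tenS N` : `W16 N = ℝ¹⁶ ⊗ Colg N`; `Jl b G K X : W16 N →ₗ W16 N` the complex structure
  (`row_Jl`), `pcs_Jl`.
* `lin_X`, `linJ_X` : the system of linear charges on `Zs b X`.
* `U_kill` : `i Θ_α(A z) v + wB_α(X, z) v = 0` on the heavy vacua, every `z`.
* `Bf_eq` : `Bf (Transp2491.thL M G α) (wBL b M G g α X) e f` is `chg` of the system.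
* `H1`, `H2` : (F1), (F2) at `X` on `Zs b X`.
* `cr_T₀`, `Bf_eq₀` hold for every `X`.
-/

set_option autoImplicit false
set_option linter.unusedSectionVars false
set_option linter.unusedVariables false

open MeasureTheory Filter Topology Crest.MathPhysics.MatrixQM
open scoped InnerProductSpace ContDiff
open Crest.Agent.R330.Cliff442 Crest.Agent.R330.AX984 Crest.Agent.R330.LS839
open Crest.Agent.R330.Frame839 Crest.Agent.R330.Clus839 Crest.Agent.R330.Bind6839
open Crest.Agent.R330.IBP837 Crest.Agent.R330.GBind984 Crest.Agent.R330.FactI161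
open Crest.Agent.R330.HMain942 Crest.Agent.R330.Transp491 Crest.Agent.R330.Transp2491
open Crest.Agent.R330.Transp3491 Crest.Agent.R330.E1984 Crest.Agent.R330.SqrtPD984

noncomputable section

namespace Crest.Agent.R330.Fib892

variable {N : ℕ}

/-- `W16 N = ℝ¹⁶ ⊗ Colg N`. -/
def tenS (N : ℕ) : Ten (Fin 16) (Colg N) (W16 N) where
  pr β := LinearMap.toContinuousLinearMap (row β)
  ij β := LinearMap.toContinuousLinearMap (ins β)
  pr_same β v := row_ins_self β v
  pr_ne β β' v h := by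
    change row β (ins β' v) = 0
    rw [row_ins, if_neg h]
  sum_ij x := sum_ins_row x
  adj β v x := inner_ins β v x

theorem tenS_pr (β : Fin 16) (x : W16 N) : (tenS N).pr β x = row β x := rfl

theorem tenS_ij (β : Fin 16) (v : Colg N) : (tenS N).ij β v = ins β v := rfl

/-- `Γ_α z` is 942's `tv`. -/
theorem Gm_tv (G : GammaNine) (α : Fin 16) (z : Cfg N) :
    Gm G tenC (tenS N) α z = tv G α z := by
  refine ext_row fun β => ?_
  rw [row_tv]
  exact pr_Gm G tenC (tenS N) α β z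

variable {F : Type*} [NormedAddCommGroup F] [InnerProductSpace ℂ F] [FiniteDimensional ℂ F]

theorem cr_Gm (M : FermionRep N F) (G : GammaNine) (α : Fin 16) (z : Cfg N) :
    (cr M).θ (Gm G tenC (tenS N) α z) = Theta M G α z := by
  rw [Gm_tv, Theta_cr]

variable (b : ColorBasis N)

/-- The complex structure of the heavy vacuum, `J = -Σ γ^i ⊗ D_i |D|⁻¹`, `D_i = [X_i, ·]`. -/
def Jl (G : GammaNine) (K : Submodule ℝ (Colg N)) (X : Cfg N) : W16 N →ₗ[ℝ] W16 N :=
  Jm G (tenS N) K (adX b X)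

theorem row_Jl (G : GammaNine) (K : Submodule ℝ (Colg N)) (X : Cfg N) (x : W16 N) (β : Fin 16) :
    row β (Jl b G K X x) =
      -∑ i, ∑ β', G.γ i β β' • adX b X i (li K (adX b X) (row β' x)) := by
  have e1 := pr_Jm G (tenS N) (K := K) (D := adX b X) β x
  simp only [tenS_pr] at e1
  unfold Jl
  rw [e1]

variable {b}

/-- The transverse heavy space. -/
theorem ZZ_eq (X : Cfg N) : tenC.ZZ (kc (actB b) X) (adX b X) = Zs b X := by
  ext z
  rw [mem_Zs_iff]
  rfl

section com

variable {K : Submodule ℝ (Colg N)} {X : Cfg N} {s : ℝ}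

/-- Gap of a commuting configuration. -/
theorem fam_gap (hX : Comc b X) (hK : kc (actB b) X = K) (hs0 : 0 ≤ s)
    (hs : GapAt (actB b) X s) : Fam K s (adX b X) := by
  subst hK
  refine ⟨adX_skew b X, fun i j v => (colAlg b).comm_ad hX i j v,
    fun i w hw => (mem_kc_iff' b).mp hw i, fun w hw => ?_⟩
  have h1 : ‖actB b w X‖ ^ 2 = ∑ i, ‖adX b X i w‖ ^ 2 := by
    rw [norm_sq_comp]
    refine Finset.sum_congr rfl fun i _ => ?_
    rw [comp_act, adX_apply, (colAlg b).anti, norm_neg]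
  rw [← h1, ← mul_pow]
  exact pow_le_pow_left₀ (mul_nonneg hs0 (norm_nonneg _)) (hs w hw) 2

/-- The intertwiner `T` on the transverse heavy space is the linear potential (every `X`). -/
theorem cr_T₀ (M : FermionRep N F) (G : GammaNine) (g : ℝ) (α : Fin 16) {z : Cfg N}
    (hz : z ∈ tenC.ZZ K (adX b X)) :
    (g : ℂ) • (cr M).θ ((-Sm G (tenS N) (adX b X)) (Gm G tenC (tenS N) α z)) =
      wB b M G g α X z := by
  have h1 : wB b M G g α X z = vco M (fun β A => 2 * g * wb b G α β A X z) := rfl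
  have h4 : wv (fun β A => 2 * g * wb b G α β A X z) =
      g • wv (N := N) (fun β A => 2 * wb b G α β A X z) := by
    ext p
    simp [wv]
    ring
  rw [h1, vco_eq, h4, (cr M).smul]
  congr 2
  refine ext_row fun β => ?_
  rw [row_wv, LinearMap.neg_apply, map_neg]
  have h5 : row β (Sm G (tenS N) (adX b X) (Gm G tenC (tenS N) α z)) =
      ∑ i, ∑ β', G.γ i β β' • adX b X i (∑ j, G.γ j α β' • comp z j) := by
    have e1 := pr_Sm G (tenS N) (adX b X) β (Gm G tenC (tenS N) α z)
    rw [tenS_pr] at e1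
    rw [e1]
    refine Finset.sum_congr rfl fun i _ => Finset.sum_congr rfl fun β' _ => ?_
    rw [pr_Gm]
    rfl
  have h6 : ∑ i, ∑ β', G.γ i β β' • adX b X i (∑ j, G.γ j α β' • comp z j) =
      ∑ i, ∑ j, (G.γ j * G.γ i) α β • adX b X i (comp z j) := by
    refine Finset.sum_congr rfl fun i _ => ?_
    have h7 : ∀ β', G.γ i β β' • adX b X i (∑ j, G.γ j α β' • comp z j) =
        ∑ j, (G.γ j α β' * G.γ i β' β) • adX b X i (comp z j) := by
      intro β'
      rw [map_sum, Finset.smul_sum]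
      refine Finset.sum_congr rfl fun j _ => ?_
      rw [map_smul, smul_smul, gam_sym G i β β', mul_comm]
    simp only [h7]
    rw [Finset.sum_comm]
    refine Finset.sum_congr rfl fun j _ => ?_
    rw [← Finset.sum_smul, Matrix.mul_apply]
  have h8 : ∑ i, adX b X i (comp z i) = 0 := by
    have := hz.2
    rw [tenC.dv_apply] at this
    exact this
  rw [h5, h6]
  ext A
  change -((∑ i, ∑ j, (G.γ j * G.γ i) α β • adX b X i (comp z j) : Colg N) A) =
    2 * wb b G α β A X z
  have h9 : 2 * wb b G α β A X z =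
      (∑ i, ∑ j, G.γ2 i j α β • adX b X i (comp z j) : Colg N) A := by
    rw [wb_eq, Finset.mul_sum]
    have : (∑ i, ∑ j, G.γ2 i j α β • adX b X i (comp z j) : Colg N) A =
        ∑ i, ∑ j, G.γ2 i j α β * (adX b X i (comp z j)) A := by
      simp
    rw [this]
    refine Finset.sum_congr rfl fun i _ => ?_
    rw [Finset.mul_sum]
    refine Finset.sum_congr rfl fun j _ => ?_
    have h5 : (adX b X i (comp z j)) A =
        SlB314.br b (fun B => X (i, B)) (fun C => z (j, C)) A := rfl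
    rw [h5]
    ring
  have h10 : ∑ i, ∑ j, G.γ2 i j α β • adX b X i (comp z j) =
      (1 : Matrix (Fin 16) (Fin 16) ℝ) α β • (∑ i, adX b X i (comp z i)) -
        ∑ i, ∑ j, (G.γ j * G.γ i) α β • adX b X i (comp z j) := by
    rw [Finset.smul_sum, ← Finset.sum_sub_distrib]
    refine Finset.sum_congr rfl fun i _ => ?_
    simp only [gam2, sub_smul, Finset.sum_sub_distrib]
    congr 1
    rw [Finset.sum_eq_single i]
    · rw [if_pos rfl]
    · intro j _ hj
      rw [if_neg (Ne.symm hj), zero_smul]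
    · intro hn
      exact absurd (Finset.mem_univ i) hn
  rw [h9, h10, h8, smul_zero, zero_sub]
  rfl

/-- **The heavy charge on the transverse heavy space is the charge of the system** (every `X`). -/
theorem Bf_eq₀ (M : FermionRep N F) (G : GammaNine) (g : ℝ) (α : Fin 16)
    {Z : Submodule ℝ (Cfg N)} (hZ : Z = tenC.ZZ K (adX b X)) {κ : Type*} [Fintype κ]
    (e : OrthonormalBasis κ ℝ Z) (f : Z → F) (z : Z) :
    Bf (Transp2491.thL M G α) (wBL b M G g α X) e f z =
      chg (cr M) (fun α => Gm G tenC (tenS N) α ∘ₗ Z.subtype) (-Sm G (tenS N) (adX b X)) e g α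
        f z := by
  subst hZ
  rw [chg_apply]
  unfold Bf
  have h1 := cr_T₀ M G g α z.2
  have h2 : wBL b M G g α X z (f z) = ((g : ℂ) • (cr M).θ ((-Sm G (tenS N) (adX b X))
      (Gm G tenC (tenS N) α (z : Cfg N)))) (f z) := by
    rw [h1]
    rfl
  rw [h2]
  have h3 : ∀ i, Transp2491.thL M G α (e i) (fderiv ℝ f z (e i)) =
      (cr M).θ (Gm G tenC (tenS N) α (e i : Cfg N)) (fderiv ℝ f z (e i)) := by
    intro i
    rw [cr_Gm]
    rfl
  simp only [h3, LinearMap.comp_apply, Submodule.subtype_apply, Finset.smul_sum,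
    LinearMap.smul_apply]

variable (h : Fam K s (adX b X)) (hs : 0 < s)
include h hs

theorem linJ_X (G : GammaNine) :
    LinJ (Jl b G K X) (-Sm G (tenS N) (adX b X)) (Pm (tenS N) K (adX b X)) :=
  linJ G (tenS N) h hs

theorem pcs_Jl (G : GammaNine) : PCS (Jl b G K X) := (linJ_X h hs G).pcs

/-- **The system of linear charges**, on any submodule equal to the transverse heavy space. -/
theorem lin_of {Z : Submodule ℝ (Cfg N)} (hZ : Z = tenC.ZZ K (adX b X)) (G : GammaNine)
    {κ : Type*} [Fintype κ] (e : OrthonormalBasis κ ℝ Z) :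
    Lin (fun α => Gm G tenC (tenS N) α ∘ₗ Z.subtype) (-Sm G (tenS N) (adX b X))
      (Pm (tenS N) K (adX b X)) (cmp Z (AXc b K X)) 8 e := by
  subst hZ
  exact lin G tenC (tenS N) h hs e

/-- `A_X` is bounded below on the transverse heavy space. -/
theorem cmp_lower {Z : Submodule ℝ (Cfg N)} (hZ : Z = tenC.ZZ K (adX b X)) (z : Z) :
    s * ‖z‖ ^ 2 ≤ ⟪cmp Z (AXc b K X) z, z⟫_ℝ := by
  subst hZ
  rw [inner_cmp]
  exact h.AX_low tenC hs z.2.1 z.2.2

/-- **The heavy vacua kill the transverse charges**, every `z`. -/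
theorem U_kill (M : FermionRep N F) (G : GammaNine) (α : Fin 16) (z : Cfg N) {v : F}
    (hv : v ∈ (cr M).vacJ (Jl b G K X)) :
    Complex.I • Theta M G α (AXc b K X z) v + wB b M G 1 α X z v = 0 := by
  have h1 := heavy_main (row_Jl b G K X) b tenC (fun i x => rfl) (fun i u => rfl) M h hs 1 α z hv
  rw [Complex.ofReal_one, mul_one] at h1
  have h2 : wB b M G 1 α X z = vco M (fun β A => 2 * 1 * wb b G α β A X z) := rfl
  rw [h2]
  exact h1

theorem cr_T (M : FermionRep N F) (G : GammaNine) (g : ℝ) (α : Fin 16) {z : Cfg N}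
    (hz : z ∈ tenC.ZZ K (adX b X)) :
    (g : ℂ) • (cr M).θ ((-Sm G (tenS N) (adX b X)) (Gm G tenC (tenS N) α z)) =
      wB b M G g α X z := cr_T₀ M G g α hz

theorem Bf_eq (M : FermionRep N F) (G : GammaNine) (g : ℝ) (α : Fin 16)
    {Z : Submodule ℝ (Cfg N)} (hZ : Z = tenC.ZZ K (adX b X)) {κ : Type*} [Fintype κ]
    (e : OrthonormalBasis κ ℝ Z) (f : Z → F) (z : Z) :
    Bf (Transp2491.thL M G α) (wBL b M G g α X) e f z =
      chg (cr M) (fun α => Gm G tenC (tenS N) α ∘ₗ Z.subtype) (-Sm G (tenS N) (adX b X)) e g α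
        f z := Bf_eq₀ M G g α hZ e f z

/-- **(H1)**: (F1) at `X` on the transverse heavy space. -/
theorem H1 (M : FermionRep N F) (G : GammaNine) {g : ℝ} (hg : 0 ≤ g) {Z : Submodule ℝ (Cfg N)}
    (hZ : Z = tenC.ZZ K (adX b X)) {κ : Type*} [Fintype κ] (e : OrthonormalBasis κ ℝ Z) {τ : ℝ}
    (hτ : ∑ i, QX b K X (e i) ≤ τ) {f : Z → F} (hf : ContDiff ℝ 2 f)
    (hc : HasCompactSupport f) :
    F1b581.Dn volume e g f ≤ (2 * (1 + (s⁻¹) ^ 2)) * ((2 * 8)⁻¹ + τ / 2) *
      (∑ α, (∫ z, ‖Bf (Transp2491.thL M G α) (wBL b M G g α X) e f z‖ ^ 2) +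
        g * ∫ z, ‖f z‖ ^ 2) := by
  have h1 := F1_of_lin (M := cr M) (lin_of h hs hZ G e) hs (cmp_lower h hs hZ) (τ := τ)
    (by
      refine le_trans (le_of_eq (Finset.sum_congr rfl fun i _ => ?_)) hτ
      exact inner_cmp _ _ _ _) hg hf hc
  simp only [fun α => funext (Bf_eq h hs M G g α hZ e f)]
  exact h1

/-- **(H2)**: (F2) at `X` on the transverse heavy space. -/
theorem H2 (M : FermionRep N F) (G : GammaNine) {g : ℝ} (hg : 0 < g) {Z : Submodule ℝ (Cfg N)}
    (hZ : Z = tenC.ZZ K (adX b X)) {κ : Type*} [Fintype κ] (e : OrthonormalBasis κ ℝ Z)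
    {f : Z → F} (hf : ContDiff ℝ 2 f) (hc : HasCompactSupport f) :
    g * ∫ z, ‖f z - PrK Z (fun w => Real.exp (-(g / 2) * QX b K X w))
      ((cr M).proj (Jl b G K X)) f z‖ ^ 2 ≤ (s⁻¹ * (2 * 8)⁻¹) *
      ∑ α, (∫ z, ‖Bf (Transp2491.thL M G α) (wBL b M G g α X) e f z‖ ^ 2) := by
  have h1 := F2_of_lin (M := cr M) (lin_of h hs hZ G e) (linJ_X h hs G) hs (cmp_lower h hs hZ) hg
    (γ := fun w => Real.exp (-(g / 2) * QX b K X w))
    (fun z => by
      have e1 : ⟪cmp Z (AXc b K X) z, z⟫_ℝ = QX b K X z := inner_cmp _ _ _ _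
      rw [e1]) hf hc
  simp only [fun α => funext (Bf_eq h hs M G g α hZ e f)]
  exact h1

end com

end Crest.Agent.R330.Fib892

end
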