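import Crest.Agent.R330.FibJ_581
import Crest.Agent.R330.FibD_892

/-!
# Row 330, S9-F1P (helper581): the fibre inequalities on the fixed slice

* `at_X` : (F1), (F2) at commuting `X` near `c`, uniform constants.
* `fibP` : for `p` near `c`, `X = Ctr581.X b c p`:
  (F1), (F1o), (F2) in the literal form of `LemA_342`, for a parity `Γ` equal to `1` on the heavy
  vacua at `c`; `exists_par` : such a `Γ` exists.
-/

set_option autoImplicit false
set_option linter.unusedSectionVars false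
set_option linter.unusedVariables false

open MeasureTheory Filter Topology Crest.MathPhysics.MatrixQM
open Crest.Agent.R330.IBP837 Crest.Agent.R330.Defs478 Crest.Agent.R330.Frame839
open Crest.Agent.R330.LS839 Crest.Agent.R330.Clus839 Crest.Agent.R330.Bind6839
open Crest.Agent.R330.Cliff442 Crest.Agent.R330.AX984 Crest.Agent.R330.GBind984
open Crest.Agent.R330.Fib892 Crest.Agent.R330.FactI161 Crest.Agent.R330.ParVac581
open Crest.Agent.R330.SqrtPD984 Crest.Agent.R330.GPar984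
open Crest.Agent.R330.Transp491 Crest.Agent.R330.Transp2491 Crest.Agent.R330.Transp3491
open Crest.Agent.R330.FibJ581
open scoped ContDiff InnerProductSpace

noncomputable section

namespace Crest.Agent.R330.FibP581

variable {N : ℕ} {b : ColorBasis N} {G : GammaNine}
  {F : Type*} [NormedAddCommGroup F] [InnerProductSpace ℂ F] [FiniteDimensional ℂ F]
  {M : FermionRep N F}

/-- the heavy complex structure at `X`, stratum of `c` -/
def JX (b : ColorBasis N) (G : GammaNine) (c X : Cfg N) : W16 N →ₗ[ℝ] W16 N :=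
  Jl b G (kc (actB b) c) X

/-- the Gaussian weight at `X`, stratum of `c` -/
def gX (b : ColorBasis N) (c : Cfg N) (g : ℝ) (X z : Cfg N) : ℝ :=
  Real.exp (-(g / 2) * QX b (kc (actB b) c) X z)

/-- The transverse heavy space at `X`. -/
theorem ZZ_eq' {c X : Cfg N} (hk : kc (actB b) X = kc (actB b) c) :
    tenC.ZZ (kc (actB b) c) (adX b X) = Zb (actB b) c (Zs b c) X := by
  rw [← Zb_eq hk, ← hk]
  exact ZZ_eq X

section atX

variable {c : Cfg N} {r B : ℝ}

/-- Uniform gap and norm near `c`. -/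
theorem uniform (b : ColorBasis N) {c : Cfg N} (hc : Comc b c) :
    ∃ η : ℝ, 0 < η ∧ ∃ a τ : ℝ, 0 < a ∧ 0 ≤ τ ∧ ∀ X : Cfg N, Comc b X →
      kc (actB b) X = kc (actB b) c → ‖X - c‖ ≤ η →
      Fam (kc (actB b) c) a (adX b X) ∧ ‖tenC.AX (kc (actB b) c) (adX b X)‖ ≤ τ := by
  obtain ⟨s, hs, h⟩ := exists_fam b hc
  have h1 : ∀ᶠ X in 𝓝 c, ∑ i, ‖adX b X i - adX b c i‖ ^ 2 < s ^ 2 / 4 := by
    have hcont : Continuous fun X : Cfg N => ∑ i, ‖adX b X i - adX b c i‖ ^ 2 :=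
      continuous_finsetSum _ fun i _ =>
        (((contDiff_adX (m := 0) b i).continuous.sub continuous_const).norm.pow 2)
    refine hcont.continuousAt.eventually_lt continuousAt_const ?_
    simp only [sub_self, norm_zero]
    norm_num
    positivity
  have h2 : ∀ᶠ X in 𝓝 c, ‖tenC.AX (kc (actB b) c) (adX b X)‖ <
      ‖tenC.AX (kc (actB b) c) (adX b c)‖ + 1 := by
    have h3 : ContDiffAt ℝ 1 (fun X => (tenC (N := N)).AX (kc (actB b) c) (adX b X)) c :=
      contDiffAt_AX tenC (by simp) (h.ll_pd hs) (Eventually.of_forall fun X => adX_skew b X)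
        fun i => (contDiff_adX b i).contDiffAt
    refine h3.continuousAt.norm.eventually_lt continuousAt_const ?_
    linarith
  obtain ⟨η, hη, h4⟩ := Metric.eventually_nhds_iff_ball.1 (h1.and h2)
  refine ⟨η / 2, half_pos hη, s / 2, ‖tenC.AX (kc (actB b) c) (adX b c)‖ + 1, half_pos hs,
    by positivity, fun X hX hk hn => ?_⟩
  have h5 := h4 X (by rw [Metric.mem_ball, dist_eq_norm]; linarith)
  refine ⟨h.near hs.le (adX_skew b X) (fun i j v => (colAlg b).comm_ad hX i j v) ?_ h5.1.le,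
    h5.2.le⟩
  intro i w hw
  rw [← hk] at hw
  exact (mem_kc_iff' b).1 hw i

/-- **(F1), (F2) at commuting `X` near `c`.** -/
theorem at_X (M : FermionRep N F) (G : GammaNine) (hr0 : 0 < r) (hr : GapAt (actB b) c r)
    (hB : ActBound (actB b) B) (hB0 : 0 ≤ B) (hc : Comc b c) :
    ∃ η : ℝ, 0 < η ∧ ∃ K : ℝ, 0 ≤ K ∧ ∀ X ∈ Uk b c, Comc b X → kc (actB b) X = kc (actB b) c →
      ‖X - c‖ ≤ η → B * ‖X - c‖ ≤ r / 2 → ∀ (κ κ' : Type) [Fintype κ] [Fintype κ']
      (v : OrthonormalBasis κ ℝ (Zs b c)) (t : OrthonormalBasis κ' ℝ (Tn (actB b) c)) (g : ℝ),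
      0 < g → ∀ f : Zs b c → F, ContDiff ℝ 2 f → HasCompactSupport f →
      F1b581.Dn volume v g f ≤ K * (F1b581.SB b c M G v t g X f + g * ∫ z, ‖f z‖ ^ 2) ∧
      g * ∫ z, ‖f z - PrK (Zs b c) (gX b c g X) ((cr M).proj (JX b G c X)) f z‖ ^ 2 ≤
        K * F1b581.SB b c M G v t g X f := by
  obtain ⟨η, hη, a, τ, ha, hτ, hun⟩ := uniform b hc
  set n : ℝ := (Module.finrank ℝ (Cfg N) : ℝ) with hn
  set C1 : ℝ := (2 * (1 + (a⁻¹) ^ 2)) * ((2 * 8)⁻¹ + (n * τ) / 2) with hC1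
  set C2 : ℝ := a⁻¹ * (2 * 8)⁻¹ with hC2
  have hn0 : 0 ≤ n := Nat.cast_nonneg _
  have hC10 : 0 ≤ C1 := by positivity
  have hC20 : 0 ≤ C2 := by positivity
  refine ⟨η, hη, (n + 4) * C1 + C2, by positivity, fun X hXU hX hk hXc hXB κ κ' _ _ v t g hg f hf
    hfc => ?_⟩
  obtain ⟨hfam, hA⟩ := hun X hX hk hXc
  set K := tenC.ZZ (kc (actB b) c) (adX b X) with hK
  set e := stdOrthonormalBasis ℝ K with he
  have htr : ∑ s, QX b (kc (actB b) c) X (e s : Cfg N) ≤ n * τ := by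
    have h1 : ∀ s, QX b (kc (actB b) c) X (e s : Cfg N) ≤ τ := by
      intro s
      unfold QX AXc
      refine (real_inner_le_norm _ _).trans ?_
      have h2 : ‖((e s : K) : Cfg N)‖ = 1 := e.orthonormal.1 s
      have h3 := (tenC.AX (kc (actB b) c) (adX b X)).le_opNorm ((e s : K) : Cfg N)
      rw [h2, mul_one] at h3 ⊢
      exact h3.trans hA
    refine (Finset.sum_le_sum fun s _ => h1 s).trans ?_
    rw [Finset.sum_const, Finset.card_univ, nsmul_eq_mul, Fintype.card_fin]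
    refine mul_le_mul_of_nonneg_right ?_ hτ
    exact Nat.cast_le.2 (Submodule.finrank_le K)
  have hcard : (Fintype.card κ : ℝ) ≤ n := by
    have h1 : Fintype.card κ = Module.finrank ℝ (Zs b c) :=
      (Module.finrank_eq_card_basis v.toBasis).symm
    rw [h1]
    exact Nat.cast_le.2 (Submodule.finrank_le (Zs b c))
  have hSB : 0 ≤ F1b581.SB b c M G v t g X f := F1b581.Sn_nonneg v _ _ f
  have hI : 0 ≤ g * ∫ z, ‖f z‖ ^ 2 := mul_nonneg hg.le (integral_nonneg fun _ => by positivity)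
  constructor
  · have h1 := F1_D M G hr0 hr hB hB0 hXU hX hXB (K := K) (ZZ_eq' hk) e v t (C := C1) (g := g)
      (fun f hf hfc => H1 hfam ha M G hg.le rfl e htr hf hfc) hf hfc
    refine h1.trans ?_
    refine mul_le_mul_of_nonneg_right ?_ (add_nonneg hSB hI)
    have h3 : (Fintype.card κ + 4) * C1 ≤ (n + 4) * C1 := by gcongr
    linarith
  · have h1 := F2_D M G hr0 hr hB hXU hX hXB (K := K) (ZZ_eq' hk) e v t (C := C2) (g := g)
      (γ := gX b c g X) (fun w v => by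
        unfold gX
        rw [QX_act hX hk]) ((cr M).proj (JX b G c X))
      (fun f hf hfc => H2 hfam ha M G hg rfl e hf hfc) hf hfc
    refine h1.trans ?_
    refine mul_le_mul_of_nonneg_right ?_ hSB
    have h3 : 0 ≤ (n + 4) * C1 := by positivity
    linarith

end atX

/-! ## At `p = c + u` -/

section final

variable {c : Cfg N} {r B : ℝ}

/-- The three fibre inequalities in the literal form of `LemA_342`, at `p`. -/
structure Fibp (b : ColorBasis N) (c : Cfg N) (M : FermionRep N F) (G : GammaNine)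
    (Γ : F →ₗ[ℂ] F) (K : ℝ)
    {κ κ' : Type} [Fintype κ] [Fintype κ'] (v : OrthonormalBasis κ ℝ (Zs b c))
    (t : OrthonormalBasis κ' ℝ (Tn (actB b) c)) (g : ℝ) (p : Cfg N) (f : Zs b c → F) : Prop where
  F1 : ∫ z, LemA342.Dfib g v f z ≤
    K * ((∑ α, ∫ z, ‖LemA342.Bfib b c M G g α v t p f z‖ ^ 2) + g * ∫ z, ‖f z‖ ^ 2)
  F1o : (∀ z, Γ (f z) = -f z) → (∫ z, LemA342.Dfib g v f z) + g * ∫ z, ‖f z‖ ^ 2 ≤
    K * ∑ α, ∫ z, ‖LemA342.Bfib b c M G g α v t p f z‖ ^ 2
  F2 : g * ∫ z, ‖f z - PrK (Zs b c) (gX b c g (Ctr581.X b c p))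
      ((cr M).proj (JX b G c (Ctr581.X b c p))) f z‖ ^ 2 ≤
    K * ((∑ α, ∫ z, ‖LemA342.Bfib b c M G g α v t p f z‖ ^ 2) +
      ‖p - Ctr581.X b c p‖ ^ 2 * (g * ∫ z, ‖f z‖ ^ 2))

theorem isPar_neg {Γ : F →ₗ[ℂ] F} (h : LemA342.IsPar b c M Γ) : LemA342.IsPar b c M (-Γ) where
  comm := fun L hL f => by rw [LinearMap.neg_apply, LinearMap.neg_apply, h.comm L hL, map_neg]
  anti := fun L hL f => by rw [LinearMap.neg_apply, LinearMap.neg_apply, h.anti L hL, map_neg]
  inv := fun f => by rw [LinearMap.neg_apply, LinearMap.neg_apply, map_neg, h.inv, neg_neg]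
  symm := fun f f' => by
    rw [LinearMap.neg_apply, LinearMap.neg_apply, inner_neg_left, inner_neg_right, h.symm]

/-- A heavy parity equal to `1` on the heavy vacua at `c`. -/
theorem exists_par [Nontrivial F] (b : ColorBasis N) (G : GammaNine) (M : FermionRep N F)
    {c : Cfg N} (hc : Comc b c) :
    ∃ Γ : F →ₗ[ℂ] F, LemA342.IsPar b c M Γ ∧ ∀ f ∈ (cr M).vacJ (JX b G c c), Γ f = f := by
  have eJ : JX b G c c = Jm G (tenS N) (kc (actB b) c) (adX b c) := rfl
  rw [eJ]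
  exact FibJ581.exists_sign (b := b) (c := c) (G := G) (M := M) (σ := tenS N) tenS_pr hc

/-- **S9-F1P.** -/
theorem fibP (M : FermionRep N F) (G : GammaNine) (hr0 : 0 < r) (hr : GapAt (actB b) c r)
    (hB : ActBound (actB b) B) (hB0 : 0 ≤ B) (hc : Comc b c) {Γ : F →ₗ[ℂ] F}
    (hΓ : LemA342.IsPar b c M Γ) (hv : ∀ f ∈ (cr M).vacJ (JX b G c c), Γ f = f) [Nontrivial F] :
    ∃ η : ℝ, 0 < η ∧ ∃ K : ℝ, 0 ≤ K ∧ ∀ p : Cfg N, ‖p - c‖ ≤ η → B * ‖p - c‖ ≤ r / 2 →
      ∀ (κ κ' : Type) [Fintype κ] [Fintype κ'] (v : OrthonormalBasis κ ℝ (Zs b c))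
      (t : OrthonormalBasis κ' ℝ (Tn (actB b) c)) (g : ℝ), 0 < g →
      ∀ f : Zs b c → F, ContDiff ℝ 2 f → HasCompactSupport f →
      Fibp b c M G Γ K v t g p f := by
  obtain ⟨η1, hη1, K1, hK1, h1⟩ := at_X M G hr0 hr hB hB0 hc
  obtain ⟨η2, hη2, K', hK', h2⟩ := F1b581.fibre (F := F) b M G hr0 hB0 hB hK1
  have eJ : JX b G c c = Jm G (tenS N) (kc (actB b) c) (adX b c) := rfl
  rw [eJ] at hv
  obtain ⟨η3, hη3, h3⟩ := sign_near (b := b) (c := c) (G := G) (M := M) (σ := tenS N) (Γ := Γ)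
    tenS_pr hc hΓ hv
  refine ⟨min η1 (min η2 η3), lt_min hη1 (lt_min hη2 hη3), K', hK', fun p hp hpB κ κ' _ _ v t g hg
    f hf hfc => ?_⟩
  have hp1 : ‖p - c‖ ≤ η1 := hp.trans (min_le_left _ _)
  have hp2 : ‖p - c‖ ≤ η2 := hp.trans ((min_le_right _ _).trans (min_le_left _ _))
  have hp3 : ‖p - c‖ ≤ η3 := hp.trans ((min_le_right _ _).trans (min_le_right _ _))
  set X := Ctr581.X b c p with hX
  have hXc : ‖X - c‖ ≤ ‖p - c‖ := Ctr581.norm_X_sub_le p
  have hXp : ‖p - X‖ ≤ ‖p - c‖ := Ctr581.norm_sub_X_le p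
  have hXB : B * ‖X - c‖ ≤ r / 2 := (mul_le_mul_of_nonneg_left hXc hB0).trans hpB
  have hXm := Ctr581.X_mem hc p
  have hcX := Ctr581.comc_X hc p
  have hk := Ctr581.kc_eq_of hc hr0 hr hB hXm hXB
  obtain ⟨hF1, hF2⟩ := h1 X (Ctr581.X_mem_Uk hc p) hcX hk (hXc.trans hp1) hXB κ κ' v t g hg f hf
    hfc
  obtain ⟨a1, a2, a3⟩ := h2 g hg.le c hr κ κ' v t p X hpB hXB (hXp.trans hp2) f
    (hf.of_le (by norm_num)) hfc hF1
  refine ⟨a1, fun hodd => a3 ?_, a2 _ hF2⟩
  -- the odd part has no vacuum component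
  obtain ⟨s, hs, hfam⟩ := fam_of_eq hcX hk
  have hvX : ∀ f ∈ (cr M).vacJ (JX b G c X), Γ f = f := by
    have eX : JX b G c X = Jm G (tenS N) (kc (actB b) X) (adX b X) := by
      rw [hk]
      rfl
    rw [eX]
    exact h3 X hcX hk (hXc.trans hp3)
  have hcont : Continuous (gX b c g X) := by
    unfold gX QX
    fun_prop
  have hint : Integrable fun y : Zs b c => gX b c g X y • f y :=
    Continuous.integrable_of_hasCompactSupport
      ((hcont.comp continuous_subtype_val).smul hf.continuous) (hfc.smul_left)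
  have hz : ∀ z, PrK (Zs b c) (gX b c g X) ((cr M).proj (JX b G c X)) f z = 0 := fun z =>
    PrK_odd (J := JX b G c X) (pcs_Jl hfam hs G) hΓ.symm hvX (Zs b c)
      (gX b c g X) hint hodd z
  simpa only [hz, sub_zero] using hF2

end final

end Crest.Agent.R330.FibP581

end
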