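import Crest.Agent.R330.FibB_892
import Crest.Agent.R330.AX_984
import Crest.Agent.R330.WeitzG_726

/-!
# Row 330, S8-FIB (helper892), part C: the heavy charges at a commuting background

`V` colour space, `D : Fin 9 → V →L V` a commuting skew family with common kernel `K` and gap `s`
(`AX984.Fam K s D`), `E = ℝ⁹ ⊗ V` (`τ`), `W = ℝ¹⁶ ⊗ V` (`σ`).

* `Gm G τ σ α : E →ₗ W`, `(Γ_α e)_β = Σ_j γ^j_αβ e_j`; `Sm G σ D : W →ₗ W`, `S = Σ γ^i ⊗ D_i`.
* `Pm`, `Jm` : `P = 1 ⊗ |D|`, `J = -S P⁻¹`.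
* `lin` : `FibA_892.Lin` with `T = -S`, `A = AX` on the transverse heavy space `τ.ZZ K D`, `c = 8`.
* `linJ` : `FibB_892.LinJ`.
-/

set_option autoImplicit false
set_option linter.unusedSectionVars false
set_option linter.unusedVariables false
set_option linter.deprecated false

open MeasureTheory Filter Topology Crest.MathPhysics.MatrixQM
open scoped InnerProductSpace ContDiff
open Crest.Agent.R330.Cliff442 Crest.Agent.R330.AX984

noncomputable section

namespace Crest.Agent.R330.Fib892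

section gam

variable (G : GammaNine)

theorem g_sym (i : Fin 9) (α β : Fin 16) : G.γ i α β = G.γ i β α := by
  have h := congrArg (fun X : Matrix (Fin 16) (Fin 16) ℝ => X β α) (G.symm i)
  simpa [Matrix.transpose_apply] using h

theorem g_anti {i j : Fin 9} (h : i ≠ j) : G.γ i * G.γ j = -(G.γ j * G.γ i) := by
  have h1 := G.clifford i j
  rw [if_neg h] at h1
  exact eq_neg_of_add_eq_zero_left h1

theorem g_sq (i : Fin 9) : G.γ i * G.γ i = 1 := by
  have h1 := G.clifford i i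
  rw [if_pos rfl, ← two_mul] at h1
  have h2 : (2 : Matrix (Fin 16) (Fin 16) ℝ) * (G.γ i * G.γ i) = 2 * 1 := by rw [h1, mul_one]
  ext a b
  have h3 := congrArg (fun X : Matrix (Fin 16) (Fin 16) ℝ => X a b) h2
  simp only [two_mul, Matrix.add_apply] at h3
  linarith

theorem pair2 (j k : Fin 9) : ∑ α, ∑ β, G.γ j α β * G.γ k α β = 16 * (if j = k then 1 else 0) := by
  rw [Weitz726.pair_eq_trace, Weitz726.tr2]
  rfl

theorem exists_ne3 : ∀ i j k : Fin 9, ∃ l : Fin 9, l ≠ i ∧ l ≠ j ∧ l ≠ k := by decide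

theorem tr3 (i j k : Fin 9) : (G.γ i * (G.γ j * G.γ k)).trace = 0 := by
  obtain ⟨l, h1, h2, h3⟩ := exists_ne3 i j k
  refine Weitz726.trace_zero_of_anti G l ?_
  have e1 : G.γ l * (G.γ i * (G.γ j * G.γ k)) = -(G.γ i * (G.γ j * G.γ k) * G.γ l) := by
    calc G.γ l * (G.γ i * (G.γ j * G.γ k)) = (G.γ l * G.γ i) * (G.γ j * G.γ k) := by
          rw [mul_assoc]
      _ = -(G.γ i * (G.γ l * G.γ j * G.γ k)) := by rw [g_anti G h1]; noncomm_ring
      _ = G.γ i * (G.γ j * (G.γ l * G.γ k)) := by rw [g_anti G h2]; noncomm_ring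
      _ = -(G.γ i * (G.γ j * G.γ k) * G.γ l) := by rw [g_anti G h3]; noncomm_ring
  exact e1

/-- `Σ (γ^iγ^j)_αβ x_ij = Σ x_ii` for symmetric `x`. -/
theorem gg_sum {V : Type*} [AddCommGroup V] [Module ℝ V] (x : Fin 9 → Fin 9 → Fin 16 → V)
    (hx : ∀ i j β, x i j β = x j i β) (α : Fin 16) :
    ∑ i, ∑ j, ∑ β, (G.γ i * G.γ j) α β • x i j β = ∑ i, x i i α := by
  set X := ∑ i, ∑ j, ∑ β, (G.γ i * G.γ j) α β • x i j β with hX
  have h1 : X = ∑ i, ∑ j, ∑ β, (G.γ j * G.γ i) α β • x i j β := by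
    rw [hX, Finset.sum_comm]
    refine Finset.sum_congr rfl fun i _ => Finset.sum_congr rfl fun j _ =>
      Finset.sum_congr rfl fun β _ => ?_
    rw [hx]
  have h2 : X + X = (2 : ℝ) • ∑ i, x i i α := by
    conv_lhs => lhs; rw [hX]
    conv_lhs => rhs; rw [h1]
    simp only [← Finset.sum_add_distrib, ← add_smul, ← Matrix.add_apply, G.clifford]
    rw [Finset.smul_sum]
    refine Finset.sum_congr rfl fun i _ => ?_
    rw [Finset.sum_eq_single i]
    · rw [if_pos rfl, Finset.sum_eq_single α]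
      · simp [Matrix.ofNat_apply]
      · intro β _ hβ
        simp [Matrix.ofNat_apply, hβ.symm]
      · intro hn
        exact absurd (Finset.mem_univ α) hn
    · intro j _ hj
      rw [if_neg hj.symm]
      simp
    · intro hn
      exact absurd (Finset.mem_univ i) hn
  rw [← two_smul ℝ X] at h2
  exact smul_right_injective V (two_ne_zero (α := ℝ)) h2

end gam

variable {V E W F : Type*}
  [NormedAddCommGroup V] [InnerProductSpace ℝ V] [FiniteDimensional ℝ V]
  [NormedAddCommGroup E] [InnerProductSpace ℝ E] [FiniteDimensional ℝ E]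
  [NormedAddCommGroup W] [InnerProductSpace ℝ W] [FiniteDimensional ℝ W]
  [NormedAddCommGroup F] [InnerProductSpace ℂ F] [FiniteDimensional ℂ F]

variable (G : GammaNine) (τ : Ten (Fin 9) V E) (σ : Ten (Fin 16) V W)

/-- `(Γ_α e)_β = Σ_j γ^j_αβ e_j`. -/
def Gm (α : Fin 16) : E →ₗ[ℝ] W where
  toFun e := ∑ β, σ.ij β (∑ j, G.γ j α β • τ.pr j e)
  map_add' x y := by
    rw [← Finset.sum_add_distrib]
    refine Finset.sum_congr rfl fun β _ => ?_
    rw [← map_add, ← Finset.sum_add_distrib]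
    simp only [map_add, smul_add]
  map_smul' r x := by
    rw [Finset.smul_sum]
    refine Finset.sum_congr rfl fun β _ => ?_
    rw [RingHom.id_apply, ← map_smul, Finset.smul_sum]
    simp only [map_smul]
    congr 1
    exact Finset.sum_congr rfl fun j _ => smul_comm _ _ _

theorem pr_Gm (α β : Fin 16) (e : E) : σ.pr β (Gm G τ σ α e) = ∑ j, G.γ j α β • τ.pr j e :=
  σ.pr_sum β (fun β => ∑ j, G.γ j α β • τ.pr j e)

/-- `S = Σ γ^i ⊗ D_i`. -/
def Sm (D : Fin 9 → V →L[ℝ] V) : W →ₗ[ℝ] W where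
  toFun w := ∑ β, σ.ij β (∑ i, ∑ β', G.γ i β β' • D i (σ.pr β' w))
  map_add' x y := by
    rw [← Finset.sum_add_distrib]
    refine Finset.sum_congr rfl fun β _ => ?_
    rw [← map_add, ← Finset.sum_add_distrib]
    congr 1
    refine Finset.sum_congr rfl fun i _ => ?_
    rw [← Finset.sum_add_distrib]
    simp only [map_add, smul_add]
  map_smul' r x := by
    rw [Finset.smul_sum]
    refine Finset.sum_congr rfl fun β _ => ?_
    rw [RingHom.id_apply, ← map_smul, Finset.smul_sum]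
    congr 1
    refine Finset.sum_congr rfl fun i _ => ?_
    rw [Finset.smul_sum]
    simp only [map_smul]
    exact Finset.sum_congr rfl fun j _ => smul_comm _ _ _

theorem pr_Sm (D : Fin 9 → V →L[ℝ] V) (β : Fin 16) (w : W) :
    σ.pr β (Sm G σ D w) = ∑ i, ∑ β', G.γ i β β' • D i (σ.pr β' w) :=
  σ.pr_sum β (fun β => ∑ i, ∑ β', G.γ i β β' • D i (σ.pr β' w))

/-- Products. -/
theorem pr_Sm_Sm (D D' : Fin 9 → V →L[ℝ] V) (hc : ∀ i j v, D i (D' j v) = D j (D' i v))
    (β : Fin 16) (w : W) : σ.pr β (Sm G σ D (Sm G σ D' w)) = ∑ i, D i (D' i (σ.pr β w)) := by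
  have h1 := gg_sum G (fun i j β'' => D i (D' j (σ.pr β'' w))) (fun i j β'' => hc i j _) β
  rw [← h1, pr_Sm]
  refine Finset.sum_congr rfl fun i _ => ?_
  simp only [pr_Sm, map_sum, map_smul, Finset.smul_sum, Matrix.mul_apply, Finset.sum_smul,
    smul_smul]
  rw [Finset.sum_comm]
  refine Finset.sum_congr rfl fun j _ => ?_
  rw [Finset.sum_comm]

variable {K : Submodule ℝ V} {s : ℝ} {D : Fin 9 → V →L[ℝ] V}

/-- `P = 1 ⊗ |D|`. -/
def Pm (K : Submodule ℝ V) (D : Fin 9 → V →L[ℝ] V) : W →ₗ[ℝ] W :=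
  (σ.ten (lr K D - K.starProjection) : W →ₗ[ℝ] W)

theorem pr_Pm (β : Fin 16) (w : W) :
    σ.pr β (Pm σ K D w) = lr K D (σ.pr β w) - K.starProjection (σ.pr β w) := by
  have h := σ.pr_ten (lr K D - K.starProjection) w β
  exact h

/-- `J = -S P⁻¹`. -/
def Jm (K : Submodule ℝ V) (D : Fin 9 → V →L[ℝ] V) : W →ₗ[ℝ] W :=
  -(Sm G σ fun i => (D i).comp (li K D))

theorem pr_Jm (β : Fin 16) (w : W) :
    σ.pr β (Jm G σ K D w) = -∑ i, ∑ β', G.γ i β β' • D i (li K D (σ.pr β' w)) := by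
  have h1 : Jm G σ K D w = -Sm G σ (fun i => (D i).comp (li K D)) w := rfl
  rw [h1, map_neg, pr_Sm]
  rfl

theorem Sm_skew (hD : ∀ i u v, ⟪D i u, v⟫_ℝ = -⟪u, D i v⟫_ℝ) : Skew (Sm G σ D) := by
  intro x y
  rw [σ.inner_eq, σ.inner_eq, ← Finset.sum_neg_distrib]
  simp only [pr_Sm, sum_inner, inner_sum, real_inner_smul_left, real_inner_smul_right]
  rw [Finset.sum_congr rfl fun β _ => Finset.sum_comm, Finset.sum_comm]
  refine Finset.sum_congr rfl fun β _ => ?_
  rw [← Finset.sum_neg_distrib]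
  rw [Finset.sum_comm]
  refine Finset.sum_congr rfl fun i _ => ?_
  rw [← Finset.sum_neg_distrib]
  refine Finset.sum_congr rfl fun β' _ => ?_
  rw [hD, g_sym G i β' β]
  ring

/-! ### The frame identities -/

theorem fr1 (z w : E) : ∑ α, ⟪Gm G τ σ α z, Gm G τ σ α w⟫_ℝ = 2 * 8 * ⟪z, w⟫_ℝ := by
  have h1 : ∀ α, ⟪Gm G τ σ α z, Gm G τ σ α w⟫_ℝ =
      ∑ β, ∑ j, ∑ k, (G.γ j α β * G.γ k α β) * ⟪τ.pr j z, τ.pr k w⟫_ℝ := by
    intro α
    rw [σ.inner_eq]
    refine Finset.sum_congr rfl fun β _ => ?_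
    rw [pr_Gm, pr_Gm, sum_inner]
    refine Finset.sum_congr rfl fun j _ => ?_
    rw [inner_sum]
    refine Finset.sum_congr rfl fun k _ => ?_
    rw [real_inner_smul_left, real_inner_smul_right]
    ring
  simp only [h1]
  have h2 : ∑ α, ∑ β, ∑ j, ∑ k, (G.γ j α β * G.γ k α β) * ⟪τ.pr j z, τ.pr k w⟫_ℝ =
      ∑ j, ∑ k, (∑ α, ∑ β, G.γ j α β * G.γ k α β) * ⟪τ.pr j z, τ.pr k w⟫_ℝ := by
    simp only [Finset.sum_mul]
    rw [Finset.sum_congr rfl fun α _ => Finset.sum_comm]
    rw [Finset.sum_comm]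
    refine Finset.sum_congr rfl fun j _ => ?_
    rw [Finset.sum_congr rfl fun α _ => Finset.sum_comm]
    rw [Finset.sum_comm]
  rw [h2]
  simp only [pair2]
  rw [τ.inner_eq, Finset.mul_sum]
  refine Finset.sum_congr rfl fun j _ => ?_
  rw [Finset.sum_eq_single j]
  · rw [if_pos rfl]; ring
  · intro k _ hk
    rw [if_neg hk.symm]; ring
  · intro hn
    exact absurd (Finset.mem_univ j) hn

theorem mix0 (D : Fin 9 → V →L[ℝ] V) (z w : E) :
    ∑ α, ⟪Gm G τ σ α z, Sm G σ D (Gm G τ σ α w)⟫_ℝ = 0 := by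
  have h1 : ∀ α, ⟪Gm G τ σ α z, Sm G σ D (Gm G τ σ α w)⟫_ℝ =
      ∑ j, ∑ i, ∑ k, (∑ β, ∑ β', G.γ j α β * (G.γ i β β' * G.γ k α β')) *
        ⟪τ.pr j z, D i (τ.pr k w)⟫_ℝ := by
    intro α
    rw [σ.inner_eq]
    have e1 : ∀ β, ⟪σ.pr β (Gm G τ σ α z), σ.pr β (Sm G σ D (Gm G τ σ α w))⟫_ℝ =
        ∑ j, ∑ i, ∑ k, ∑ β', G.γ j α β * (G.γ i β β' * G.γ k α β') *
          ⟪τ.pr j z, D i (τ.pr k w)⟫_ℝ := by
      intro β
      rw [pr_Gm, pr_Sm, sum_inner]
      refine Finset.sum_congr rfl fun j _ => ?_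
      rw [inner_sum]
      refine Finset.sum_congr rfl fun i _ => ?_
      rw [inner_sum, Finset.sum_comm]
      refine Finset.sum_congr rfl fun β' _ => ?_
      rw [pr_Gm, map_sum, Finset.smul_sum, inner_sum]
      refine Finset.sum_congr rfl fun k _ => ?_
      rw [map_smul, real_inner_smul_left, real_inner_smul_right, real_inner_smul_right]
      ring
    rw [Finset.sum_congr rfl fun β _ => e1 β, Finset.sum_comm]
    refine Finset.sum_congr rfl fun j _ => ?_
    rw [Finset.sum_comm]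
    refine Finset.sum_congr rfl fun i _ => ?_
    rw [Finset.sum_comm]
    refine Finset.sum_congr rfl fun k _ => ?_
    simp only [Finset.sum_mul]
  simp only [h1]
  rw [Finset.sum_comm]
  refine Finset.sum_eq_zero fun j _ => ?_
  rw [Finset.sum_comm]
  refine Finset.sum_eq_zero fun i _ => ?_
  rw [Finset.sum_comm]
  refine Finset.sum_eq_zero fun k _ => ?_
  rw [← Finset.sum_mul]
  have h2 : ∑ α, ∑ β, ∑ β', G.γ j α β * (G.γ i β β' * G.γ k α β') = 0 := by
    have h3 := tr3 G j i k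
    rw [Matrix.trace] at h3
    rw [← h3]
    refine Finset.sum_congr rfl fun α _ => ?_
    rw [Matrix.diag_apply, Matrix.mul_apply]
    refine Finset.sum_congr rfl fun β _ => ?_
    rw [Matrix.mul_apply, Finset.mul_sum]
    refine Finset.sum_congr rfl fun β' _ => ?_
    rw [g_sym G k α β']
  rw [h2, zero_mul]

/-- The adjoint of `Γ_α`. -/
def Gt (α : Fin 16) (v : W) : E := ∑ j, τ.ij j (∑ β, G.γ j α β • σ.pr β v)

theorem pr_Gt (α : Fin 16) (v : W) (j : Fin 9) :
    τ.pr j (Gt G τ σ α v) = ∑ β, G.γ j α β • σ.pr β v :=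
  τ.pr_sum j (fun j => ∑ β, G.γ j α β • σ.pr β v)

theorem inner_Gt (α : Fin 16) (x : E) (v : W) : ⟪Gm G τ σ α x, v⟫_ℝ = ⟪x, Gt G τ σ α v⟫_ℝ := by
  rw [σ.inner_eq, τ.inner_eq]
  simp only [pr_Gm, pr_Gt, sum_inner, inner_sum, real_inner_smul_left, real_inner_smul_right]
  rw [Finset.sum_comm]

/-- `Σ_α Γ_α Γ_α^* = 9`. -/
theorem sum_Gm_Gt (v : W) : ∑ α, Gm G τ σ α (Gt G τ σ α v) = (9 : ℝ) • v := by
  refine σ.ext' fun β => ?_
  rw [map_sum, map_smul]
  simp only [pr_Gm, pr_Gt, Finset.smul_sum, smul_smul]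
  rw [Finset.sum_comm]
  have h1 : ∀ j : Fin 9, ∑ α, ∑ β', (G.γ j α β * G.γ j α β') • σ.pr β' v = σ.pr β v := by
    intro j
    rw [Finset.sum_comm]
    have h2 : ∀ β', ∑ α, (G.γ j α β * G.γ j α β') • σ.pr β' v =
        (1 : Matrix (Fin 16) (Fin 16) ℝ) β β' • σ.pr β' v := by
      intro β'
      rw [← Finset.sum_smul, ← g_sq G j, Matrix.mul_apply]
      congr 1
      exact Finset.sum_congr rfl fun α _ => by rw [g_sym G j α β]
    simp only [h2]
    rw [Finset.sum_eq_single β]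
    · rw [Matrix.one_apply_eq, one_smul]
    · intro β' _ hne
      rw [Matrix.one_apply_ne hne.symm, zero_smul]
    · intro hn
      exact absurd (Finset.mem_univ β) hn
  simp only [h1]
  rw [Finset.sum_const, Finset.card_univ, Fintype.card_fin, ← Nat.cast_smul_eq_nsmul ℝ]
  norm_num

/-- `Σ_α δ_α ⊗ div Γ_α^* v = S v`. -/
theorem sum_dv_Gt (v : W) : ∑ α, σ.ij α (τ.dv D (Gt G τ σ α v)) = Sm G σ D v := by
  refine σ.ext' fun β => ?_
  rw [σ.pr_sum β (fun α => τ.dv D (Gt G τ σ α v)), pr_Sm, τ.dv_apply]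
  refine Finset.sum_congr rfl fun i _ => ?_
  rw [pr_Gt, map_sum]
  exact Finset.sum_congr rfl fun β' _ => map_smul _ _ _

section fam

variable (h : Fam K s D) (hs : 0 < s)
include h hs

theorem Sm_Gm_gd (α : Fin 16) (w : V) :
    Sm G σ D (Gm G τ σ α (τ.gd D w)) = σ.ij α (∑ i, D i (D i w)) := by
  have h1 : Gm G τ σ α (τ.gd D w) = Sm G σ D (σ.ij α w) := by
    refine σ.ext' fun β => ?_
    rw [pr_Gm, pr_Sm]
    refine Finset.sum_congr rfl fun i _ => ?_
    rw [τ.pr_gd, Finset.sum_eq_single α]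
    · rw [σ.pr_same, g_sym]
    · intro β' _ hne
      rw [σ.pr_ne β' α w hne, map_zero, smul_zero]
    · intro hn
      exact absurd (Finset.mem_univ α) hn
  rw [h1]
  refine σ.ext' fun β => ?_
  rw [pr_Sm_Sm G σ D D (fun i j v => h.comm i j v)]
  by_cases hβ : β = α
  · subst hβ
    rw [σ.pr_same, σ.pr_same]
  · rw [σ.pr_ne β α _ hβ, σ.pr_ne β α _ hβ]
    exact Finset.sum_eq_zero fun i _ => by rw [map_zero, map_zero]

theorem Sm_Gm_light (α : Fin 16) {x : E} (hx : ∀ i, τ.pr i x ∈ K) :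
    Sm G σ D (Gm G τ σ α x) = 0 := by
  refine σ.ext' fun β => ?_
  rw [pr_Sm, map_zero]
  refine Finset.sum_eq_zero fun i _ => Finset.sum_eq_zero fun β' _ => ?_
  rw [pr_Gm, map_sum, Finset.sum_eq_zero, smul_zero]
  intro j _
  rw [map_smul, h.ker i _ (hx j), smul_zero]

/-- The orthogonal projection on the transverse heavy space. -/
theorem proj_ZZ (x : E) : (τ.ZZ K D).starProjection x =
    x - (∑ j, τ.ij j (K.starProjection (τ.pr j x))) + τ.gd D (li K D (li K D (τ.dv D x))) := by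
  set L : E := ∑ j, τ.ij j (K.starProjection (τ.pr j x)) with hL
  set w : V := li K D (li K D (τ.dv D x)) with hw
  have hprL : ∀ j, τ.pr j L = K.starProjection (τ.pr j x) := fun j =>
    τ.pr_sum j (fun j => K.starProjection (τ.pr j x))
  have hwK : w ∈ Kᗮ := h.li_mem hs (h.li_mem hs (h.dv_mem τ x))
  refine Submodule.eq_starProjection_of_mem_orthogonal ⟨fun i => ?_, ?_⟩ ?_
  · rw [map_add, map_sub, hprL, τ.pr_gd]
    exact Submodule.add_mem _ (Submodule.sub_starProjection_mem_orthogonal _) (h.D_mem i w)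
  · have h1 : τ.dv D L = 0 := by
      rw [τ.dv_apply]
      exact Finset.sum_eq_zero fun j _ => by rw [hprL, h.D_proj]
    have h2 : τ.dv D (τ.gd D w) = -τ.dv D x := by
      rw [τ.dv_apply]
      simp only [τ.pr_gd]
      have h3 : ∑ j, D j (D j w) = K.starProjection w - lr K D (lr K D w) := by
        rw [h.lr_lr hs]; abel
      rw [h3, proj_zero hwK, hw, h.lr_li hs, h.lr_li hs, zero_sub]
    rw [map_add, map_sub, h1, h2, sub_zero, add_neg_cancel]
  · rw [Submodule.mem_orthogonal]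
    intro z hz
    have e : x - (x - L + τ.gd D w) = L - τ.gd D w := by abel
    rw [e, inner_sub_right, real_inner_comm (τ.gd D w) z, h.inner_gd τ, hz.2, inner_zero_right,
      neg_zero, sub_zero, τ.inner_eq]
    refine Finset.sum_eq_zero fun i _ => ?_
    rw [hprL]
    rw [real_inner_comm]
    exact Submodule.inner_right_of_mem_orthogonal (Submodule.starProjection_apply_mem K _) (hz.1 i)

theorem Sm_Gm_proj (α : Fin 16) (x : E) :
    Sm G σ D (Gm G τ σ α ((τ.ZZ K D).starProjection x)) =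
      Sm G σ D (Gm G τ σ α x) - σ.ij α (τ.dv D x) := by
  have hwK : li K D (li K D (τ.dv D x)) ∈ Kᗮ := h.li_mem hs (h.li_mem hs (h.dv_mem τ x))
  have h1 : ∑ i, D i (D i (li K D (li K D (τ.dv D x)))) = -τ.dv D x := by
    have h3 : ∑ j, D j (D j (li K D (li K D (τ.dv D x)))) =
        K.starProjection (li K D (li K D (τ.dv D x))) -
          lr K D (lr K D (li K D (li K D (τ.dv D x)))) := by
      rw [h.lr_lr hs]; abel
    rw [h3, proj_zero hwK, h.lr_li hs, h.lr_li hs, zero_sub]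
  rw [proj_ZZ τ h hs x, map_add, map_add, map_sub, map_sub, Sm_Gm_gd G τ σ h hs, h1, map_neg,
    Sm_Gm_light G τ σ h hs α (x := ∑ j, τ.ij j (K.starProjection (τ.pr j x))), sub_zero,
    ← sub_eq_add_neg]
  intro i
  rw [τ.pr_sum i (fun j => K.starProjection (τ.pr j x))]
  exact Submodule.starProjection_apply_mem K _

theorem fr2 {κ : Type*} [Fintype κ] (e : OrthonormalBasis κ ℝ (τ.ZZ K D)) (v : W) :
    ∑ α, ∑ s, ⟪Gm G τ σ α (e s : E), v⟫_ℝ • (-Sm G σ D) (Gm G τ σ α (e s : E)) =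
      (8 : ℝ) • (-Sm G σ D) v := by
  have h1 : ∀ α, ∑ s, ⟪Gm G τ σ α (e s : E), v⟫_ℝ • (-Sm G σ D) (Gm G τ σ α (e s : E)) =
      -(Sm G σ D (Gm G τ σ α ((τ.ZZ K D).starProjection (Gt G τ σ α v)))) := by
    intro α
    have h2 : (τ.ZZ K D).starProjection (Gt G τ σ α v) =
        ∑ s, ⟪(e s : E), Gt G τ σ α v⟫_ℝ • (e s : E) := by
      have h3 := e.sum_repr' ((τ.ZZ K D).orthogonalProjectionOnto (Gt G τ σ α v))
      have h4 := congrArg (fun z : τ.ZZ K D => (z : E)) h3
      simp only [Submodule.coe_sum, Submodule.coe_smul] at h4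
      have h5 : ((τ.ZZ K D).orthogonalProjectionOnto (Gt G τ σ α v) : E) =
          (τ.ZZ K D).starProjection (Gt G τ σ α v) := rfl
      rw [← h5, ← h4]
      refine Finset.sum_congr rfl fun s _ => ?_
      congr 1
      rw [real_inner_comm, Submodule.inner_orthogonalProjectionOnto_eq_of_mem_right,
        real_inner_comm]
    rw [h2, map_sum, map_sum, ← Finset.sum_neg_distrib]
    refine Finset.sum_congr rfl fun s _ => ?_
    rw [map_smul, map_smul, inner_Gt, LinearMap.neg_apply, smul_neg]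
  simp only [h1, Sm_Gm_proj G τ σ h hs]
  rw [Finset.sum_neg_distrib, Finset.sum_sub_distrib, sum_dv_Gt, ← map_sum, sum_Gm_Gt, map_smul,
    LinearMap.neg_apply]
  module

/-- `P² = -S²`, as operators. -/
theorem Pm_Pm (w : W) : Pm σ K D (Pm σ K D w) = -(-Sm G σ D) ((-Sm G σ D) w) := by
  refine σ.ext' fun β => ?_
  have e0 : -(-Sm G σ D) ((-Sm G σ D) w) = -(Sm G σ D (Sm G σ D w)) := by
    simp
  rw [e0, map_neg, pr_Sm_Sm G σ D D (fun i j v => h.comm i j v), pr_Pm, pr_Pm, map_sub, map_sub,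
    h.lr_lr hs, h.lr_fix hs (Submodule.starProjection_apply_mem K _), h.proj_lr hs,
    h.lr_fix hs (Submodule.starProjection_apply_mem K _)]
  have h2 : K.starProjection (K.starProjection (σ.pr β w)) = K.starProjection (σ.pr β w) :=
    Submodule.starProjection_eq_self_iff.mpr (Submodule.starProjection_apply_mem K _)
  rw [h2]
  abel

theorem Pm_symm (x y : W) : ⟪Pm σ K D x, y⟫_ℝ = ⟪x, Pm σ K D y⟫_ℝ := by
  rw [σ.inner_eq, σ.inner_eq]
  refine Finset.sum_congr rfl fun β _ => ?_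
  rw [pr_Pm, pr_Pm, inner_sub_left, inner_sub_right, (h.lr_pd hs).1]
  congr 1
  rw [proj_inner K (σ.pr β x) (σ.pr β y), real_inner_comm (K.starProjection (σ.pr β y)) (σ.pr β x),
    proj_inner K (σ.pr β y) (σ.pr β x), real_inner_comm]

theorem Pm_nonneg (x : W) : 0 ≤ ⟪Pm σ K D x, x⟫_ℝ := by
  rw [σ.inner_eq]
  refine Finset.sum_nonneg fun β _ => ?_
  set v := σ.pr β x with hv
  set p := K.starProjection v with hp
  have hq : v - p ∈ Kᗮ := Submodule.sub_starProjection_mem_orthogonal v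
  have hpK : p ∈ K := Submodule.starProjection_apply_mem K v
  have e1 : lr K D v - p = lr K D (v - p) := by
    rw [map_sub, h.lr_fix hs hpK]
  rw [pr_Pm, ← hv, ← hp, e1]
  have e2 : ⟪lr K D (v - p), v⟫_ℝ = ⟪lr K D (v - p), v - p⟫_ℝ := by
    rw [inner_sub_right, Submodule.inner_left_of_mem_orthogonal hpK (h.lr_mem hs hq), sub_zero]
  rw [e2]
  exact le_trans (by positivity) (h.lr_ge hs hq)

/-- On the transverse heavy space `AX` is `1 ⊗ |D|`. -/
theorem pr_cmp (z : τ.ZZ K D) (j : Fin 9) :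
    τ.pr j ((cmp (τ.ZZ K D) (τ.AX K D) z : τ.ZZ K D) : E) = lr K D (τ.pr j (z : E)) := by
  have h1 : τ.AX K D (z : E) ∈ τ.ZZ K D := ⟨h.pr_AX_mem τ hs _, h.dv_AX τ hs _⟩
  have h2 : ((cmp (τ.ZZ K D) (τ.AX K D) z : τ.ZZ K D) : E) = τ.AX K D (z : E) := by
    have h3 : ((cmp (τ.ZZ K D) (τ.AX K D) z : τ.ZZ K D) : E) =
        (τ.ZZ K D).starProjection (τ.AX K D (z : E)) := rfl
    rw [h3, Submodule.starProjection_eq_self_iff.mpr h1]
  rw [h2, τ.pr_AX, z.2.2, map_zero, map_zero, add_zero, proj_zero (z.2.1 j), sub_zero]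

/-- **The heavy charges at a commuting background form a system of linear charges.** -/
theorem lin {κ : Type*} [Fintype κ] (e : OrthonormalBasis κ ℝ (τ.ZZ K D)) :
    Lin (fun α => Gm G τ σ α ∘ₗ (τ.ZZ K D).subtype) (-Sm G σ D) (Pm σ K D)
      (cmp (τ.ZZ K D) (τ.AX K D)) 8 e where
  skew := fun x y => by
    rw [LinearMap.neg_apply, LinearMap.neg_apply, inner_neg_left, inner_neg_right,
      Sm_skew G σ h.skew]
  psym := Pm_symm σ h hs
  ppos := Pm_nonneg σ h hs
  psq := Pm_Pm G σ h hs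
  inter := fun α z => by
    refine σ.ext' fun β => ?_
    have e1 : K.starProjection (∑ j, G.γ j α β • τ.pr j (z : E)) = 0 := by
      rw [map_sum]
      refine Finset.sum_eq_zero fun j _ => ?_
      rw [map_smul, proj_zero (z.2.1 j), smul_zero]
    simp only [LinearMap.comp_apply, Submodule.subtype_apply]
    rw [pr_Pm, pr_Gm, e1, sub_zero, map_sum, pr_Gm]
    refine Finset.sum_congr rfl fun j _ => ?_
    rw [map_smul, pr_cmp τ h hs]
  cpos := by norm_num
  fr1 := fun z w => fr1 G τ σ (z : E) (w : E)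
  mix := fun z w => by
    simp only [LinearMap.comp_apply, Submodule.subtype_apply, LinearMap.neg_apply, inner_neg_right,
      Finset.sum_neg_distrib]
    rw [mix0, neg_zero]
  fr2 := fun v => fr2 G τ σ h hs e v

theorem Jm_Sm (w : W) : Jm G σ K D (Sm G σ D w) = σ.ten (lr K D - K.starProjection) w := by
  refine σ.ext' fun β => ?_
  have h1 : Jm G σ K D (Sm G σ D w) = -Sm G σ (fun i => (D i).comp (li K D)) (Sm G σ D w) := rfl
  rw [h1, map_neg, pr_Sm_Sm G σ (fun i => (D i).comp (li K D)) D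
    (fun i j v => by
      simp only [ContinuousLinearMap.comp_apply]
      rw [← h.D_li hs j, h.comm i j, h.D_li hs i]), σ.pr_ten]
  simp only [ContinuousLinearMap.comp_apply]
  have h2 : ∀ i, D i (li K D (D i (σ.pr β w))) = li K D (D i (D i (σ.pr β w))) := fun i =>
    h.D_li hs i _
  simp only [h2]
  rw [← map_sum]
  have h3 : ∑ i, D i (D i (σ.pr β w)) = K.starProjection (σ.pr β w) -
      lr K D (lr K D (σ.pr β w)) := by
    rw [h.lr_lr hs]; abel
  have h4 : li K D (K.starProjection (σ.pr β w)) = K.starProjection (σ.pr β w) := by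
    conv_lhs => rw [← h.lr_fix hs (Submodule.starProjection_apply_mem K (σ.pr β w))]
    exact h.li_lr hs _
  rw [h3, map_sub, h.li_lr hs, h4]
  simp

theorem linJ : LinJ (Jm G σ K D) (-Sm G σ D) (Pm σ K D) := by
  have hJT : ∀ x, Jm G σ K D (Sm G σ D x) = Pm σ K D x := fun x => Jm_Sm G σ h hs x
  have hSP : ∀ x, Jm G σ K D (Pm σ K D x) = -Sm G σ D x := by
    intro x
    refine σ.ext' fun β => ?_
    rw [pr_Jm, map_neg, pr_Sm]
    congr 1
    refine Finset.sum_congr rfl fun i _ => Finset.sum_congr rfl fun β' _ => ?_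
    congr 1
    have h4 : li K D (K.starProjection (σ.pr β' x)) = K.starProjection (σ.pr β' x) := by
      conv_lhs => rw [← h.lr_fix hs (Submodule.starProjection_apply_mem K (σ.pr β' x))]
      exact h.li_lr hs _
    rw [pr_Pm, map_sub, h.li_lr hs, h4, map_sub, h.D_proj, sub_zero]
  have hsk : Skew (Jm G σ K D) := by
    have h1 : Skew (Sm G σ fun i => (D i).comp (li K D)) := by
      refine Sm_skew G σ fun i u v => ?_
      simp only [ContinuousLinearMap.comp_apply]
      rw [h.skew, (h.li_pd hs).1, ← h.D_li hs]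
    intro x y
    have e1 : ∀ x, Jm G σ K D x = -Sm G σ (fun i => (D i).comp (li K D)) x := fun _ => rfl
    rw [e1, e1, inner_neg_left, inner_neg_right, h1]
  have hJJ : ∀ (x : W) β, σ.pr β (Jm G σ K D (Jm G σ K D x)) =
      K.starProjection (σ.pr β x) - σ.pr β x := by
    intro x β
    have e1 : ∀ x, Jm G σ K D x = -Sm G σ (fun i => (D i).comp (li K D)) x := fun _ => rfl
    rw [e1 x, map_neg, e1, neg_neg, pr_Sm_Sm G σ _ _ (fun i j v => by
      simp only [ContinuousLinearMap.comp_apply]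
      rw [← h.D_li hs j, ← h.D_li hs i, h.comm i j])]
    simp only [ContinuousLinearMap.comp_apply]
    have h2 : ∀ i, D i (li K D (D i (li K D (σ.pr β x)))) =
        D i (D i (li K D (li K D (σ.pr β x)))) := fun i => by rw [← h.D_li hs]
    simp only [h2]
    have h3 : ∑ i, D i (D i (li K D (li K D (σ.pr β x)))) =
        K.starProjection (li K D (li K D (σ.pr β x))) -
          lr K D (lr K D (li K D (li K D (σ.pr β x)))) := by
      rw [h.lr_lr hs]; abel
    have h4 : li K D (K.starProjection (σ.pr β x)) = K.starProjection (σ.pr β x) := by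
      conv_lhs => rw [← h.lr_fix hs (Submodule.starProjection_apply_mem K (σ.pr β x))]
      exact h.li_lr hs _
    rw [h3, h.lr_li hs, h.lr_li hs, h.proj_li hs, h.proj_li hs, h4, h4]
  refine ⟨⟨hsk, fun x => ?_⟩, fun x => ?_, fun x => ?_, fun x hx => ?_⟩
  · refine σ.ext' fun β => ?_
    rw [map_neg]
    have h1 := hJJ (Jm G σ K D x) β
    rw [h1]
    have h2 : K.starProjection (σ.pr β (Jm G σ K D x)) = 0 := by
      rw [pr_Jm, map_neg, map_sum, Finset.sum_eq_zero, neg_zero]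
      intro i _
      rw [map_sum]
      exact Finset.sum_eq_zero fun β' _ => by rw [map_smul, h.proj_D, smul_zero]
    rw [h2, zero_sub]
  · rw [hSP, LinearMap.neg_apply]
  · rw [LinearMap.neg_apply, map_neg, neg_neg, hJT]
  · rw [LinearMap.neg_apply, neg_eq_zero] at hx
    have h1 := hJT x
    rw [hx, map_zero] at h1
    have h2 : ∀ β, σ.pr β x ∈ K := by
      intro β
      have h3 := congrArg (fun y => σ.pr β y) h1.symm
      simp only [pr_Pm, map_zero] at h3
      have h4 : σ.pr β x - K.starProjection (σ.pr β x) = 0 := by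
        have h5 : lr K D (σ.pr β x - K.starProjection (σ.pr β x)) = 0 := by
          rw [map_sub, h.lr_fix hs (Submodule.starProjection_apply_mem K _)]
          exact h3
        have h6 := h.li_lr hs (σ.pr β x - K.starProjection (σ.pr β x))
        rw [h5, map_zero] at h6
        exact h6.symm
      rw [sub_eq_zero] at h4
      rw [h4]
      exact Submodule.starProjection_apply_mem K _
    refine σ.ext' fun β => ?_
    rw [pr_Jm, map_zero, neg_eq_zero]
    refine Finset.sum_eq_zero fun i _ => Finset.sum_eq_zero fun β' _ => ?_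
    have h5 : li K D (σ.pr β' x) = σ.pr β' x := by
      conv_lhs => rw [← h.lr_fix hs (h2 β')]
      exact h.li_lr hs _
    rw [h5, h.ker i _ (h2 β'), smul_zero]

end fam

end Crest.Agent.R330.Fib892

end
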