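import Crest.Agent.R330.HMain_942
import Crest.Agent.R330.FibC_892
import Crest.Agent.R330.GBind_984

/-!
# Row 330 (helper942), S8: the heavy vacuum at a commuting `X` in two forms

`kill_iff` : for `X` commuting with `kc (actB b) X = K`,
`(∀ z ∈ Tup Kᗮ, ∀ α, i Θ_α(A_X z) f + wB 1 α X z f = 0) ↔ f ∈ (cr M).vacJ J`,
`J = -Σ γ^i ⊗ ad X_i |X|⁻¹` (any `J` with this row formula, e.g. `JX G K (adX b X)`).
-/

set_option autoImplicit false
set_option linter.unusedSectionVars false

open MeasureTheory Filter Topology Crest.MathPhysics.MatrixQM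
open scoped ContDiff InnerProductSpace

noncomputable section

namespace Crest.Agent.R330.Kill942

open Crest.Agent.R330.AX984 Crest.Agent.R330.GBind984 Crest.Agent.R330.FactI161
  Crest.Agent.R330.Bind6839 Crest.Agent.R330.LS839 Crest.Agent.R330.Frame839
  Crest.Agent.R330.Defs478 Crest.Agent.R330.IBP837 Crest.Agent.R330.Cliff442
  Crest.Agent.R330.HMain942 Crest.Agent.R330.Fib892 Crest.Agent.R330.SqrtPD984
  Crest.Agent.R330.GPar984

variable {N : ℕ} {F : Type*} [NormedAddCommGroup F] [InnerProductSpace ℂ F]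
  [FiniteDimensional ℂ F]

/-- the spinor-colour space as sixteen copies of the colour space -/
def tenW (N : ℕ) : Ten (Fin 16) (Colg N) (W16 N) where
  pr β := LinearMap.toContinuousLinearMap (row β)
  ij β := LinearMap.toContinuousLinearMap (ins β)
  pr_same β v := row_ins_self β v
  pr_ne β β' v h := by
    change row β (ins β' v) = 0
    rw [row_ins, if_neg h]
  sum_ij x := sum_ins_row x
  adj β v x := inner_ins β v x

theorem pr_tenW (β : Fin 16) (x : W16 N) : (tenW N).pr β x = row β x := rfl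

theorem Gm_eq_tv (G : GammaNine) (τ : Ten (Fin 9) (Colg N) (Cfg N))
    (hτ : ∀ i x, τ.pr i x = comp x i) (α : Fin 16) (e : Cfg N) :
    Gm G τ (tenW N) α e = tv G α e := by
  refine ext_row fun β => ?_
  have h1 : row β (Gm G τ (tenW N) α e) = (tenW N).pr β (Gm G τ (tenW N) α e) := rfl
  rw [h1, pr_Gm, row_tv]
  exact Finset.sum_congr rfl fun j _ => by rw [hτ]

/-- `A_X` preserves the transverse space, so its compression is its restriction -/
theorem cmp_AX {V E : Type*} [NormedAddCommGroup V] [InnerProductSpace ℝ V]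
    [FiniteDimensional ℝ V] [NormedAddCommGroup E] [InnerProductSpace ℝ E]
    [FiniteDimensional ℝ E] {ι : Type*} [Fintype ι] {K : Submodule ℝ V} {s : ℝ}
    {D : ι → V →L[ℝ] V} (τ : Ten ι V E) (h : Fam K s D) (hs : 0 < s) (z : τ.ZZ K D) :
    ((cmp (τ.ZZ K D) (τ.AX K D) z : τ.ZZ K D) : E) = τ.AX K D z := by
  have h1 : τ.AX K D z ∈ τ.ZZ K D :=
    τ.mem_ZZ.2 ⟨fun i => h.pr_AX_mem τ hs z i, h.dv_AX τ hs z⟩
  have h2 : cmp (τ.ZZ K D) (τ.AX K D) z = (τ.ZZ K D).orthogonalProjectionOnto (τ.AX K D z) := rfl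
  rw [h2]
  exact Submodule.orthogonalProjectionOnto_mem_subspace_eq_self (K := τ.ZZ K D) ⟨_, h1⟩ ▸ rfl

/-- every heavy vector is a combination of the vectors `Γ_α (A_X z)`, `z` transverse -/
theorem heavy_expand (G : GammaNine) {K : Submodule ℝ (Colg N)} {s : ℝ}
    {D : Fin 9 → Colg N →L[ℝ] Colg N} (τ : Ten (Fin 9) (Colg N) (Cfg N))
    (hτ : ∀ i x, τ.pr i x = comp x i) (h : Fam K s D) (hs : 0 < s) {x : W16 N}
    (hx : ∀ β, row β x ∈ Kᗮ) :
    ∃ (n : ℕ) (a : Fin 16 → Fin n → ℝ) (z : Fin n → Cfg N), (∀ k, z k ∈ τ.ZZ K D) ∧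
      x = ∑ α, ∑ k, a α k • tv G α (τ.AX K D (z k)) := by
  set e := stdOrthonormalBasis ℝ (τ.ZZ K D) with he
  have hL := lin G τ (tenW N) h hs e
  -- the preimage under `1 ⊗ |X|`
  set v : W16 N := ∑ β, ins β (li K D (row β x)) with hv
  have hrv : ∀ β, row β v = li K D (row β x) := by
    intro β
    rw [hv, map_sum]
    simp only [row_ins]
    rw [Finset.sum_ite_eq]
    simp
  have hPv : Pm (tenW N) K D v = x := by
    refine ext_row fun β => ?_
    have h1 : row β (Pm (tenW N) K D v) = (tenW N).pr β (Pm (tenW N) K D v) := rfl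
    rw [h1, pr_Pm, pr_tenW, hrv, h.lr_li hs, proj_zero (h.li_mem hs (hx β)), sub_zero]
  have h2 := hL.fr2P v
  rw [hPv] at h2
  refine ⟨_, fun α k => (1 / 8 : ℝ) * ⟪(Gm G τ (tenW N) α ∘ₗ (τ.ZZ K D).subtype) (e k), v⟫_ℝ,
    fun k => (e k : Cfg N), fun k => (e k).2, ?_⟩
  have h3 : x = (1 / 8 : ℝ) • ((8 : ℝ) • x) := by
    rw [smul_smul]
    norm_num
  rw [h3, ← h2, Finset.smul_sum]
  refine Finset.sum_congr rfl fun α _ => ?_
  rw [Finset.smul_sum]
  refine Finset.sum_congr rfl fun k _ => ?_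
  rw [smul_smul]
  congr 1
  rw [hL.inter, LinearMap.comp_apply, Submodule.subtype_apply, cmp_AX τ h hs, Gm_eq_tv G τ hτ]

variable {b : ColorBasis N} {G : GammaNine} {K : Submodule ℝ (Colg N)} {X : Cfg N}

/-- `J` only sees the heavy part -/
theorem J_heavy {s : ℝ} {D : Fin 9 → Colg N →L[ℝ] Colg N} (h : Fam K s D) (hs : 0 < s)
    {J : W16 N →ₗ[ℝ] W16 N}
    (hJ : ∀ x β, row β (J x) = -∑ i, ∑ β', G.γ i β β' • D i (li K D (row β' x))) (x : W16 N) :
    ∃ y : W16 N, (∀ β, row β y ∈ Kᗮ) ∧ J x = J y := by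
  refine ⟨∑ β, ins β (row β x - K.starProjection (row β x)), fun β => ?_, ?_⟩
  · rw [map_sum]
    simp only [row_ins]
    rw [Finset.sum_ite_eq]
    simp only [Finset.mem_univ, if_true]
    exact Submodule.sub_starProjection_mem_orthogonal _
  · refine ext_row fun β => ?_
    rw [hJ, hJ]
    congr 1
    refine Finset.sum_congr rfl fun i _ => Finset.sum_congr rfl fun β' _ => ?_
    congr 1
    have h1 : row β' (∑ β, ins β (row β x - K.starProjection (row β x))) =
        row β' x - K.starProjection (row β' x) := by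
      rw [map_sum]
      simp only [row_ins]
      rw [Finset.sum_ite_eq]
      simp
    rw [h1, map_sub, map_sub, ← h.proj_li hs, h.D_proj, sub_zero]

/-- **The two descriptions of the heavy vacuum.** -/
theorem kill_iff (M : FermionRep N F) (hX : Comc b X) (hK : kc (actB b) X = K)
    {J : W16 N →ₗ[ℝ] W16 N}
    (hJ : ∀ x β, row β (J x) =
      -∑ i, ∑ β', G.γ i β β' • adX b X i (li K (adX b X) (row β' x))) (f : F) :
    (∀ z ∈ Tup Kᗮ, ∀ α, Complex.I • Theta M G α (AXc b K X z) f + wB b M G 1 α X z f = 0) ↔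
      f ∈ (cr M).vacJ J := by
  obtain ⟨s, hs, h⟩ := fam_of_eq (b := b) hX hK
  constructor
  · intro hf
    have key : ∀ α, ∀ z ∈ Tup Kᗮ, (cr M).θ (J (tv G α (AXc b K X z))) f =
        -(Complex.I • (cr M).θ (tv G α (AXc b K X z)) f) := by
      intro α z hz
      have h1 := hf z hz α
      have h2 := J_tv hJ b tenC pr_tenC (adX_apply b X) h hs α z
      have h3 : wB b M G 1 α X z = (cr M).θ (J (tv G α (AXc b K X z))) := by
        unfold wB AXc
        rw [h2, vco_eq]
        simp only [mul_one]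
      rw [Theta_cr, h3] at h1
      exact (neg_eq_of_add_eq_zero_right h1).symm
    have key2 : ∀ x : W16 N, (∀ β, row β x ∈ Kᗮ) →
        (cr M).θ (J x) f = -(Complex.I • (cr M).θ x f) := by
      intro x hx
      obtain ⟨n, a, z, hz, hxe⟩ := heavy_expand G tenC pr_tenC h hs hx
      have e1 : J x = ∑ α, ∑ k, a α k • J (tv G α (tenC.AX K (adX b X) (z k))) := by
        conv_lhs => rw [hxe]
        rw [map_sum]
        refine Finset.sum_congr rfl fun α _ => ?_
        rw [map_sum]
        exact Finset.sum_congr rfl fun k _ => map_smul _ _ _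
      have hsum : ∀ (y : Fin 16 → Fin n → W16 N),
          (cr M).θ (∑ α, ∑ k, a α k • y α k) f =
            ∑ α, ∑ k, ((a α k : ℝ) : ℂ) • (cr M).θ (y α k) f := by
        intro y
        have h5 : ∀ (T : Finset (Fin 16 × Fin n)), (cr M).θ (∑ q ∈ T, a q.1 q.2 • y q.1 q.2) f =
            ∑ q ∈ T, ((a q.1 q.2 : ℝ) : ℂ) • (cr M).θ (y q.1 q.2) f := by
          classical
          intro T
          induction T using Finset.induction_on with
          | empty =>
            simp only [Finset.sum_empty]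
            have := (cr M).smul 0 0
            rw [zero_smul] at this
            rw [this]
            simp
          | insert q T hq ih =>
            rw [Finset.sum_insert hq, Finset.sum_insert hq, (cr M).add, LinearMap.add_apply, ih,
              (cr M).smul, LinearMap.smul_apply]
        have h6 := h5 Finset.univ
        rwa [Fintype.sum_prod_type, Fintype.sum_prod_type] at h6
      rw [e1, hsum]
      conv_rhs => rw [hxe]
      rw [hsum, Finset.smul_sum, ← Finset.sum_neg_distrib]
      refine Finset.sum_congr rfl fun α _ => ?_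
      rw [Finset.smul_sum, ← Finset.sum_neg_distrib]
      refine Finset.sum_congr rfl fun k _ => ?_
      have h7 := key α (z k) (fun i => (tenC.mem_ZZ.1 (hz k)).1 i)
      unfold AXc at h7
      rw [h7, smul_neg, smul_comm]
    intro x
    obtain ⟨y, hy, hxy⟩ := J_heavy h hs hJ x
    rw [hxy, key2 y hy, J_J hJ h hs hy, (cr M).neg, LinearMap.neg_apply, smul_neg]
  · intro hf z _ α
    have h1 := heavy_main hJ b tenC pr_tenC (adX_apply b X) M h hs 1 α z hf
    rw [Complex.ofReal_one, mul_one] at h1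
    exact h1

/-- the literal complex structure is 892's -/
theorem JX_eq_Jm (G : GammaNine) (K : Submodule ℝ (Colg N)) (D : Fin 9 → Colg N →L[ℝ] Colg N) :
    JX G K D = Jm G (tenW N) K D := by
  refine LinearMap.ext fun x => ext_row fun β => ?_
  have h1 : row β (Jm G (tenW N) K D x) = (tenW N).pr β (Jm G (tenW N) K D x) := rfl
  rw [row_JX, h1, pr_Jm]
  simp only [pr_tenW]

/-- the literal complex structure of the heavy vacuum at `X` -/
def Jc (b : ColorBasis N) (G : GammaNine) (K : Submodule ℝ (Colg N)) (X : Cfg N) :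
    W16 N →ₗ[ℝ] W16 N := JX G K (adX b X)

theorem pcs_Jc (hX : Comc b X) (hK : kc (actB b) X = K) : PCS (Jc b G K X) := by
  obtain ⟨s, hs, h⟩ := fam_of_eq (b := b) hX hK
  unfold Jc
  rw [JX_eq_Jm]
  exact (linJ G (tenW N) h hs).pcs

theorem row_Jc (x : W16 N) (β : Fin 16) : row β (Jc b G K X x) =
    -∑ i, ∑ β', G.γ i β β' • adX b X i (li K (adX b X) (row β' x)) := by
  unfold Jc
  exact row_JX G x β

theorem kill_iff_Jc (M : FermionRep N F) (hX : Comc b X) (hK : kc (actB b) X = K) (f : F) :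
    (∀ z ∈ Tup Kᗮ, ∀ α, Complex.I • Theta M G α (AXc b K X z) f + wB b M G 1 α X z f = 0) ↔
      f ∈ (cr M).vacJ (Jc b G K X) := by
  have hJ : ∀ (x : W16 N) (β : Fin 16), row β (Jc b G K X x) =
      -∑ i, ∑ β', G.γ i β β' • adX b X i (li K (adX b X) (row β' x)) := row_Jc
  exact kill_iff M hX hK hJ f

end Crest.Agent.R330.Kill942

end
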