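import Crest.Agent.R330.Frame_839

/-!
# Row 330, section 9.1(e) (helper491): transport of the heavy charges on a fixed slice

Setting of `Frame_839`: `A ω x = [ω, x]`, base point `c`, `T = Tn A c`, `kᗮ = (kc A c)ᗮ`.
`Z ≤ Tᗮ` is the fixed transverse space, `b` another background with `[kᗮ, b] ⊆ T + Z`.

* `pz A c b` : oblique projection of `E` along `Tb A c b = [kᗮ, b]`, `pz z = z` on `Tᗮ`,
  `pz t = - nn A c b t` on `T`.
* `Zb A c Z b` : orthogonal complement of `[kᗮ, b]` in `T + Z` (the transverse space at `b`),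
  `sb : Zb ≃L Z` (restriction of `pz`), `‖sb w‖ ≤ 2‖w‖`, `‖sb⁻¹ z‖ ≤ ‖z‖`.
* `Bc` : heavy charge at `b` on the fixed slice `Z` (with the gauge frame terms);
  `Bf` : heavy charge on `Zb`; **`Bf_comp`** : `Bf (f ∘ sb) w = Bc f (sb w)`.
* `integral_sb` : change of variables; `gapF1`, `gapF2` : transport of the inequalities.
* `Bc_sub_bound` : `‖Bc b f z - Bc b' f z‖ ≤ C ‖b - b'‖ (‖∂f‖ + ‖z‖‖f‖)`.
-/

set_option autoImplicit false
set_option linter.unusedSectionVars false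

open scoped InnerProductSpace ContDiff
open MeasureTheory

noncomputable section

namespace Crest.Agent.R330.Transp491

open Frame839

variable {V E : Type*} [NormedAddCommGroup V] [InnerProductSpace ℝ V] [FiniteDimensional ℝ V]
  [NormedAddCommGroup E] [InnerProductSpace ℝ E] [FiniteDimensional ℝ E]
  (A : V →L[ℝ] E →L[ℝ] E) (c : E)

/-- The oblique projection along `[kᗮ, b]`. -/
def pz (b : E) : E →L[ℝ] E :=
  ContinuousLinearMap.id ℝ E -
    (A.flip b) ∘L ((kc A c)ᗮ).subtypeL ∘L (om A c b) ∘L (Tn A c).orthogonalProjectionOnto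

/-- The vertical space at `b`. -/
def Tb (b : E) : Submodule ℝ E := ((kc A c)ᗮ).map (A.flip b).toLinearMap

/-- The transverse space at `b`. -/
def Zb (Z : Submodule ℝ E) (b : E) : Submodule ℝ E := (Tn A c ⊔ Z) ⊓ (Tb A c b)ᗮ

/-- `Z` is a transverse space at `c`, and the vertical space at `b` is in `T + Z`. -/
structure Slice (Z : Submodule ℝ E) (b : E) : Prop where
  perp : Z ≤ (Tn A c)ᗮ
  mem : ∀ v ∈ (kc A c)ᗮ, A v b ∈ Tn A c ⊔ Z

variable {A c} {b : E} {r B : ℝ} {Z : Submodule ℝ E}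

theorem pz_apply (w : E) :
    pz A c b w = w - A (om A c b ((Tn A c).orthogonalProjectionOnto w)) b := rfl

theorem pz_act (hr0 : 0 < r) (hr : GapAt A c r) (hB : ActBound A B) (hb : B * ‖b - c‖ ≤ r / 2)
    {v : V} (hv : v ∈ (kc A c)ᗮ) : pz A c b (A v b) = 0 := by
  have h := om_S hr0 hr hB hb ⟨v, hv⟩
  rw [S_apply] at h
  rw [pz_apply, h]
  exact sub_self _

theorem pz_Tb (hr0 : 0 < r) (hr : GapAt A c r) (hB : ActBound A B) (hb : B * ‖b - c‖ ≤ r / 2)
    {w : E} (hw : w ∈ Tb A c b) : pz A c b w = 0 := by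
  obtain ⟨v, hv, rfl⟩ := hw
  exact pz_act hr0 hr hB hb hv

theorem pz_perp {z : E} (hz : z ∈ (Tn A c)ᗮ) : pz A c b z = z := by
  have h : (Tn A c).orthogonalProjectionOnto z = 0 :=
    Submodule.orthogonalProjectionOnto_eq_zero_iff.2 hz
  rw [pz_apply, h]
  simp

theorem pz_tn (t : Tn A c) : pz A c b (t : E) = - nn A c b t := by
  have h : (Tn A c).orthogonalProjectionOnto (t : E) = t :=
    Submodule.orthogonalProjectionOnto_mem_subspace_eq_self t
  rw [pz_apply, h]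
  unfold nn
  abel


theorem mem_of_perp (hZ : Z ≤ (Tn A c)ᗮ) {x : E} (hx : x ∈ Tn A c ⊔ Z) (hx' : x ∈ (Tn A c)ᗮ) :
    x ∈ Z := by
  obtain ⟨t, ht, z, hz, rfl⟩ := Submodule.mem_sup.1 hx
  have h1 : t ∈ (Tn A c)ᗮ := by
    have := (Tn A c)ᗮ.sub_mem hx' (hZ hz)
    simpa using this
  have h2 : t = 0 := by
    have h3 := (Submodule.mem_orthogonal _ _).1 h1 t ht
    exact inner_self_eq_zero.1 h3
  rw [h2, zero_add]
  exact hz

theorem Slice.Tb_le (hs : Slice A c Z b) : Tb A c b ≤ Tn A c ⊔ Z := by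
  rintro w ⟨v, hv, rfl⟩
  exact hs.mem v hv

theorem nn_mem_Z (hr0 : 0 < r) (hr : GapAt A c r) (hB : ActBound A B) (hb : B * ‖b - c‖ ≤ r / 2)
    (hs : Slice A c Z b) (t : Tn A c) : nn A c b t ∈ Z := by
  refine mem_of_perp hs.perp ?_ (nn_mem hr0 hr hB hb t)
  exact Submodule.sub_mem _ (hs.mem _ (om A c b t).2) (Submodule.mem_sup_left t.2)

theorem pz_mem_Z (hr0 : 0 < r) (hr : GapAt A c r) (hB : ActBound A B) (hb : B * ‖b - c‖ ≤ r / 2)
    (hs : Slice A c Z b) {w : E} (hw : w ∈ Tn A c ⊔ Z) : pz A c b w ∈ Z := by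
  obtain ⟨t, ht, z, hz, rfl⟩ := Submodule.mem_sup.1 hw
  rw [map_add, pz_perp (hs.perp hz)]
  have h := pz_tn (A := A) (c := c) (b := b) ⟨t, ht⟩
  rw [show pz A c b t = - nn A c b ⟨t, ht⟩ from h]
  exact Z.add_mem (Z.neg_mem (nn_mem_Z hr0 hr hB hb hs _)) hz

theorem sub_pz_mem (w : E) : w - pz A c b w ∈ Tb A c b := by
  rw [pz_apply, sub_sub_cancel]
  exact ⟨_, (om A c b _).2, rfl⟩

theorem pz_norm (hr0 : 0 < r) (hr : GapAt A c r) (hB : ActBound A B) (hB0 : 0 ≤ B)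
    (hb : B * ‖b - c‖ ≤ r / 2) (w : E) : ‖pz A c b w‖ ≤ 2 * ‖w‖ := by
  have h1 : w = (Tn A c).starProjection w + (Tn A c)ᗮ.starProjection w :=
    (Submodule.starProjection_add_starProjection_orthogonal (K := Tn A c) w).symm
  have h2 : pz A c b w = (Tn A c)ᗮ.starProjection w -
      nn A c b ((Tn A c).orthogonalProjectionOnto w) := by
    conv_lhs => rw [h1]
    rw [map_add, pz_perp (Submodule.starProjection_apply_mem _ _)]
    have h := pz_tn (A := A) (c := c) (b := b) ((Tn A c).orthogonalProjectionOnto w)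
    rw [show pz A c b ((Tn A c).starProjection w) =
      - nn A c b ((Tn A c).orthogonalProjectionOnto w) from h]
    abel
  rw [h2]
  have h3 : ‖(Tn A c)ᗮ.starProjection w‖ ≤ ‖w‖ := (Tn A c)ᗮ.norm_starProjection_apply_le w
  have h4 := nn_bound hr0 hr hB hB0 hb ((Tn A c).orthogonalProjectionOnto w)
  have h5 : ‖(Tn A c).orthogonalProjectionOnto w‖ ≤ ‖w‖ := proj_norm_le _ _
  have h6 : 2 * B / r * ‖b - c‖ ≤ 1 := by
    rw [div_mul_eq_mul_div, div_le_one hr0]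
    linarith
  have h7 : 2 * B / r * ‖b - c‖ * ‖(Tn A c).orthogonalProjectionOnto w‖ ≤ 1 * ‖w‖ := by
    gcongr
  calc _ ≤ ‖(Tn A c)ᗮ.starProjection w‖ + ‖nn A c b ((Tn A c).orthogonalProjectionOnto w)‖ :=
        norm_sub_le _ _
    _ ≤ _ := by linarith

/-- The identification of the transverse space at `b` with the fixed one. -/
def sbL (hr0 : 0 < r) (hr : GapAt A c r) (hB : ActBound A B) (hb : B * ‖b - c‖ ≤ r / 2)
    (hs : Slice A c Z b) : Zb A c Z b ≃ₗ[ℝ] Z where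
  toFun w := ⟨pz A c b w, pz_mem_Z hr0 hr hB hb hs w.2.1⟩
  map_add' x y := by
    ext
    simp
  map_smul' a x := by
    ext
    simp
  invFun z := ⟨(Tb A c b)ᗮ.starProjection z, by
    refine ⟨?_, Submodule.starProjection_apply_mem _ _⟩
    rw [Submodule.starProjection_orthogonal_val]
    exact Submodule.sub_mem _ (Submodule.mem_sup_right z.2)
      (hs.Tb_le (Submodule.starProjection_apply_mem _ _))⟩
  left_inv w := by
    ext
    have h1 : pz A c b (w : E) = w - (w - pz A c b w) := by abel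
    have h2 : (Tb A c b)ᗮ.starProjection (w : E) = w :=
      Submodule.starProjection_eq_self_iff.2 w.2.2
    have h3 : (Tb A c b)ᗮ.starProjection ((w : E) - pz A c b w) = 0 := by
      rw [Submodule.starProjection_orthogonal_val,
        Submodule.starProjection_eq_self_iff.2 (sub_pz_mem (w : E)), sub_self]
    change (Tb A c b)ᗮ.starProjection (pz A c b (w : E)) = w
    rw [h1, map_sub, h2, h3, sub_zero]
  right_inv z := by
    ext
    change pz A c b ((Tb A c b)ᗮ.starProjection (z : E)) = z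
    rw [Submodule.starProjection_orthogonal_val, map_sub, pz_perp (hs.perp z.2),
      pz_Tb hr0 hr hB hb (Submodule.starProjection_apply_mem _ _), sub_zero]

/-- The identification of the transverse space at `b` with the fixed one. -/
def sb (hr0 : 0 < r) (hr : GapAt A c r) (hB : ActBound A B) (hb : B * ‖b - c‖ ≤ r / 2)
    (hs : Slice A c Z b) : Zb A c Z b ≃L[ℝ] Z :=
  (sbL hr0 hr hB hb hs).toContinuousLinearEquiv

theorem sb_coe (hr0 : 0 < r) (hr : GapAt A c r) (hB : ActBound A B) (hb : B * ‖b - c‖ ≤ r / 2)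
    (hs : Slice A c Z b) (w : Zb A c Z b) : ((sb hr0 hr hB hb hs w : Z) : E) = pz A c b w := rfl

theorem sb_symm_coe (hr0 : 0 < r) (hr : GapAt A c r) (hB : ActBound A B)
    (hb : B * ‖b - c‖ ≤ r / 2) (hs : Slice A c Z b) (z : Z) :
    (((sb hr0 hr hB hb hs).symm z : Zb A c Z b) : E) = (Tb A c b)ᗮ.starProjection z := rfl

theorem sb_norm (hr0 : 0 < r) (hr : GapAt A c r) (hB : ActBound A B) (hB0 : 0 ≤ B)
    (hb : B * ‖b - c‖ ≤ r / 2) (hs : Slice A c Z b) (w : Zb A c Z b) :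
    ‖sb hr0 hr hB hb hs w‖ ≤ 2 * ‖w‖ := pz_norm hr0 hr hB hB0 hb w

theorem sb_symm_norm (hr0 : 0 < r) (hr : GapAt A c r) (hB : ActBound A B)
    (hb : B * ‖b - c‖ ≤ r / 2) (hs : Slice A c Z b) (z : Z) :
    ‖(sb hr0 hr hB hb hs).symm z‖ ≤ ‖z‖ := (Tb A c b)ᗮ.norm_starProjection_apply_le z

/-! ## Contractions -/

section ctr

variable {G : Type*} [AddCommGroup G] [Module ℝ G] {ι κ : Type*} [Fintype ι] [Fintype κ]

/-- Contraction over a subspace. -/
theorem ctr_proj (f : E →ₗ[ℝ] E →ₗ[ℝ] G) (K : Submodule ℝ E) (e : OrthonormalBasis κ ℝ E)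
    (k : OrthonormalBasis ι ℝ K) :
    ∑ i, f (k i) (k i) = ∑ s, f (K.starProjection (e s)) (e s) := by
  have h1 : ∀ s, K.starProjection (e s) = ∑ i, ⟪(k i : E), e s⟫_ℝ • (k i : E) := by
    intro s
    have h := k.sum_repr' (K.orthogonalProjectionOnto (e s))
    rw [Submodule.starProjection_apply, ← h]
    push_cast
    refine Finset.sum_congr rfl fun i _ => ?_
    rw [Submodule.inner_orthogonalProjectionOnto_eq_of_mem_left]
  simp only [h1, map_sum, map_smul, LinearMap.sum_apply, LinearMap.smul_apply]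
  rw [Finset.sum_comm]
  refine Finset.sum_congr rfl fun i _ => ?_
  have h2 : f (k i : E) (k i : E) = f (k i : E) (∑ s, ⟪e s, (k i : E)⟫_ℝ • e s) := by
    rw [e.sum_repr']
  rw [h2, map_sum]
  exact Finset.sum_congr rfl fun s _ => by rw [map_smul, real_inner_comm]

theorem proj_sup {K K' : Submodule ℝ E} (h : K' ≤ Kᗮ) (x : E) :
    (K ⊔ K').starProjection x = K.starProjection x + K'.starProjection x := by
  refine Submodule.eq_starProjection_of_mem_orthogonal (K := K ⊔ K') ?_ ?_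
  · exact Submodule.add_mem _ (Submodule.mem_sup_left (Submodule.starProjection_apply_mem _ _))
      (Submodule.mem_sup_right (Submodule.starProjection_apply_mem _ _))
  · rw [Submodule.mem_orthogonal']
    intro u hu
    obtain ⟨a, ha, a', ha', rfl⟩ := Submodule.mem_sup.1 hu
    have h1 : ⟪x - K.starProjection x, a⟫_ℝ = 0 :=
      (Submodule.mem_orthogonal' _ _).1
        (Submodule.sub_starProjection_mem_orthogonal (K := K) x) a ha
    have h2 : ⟪x - K'.starProjection x, a'⟫_ℝ = 0 :=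
      (Submodule.mem_orthogonal' _ _).1
        (Submodule.sub_starProjection_mem_orthogonal (K := K') x) a' ha'
    have h3 : ⟪K'.starProjection x, a⟫_ℝ = 0 := by
      rw [real_inner_comm]
      exact (Submodule.mem_orthogonal _ _).1 (h (Submodule.starProjection_apply_mem _ _)) a ha
    have h4 : ⟪K.starProjection x, a'⟫_ℝ = 0 :=
      (Submodule.mem_orthogonal _ _).1 (h ha') _ (Submodule.starProjection_apply_mem _ _)
    simp only [inner_sub_left, inner_add_left, inner_add_right] at h1 h2 h3 h4 ⊢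
    linarith

theorem proj_congr {K K' : Submodule ℝ E} (h : K = K') (x : E) :
    K.starProjection x = K'.starProjection x := by
  subst h
  rfl

theorem Tb_sup_Zb (hs : Slice A c Z b) : Tb A c b ⊔ Zb A c Z b = Tn A c ⊔ Z := by
  unfold Zb
  rw [inf_comm]
  exact Submodule.sup_orthogonal_inf_of_hasOrthogonalProjection hs.Tb_le

/-- **Change of the orthogonal decomposition in a contraction.** -/
theorem ctr_change {ι' κ' : Type*} [Fintype ι'] [Fintype κ'] (f : E →ₗ[ℝ] E →ₗ[ℝ] G)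
    (hs : Slice A c Z b) (e : OrthonormalBasis ι ℝ (Zb A c Z b))
    (t : OrthonormalBasis κ ℝ (Tb A c b)) (e' : OrthonormalBasis ι' ℝ Z)
    (t' : OrthonormalBasis κ' ℝ (Tn A c)) :
    ∑ i, f (e i) (e i) + ∑ i, f (t i) (t i) = ∑ i, f (e' i) (e' i) + ∑ i, f (t' i) (t' i) := by
  have E0 := stdOrthonormalBasis ℝ E
  rw [ctr_proj f _ E0 e, ctr_proj f _ E0 t, ctr_proj f _ E0 e', ctr_proj f _ E0 t',
    ← Finset.sum_add_distrib, ← Finset.sum_add_distrib]
  refine Finset.sum_congr rfl fun s _ => ?_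
  rw [← LinearMap.add_apply, ← map_add, ← LinearMap.add_apply, ← map_add]
  congr 2
  rw [add_comm, ← proj_sup (K := Tb A c b) (K' := Zb A c Z b) (inf_le_right),
    proj_congr (Tb_sup_Zb hs), proj_sup hs.perp, add_comm]

end ctr

/-! ## The heavy charges -/

section charge

variable {F : Type*} [NormedAddCommGroup F] [InnerProductSpace ℂ F] [FiniteDimensional ℂ F]
  (Th : E →ₗ[ℝ] (F →ₗ[ℂ] F)) (Mz : E →ₗ[ℝ] (F →ₗ[ℂ] F))

/-- Heavy charge on a space `K` of transverse directions (constant coefficients, linear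
potential). -/
def Bf {K : Submodule ℝ E} {ι : Type*} [Fintype ι] (e : OrthonormalBasis ι ℝ K) (f : K → F)
    (w : K) : F :=
  -Complex.I • ∑ i, Th (e i) (fderiv ℝ f w (e i)) + Mz w (f w)

variable (A c b) in
/-- Heavy charge at the background `b` on the fixed slice `Z`, with the gauge frame terms. -/
def Bc {ι κ : Type*} [Fintype ι] [Fintype κ] (e : OrthonormalBasis ι ℝ Z)
    (t : OrthonormalBasis κ ℝ (Tn A c)) (f : Z → F) (z : Z) : F :=
  -Complex.I • ∑ i, Th (e i) (fderiv ℝ f z (e i)) +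
    Complex.I • ∑ i, Th (t i) (fderiv ℝ f z (Z.orthogonalProjectionOnto (nn A c b (t i)))) +
    Mz z (f z)

variable {Th Mz}

theorem Mz_pz (hM : ∀ v ∈ (kc A c)ᗮ, Mz (A v b) = 0) (w : E) : Mz (pz A c b w) = Mz w := by
  obtain ⟨v, hv, h⟩ := sub_pz_mem (A := A) (c := c) (b := b) w
  have h2 : pz A c b w = w - A v b := by
    rw [show A v b = w - pz A c b w from h]
    abel
  rw [h2, map_sub, hM v hv, sub_zero]

/-- **Transport of the heavy charges.** -/
theorem Bf_comp {ι κ : Type*} [Fintype ι] [Fintype κ] {ι' : Type*} [Fintype ι']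
    (hr0 : 0 < r) (hr : GapAt A c r) (hB : ActBound A B) (hb : B * ‖b - c‖ ≤ r / 2)
    (hs : Slice A c Z b) (hM : ∀ v ∈ (kc A c)ᗮ, Mz (A v b) = 0)
    (e : OrthonormalBasis ι' ℝ (Zb A c Z b)) (e' : OrthonormalBasis ι ℝ Z)
    (t' : OrthonormalBasis κ ℝ (Tn A c)) (f : Z → F) (w : Zb A c Z b) :
    Bf Th Mz e (fun w => f (sb hr0 hr hB hb hs w)) w =
      Bc A c b Th Mz e' t' f (sb hr0 hr hB hb hs w) := by
  set s := sb hr0 hr hB hb hs with hsdef
  set L := fderiv ℝ f (s w) with hL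
  have h1 : ∀ v, fderiv ℝ (fun w => f (s w)) w v = L (s v) := by
    intro v
    have h := s.comp_right_fderiv (f := f) (x := w)
    have h2 : (f ∘ s) = fun w => f (s w) := rfl
    rw [h2] at h
    rw [h]
    rfl
  -- the bilinear map
  let P : E →L[ℝ] Z := Z.orthogonalProjectionOnto ∘L pz A c b
  let q : E →ₗ[ℝ] E →ₗ[ℝ] F := LinearMap.mk₂ ℝ (fun u v => Th v (L (P u)))
    (fun u u' v => by simp) (fun a u v => by simp) (fun u v v' => by simp)
    (fun a u v => by simp)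
  have hq : ∀ u v, q u v = Th v (L (P u)) := fun u v => rfl
  have hPZ : ∀ z : Z, P (z : E) = z := by
    intro z
    change Z.orthogonalProjectionOnto (pz A c b (z : E)) = z
    rw [pz_perp (hs.perp z.2)]
    exact Submodule.orthogonalProjectionOnto_mem_subspace_eq_self z
  have hPs : ∀ v : Zb A c Z b, P (v : E) = s v := by
    intro v
    change Z.orthogonalProjectionOnto (pz A c b (v : E)) = s v
    rw [← sb_coe hr0 hr hB hb hs v]
    exact Submodule.orthogonalProjectionOnto_mem_subspace_eq_self _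
  have hPt : ∀ t : Tn A c, P (t : E) = - Z.orthogonalProjectionOnto (nn A c b t) := by
    intro t
    change Z.orthogonalProjectionOnto (pz A c b (t : E)) = _
    rw [pz_tn, map_neg]
  have hPT : ∀ t : Tb A c b, P (t : E) = 0 := by
    intro t
    change Z.orthogonalProjectionOnto (pz A c b (t : E)) = _
    rw [pz_Tb hr0 hr hB hb t.2, map_zero]
  have T0 := stdOrthonormalBasis ℝ (Tb A c b)
  have h := ctr_change q hs e T0 e' t'
  simp only [hq, hPs, hPT, hPZ, hPt, map_zero, Finset.sum_const_zero, add_zero, map_neg,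
    Finset.sum_neg_distrib] at h
  unfold Bf Bc
  simp only [h1]
  rw [h, smul_add, smul_neg, neg_smul, neg_smul, neg_neg, sb_coe, Mz_pz hM]

/-! ## Change of variables -/

theorem exists_map_smul {E₁ E₂ : Type*} [NormedAddCommGroup E₁] [InnerProductSpace ℝ E₁]
    [FiniteDimensional ℝ E₁] [MeasurableSpace E₁] [BorelSpace E₁] [NormedAddCommGroup E₂]
    [InnerProductSpace ℝ E₂] [FiniteDimensional ℝ E₂] [MeasurableSpace E₂] [BorelSpace E₂]
    (s : E₁ ≃L[ℝ] E₂) : ∃ J : ℝ, 0 < J ∧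
      (volume : Measure E₁).map s = ENNReal.ofReal J • (volume : Measure E₂) := by
  have h := Measure.isAddLeftInvariant_eq_smul ((volume : Measure E₁).map s)
    (volume : Measure E₂)
  refine ⟨Measure.addHaarScalarFactor ((volume : Measure E₁).map s) (volume : Measure E₂),
    ?_, ?_⟩
  · exact_mod_cast Measure.addHaarScalarFactor_pos_of_isAddHaarMeasure _ _
  · rw [ENNReal.ofReal_coe_nnreal]
    exact h

/-- Change of variables by a linear equivalence. -/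
theorem integral_sb {X : Type*} [NormedAddCommGroup X] [NormedSpace ℝ X] {E₁ E₂ : Type*}
    [NormedAddCommGroup E₁] [InnerProductSpace ℝ E₁]
    [FiniteDimensional ℝ E₁] [MeasurableSpace E₁] [BorelSpace E₁] [NormedAddCommGroup E₂]
    [InnerProductSpace ℝ E₂] [FiniteDimensional ℝ E₂] [MeasurableSpace E₂] [BorelSpace E₂]
    (s : E₁ ≃L[ℝ] E₂) {J : ℝ} (hJ : 0 < J)
    (h : (volume : Measure E₁).map s = ENNReal.ofReal J • (volume : Measure E₂)) (G : E₂ → X) :
    ∫ w, G (s w) = J • ∫ z, G z := by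
  have h1 := integral_map_equiv (μ := (volume : Measure E₁)) s.toHomeomorph.toMeasurableEquiv G
  have h2 : (volume : Measure E₁).map s.toHomeomorph.toMeasurableEquiv =
      ENNReal.ofReal J • (volume : Measure E₂) := h
  rw [h2, integral_smul_measure, ENNReal.toReal_ofReal hJ.le] at h1
  exact h1.symm

variable [MeasurableSpace E] [BorelSpace E]

/-- **Transport of the gap inequality (F2).** `P` is any map on functions on `Zb`, transported
to the fixed slice. -/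
theorem gapF2 {ν ι κ : Type*} [Fintype ν] [Fintype ι] [Fintype κ] {ι' : Type*} [Fintype ι']
    (hr0 : 0 < r) (hr : GapAt A c r) (hB : ActBound A B) (hb : B * ‖b - c‖ ≤ r / 2)
    (hs : Slice A c Z b) {Th Mz : ν → E →ₗ[ℝ] (F →ₗ[ℂ] F)}
    (hM : ∀ α, ∀ v ∈ (kc A c)ᗮ, Mz α (A v b) = 0)
    (e : OrthonormalBasis ι' ℝ (Zb A c Z b)) (e' : OrthonormalBasis ι ℝ Z)
    (t' : OrthonormalBasis κ ℝ (Tn A c)) (f Pf : Z → F) {C g : ℝ}
    (H : g * ∫ w : Zb A c Z b, ‖f (sb hr0 hr hB hb hs w) - Pf (sb hr0 hr hB hb hs w)‖ ^ 2 ≤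
      C * ∑ α, ∫ w : Zb A c Z b, ‖Bf (Th α) (Mz α) e (fun w => f (sb hr0 hr hB hb hs w)) w‖ ^ 2) :
    g * ∫ z : Z, ‖f z - Pf z‖ ^ 2 ≤
      C * ∑ α, ∫ z : Z, ‖Bc A c b (Th α) (Mz α) e' t' f z‖ ^ 2 := by
  obtain ⟨J, hJ, hJs⟩ := exists_map_smul (sb hr0 hr hB hb hs)
  simp only [fun α => Bf_comp hr0 hr hB hb hs (hM α) e e' t' f] at H
  rw [integral_sb (sb hr0 hr hB hb hs) hJ hJs (fun z => ‖f z - Pf z‖ ^ 2)] at H
  simp only [fun α => integral_sb (sb hr0 hr hB hb hs) hJ hJs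
    (fun z => ‖Bc A c b (Th α) (Mz α) e' t' f z‖ ^ 2), smul_eq_mul, ← Finset.mul_sum] at H
  have h1 : J * (g * ∫ z : Z, ‖f z - Pf z‖ ^ 2) ≤
      J * (C * ∑ α, ∫ z : Z, ‖Bc A c b (Th α) (Mz α) e' t' f z‖ ^ 2) := by
    linarith
  exact le_of_mul_le_mul_left h1 hJ

/-- Projection on `γ ⊗ ran p` in `L²(K; F)` (Gaussian `γ`, `p` projection of `F`). -/
def PrK (K : Submodule ℝ E) (γ : E → ℝ) (p : F →ₗ[ℂ] F) (f : K → F) (z : K) : F :=
  (γ z / ∫ y : K, γ y ^ 2) • p (∫ y : K, γ y • f y)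

/-- A weight which is constant along the vertical space at `b`: the projection on `Zb` is
transported to the projection on `Z` with the same weight. -/
theorem PrK_comp (hr0 : 0 < r) (hr : GapAt A c r) (hB : ActBound A B)
    (hb : B * ‖b - c‖ ≤ r / 2) (hs : Slice A c Z b) {γ : E → ℝ}
    (hγ : ∀ w, ∀ v ∈ (kc A c)ᗮ, γ (w + A v b) = γ w) (p : F →ₗ[ℂ] F) (f : Z → F)
    (w : Zb A c Z b) :
    PrK (Zb A c Z b) γ p (fun w => f (sb hr0 hr hB hb hs w)) w =
      PrK Z γ p f (sb hr0 hr hB hb hs w) := by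
  obtain ⟨J, hJ, hJs⟩ := exists_map_smul (sb hr0 hr hB hb hs)
  have h0 : ∀ w : Zb A c Z b, γ (w : E) = γ (sb hr0 hr hB hb hs w : Z) := by
    intro w
    obtain ⟨v, hv, h⟩ := sub_pz_mem (A := A) (c := c) (b := b) (w : E)
    have h2 : (w : E) = pz A c b w + A v b := by
      rw [show A v b = w - pz A c b w from h]
      abel
    have h3 := hγ (pz A c b w) v hv
    rw [← h2] at h3
    rw [h3, sb_coe]
  unfold PrK
  have h1 := integral_sb (sb hr0 hr hB hb hs) hJ hJs (fun z : Z => γ z ^ 2)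
  have h2 := integral_sb (sb hr0 hr hB hb hs) hJ hJs (fun z : Z => γ z • f z)
  simp only [← h0] at h1 h2
  rw [h1, h2, h0 w]
  rw [← Complex.coe_smul J, map_smul, Complex.coe_smul, smul_smul, smul_eq_mul]
  congr 1
  field_simp

/-- **(F2) on the fixed slice** from (F2) on the transverse space at `b`. -/
theorem gapF2_PrK {ν ι κ : Type*} [Fintype ν] [Fintype ι] [Fintype κ] {ι' : Type*} [Fintype ι']
    (hr0 : 0 < r) (hr : GapAt A c r) (hB : ActBound A B) (hb : B * ‖b - c‖ ≤ r / 2)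
    (hs : Slice A c Z b) {Th Mz : ν → E →ₗ[ℝ] (F →ₗ[ℂ] F)}
    (hM : ∀ α, ∀ v ∈ (kc A c)ᗮ, Mz α (A v b) = 0) {γ : E → ℝ}
    (hγ : ∀ w, ∀ v ∈ (kc A c)ᗮ, γ (w + A v b) = γ w) (p : F →ₗ[ℂ] F)
    (e : OrthonormalBasis ι' ℝ (Zb A c Z b)) (e' : OrthonormalBasis ι ℝ Z)
    (t' : OrthonormalBasis κ ℝ (Tn A c)) {C g : ℝ}
    (H : ∀ f : Zb A c Z b → F, ContDiff ℝ ∞ f → HasCompactSupport f →
      g * ∫ w, ‖f w - PrK (Zb A c Z b) γ p f w‖ ^ 2 ≤
      C * ∑ α, ∫ w, ‖Bf (Th α) (Mz α) e f w‖ ^ 2)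
    {f : Z → F} (hf : ContDiff ℝ ∞ f) (hfc : HasCompactSupport f) :
    g * ∫ z : Z, ‖f z - PrK Z γ p f z‖ ^ 2 ≤
      C * ∑ α, ∫ z : Z, ‖Bc A c b (Th α) (Mz α) e' t' f z‖ ^ 2 := by
  refine gapF2 hr0 hr hB hb hs hM e e' t' f _ ?_
  have h := H (fun w => f (sb hr0 hr hB hb hs w)) (hf.comp (sb hr0 hr hB hb hs).contDiff)
    (hfc.comp_homeomorph (sb hr0 hr hB hb hs).toHomeomorph)
  simp only [PrK_comp hr0 hr hB hb hs hγ] at h
  exact h

theorem fderiv_sb {E₁ E₂ : Type*} [NormedAddCommGroup E₁] [NormedSpace ℝ E₁]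
    [NormedAddCommGroup E₂] [NormedSpace ℝ E₂] (s : E₁ ≃L[ℝ] E₂) (f : E₂ → F) (w : E₁) :
    fderiv ℝ (fun w => f (s w)) w = (fderiv ℝ f (s w)).comp (s : E₁ →L[ℝ] E₂) := by
  exact s.comp_right_fderiv (f := f) (x := w)

section general

variable {E₁ E₂ : Type*}
    [NormedAddCommGroup E₁] [InnerProductSpace ℝ E₁]
    [FiniteDimensional ℝ E₁] [MeasurableSpace E₁] [BorelSpace E₁] [NormedAddCommGroup E₂]
    [InnerProductSpace ℝ E₂] [FiniteDimensional ℝ E₂] [MeasurableSpace E₂] [BorelSpace E₂]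

theorem int_fderiv_le (s : E₁ ≃L[ℝ] E₂) {J : ℝ} (hJ : 0 < J)
    (hJs : (volume : Measure E₁).map s = ENNReal.ofReal J • (volume : Measure E₂))
    (hs : ∀ z, ‖s.symm z‖ ≤ ‖z‖) {f : E₂ → F} (hf : ContDiff ℝ ∞ f)
    (hfc : HasCompactSupport f) :
    J * ∫ z, ‖fderiv ℝ f z‖ ^ 2 ≤ ∫ w, ‖fderiv ℝ (fun w => f (s w)) w‖ ^ 2 := by
  have hf' : ContDiff ℝ ∞ (fun w => f (s w)) := hf.comp s.contDiff
  have hfc' : HasCompactSupport (fun w => f (s w)) := hfc.comp_homeomorph s.toHomeomorph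
  have hcont' : Continuous (fderiv ℝ (fun w => f (s w))) := hf'.continuous_fderiv (by simp)
  rw [← smul_eq_mul, ← integral_sb s hJ hJs (fun z => ‖fderiv ℝ f z‖ ^ 2)]
  have hsupp : HasCompactSupport (fderiv ℝ (fun w => f (s w))) := hfc'.fderiv ℝ
  refine integral_mono_of_nonneg (Filter.Eventually.of_forall fun w => by positivity) ?_
    (Filter.Eventually.of_forall fun w => ?_)
  · refine Continuous.integrable_of_hasCompactSupport ?_ ?_
    · exact hcont'.norm.pow 2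
    · exact hsupp.comp_left (g := fun L => ‖L‖ ^ 2) (by simp)
  · have h2 : fderiv ℝ f (s w) =
        (fderiv ℝ (fun w => f (s w)) w).comp (s.symm : E₂ →L[ℝ] E₁) := by
      rw [fderiv_sb s f w]
      ext v
      simp
    have h3 : ‖fderiv ℝ f (s w)‖ ≤ ‖fderiv ℝ (fun w => f (s w)) w‖ * 1 := by
      conv_lhs => rw [h2]
      refine (ContinuousLinearMap.opNorm_comp_le _ _).trans ?_
      refine mul_le_mul_of_nonneg_left ?_ (norm_nonneg _)
      refine ContinuousLinearMap.opNorm_le_bound _ zero_le_one fun z => ?_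
      rw [one_mul]
      exact hs z
    rw [mul_one] at h3
    exact pow_le_pow_left₀ (norm_nonneg _) h3 2

theorem int_mom_le (s : E₁ ≃L[ℝ] E₂) {J : ℝ} (hJ : 0 < J)
    (hJs : (volume : Measure E₁).map s = ENNReal.ofReal J • (volume : Measure E₂))
    (hs : ∀ w, ‖s w‖ ≤ 2 * ‖w‖) {f : E₂ → F} (hf : ContDiff ℝ ∞ f)
    (hfc : HasCompactSupport f) :
    J * ∫ z, ‖z‖ ^ 2 * ‖f z‖ ^ 2 ≤ 4 * ∫ w, ‖w‖ ^ 2 * ‖f (s w)‖ ^ 2 := by
  have hf' : ContDiff ℝ ∞ (fun w => f (s w)) := hf.comp s.contDiff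
  have hfc' : HasCompactSupport (fun w => f (s w)) := hfc.comp_homeomorph s.toHomeomorph
  rw [← smul_eq_mul, ← integral_sb s hJ hJs (fun z => ‖z‖ ^ 2 * ‖f z‖ ^ 2),
    ← integral_const_mul]
  refine integral_mono_of_nonneg (Filter.Eventually.of_forall fun w => by positivity) ?_
    (Filter.Eventually.of_forall fun w => ?_)
  · refine Integrable.const_mul ?_ _
    refine Continuous.integrable_of_hasCompactSupport ?_ ?_
    · exact (continuous_norm.pow 2).mul (hf'.continuous.norm.pow 2)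
    · refine HasCompactSupport.mul_left ?_
      exact hfc'.comp_left (g := fun v => ‖v‖ ^ 2) (by simp)
  · have h5 := hs w
    have h6 : ‖s w‖ ^ 2 ≤ 4 * ‖w‖ ^ 2 := by
      nlinarith [norm_nonneg (s w), norm_nonneg w]
    change ‖s w‖ ^ 2 * ‖f (s w)‖ ^ 2 ≤ 4 * (‖w‖ ^ 2 * ‖f (s w)‖ ^ 2)
    nlinarith [sq_nonneg ‖f (s w)‖]

end general

/-- **(F1) on the fixed slice** from (F1) on the transverse space at `b`. -/
theorem gapF1 {ν ι κ : Type*} [Fintype ν] [Fintype ι] [Fintype κ] {ι' : Type*} [Fintype ι']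
    (hr0 : 0 < r) (hr : GapAt A c r) (hB : ActBound A B) (hB0 : 0 ≤ B)
    (hb : B * ‖b - c‖ ≤ r / 2)
    (hs : Slice A c Z b) {Th Mz : ν → E →ₗ[ℝ] (F →ₗ[ℂ] F)}
    (hM : ∀ α, ∀ v ∈ (kc A c)ᗮ, Mz α (A v b) = 0)
    (e : OrthonormalBasis ι' ℝ (Zb A c Z b)) (e' : OrthonormalBasis ι ℝ Z)
    (t' : OrthonormalBasis κ ℝ (Tn A c)) {C g : ℝ}
    (H : ∀ f : Zb A c Z b → F, ContDiff ℝ ∞ f → HasCompactSupport f →
      (∫ w, ‖fderiv ℝ f w‖ ^ 2) + g ^ 2 * ∫ w, ‖w‖ ^ 2 * ‖f w‖ ^ 2 ≤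
      C * (∑ α, (∫ w, ‖Bf (Th α) (Mz α) e f w‖ ^ 2) + g * ∫ w, ‖f w‖ ^ 2))
    {f : Z → F} (hf : ContDiff ℝ ∞ f) (hfc : HasCompactSupport f) :
    (∫ z : Z, ‖fderiv ℝ f z‖ ^ 2) + g ^ 2 * ∫ z : Z, ‖z‖ ^ 2 * ‖f z‖ ^ 2 ≤
      4 * C * (∑ α, (∫ z : Z, ‖Bc A c b (Th α) (Mz α) e' t' f z‖ ^ 2) +
        g * ∫ z : Z, ‖f z‖ ^ 2) := by
  set s := sb hr0 hr hB hb hs with hsdef
  obtain ⟨J, hJ, hJs⟩ := exists_map_smul s
  have hf' : ContDiff ℝ ∞ (fun w => f (s w)) := hf.comp s.contDiff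
  have hfc' : HasCompactSupport (fun w => f (s w)) := hfc.comp_homeomorph s.toHomeomorph
  have h := H (fun w => f (s w)) hf' hfc'
  simp only [hsdef, fun α => Bf_comp hr0 hr hB hb hs (hM α) e e' t' f] at h
  simp only [← hsdef] at h
  rw [integral_sb s hJ hJs (fun z => ‖f z‖ ^ 2)] at h
  simp only [fun α => integral_sb s hJ hJs
    (fun z => ‖Bc A c b (Th α) (Mz α) e' t' f z‖ ^ 2), smul_eq_mul, ← Finset.mul_sum] at h
  have h1 := int_fderiv_le s hJ hJs (sb_symm_norm hr0 hr hB hb hs) hf hfc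
  have h4 := int_mom_le s hJ hJs (sb_norm hr0 hr hB hB0 hb hs) hf hfc
  have h7 : 0 ≤ ∫ w, ‖fderiv ℝ (fun w => f (s w)) w‖ ^ 2 :=
    integral_nonneg fun w => by positivity
  have h8 : g ^ 2 * (J * ∫ z : Z, ‖z‖ ^ 2 * ‖f z‖ ^ 2) ≤
      g ^ 2 * (4 * ∫ w, ‖w‖ ^ 2 * ‖f (s w)‖ ^ 2) :=
    mul_le_mul_of_nonneg_left h4 (sq_nonneg g)
  refine le_of_mul_le_mul_left (a := J) ?_ hJ
  linarith

/-! ## Expansion and dependence on the background -/

theorem Bc_eq {Th Mz : E →ₗ[ℝ] (F →ₗ[ℂ] F)}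
    {ι κ : Type*} [Fintype ι] [Fintype κ] (e : OrthonormalBasis ι ℝ Z)
    (t : OrthonormalBasis κ ℝ (Tn A c)) (f : Z → F) (z : Z) :
    Bc A c b Th Mz e t f z = ∑ i, -Complex.I • (Th (e i) (fderiv ℝ f z (e i)) -
      ∑ a, (⟪nn A c b (t a), (e i : E)⟫_ℝ) • Th (t a) (fderiv ℝ f z (e i))) + Mz z (f z) := by
  have h1 : ∀ a, Z.orthogonalProjectionOnto (nn A c b (t a)) =
      ∑ i, ⟪nn A c b (t a), (e i : E)⟫_ℝ • e i := by
    intro a
    have h := e.sum_repr' (Z.orthogonalProjectionOnto (nn A c b (t a)))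
    rw [← h]
    refine Finset.sum_congr rfl fun i _ => ?_
    rw [real_inner_comm, Submodule.inner_orthogonalProjectionOnto_eq_of_mem_right]
  unfold Bc
  simp only [h1, map_sum, map_smul, smul_sub, Finset.sum_sub_distrib, Finset.smul_sum]
  congr 1
  rw [sub_eq_add_neg]
  congr 1
  rw [Finset.sum_comm, ← Finset.sum_neg_distrib]
  refine Finset.sum_congr rfl fun i _ => ?_
  rw [← Finset.sum_neg_distrib]
  refine Finset.sum_congr rfl fun a _ => ?_
  rw [neg_smul, neg_neg, ← Complex.coe_smul, map_smul, Complex.coe_smul]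

theorem exists_bound (Th : E →ₗ[ℝ] (F →ₗ[ℂ] F)) :
    ∃ K : ℝ, 0 ≤ K ∧ ∀ v x, ‖Th v x‖ ≤ K * ‖v‖ * ‖x‖ := by
  have e := stdOrthonormalBasis ℝ E
  refine ⟨∑ i, ‖(Th (e i)).toContinuousLinearMap‖, by positivity, fun v x => ?_⟩
  have h1 : Th v x = ∑ i, ⟪e i, v⟫_ℝ • Th (e i) x := by
    conv_lhs => rw [← e.sum_repr' v]
    rw [map_sum, LinearMap.sum_apply]
    exact Finset.sum_congr rfl fun i _ => by rw [map_smul]; rfl
  rw [h1, Finset.sum_mul, Finset.sum_mul]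
  refine (norm_sum_le _ _).trans (Finset.sum_le_sum fun i _ => ?_)
  rw [norm_smul]
  have h2 : ‖⟪e i, v⟫_ℝ‖ ≤ ‖v‖ := by
    refine (norm_inner_le_norm _ _).trans ?_
    rw [e.orthonormal.1 i, one_mul]
  have h3 : ‖Th (e i) x‖ ≤ ‖(Th (e i)).toContinuousLinearMap‖ * ‖x‖ :=
    (Th (e i)).toContinuousLinearMap.le_opNorm x
  calc _ ≤ ‖v‖ * (‖(Th (e i)).toContinuousLinearMap‖ * ‖x‖) := by gcongr
    _ = _ := by ring

/-- **(F3).** Dependence of the heavy charge on the background (pointwise). -/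
theorem Bc_sub_bound {b' : E} (hr0 : 0 < r) (hr : GapAt A c r) (hB : ActBound A B)
    (hB0 : 0 ≤ B) (hb : B * ‖b - c‖ ≤ r / 2) (hb' : B * ‖b' - c‖ ≤ r / 2)
    {Th : E →ₗ[ℝ] (F →ₗ[ℂ] F)} {K : ℝ} (hK : ∀ v x, ‖Th v x‖ ≤ K * ‖v‖ * ‖x‖)
    (hK0 : 0 ≤ K) {M : E → E →ₗ[ℝ] (F →ₗ[ℂ] F)} {K' : ℝ}
    (hM : ∀ z x, ‖M b z x - M b' z x‖ ≤ K' * ‖b - b'‖ * ‖z‖ * ‖x‖)
    {ι κ : Type*} [Fintype ι] [Fintype κ] (e : OrthonormalBasis ι ℝ Z)
    (t : OrthonormalBasis κ ℝ (Tn A c)) (f : Z → F) (z : Z) :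
    ‖Bc A c b Th (M b) e t f z - Bc A c b' Th (M b') e t f z‖ ≤
      ‖b - b'‖ * ((Fintype.card κ) * (K * (4 * B / r)) * ‖fderiv ℝ f z‖ +
        K' * (‖z‖ * ‖f z‖)) := by
  have h1 : Bc A c b Th (M b) e t f z - Bc A c b' Th (M b') e t f z =
      Complex.I • ∑ i, Th (t i) (fderiv ℝ f z (Z.orthogonalProjectionOnto
        (nn A c b (t i) - nn A c b' (t i)))) + (M b z (f z) - M b' z (f z)) := by
    unfold Bc
    simp only [map_sub, Finset.sum_sub_distrib, smul_sub]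
    abel
  rw [h1]
  have h2 : ∀ i, ‖Th (t i) (fderiv ℝ f z (Z.orthogonalProjectionOnto
        (nn A c b (t i) - nn A c b' (t i))))‖ ≤ K * (4 * B / r) * ‖b - b'‖ * ‖fderiv ℝ f z‖ := by
    intro i
    have h3 := nn_sub_bound hr0 hr hB hB0 hb hb' (t i)
    have h4 : ‖t i‖ = 1 := t.orthonormal.1 i
    have h5 : ‖((t i : Tn A c) : E)‖ = 1 := h4
    rw [h4, mul_one] at h3
    have h6 : ‖Z.orthogonalProjectionOnto (nn A c b (t i) - nn A c b' (t i))‖ ≤
        4 * B / r * ‖b - b'‖ := (proj_norm_le _ _).trans h3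
    calc _ ≤ K * ‖((t i : Tn A c) : E)‖ * ‖fderiv ℝ f z (Z.orthogonalProjectionOnto
          (nn A c b (t i) - nn A c b' (t i)))‖ := hK _ _
      _ ≤ K * 1 * (‖fderiv ℝ f z‖ * (4 * B / r * ‖b - b'‖)) := by
          rw [h5]
          gcongr
          exact (ContinuousLinearMap.le_opNorm _ _).trans (by gcongr)
      _ = _ := by ring
  have h3 : ‖Complex.I • ∑ i, Th (t i) (fderiv ℝ f z (Z.orthogonalProjectionOnto
        (nn A c b (t i) - nn A c b' (t i))))‖ ≤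
      Fintype.card κ * (K * (4 * B / r) * ‖b - b'‖ * ‖fderiv ℝ f z‖) := by
    rw [norm_smul, Complex.norm_I, one_mul]
    refine (norm_sum_le _ _).trans ((Finset.sum_le_sum fun i _ => h2 i).trans (le_of_eq ?_))
    rw [Finset.sum_const, Finset.card_univ, nsmul_eq_mul]
  refine (norm_add_le _ _).trans ((add_le_add h3 (hM z (f z))).trans (le_of_eq ?_))
  have h7 : ‖((z : Z) : E)‖ = ‖z‖ := rfl
  rw [h7]
  ring

end charge

end Crest.Agent.R330.Transp491
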