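import Crest.Agent.R330.HvDef_442
import Crest.Agent.R330.Transp_491

/-!
# Row 330, CAP binding (helper581): sign of the heavy parity on the heavy vacuum spaces

`M` an irreducible module, `J` a partial complex structure, `Γ` an involution which commutes with
the light generators and anticommutes with the heavy ones.

* `par_scalar` : `Γ = 1` or `Γ = -1` on `vacJ J`.
* `par_pos` : the sign is `+` as soon as some even vector has a nonzero projection.
* `par_near` : for a family `J t` continuous at `t₀`, `Γ = 1` on `vacJ (J t₀)` implies `Γ = 1` on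
  `vacJ (J t)` for `t` near `t₀`.
* `proj_odd` : odd vectors have no vacuum component; `PrK_odd` : the fibre projection of 491
  annihilates odd functions.
-/

set_option autoImplicit false
set_option linter.unusedSectionVars false

open MeasureTheory Filter Topology
open scoped InnerProductSpace ContDiff

noncomputable section

namespace Crest.Agent.R330.ParVac581

open Cliff442

variable {V F : Type*} [NormedAddCommGroup V] [InnerProductSpace ℝ V] [FiniteDimensional ℝ V]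
  [NormedAddCommGroup F] [InnerProductSpace ℂ F] [FiniteDimensional ℂ F]

/-- Heavy parity of the partial complex structure `J`. -/
structure Par (M : CRep V F) (J : V →ₗ[ℝ] V) (Γ : F →ₗ[ℂ] F) : Prop where
  light : ∀ x, J x = 0 → ∀ f, Γ (M.θ x f) = M.θ x (Γ f)
  heavy : ∀ x f, Γ (M.θ (J x) f) = -M.θ (J x) (Γ f)
  sq : ∀ f, Γ (Γ f) = f
  symm : ∀ f g, ⟪Γ f, g⟫_ℂ = ⟪f, Γ g⟫_ℂ

variable {M : CRep V F} {J : V →ₗ[ℝ] V} {Γ : F →ₗ[ℂ] F}

theorem Par.neg (h : Par M J Γ) : Par M J (-Γ) := by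
  refine ⟨fun x hx f => ?_, fun x f => ?_, fun f => ?_, fun f g => ?_⟩
  · rw [LinearMap.neg_apply, LinearMap.neg_apply, h.light x hx, map_neg]
  · rw [LinearMap.neg_apply, LinearMap.neg_apply, h.heavy x, map_neg]
  · rw [LinearMap.neg_apply, LinearMap.neg_apply, map_neg, h.sq, neg_neg]
  · rw [LinearMap.neg_apply, LinearMap.neg_apply, inner_neg_left, inner_neg_right, h.symm]

theorem Par.vac_mem (h : Par M J Γ) {f : F} (hf : f ∈ M.vacJ J) : Γ f ∈ M.vacJ J := by
  intro x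
  have h1 := congrArg Γ (hf x)
  rw [map_smul, h.heavy, h.heavy] at h1
  have h2 := congrArg Neg.neg h1
  rw [neg_neg, smul_neg, neg_neg] at h2
  exact h2

/-- **The parity is a sign on the vacuum space.** -/
theorem par_scalar (hI : M.Irr) (hJ : PCS J) (h : Par M J Γ) :
    (∀ f ∈ M.vacJ J, Γ f = f) ∨ (∀ f ∈ M.vacJ J, Γ f = -f) := by
  obtain ⟨c, hc⟩ := (hI.vacJ hJ).schur Γ (fun f hf => h.vac_mem hf)
    (fun x hx f _ => h.light x (CRep.mem_light.1 hx) f)
  by_cases h0 : ∃ f ∈ M.vacJ J, f ≠ 0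
  · obtain ⟨f, hf, hf0⟩ := h0
    have h1 : (c * c) • f = f := by
      have := h.sq f
      rw [hc f hf, map_smul, hc f hf, smul_smul] at this
      exact this
    have h2 : (c * c - 1) • f = 0 := by rw [sub_smul, h1, one_smul, sub_self]
    have h3 : c * c - 1 = 0 := (smul_eq_zero.1 h2).resolve_right hf0
    have h4 : (c - 1) * (c + 1) = 0 := by linear_combination h3
    rcases mul_eq_zero.1 h4 with h5 | h5
    · left
      intro g hg
      rw [hc g hg, sub_eq_zero.1 h5, one_smul]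
    · right
      intro g hg
      rw [hc g hg, eq_neg_of_add_eq_zero_left h5, neg_smul, one_smul]
  · left
    intro f hf
    by_contra hne
    have hf0 : f ≠ 0 := by
      intro e
      apply hne
      rw [e, map_zero]
    exact h0 ⟨f, hf, hf0⟩

/-- Orientation: one of `Γ`, `-Γ` is `1` on the vacuum space. -/
theorem exists_sign (hI : M.Irr) (hJ : PCS J) (h : Par M J Γ) :
    ∃ Γ' : F →ₗ[ℂ] F, (Γ' = Γ ∨ Γ' = -Γ) ∧ Par M J Γ' ∧ ∀ f ∈ M.vacJ J, Γ' f = f := by
  rcases par_scalar hI hJ h with h1 | h1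
  · exact ⟨Γ, Or.inl rfl, h, h1⟩
  · exact ⟨-Γ, Or.inr rfl, h.neg, fun f hf => by rw [LinearMap.neg_apply, h1 f hf, neg_neg]⟩

/-- The sign is `+` if some even vector has a nonzero vacuum component. -/
theorem par_pos (hI : M.Irr) (hJ : PCS J) (h : Par M J Γ) {f : F} (hf : Γ f = f)
    (hne : M.proj J f ≠ 0) : ∀ g ∈ M.vacJ J, Γ g = g := by
  rcases par_scalar hI hJ h with h1 | h1
  · exact h1
  · exfalso
    apply hne
    refine M.proj_eq_zero_of hJ fun g hg => ?_
    have h2 : ⟪g, f⟫_ℂ = -⟪g, f⟫_ℂ := by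
      calc ⟪g, f⟫_ℂ = ⟪g, Γ f⟫_ℂ := by rw [hf]
        _ = ⟪Γ g, f⟫_ℂ := (h.symm g f).symm
        _ = -⟪g, f⟫_ℂ := by rw [h1 g hg, inner_neg_left]
    have h3 : (2 : ℂ) * ⟪g, f⟫_ℂ = 0 := by linear_combination h2
    exact (mul_eq_zero.1 h3).resolve_left two_ne_zero

/-- **Odd vectors have no vacuum component.** -/
theorem proj_odd (hJ : PCS J) (hΓ : ∀ f g, ⟪Γ f, g⟫_ℂ = ⟪f, Γ g⟫_ℂ)
    (h : ∀ g ∈ M.vacJ J, Γ g = g) {f : F} (hf : Γ f = -f) : M.proj J f = 0 := by
  refine M.proj_eq_zero_of hJ fun g hg => ?_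
  have h2 : ⟪g, f⟫_ℂ = -⟪g, f⟫_ℂ := by
    calc ⟪g, f⟫_ℂ = ⟪Γ g, f⟫_ℂ := by rw [h g hg]
      _ = ⟪g, Γ f⟫_ℂ := hΓ g f
      _ = -⟪g, f⟫_ℂ := by rw [hf, inner_neg_right]
  have h3 : (2 : ℂ) * ⟪g, f⟫_ℂ = 0 := by linear_combination h2
  exact (mul_eq_zero.1 h3).resolve_left two_ne_zero

/-- **The sign is locally constant.** -/
theorem par_near [Nontrivial F] (hI : M.Irr) {T : Type*} [NormedAddCommGroup T] [NormedSpace ℝ T]
    {Jt : T → V →ₗ[ℝ] V} {t₀ : T} (hc : ∀ y, ContDiffAt ℝ 0 (fun t => Jt t y) t₀)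
    (h0 : PCS (Jt t₀)) (h1 : ∀ g ∈ M.vacJ (Jt t₀), Γ g = g) :
    ∀ᶠ t in 𝓝 t₀, PCS (Jt t) → Par M (Jt t) Γ → ∀ g ∈ M.vacJ (Jt t), Γ g = g := by
  obtain ⟨f, hf, hf0⟩ := (Submodule.ne_bot_iff _).1 (CRep.vacJ_ne_bot (M := M) h0)
  have h2 : ContinuousAt (fun t => M.proj (Jt t) f) t₀ :=
    (M.contDiffAt_proj (n := 0) hc contDiffAt_const).continuousAt
  have h3 : M.proj (Jt t₀) f ≠ 0 := by rwa [M.proj_of_mem h0 hf]
  filter_upwards [h2.eventually_ne h3] with t ht hJ hP
  exact par_pos hI hJ hP (h1 f hf) ht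

section fibre

variable {E : Type*} [NormedAddCommGroup E] [InnerProductSpace ℝ E] [FiniteDimensional ℝ E]
  [MeasurableSpace E] [BorelSpace E]

open Transp491

/-- **The fibre projection annihilates odd functions.** -/
theorem PrK_odd (hJ : PCS J) (hΓ : ∀ f g, ⟪Γ f, g⟫_ℂ = ⟪f, Γ g⟫_ℂ)
    (h : ∀ g ∈ M.vacJ J, Γ g = g) (K : Submodule ℝ E) (γ : E → ℝ) {f : K → F}
    (hi : Integrable fun y : K => γ y • f y) (hf : ∀ z, Γ (f z) = -f z) (z : K) :
    PrK K γ (M.proj J) f z = 0 := by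
  have h1 : Γ (∫ y : K, γ y • f y) = -∫ y : K, γ y • f y := by
    have h2 := ((LinearMap.toContinuousLinearMap Γ).restrictScalars ℝ).integral_comp_comm hi
    have h3 : ∀ y : K, ((LinearMap.toContinuousLinearMap Γ).restrictScalars ℝ) (γ y • f y) =
        -(γ y • f y) := by
      intro y
      rw [map_smul, ← smul_neg, ← hf y]
      rfl
    simp only [h3, integral_neg] at h2
    exact h2.symm
  unfold PrK
  rw [proj_odd hJ hΓ h h1, smul_zero]

end fibre

end Crest.Agent.R330.ParVac581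

end
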