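import Crest.Agent.R330.FibC_892
import Crest.Agent.R330.GBind_984
import Crest.Agent.R330.LemA_342
import Crest.Agent.R330.ParVac_581
import Crest.Agent.R330.FactI_161
import Crest.Agent.R330.Ctr_581

/-!
# Row 330, CAP binding (helper581): the literal heavy complex structure near a centre

`σ : Ten (Fin 16) (Colg N) (W16 N)` with `σ.pr β = row β`, `J_X = Jm G σ (kc c) (adX b X)`.

* `Jm_Jm`, `Jm_eq_zero_iff`, `pr_Jm_mem` : kernel and range of `Jm`.
* `par_of` : a heavy parity at `c` (342's `IsPar`) is a `Par` for `J_X`, `kc X = kc c`.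
* `continuousAt_Jm` : `X ↦ J_X` is smooth at `c`.
* `exists_sign`, `sign_near` : one sign of the parity for all commuting `X` near `c`.
-/

set_option autoImplicit false
set_option linter.unusedSectionVars false
set_option linter.unusedVariables false

open MeasureTheory Filter Topology Crest.MathPhysics.MatrixQM
open Crest.Agent.R330.IBP837 Crest.Agent.R330.Defs478 Crest.Agent.R330.Frame839
open Crest.Agent.R330.LS839 Crest.Agent.R330.Clus839 Crest.Agent.R330.Bind6839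
open Crest.Agent.R330.Cliff442 Crest.Agent.R330.AX984 Crest.Agent.R330.GBind984
open Crest.Agent.R330.Fib892 Crest.Agent.R330.FactI161 Crest.Agent.R330.ParVac581
open Crest.Agent.R330.SqrtPD984 Crest.Agent.R330.GPar984
open scoped ContDiff InnerProductSpace

noncomputable section

namespace Crest.Agent.R330.FibJ581

section abs

variable {V W : Type*}
  [NormedAddCommGroup V] [InnerProductSpace ℝ V] [FiniteDimensional ℝ V]
  [NormedAddCommGroup W] [InnerProductSpace ℝ W] [FiniteDimensional ℝ W]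
  (G : GammaNine) (σ : Ten (Fin 16) V W)
  {K : Submodule ℝ V} {s : ℝ} {D : Fin 9 → V →L[ℝ] V}

theorem Jm_Jm (h : Fam K s D) (hs : 0 < s) (x : W) (β : Fin 16) :
    σ.pr β (Jm G σ K D (Jm G σ K D x)) = K.starProjection (σ.pr β x) - σ.pr β x := by
  have e1 : ∀ x, Jm G σ K D x = -Sm G σ (fun i => (D i).comp (li K D)) x := fun _ => rfl
  rw [e1 x, map_neg, e1, neg_neg, pr_Sm_Sm G σ _ _ (fun i j v => by
    simp only [ContinuousLinearMap.comp_apply]
    rw [← h.D_li hs j, ← h.D_li hs i, h.comm i j])]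
  simp only [ContinuousLinearMap.comp_apply]
  have h2 : ∀ i, D i (li K D (D i (li K D (σ.pr β x)))) =
      D i (D i (li K D (li K D (σ.pr β x)))) := fun i => by rw [← h.D_li hs]
  simp only [h2]
  have h3 : ∑ i, D i (D i (li K D (li K D (σ.pr β x)))) =
      K.starProjection (li K D (li K D (σ.pr β x))) -
        lr K D (lr K D (li K D (li K D (σ.pr β x)))) := by
    rw [h.lr_lr hs]; abel
  have h4 : li K D (K.starProjection (σ.pr β x)) = K.starProjection (σ.pr β x) := by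
    conv_lhs => rw [← h.lr_fix hs (Submodule.starProjection_apply_mem K (σ.pr β x))]
    exact h.li_lr hs _
  rw [h3, h.lr_li hs, h.lr_li hs, h.proj_li hs, h.proj_li hs, h4, h4]

/-- The rows of `J x` are heavy. -/
theorem pr_Jm_mem (h : Fam K s D) (x : W) (β : Fin 16) : σ.pr β (Jm G σ K D x) ∈ Kᗮ := by
  rw [pr_Jm]
  refine Submodule.neg_mem _ (Submodule.sum_mem _ fun i _ => Submodule.sum_mem _ fun β' _ =>
    Submodule.smul_mem _ _ (h.D_mem i _))

/-- The kernel of `J`. -/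
theorem Jm_eq_zero_iff (h : Fam K s D) (hs : 0 < s) (x : W) :
    Jm G σ K D x = 0 ↔ ∀ β, σ.pr β x ∈ K := by
  constructor
  · intro hx β
    have h1 := Jm_Jm G σ h hs x β
    rw [hx, map_zero, map_zero] at h1
    rw [eq_comm, sub_eq_zero] at h1
    rw [← h1]
    exact Submodule.starProjection_apply_mem K _
  · intro hx
    refine σ.ext' fun β => ?_
    rw [pr_Jm, map_zero, neg_eq_zero]
    refine Finset.sum_eq_zero fun i _ => Finset.sum_eq_zero fun β' _ => ?_
    have h5 : li K D (σ.pr β' x) = σ.pr β' x := by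
      conv_lhs => rw [← h.lr_fix hs (hx β')]
      exact h.li_lr hs _
    rw [h5, h.ker i _ (hx β'), smul_zero]

theorem Jm_pcs (h : Fam K s D) (hs : 0 < s) : PCS (Jm G σ K D) := (linJ G σ h hs).pcs

/-- Smoothness of `J` in the family. -/
theorem contDiffAt_Jm {P : Type*} [NormedAddCommGroup P] [NormedSpace ℝ P] {m : WithTop ℕ∞}
    {D : P → Fin 9 → V →L[ℝ] V} {p : P} (hm : m ≠ 0) (hb : PD (ll K (D p)))
    (hsk : ∀ᶠ x in 𝓝 p, ∀ i u v, ⟪D x i u, v⟫_ℝ = -⟪u, D x i v⟫_ℝ)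
    (hD : ∀ i, ContDiffAt ℝ m (fun x => D x i) p) (y : W) :
    ContDiffAt ℝ m (fun x => Jm G σ K (D x) y) p := by
  have h1 := contDiffAt_li (K := K) hm hb hsk hD
  have e : ∀ x, Jm G σ K (D x) y =
      -∑ β, σ.ij β (∑ i, ∑ β', G.γ i β β' • D x i (li K (D x) (σ.pr β' y))) := fun x => rfl
  simp only [e]
  refine ContDiffAt.neg (ContDiffAt.sum fun β _ => ?_)
  refine ((σ.ij β).contDiff.contDiffAt (x := ∑ i, ∑ β', G.γ i β β' •
    D p i (li K (D p) (σ.pr β' y)))).comp p (f := fun x => ∑ i, ∑ β', G.γ i β β' •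
    D x i (li K (D x) (σ.pr β' y))) ?_
  refine ContDiffAt.sum fun i _ => ContDiffAt.sum fun β' _ => ContDiffAt.const_smul _ ?_
  exact (hD i).clm_apply (h1.clm_apply contDiffAt_const)

end abs

section lit

variable {N : ℕ} {b : ColorBasis N} {c : Cfg N} {G : GammaNine}
  {F : Type*} [NormedAddCommGroup F] [InnerProductSpace ℂ F] [FiniteDimensional ℂ F]
  {M : FermionRep N F} {σ : Ten (Fin 16) (Colg N) (W16 N)}

theorem cr_irr' : (cr M).Irr := cr_irr M

theorem thv_mem' {K : Submodule ℝ (Colg N)} (β : Fin 16) {u : Colg N} (hu : u ∈ K) :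
    thv M β u ∈ Od M K := thv_mem M β hu

theorem cr_mem (hσ : ∀ β x, σ.pr β x = row β x) {K : Submodule ℝ (Colg N)} {x : W16 N}
    (hx : ∀ β, σ.pr β x ∈ K) : ((cr M).θ x : F →ₗ[ℂ] F) ∈ Od M K := by
  have e : ((cr M).θ x : F →ₗ[ℂ] F) = ∑ β, thv M β (row β x) := by
    ext f
    rw [cr_eq_sum, LinearMap.sum_apply]
  rw [e]
  refine Submodule.sum_mem _ fun β _ => thv_mem M β ?_
  rw [← hσ]
  exact hx β

/-- A heavy parity at `c` is a parity for the heavy complex structure. -/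
theorem par_of (hσ : ∀ β x, σ.pr β x = row β x) {s : ℝ} (hs : 0 < s)
    {D : Fin 9 → Colg N →L[ℝ] Colg N} (h : Fam (kc (actB b) c) s D) {Γ : F →ₗ[ℂ] F}
    (hΓ : LemA342.IsPar b c M Γ) : Par (cr M) (Jm G σ (kc (actB b) c) D) Γ where
  light := fun x hx f => hΓ.comm _ (cr_mem hσ ((Jm_eq_zero_iff G σ h hs x).1 hx)) f
  heavy := fun x f => hΓ.anti _ (cr_mem hσ fun β => pr_Jm_mem G σ h x β) f
  sq := hΓ.inv
  symm := hΓ.symm

/-- Orientation of the parity at `c`. -/
theorem exists_sign [Nontrivial F] (hσ : ∀ β x, σ.pr β x = row β x) (hc : Comc b c) :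
    ∃ Γ : F →ₗ[ℂ] F, LemA342.IsPar b c M Γ ∧
      ∀ f ∈ (cr M).vacJ (Jm G σ (kc (actB b) c) (adX b c)), Γ f = f := by
  obtain ⟨s, hs, h⟩ := exists_fam b hc
  obtain ⟨Γ, hΓ⟩ := LemA342.exists_isPar b c M
  rcases par_scalar (cr_irr' (M := M)) (Jm_pcs G σ h hs) (par_of (G := G) hσ hs h hΓ) with h1 | h1
  · exact ⟨Γ, hΓ, h1⟩
  · refine ⟨-Γ, ⟨fun L hL f => ?_, fun L hL f => ?_, fun f => ?_, fun f f' => ?_⟩, fun f hf => ?_⟩
    · rw [LinearMap.neg_apply, LinearMap.neg_apply, hΓ.comm L hL, map_neg]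
    · rw [LinearMap.neg_apply, LinearMap.neg_apply, hΓ.anti L hL, map_neg]
    · rw [LinearMap.neg_apply, LinearMap.neg_apply, map_neg, hΓ.inv, neg_neg]
    · rw [LinearMap.neg_apply, LinearMap.neg_apply, inner_neg_left, inner_neg_right, hΓ.symm]
    · rw [LinearMap.neg_apply, h1 f hf, neg_neg]

/-- **One sign for the whole chart.** -/
theorem sign_near [Nontrivial F] (hσ : ∀ β x, σ.pr β x = row β x) (hc : Comc b c)
    {Γ : F →ₗ[ℂ] F} (hΓ : LemA342.IsPar b c M Γ)
    (h1 : ∀ f ∈ (cr M).vacJ (Jm G σ (kc (actB b) c) (adX b c)), Γ f = f) :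
    ∃ η : ℝ, 0 < η ∧ ∀ X : Cfg N, Comc b X → kc (actB b) X = kc (actB b) c → ‖X - c‖ ≤ η →
      ∀ f ∈ (cr M).vacJ (Jm G σ (kc (actB b) X) (adX b X)), Γ f = f := by
  obtain ⟨s, hs, h⟩ := exists_fam b hc
  have h2 : ∀ y, ContDiffAt ℝ 0 (fun X => Jm G σ (kc (actB b) c) (adX b X) y) c := fun y =>
    (contDiffAt_Jm G σ (m := 1) (by simp) (h.ll_pd hs)
      (Eventually.of_forall fun X => adX_skew b X)
      (fun i => (contDiff_adX b i).contDiffAt) y).of_le (by simp)
  have h3 := par_near (M := cr M) (Γ := Γ) (cr_irr' (M := M)) h2 (Jm_pcs G σ h hs) h1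
  obtain ⟨η, hη, h4⟩ := Metric.eventually_nhds_iff_ball.1 h3
  refine ⟨η / 2, half_pos hη, fun X hX hk hn f hf => ?_⟩
  obtain ⟨s', hs', h'⟩ := fam_of_eq hX hk
  rw [hk] at hf
  refine h4 X ?_ (Jm_pcs G σ h' hs') (par_of hσ hs' h' hΓ) f hf
  rw [Metric.mem_ball, dist_eq_norm]
  linarith

end lit

end Crest.Agent.R330.FibJ581

end
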