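import Crest.Agent.R330.LemRd_149
import Crest.Agent.R330.CapSl_924
import Crest.Agent.R330.FibJ_581

/-!
# Row 330, leaf S7-R (helper149): the two output forms of (F2) on the slice

* `PrK_eq_gs` : `PrK` with the normalised weight `gs`.
* `F2u` : 581's (F2) at the commuting part of `c + u`, for all `u`.
* **`h2`** : 383's fibrewise form, with `en`, `en_nonneg`, `integrable_en`, `integral_en`.
* **`I1`** : the form of `CapSl924.slice_est`.
* the literal weight `gsl` and projection `Lp` : continuity, normalisation, `F2u_nrm`.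
-/

set_option autoImplicit false
set_option linter.unusedSectionVars false

open MeasureTheory Filter Topology Crest.MathPhysics.MatrixQM Set
open Crest.Agent.R330.IBP837 Crest.Agent.R330.Defs478 Crest.Agent.R330.Frame839
open Crest.Agent.R330.LS839 Crest.Agent.R330.Clus839 Crest.Agent.R330.Bind6839
open Crest.Agent.R330.LemRb149 Crest.Agent.R330.LemA342 Crest.Agent.R330.LemRc149
open Crest.Agent.R330.LemRd149
open Crest.Agent.R330.Transp491 (PrK)
open Crest.Agent.R330.FibProj837 (fpj fpr)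
open scoped ContDiff InnerProductSpace ENNReal

noncomputable section

namespace Crest.Agent.R330.LemRe149

section abstr

variable {E F : Type*} [NormedAddCommGroup E] [InnerProductSpace ℝ E] [FiniteDimensional ℝ E]
  [MeasurableSpace E] [BorelSpace E]
  [NormedAddCommGroup F] [InnerProductSpace ℂ F] [FiniteDimensional ℂ F]

/-- `PrK` with the normalised weight. -/
theorem PrK_eq_gs {K : Submodule ℝ E} {γ : E → ℝ} {gs : K → ℝ} {C : ℝ}
    (hC : ∀ z : K, gs z = C * γ z) (h1 : ∫ z : K, gs z ^ 2 = 1) (p : F →ₗ[ℂ] F) (f : K → F)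
    (z : K) : PrK K γ p f z = gs z • p (∫ y : K, gs y • f y) := by
  simp only [hC, mul_pow] at h1 ⊢
  rw [integral_const_mul] at h1
  unfold PrK
  have h2 : ∫ w : K, (C * γ w) • f w = C • ∫ w : K, γ w • f w := by
    rw [← integral_smul]
    refine integral_congr_ae (Eventually.of_forall fun w => ?_)
    change (C * γ w) • f w = C • γ w • f w
    rw [smul_smul]
  rw [h2]
  have h4 : C ^ 2 = (∫ y : K, γ y ^ 2)⁻¹ := eq_inv_of_mul_eq_one_left h1
  rw [← Complex.coe_smul C (∫ w : K, γ w • f w), map_smul, Complex.coe_smul, smul_smul]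
  congr 1
  rw [div_eq_mul_inv, ← h4]
  ring

end abstr

section lit

variable {N : ℕ} {F : Type*} [NormedAddCommGroup F] [InnerProductSpace ℂ F]
  [FiniteDimensional ℂ F] (b : ColorBasis N) (c : Cfg N) (M : FermionRep N F) (G : GammaNine)
  {κ η : Type*} [Fintype κ] [Fintype η]

/-- **(F2)** for all `u` in the ball of radius `ρ`: weight `γ u`, projection `L u`, distance to the
commuting part `d u`. -/
def F2u (v : OrthonormalBasis κ ℝ (Zs b c)) (t : OrthonormalBasis η ℝ (Tn (actB b) c))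
    (g ρ K : ℝ) (γ : Uk b c → Cfg N → ℝ) (L : Uk b c → F →ₗ[ℂ] F) (d : Uk b c → ℝ) : Prop :=
  ∀ u : Uk b c, ‖u‖ ≤ ρ → ∀ f : Zs b c → F, ContDiff ℝ 2 f → HasCompactSupport f →
    g * ∫ z, ‖f z - PrK (Zs b c) (γ u) (L u) f z‖ ^ 2 ≤
      K * ((∑ α, ∫ z, ‖Bfib b c M G g α v t (c + u) f z‖ ^ 2) + d u ^ 2 * (g * ∫ z, ‖f z‖ ^ 2))

variable {b c}

/-- the weight `gs` is the normalised `γ` on the ball -/
def Nrm (ρ : ℝ) (γ : Uk b c → Cfg N → ℝ) (gs : Sc b c → ℝ) : Prop :=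
  ∀ u : Uk b c, ‖u‖ ≤ ρ → (∃ C : ℝ, ∀ z : Zs b c, gs (u, z) = C * γ u z) ∧
    ∫ z : Zs b c, gs (u, z) ^ 2 = 1

theorem Nrm.memLp {ρ : ℝ} {γ : Uk b c → Cfg N → ℝ} {gs : Sc b c → ℝ} (h : Nrm ρ γ gs)
    (hgs : Continuous gs) {u : Uk b c} (hu : ‖u‖ ≤ ρ) :
    MemLp (fun z : Zs b c => gs (u, z)) 2 volume := by
  have hm : AEStronglyMeasurable (fun z : Zs b c => gs (u, z)) volume :=
    (hgs.comp (by fun_prop : Continuous fun z : Zs b c => (u, z))).aestronglyMeasurable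
  refine (memLp_two_iff_integrable_sq hm).2 ?_
  by_contra hcon
  have h1 := (h u hu).2
  rw [integral_undef hcon] at h1
  exact zero_ne_one h1

variable (b c) in
/-- the fibre energy -/
def en (v : OrthonormalBasis κ ℝ (Zs b c)) (t : OrthonormalBasis η ℝ (Tn (actB b) c)) (g K : ℝ)
    (Φ : Sc b c → F) (u : Uk b c) : ℝ :=
  K * ∑ α, ∫ z, ‖Bop b c M G g α v t Φ (u, z)‖ ^ 2

variable {M G}
variable {v : OrthonormalBasis κ ℝ (Zs b c)} {t : OrthonormalBasis η ℝ (Tn (actB b) c)}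
  {g ρ K : ℝ} {γ : Uk b c → Cfg N → ℝ} {L : Uk b c → F →ₗ[ℂ] F} {d : Uk b c → ℝ}
  {gs : Sc b c → ℝ} {Φ : Sc b c → F}

theorem en_nonneg (hK : 0 ≤ K) (u : Uk b c) : 0 ≤ en b c M G v t g K Φ u :=
  mul_nonneg hK (Finset.sum_nonneg fun _ _ => integral_nonneg fun _ => by positivity)

/-- the fibrewise estimate -/
theorem h2_pt (H : F2u b c M G v t g ρ K γ L d) (hN : Nrm ρ γ gs) (hΦ : ContDiff ℝ 2 Φ)
    (hc : HasCompactSupport Φ) {u : Uk b c} (hu : ‖u‖ ≤ ρ) :
    g * ∫ z, ‖Φ (u, z) - gs (u, z) • L u (∫ z', gs (u, z') • Φ (u, z'))‖ ^ 2 ≤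
      K * ((∑ α, ∫ z, ‖Bop b c M G g α v t Φ (u, z)‖ ^ 2) + d u ^ 2 * (g * ∫ z, ‖Φ (u, z)‖ ^ 2)) := by
  obtain ⟨⟨C, hC⟩, h1⟩ := hN u hu
  have h := H u hu (fun z => Φ (u, z)) (fib_contDiff hΦ u) (fib_hcs hc u)
  simp only [PrK_eq_gs (gs := fun z : Zs b c => gs (u, z)) hC h1] at h
  have hd : Differentiable ℝ Φ := hΦ.differentiable (by norm_num)
  have e : ∀ α (z : Zs b c), Bop b c M G g α v t Φ (u, z) =
      Bfib b c M G g α v t (c + u) (fun z => Φ (u, z)) z :=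
    fun α z => Bop_eq_Bfib v t (hd (u, z))
  simp only [e]
  exact h

/-- **(h2)**: 383's form. -/
theorem h2 (hK : 0 ≤ K) (H : F2u b c M G v t g ρ K γ L d) (hN : Nrm ρ γ gs)
    (hΦ : ContDiff ℝ 2 Φ) (hc : HasCompactSupport Φ) (h0 : ∀ x : Sc b c, ρ < ‖x.1‖ → Φ x = 0)
    (u : Uk b c) :
    g * ∫ z, ‖Φ (u, z) - gs (u, z) • L u (∫ z', gs (u, z') • Φ (u, z'))‖ ^ 2 ≤
      en b c M G v t g K Φ u + g * (Real.sqrt K * d u) ^ 2 * ∫ z, ‖Φ (u, z)‖ ^ 2 := by
  rcases le_or_gt ‖u‖ ρ with hu | hu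
  · refine (h2_pt H hN hΦ hc hu).trans (le_of_eq ?_)
    unfold en
    rw [mul_pow, Real.sq_sqrt hK]
    ring
  · have h1 : ∀ z, Φ (u, z) = 0 := fun z => h0 (u, z) hu
    have h2 := en_nonneg (M := M) (G := G) (v := v) (t := t) (g := g) (Φ := Φ) hK u
    simpa [h1] using h2

variable {μU : Measure (Uk b c)} [μU.IsAddHaarMeasure]

theorem integrable_en {r B : ℝ} (hr0 : 0 < r) (hr : GapAt (actB b) c r)
    (hB : ActBound (actB b) B) (hρ : B * ρ ≤ r / 2) (hB0 : 0 ≤ B) (hΦ : ContDiff ℝ 1 Φ)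
    (hc : HasCompactSupport Φ) (h0 : ∀ x : Sc b c, ρ < ‖x.1‖ → Φ x = 0) :
    Integrable (en b c M G v t g K Φ) μU := by
  unfold en
  refine (integrable_finsetSum _ fun α _ => ?_).const_mul K
  exact (integrable_Bop (μU := μU) (μZ := volume) M G g α v t hr0 hr hB hρ hB0 hΦ hc
    h0).integral_prod_left

theorem integral_en {r B : ℝ} (hr0 : 0 < r) (hr : GapAt (actB b) c r)
    (hB : ActBound (actB b) B) (hρ : B * ρ ≤ r / 2) (hB0 : 0 ≤ B) (hΦ : ContDiff ℝ 1 Φ)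
    (hc : HasCompactSupport Φ) (h0 : ∀ x : Sc b c, ρ < ‖x.1‖ → Φ x = 0) :
    ∫ u, en b c M G v t g K Φ u ∂μU =
      K * ∑ α, ∫ x, ‖Bop b c M G g α v t Φ x‖ ^ 2 ∂(μU.prod volume) := by
  unfold en
  have hI := fun α => integrable_Bop (μU := μU) (μZ := volume) M G g α v t hr0 hr hB hρ hB0 hΦ
    hc h0
  rw [integral_const_mul, integral_finsetSum _ fun α _ => (hI α).integral_prod_left]
  simp only [integral_prod _ (hI _)]

/-- **(I1)**: the form of `CapSl924.slice_est`. -/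
theorem I1 {r B : ℝ} (hr0 : 0 < r) (hr : GapAt (actB b) c r)
    (hB : ActBound (actB b) B) (hρ : B * ρ ≤ r / 2) (hB0 : 0 ≤ B) (hg : 0 ≤ g) (hK : 0 ≤ K)
    (hd : ∀ u, 0 ≤ d u) (H : F2u b c M G v t g ρ K γ L d) (hN : Nrm ρ γ gs)
    (hΦ : ContDiff ℝ 2 Φ) (hc : HasCompactSupport Φ) (h0 : ∀ x : Sc b c, ρ < ‖x.1‖ → Φ x = 0)
    {S : Set (Uk b c)} (hS : MeasurableSet S) {δ : ℝ} (hSd : ∀ u ∈ S, ‖u‖ ≤ ρ → d u ≤ δ) :
    g * ∫ u in S, ∫ z, ‖Φ (u, z) - fpj volume gs L Φ (u, z)‖ ^ 2 ∂volume ∂μU ≤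
      K * (∑ α, ∫ x, ‖Bop b c M G g α v t Φ x‖ ^ 2 ∂(μU.prod volume) +
        δ ^ 2 * (g * ∫ x, ‖Φ x‖ ^ 2 ∂(μU.prod volume))) := by
  have hΦ1 : ContDiff ℝ 1 Φ := hΦ.of_le (by norm_num)
  have i0 : Integrable (fun x => ‖Φ x‖ ^ 2) (μU.prod volume) := sq_int hΦ.continuous hc
  have i1 : Integrable (en b c M G v t g K Φ) μU :=
    integrable_en hr0 hr hB hρ hB0 hΦ1 hc h0
  have i2 : Integrable (fun u => K * (δ ^ 2 * (g * ∫ z, ‖Φ (u, z)‖ ^ 2))) μU :=
    ((i0.integral_prod_left.const_mul g).const_mul _).const_mul K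
  have hR : K * (∑ α, ∫ x, ‖Bop b c M G g α v t Φ x‖ ^ 2 ∂(μU.prod volume) +
        δ ^ 2 * (g * ∫ x, ‖Φ x‖ ^ 2 ∂(μU.prod volume))) =
      ∫ u, (en b c M G v t g K Φ u + K * (δ ^ 2 * (g * ∫ z, ‖Φ (u, z)‖ ^ 2))) ∂μU := by
    rw [integral_add i1 i2, integral_en hr0 hr hB hρ hB0 hΦ1 hc h0, integral_const_mul,
      integral_const_mul, integral_const_mul, integral_prod _ i0, mul_add]
  rw [hR, ← integral_const_mul]
  have hnn : ∀ u, 0 ≤ en b c M G v t g K Φ u + K * (δ ^ 2 * (g * ∫ z, ‖Φ (u, z)‖ ^ 2)) := by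
    intro u
    have h1 := en_nonneg (M := M) (G := G) (v := v) (t := t) (g := g) (Φ := Φ) hK u
    have h2 : 0 ≤ ∫ z, ‖Φ (u, z)‖ ^ 2 := integral_nonneg fun _ => by positivity
    have h3 : 0 ≤ K * (δ ^ 2 * (g * ∫ z, ‖Φ (u, z)‖ ^ 2)) := by positivity
    linarith
  refine le_trans ?_ (setIntegral_le_integral (s := S) (i1.add i2)
    (Eventually.of_forall hnn))
  refine integral_mono_of_nonneg (Eventually.of_forall fun u => ?_) (i1.add i2).integrableOn ?_
  · exact mul_nonneg hg (integral_nonneg fun _ => by positivity)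
  · refine (ae_restrict_mem hS).mono fun u huS => ?_
    show g * ∫ z, ‖Φ (u, z) - fpj volume gs L Φ (u, z)‖ ^ 2 ≤
      en b c M G v t g K Φ u + K * (δ ^ 2 * (g * ∫ z, ‖Φ (u, z)‖ ^ 2))
    rcases le_or_gt ‖u‖ ρ with hu | hu
    · have h1 := h2_pt H hN hΦ hc hu
      have h3 : 0 ≤ g * ∫ z, ‖Φ (u, z)‖ ^ 2 :=
        mul_nonneg hg (integral_nonneg fun _ => by positivity)
      have h4 : d u ^ 2 ≤ δ ^ 2 := pow_le_pow_left₀ (hd u) (hSd u huS hu) 2
      refine h1.trans ?_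
      unfold en
      rw [mul_add]
      gcongr
    · have h1 : ∀ z, Φ (u, z) = 0 := fun z => h0 (u, z) hu
      have e : ∀ z, fpj volume gs L Φ (u, z) = 0 := fun z => by
        unfold fpj fpr
        simp [h1]
      have := hnn u
      simp only [h1, e, sub_zero, norm_zero] at this ⊢
      simpa using this

end lit

/-! ## The literal weight and projection -/

section weight

open Crest.Agent.R330.GBind984 Crest.Agent.R330.GPar984 Crest.Agent.R330.E1984
open Crest.Agent.R330.SqrtPD984 Crest.Agent.R330.AX984 Crest.Agent.R330.FactI161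
open Crest.Agent.R330.Fib892 Crest.Agent.R330.Cliff442

variable {N : ℕ} {F : Type*} [NormedAddCommGroup F] [InnerProductSpace ℂ F]
  [FiniteDimensional ℂ F] (b : ColorBasis N) (c : Cfg N)

/-- commuting part of `c + u` -/
def Xu (u : Uk b c) : Cfg N := Ctr581.X b c (c + (u : Cfg N))

/-- distance to the commuting part -/
def du (u : Uk b c) : ℝ := ‖c + (u : Cfg N) - Xu b c u‖

/-- the Gaussian weight (not normalised) -/
def gam (g : ℝ) (u : Uk b c) (z : Cfg N) : ℝ :=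
  Real.exp (-(g / 2) * QX b (kc (actB b) c) (Xu b c u) z)

/-- the normalised weight, cut off in `u` -/
def gsl (χ : Uk b c → ℝ) (g : ℝ) (x : Sc b c) : ℝ := χ x.1 * ga b c g (Xu b c x.1) x.2

/-- the projection on the heavy vacua at the commuting part -/
def Lp (M : FermionRep N F) (G : GammaNine) (σ : Ten (Fin 16) (Colg N) (W16 N)) (u : Uk b c) :
    F →ₗ[ℂ] F :=
  (cr M).proj (Jm G σ (kc (actB b) c) (adX b (Xu b c u)))

variable {b c}

theorem norm_Xu_sub_le (u : Uk b c) : ‖Xu b c u - c‖ ≤ ‖u‖ := by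
  refine (Ctr581.norm_X_sub_le _).trans (le_of_eq ?_)
  rw [add_sub_cancel_left]
  rfl

theorem contDiff_Xu {n : WithTop ℕ∞} : ContDiff ℝ n (Xu b c) := by
  unfold Xu Ctr581.X
  exact contDiff_const.add ((Strata737.PF b c).contDiff.comp
    ((contDiff_const.add ((Uk b c).subtypeL).contDiff).sub contDiff_const))

theorem du_nonneg (u : Uk b c) : 0 ≤ du b c u := norm_nonneg _

theorem du_le (u : Uk b c) : du b c u ≤ ‖u‖ := by
  refine (Ctr581.norm_sub_X_le _).trans (le_of_eq ?_)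
  rw [add_sub_cancel_left]
  rfl

theorem continuous_du : Continuous (du b c) := by
  unfold du
  exact ((continuous_const.add continuous_subtype_val).sub
    (contDiff_Xu (n := 0)).continuous).norm

/-- **The literal data near `c`.** -/
structure Wt (b : ColorBasis N) (c : Cfg N) (M : FermionRep N F) (G : GammaNine)
    (σ : Ten (Fin 16) (Colg N) (W16 N)) (s : ℝ) : Prop where
  /-- smoothness of the normalised weight -/
  smooth : ∀ χ : Uk b c → ℝ, ContDiff ℝ ∞ χ → tsupport χ ⊆ Metric.ball 0 s → ∀ g : ℝ,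
    ContDiff ℝ ∞ (gsl b c χ g)
  /-- normalisation -/
  nrm : ∀ χ : Uk b c → ℝ, ∀ ρ : ℝ, ρ < s → (∀ u, ‖u‖ ≤ ρ → χ u = 1) → ∀ g : ℝ, 0 < g →
    Nrm ρ (gam b c g) (gsl b c χ g)
  sym : ∀ u : Uk b c, ‖u‖ < s → (Lp b c M G σ u).IsSymmetric
  idem : ∀ u : Uk b c, ‖u‖ < s → ∀ f, Lp b c M G σ u (Lp b c M G σ u f) = Lp b c M G σ u f
  le : ∀ u : Uk b c, ‖u‖ < s → ∀ f, ‖Lp b c M G σ u f‖ ≤ ‖f‖
  diff : ∀ (n : ℕ∞) (u : Uk b c), ‖u‖ < s → ∀ f : Uk b c → F, ContDiffAt ℝ n f u →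
    ContDiffAt ℝ n (fun u => Lp b c M G σ u (f u)) u

theorem exists_wt (M : FermionRep N F) (G : GammaNine) (σ : Ten (Fin 16) (Colg N) (W16 N))
    (hc : Comc b c) {r B : ℝ} (hr0 : 0 < r) (hr : GapAt (actB b) c r)
    (hB : ActBound (actB b) B) : ∃ s : ℝ, 0 < s ∧ Wt b c M G σ s := by
  obtain ⟨δ, a, K, M', l, hδ, hPR, hll⟩ := exists_chart b hc
  set s : ℝ := min δ (r / (2 * (|B| + 1))) with hs
  have hB1 : 0 < |B| + 1 := by positivity
  have hs0 : 0 < s := lt_min hδ (by positivity)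
  have hball : ∀ u : Uk b c, ‖u‖ < s → Xu b c u ∈ Metric.ball c δ := by
    intro u hu
    rw [Metric.mem_ball, dist_eq_norm]
    exact (norm_Xu_sub_le u).trans_lt (hu.trans_le (min_le_left _ _))
  have hkc : ∀ u : Uk b c, ‖u‖ < s → kc (actB b) (Xu b c u) = kc (actB b) c := by
    intro u hu
    refine Ctr581.kc_eq_of hc hr0 hr hB (Ctr581.X_mem hc _) ?_
    have h1 : ‖Xu b c u - c‖ ≤ r / (2 * (|B| + 1)) :=
      (norm_Xu_sub_le u).trans (hu.le.trans (min_le_right _ _))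
    calc B * ‖Xu b c u - c‖ ≤ (|B| + 1) * (r / (2 * (|B| + 1))) := by
          have := le_abs_self B
          have h2 := norm_nonneg (Xu b c u - c)
          calc B * ‖Xu b c u - c‖ ≤ (|B| + 1) * ‖Xu b c u - c‖ := by
                gcongr; linarith
            _ ≤ _ := by gcongr
      _ = r / 2 := by field_simp
  have hpcs : ∀ u : Uk b c, ‖u‖ < s →
      PCS (Jm G σ (kc (actB b) c) (adX b (Xu b c u))) := by
    intro u hu
    obtain ⟨s', hs', h'⟩ := fam_of_eq (Ctr581.comc_X hc (c + (u : Cfg N))) (hkc u hu)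
    exact FibJ581.Jm_pcs G σ h' hs'
  refine ⟨s, hs0, ⟨fun χ hχ hχs g => ?_, fun χ ρ hρ hχ g hg u hu => ?_, fun u hu f f' => ?_,
    fun u hu f => ?_, fun u hu f => ?_, fun n u hu f hf => ?_⟩⟩
  · rw [contDiff_iff_contDiffAt]
    rintro ⟨u, z⟩
    by_cases hu : u ∈ tsupport χ
    · have hu' : ‖u‖ < s := by simpa using hχs hu
      have h1 : ContDiffAt ℝ ∞ (fun u : Uk b c => AZ b c (Xu b c u)) u :=
        ContDiffAt.comp (g := AZ b c) u (contDiffAt_AZ b (hll _ (hball u hu')))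
          contDiff_Xu.contDiffAt
      have h2 : ∀ᶠ u' in 𝓝 u, Sy (AZ b c (Xu b c u')) :=
        (contDiff_Xu (n := 0)).continuous.continuousAt.eventually
          (eventually_AZ_sy b (hll _ (hball u hu')))
      have h3 : PD (AZ b c (Xu b c u)) := (hPR.ub _ (hball u hu')).1
      have h4 := contDiffAt_G (z := z) (by simp : (∞ : WithTop ℕ∞) ≠ 0) g h1 h2 h3
      exact (hχ.contDiffAt.comp (u, z) contDiffAt_fst).mul h4
    · have h0 : χ =ᶠ[𝓝 u] 0 := notMem_tsupport_iff_eventuallyEq.mp hu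
      refine (contDiffAt_const (c := (0 : ℝ))).congr_of_eventuallyEq ?_
      have h1 : ∀ᶠ x : Sc b c in 𝓝 (u, z), χ x.1 = 0 :=
        (continuous_fst.continuousAt (x := (u, z))).eventually h0
      filter_upwards [h1] with x hx
      simp [gsl, hx]
  · have hu' : ‖u‖ < s := hu.trans_lt hρ
    have h3 : PD (AZ b c (Xu b c u)) := (hPR.ub _ (hball u hu')).1
    refine ⟨⟨ga b c g (Xu b c u) 0, fun z => ?_⟩, ?_⟩
    · unfold gsl gam
      rw [hχ u hu, one_mul]
      exact ga_eq g _ z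
    · have h4 : ∀ z : Zs b c, gsl b c χ g (u, z) = GPar984.G g (AZ b c (Xu b c u)) z := fun z => by
        unfold gsl
        rw [hχ u hu, one_mul]
        rfl
      simp only [h4]
      exact integral_G_sq hg h3
  · exact (cr M).proj_symm (hpcs u hu) f f'
  · exact (cr M).proj_idem (hpcs u hu) f
  · exact (cr M).norm_proj_le (hpcs u hu) f
  · refine (cr M).contDiffAt_proj (fun y => ?_) hf
    have h1 : ContDiffAt ℝ ∞ (fun X : Cfg N => Jm G σ (kc (actB b) c) (adX b X) y)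
        (Xu b c u) :=
      FibJ581.contDiffAt_Jm G σ (m := ∞) (by simp) (hll _ (hball u hu))
        (Eventually.of_forall fun X => adX_skew b X)
        (fun i => (contDiff_adX b i).contDiffAt) y
    exact ContDiffAt.comp (g := fun X : Cfg N => Jm G σ (kc (actB b) c) (adX b X) y) u
      (h1.of_le (by exact_mod_cast le_top)) contDiff_Xu.contDiffAt

/-- the fibre projection is smooth -/
theorem contDiff_fpr {M : FermionRep N F} {G : GammaNine} {σ : Ten (Fin 16) (Colg N) (W16 N)}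
    {s ρ : ℝ} (h : Wt b c M G σ s) (hρ : ρ < s) {gs : Sc b c → ℝ} {n : ℕ∞}
    (hgs : ContDiff ℝ n gs) {Φ : Sc b c → F} (hΦ : ContDiff ℝ n Φ) (hc : HasCompactSupport Φ)
    (h0 : ∀ x : Sc b c, ρ < ‖x.1‖ → Φ x = 0) :
    ContDiff ℝ n (fpr volume gs (Lp b c M G σ) Φ) := by
  obtain ⟨K, k, hK, hk, h1, h2⟩ := Fib837.exists_fibre_supports
    (FibProj837.hcs_smul (gs := gs) hc)
  have h3 : ContDiff ℝ n (Fib837.fib volume (fun q => gs q • Φ q)) :=
    Fib837.contDiff_fib (hgs.smul hΦ) hk h2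
  rw [contDiff_iff_contDiffAt]
  intro u
  rcases lt_or_ge ‖u‖ s with hu | hu
  · exact h.diff n u hu _ h3.contDiffAt
  · refine (contDiffAt_const (c := (0 : F))).congr_of_eventuallyEq ?_
    have h4 : ∀ᶠ u' : Uk b c in 𝓝 u, ρ < ‖u'‖ :=
      continuous_norm.continuousAt.eventually (lt_mem_nhds (hρ.trans_le hu))
    filter_upwards [h4] with u' hu'
    exact FibProj837.fpr_eq_zero fun z => h0 (u', z) hu'

end weight

end Crest.Agent.R330.LemRe149

end
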