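import Crest.Agent.R330.TDef_414
import Crest.Agent.R330.Split_149

/-!
# Row 330, S8-G2 (helper974): coordinates of the slice of a chart

Over 414's `Chn`: `u = cf (cfT u) + PY u + PM u`, `PY u ∈ Blk`, `PM u ∈ Tup kkᗮ`, orthogonality,
norms, coordinates of `cf X + Y + z`; for `C.Reg X0` the slice `Nor b (cf X0)` is
`cf (Pos p) ⊕ Blk ⊕ Zt X0` and `lintegral_nor` (Fubini).
-/

set_option autoImplicit false
set_option linter.unusedSectionVars false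

open MeasureTheory Filter Topology Crest.MathPhysics.MatrixQM
open scoped ContDiff InnerProductSpace ENNReal

noncomputable section

namespace Crest.Agent.R330.LitA974

open Crest.Agent.R330.Defs478 Crest.Agent.R330.LS839 Crest.Agent.R330.Frame839
  Crest.Agent.R330.Bind6839 Crest.Agent.R330.TDef414 Crest.Agent.R330.Split149
open Crest.Agent.R330.SlB314 (Nor Tan)
open Crest.Agent.R330.SlD314 (tube)

variable {N p : ℕ} {b : ColorBasis N} {S : Type} [Group S] [Fintype S] (C : Chn b p S)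

/-! ### 1. The projections -/

theorem cf_mem_Tup (X : Pos p) : C.cf X ∈ Tup C.kk := fun i => by
  rw [C.comp_cf]
  exact C.cen_mem _

theorem PK_mem (u : Cfg N) : C.PK u ∈ Tup C.kk := Submodule.starProjection_apply_mem _ _

theorem PK_of_mem {u : Cfg N} (h : u ∈ Tup C.kk) : C.PK u = u :=
  Submodule.starProjection_eq_self_iff.2 h

theorem PM_mem (u : Cfg N) : C.PM u ∈ Tup C.kkᗮ := by
  rw [← Tup_orth]
  exact Submodule.sub_starProjection_mem_orthogonal u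

theorem PK_of_orth {u : Cfg N} (h : u ∈ Tup C.kkᗮ) : C.PK u = 0 := by
  rw [← Tup_orth] at h
  exact (Submodule.starProjection_apply_eq_zero_iff (K := Tup C.kk)).2 h

theorem inner_Tup {u v : Cfg N} (hu : u ∈ Tup C.kk) (hv : v ∈ Tup C.kkᗮ) : ⟪u, v⟫_ℝ = 0 := by
  rw [← Tup_orth] at hv
  exact (Submodule.mem_orthogonal _ _).1 hv u hu

theorem cfT_eq_zero {u : Cfg N} (h : ∀ X, ⟪u, C.cf X⟫_ℝ = 0) : C.cfT u = 0 := by
  refine ext_inner_right ℝ fun Y => ?_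
  unfold Chn.cfT
  rw [ContinuousLinearMap.adjoint_inner_left, inner_zero_left]
  exact h Y

theorem inner_cf_cfT (u : Cfg N) (X : Pos p) : ⟪u - C.cf (C.cfT u), C.cf X⟫_ℝ = 0 := by
  have h1 : ⟪u, C.cf X⟫_ℝ = ⟪C.cfT u, X⟫_ℝ := by
    unfold Chn.cfT
    rw [ContinuousLinearMap.adjoint_inner_left]
    rfl
  rw [inner_sub_left, h1, LinearIsometry.inner_map_map, sub_self]

theorem cfT_Blk {u : Cfg N} (h : u ∈ C.Blk) : C.cfT u = 0 :=
  cfT_eq_zero C fun X => by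
    rw [real_inner_comm]
    exact (Submodule.mem_orthogonal _ _).1 h.2 _ ⟨X, rfl⟩

theorem cfT_orth {u : Cfg N} (h : u ∈ Tup C.kkᗮ) : C.cfT u = 0 :=
  cfT_eq_zero C fun X => by
    rw [real_inner_comm]
    exact inner_Tup C (cf_mem_Tup C X) h

theorem cfT_PK (u : Cfg N) : C.cfT (C.PK u) = C.cfT u := by
  have h : C.cfT (C.PM u) = 0 := cfT_orth C (PM_mem C u)
  unfold Chn.PM at h
  rw [map_sub, sub_eq_zero] at h
  exact h.symm

theorem PY_mem (u : Cfg N) : C.PY u ∈ C.Blk := by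
  refine ⟨Submodule.sub_mem _ (PK_mem C u) (cf_mem_Tup C _), ?_⟩
  rw [SetLike.mem_coe, Submodule.mem_orthogonal]
  rintro _ ⟨X, rfl⟩
  have h := inner_cf_cfT C (C.PK u) X
  rw [cfT_PK, real_inner_comm] at h
  exact h

/-- coordinates of `cf X + Y + z` -/
theorem PK_coord {X : Pos p} {Y z : Cfg N} (hY : Y ∈ C.Blk) (hz : z ∈ Tup C.kkᗮ) :
    C.PK (C.cf X + Y + z) = C.cf X + Y := by
  rw [map_add, PK_of_orth C hz, add_zero,
    PK_of_mem C (Submodule.add_mem _ (cf_mem_Tup C X) hY.1)]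

theorem cfT_coord {X : Pos p} {Y z : Cfg N} (hY : Y ∈ C.Blk) (hz : z ∈ Tup C.kkᗮ) :
    C.cfT (C.cf X + Y + z) = X := by
  rw [map_add, map_add, cfT_Blk C hY, cfT_orth C hz, C.cfT_cf, add_zero, add_zero]

theorem PY_coord {X : Pos p} {Y z : Cfg N} (hY : Y ∈ C.Blk) (hz : z ∈ Tup C.kkᗮ) :
    C.PY (C.cf X + Y + z) = Y := by
  unfold Chn.PY
  rw [PK_coord C hY hz, cfT_coord C hY hz]
  abel

theorem PM_coord {X : Pos p} {Y z : Cfg N} (hY : Y ∈ C.Blk) (hz : z ∈ Tup C.kkᗮ) :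
    C.PM (C.cf X + Y + z) = z := by
  unfold Chn.PM
  rw [PK_coord C hY hz]
  abel

theorem norm_sq_coord {X : Pos p} {Y z : Cfg N} (hY : Y ∈ C.Blk) (hz : z ∈ Tup C.kkᗮ) :
    ‖C.cf X + Y + z‖ ^ 2 = ‖X‖ ^ 2 + ‖Y‖ ^ 2 + ‖z‖ ^ 2 := by
  have h1 : ⟪C.cf X + Y, z⟫_ℝ = 0 := inner_Tup C (Submodule.add_mem _ (cf_mem_Tup C X) hY.1) hz
  have h2 : ⟪C.cf X, Y⟫_ℝ = 0 := (Submodule.mem_orthogonal _ _).1 hY.2 _ ⟨X, rfl⟩
  rw [norm_add_sq_real, h1, norm_add_sq_real, h2, C.cf.norm_map]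
  ring

theorem norm_sq_eq (u : Cfg N) : ‖u‖ ^ 2 = ‖C.cfT u‖ ^ 2 + ‖C.PY u‖ ^ 2 + ‖C.PM u‖ ^ 2 := by
  conv_lhs => rw [C.decomp u]
  exact norm_sq_coord C (PY_mem C u) (PM_mem C u)

theorem norm_cfT_le (u : Cfg N) : ‖C.cfT u‖ ≤ ‖u‖ := by
  have := norm_sq_eq C u
  nlinarith [norm_nonneg u, norm_nonneg (C.cfT u), sq_nonneg ‖C.PY u‖, sq_nonneg ‖C.PM u‖]

theorem norm_PY_le (u : Cfg N) : ‖C.PY u‖ ≤ ‖u‖ := by
  have := norm_sq_eq C u
  nlinarith [norm_nonneg u, norm_nonneg (C.PY u), sq_nonneg ‖C.cfT u‖, sq_nonneg ‖C.PM u‖]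

theorem norm_PM_le (u : Cfg N) : ‖C.PM u‖ ≤ ‖u‖ := by
  have := norm_sq_eq C u
  nlinarith [norm_nonneg u, norm_nonneg (C.PM u), sq_nonneg ‖C.cfT u‖, sq_nonneg ‖C.PY u‖]

theorem continuous_PY : Continuous C.PY :=
  C.PK.continuous.sub (C.cf.continuous.comp C.cfT.continuous)

theorem continuous_PM : Continuous C.PM := continuous_id.sub C.PK.continuous

/-! ### 2. The slice -/

variable {X0 : Pos p}

theorem Uk_cf (h : C.Reg X0) : Uk b (C.cf X0) = Tup C.kk := by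
  unfold Uk
  rw [show kc (actB b) (C.cf X0) = C.kk from h]

theorem Mm_cf (h : C.Reg X0) : Mm b (C.cf X0) = Tup C.kkᗮ := by
  unfold Mm
  rw [show kc (actB b) (C.cf X0) = C.kk from h]

theorem Zs_cf (h : C.Reg X0) : Zs b (C.cf X0) = C.Zt X0 := by
  unfold Zs Chn.Zt
  rw [Mm_cf C h, Nor_eq]

theorem Tup_le_Nor (h : C.Reg X0) : Tup C.kk ≤ Nor b (C.cf X0) := by
  rw [← Uk_cf C h, ← Nor_eq]
  exact Uk_le_Nor

theorem Tn_le (h : C.Reg X0) : Tn (actB b) (C.cf X0) ≤ Tup C.kkᗮ := by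
  rw [← Mm_cf C h]
  exact Tn_le_Mm

theorem cf_mem_Nor (h : C.Reg X0) (X : Pos p) : C.cf X ∈ Nor b (C.cf X0) :=
  Tup_le_Nor C h (cf_mem_Tup C X)

theorem Blk_le_Nor (h : C.Reg X0) : C.Blk ≤ Nor b (C.cf X0) := fun _ hy =>
  Tup_le_Nor C h hy.1

theorem PM_mem_Zt (h : C.Reg X0) {u : Cfg N} (hu : u ∈ Nor b (C.cf X0)) : C.PM u ∈ C.Zt X0 :=
  ⟨PM_mem C u, Submodule.sub_mem _ hu (Tup_le_Nor C h (PK_mem C u))⟩

/-- inclusion of `R⁹ ⊗ kk` in the slice -/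
def iK (h : C.Reg X0) : Tup C.kk →ₗᵢ[ℝ] Nor b (C.cf X0) where
  toFun x := ⟨x, Tup_le_Nor C h x.2⟩
  map_add' _ _ := rfl
  map_smul' _ _ := rfl
  norm_map' _ := rfl

/-- inclusion of the transverse directions in the slice -/
def iT (X0 : Pos p) : C.Zt X0 →ₗᵢ[ℝ] Nor b (C.cf X0) where
  toFun x := ⟨x, x.2.2⟩
  map_add' _ _ := rfl
  map_smul' _ _ := rfl
  norm_map' _ := rfl

/-- positions in `R⁹ ⊗ kk` -/
def iP : Pos p →ₗᵢ[ℝ] Tup C.kk where
  toFun X := ⟨C.cf X, cf_mem_Tup C X⟩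
  map_add' X Y := Subtype.ext (map_add C.cf X Y)
  map_smul' r X := Subtype.ext (map_smul C.cf r X)
  norm_map' X := C.cf.norm_map X

/-- the block part in `R⁹ ⊗ kk` -/
def iB : C.Blk →ₗᵢ[ℝ] Tup C.kk where
  toFun x := ⟨x, x.2.1⟩
  map_add' _ _ := rfl
  map_smul' _ _ := rfl
  norm_map' _ := rfl

theorem split_slice (h : C.Reg X0) : OSplit (iK C h) (iT C X0) where
  orth u z := inner_Tup C u.2 z.2.1
  span u := ⟨⟨C.PK u, PK_mem C u⟩, ⟨C.PM u, PM_mem_Zt C h u.2⟩, Subtype.ext (by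
    show (u : Cfg N) = C.PK u + C.PM u
    unfold Chn.PM
    abel)⟩

theorem split_kk : OSplit (iP C) (iB C) where
  orth X Y := (Submodule.mem_orthogonal _ _).1 Y.2.2 _ ⟨X, rfl⟩
  span u := ⟨C.cfT u, ⟨C.PY u, PY_mem C u⟩, Subtype.ext (by
    show (u : Cfg N) = C.cf (C.cfT u) + C.PY u
    unfold Chn.PY
    rw [PK_of_mem C u.2]
    abel)⟩

/-- **Fubini on the slice.** -/
theorem lintegral_nor (h : C.Reg X0) {f : Cfg N → ℝ≥0∞} (hf : Measurable f) :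
    ∫⁻ u : Nor b (C.cf X0), f u =
      ∫⁻ X : Pos p, ∫⁻ Y : C.Blk, ∫⁻ z : C.Zt X0, f (C.cf X + Y + z) := by
  have h1 := (split_slice C h).lintegral_eq (f := fun u : Nor b (C.cf X0) => f u)
    (hf.comp measurable_subtype_coe)
  rw [h1]
  have h2 : Measurable fun q : Tup C.kk × C.Zt X0 => f ((q.1 : Cfg N) + (q.2 : Cfg N)) :=
    hf.comp ((measurable_subtype_coe.comp measurable_fst).add
      (measurable_subtype_coe.comp measurable_snd))
  have h3 : Measurable fun u : Tup C.kk => ∫⁻ z : C.Zt X0, f ((u : Cfg N) + (z : Cfg N)) :=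
    h2.lintegral_prod_right'
  exact (split_kk C).lintegral_eq (f := fun u : Tup C.kk =>
    ∫⁻ z : C.Zt X0, f ((u : Cfg N) + (z : Cfg N))) h3

/-- **Fubini on the slice**, Bochner form. -/
theorem integral_nor (h : C.Reg X0) {G : Type*} [NormedAddCommGroup G] [NormedSpace ℝ G]
    {f : Cfg N → G} (hf : Integrable fun u : Nor b (C.cf X0) => f u) :
    ∫ u : Nor b (C.cf X0), f u =
      ∫ X : Pos p, ∫ Y : C.Blk, ∫ z : C.Zt X0, f (C.cf X + Y + z) := by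
  have h1 := (split_slice C h).integral_eq hf
  have h2 := (split_slice C h).integrable_fib hf
  rw [h1]
  exact (split_kk C).integral_eq (f := fun u : Tup C.kk =>
    ∫ z : C.Zt X0, f ((u : Cfg N) + (z : Cfg N))) h2

/-- The coordinates preserve the measure. -/
theorem mp_coord (h : C.Reg X0) : MeasurePreserving (fun q : (Pos p × C.Blk) × C.Zt X0 =>
      ((⟨C.cf q.1.1 + q.1.2 + q.2, Submodule.add_mem _ (Submodule.add_mem _
        (cf_mem_Nor C h _) (Blk_le_Nor C h q.1.2.2)) q.2.2.2⟩ : Nor b (C.cf X0)))) volume volume :=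
  (split_slice C h).mp.comp ((split_kk C).mp.prod (MeasurePreserving.id volume))

/-- norms on the slice in the coordinates -/
theorem norm_nor_lt (u : Nor b (C.cf X0)) (r : ℝ) (hX : ‖C.cfT u‖ ≤ r / 4)
    (hY : ‖C.PY u‖ ≤ r / 4) (hM : ‖C.PM u‖ ≤ r / 4) : ‖(u : Cfg N)‖ ≤ r / 2 := by
  have h1 := norm_sq_eq C (u : Cfg N)
  have h2 : 0 ≤ r := by linarith [norm_nonneg (C.cfT (u : Cfg N))]
  have h3 : ‖C.cfT (u : Cfg N)‖ ^ 2 ≤ (r / 4) ^ 2 := pow_le_pow_left₀ (norm_nonneg _) hX 2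
  have h4 : ‖C.PY (u : Cfg N)‖ ^ 2 ≤ (r / 4) ^ 2 := pow_le_pow_left₀ (norm_nonneg _) hY 2
  have h5 : ‖C.PM (u : Cfg N)‖ ^ 2 ≤ (r / 4) ^ 2 := pow_le_pow_left₀ (norm_nonneg _) hM 2
  refine abs_le_of_sq_le_sq' ?_ (by linarith) |>.2
  nlinarith

end Crest.Agent.R330.LitA974

end
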