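import Crest.Agent.R330.Ims_714
import Crest.Agent.R330.Brid_837

/-!
# R330/Ims2_714 : integrated IMS formulas for the form `qf` (helper714)

* `dcharge_eq_dop`
* `angle_pointwise`, `qf_angle` : `qf (cos θ φ) + qf (sin θ φ) = qf φ + ½ ∫ |∇θ|² |φ|²`
* `qf_ims` : finite families with `Σ J_k² = 1`
* `qf_mul` : the (W) identity, integrated
-/

set_option autoImplicit false
set_option linter.unusedSectionVars false

open MeasureTheory Filter Topology
open scoped ContDiff InnerProductSpace ENNReal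
open Crest.MathPhysics.MatrixQM
open Crest.Agent.R330.Ims714
open Crest.Agent.R330.Defs478 (wpot dcharge qf cc)

namespace Crest.Agent.R330.Ims2714

variable {N : ℕ} {F : Type*} [NormedAddCommGroup F] [InnerProductSpace ℂ F]

/-- the potential part of `Q^{g,m}` as an endomorphism field -/
noncomputable def wend (b : ColorBasis N) (M : FermionRep N F) (G : GammaNine) (g m : ℝ)
    (α : Fin 16) (x : Cfg N) : F →ₗ[ℂ] F :=
  ∑ A : Fin (N ^ 2 - 1), ∑ β : Fin 16, ((wpot b G g m α β A x : ℝ) : ℂ) • M.θ β A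

theorem dcharge_eq_dop (b : ColorBasis N) (M : FermionRep N F) (G : GammaNine) (g m : ℝ)
    (α : Fin 16) (φ : Cfg N → F) :
    dcharge b M G g m α φ = dop G M α (wend b M G g m α) φ := by
  funext x
  simp only [dcharge, Defs478.kin, dop, wend, LinearMap.sum_apply, LinearMap.smul_apply]

theorem grad_cos {θ : Cfg N → ℝ} {x : Cfg N} (hθ : DifferentiableAt ℝ θ x) :
    grad (fun y => Real.cos (θ y)) x = (-Real.sin (θ x)) • grad θ x := by
  ext iA
  rw [grad_apply, PiLp.smul_apply, grad_apply, smul_eq_mul, (hθ.hasFDerivAt.cos).fderiv]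
  rfl

theorem grad_sin {θ : Cfg N → ℝ} {x : Cfg N} (hθ : DifferentiableAt ℝ θ x) :
    grad (fun y => Real.sin (θ y)) x = (Real.cos (θ x)) • grad θ x := by
  ext iA
  rw [grad_apply, PiLp.smul_apply, grad_apply, smul_eq_mul, (hθ.hasFDerivAt.sin).fderiv]
  rfl

/-- pointwise IMS with an angle -/
theorem angle_pointwise (G : GammaNine) (M : FermionRep N F) (α : Fin 16)
    (W : Cfg N → F →ₗ[ℂ] F) {θ : Cfg N → ℝ} {φ : Cfg N → F} {x : Cfg N}
    (hθ : DifferentiableAt ℝ θ x) (hφ : DifferentiableAt ℝ φ x) :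
    ‖dop G M α W (fun y => Real.cos (θ y) • φ y) x‖ ^ 2 +
      ‖dop G M α W (fun y => Real.sin (θ y) • φ y) x‖ ^ 2 =
      ‖dop G M α W φ x‖ ^ 2 + 1 / 2 * ‖grad θ x‖ ^ 2 * ‖φ x‖ ^ 2 := by
  have h := ims_pointwise (s := (Finset.univ : Finset (Fin 2))) G M α W
    (J := ![fun y => Real.cos (θ y), fun y => Real.sin (θ y)]) (φ := φ) (x := x)
    (by
      intro k _
      fin_cases k
      · exact hθ.cos
      · exact hθ.sin) hφ
    (by simp [Fin.sum_univ_two])
    (by
      simp only [Fin.sum_univ_two, Matrix.cons_val_zero, Matrix.cons_val_one]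
      rw [grad_cos hθ, grad_sin hθ, smul_smul, smul_smul, ← add_smul]
      have : Real.cos (θ x) * -Real.sin (θ x) + Real.sin (θ x) * Real.cos (θ x) = 0 := by ring
      rw [this, zero_smul])
  simp only [Fin.sum_univ_two, Matrix.cons_val_zero, Matrix.cons_val_one] at h
  rw [h, grad_cos hθ, grad_sin hθ, norm_smul, norm_smul, mul_pow, mul_pow, Real.norm_eq_abs,
    Real.norm_eq_abs, sq_abs, sq_abs]
  have := Real.sin_sq_add_cos_sq (θ x)
  have e : (-Real.sin (θ x)) ^ 2 * ‖grad θ x‖ ^ 2 + Real.cos (θ x) ^ 2 * ‖grad θ x‖ ^ 2 =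
      ‖grad θ x‖ ^ 2 := by
    rw [neg_sq, ← add_mul, this, one_mul]
  rw [e]

theorem continuous_grad {χ : Cfg N → ℝ} (hχ : ContDiff ℝ 1 χ) : Continuous (grad χ) := by
  refine (PiLp.continuous_toLp 2 _).comp (continuous_pi fun iA => ?_)
  exact (hχ.continuous_fderiv one_ne_zero).clm_apply continuous_const

variable [FiniteDimensional ℂ F]

theorem integrable_normSq {f : Cfg N → F} (hf : Continuous f) (hc : HasCompactSupport f) :
    Integrable (fun x => ‖f x‖ ^ 2) := by
  refine Continuous.integrable_of_hasCompactSupport (hf.norm.pow 2) ?_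
  exact hc.comp_left (g := fun v : F => ‖v‖ ^ 2) (by simp)

theorem integrable_mul_normSq {c : Cfg N → ℝ} (hcc : Continuous c) {f : Cfg N → F}
    (hf : Continuous f) (hc : HasCompactSupport f) :
    Integrable (fun x => c x * ‖f x‖ ^ 2) := by
  refine Continuous.integrable_of_hasCompactSupport (hcc.mul (hf.norm.pow 2)) ?_
  exact (hc.comp_left (g := fun v : F => ‖v‖ ^ 2) (by simp)).mul_left

variable (b : ColorBasis N) (M : FermionRep N F) (G : GammaNine) (g m : ℝ)

theorem integrable_dcharge {φ : Cfg N → F} (hφ : ContDiff ℝ 1 φ) (hc : HasCompactSupport φ)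
    (α : Fin 16) : Integrable (fun x => ‖dcharge b M G g m α φ x‖ ^ 2) :=
  integrable_normSq (Defs478.continuous_dcharge b M G g m α hφ)
    (Brid837.hasCompactSupport_dcharge hc)

/-- **IMS with an angle** -/
theorem qf_angle {θ : Cfg N → ℝ} (hθ : ContDiff ℝ 1 θ) {φ : Cfg N → F} (hφ : ContDiff ℝ 1 φ)
    (hc : HasCompactSupport φ) :
    qf b M G g m (fun y => Real.cos (θ y) • φ y) + qf b M G g m (fun y => Real.sin (θ y) • φ y) =
      qf b M G g m φ + 1 / 2 * ∫ x, ‖grad θ x‖ ^ 2 * ‖φ x‖ ^ 2 := by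
  have h1 : ContDiff ℝ 1 fun y => Real.cos (θ y) • φ y := (Real.contDiff_cos.comp hθ).smul hφ
  have h2 : ContDiff ℝ 1 fun y => Real.sin (θ y) • φ y := (Real.contDiff_sin.comp hθ).smul hφ
  have c1 : HasCompactSupport fun y => Real.cos (θ y) • φ y :=
    hc.smul_left (f := fun y => Real.cos (θ y))
  have c2 : HasCompactSupport fun y => Real.sin (θ y) • φ y :=
    hc.smul_left (f := fun y => Real.sin (θ y))
  have hi : Integrable fun x => ‖grad θ x‖ ^ 2 * ‖φ x‖ ^ 2 :=
    integrable_mul_normSq ((continuous_grad hθ).norm.pow 2) hφ.continuous hc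
  have e : ∀ α : Fin 16, (∫ x, ‖dcharge b M G g m α (fun y => Real.cos (θ y) • φ y) x‖ ^ 2) +
      (∫ x, ‖dcharge b M G g m α (fun y => Real.sin (θ y) • φ y) x‖ ^ 2) =
      (∫ x, ‖dcharge b M G g m α φ x‖ ^ 2) + 1 / 2 * ∫ x, ‖grad θ x‖ ^ 2 * ‖φ x‖ ^ 2 := by
    intro α
    rw [← integral_add (integrable_dcharge b M G g m h1 c1 α)
      (integrable_dcharge b M G g m h2 c2 α), ← integral_const_mul,
      ← integral_add (integrable_dcharge b M G g m hφ hc α) (hi.const_mul _)]
    refine integral_congr_ae (Eventually.of_forall fun x => ?_)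
    simp only [dcharge_eq_dop]
    rw [angle_pointwise G M α _ (hθ.differentiable one_ne_zero x)
      (hφ.differentiable one_ne_zero x), mul_assoc]
  unfold qf
  rw [← mul_add, ← Finset.sum_add_distrib, Finset.sum_congr rfl fun α _ => e α,
    Finset.sum_add_distrib, Finset.sum_const, Finset.card_univ, Fintype.card_fin, nsmul_eq_mul]
  push_cast
  ring

/-- **(W)**, integrated; the mixed form is written out -/
theorem qf_mul {χ : Cfg N → ℝ} (hχ : ContDiff ℝ 1 χ) {φ : Cfg N → F} (hφ : ContDiff ℝ 1 φ)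
    (hc : HasCompactSupport φ) :
    qf b M G g m (fun y => χ y • φ y) =
      (1 / 16 : ℝ) * (∑ α : Fin 16, ∫ x, (⟪dcharge b M G g m α φ x,
        dcharge b M G g m α (fun y => χ y ^ 2 • φ y) x⟫_ℂ).re) +
      1 / 2 * ∫ x, ‖grad χ x‖ ^ 2 * ‖φ x‖ ^ 2 := by
  have hχ2 : ContDiff ℝ 1 fun y => χ y ^ 2 := hχ.pow 2
  have h1 : ContDiff ℝ 1 fun y => χ y • φ y := hχ.smul hφ
  have h2 : ContDiff ℝ 1 fun y => χ y ^ 2 • φ y := hχ2.smul hφ
  have c1 : HasCompactSupport fun y => χ y • φ y := hc.smul_left (f := χ)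
  have hi : Integrable fun x => ‖grad χ x‖ ^ 2 * ‖φ x‖ ^ 2 :=
    integrable_mul_normSq ((continuous_grad hχ).norm.pow 2) hφ.continuous hc
  have hj : ∀ α : Fin 16, Integrable fun x => (⟪dcharge b M G g m α φ x,
        dcharge b M G g m α (fun y => χ y ^ 2 • φ y) x⟫_ℂ).re := by
    intro α
    refine Continuous.integrable_of_hasCompactSupport ?_ ?_
    · exact Complex.continuous_re.comp
        ((Defs478.continuous_dcharge b M G g m α hφ).inner
          (Defs478.continuous_dcharge b M G g m α h2))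
    · refine HasCompactSupport.mono (Brid837.hasCompactSupport_dcharge (b := b) (M := M) (G := G) (g := g) (m := m) (α := α) hc) fun x hx => ?_
      rw [Function.mem_support] at hx ⊢
      intro h0
      exact hx (by rw [h0, inner_zero_left, Complex.zero_re])
  have e : ∀ α : Fin 16, (∫ x, ‖dcharge b M G g m α (fun y => χ y • φ y) x‖ ^ 2) =
      (∫ x, (⟪dcharge b M G g m α φ x,
        dcharge b M G g m α (fun y => χ y ^ 2 • φ y) x⟫_ℂ).re) +
        1 / 2 * ∫ x, ‖grad χ x‖ ^ 2 * ‖φ x‖ ^ 2 := by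
    intro α
    rw [← integral_const_mul, ← integral_add (hj α) (hi.const_mul _)]
    refine integral_congr_ae (Eventually.of_forall fun x => ?_)
    simp only [dcharge_eq_dop]
    rw [normSq_dop_mul G M α _ (hχ.differentiable one_ne_zero x)
      (hφ.differentiable one_ne_zero x), mul_assoc]
  unfold qf
  rw [Finset.sum_congr rfl fun α _ => e α, Finset.sum_add_distrib, Finset.sum_const,
    Finset.card_univ, Fintype.card_fin, nsmul_eq_mul]
  push_cast
  ring

theorem qf_nonneg (φ : Cfg N → F) : 0 ≤ qf b M G g m φ := by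
  unfold qf
  refine mul_nonneg (by norm_num) (Finset.sum_nonneg fun α _ => integral_nonneg fun x => ?_)
  positivity

/-- **IMS** for a finite family with `Σ J_k² = 1` on a neighbourhood of the support -/
theorem qf_ims {ι : Type*} (s : Finset ι) {J : ι → Cfg N → ℝ} (hJ : ∀ k, ContDiff ℝ 1 (J k))
    {φ : Cfg N → F} (hφ : ContDiff ℝ 1 φ) (hc : HasCompactSupport φ)
    (h1 : ∀ x, x ∈ tsupport φ → ∀ᶠ y in 𝓝 x, ∑ k ∈ s, J k y ^ 2 = 1) :
    ∑ k ∈ s, qf b M G g m (fun y => J k y • φ y) =
      qf b M G g m φ + 1 / 2 * ∑ k ∈ s, ∫ x, ‖grad (J k) x‖ ^ 2 * ‖φ x‖ ^ 2 := by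
  have hs : ∀ k, ContDiff ℝ 1 fun y => J k y • φ y := fun k => (hJ k).smul hφ
  have cs : ∀ k, HasCompactSupport fun y => J k y • φ y := fun k => hc.smul_left (f := J k)
  have hi : ∀ k, Integrable fun x => ‖grad (J k) x‖ ^ 2 * ‖φ x‖ ^ 2 := fun k =>
    integrable_mul_normSq ((continuous_grad (hJ k)).norm.pow 2) hφ.continuous hc
  have e : ∀ α : Fin 16, ∑ k ∈ s, (∫ x, ‖dcharge b M G g m α (fun y => J k y • φ y) x‖ ^ 2) =
      (∫ x, ‖dcharge b M G g m α φ x‖ ^ 2) +
        1 / 2 * ∑ k ∈ s, ∫ x, ‖grad (J k) x‖ ^ 2 * ‖φ x‖ ^ 2 := by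
    intro α
    rw [← integral_finsetSum s fun k _ => integrable_dcharge b M G g m (hs k) (cs k) α,
      ← integral_finsetSum s fun k _ => hi k, ← integral_const_mul,
      ← integral_add (integrable_dcharge b M G g m hφ hc α)
        ((integrable_finsetSum s fun k _ => hi k).const_mul _)]
    refine integral_congr_ae (Eventually.of_forall fun x => ?_)
    simp only [dcharge_eq_dop]
    by_cases hx : x ∈ tsupport φ
    · rw [ims_pointwise s G M α _ (fun k _ => (hJ k).differentiable one_ne_zero x)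
        (hφ.differentiable one_ne_zero x) ((h1 x hx).self_of_nhds)
        (sum_mul_grad_eq_zero s (fun k _ => (hJ k).differentiable one_ne_zero x) (h1 x hx)),
        ← Finset.sum_mul, mul_assoc]
    · have z0 : φ x = 0 := image_eq_zero_of_notMem_tsupport hx
      have z1 : ∀ k, dop G M α (wend b M G g m α) (fun y => J k y • φ y) x = 0 := by
        intro k
        rw [← dcharge_eq_dop]
        refine image_eq_zero_of_notMem_tsupport fun h => hx ?_
        have h2 := Brid837.tsupport_dcharge_subset h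
        exact (tsupport_smul_subset_right (J k) φ) h2
      have z2 : dop G M α (wend b M G g m α) φ x = 0 := by
        rw [← dcharge_eq_dop]
        exact image_eq_zero_of_notMem_tsupport fun h => hx
          (Brid837.tsupport_dcharge_subset h)
      simp [z0, z1, z2]
  unfold qf
  rw [← Finset.mul_sum, Finset.sum_comm, Finset.sum_congr rfl fun α _ => e α,
    Finset.sum_add_distrib, Finset.sum_const, Finset.card_univ, Fintype.card_fin, nsmul_eq_mul]
  push_cast
  ring

end Crest.Agent.R330.Ims2714
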