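import Crest.Agent.R330.LemRm_349
import Crest.Agent.R330.DiagB_304
import Crest.Agent.R330.Bind6_839
import Crest.Agent.R330.SlJ_712

/-!
# Row 330, section 7, leaf S7-B3, literal part (helper349)

* `pot_low` : `½ V4(u) + (r²/8) ‖z‖² ≤ V4 (c + u + z)` for commuting `c`, `u ∈ Uk b c`,
  `z ∈ Zs b c`, `56 (‖u‖² + ‖z‖²) ≤ r²`.
* `moment_slice` : the moment lemma in slice coordinates `(u, z) ∈ Uk b c × Zs b c`.
-/

set_option autoImplicit false
set_option linter.unusedSectionVars false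

open MeasureTheory Filter Topology
open Crest.MathPhysics.MatrixQM
open Crest.Agent.R330.Defs478 Crest.Agent.R330.Moment776
open Crest.Agent.R330.Frame839 Crest.Agent.R330.LS839 Crest.Agent.R330.Clus839
open Crest.Agent.R330.Bind6839
open scoped ContDiff InnerProductSpace ENNReal

noncomputable section

namespace Crest.Agent.R330.LemRm349

variable {N : ℕ} {b : ColorBasis N} {c : Cfg N}

/-! ### The quartic potential on the slice -/

theorem brBound : (Bind6839.colAlg b).BrBound 2 := Diag304.brBound b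

theorem V4_comp (x : Cfg N) : (Bind6839.colAlg b).V4 (comp x) = Cone741.V4 b x :=
  Diag304.V4_row b x

theorem gap_comp {r : ℝ} (hr0 : 0 ≤ r) (hr : GapAt (actB b) c r) :
    (Bind6839.colAlg b).Gap (comp c) r := by
  intro w hw
  rw [← kc_eq] at hw
  have h := hr w hw
  have h2 : (r * ‖w‖) ^ 2 ≤ ‖actB b w c‖ ^ 2 := pow_le_pow_left₀ (by positivity) h 2
  rw [mul_pow, norm_sq_comp] at h2
  refine h2.trans (le_of_eq ?_)
  refine Finset.sum_congr rfl fun i _ => ?_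
  rw [comp_act, (Bind6839.colAlg b).anti, norm_neg]

theorem zc_of_mem {z : Cfg N} (hz : z ∈ Zs b c) :
    (Bind6839.colAlg b).Zc (comp c) (comp z) := by
  refine ⟨fun i => ?_, ?_⟩
  · rw [← kc_eq]
    exact hz.1 i
  · have h : ∀ w, ⟪w, ∑ i, (Bind6839.colAlg b).br (comp c i) (comp z i)⟫_ℝ = 0 := by
      intro w
      have h1 := (Bind6839.colAlg b).inner_tang (comp c) w (comp z)
      have h2 : ⟪actB b w c, z⟫_ℝ = 0 :=
        (Submodule.mem_orthogonal _ _).1 hz.2 _ (mem_Tn (actB b) c w)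
      rw [inner_comp] at h2
      have h3 : ∑ i, ⟪(Bind6839.colAlg b).tang (comp c) w i, comp z i⟫_ℝ = 0 := by
        rw [← neg_eq_zero, ← Finset.sum_neg_distrib, ← h2]
        refine Finset.sum_congr rfl fun i _ => ?_
        rw [comp_act, (Bind6839.colAlg b).anti, inner_neg_left]
        rfl
      rw [h3] at h1
      linarith
    exact inner_self_eq_zero.1 (h _)

/-- **Lower bound of the quartic potential in the slice of a commuting configuration.** -/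
theorem pot_low {r : ℝ} (hc : Comc b c) (hr0 : 0 ≤ r) (hr : GapAt (actB b) c r) {u z : Cfg N}
    (hu : u ∈ Uk b c) (hz : z ∈ Zs b c) (h : 56 * (‖u‖ ^ 2 + ‖z‖ ^ 2) ≤ r ^ 2) :
    1 / 2 * Cone741.V4 b u + 1 / 8 * r ^ 2 * ‖z‖ ^ 2 ≤ Cone741.V4 b (c + u + z) := by
  have h1 := (Bind6839.colAlg b).V4_slice hc (gap_comp hr0 hr) brBound (ξ := comp u)
    (z := comp z) (fun i => by rw [← kc_eq]; exact hu i) (zc_of_mem hz) (by
      rw [← norm_sq_comp, ← norm_sq_comp]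
      linarith)
  rw [V4_comp, ← norm_sq_comp] at h1
  have h2 : (fun i => comp c i + comp u i + comp z i) = comp (c + u + z) := rfl
  rw [h2, V4_comp] at h1
  exact h1

theorem pot_low' {r : ℝ} (hc : Comc b c) (hr0 : 0 ≤ r) (hr : GapAt (actB b) c r) {u z : Cfg N}
    (hu : u ∈ Uk b c) (hz : z ∈ Zs b c) (h : 56 * (‖u‖ ^ 2 + ‖z‖ ^ 2) ≤ r ^ 2) :
    min 1 (1 / 8 * r ^ 2) * ‖z‖ ^ 2 ≤ Bar186.pot b (c + u + z) := by
  have h1 := pot_low hc hr0 hr hu hz h
  have h2 := Cone741.V4_nonneg b u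
  have h3 : min 1 (1 / 8 * r ^ 2) * ‖z‖ ^ 2 ≤ 1 / 8 * r ^ 2 * ‖z‖ ^ 2 :=
    mul_le_mul_of_nonneg_right (min_le_right _ _) (sq_nonneg _)
  have h4 : Cone741.V4 b (c + u + z) = Bar186.pot b (c + u + z) := rfl
  rw [← h4]
  linarith

/-! ### Slice measures -/

variable {F : Type*} [NormedAddCommGroup F] [InnerProductSpace ℂ F] [FiniteDimensional ℂ F]

theorem integral_le_of_lintegral {S : Type*} [MeasurableSpace S] {ν : Measure S} {f : S → ℝ}
    {A : ℝ} (hA : 0 ≤ A) (hm : AEStronglyMeasurable f ν) (h0 : 0 ≤ᵐ[ν] f)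
    (h : ∫⁻ p, ENNReal.ofReal (f p) ∂ν ≤ ENNReal.ofReal A) :
    Integrable f ν ∧ ∫ p, f p ∂ν ≤ A := by
  refine ⟨⟨hm, ?_⟩, ?_⟩
  · rw [hasFiniteIntegral_iff_ofReal h0]
    exact h.trans_lt ENNReal.ofReal_lt_top
  · rw [integral_eq_lintegral_of_nonneg_ae h0 hm]
    calc _ ≤ (ENNReal.ofReal A).toReal := ENNReal.toReal_mono ENNReal.ofReal_ne_top h
      _ = A := ENNReal.toReal_ofReal hA

/-- A slice formula with density gives the slice hypothesis. -/
theorem sliceLe_withDensity {S : Type*} [MeasurableSpace S] {μ : Measure S} {s : S → Cfg N}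
    (hs : Measurable s) {J : S → ℝ} (hJ : Measurable J) {T : Set (Cfg N)}
    (h : ∀ f : Cfg N → ℝ≥0∞, Measurable f → (∀ h x, f (b.act h x) = f x) →
      ∫⁻ p, ENNReal.ofReal (J p) * f (s p) ∂μ ≤ ∫⁻ x in T, f x) :
    SliceLe b (μ.withDensity fun p => ENNReal.ofReal (J p)) s 1 := by
  intro f hf hi
  have h1 := lintegral_withDensity_eq_lintegral_mul μ hJ.ennreal_ofReal (hf.comp hs)
  have h2 : ∫⁻ p, f (s p) ∂(μ.withDensity fun p => ENNReal.ofReal (J p)) =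
      ∫⁻ p, ENNReal.ofReal (J p) * f (s p) ∂μ := h1
  rw [h2, ENNReal.ofReal_one, one_mul]
  exact (h f hf hi).trans (setLIntegral_le_lintegral _ _)

/-- If the density is bounded below, it can be dropped. -/
theorem sliceLe_of_density_ge {S : Type*} [MeasurableSpace S] {μ : Measure S} {s : S → Cfg N}
    {J : S → ℝ} {j₀ : ℝ} (hj₀ : 0 < j₀) (hJ : ∀ᵐ p ∂μ, j₀ ≤ J p) {T : Set (Cfg N)}
    (h : ∀ f : Cfg N → ℝ≥0∞, Measurable f → (∀ h x, f (b.act h x) = f x) →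
      ∫⁻ p, ENNReal.ofReal (J p) * f (s p) ∂μ ≤ ∫⁻ x in T, f x) :
    SliceLe b μ s j₀⁻¹ := by
  intro f hf hi
  have h1 := (h f hf hi).trans (setLIntegral_le_lintegral _ _)
  have h2 : ENNReal.ofReal j₀ * ∫⁻ p, f (s p) ∂μ ≤
      ∫⁻ p, ENNReal.ofReal (J p) * f (s p) ∂μ := by
    rw [← lintegral_const_mul' _ _ ENNReal.ofReal_ne_top]
    refine lintegral_mono_ae ?_
    filter_upwards [hJ] with p hp
    gcongr
  have h3 := h2.trans h1
  calc ∫⁻ p, f (s p) ∂μ = ENNReal.ofReal j₀⁻¹ * (ENNReal.ofReal j₀ * ∫⁻ p, f (s p) ∂μ) := by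
        rw [← mul_assoc, ← ENNReal.ofReal_mul (by positivity), inv_mul_cancel₀ hj₀.ne',
          ENNReal.ofReal_one, one_mul]
    _ ≤ _ := by gcongr

/-- Change of parametrisation. -/
theorem SliceLe.comp {S S' : Type*} [MeasurableSpace S] [MeasurableSpace S'] {ν : Measure S}
    {ν' : Measure S'} {s : S → Cfg N} {C₀ : ℝ} (h : SliceLe b ν s C₀) (e : S' → S)
    (he : MeasurableEmbedding e) {k : ℝ} (hk : 0 ≤ k)
    (hν : ν'.map e ≤ ENNReal.ofReal k • ν) :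
    SliceLe b ν' (fun p => s (e p)) (k * C₀) := by
  intro f hf hi
  have h1 : ∫⁻ p, f (s (e p)) ∂ν' = ∫⁻ p, f (s p) ∂(ν'.map e) :=
    (he.lintegral_map (fun p => f (s p))).symm
  rw [h1]
  calc _ ≤ ∫⁻ p, f (s p) ∂(ENNReal.ofReal k • ν) := lintegral_mono' hν le_rfl
    _ = ENNReal.ofReal k * ∫⁻ p, f (s p) ∂ν := lintegral_smul_measure _ _
    _ ≤ ENNReal.ofReal k * (ENNReal.ofReal C₀ * ∫⁻ x, f x) := by
        gcongr
        exact h f hf hi
    _ = _ := by rw [← mul_assoc, ENNReal.ofReal_mul hk]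

theorem SliceLe.mono {S : Type*} [MeasurableSpace S] {ν ν' : Measure S} {s : S → Cfg N} {C₀ : ℝ}
    (h : SliceLe b ν s C₀) (hν : ν' ≤ ν) : SliceLe b ν' s C₀ := fun f hf hi =>
  (lintegral_mono' hν le_rfl).trans (h f hf hi)

/-- The slice point in the coordinates `Uk b c × Zs b c`. -/
def spt (b : ColorBasis N) (c : Cfg N) (p : Uk b c × Zs b c) : Cfg N :=
  c + (p.1 : Cfg N) + (p.2 : Cfg N)

theorem continuous_spt : Continuous (spt b c) := by
  unfold spt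
  fun_prop

/-- **(B3), the moment lemma on the slice**: `(u,z) ∈ Uk b c × Zs b c`, `x = c + u + z`, any
measure `ν` carried by the ball with the slice hypothesis (`SliceLe`, from the integral formula
by `sliceLe_withDensity` or `sliceLe_of_density_ge`). -/
theorem moment_slice {M : FermionRep N F} (R : GaugeAction b M) (G : GammaNine) (hc : Comc b c)
    {r : ℝ} (hr0 : 0 < r) (hr : GapAt (actB b) c r) {ρ K C₀ : ℝ} (hρ : 0 ≤ ρ) (hK : 0 ≤ K)
    (hC₀ : 0 ≤ C₀) : ∃ C : ℝ, 0 ≤ C ∧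
    ∀ ν : Measure (Uk b c × Zs b c), SliceLe b ν (spt b c) C₀ →
    (∀ᵐ p ∂ν, 56 * (‖p.1‖ ^ 2 + ‖p.2‖ ^ 2) ≤ r ^ 2) →
    ∀ g m : ℝ, 1 ≤ g → 0 ≤ m → m ^ 2 ≤ K * g → ∀ φ : Cfg N → F, ContDiff ℝ ∞ φ →
    (∀ h x, φ (b.act h x) = R.ρ h (φ x)) → (∀ x, ρ < ‖x‖ → φ x = 0) →
    Integrable (fun p => sden g ‖p.2‖ φ (spt b c p)) ν ∧
    ∫ p, sden g ‖p.2‖ φ (spt b c p) ∂ν ≤ C * (qf b M G g m φ + ∫ x, ‖φ x‖ ^ 2) := by
  obtain ⟨C, hC, h⟩ := moment_slice_lintegral R G hρ hK (κ := min 1 (1 / 8 * r ^ 2))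
    (lt_min one_pos (by positivity)) (min_le_left _ _) hC₀
  refine ⟨C, hC, ?_⟩
  intro ν hs hν g m hg hm hmK φ hφ he h0
  have hφ1 : ContDiff ℝ 1 φ := hφ.of_le (by simp)
  have h1 := h ν (spt b c) (fun p => ‖p.2‖) hs (by
    filter_upwards [hν] with p hp
    exact pot_low' hc hr0.le hr p.1.2 p.2.2 hp) g m hg hm hmK φ hφ he h0
  refine integral_le_of_lintegral ?_ ?_ ?_ h1
  · have : 0 ≤ qf b M G g m φ := by
      unfold qf
      positivity
    have h3 : 0 ≤ ∫ x, ‖φ x‖ ^ 2 := integral_nonneg fun x => by positivity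
    positivity
  · have h2 := continuous_gsq hφ1
    have h3 := hφ.continuous
    have h4 := continuous_spt (b := b) (c := c)
    have h5 : Continuous fun p : Uk b c × Zs b c => ‖p.2‖ := continuous_snd.norm
    refine Continuous.aestronglyMeasurable ?_
    unfold sden
    have h6 := h2.comp h4
    have h7 := (h3.comp h4).norm
    exact ((((h5.pow 2).mul h6).add (continuous_const.mul ((h5.pow 4).mul (h7.pow 2)))).add
      (continuous_const.mul ((h5.pow 2).mul (h7.pow 2)))).add (continuous_const.mul h6)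
  · exact Eventually.of_forall fun p => sden_nonneg (by linarith) _ _ _

/-! ### From a parametrisation of the normal space to the coordinates `(u, z)` -/

section Nor

variable {V : Type*} [NormedAddCommGroup V] [InnerProductSpace ℝ V] [FiniteDimensional ℝ V]
  (ι : V →ₗᵢ[ℝ] Cfg N)

/-- `(u, z) ↦ ι⁻¹ (u + z)`. -/
theorem exists_uz (hι : LinearMap.range ι.toLinearMap = SlB314.Nor b c) :
    ∃ e : (Uk b c × Zs b c) ≃L[ℝ] V, ∀ p, ι (e p) = (p.1 : Cfg N) + (p.2 : Cfg N) := by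
  rw [← Nor_eq] at hι
  let f : (Uk b c × Zs b c) →ₗ[ℝ] Cfg N :=
    (Uk b c).subtype.coprod (Zs b c).subtype
  have hf : ∀ p, f p = (p.1 : Cfg N) + (p.2 : Cfg N) := fun p => rfl
  have hinj : Function.Injective f := by
    rw [injective_iff_map_eq_zero]
    intro p hp
    rw [hf] at hp
    have h1 : ⟪(p.1 : Cfg N), (p.2 : Cfg N)⟫_ℝ = 0 := Zs_perp_Uk p.1.2 p.2.2
    have h2 : (p.2 : Cfg N) = -(p.1 : Cfg N) := by
      rw [eq_neg_iff_add_eq_zero, add_comm]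
      exact hp
    rw [h2, inner_neg_right, neg_eq_zero] at h1
    have h3 : (p.1 : Cfg N) = 0 := inner_self_eq_zero.1 h1
    have h4 : (p.2 : Cfg N) = 0 := by rw [h2, h3, neg_zero]
    exact Prod.ext (Subtype.ext h3) (Subtype.ext h4)
  have hran : LinearMap.range f = LinearMap.range ι.toLinearMap := by
    rw [hι]
    apply le_antisymm
    · rintro _ ⟨p, rfl⟩
      rw [hf]
      exact Submodule.add_mem _ (Uk_le_Nor p.1.2) p.2.2.2
    · intro x hx
      obtain ⟨y, hy, z, hz, rfl⟩ := nor_decomp hx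
      exact ⟨(⟨y, hy⟩, ⟨z, hz⟩), rfl⟩
  let e1 : (Uk b c × Zs b c) ≃ₗ[ℝ] LinearMap.range f := LinearEquiv.ofInjective f hinj
  let e2 : LinearMap.range f ≃ₗ[ℝ] LinearMap.range ι.toLinearMap := LinearEquiv.ofEq _ _ hran
  let e3 : V ≃ₗ[ℝ] LinearMap.range ι.toLinearMap := LinearEquiv.ofInjective ι.toLinearMap ι.injective
  refine ⟨((e1.trans e2).trans e3.symm).toContinuousLinearEquiv, fun p => ?_⟩
  have h1 : e3 (((e1.trans e2).trans e3.symm) p) = e2 (e1 p) := e3.apply_symm_apply _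
  have h2 := congrArg (fun w : LinearMap.range ι.toLinearMap => (w : Cfg N)) h1
  exact h2

variable [MeasurableSpace V] [BorelSpace V]

/-- **Transfer of the slice hypothesis to the coordinates `(u, z)`, any Haar measures.** -/
theorem sliceLe_uz (hι : LinearMap.range ι.toLinearMap = SlB314.Nor b c)
    (μV : Measure V) [μV.IsAddHaarMeasure] (μU : Measure (Uk b c)) [μU.IsAddHaarMeasure]
    (μZ : Measure (Zs b c)) [μZ.IsAddHaarMeasure] : ∃ k : ℝ, 0 ≤ k ∧ ∀ (B : Set V),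
    MeasurableSet B → ∀ C₀ : ℝ, SliceLe b (μV.restrict B) (fun v => c + ι v) C₀ →
    ∀ e : (Uk b c × Zs b c) ≃L[ℝ] V, (∀ p, ι (e p) = (p.1 : Cfg N) + (p.2 : Cfg N)) →
    SliceLe b ((μU.prod μZ).restrict (e ⁻¹' B)) (spt b c) (k * C₀) := by
  obtain ⟨e, he⟩ := exists_uz ι hι
  obtain ⟨k, hk⟩ : ∃ k : NNReal, (μU.prod μZ).map e = (k : ℝ≥0∞) • μV := by
    have i1 : (μU.prod μZ).IsAddHaarMeasure := Measure.prod.instIsAddHaarMeasure μU μZ
    have i2 : ((μU.prod μZ).map e).IsAddHaarMeasure :=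
      ContinuousLinearEquiv.isAddHaarMeasure_map e (μU.prod μZ)
    refine ⟨Measure.addHaarScalarFactor ((μU.prod μZ).map e) μV, ?_⟩
    have := Measure.isAddLeftInvariant_eq_smul ((μU.prod μZ).map e) μV
    exact this
  refine ⟨k, k.2, fun B hB C₀ hs e' he' => ?_⟩
  have hee : e' = e := by
    ext p
    apply ι.injective
    rw [he, he']
  subst hee
  have h1 : MeasurableEmbedding e' := e'.toHomeomorph.measurableEmbedding
  have h2 := hs.comp (ν' := (μU.prod μZ).restrict (e' ⁻¹' B)) e' h1 (k := k) k.2 (by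
    rw [← Measure.restrict_map h1.measurable hB, hk, Measure.restrict_smul]
    simp)
  have h3 : (fun p => c + ι (e' p)) = spt b c := by
    funext p
    rw [he']
    unfold spt
    rw [add_assoc]
  rw [h3] at h2
  exact h2

/-- **(B3) in one statement.** Input: the integral formula of the slice on `V`, `ι : V →ₗᵢ Cfg N`
with range `Nor b c`, density `J ≥ j₀` on the ball. Output: the moment lemma for
`(u,z) ∈ Uk b c × Zs b c`, `‖u‖² + ‖z‖² < s²`, product of any two Haar measures. -/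
theorem moment_uz {F : Type*} [NormedAddCommGroup F] [InnerProductSpace ℂ F]
    [FiniteDimensional ℂ F] {M : FermionRep N F} (R : GaugeAction b M) (G : GammaNine)
    (hι : LinearMap.range ι.toLinearMap = SlB314.Nor b c)
    (μV : Measure V) [μV.IsAddHaarMeasure] (μU : Measure (Uk b c)) [μU.IsAddHaarMeasure]
    (μZ : Measure (Zs b c)) [μZ.IsAddHaarMeasure] (hc : Comc b c)
    {r : ℝ} (hr0 : 0 < r) (hr : GapAt (actB b) c r) {s : ℝ} (hs0 : 0 ≤ s)
    (hsr : 56 * s ^ 2 ≤ r ^ 2) {J : V → ℝ} {j₀ : ℝ} (hj₀ : 0 < j₀) (hJ : ∀ v, ‖v‖ < s → j₀ ≤ J v) {T : Set (Cfg N)}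
    (hint : ∀ f : Cfg N → ℝ≥0∞, Measurable f → (∀ h x, f (b.act h x) = f x) →
      ∫⁻ v in Metric.ball 0 s, ENNReal.ofReal (J v) * f (c + ι v) ∂μV ≤ ∫⁻ x in T, f x)
    {ρ K : ℝ} (hρ : 0 ≤ ρ) (hK : 0 ≤ K) : ∃ C : ℝ, 0 ≤ C ∧
    ∀ g m : ℝ, 1 ≤ g → 0 ≤ m → m ^ 2 ≤ K * g → ∀ φ : Cfg N → F, ContDiff ℝ ∞ φ →
    (∀ h x, φ (b.act h x) = R.ρ h (φ x)) → (∀ x, ρ < ‖x‖ → φ x = 0) →
    IntegrableOn (fun p => sden g ‖p.2‖ φ (spt b c p)) {p | ‖p.1‖ ^ 2 + ‖p.2‖ ^ 2 < s ^ 2}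
      (μU.prod μZ) ∧
    ∫ p in {p : Uk b c × Zs b c | ‖p.1‖ ^ 2 + ‖p.2‖ ^ 2 < s ^ 2},
      sden g ‖p.2‖ φ (spt b c p) ∂(μU.prod μZ) ≤ C * (qf b M G g m φ + ∫ x, ‖φ x‖ ^ 2) := by
  obtain ⟨e, he⟩ := exists_uz ι hι
  have h1 : SliceLe b (μV.restrict (Metric.ball 0 s)) (fun v => c + ι v) j₀⁻¹ := by
    refine sliceLe_of_density_ge (J := J) (T := T) hj₀ ?_ hint
    rw [ae_restrict_iff' Metric.isOpen_ball.measurableSet]
    exact Eventually.of_forall fun v hv => hJ v (by simpa using hv)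
  obtain ⟨k, hk, h2⟩ := sliceLe_uz ι hι μV μU μZ
  have h3 := h2 _ Metric.isOpen_ball.measurableSet _ h1 e he
  obtain ⟨C, hC, h4⟩ := moment_slice R G hc hr0 hr hρ hK (C₀ := k * j₀⁻¹) (by positivity)
  refine ⟨C, hC, fun g m hg hm hmK φ hφ heq h0 => ?_⟩
  have hn : ∀ p : Uk b c × Zs b c, ‖e p‖ ^ 2 = ‖p.1‖ ^ 2 + ‖p.2‖ ^ 2 := by
    intro p
    rw [← ι.norm_map, he, @norm_add_sq_real, Zs_perp_Uk p.1.2 p.2.2]
    simp
  have hset : e ⁻¹' Metric.ball 0 s = {p : Uk b c × Zs b c | ‖p.1‖ ^ 2 + ‖p.2‖ ^ 2 < s ^ 2} := by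
    ext p
    rw [Set.mem_preimage, Metric.mem_ball, dist_zero_right, Set.mem_ofPred_eq, ← hn]
    exact (pow_lt_pow_iff_left₀ (norm_nonneg _) hs0 two_ne_zero).symm
  rw [hset] at h3
  refine h4 _ h3 ?_ g m hg hm hmK φ hφ heq h0
  have hms : MeasurableSet {p : Uk b c × Zs b c | ‖p.1‖ ^ 2 + ‖p.2‖ ^ 2 < s ^ 2} := by
    rw [← hset]
    exact e.continuous.measurable Metric.isOpen_ball.measurableSet
  rw [ae_restrict_iff' hms]
  exact Eventually.of_forall fun p hp => by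
    have : ‖p.1‖ ^ 2 + ‖p.2‖ ^ 2 < s ^ 2 := hp
    linarith

end Nor

end Crest.Agent.R330.LemRm349

end
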