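import Crest.Agent.R330.SlN_712

/-!
# Row 330, S5b-B4: the slice formula with the volume of the subspace `Nor b c` (helper712)

The same statements as in `SlN_712` for `ι = (Nor b c).subtypeₗᵢ`, i.e. on the type `Nor b c`
with its volume as inner product space (as elaborated in `TDef_414`).
-/

set_option autoImplicit false
set_option linter.unusedSectionVars false
noncomputable section

open MeasureTheory Metric Set Matrix
open Crest.MathPhysics.MatrixQM
open Crest.Agent.R330.SlA314 Crest.Agent.R330.SlB314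
open Crest.Agent.R330.SlD314 Crest.Agent.R330.SlP314
open Crest.Agent.R330.Dbl798 Crest.Agent.R330.SlI712 Crest.Agent.R330.SlK712
open Crest.Agent.R330.SlJ712 Crest.Agent.R330.SUgrp596 Crest.Agent.R330.SlN712
open scoped ContDiff Topology NNReal InnerProductSpace

namespace Crest.Agent.R330.SlM712

variable {N : ℕ} {b : ColorBasis N} {c : Cfg N} {r0 C : ℝ}

theorem range_sub (W : Submodule ℝ (Cfg N)) :
    LinearMap.range W.subtypeₗᵢ.toLinearMap = W := W.range_subtype

/-- the slice formula for nonnegative invariant functions, subspace form -/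
theorem SRad.lintegral_Nor (H : SRad b c r0 C) {r : ℝ} (hr : r ≤ r0)
    {f : Cfg N → ENNReal} (hf : Measurable f) (hinv : ∀ g x, f (b.act g x) = f x) :
    ∫⁻ x in SlD314.tube b c r, f x =
      ∫⁻ y in ball (0 : Nor b c) r, ENNReal.ofReal (jd b c C y) * f (c + y) :=
  H.lintegral_inv (ι := (Nor b c).subtypeₗᵢ) (range_sub _) hr hf hinv

/-- all nonnegative functions, subspace form -/
theorem SRad.lintegral_tube_Nor (H : SRad b c r0 C) {r : ℝ} (hr : r ≤ r0)
    (f : Cfg N → ENNReal) (hf : Measurable f) :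
    ∫⁻ x in SlD314.tube b c r, f x = ∫⁻ g, (∫⁻ y in ball (0 : Nor b c) r,
      ENNReal.ofReal (jd b c C y) * f (b.act g (c + y))) ∂(haarSU N) :=
  H.lintegral_tube (ι := (Nor b c).subtypeₗᵢ) (range_sub _) hr f hf

section Bochner

variable {X : Type*} [NormedAddCommGroup X] [NormedSpace ℝ X] {h : Cfg N → X}

theorem SRad.integrableOn_Nor (H : SRad b c r0 C) {r : ℝ} (hr : r ≤ r0)
    (hh : AEStronglyMeasurable h (volume.restrict (SlD314.tube b c r)))
    (hinv : ∀ g x, h (b.act g x) = h x) :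
    IntegrableOn h (SlD314.tube b c r) ↔
      IntegrableOn (fun y : Nor b c => jd b c C y • h (c + y)) (ball (0 : Nor b c) r) :=
  H.integrableOn_iff (ι := (Nor b c).subtypeₗᵢ) (range_sub _) hr hh hinv

/-- **slice formula, Bochner integrals, subspace form** -/
theorem SRad.setIntegral_Nor (H : SRad b c r0 C) {r : ℝ} (hr : r ≤ r0)
    (hh : AEStronglyMeasurable h (volume.restrict (SlD314.tube b c r)))
    (hinv : ∀ g x, h (b.act g x) = h x) :
    ∫ x in SlD314.tube b c r, h x =
      ∫ y in ball (0 : Nor b c) r, jd b c C y • h (c + y) :=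
  H.setIntegral_inv (ι := (Nor b c).subtypeₗᵢ) (range_sub _) hr hh hinv

theorem SRad.integral_Nor (H : SRad b c r0 C) {r : ℝ} (hr : r ≤ r0)
    (hh : AEStronglyMeasurable h (volume.restrict (SlD314.tube b c r)))
    (hinv : ∀ g x, h (b.act g x) = h x) (hoff : ∀ x, x ∉ SlD314.tube b c r → h x = 0) :
    ∫ x, h x = ∫ y in ball (0 : Nor b c) r, jd b c C y • h (c + y) :=
  H.integral_inv (ι := (Nor b c).subtypeₗᵢ) (range_sub _) hr hh hinv hoff

theorem SRad.integrable_Nor (H : SRad b c r0 C) {r : ℝ} (hr : r ≤ r0)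
    (hh : AEStronglyMeasurable h (volume.restrict (SlD314.tube b c r)))
    (hinv : ∀ g x, h (b.act g x) = h x) (hoff : ∀ x, x ∉ SlD314.tube b c r → h x = 0) :
    Integrable h ↔
      IntegrableOn (fun y : Nor b c => jd b c C y • h (c + y)) (ball (0 : Nor b c) r) :=
  H.integrable_iff (ι := (Nor b c).subtypeₗᵢ) (range_sub _) hr hh hinv hoff

end Bochner

section Equivariant

variable {F : Type*} [NormedAddCommGroup F] [InnerProductSpace ℂ F] [FiniteDimensional ℂ F]
  {M : FermionRep N F} {R : GaugeAction b M} {φ ψ : Cfg N → F}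

/-- **pairing formula**, subspace form -/
theorem SRad.integral_inner_Nor (H : SRad b c r0 C) {r : ℝ} (hr : r ≤ r0)
    (hφm : AEStronglyMeasurable φ (volume.restrict (SlD314.tube b c r)))
    (hψm : AEStronglyMeasurable ψ (volume.restrict (SlD314.tube b c r)))
    (hφ : ∀ g x, φ (b.act g x) = R.ρ g (φ x)) (hψ : ∀ g x, ψ (b.act g x) = R.ρ g (ψ x))
    (hoff : ∀ x, x ∉ SlD314.tube b c r → ψ x = 0) :
    ∫ x, ⟪φ x, ψ x⟫_ℂ =
      ∫ y in ball (0 : Nor b c) r, jd b c C y • ⟪φ (c + y), ψ (c + y)⟫_ℂ :=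
  H.integral_inner (ι := (Nor b c).subtypeₗᵢ) (range_sub _) hr hφm hψm hφ hψ hoff

theorem SRad.integrable_inner_Nor (H : SRad b c r0 C) {r : ℝ} (hr : r ≤ r0)
    (hφm : AEStronglyMeasurable φ (volume.restrict (SlD314.tube b c r)))
    (hψm : AEStronglyMeasurable ψ (volume.restrict (SlD314.tube b c r)))
    (hφ : ∀ g x, φ (b.act g x) = R.ρ g (φ x)) (hψ : ∀ g x, ψ (b.act g x) = R.ρ g (ψ x))
    (hoff : ∀ x, x ∉ SlD314.tube b c r → ψ x = 0) :
    Integrable (fun x => ⟪φ x, ψ x⟫_ℂ) ↔
      IntegrableOn (fun y : Nor b c => jd b c C y • ⟪φ (c + y), ψ (c + y)⟫_ℂ)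
        (ball (0 : Nor b c) r) :=
  H.integrable_inner_iff (ι := (Nor b c).subtypeₗᵢ) (range_sub _) hr hφm hψm hφ hψ hoff

end Equivariant

end Crest.Agent.R330.SlM712
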