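import Crest.Agent.R330.Bind6_839
import Crest.Agent.R330.SlE_944

/-!
# Row 330, S8/S9 SlQ (helper87): the charge on a slice applied to `η • φ(c + ·)`, pointwise

* `Bf b M` : the infinitesimal action on `F` (406's `Bop`) in the form of `Frame_839`;
  `infEq` : equivariant functions are infinitesimally equivariant.
* `half η φ x = η x • φ (c + x.1 + x.2)` on `Uk b c × Zs b c`; `fderiv_half`.
* `AB` : `Σ_s aA (e s) (∂_(e s,0) Φ) + wA (c+u) Φ + Σ_i aB (v i) (∂_(0,v i) Φ) + wB (c+u) z Φ`.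
* `LS_half` : `η • Q φ = AB (half η φ) + (remainder)`; `LS_half_err` : the bound of the remainder
  `‖η • Q φ - AB Φ‖ ≤ C ((|η| + ‖dη‖) ‖φ‖ + ‖z‖ ‖dΦ‖ + g ‖z‖² ‖Φ‖)`.
-/

set_option autoImplicit false
set_option linter.unusedSectionVars false

open MeasureTheory Filter Topology Crest.MathPhysics.MatrixQM
open Crest.Agent.R330.IBP837 Crest.Agent.R330.Defs478 Crest.Agent.R330.Frame839
open Crest.Agent.R330.LS839 Crest.Agent.R330.Bind6839
open scoped ContDiff InnerProductSpace ENNReal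

noncomputable section

namespace Crest.Agent.R330.SlQE87

variable {N : ℕ} {F : Type*} [NormedAddCommGroup F] [InnerProductSpace ℂ F]
  [FiniteDimensional ℂ F]

/-! ## Infinitesimal equivariance -/

/-- The infinitesimal action on `F`, 406's `Bop` in the form of `Frame_839`. -/
def Bf (b : ColorBasis N) (M : FermionRep N F) : Colg N →ₗ[ℝ] (F →ₗ[ℝ] F) where
  toFun w := ((Lift406.Bop b M w.ofLp : F →L[ℂ] F) : F →ₗ[ℂ] F).restrictScalars ℝ
  map_add' u v := by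
    apply LinearMap.ext
    intro f
    have h := congrArg (fun T : F →L[ℂ] F => T f) ((SlE944.BLin b M).map_add u.ofLp v.ofLp)
    exact h
  map_smul' t v := by
    apply LinearMap.ext
    intro f
    have h := congrArg (fun T : F →L[ℂ] F => T f) ((SlE944.BLin b M).map_smul t v.ofLp)
    exact h

theorem Bf_apply (b : ColorBasis N) (M : FermionRep N F) (w : Colg N) (f : F) :
    Bf b M w f = Lift406.Bop b M w.ofLp f := rfl

theorem exists_Bf_bound (b : ColorBasis N) (M : FermionRep N F) :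
    ∃ C : ℝ, 0 ≤ C ∧ ∀ (w : Colg N) (v : F), ‖Bf b M w v‖ ≤ C * ‖w‖ * ‖v‖ := by
  refine ⟨@norm ((Fin (N ^ 2 - 1) → ℝ) →L[ℝ] F →L[ℂ] F) ContinuousLinearMap.hasOpNorm
    (SlE944.BLin b M), norm_nonneg (SlE944.BLin b M), fun w v => ?_⟩
  rw [Bf_apply, ← SlE944.BLin_apply]
  refine ((SlE944.BLin b M w.ofLp).le_opNorm v).trans ?_
  refine mul_le_mul_of_nonneg_right (((SlE944.BLin b M).le_opNorm _).trans ?_) (norm_nonneg _)
  refine mul_le_mul_of_nonneg_left ?_ (norm_nonneg (SlE944.BLin b M))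
  exact (pi_norm_le_iff_of_nonneg (norm_nonneg _)).2 fun i => PiLp.norm_apply_le w i

/-- **Equivariant functions are infinitesimally equivariant.** -/
theorem infEq {b : ColorBasis N} {M : FermionRep N F} (R : GaugeAction b M) {φ : Cfg N → F}
    {x : Cfg N} (hd : DifferentiableAt ℝ φ x) (h : ∀ g, φ (b.act g x) = R.ρ g (φ x)) :
    InfEq (actB b) (Bf b M) φ x := by
  rcases subsingleton_or_nontrivial F with hF | hF
  · intro w
    exact Subsingleton.elim _ _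
  · intro w
    have h1 := SlD314.hasDerivAt_act_zero b w.ofLp x
    have h0 : b.act (SlD314.gexp b ((0 : ℝ) • w.ofLp)) x = x := by
      rw [zero_smul, SlD314.gexp_zero, SlA314.act_one]
    have hd' : HasFDerivAt φ (fderiv ℝ φ x) (b.act (SlD314.gexp b ((0 : ℝ) • w.ofLp)) x) := by
      rw [h0]
      exact hd.hasFDerivAt
    have h2 := hd'.comp_hasDerivAt (0 : ℝ) h1
    have h3 : HasDerivAt (fun t : ℝ => NormedSpace.exp (t • Lift406.Bop b M w.ofLp) (φ x))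
        (Lift406.Bop b M w.ofLp (φ x)) 0 := by
      have h4 : HasDerivAt (fun t : ℝ => NormedSpace.exp (t • Lift406.Bop b M w.ofLp))
          (Lift406.Bop b M w.ofLp * NormedSpace.exp ((0 : ℝ) • Lift406.Bop b M w.ofLp)) 0 :=
        hasDerivAt_exp_smul_const' (𝕂 := ℝ) (Lift406.Bop b M w.ofLp) 0
      rw [zero_smul, NormedSpace.exp_zero, mul_one] at h4
      have h5 := ((ContinuousLinearMap.apply ℂ F (φ x)).restrictScalars ℝ).hasFDerivAt.comp_hasDerivAt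
        (0 : ℝ) h4
      exact h5
    have h6 : (φ ∘ fun t : ℝ => b.act (SlD314.gexp b (t • w.ofLp)) x) =
        fun t : ℝ => NormedSpace.exp (t • Lift406.Bop b M w.ofLp) (φ x) := by
      funext t
      have h7 : φ (b.act (SlD314.gexp b (t • w.ofLp)) x) =
          R.ρ (SlD314.gexp b (t • w.ofLp)) (φ x) := h _
      have h8 : Lift406.Bop b M (t • w.ofLp) = t • Lift406.Bop b M w.ofLp :=
        (SlE944.BLin b M).map_smul t w.ofLp
      rw [Function.comp_apply, h7, SlE944.rho_gexp, h8]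
    rw [h6] at h2
    exact h2.unique h3

/-- core vectors -/
theorem infEq_core {b : ColorBasis N} {M : FermionRep N F} {R : GaugeAction b M} {φ : Cfg N → F}
    (h : IsCoreVec b R φ) (x : Cfg N) : InfEq (actB b) (Bf b M) φ x :=
  infEq R (h.1.differentiable (by norm_num) x) fun g => h.2.2 g x

/-! ## The slice function -/

section slice

variable (b : ColorBasis N) (c : Cfg N)

/-- `η • φ(c + ·)` on the slice -/
def half (η : Uk b c × Zs b c → ℝ) (φ : Cfg N → F) (x : Uk b c × Zs b c) : F :=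
  η x • φ (c + x.1 + x.2)

/-- the linear part of the slice map -/
def slL : (Uk b c × Zs b c) →L[ℝ] Cfg N := (Uk b c).subtypeL.coprod (Zs b c).subtypeL

theorem slL_apply (x : Uk b c × Zs b c) : slL b c x = (x.1 : Cfg N) + (x.2 : Cfg N) := rfl

theorem hasFDerivAt_sl (x : Uk b c × Zs b c) :
    HasFDerivAt (fun x : Uk b c × Zs b c => c + (x.1 : Cfg N) + (x.2 : Cfg N)) (slL b c) x := by
  have h : (fun x : Uk b c × Zs b c => c + (x.1 : Cfg N) + (x.2 : Cfg N)) =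
      fun x => c + slL b c x := by
    funext y
    rw [slL_apply, add_assoc]
  rw [h]
  exact (slL b c).hasFDerivAt.const_add c

variable {b c}

/-- directions of the slice are orthogonal sums -/
theorem norm_fst_le (x : Uk b c × Zs b c) : ‖(x.1 : Cfg N)‖ ≤ ‖(x.1 : Cfg N) + (x.2 : Cfg N)‖ := by
  have h := norm_add_sq_real (x.1 : Cfg N) (x.2 : Cfg N)
  rw [Zs_perp_Uk x.1.2 x.2.2, mul_zero, add_zero] at h
  refine (sq_le_sq₀ (norm_nonneg _) (norm_nonneg _)).1 ?_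
  rw [h]
  exact le_add_of_nonneg_right (sq_nonneg _)

theorem norm_snd_le (x : Uk b c × Zs b c) : ‖(x.2 : Cfg N)‖ ≤ ‖(x.1 : Cfg N) + (x.2 : Cfg N)‖ := by
  have h := norm_add_sq_real (x.1 : Cfg N) (x.2 : Cfg N)
  rw [Zs_perp_Uk x.1.2 x.2.2, mul_zero, add_zero] at h
  refine (sq_le_sq₀ (norm_nonneg _) (norm_nonneg _)).1 ?_
  rw [h]
  exact le_add_of_nonneg_left (sq_nonneg _)

theorem norm_prod_le (x : Uk b c × Zs b c) : ‖x‖ ≤ ‖(x.1 : Cfg N) + (x.2 : Cfg N)‖ :=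
  max_le (norm_fst_le x) (norm_snd_le x)

theorem differentiableAt_half {η : Uk b c × Zs b c → ℝ} {φ : Cfg N → F} {x : Uk b c × Zs b c}
    (hη : DifferentiableAt ℝ η x) (hφ : DifferentiableAt ℝ φ (c + x.1 + x.2)) :
    HasFDerivAt (half b c η φ) (η x • (fderiv ℝ φ (c + x.1 + x.2)).comp (slL b c) +
      (fderiv ℝ η x).smulRight (φ (c + x.1 + x.2))) x := by
  have h1 := hφ.hasFDerivAt.comp x (hasFDerivAt_sl b c x)
  exact hη.hasFDerivAt.smul h1

theorem fderiv_half {η : Uk b c × Zs b c → ℝ} {φ : Cfg N → F} {x : Uk b c × Zs b c}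
    (hη : DifferentiableAt ℝ η x) (hφ : DifferentiableAt ℝ φ (c + x.1 + x.2))
    (y : Uk b c × Zs b c) :
    fderiv ℝ (half b c η φ) x y = η x • fderiv ℝ φ (c + x.1 + x.2) (y.1 + y.2) +
      (fderiv ℝ η x y) • φ (c + x.1 + x.2) := by
  rw [(differentiableAt_half hη hφ).fderiv]
  rfl

/-- normal derivatives of `φ` through the derivative of `η • φ(c + ·)` -/
theorem norm_normal_le {η : Uk b c × Zs b c → ℝ} {φ : Cfg N → F} {x : Uk b c × Zs b c}
    (hη : DifferentiableAt ℝ η x) (hφ : DifferentiableAt ℝ φ (c + x.1 + x.2)) {n : Cfg N}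
    (hn : n ∈ (Tn (actB b) c)ᗮ) :
    |η x| * ‖fderiv ℝ φ (c + x.1 + x.2) n‖ ≤
      (‖fderiv ℝ (half b c η φ) x‖ + ‖fderiv ℝ η x‖ * ‖φ (c + x.1 + x.2)‖) * ‖n‖ := by
  obtain ⟨y, hy, z, hz, rfl⟩ := nor_decomp hn
  have h := fderiv_half hη hφ ((⟨y, hy⟩, ⟨z, hz⟩) : Uk b c × Zs b c)
  have hle := norm_prod_le ((⟨y, hy⟩, ⟨z, hz⟩) : Uk b c × Zs b c)
  simp only at h hle
  generalize ((⟨y, hy⟩, ⟨z, hz⟩) : Uk b c × Zs b c) = w at h hle
  have h1 : η x • fderiv ℝ φ (c + x.1 + x.2) (y + z) =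
      fderiv ℝ (half b c η φ) x w - (fderiv ℝ η x w) • φ (c + x.1 + x.2) := by
    rw [h]
    abel
  have h2 : |η x| * ‖fderiv ℝ φ (c + x.1 + x.2) (y + z)‖ =
      ‖η x • fderiv ℝ φ (c + x.1 + x.2) (y + z)‖ := by
    rw [norm_smul, Real.norm_eq_abs]
  rw [h2, h1]
  refine (norm_sub_le _ _).trans ?_
  rw [norm_smul]
  have h3 := (fderiv ℝ (half b c η φ) x).le_opNorm w
  have h4 := (fderiv ℝ η x).le_opNorm w
  have h5 : ‖fderiv ℝ η x w‖ * ‖φ (c + x.1 + x.2)‖ ≤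
      ‖fderiv ℝ η x‖ * ‖w‖ * ‖φ (c + x.1 + x.2)‖ := mul_le_mul_of_nonneg_right h4 (norm_nonneg _)
  have h6 : (‖fderiv ℝ (half b c η φ) x‖ + ‖fderiv ℝ η x‖ * ‖φ (c + x.1 + x.2)‖) * ‖w‖ ≤
      (‖fderiv ℝ (half b c η φ) x‖ + ‖fderiv ℝ η x‖ * ‖φ (c + x.1 + x.2)‖) * ‖y + z‖ :=
    mul_le_mul_of_nonneg_left hle (by positivity)
  nlinarith

end slice

/-! ## The charge -/

section charge

variable (b : ColorBasis N) (M : FermionRep N F) (G : GammaNine) (g m : ℝ) (α : Fin 16)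
  (c : Cfg N) {ι κ κ' : Type*} [Fintype ι] [Fintype κ] [Fintype κ']
  (e : OrthonormalBasis ι ℝ (Uk b c)) (v : OrthonormalBasis κ ℝ (Zs b c))
  (t : OrthonormalBasis κ' ℝ (Tn (actB b) c))

/-- light plus heavy part on functions on the slice -/
def AB (Φ : Uk b c × Zs b c → F) (x : Uk b c × Zs b c) : F :=
  ((∑ s, aA M G α (e s) (fderiv ℝ Φ x (e s, 0))) + wA b M G g m α (c + x.1) (Φ x)) +
    ((∑ i, aB b c M G α t (c + x.1) (v i) (fderiv ℝ Φ x (0, v i))) +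
      wB b M G g α (c + x.1) x.2 (Φ x))

/-- the terms with the derivative of `η` -/
def dTerm (p : Cfg N) (l : Uk b c × Zs b c →L[ℝ] ℝ) (f : F) : F :=
  (∑ s, aA M G α (e s) (l (e s, 0) • f)) + ∑ i, aB b c M G α t p (v i) (l (0, v i) • f)

variable {b M G g m α c e v t}

theorem rsmul (L : F →ₗ[ℂ] F) (s : ℝ) (f : F) : L (s • f) = s • L f :=
  LinearMap.map_smul_of_tower L s f

/-- **(LS) for `η • φ(c + ·)`.** -/
theorem LS_half {r B : ℝ} (hr0 : 0 < r) (hr : GapAt (actB b) c r) (hB : ActBound (actB b) B)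
    (hc : Comc b c) {η : Uk b c × Zs b c → ℝ} {φ : Cfg N → F} {x : Uk b c × Zs b c}
    (hη : DifferentiableAt ℝ η x) (hφ : DifferentiableAt ℝ φ (c + x.1 + x.2))
    (h : InfEq (actB b) (Bf b M) φ (c + x.1 + x.2)) (hx : B * ‖(x.1 : Cfg N)‖ ≤ r / 2) :
    η x • dcharge b M G g m α φ (c + x.1 + x.2) =
      AB b M G g m α c e v t (half b c η φ) x +
        (η x • lsErr b M G g m α c t (Bf b M) (c + x.1) x.2 φ -
          dTerm b M G α c e v t (c + x.1) (fderiv ℝ η x) (φ (c + x.1 + x.2))) := by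
  have hp : c + (x.1 : Cfg N) ∈ Uk b c := (Uk b c).add_mem (self_mem_Uk hc) x.1.2
  have hx' : B * ‖c + (x.1 : Cfg N) - c‖ ≤ r / 2 := by rwa [add_sub_cancel_left]
  rw [LS b M G g m α c (norBasis e v) t (Bf b M) h,
    lsMain_split M G g m α hr0 hr hB e v t hp hx' (x.2 : Cfg N) φ]
  unfold AB dTerm
  simp only [fderiv_half hη hφ]
  simp only [half, rsmul, map_add, smul_add, Finset.smul_sum, Finset.sum_add_distrib,
    Submodule.coe_zero, add_zero, zero_add]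
  abel

end charge

/-! ## The bound of the remainder -/

/-- 839's bound with the normal part of the derivative only. -/
theorem lsErr_le (b : ColorBasis N) (M : FermionRep N F) (G : GammaNine) {r B m₀ : ℝ}
    (hr0 : 0 < r) (hB0 : 0 ≤ B) (hB : ActBound (actB b) B) (hm0 : 0 ≤ m₀) :
    ∃ C : ℝ, 0 ≤ C ∧ ∀ (g m : ℝ), 0 ≤ g → |m| ≤ m₀ → ∀ (α : Fin 16) (c : Cfg N),
      GapAt (actB b) c r → ∀ (κ : Type) [Fintype κ]
      (t : OrthonormalBasis κ ℝ (Tn (actB b) c)) (p z : Cfg N), B * ‖p + z - c‖ ≤ r / 2 →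
      B * ‖p - c‖ ≤ r / 2 → ∀ (φ : Cfg N → F) (K : ℝ), 0 ≤ K →
      (∀ n ∈ (Tn (actB b) c)ᗮ, ‖fderiv ℝ φ (p + z) n‖ ≤ K * ‖n‖) →
      ‖lsErr b M G g m α c t (Bf b M) p z φ‖ ≤ C * (‖φ (p + z)‖ + ‖z‖ * K +
        g * ‖z‖ ^ 2 * ‖φ (p + z)‖ + ‖z‖ * ‖φ (p + z)‖) := by
  obtain ⟨C1, h1, hT⟩ := exists_Theta_bound M G
  obtain ⟨C2, h2, hV⟩ := exists_vco_bound M
  obtain ⟨C3, h3, hW⟩ := exists_wb_bound b G
  obtain ⟨C4, h4, hL⟩ := exists_wl_bound (N := N) G
  obtain ⟨CF, hCF, hBf⟩ := exists_Bf_bound b M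
  have hD0 : (0 : ℝ) ≤ (Module.finrank ℝ (Cfg N) : ℝ) := Nat.cast_nonneg _
  refine ⟨(Module.finrank ℝ (Cfg N) : ℝ) * (C1 * (CF * (2 / r))) +
    (Module.finrank ℝ (Cfg N) : ℝ) * (C1 * (4 * B / r)) + C2 * C3 + C2 * (m₀ * C4),
    by positivity, fun g m hg hm α c hr κ _ t p z hx hp φ K hK hn => ?_⟩
  have ht' : ∀ a, ‖t a‖ = 1 := fun a => t.orthonormal.1 a
  have hz := norm_nonneg z
  have a1 := sum_Theta_le M G h1 (K := CF * (2 / r) * ‖φ (p + z)‖) (by positivity) hT α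
    (Tn (actB b) c) t (fun a => Bf b M (om (actB b) c (p + z) (t a)) (φ (p + z))) (fun a => by
      have e2 := hBf (om (actB b) c (p + z) (t a)) (φ (p + z))
      have e3 := om_bound hr0 hr hB hx (t a)
      rw [ht' a, mul_one] at e3
      refine e2.trans ?_
      refine mul_le_mul_of_nonneg_right (mul_le_mul_of_nonneg_left e3 hCF) (norm_nonneg _))
  have a2 := sum_Theta_le M G h1 (K := K * (4 * B / r * ‖z‖))
    (by positivity) hT α (Tn (actB b) c) t (fun a => fderiv ℝ φ (p + z)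
      (nn (actB b) c (p + z) (t a) - nn (actB b) c p (t a))) (fun a => by
      have e2 := hn (nn (actB b) c (p + z) (t a) - nn (actB b) c p (t a))
        (Submodule.sub_mem _ (nn_mem hr0 hr hB hx (t a)) (nn_mem hr0 hr hB hp (t a)))
      have e3 := nn_sub_bound hr0 hr hB hB0 hx hp (t a)
      rw [ht' a, mul_one, add_sub_cancel_left] at e3
      exact e2.trans (mul_le_mul_of_nonneg_left e3 hK))
  have a3 : ‖vco M (fun β A => g * wb b G α β A z z - m * wl G α β A z) (φ (p + z))‖ ≤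
      C2 * (g * (C3 * ‖z‖ * ‖z‖) + m₀ * (C4 * ‖z‖)) * ‖φ (p + z)‖ := by
    refine hV _ _ _ fun β A => ?_
    refine (abs_sub _ _).trans ?_
    rw [abs_mul, abs_mul, abs_of_nonneg hg]
    exact add_le_add (mul_le_mul_of_nonneg_left (hW _ _ _ _ _) hg)
      (mul_le_mul hm (hL _ _ _ _) (abs_nonneg _) hm0)
  unfold lsErr
  refine (norm_add_le _ _).trans ?_
  rw [norm_smul, norm_neg, Complex.norm_I, one_mul]
  refine (add_le_add (norm_sub_le _ _) le_rfl).trans ?_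
  refine (add_le_add (add_le_add a1 a2) a3).trans ?_
  generalize (Module.finrank ℝ (Cfg N) : ℝ) = D at *
  have hφ := norm_nonneg (φ (p + z))
  generalize ‖φ (p + z)‖ = P0 at *
  generalize ‖z‖ = Z at *
  have q1 : 0 ≤ D * (C1 * (CF * (2 / r))) := by positivity
  have q2 : 0 ≤ D * (C1 * (4 * B / r)) := by positivity
  have q3 : 0 ≤ C2 * C3 := by positivity
  have q4 : 0 ≤ C2 * (m₀ * C4) := by positivity
  have e1 : D * (C1 * (CF * (2 / r) * P0)) = D * (C1 * (CF * (2 / r))) * P0 := by ring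
  have e2 : D * (C1 * (K * (4 * B / r * Z))) = D * (C1 * (4 * B / r)) * (Z * K) := by ring
  have e3 : C2 * (g * (C3 * Z * Z) + m₀ * (C4 * Z)) * P0 =
      C2 * C3 * (g * Z ^ 2 * P0) + C2 * (m₀ * C4) * (Z * P0) := by ring
  rw [e1, e2, e3]
  generalize D * (C1 * (CF * (2 / r))) = Q1 at *
  generalize D * (C1 * (4 * B / r)) = Q2 at *
  generalize C2 * C3 = Q3 at *
  generalize C2 * (m₀ * C4) = Q4 at *
  have p1 : 0 ≤ Z * K := by positivity
  have p2 : 0 ≤ g * Z ^ 2 * P0 := by positivity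
  have p3 : 0 ≤ Z * P0 := by positivity
  generalize Z * K = R1 at *
  generalize g * Z ^ 2 * P0 = R2 at *
  generalize Z * P0 = R3 at *
  nlinarith [mul_nonneg q1 p1, mul_nonneg q1 p2, mul_nonneg q1 p3, mul_nonneg q2 hφ,
    mul_nonneg q2 p2, mul_nonneg q2 p3, mul_nonneg q3 hφ, mul_nonneg q3 p1, mul_nonneg q3 p3,
    mul_nonneg q4 hφ, mul_nonneg q4 p1, mul_nonneg q4 p2]

/-- bound of the terms with the derivative of `η` -/
theorem dTerm_le (b : ColorBasis N) (M : FermionRep N F) (G : GammaNine) {r B : ℝ}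
    (hr0 : 0 < r) (hB0 : 0 ≤ B) (hB : ActBound (actB b) B) :
    ∃ C : ℝ, 0 ≤ C ∧ ∀ (α : Fin 16) (c : Cfg N), GapAt (actB b) c r →
      ∀ (ι κ κ' : Type) [Fintype ι] [Fintype κ] [Fintype κ']
      (e : OrthonormalBasis ι ℝ (Uk b c)) (v : OrthonormalBasis κ ℝ (Zs b c))
      (t : OrthonormalBasis κ' ℝ (Tn (actB b) c)) (p : Cfg N), B * ‖p - c‖ ≤ r / 2 →
      ∀ (l : Uk b c × Zs b c →L[ℝ] ℝ) (f : F),
      ‖dTerm b M G α c e v t p l f‖ ≤ C * (‖l‖ * ‖f‖) := by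
  obtain ⟨C1, h1, hT⟩ := exists_Theta_bound M G
  have hD0 : (0 : ℝ) ≤ (Module.finrank ℝ (Cfg N) : ℝ) := Nat.cast_nonneg _
  refine ⟨(Module.finrank ℝ (Cfg N) : ℝ) * C1 +
    (Module.finrank ℝ (Cfg N) : ℝ) * (C1 * (1 + (Module.finrank ℝ (Cfg N) : ℝ))),
    by positivity, fun α c hr ι κ κ' _ _ _ e v t p hp l f => ?_⟩
  have card_le : ∀ (K : Submodule ℝ (Cfg N)) (ι : Type) [Fintype ι]
      (_ : OrthonormalBasis ι ℝ K), (Fintype.card ι : ℝ) ≤ (Module.finrank ℝ (Cfg N) : ℝ) := by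
    intro K ι _ e
    have e1 : Fintype.card ι = Module.finrank ℝ K :=
      (Module.finrank_eq_card_basis e.toBasis).symm
    rw [e1]
    exact_mod_cast Submodule.finrank_le _
  have he : ∀ s, ‖((e s : Uk b c) : Cfg N)‖ = 1 := fun s => e.orthonormal.1 s
  have hv : ∀ i, ‖((v i : Zs b c) : Cfg N)‖ = 1 := fun i => v.orthonormal.1 i
  have ht : ∀ a, ‖((t a : Tn (actB b) c) : Cfg N)‖ = 1 := fun a => t.orthonormal.1 a
  have ht' : ∀ a, ‖t a‖ = 1 := fun a => t.orthonormal.1 a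
  have hle : ∀ s, ‖l (e s, 0) • f‖ ≤ ‖l‖ * ‖f‖ := by
    intro s
    rw [norm_smul]
    refine mul_le_mul_of_nonneg_right ((l.le_opNorm _).trans ?_) (norm_nonneg _)
    have : ‖((e s, 0) : Uk b c × Zs b c)‖ ≤ 1 := by
      refine max_le (le_of_eq (he s)) ?_
      simp
    calc ‖l‖ * ‖((e s, 0) : Uk b c × Zs b c)‖ ≤ ‖l‖ * 1 := by gcongr
      _ = ‖l‖ := mul_one _
  have hlv : ∀ i, ‖l (0, v i) • f‖ ≤ ‖l‖ * ‖f‖ := by
    intro i
    rw [norm_smul]
    refine mul_le_mul_of_nonneg_right ((l.le_opNorm _).trans ?_) (norm_nonneg _)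
    have : ‖((0, v i) : Uk b c × Zs b c)‖ ≤ 1 := by
      refine max_le ?_ (le_of_eq (hv i))
      simp
    calc ‖l‖ * ‖((0, v i) : Uk b c × Zs b c)‖ ≤ ‖l‖ * 1 := by gcongr
      _ = ‖l‖ := mul_one _
  have b1 : ∀ s ∈ (Finset.univ : Finset ι), ‖aA M G α (e s) (l (e s, 0) • f)‖ ≤
      C1 * (‖l‖ * ‖f‖) := by
    intro s _
    unfold aA
    rw [LinearMap.smul_apply, norm_smul, norm_neg, Complex.norm_I, one_mul]
    refine (hT _ _ _).trans ?_
    rw [he s, mul_one]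
    exact mul_le_mul_of_nonneg_left (hle s) h1
  have hnn : ∀ (i : κ) (a : κ'), ‖((⟪((v i : Zs b c) : Cfg N), nn (actB b) c p (t a)⟫_ℝ : ℝ) : ℂ)‖
      ≤ 1 := by
    intro i a
    rw [Complex.norm_real]
    refine (norm_inner_le_norm _ _).trans ?_
    rw [hv i, one_mul]
    refine (nn_bound hr0 hr hB hB0 hp (t a)).trans ?_
    rw [ht' a, mul_one]
    calc 2 * B / r * ‖p - c‖ = (B * ‖p - c‖) * (2 / r) := by ring
      _ ≤ (r / 2) * (2 / r) := by gcongr
      _ = 1 := by field_simp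
  have b2 : ∀ i ∈ (Finset.univ : Finset κ), ‖aB b c M G α t p (v i) (l (0, v i) • f)‖ ≤
      C1 * (1 + (Module.finrank ℝ (Cfg N) : ℝ)) * (‖l‖ * ‖f‖) := by
    intro i _
    unfold aB
    rw [LinearMap.smul_apply, norm_smul, norm_neg, Complex.norm_I, one_mul,
      LinearMap.sub_apply, LinearMap.sum_apply]
    refine (norm_sub_le _ _).trans ?_
    have c1 : ‖Theta M G α (v i) (l (0, v i) • f)‖ ≤ C1 * (‖l‖ * ‖f‖) := by
      refine (hT _ _ _).trans ?_
      rw [hv i, mul_one]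
      exact mul_le_mul_of_nonneg_left (hlv i) h1
    have c2 : ∀ a ∈ (Finset.univ : Finset κ'),
        ‖(((⟪((v i : Zs b c) : Cfg N), nn (actB b) c p (t a)⟫_ℝ : ℝ) : ℂ) •
          Theta M G α (t a)) (l (0, v i) • f)‖ ≤ C1 * (‖l‖ * ‖f‖) := by
      intro a _
      rw [LinearMap.smul_apply, norm_smul]
      have d1 : ‖Theta M G α (t a) (l (0, v i) • f)‖ ≤ C1 * (‖l‖ * ‖f‖) := by
        refine (hT _ _ _).trans ?_
        rw [ht a, mul_one]
        exact mul_le_mul_of_nonneg_left (hlv i) h1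
      calc _ ≤ 1 * (C1 * (‖l‖ * ‖f‖)) := mul_le_mul (hnn i a) d1 (norm_nonneg _) zero_le_one
        _ = _ := one_mul _
    have c3 := (norm_sum_le (Finset.univ : Finset κ') fun a =>
      (((⟪((v i : Zs b c) : Cfg N), nn (actB b) c p (t a)⟫_ℝ : ℝ) : ℂ) •
          Theta M G α (t a)) (l (0, v i) • f)).trans (Finset.sum_le_sum c2)
    rw [Finset.sum_const, Finset.card_univ, nsmul_eq_mul] at c3
    have c4 : (Fintype.card κ' : ℝ) * (C1 * (‖l‖ * ‖f‖)) ≤
        (Module.finrank ℝ (Cfg N) : ℝ) * (C1 * (‖l‖ * ‖f‖)) :=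
      mul_le_mul_of_nonneg_right (card_le _ _ t) (by positivity)
    refine (add_le_add c1 (c3.trans c4)).trans (le_of_eq ?_)
    ring
  have s1 := (norm_sum_le (Finset.univ : Finset ι) fun s =>
    aA M G α (e s) (l (e s, 0) • f)).trans (Finset.sum_le_sum b1)
  have s2 := (norm_sum_le (Finset.univ : Finset κ) fun i =>
    aB b c M G α t p (v i) (l (0, v i) • f)).trans (Finset.sum_le_sum b2)
  rw [Finset.sum_const, Finset.card_univ, nsmul_eq_mul] at s1 s2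
  have s3 : (Fintype.card ι : ℝ) * (C1 * (‖l‖ * ‖f‖)) ≤
      (Module.finrank ℝ (Cfg N) : ℝ) * (C1 * (‖l‖ * ‖f‖)) :=
    mul_le_mul_of_nonneg_right (card_le _ _ e) (by positivity)
  have s4 : (Fintype.card κ : ℝ) * (C1 * (1 + (Module.finrank ℝ (Cfg N) : ℝ)) * (‖l‖ * ‖f‖)) ≤
      (Module.finrank ℝ (Cfg N) : ℝ) *
        (C1 * (1 + (Module.finrank ℝ (Cfg N) : ℝ)) * (‖l‖ * ‖f‖)) :=
    mul_le_mul_of_nonneg_right (card_le _ _ v) (by positivity)
  unfold dTerm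
  refine (norm_add_le _ _).trans ((add_le_add (s1.trans s3) (s2.trans s4)).trans (le_of_eq ?_))
  ring

/-- **The remainder of (LS) for `Φ = η • φ(c + ·)`**, pointwise, uniform in `c`, `g ≥ 0`,
`|m| ≤ m₀`. -/
theorem LS_half_err (b : ColorBasis N) (M : FermionRep N F) (G : GammaNine) {r B m₀ : ℝ}
    (hr0 : 0 < r) (hB0 : 0 < B) (hB : ActBound (actB b) B) (hm0 : 0 ≤ m₀) :
    ∃ C : ℝ, 0 ≤ C ∧ ∀ (g m : ℝ), 0 ≤ g → |m| ≤ m₀ → ∀ (α : Fin 16) (c : Cfg N),
      Comc b c → GapAt (actB b) c r →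
      ∀ (ι κ κ' : Type) [Fintype ι] [Fintype κ] [Fintype κ']
      (e : OrthonormalBasis ι ℝ (Uk b c)) (v : OrthonormalBasis κ ℝ (Zs b c))
      (t : OrthonormalBasis κ' ℝ (Tn (actB b) c)) (η : Uk b c × Zs b c → ℝ) (φ : Cfg N → F)
      (x : Uk b c × Zs b c), DifferentiableAt ℝ η x → DifferentiableAt ℝ φ (c + x.1 + x.2) →
      InfEq (actB b) (Bf b M) φ (c + x.1 + x.2) →
      B * ‖(x.1 : Cfg N) + (x.2 : Cfg N)‖ ≤ r / 2 →
      ‖η x • dcharge b M G g m α φ (c + x.1 + x.2) -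
        AB b M G g m α c e v t (half b c η φ) x‖ ≤
      C * ((|η x| + ‖fderiv ℝ η x‖) * ‖φ (c + x.1 + x.2)‖ +
        ‖(x.2 : Cfg N)‖ * ‖fderiv ℝ (half b c η φ) x‖ +
        g * ‖(x.2 : Cfg N)‖ ^ 2 * ‖half b c η φ x‖) := by
  obtain ⟨C1, h1, hE⟩ := lsErr_le b M G hr0 hB0.le hB hm0
  obtain ⟨C2, h2, hD⟩ := dTerm_le b M G hr0 hB0.le hB
  have hR0 : (0 : ℝ) ≤ r / (2 * B) := by positivity
  refine ⟨C1 * (1 + r / (2 * B)) + C2, by positivity,
    fun g m hg hm α c hc hr ι κ κ' _ _ _ e v t η φ x hη hφ h hx => ?_⟩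
  have hx1 : B * ‖(x.1 : Cfg N)‖ ≤ r / 2 :=
    (mul_le_mul_of_nonneg_left (norm_fst_le x) hB0.le).trans hx
  have hZ : ‖(x.2 : Cfg N)‖ ≤ r / (2 * B) := by
    rw [le_div_iff₀ (by positivity)]
    have := (mul_le_mul_of_nonneg_left (norm_snd_le x) hB0.le).trans hx
    linarith
  rw [LS_half (e := e) (v := v) (t := t) hr0 hr hB hc hη hφ h hx1, add_sub_cancel_left]
  refine (norm_sub_le _ _).trans ?_
  rw [norm_smul, Real.norm_eq_abs]
  have d1 := hD α c hr ι κ κ' e v t (c + x.1) (by rwa [add_sub_cancel_left]) (fderiv ℝ η x)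
    (φ (c + x.1 + x.2))
  have hΦ : ‖half b c η φ x‖ = |η x| * ‖φ (c + x.1 + x.2)‖ := by
    unfold half
    rw [norm_smul, Real.norm_eq_abs]
  have d2 : |η x| * ‖lsErr b M G g m α c t (Bf b M) (c + x.1) x.2 φ‖ ≤
      C1 * (|η x| * ‖φ (c + x.1 + x.2)‖ + ‖(x.2 : Cfg N)‖ *
        (‖fderiv ℝ (half b c η φ) x‖ + ‖fderiv ℝ η x‖ * ‖φ (c + x.1 + x.2)‖) +
        g * ‖(x.2 : Cfg N)‖ ^ 2 * (|η x| * ‖φ (c + x.1 + x.2)‖) +
        ‖(x.2 : Cfg N)‖ * (|η x| * ‖φ (c + x.1 + x.2)‖)) := by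
    rcases eq_or_ne (η x) 0 with h0 | h0
    · rw [h0, abs_zero]
      simp only [zero_mul]
      positivity
    · have hη0 : 0 < |η x| := abs_pos.2 h0
      have h3 := hE g m hg hm α c hr κ' t (c + x.1) x.2 (by
          have e1 : c + (x.1 : Cfg N) + (x.2 : Cfg N) - c = (x.1 : Cfg N) + (x.2 : Cfg N) := by
            abel
          rwa [e1]) (by rwa [add_sub_cancel_left]) φ
        ((‖fderiv ℝ (half b c η φ) x‖ + ‖fderiv ℝ η x‖ * ‖φ (c + x.1 + x.2)‖) / |η x|)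
        (by positivity) (fun n hn => by
          have h4 := norm_normal_le hη hφ hn
          rw [div_mul_eq_mul_div, le_div_iff₀ hη0]
          linarith)
      refine (mul_le_mul_of_nonneg_left h3 hη0.le).trans (le_of_eq ?_)
      field_simp
  refine (add_le_add d2 d1).trans ?_
  rw [hΦ]
  have u0 := norm_nonneg (φ (c + x.1 + x.2))
  have u1 := norm_nonneg (fderiv ℝ η x)
  have u2 := norm_nonneg (fderiv ℝ (half b c η φ) x)
  have u3 := abs_nonneg (η x)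
  have u4 := norm_nonneg (x.2 : Cfg N)
  generalize ‖φ (c + x.1 + x.2)‖ = P at *
  generalize ‖fderiv ℝ η x‖ = L at *
  generalize ‖fderiv ℝ (half b c η φ) x‖ = Q at *
  generalize |η x| = S at *
  generalize ‖(x.2 : Cfg N)‖ = Z at *
  generalize r / (2 * B) = R at *
  have k1 : Z * (L * P) ≤ R * (L * P) := mul_le_mul_of_nonneg_right hZ (by positivity)
  have k2 : Z * (S * P) ≤ R * (S * P) := mul_le_mul_of_nonneg_right hZ (by positivity)
  have k3 : S * P + Z * (Q + L * P) + g * Z ^ 2 * (S * P) + Z * (S * P) ≤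
      (1 + R) * ((S + L) * P + Z * Q + g * Z ^ 2 * (S * P)) := by
    have w1 : 0 ≤ R * (Z * Q) := by positivity
    have w2 : 0 ≤ R * (g * Z ^ 2 * (S * P)) := by positivity
    have w3 : 0 ≤ L * P := by positivity
    nlinarith
  have k4 : L * P ≤ (S + L) * P + Z * Q + g * Z ^ 2 * (S * P) := by
    have w1 : 0 ≤ S * P := by positivity
    have w2 : 0 ≤ Z * Q := by positivity
    have w3 : 0 ≤ g * Z ^ 2 * (S * P) := by positivity
    nlinarith
  have k5 := mul_le_mul_of_nonneg_left k3 h1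
  have k6 := mul_le_mul_of_nonneg_left k4 h2
  nlinarith

end Crest.Agent.R330.SlQE87

end
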