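import Crest.Agent.R330.LemA_342
import Crest.Agent.R330.SlQE_87
import Crest.Agent.R330.LemRmB_349
import Crest.Agent.R330.SlO_712
import Crest.Agent.R330.QM0_363
import Crest.Agent.R330.Ims2_714
import Crest.Agent.R330.Brid_837

/-!
# Row 330, S7-R (helper302): Lemma R, part 2

For a commuting configuration `c` there is `s > 0` such that, for `η` smooth, supported in
`‖u‖² + ‖z‖² ≤ s²`, and every core vector `φ`, with `Φ (u,z) = η (u,z) φ (c + u + z)`: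
`Σ_α ∫ ‖Aop Φ + Bop Φ‖² ≤ C (q_{g,m}(φ) + ∫ ‖φ‖²)` and `∫ ‖Φ‖² ≤ C ∫ ‖φ‖²`.
-/

set_option autoImplicit false
set_option linter.unusedSectionVars false

open MeasureTheory Filter Topology Crest.MathPhysics.MatrixQM
open Crest.Agent.R330.Defs478 Crest.Agent.R330.Frame839
open Crest.Agent.R330.LS839 Crest.Agent.R330.Clus839 Crest.Agent.R330.Bind6839
open Crest.Agent.R330.SlQE87 Crest.Agent.R330.LemRm349 Crest.Agent.R330.LemA342
open Crest.Agent.R330.QM0363 Crest.Agent.R330.Moment776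
open scoped ContDiff InnerProductSpace ENNReal

noncomputable section

namespace Crest.Agent.R330.LemR2302

variable {N : ℕ} {F : Type*} [NormedAddCommGroup F] [InnerProductSpace ℂ F]
  [FiniteDimensional ℂ F]

/-! ### 1. The radial cut-off -/

theorem dcharge_cut (b : ColorBasis N) (M : FermionRep N F) (G : GammaNine) (g m : ℝ)
    (α : Fin 16) (L : ℝ) {φ : Cfg N → F} (hφ : Differentiable ℝ φ) (x : Cfg N) :
    dcharge b M G g m α (fun y => cut L y • φ y) x =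
      cut L x • dcharge b M G g m α φ x +
        Ims714.kin G M α (Ims714.grad (cut L) x) (φ x) := by
  have hcd : DifferentiableAt ℝ (cut (N := N) L) x :=
    (contDiff_cut L).differentiable (by simp) x
  rw [Ims2714.dcharge_eq_dop, Ims714.dop_mul G M α _ hcd (hφ x), ← Ims2714.dcharge_eq_dop]

/-- **the radial cut-off costs a constant times the mass** -/
theorem qf_cut (b : ColorBasis N) (M : FermionRep N F) (R : GaugeAction b M) (G : GammaNine)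
    {L : ℝ} (hL : 0 < L) : ∃ C : ℝ, 0 ≤ C ∧ ∀ (g m : ℝ) (φ : Cfg N → F), IsCoreVec b R φ →
      qf b M G g m (fun y => cut L y • φ y) ≤ 2 * qf b M G g m φ + C * ∫ x, ‖φ x‖ ^ 2 := by
  obtain ⟨C, hC0, hC⟩ := HIAnn245.exists_sT_bound
  set K : ℝ := 8 / 3 * C / L with hK
  have hK0 : 0 ≤ K := by positivity
  refine ⟨2 * K ^ 2, by positivity, fun g m φ hφ => ?_⟩
  have hp : ∀ (α : Fin 16) (x : Cfg N), ‖dcharge b M G g m α (fun y => cut L y • φ y) x‖ ^ 2 ≤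
      2 * ‖dcharge b M G g m α φ x‖ ^ 2 + 2 * K ^ 2 * ‖φ x‖ ^ 2 := by
    intro α x
    have n1 : ‖cut L x • dcharge b M G g m α φ x‖ ≤ ‖dcharge b M G g m α φ x‖ := by
      rw [norm_smul, Real.norm_eq_abs, abs_of_nonneg (cut_nonneg L x)]
      exact mul_le_of_le_one_left (norm_nonneg _) (cut_le_one L x)
    have n3 : ‖Ims714.kin G M α (Ims714.grad (cut L) x) (φ x)‖ ≤ K * ‖φ x‖ :=
      (Ims714.norm_kin_le G M α (Ims714.grad (cut L) x) (φ x)).trans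
        (mul_le_mul_of_nonneg_right (norm_grad_cut hL hC0.le hC x) (norm_nonneg _))
    have h5 : ‖dcharge b M G g m α (fun y => cut L y • φ y) x‖ ≤
        ‖dcharge b M G g m α φ x‖ + K * ‖φ x‖ := by
      rw [dcharge_cut b M G g m α L (cv_diff hφ) x]
      exact (norm_add_le _ _).trans (add_le_add n1 n3)
    calc ‖dcharge b M G g m α (fun y => cut L y • φ y) x‖ ^ 2
        ≤ (‖dcharge b M G g m α φ x‖ + K * ‖φ x‖) ^ 2 := by gcongr
      _ ≤ 2 * ‖dcharge b M G g m α φ x‖ ^ 2 + 2 * K ^ 2 * ‖φ x‖ ^ 2 := by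
          nlinarith [sq_nonneg (‖dcharge b M G g m α φ x‖ - K * ‖φ x‖)]
  have h1 : ∀ α : Fin 16, ∫ x, ‖dcharge b M G g m α (fun y => cut L y • φ y) x‖ ^ 2 ≤
      2 * (∫ x, ‖dcharge b M G g m α φ x‖ ^ 2) + 2 * K ^ 2 * ∫ x, ‖φ x‖ ^ 2 := by
    intro α
    have hI1 : Integrable fun x => 2 * ‖dcharge b M G g m α φ x‖ ^ 2 :=
      (int_sq_dcharge G g m α hφ).const_mul _
    have hI2 : Integrable fun x => 2 * K ^ 2 * ‖φ x‖ ^ 2 := (int_sq hφ).const_mul _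
    rw [← integral_const_mul, ← integral_const_mul, ← integral_add hI1 hI2]
    exact integral_mono (int_sq_dcharge G g m α (core_cut L hφ)) (hI1.add hI2) (hp α)
  unfold qf
  calc (1 / 16 : ℝ) * ∑ α : Fin 16, ∫ x, ‖dcharge b M G g m α (fun y => cut L y • φ y) x‖ ^ 2
      ≤ (1 / 16 : ℝ) * ∑ α : Fin 16, (2 * (∫ x, ‖dcharge b M G g m α φ x‖ ^ 2) +
        2 * K ^ 2 * ∫ x, ‖φ x‖ ^ 2) := by
        refine mul_le_mul_of_nonneg_left (Finset.sum_le_sum fun α _ => h1 α) (by norm_num)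
    _ = _ := by
        rw [Finset.sum_add_distrib, Finset.sum_const, Finset.card_univ, Fintype.card_fin,
          ← Finset.mul_sum]
        simp only [nsmul_eq_mul]
        push_cast
        ring

theorem mass_cut {b : ColorBasis N} {M : FermionRep N F} {R : GaugeAction b M} (L : ℝ)
    {φ : Cfg N → F} (hφ : IsCoreVec b R φ) :
    ∫ x, ‖cut L x • φ x‖ ^ 2 ≤ ∫ x, ‖φ x‖ ^ 2 := by
  refine integral_mono (int_sq (core_cut L hφ)) (int_sq hφ) fun x => ?_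
  have h1 : ‖cut L x • φ x‖ ≤ ‖φ x‖ := by
    rw [norm_smul, Real.norm_eq_abs, abs_of_nonneg (cut_nonneg L x)]
    exact mul_le_of_le_one_left (norm_nonneg _) (cut_le_one L x)
  exact pow_le_pow_left₀ (norm_nonneg _) h1 2

/-! ### 2. The slice hypothesis on the ball of the slice -/

section slice

variable {b : ColorBasis N} {c : Cfg N}

/-- the ball in the slice -/
def Tb (b : ColorBasis N) (c : Cfg N) (s : ℝ) : Set (Sc b c) :=
  {p | ‖p.1‖ ^ 2 + ‖p.2‖ ^ 2 < s ^ 2}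

theorem measurableSet_Tb (s : ℝ) : MeasurableSet (Tb b c s) :=
  (isOpen_lt (by fun_prop) continuous_const).measurableSet

/-- **the slice hypothesis on the ball**, any Haar measures -/
theorem sliceLe_Tb (μU : Measure (Uk b c)) [μU.IsAddHaarMeasure] (μZ : Measure (Zs b c))
    [μZ.IsAddHaarMeasure] {r0 C0 : ℝ} (H : SlM712.SRad b c r0 C0) {s : ℝ} (hs0 : 0 ≤ s)
    (hs : s ≤ r0) :
    ∃ C : ℝ, 0 ≤ C ∧ SliceLe b ((μU.prod μZ).restrict (Tb b c s)) (spt b c) C := by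
  have hι : LinearMap.range (SlB314.Nor b c).subtypeₗᵢ.toLinearMap = SlB314.Nor b c :=
    SlM712.range_sub _
  obtain ⟨e, he⟩ := exists_uz (SlB314.Nor b c).subtypeₗᵢ hι
  have h1 : SliceLe b ((volume : Measure (SlB314.Nor b c)).restrict (Metric.ball 0 s))
      (fun v => c + (SlB314.Nor b c).subtypeₗᵢ v) (C0 / 2)⁻¹ := by
    refine sliceLe_of_density_ge (J := fun v => SlN712.jd b c C0 ((SlB314.Nor b c).subtypeₗᵢ v))
      (T := SlD314.tube b c s) (half_pos H.Cpos) ?_ fun f hf hi => ?_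
    · rw [ae_restrict_iff' Metric.isOpen_ball.measurableSet]
      refine Eventually.of_forall fun v hv => (H.jd_lb ?_).le
      rw [LinearIsometry.norm_map]
      have : ‖v‖ < s := by simpa using hv
      exact this.trans_le hs
    · exact (H.lintegral_inv hι hs hf hi).symm.le
  obtain ⟨k, hk, h2⟩ := sliceLe_uz (SlB314.Nor b c).subtypeₗᵢ hι volume μU μZ
  have h3 := h2 _ Metric.isOpen_ball.measurableSet _ h1 e he
  have hC0 := H.Cpos
  refine ⟨k * (C0 / 2)⁻¹, by positivity, ?_⟩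
  have hn : ∀ p : Sc b c, ‖e p‖ ^ 2 = ‖p.1‖ ^ 2 + ‖p.2‖ ^ 2 := by
    intro p
    rw [← (SlB314.Nor b c).subtypeₗᵢ.norm_map, he, @norm_add_sq_real, Zs_perp_Uk p.1.2 p.2.2]
    simp
  have hset : e ⁻¹' Metric.ball 0 s = Tb b c s := by
    ext p
    unfold Tb
    rw [Set.mem_preimage, Metric.mem_ball, dist_zero_right, Set.mem_ofPred_eq, ← hn]
    exact (pow_lt_pow_iff_left₀ (norm_nonneg _) hs0 two_ne_zero).symm
  rw [hset] at h3
  exact h3

/-- a core vector along the slice -/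
theorem slice_sq {M : FermionRep N F} {R : GaugeAction b M} {ν : Measure (Sc b c)} {C₀ : ℝ}
    (hC₀ : 0 ≤ C₀) (hs : SliceLe b ν (spt b c) C₀) {ψ : Cfg N → F} (hψ : IsCoreVec b R ψ) :
    Integrable (fun p => ‖ψ (spt b c p)‖ ^ 2) ν ∧
      ∫ p, ‖ψ (spt b c p)‖ ^ 2 ∂ν ≤ C₀ * ∫ x, ‖ψ x‖ ^ 2 := by
  have h0 : 0 ≤ ∫ x, ‖ψ x‖ ^ 2 := integral_nonneg fun x => by positivity
  refine integral_le_of_lintegral (by positivity) ?_ (Eventually.of_forall fun x => by positivity)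
    ?_
  · exact ((hψ.1.continuous.comp continuous_spt).norm.pow 2).aestronglyMeasurable
  · have h1 := hs (fun x => ENNReal.ofReal (‖ψ x‖ ^ 2))
      ((hψ.1.continuous.norm.pow 2).measurable.ennreal_ofReal) (fun h x => by
        rw [hψ.2.2, Cov837.norm_rho])
    rw [← ofReal_integral_eq_lintegral_ofReal (int_sq hψ)
      (Eventually.of_forall fun x => by positivity), ← ENNReal.ofReal_mul hC₀] at h1
    exact h1

end slice

/-! ### 3. The pointwise bound -/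

section pw

variable {b : ColorBasis N} {c : Cfg N}

theorem norm_add_sq_uz (x : Sc b c) :
    ‖(x.1 : Cfg N) + (x.2 : Cfg N)‖ ^ 2 = ‖x.1‖ ^ 2 + ‖x.2‖ ^ 2 := by
  rw [@norm_add_sq_real, Zs_perp_Uk x.1.2 x.2.2]
  simp

theorem norm_lt_of_mem {s : ℝ} (hs : 0 ≤ s) {x : Sc b c} (hx : x ∈ Tb b c s) :
    ‖(x.1 : Cfg N) + (x.2 : Cfg N)‖ < s := by
  have h1 : ‖(x.1 : Cfg N) + (x.2 : Cfg N)‖ ^ 2 < s ^ 2 := by
    rw [norm_add_sq_uz]
    exact hx
  exact (pow_lt_pow_iff_left₀ (norm_nonneg _) hs two_ne_zero).1 h1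

theorem norm_fderiv_half {η : Sc b c → ℝ} {φ : Cfg N → F} {x : Sc b c}
    (hη : DifferentiableAt ℝ η x) (hφ : DifferentiableAt ℝ φ (c + x.1 + x.2)) :
    ‖fderiv ℝ (half b c η φ) x‖ ≤ |η x| * (‖fderiv ℝ φ (c + x.1 + x.2)‖ * ‖slL b c‖) +
      ‖fderiv ℝ η x‖ * ‖φ (c + x.1 + x.2)‖ := by
  refine ContinuousLinearMap.opNorm_le_bound _ (by positivity) fun y => ?_
  rw [fderiv_half hη hφ]
  have h1 : ‖fderiv ℝ φ (c + x.1 + x.2) (y.1 + y.2)‖ ≤
      ‖fderiv ℝ φ (c + x.1 + x.2)‖ * (‖slL b c‖ * ‖y‖) :=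
    ((fderiv ℝ φ (c + x.1 + x.2)).le_opNorm _).trans
      (mul_le_mul_of_nonneg_left ((slL b c).le_opNorm y) (norm_nonneg _))
  have h2 : ‖fderiv ℝ η x y‖ ≤ ‖fderiv ℝ η x‖ * ‖y‖ := (fderiv ℝ η x).le_opNorm y
  refine (norm_add_le _ _).trans ?_
  rw [norm_smul, norm_smul, Real.norm_eq_abs]
  have h3 := mul_le_mul_of_nonneg_left h1 (abs_nonneg (η x))
  have h4 := mul_le_mul_of_nonneg_right h2 (norm_nonneg (φ (c + x.1 + x.2)))
  calc _ ≤ |η x| * (‖fderiv ℝ φ (c + x.1 + x.2)‖ * (‖slL b c‖ * ‖y‖)) +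
        ‖fderiv ℝ η x‖ * ‖y‖ * ‖φ (c + x.1 + x.2)‖ := add_le_add h3 h4
    _ = _ := by ring

/-- off the support everything vanishes -/
theorem AB_zero {M : FermionRep N F} {G : GammaNine} {g m : ℝ} {α : Fin 16}
    {ι κ κ' : Type*} [Fintype ι] [Fintype κ] [Fintype κ']
    {e : OrthonormalBasis ι ℝ (Uk b c)} {v : OrthonormalBasis κ ℝ (Zs b c)}
    {t : OrthonormalBasis κ' ℝ (Tn (actB b) c)} {Φ : Sc b c → F} {x : Sc b c}
    (h : Φ =ᶠ[𝓝 x] fun _ => 0) : AB b M G g m α c e v t Φ x = 0 := by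
  have h1 : fderiv ℝ Φ x = 0 := by
    rw [h.fderiv_eq]
    simp
  have h2 : Φ x = 0 := h.self_of_nhds
  unfold AB
  simp [h1, h2]

/-- **pointwise bound of the charge of `Φ`.** -/
theorem AB_le (b : ColorBasis N) (M : FermionRep N F) (R : GaugeAction b M) (G : GammaNine)
    {c : Cfg N} (hc : Comc b c) {r B : ℝ} (hr0 : 0 < r) (hr : GapAt (actB b) c r)
    (hB : ActBound (actB b) B) (hB0 : 0 < B) {s : ℝ} (hs0 : 0 ≤ s) (hBs : B * s ≤ r / 2)
    {E : ℝ} (hE : 0 ≤ E) :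
    ∃ K : ℝ, 0 ≤ K ∧ ∀ (η : Sc b c → ℝ), Differentiable ℝ η → (∀ x, |η x| ≤ E) →
      (∀ x, ‖fderiv ℝ η x‖ ≤ E) → ∀ (g m : ℝ), 1 ≤ g → 0 ≤ m → m ≤ 1 → ∀ (α : Fin 16)
      (ι κ κ' : Type) [Fintype ι] [Fintype κ] [Fintype κ']
      (e : OrthonormalBasis ι ℝ (Uk b c)) (v : OrthonormalBasis κ ℝ (Zs b c))
      (t : OrthonormalBasis κ' ℝ (Tn (actB b) c)) (φ : Cfg N → F), IsCoreVec b R φ →
      ∀ x ∈ Tb b c s, ‖AB b M G g m α c e v t (half b c η φ) x‖ ^ 2 ≤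
        K * (‖dcharge b M G g m α φ (spt b c x)‖ ^ 2 + ‖φ (spt b c x)‖ ^ 2 +
          sden g ‖x.2‖ φ (spt b c x)) := by
  obtain ⟨C1, hC1, hLS⟩ := LS_half_err b M G hr0 hB0 hB (m₀ := 1) zero_le_one
  set Λ : ℝ := ‖slL b c‖ with hΛ
  have hΛ0 : 0 ≤ Λ := norm_nonneg (slL b c)
  refine ⟨4 * (E ^ 2 + (C1 * ((2 + s) * E)) ^ 2 + (C1 * (E * Λ)) ^ 2 + (C1 * E) ^ 2),
    by positivity, fun η hη hηE hdE g m hg hm hm1 α ι κ κ' _ _ _ e v t φ hφ x hx => ?_⟩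
  have hd : DifferentiableAt ℝ φ (c + x.1 + x.2) := cv_diff hφ _
  have hns := norm_lt_of_mem hs0 hx
  have h1 := hLS g m (by linarith) (by rw [abs_of_nonneg hm]; exact hm1) α c hc hr ι κ κ' e v t
    η φ x (hη x) hd (infEq_core hφ _) ((mul_le_mul_of_nonneg_left hns.le hB0.le).trans hBs)
  have h2 := norm_fderiv_half (b := b) (c := c) (hη x) hd
  have hZs : ‖(x.2 : Cfg N)‖ ≤ s := (SlQE87.norm_snd_le x).trans hns.le
  have hsp : spt b c x = c + (x.1 : Cfg N) + (x.2 : Cfg N) := rfl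
  have hzz : ‖(x.2 : Cfg N)‖ = ‖x.2‖ := rfl
  have hhalf : ‖half b c η φ x‖ = |η x| * ‖φ (c + x.1 + x.2)‖ := by
    unfold half
    rw [norm_smul, Real.norm_eq_abs]
  have h3 : ‖AB b M G g m α c e v t (half b c η φ) x‖ ≤
      ‖η x • dcharge b M G g m α φ (c + x.1 + x.2)‖ +
      ‖η x • dcharge b M G g m α φ (c + x.1 + x.2) -
        AB b M G g m α c e v t (half b c η φ) x‖ := by
    have := norm_sub_le (η x • dcharge b M G g m α φ (c + x.1 + x.2))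
      (η x • dcharge b M G g m α φ (c + x.1 + x.2) -
        AB b M G g m α c e v t (half b c η φ) x)
    rwa [sub_sub_cancel] at this
  rw [norm_smul, Real.norm_eq_abs] at h3
  rw [hhalf] at h1
  have hgsq := fderiv_norm_sq_le φ (c + x.1 + x.2)
  have hηx := hηE x
  have hdx := hdE x
  rw [hsp, ← hzz]
  unfold sden
  have hgs0 := gsq_nonneg φ (c + (x.1 : Cfg N) + (x.2 : Cfg N))
  have p1 := norm_nonneg (dcharge b M G g m α φ (c + x.1 + x.2))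
  have p2 := norm_nonneg (φ (c + x.1 + x.2))
  have p3 := norm_nonneg (fderiv ℝ φ (c + x.1 + x.2))
  have p4 := norm_nonneg (x.2 : Cfg N)
  have p5 := norm_nonneg (fderiv ℝ (half b c η φ) x)
  have p6 := norm_nonneg (fderiv ℝ η x)
  have p7 := abs_nonneg (η x)
  have p8 := norm_nonneg (AB b M G g m α c e v t (half b c η φ) x)
  generalize ‖AB b M G g m α c e v t (half b c η φ) x‖ = A at *
  generalize ‖η x • dcharge b M G g m α φ (c + x.1 + x.2) -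
        AB b M G g m α c e v t (half b c η φ) x‖ = D0 at *
  generalize ‖dcharge b M G g m α φ (c + x.1 + x.2)‖ = q at *
  generalize ‖φ (c + x.1 + x.2)‖ = P at *
  generalize ‖fderiv ℝ φ (c + x.1 + x.2)‖ = D at *
  generalize gsq φ (c + (x.1 : Cfg N) + (x.2 : Cfg N)) = W at *
  generalize ‖(x.2 : Cfg N)‖ = Z at *
  generalize ‖fderiv ℝ (half b c η φ) x‖ = Q at *
  generalize ‖fderiv ℝ η x‖ = L at *
  generalize |η x| = S at *
  have k1 : Z * Q ≤ Z * (E * (D * Λ)) + s * (E * P) := by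
    have a1 : Q ≤ E * (D * Λ) + E * P :=
      h2.trans (add_le_add (mul_le_mul_of_nonneg_right hηx (by positivity))
        (mul_le_mul_of_nonneg_right hdx p2))
    calc Z * Q ≤ Z * (E * (D * Λ) + E * P) := mul_le_mul_of_nonneg_left a1 p4
      _ = Z * (E * (D * Λ)) + Z * (E * P) := by ring
      _ ≤ Z * (E * (D * Λ)) + s * (E * P) := by
          have : Z * (E * P) ≤ s * (E * P) := mul_le_mul_of_nonneg_right hZs (by positivity)
          linarith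
  have hg0 : 0 ≤ g := by linarith
  have k2 : g * Z ^ 2 * (S * P) ≤ E * (g * Z ^ 2 * P) := by
    have : g * Z ^ 2 * (S * P) ≤ g * Z ^ 2 * (E * P) :=
      mul_le_mul_of_nonneg_left (mul_le_mul_of_nonneg_right hηx p2) (by positivity)
    linarith
  have k3 : (S + L) * P ≤ 2 * E * P := mul_le_mul_of_nonneg_right (by linarith) p2
  have k4 : A ≤ E * q + C1 * ((2 + s) * E) * P + C1 * (E * Λ) * (Z * D) +
      C1 * E * (g * Z ^ 2 * P) := by
    have a1 : S * q ≤ E * q := mul_le_mul_of_nonneg_right hηx p1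
    have a2 : C1 * ((S + L) * P + Z * Q + g * Z ^ 2 * (S * P)) ≤
        C1 * (2 * E * P + (Z * (E * (D * Λ)) + s * (E * P)) + E * (g * Z ^ 2 * P)) :=
      mul_le_mul_of_nonneg_left (add_le_add (add_le_add k3 k1) k2) hC1
    calc A ≤ S * q + D0 := h3
      _ ≤ E * q + C1 * (2 * E * P + (Z * (E * (D * Λ)) + s * (E * P)) +
          E * (g * Z ^ 2 * P)) := add_le_add a1 (h1.trans a2)
      _ = _ := by ring
  have k5 : A ^ 2 ≤ 4 * ((E * q) ^ 2 + (C1 * ((2 + s) * E) * P) ^ 2 +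
      (C1 * (E * Λ) * (Z * D)) ^ 2 + (C1 * E * (g * Z ^ 2 * P)) ^ 2) := by
    refine (pow_le_pow_left₀ p8 k4 2).trans ?_
    generalize E * q = x1
    generalize C1 * ((2 + s) * E) * P = x2
    generalize C1 * (E * Λ) * (Z * D) = x3
    generalize C1 * E * (g * Z ^ 2 * P) = x4
    nlinarith [sq_nonneg (x1 - x2), sq_nonneg (x1 - x3), sq_nonneg (x1 - x4),
      sq_nonneg (x2 - x3), sq_nonneg (x2 - x4), sq_nonneg (x3 - x4)]
  refine k5.trans ?_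
  have hW : (Z * D) ^ 2 ≤ Z ^ 2 * W := by
    rw [mul_pow]
    exact mul_le_mul_of_nonneg_left hgsq (sq_nonneg _)
  have hginv : 0 ≤ g⁻¹ := inv_nonneg.2 hg0
  set S0 : ℝ := q ^ 2 + P ^ 2 + (Z ^ 2 * W + g ^ 2 * (Z ^ 4 * P ^ 2) + g * (Z ^ 2 * P ^ 2) +
    g⁻¹ * W) with hS0
  have z1 : 0 ≤ Z ^ 2 * W := by positivity
  have z2 : 0 ≤ g ^ 2 * (Z ^ 4 * P ^ 2) := by positivity
  have z3 : 0 ≤ g * (Z ^ 2 * P ^ 2) := by positivity
  have z4 : 0 ≤ g⁻¹ * W := by positivity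
  have z5 : 0 ≤ q ^ 2 := sq_nonneg _
  have z6 : 0 ≤ P ^ 2 := sq_nonneg _
  have b1 : q ^ 2 ≤ S0 := by linarith
  have b2 : P ^ 2 ≤ S0 := by linarith
  have b3 : (Z * D) ^ 2 ≤ S0 := by linarith
  have b4 : (g * Z ^ 2 * P) ^ 2 ≤ S0 := by
    have : (g * Z ^ 2 * P) ^ 2 = g ^ 2 * (Z ^ 4 * P ^ 2) := by ring
    rw [this]
    linarith
  have c1 : (E * q) ^ 2 ≤ E ^ 2 * S0 := by
    rw [mul_pow]; exact mul_le_mul_of_nonneg_left b1 (sq_nonneg _)
  have c2 : (C1 * ((2 + s) * E) * P) ^ 2 ≤ (C1 * ((2 + s) * E)) ^ 2 * S0 := by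
    rw [mul_pow]; exact mul_le_mul_of_nonneg_left b2 (sq_nonneg _)
  have c3 : (C1 * (E * Λ) * (Z * D)) ^ 2 ≤ (C1 * (E * Λ)) ^ 2 * S0 := by
    rw [mul_pow (C1 * (E * Λ))]; exact mul_le_mul_of_nonneg_left b3 (sq_nonneg _)
  have c4 : (C1 * E * (g * Z ^ 2 * P)) ^ 2 ≤ (C1 * E) ^ 2 * S0 := by
    rw [mul_pow (C1 * E)]; exact mul_le_mul_of_nonneg_left b4 (sq_nonneg _)
  calc 4 * ((E * q) ^ 2 + (C1 * ((2 + s) * E) * P) ^ 2 +
      (C1 * (E * Λ) * (Z * D)) ^ 2 + (C1 * E * (g * Z ^ 2 * P)) ^ 2)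
      ≤ 4 * (E ^ 2 * S0 + (C1 * ((2 + s) * E)) ^ 2 * S0 + (C1 * (E * Λ)) ^ 2 * S0 +
        (C1 * E) ^ 2 * S0) := by linarith
    _ = _ := by ring

end pw

/-! ### 4. Lemma R, part 2 -/

theorem exists_bounds {E : Type*} [NormedAddCommGroup E] [NormedSpace ℝ E] {η : E → ℝ}
    (hη : ContDiff ℝ ∞ η) (hηc : HasCompactSupport η) :
    ∃ C : ℝ, 0 ≤ C ∧ (∀ x, |η x| ≤ C) ∧ ∀ x, ‖fderiv ℝ η x‖ ≤ C := by
  obtain ⟨E1, hE1⟩ := hηc.exists_bound_of_continuous hη.continuous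
  obtain ⟨E2, hE2⟩ := (hηc.fderiv ℝ).exists_bound_of_continuous (hη.continuous_fderiv (by simp))
  exact ⟨max 0 (max E1 E2), le_max_left _ _,
      fun x => (hE1 x).trans ((le_max_left _ _).trans (le_max_right _ _)),
      fun x => (hE2 x).trans ((le_max_right _ _).trans (le_max_right _ _))⟩

theorem eventually_zero {c : Cfg N} {b : ColorBasis N} {s s' : ℝ} (hs0 : 0 < s) (hss : s < s')
    {η : Sc b c → ℝ} (hηs : ∀ x, s ^ 2 ≤ ‖x.1‖ ^ 2 + ‖x.2‖ ^ 2 → η x = 0) {x : Sc b c}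
    (hx : x ∉ Tb b c s') : η =ᶠ[𝓝 x] fun _ => 0 := by
  have h1 : s' ^ 2 ≤ ‖x.1‖ ^ 2 + ‖x.2‖ ^ 2 := not_lt.1 hx
  have h2 : s ^ 2 < s' ^ 2 := pow_lt_pow_left₀ hss hs0.le two_ne_zero
  have h3 : Continuous fun y : Sc b c => ‖y.1‖ ^ 2 + ‖y.2‖ ^ 2 := by fun_prop
  filter_upwards [(h3.tendsto x).eventually_const_lt (h2.trans_le h1)] with y hy
  exact hηs y hy.le

/-- one charge, given the pointwise bound -/
theorem R2_one {b : ColorBasis N} {c : Cfg N} {μ : Measure (Sc b c)} {T : Set (Sc b c)}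
    (hT : MeasurableSet T) {f : Sc b c → F} {q P S : Sc b c → ℝ} {K a1 a2 a3 : ℝ} (hK : 0 ≤ K)
    (hf : ∀ x ∈ T, ‖f x‖ ^ 2 ≤ K * (q x + P x + S x)) (hf0 : ∀ x, x ∉ T → f x = 0)
    (h1 : Integrable q (μ.restrict T) ∧ ∫ x, q x ∂(μ.restrict T) ≤ a1)
    (h2 : Integrable P (μ.restrict T) ∧ ∫ x, P x ∂(μ.restrict T) ≤ a2)
    (h3 : Integrable S (μ.restrict T) ∧ ∫ x, S x ∂(μ.restrict T) ≤ a3) :
    ∫ x, ‖f x‖ ^ 2 ∂μ ≤ K * (a1 + a2 + a3) := by
  have h4 : ∫ x, ‖f x‖ ^ 2 ∂μ ≤ ∫ x, T.indicator (fun x => K * (q x + P x + S x)) x ∂μ := by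
    refine integral_mono_of_nonneg (Eventually.of_forall fun x => by positivity) ?_
      (Eventually.of_forall fun x => ?_)
    · rw [integrable_indicator_iff hT]
      exact ((h1.1.add h2.1).add h3.1).const_mul K
    · simp only
      by_cases hx : x ∈ T
      · rw [Set.indicator_of_mem hx]
        exact hf x hx
      · rw [Set.indicator_of_notMem hx, hf0 x hx]
        simp
  rw [integral_indicator hT] at h4
  refine h4.trans ?_
  have i12 : Integrable (fun x => q x + P x) (μ.restrict T) := h1.1.add h2.1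
  rw [integral_const_mul, integral_add i12 h3.1, integral_add h1.1 h2.1]
  exact mul_le_mul_of_nonneg_left (add_le_add (add_le_add h1.2 h2.2) h3.2) hK

/-- the arithmetic at the end -/
theorem arith_end {q q' n n' K C₀ Cm Cc E : ℝ} (hK : 0 ≤ K) (hC₀ : 0 ≤ C₀) (hCm : 0 ≤ Cm)
    (hCc : 0 ≤ Cc) (hq : 0 ≤ q) (hq' : 0 ≤ q') (hn : 0 ≤ n) (hn' : 0 ≤ n') (h1 : n' ≤ n)
    (h2 : q' ≤ 2 * q + Cc * n) :
    K * (C₀ * (16 * q') + 16 * (C₀ * n') + 16 * (Cm * (q' + n'))) ≤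
      (K * (C₀ * 16 + 16 * C₀ + 16 * Cm) * (2 + Cc + 1) + E ^ 2 * C₀) * (q + n) := by
  have t1 : C₀ * (16 * q') + 16 * (C₀ * n') + 16 * (Cm * (q' + n')) ≤
      (C₀ * 16 + 16 * C₀ + 16 * Cm) * (q' + n') := by
    nlinarith [mul_nonneg hC₀ hq', mul_nonneg hC₀ hn']
  have t2 : q' + n' ≤ (2 + Cc + 1) * (q + n) := by
    nlinarith [mul_nonneg hCc hq]
  calc K * (C₀ * (16 * q') + 16 * (C₀ * n') + 16 * (Cm * (q' + n')))
      ≤ K * ((C₀ * 16 + 16 * C₀ + 16 * Cm) * ((2 + Cc + 1) * (q + n))) := by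
        refine mul_le_mul_of_nonneg_left (t1.trans ?_) hK
        exact mul_le_mul_of_nonneg_left t2 (by positivity)
    _ = K * (C₀ * 16 + 16 * C₀ + 16 * Cm) * (2 + Cc + 1) * (q + n) := by ring
    _ ≤ _ := by
        refine mul_le_mul_of_nonneg_right ?_ (by positivity)
        have : 0 ≤ E ^ 2 * C₀ := by positivity
        linarith

theorem sum_end {b : ColorBasis N} {M : FermionRep N F} {G : GammaNine} {g m : ℝ}
    {φ : Cfg N → F} {X : Fin 16 → ℝ} {K C₀ Y Z : ℝ}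
    (h : ∀ α, X α ≤ K * (C₀ * (∫ x, ‖dcharge b M G g m α φ x‖ ^ 2) + Y + Z)) :
    ∑ α, X α ≤ K * (C₀ * (16 * qf b M G g m φ) + 16 * Y + 16 * Z) := by
  refine (Finset.sum_le_sum fun α _ => h α).trans (le_of_eq ?_)
  have hsum : ∑ α : Fin 16, ∫ x, ‖dcharge b M G g m α φ x‖ ^ 2 = 16 * qf b M G g m φ := by
    unfold qf
    ring
  rw [← hsum, ← Finset.mul_sum, Finset.sum_add_distrib, Finset.sum_add_distrib,
    ← Finset.mul_sum, Finset.sum_const, Finset.sum_const, Finset.card_univ, Fintype.card_fin]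
  simp only [nsmul_eq_mul]
  push_cast
  ring

/-- **(R2)**: the charge of `Φ = η • φ(c + ·)` in slice coordinates. -/
theorem R2 {b : ColorBasis N} {M : FermionRep N F} (R : GaugeAction b M) (G : GammaNine)
    {c : Cfg N} (hc : Comc b c) {r B : ℝ} (hr0 : 0 < r) (hr : GapAt (actB b) c r)
    (hB : ActBound (actB b) B) (hB0 : 0 < B) {r0 C0 : ℝ} (H : SlM712.SRad b c r0 C0)
    (μU : Measure (Uk b c)) [μU.IsAddHaarMeasure] (μZ : Measure (Zs b c))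
    [μZ.IsAddHaarMeasure] {s s' : ℝ} (hs0 : 0 < s) (hss : s < s') (hsr : s' ≤ r0)
    (hBs : B * s' ≤ r / 2) (h56 : 56 * s' ^ 2 ≤ r ^ 2)
    {η : Sc b c → ℝ} (hη : ContDiff ℝ ∞ η) (hηc : HasCompactSupport η)
    (hηs : ∀ x, s ^ 2 ≤ ‖x.1‖ ^ 2 + ‖x.2‖ ^ 2 → η x = 0) :
    ∃ C : ℝ, 0 ≤ C ∧ ∀ g m : ℝ, 1 ≤ g → 0 ≤ m → m ≤ 1 → ∀ φ : Cfg N → F, IsCoreVec b R φ →
      (∀ (ι κ κ' : Type) [Fintype ι] [Fintype κ] [Fintype κ']
        (e : OrthonormalBasis ι ℝ (Uk b c)) (v : OrthonormalBasis κ ℝ (Zs b c))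
        (t : OrthonormalBasis κ' ℝ (Tn (actB b) c)),
        ∑ α, ∫ x, ‖Aop b c M G g m α e (half b c η φ) x +
          Bop b c M G g α v t (half b c η φ) x‖ ^ 2 ∂(μU.prod μZ) ≤
          C * (qf b M G g m φ + ∫ x, ‖φ x‖ ^ 2)) ∧
      ∫ x, ‖half b c η φ x‖ ^ 2 ∂(μU.prod μZ) ≤ C * ∫ x, ‖φ x‖ ^ 2 := by
  have hs'0 : 0 < s' := hs0.trans hss
  -- bounds of `η`
  obtain ⟨E, hE0, hηE, hdE⟩ := exists_bounds hη hηc
  have hηd : Differentiable ℝ η := hη.differentiable (by simp)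
  -- the cut-off
  obtain ⟨L, hL, hcL⟩ : ∃ L : ℝ, 0 < L ∧ ‖c‖ + s' ≤ L / 2 :=
    ⟨2 * (‖c‖ + s' + 1), by positivity, by linarith⟩
  obtain ⟨Cc, hCc, hcut⟩ := qf_cut b M R G hL
  obtain ⟨K, hK, hAB⟩ := AB_le b M R G hc hr0 hr hB hB0 hs'0.le hBs hE0
  obtain ⟨C₀, hC₀, hSl⟩ := sliceLe_Tb μU μZ H hs'0.le hsr
  obtain ⟨Cm, hCm, hmom⟩ := moment_slice R G hc hr0 hr (ρ := L) (K := 1) hL.le zero_le_one hC₀
  have hν56 : ∀ᵐ p ∂((μU.prod μZ).restrict (Tb b c s')), 56 * (‖p.1‖ ^ 2 + ‖p.2‖ ^ 2) ≤ r ^ 2 := by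
    rw [ae_restrict_iff' (measurableSet_Tb s')]
    refine Eventually.of_forall fun p hp => ?_
    have : ‖p.1‖ ^ 2 + ‖p.2‖ ^ 2 < s' ^ 2 := hp
    linarith
  refine ⟨K * (C₀ * 16 + 16 * C₀ + 16 * Cm) * (2 + Cc + 1) + E ^ 2 * C₀, by positivity,
    fun g m hg hm hm1 φ hφ => ?_⟩
  obtain ⟨φ', hφ'⟩ : ∃ φ' : Cfg N → F, φ' = fun y => cut L y • φ y := ⟨_, rfl⟩
  have hφc : IsCoreVec b R φ' := by rw [hφ']; exact core_cut L hφ
  have hhalf : half b c η φ = half b c η φ' := by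
    funext x
    unfold half
    by_cases hx : x ∈ Tb b c s'
    · have h1 := norm_lt_of_mem hs'0.le hx
      have h2 : ‖c + (x.1 : Cfg N) + (x.2 : Cfg N)‖ ≤ L / 2 := by
        rw [add_assoc]
        refine (norm_add_le _ _).trans ?_
        linarith
      rw [hφ']
      simp only
      rw [cut_one hL h2, one_smul]
    · rw [(eventually_zero hs0 hss hηs hx).self_of_nhds, zero_smul, zero_smul]
  have hm2 : m ^ 2 ≤ 1 * g := by nlinarith
  have hmass : ∫ x, ‖φ' x‖ ^ 2 ≤ ∫ x, ‖φ x‖ ^ 2 := by rw [hφ']; exact mass_cut L hφ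
  have hqf : qf b M G g m φ' ≤ 2 * qf b M G g m φ + Cc * ∫ x, ‖φ x‖ ^ 2 := by
    rw [hφ']; exact hcut g m φ hφ
  have hm0 : 0 ≤ ∫ x, ‖φ x‖ ^ 2 := integral_nonneg fun x => by positivity
  have hm0' : 0 ≤ ∫ x, ‖φ' x‖ ^ 2 := integral_nonneg fun x => by positivity
  have h3 := hmom _ hSl hν56 g m hg hm hm2 φ' hφc.1 hφc.2.2 (fun x hx => by
    rw [hφ']
    simp only
    rw [cut_zero hL hx.le, zero_smul])
  have h2 := slice_sq hC₀ hSl hφc
  rw [hhalf]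
  clear hhalf hν56 hmom hcut
  refine ⟨fun ι κ κ' _ _ _ e v t => ?_, ?_⟩
  · refine (sum_end (b := b) (M := M) (G := G) (g := g) (m := m) (φ := φ') (K := K) (C₀ := C₀)
      (Y := C₀ * ∫ x, ‖φ' x‖ ^ 2) (Z := Cm * (qf b M G g m φ' + ∫ x, ‖φ' x‖ ^ 2))
      fun α => ?_).trans (arith_end hK hC₀ hCm hCc (qf_nonneg b M G g m φ)
        (qf_nonneg b M G g m φ') hm0 hm0' hmass hqf)
    have h1 := slice_sq hC₀ hSl (Brid837.core_dcharge (G := G) (g := g) (m := m) (α := α) hφc)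
    refine R2_one (measurableSet_Tb s') hK (fun x hx => ?_) (fun x hx => ?_) h1 h2 h3
    · exact hAB η hηd hηE hdE g m hg hm hm1 α ι κ κ' e v t φ' hφc x hx
    · have h5 : AB b M G g m α c e v t (half b c η φ') x = 0 := by
        refine AB_zero ?_
        filter_upwards [eventually_zero hs0 hss hηs hx] with y hy
        unfold half
        rw [hy, zero_smul]
      exact h5
  · have h4 : ∫ x, ‖half b c η φ' x‖ ^ 2 ∂(μU.prod μZ) ≤ E ^ 2 * (C₀ * (∫ x, ‖φ' x‖ ^ 2) + 0 + 0) := by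
      refine R2_one (measurableSet_Tb s') (sq_nonneg E) (P := fun _ => 0) (S := fun _ => 0)
        (fun x hx => ?_) (fun x hx => ?_) h2 ⟨integrable_zero _ _ _, by simp⟩
        ⟨integrable_zero _ _ _, by simp⟩
      · unfold half
        rw [norm_smul, Real.norm_eq_abs, mul_pow, add_zero, add_zero]
        exact mul_le_mul_of_nonneg_right (pow_le_pow_left₀ (abs_nonneg _) (hηE x) 2)
          (sq_nonneg _)
      · unfold half
        rw [(eventually_zero hs0 hss hηs hx).self_of_nhds, zero_smul]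
    refine h4.trans ?_
    calc E ^ 2 * (C₀ * (∫ x, ‖φ' x‖ ^ 2) + 0 + 0)
        ≤ E ^ 2 * (C₀ * ∫ x, ‖φ x‖ ^ 2) := by
          rw [add_zero, add_zero]
          gcongr
      _ = E ^ 2 * C₀ * ∫ x, ‖φ x‖ ^ 2 := by ring
      _ ≤ _ := by
          refine mul_le_mul_of_nonneg_right ?_ hm0
          have : 0 ≤ K * (C₀ * 16 + 16 * C₀ + 16 * Cm) * (2 + Cc + 1) := by positivity
          linarith

/-- **(R2)** with a radius: the form of 342. -/
theorem R2' {b : ColorBasis N} {M : FermionRep N F} (R : GaugeAction b M) (G : GammaNine)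
    {c : Cfg N} (hc : Comc b c) {r B : ℝ} (hr0 : 0 < r) (hr : GapAt (actB b) c r)
    (hB : ActBound (actB b) B) (hB0 : 0 < B) {r0 C0 : ℝ} (H : SlM712.SRad b c r0 C0) :
    ∃ s : ℝ, 0 < s ∧ s ≤ r0 ∧ B * s ≤ r / 2 ∧ 56 * s ^ 2 ≤ r ^ 2 ∧
    ∀ η : Sc b c → ℝ, ContDiff ℝ ∞ η → HasCompactSupport η →
      (∀ x, s ^ 2 ≤ ‖x.1‖ ^ 2 + ‖x.2‖ ^ 2 → η x = 0) →
    ∃ C : ℝ, 0 ≤ C ∧ ∀ g m : ℝ, 1 ≤ g → 0 ≤ m → m ≤ 1 → ∀ φ : Cfg N → F, IsCoreVec b R φ →
      (∀ (ι κ κ' : Type) [Fintype ι] [Fintype κ] [Fintype κ']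
        (e : OrthonormalBasis ι ℝ (Uk b c)) (v : OrthonormalBasis κ ℝ (Zs b c))
        (t : OrthonormalBasis κ' ℝ (Tn (actB b) c)),
        ∑ α, ∫ x, ‖Aop b c M G g m α e (half b c η φ) x +
          Bop b c M G g α v t (half b c η φ) x‖ ^ 2 ∂(volume.prod volume) ≤
          C * (qf b M G g m φ + ∫ x, ‖φ x‖ ^ 2)) ∧
      ∫ x, ‖half b c η φ x‖ ^ 2 ∂(volume.prod volume) ≤ C * ∫ x, ‖φ x‖ ^ 2 := by
  set s' : ℝ := min r0 (min (r / (2 * B)) (r / 8)) with hs'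
  have h0 : 0 < s' := lt_min H.pos (lt_min (by positivity) (by positivity))
  have h1 : s' ≤ r0 := min_le_left _ _
  have h2 : B * s' ≤ r / 2 := by
    have : s' ≤ r / (2 * B) := (min_le_right _ _).trans (min_le_left _ _)
    calc B * s' ≤ B * (r / (2 * B)) := mul_le_mul_of_nonneg_left this hB0.le
      _ = r / 2 := by field_simp
  have h3 : 56 * s' ^ 2 ≤ r ^ 2 := by
    have : s' ≤ r / 8 := (min_le_right _ _).trans (min_le_right _ _)
    have h4 : s' ^ 2 ≤ (r / 8) ^ 2 := pow_le_pow_left₀ h0.le this 2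
    nlinarith [sq_nonneg r]
  refine ⟨s' / 2, by positivity, by linarith, by nlinarith, by nlinarith [sq_nonneg s'], ?_⟩
  intro η hη hηc hηs
  exact R2 R G hc hr0 hr hB hB0 H volume volume (s := s' / 2) (s' := s') (by positivity)
    (by linarith) h1 h2 h3 hη hηc hηs

end Crest.Agent.R330.LemR2302

end
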