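import Crest.Agent.R330.TestA_350
import Crest.Agent.R330.LemP_342
import Crest.Agent.R330.LemR2_302
import Crest.Agent.R330.LemF_581
import Crest.Agent.R330.PairU_714
import Crest.Agent.R330.SlEx_814
import Crest.Agent.R330.CapZA_818

/-!
# Row 330, T5-TEST (helper350), part B: `TestAt`

* `pr_eq` : 714's fibre projection is 149's `PrK` with the literal Gaussian and projection.
* `f2_of` : (F2) in the form of 714.
* `testAt` : at every `X0 ∈ BReg`, for all small charts: `PairT714.TestAt P σ`.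
-/

set_option autoImplicit false
set_option linter.unusedSectionVars false
set_option maxSynthPendingDepth 3

open MeasureTheory Filter Topology Crest.MathPhysics.MatrixQM Set
open Crest.Agent.R330.Defs478 Crest.Agent.R330.Frame839
open Crest.Agent.R330.LS839 Crest.Agent.R330.Clus839 Crest.Agent.R330.Bind6839
open Crest.Agent.R330.LemA342 Crest.Agent.R330.LemB342 Crest.Agent.R330.LemC342
open Crest.Agent.R330.LemP342 Crest.Agent.R330.LemRe149
open Crest.Agent.R330.SlQE87 Crest.Agent.R330.TDef414 Crest.Agent.R330.PairD714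
open Crest.Agent.R330.PairT714 Crest.Agent.R330.TrialSys796 Crest.Agent.R330.GBind984
open Crest.Agent.R330.Fib892 Crest.Agent.R330.FactI161 Crest.Agent.R330.Transp491
open Crest.Agent.R330.TestA350
open scoped ContDiff InnerProductSpace ENNReal

noncomputable section

namespace Crest.Agent.R330.TestB350

variable {N p : ℕ} {b : ColorBasis N} {S : Type} [Group S] [Fintype S] {C : Chn b p S}
  {F : Type*} [NormedAddCommGroup F] [InnerProductSpace ℂ F] [FiniteDimensional ℂ F]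
  {M : FermionRep N F} {G : GammaNine} {R : GaugeAction b M}

theorem integral_sub_congr {Z Z' : Submodule ℝ (Cfg N)} (h : Z = Z') (f : Cfg N → ℝ) :
    ∫ z : Z, f z = ∫ z : Z', f z := by
  subst h
  rfl

/-- the projection -/
theorem PT_eq [Nontrivial F] (P : TPack C M R G) {X : Pos p} (hX : C.BReg X) (f : F) :
    PT P X f = (cr M).proj (Jl b G C.kk (C.cf X)) f :=
  star_eq P hX.reg (VT P X) (fun f => mem_range_U P hX f) f

/-- the fibre projection -/
theorem pr_eq [Nontrivial F] (P : TPack C M R G) (σ : Sl C) {g : ℝ} (u : Uk b (C.cf σ.X0))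
    (hX : C.BReg (Xq σ u)) (f : Zs b (C.cf σ.X0) → F) (z : Zs b (C.cf σ.X0)) :
    Pr (gsT P σ g) (fun q => PT P (Xq σ q)) u f z =
      PrK (Zs b (C.cf σ.X0)) (gam b (C.cf σ.X0) g u) (Lp b (C.cf σ.X0) M G (tenS N) u) f z := by
  have h0 : C.Reg σ.X0 := BrT5658.reg0 σ
  have hk : kc (actB b) (C.cf σ.X0) = C.kk := h0
  have hXu : Xu b (C.cf σ.X0) u = C.cf (Xq σ u) := Xu_cf h0 u
  have hg : ∀ z : Cfg N, gam b (C.cf σ.X0) g u z =
      Real.exp (-(g / 2 * ⟪P.A (Xq σ u) z, z⟫_ℝ)) := by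
    intro z
    unfold gam
    rw [hXu, hk, QX_reg P hX.reg, neg_mul]
  have hI : ∫ y : Zs b (C.cf σ.X0), gam b (C.cf σ.X0) g u y ^ 2 = nI P σ g (Xq σ u) := by
    unfold nI
    rw [integral_sub_congr (LitA974.Zs_cf C h0) (fun y => gam b (C.cf σ.X0) g u y ^ 2)]
    refine integral_congr_ae (Eventually.of_forall fun y => ?_)
    simp only
    rw [hg, ← Real.exp_nat_mul]
    congr 1
    push_cast
    ring
  have hL : ∀ w, PT P (Xq σ u) w = Lp b (C.cf σ.X0) M G (tenS N) u w := by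
    intro w
    rw [PT_eq P hX]
    unfold LemRe149.Lp
    rw [hXu, hk]
    rfl
  unfold Pr PrK
  simp only [hI, ← hL]
  set I := nI P σ g (Xq σ u) with hIdef
  have hI0 : 0 ≤ I := by
    rw [hIdef]
    unfold nI
    exact integral_nonneg fun y => (Real.exp_pos _).le
  have e1 : ∀ z' : Zs b (C.cf σ.X0), gsT P σ g u z' • f z' =
      (√I)⁻¹ • (gam b (C.cf σ.X0) g u z' • f z') := by
    intro z'
    unfold gsT
    rw [smul_smul, hg, ← hIdef, div_eq_mul_inv, mul_comm]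
  simp only [e1]
  rw [integral_smul]
  set J := ∫ z' : Zs b (C.cf σ.X0), gam b (C.cf σ.X0) g u z' • f z' with hJ
  have e2 : PT P (Xq σ u) ((√I)⁻¹ • J) = (√I)⁻¹ • PT P (Xq σ u) J := by
    rw [← Complex.coe_smul, map_smul, Complex.coe_smul]
  rw [e2, smul_smul]
  congr 1
  unfold gsT
  rw [hg, ← hIdef]
  rw [div_mul_eq_mul_div, ← div_eq_mul_inv, div_div, Real.mul_self_sqrt hI0]

/-- **(F2)** in the form of 714. -/
theorem f2_of [Nontrivial F] (P : TPack C M R G) (σ : Sl C) {κ κ' : Type} [Fintype κ]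
    [Fintype κ'] {v : OrthonormalBasis κ ℝ (Zs b (C.cf σ.X0))}
    {t : OrthonormalBasis κ' ℝ (Tn (actB b) (C.cf σ.X0))} {ρ g K : ℝ}
    (hρ : ∀ X, ‖X - σ.X0‖ ≤ ρ → C.BReg X)
    (h : F2u b (C.cf σ.X0) M G v t g ρ K (gam b (C.cf σ.X0) g)
      (Lp b (C.cf σ.X0) M G (tenS N)) (du b (C.cf σ.X0))) :
    F2 M G v t (gsT P σ g) (fun q => PT P (Xq σ q)) (fun q => ‖C.PY q‖) ρ g K := by
  intro u hu f hf hc
  have h0 : C.Reg σ.X0 := BrT5658.reg0 σ
  have hX : C.BReg (Xq σ u) := by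
    refine hρ _ ?_
    unfold Xq
    rw [add_sub_cancel_left]
    exact (LitA974.norm_cfT_le C (u : Cfg N)).trans hu
  have h1 := h u hu f hf hc
  rw [du_cf h0] at h1
  simp only [pr_eq P σ u hX]
  exact h1

/-- monotonicity in the constant -/
theorem adm_mono {U Z : Type*} [MeasurableSpace U] [MeasurableSpace Z] [NormedAddCommGroup Z]
    {μ : Measure U} {ν : Measure Z} {S : Set U} {gs : U → Z → ℝ} {P : U → F →L[ℂ] F}
    {Γ : F →ₗ[ℂ] F} {y : U → ℝ} (hy : ∀ u, 0 ≤ y u) {K K' g E E' : ℝ} (hg : 0 ≤ g) (hK0 : 0 ≤ K)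
    (hK : K ≤ K') (hE : E ≤ E') {Φ : U × Z → F} (h : Adm μ ν S gs P Γ y K g Φ E) :
    Adm μ ν S gs P Γ y K' g Φ E' := by
  obtain ⟨en, h1, h2, h3, h4⟩ := h.b2
  refine ⟨h.mem, h.b0.trans hE, h.b1.trans hE, en, h1, h2, h3.trans hE, ?_⟩
  filter_upwards [h4] with u hu huS
  refine (hu huS).trans ?_
  have h5 : 0 ≤ ∫ z, ‖Φ (u, z)‖ ^ 2 ∂ν := integral_nonneg fun z => sq_nonneg _
  have h6 : K * y u ≤ K' * y u := mul_le_mul_of_nonneg_right hK (hy u)
  have h7 : 0 ≤ K * y u := mul_nonneg hK0 (hy u)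
  gcongr

/-- **T5-TEST.** -/
theorem testAt [Nontrivial F] (P : TPack C M R G) {X0 : Pos p} (hX0 : C.BReg X0) :
    ∃ δ : ℝ, 0 < δ ∧ ∀ σ : Sl C, σ.X0 = X0 → σ.r ≤ δ → TestAt P σ := by
  have hc : Comc b (C.cf X0) := AFld984.comc_cf C X0
  obtain ⟨B, hB0, hB⟩ := LS839.exists_actBound b
  obtain ⟨r, hr0, hr⟩ := SlEx814.exists_gapAt (b := b) (C.cf X0)
  obtain ⟨r0, C0, H⟩ := SlM712.exists_SRad (b := b) (C.cf X0)
  obtain ⟨ρ, hρ0, hBρ, K, hK, hF⟩ := LemF581.lemF b M G hc hr0 hr hB hB0.le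
  obtain ⟨ε, hε, hBR⟩ := Metric.isOpen_iff.1 C.isOpen_breg X0 hX0
  -- the radii
  obtain ⟨s', hs'0, h1, h2, h3, h4, h5⟩ : ∃ s' : ℝ, 0 < s' ∧ s' ≤ r0 ∧ B * s' ≤ r / 2 ∧
      56 * s' ^ 2 ≤ r ^ 2 ∧ s' ≤ ρ ∧ s' < ε := by
    refine ⟨min (min r0 ρ) (min (min (r / (2 * B)) (r / 8)) (ε / 2)), ?_, ?_, ?_, ?_, ?_, ?_⟩
    · exact lt_min (lt_min H.pos hρ0) (lt_min (lt_min (by positivity) (by positivity))
        (by positivity))
    · exact (min_le_left _ _).trans (min_le_left _ _)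
    · have : min (min r0 ρ) (min (min (r / (2 * B)) (r / 8)) (ε / 2)) ≤ r / (2 * B) :=
        (min_le_right _ _).trans ((min_le_left _ _).trans (min_le_left _ _))
      calc B * _ ≤ B * (r / (2 * B)) := mul_le_mul_of_nonneg_left this hB0.le
        _ = r / 2 := by field_simp
    · set s' := min (min r0 ρ) (min (min (r / (2 * B)) (r / 8)) (ε / 2)) with hs'
      have h0 : 0 ≤ s' := (lt_min (lt_min H.pos hρ0) (lt_min (lt_min (by positivity)
        (by positivity)) (by positivity))).le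
      have : s' ≤ r / 8 := (min_le_right _ _).trans ((min_le_left _ _).trans (min_le_right _ _))
      have h4 : s' ^ 2 ≤ (r / 8) ^ 2 := pow_le_pow_left₀ h0 this 2
      nlinarith [sq_nonneg r]
    · exact (min_le_left _ _).trans (min_le_right _ _)
    · exact ((min_le_right _ _).trans (min_le_right _ _)).trans_lt (by linarith)
  set s := s' / 2 with hs
  have hs0 : 0 < s := by positivity
  have hss : s < s' := by rw [hs]; linarith
  obtain ⟨η, hη, hηc, -, -, hη1, hη0⟩ := exists_cut b (C.cf X0) (s := s / 2) (s' := s) (by positivity)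
    (by linarith)
  obtain ⟨C1, hC1, hR2⟩ := LemR2302.R2 R G hc hr0 hr hB hB0 H volume volume hs0 hss h1 h2 h3
    hη hηc hη0
  refine ⟨s, hs0, fun σ hσ hσr => ?_⟩
  rw [testAt_iff]
  subst hσ
  intro Γ hΓ
  have hpar : LemA342.IsPar b (C.cf σ.X0) M Γ := ⟨hΓ.par.even, hΓ.par.odd, hΓ.par.inv, hΓ.par.symm⟩
  have hv : ∀ f ∈ (cr M).vacJ (FibP581.JX b G (C.cf σ.X0) (C.cf σ.X0)), Γ f = f := by
    intro f hf
    refine PairU714.ParT.vac' hΓ P hX0 ((isVac_iff P hX0.reg f).2 ?_)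
    have hk : kc (actB b) (C.cf σ.X0) = C.kk := hX0.reg
    unfold FibP581.JX at hf
    rwa [hk] at hf
  have hpk := (hF Γ hpar hv).mono (hss.le.trans h4)
  let e := stdOrthonormalBasis ℝ (Uk b (C.cf σ.X0))
  let v := stdOrthonormalBasis ℝ (Zs b (C.cf σ.X0))
  let t := stdOrthonormalBasis ℝ (Tn (actB b) (C.cf σ.X0))
  have hHaar : (((volume : Measure (Uk b (C.cf σ.X0))).prod
      (volume : Measure (Zs b (C.cf σ.X0)))) : Measure (Sc b (C.cf σ.X0))).IsAddHaarMeasure :=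
    MeasureTheory.Measure.prod.instIsAddHaarMeasure _ _
  obtain ⟨C2, hC2, hout⟩ := out_of ((volume : Measure (Uk b (C.cf σ.X0))).prod
    (volume : Measure (Zs b (C.cf σ.X0)))) hr0 hr hB hB0.le hc M G hpar e v t hs0 hss h2 hK
  have hBs : B * s ≤ r / 2 := (mul_le_mul_of_nonneg_left hss.le hB0.le).trans h2
  refine ⟨max (√K) ((1 + K) * (C2 * C1)), le_max_of_le_left (Real.sqrt_nonneg K), fun m hm => ?_⟩
  have hm0 : 0 ≤ m ∧ m ≤ 1 := by rcases hm with rfl | rfl <;> norm_num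
  filter_upwards [eventually_ge_atTop (1 : ℝ)] with g hg φ hφ
  have hg0 : 0 < g := by linarith
  have hEn : 0 ≤ En b M G g m φ := by
    unfold En
    exact add_nonneg (integral_nonneg fun x => sq_nonneg _) (CapZA818.qf_nonneg' b M G g m φ)
  have hEn2 : ∫ x, ‖φ x‖ ^ 2 ≤ En b M G g m φ := by
    unfold En
    linarith [CapZA818.qf_nonneg' b M G g m φ]
  obtain ⟨hAB, h00⟩ := hR2 g m hg hm0.1 hm0.2 φ hφ
  set Φ : Sc b (C.cf σ.X0) → F := half b (C.cf σ.X0) η φ with hΦ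
  have h2t : (2 : WithTop ℕ∞) ≤ ((⊤ : ℕ∞) : WithTop ℕ∞) := WithTop.coe_le_coe.2 (le_top : (2 : ℕ∞) ≤ ⊤)
  have hφ2 : ContDiff ℝ 2 φ := hφ.1.of_le h2t
  have hΦ2 : ContDiff ℝ 2 Φ := contDiff_half (hη.of_le h2t) hφ2
  have hΦc : HasCompactSupport Φ := hcs_half hηc
  have hΦ0 : ∀ x : Sc b (C.cf σ.X0), s < ‖x.1‖ → Φ x = 0 := fun x hx =>
    half_zero (hη0 x (by nlinarith [sq_nonneg ‖x.2‖]))
  refine ⟨Φ, fun x hx1 hx2 => half_one (hη1 x ?_), ?_⟩
  · have a1 : ‖x.1‖ ^ 2 ≤ (s / 3) ^ 2 :=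
      pow_le_pow_left₀ (norm_nonneg _) (hx1.trans (by linarith)) 2
    have a2 : ‖x.2‖ ^ 2 ≤ (s / 4) ^ 2 :=
      pow_le_pow_left₀ (norm_nonneg _) (hx2.trans (by linarith)) 2
    nlinarith [sq_nonneg s]
  · have hO := hout g m hg0.le (hpk.odd _ _ v t g hg0 volume) Φ (C1 * En b M G g m φ) hΦ2 hΦc hΦ0
      (by
        have := hAB _ _ _ e v t
        unfold En
        rw [add_comm]
        exact this)
      (h00.trans (mul_le_mul_of_nonneg_left hEn2 hC1))
    have hF2 := f2_of P σ (v := v) (t := t) (g := g) (K := K) (ρ := s)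
      (fun X hX => hBR (by
        rw [Metric.mem_ball, dist_eq_norm]
        linarith)) (hpk.f2u _ _ v t g hg0)
    have key := adm_of hr0 hr hB hBs hB0.le hK hF2 hΦ2 hΦc hΦ0 hO (Sb σ (Uk b (C.cf σ.X0)))
    refine adm_mono (fun u => norm_nonneg _) hg0.le (Real.sqrt_nonneg K) (le_max_left _ _) ?_ key
    calc (1 + K) * (C2 * (C1 * En b M G g m φ)) = (1 + K) * (C2 * C1) * En b M G g m φ := by ring
      _ ≤ _ := mul_le_mul_of_nonneg_right (le_max_right _ _) hEn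

end Crest.Agent.R330.TestB350

end
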