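import Crest.Agent.R330.T5Fin_714
import Crest.Agent.R330.PairV_776
import Crest.Agent.R330.TestB_350
import Crest.Agent.R330.T5Sm_478
import Crest.Agent.R330.GramX_167
import Crest.Agent.R330.Gram6_372

/-!
# Row 330, (T5): the dual estimate (plug, helper478)

* `dualAt` : one small chart around every centre in `BReg` (714, 776, 350).
* `dualT` : `DualT P`.
-/

set_option autoImplicit false
set_option linter.unusedSectionVars false

open MeasureTheory Filter Topology Crest.MathPhysics.MatrixQM
open scoped ContDiff InnerProductSpace ENNReal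

noncomputable section

namespace Crest.Agent.R330.Dual478

open Crest.Agent.R330.TDef414 Crest.Agent.R330.PairT714 Crest.Agent.R330.T5Fin714
  Crest.Agent.R330.T5Err714

variable {N p : ℕ} {b : ColorBasis N} {S : Type} [Group S] [Fintype S] {C : Chn b p S}
  {F : Type} [NormedAddCommGroup F] [InnerProductSpace ℂ F] [FiniteDimensional ℂ F]
  [Nontrivial F] {M : FermionRep N F} {R : GaugeAction b M} {G : GammaNine}

theorem vacAt (P : TPack C M R G) (σ : Sl C) {Γ : F →ₗ[ℂ] F} (hΓ : ParT M G σ Γ) :
    VacAt P σ Γ := fun _ hg α χ _ hq => PairV776.vac_T5 P σ hΓ hg α χ (bT σ) (bU σ) hq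

/-- **(T5) in one small chart around every centre.** -/
theorem dualAt (P : TPack C M R G) {X0 : Pos p} (h0 : C.BReg X0) :
    ∃ σ : Sl C, σ.X0 = X0 ∧ DualAt P σ := by
  obtain ⟨δ, hδ, hT⟩ := TestB350.testAt P h0
  obtain ⟨σ, hσ, h1, h2, h3⟩ := exists_small X0 h0 hδ
  exact ⟨σ, hσ, dualAt_of_test P σ h2 h3 (fun Γ hΓ => vacAt P σ hΓ) (hT σ hσ h1)⟩

/-- **(T5).** -/
theorem dualT (P : TPack C M R G) : ChSys399.DualT P :=
  T5Sm478.dualT_of_small (GramX167.gramT_of_cross P (Gram6372.cross P)) fun _ h => dualAt P h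

end Crest.Agent.R330.Dual478

end
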