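import Crest.Agent.R330.GapAlg_916

/-!
# Row 330 (helper942): regularity of the charges (E2), pure algebra

`Susy G m ι Q Ham J` (helper916), `0 ≤ m`. For every `φ` in the core
`Σ_α ⟨Q_α φ, H Q_α φ⟩ ≤ C (‖H φ‖² + m² ‖φ‖²)`, `C` absolute. No torus, no weights.
-/

set_option autoImplicit false

namespace Crest.Agent.R330.E2942

open Crest.MathPhysics.MatrixQM Matrix
open Crest.Agent.R330.Defs478 (cc Gam)
open Crest.Agent.R330.GapAlg916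
open scoped InnerProductSpace
open Complex (I)

variable {D H : Type*} [AddCommGroup D] [Module ℂ D] [SeminormedAddCommGroup H]
  [InnerProductSpace ℂ H]
variable {G : GammaNine} {m : ℝ} {ι : D →ₗ[ℂ] H} {Q : Fin 16 → D →ₗ[ℂ] D}
  {Ham : D →ₗ[ℂ] D} {J : Fin 9 × Fin 9 → D →ₗ[ℂ] D}

/-- shift of `L_f` by `Q_v†` -/
noncomputable def lam (e0 e1 e2 e3 f0 f1 f2 f3 : ℝ) : ℝ := 1 / 3 * (f0 * e0) - 1 / 6 * (f1 * e1 + f2 * e2 + f3 * e3)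

lemma L_Qm (h : Susy G m ι Q Ham J) {a : Fin 16 → ℝ} {e0 e1 e2 e3 : ℝ}
    (ha : Eig G a e0 e1 e2 e3) (he0 : e0 = 1 ∨ e0 = -1) (f0 f1 f2 f3 : ℝ) (φ : D) :
    Lop J f0 f1 f2 f3 (Qm Q G a φ) = Qm Q G a (Lop J f0 f1 f2 f3 φ) +
      ((lam e0 e1 e2 e3 f0 f1 f2 f3 : ℝ) : ℂ) • Qm Q G a φ := by
  simp only [Lop, h.J_Qm mem01 (ha.gg0 he0), h.J_Qm mem34 ha.gg1, h.J_Qm mem56 ha.gg2,
    h.J_Qm mem78 ha.gg3, map_smul, map_sub, map_add]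
  have hI : ((lam e0 e1 e2 e3 f0 f1 f2 f3 : ℝ) : ℂ) = (-2 * I) * ((((1 / 3 * f0 : ℝ) : ℂ) *
      (I / 2 * e0)) - (((1 / 6 * f1 : ℝ) : ℂ) * (I / 2 * e1) +
      ((1 / 6 * f2 : ℝ) : ℂ) * (I / 2 * e2) + ((1 / 6 * f3 : ℝ) : ℂ) * (I / 2 * e3))) := by
    rw [lam]
    push_cast
    linear_combination (1 / 3 * ((f0 : ℂ) * e0) - 1 / 6 * ((f1 : ℂ) * e1 + f2 * e2 + f3 * e3)) *
      Complex.I_mul_I
  rw [hI]
  module

lemma L_Qp (h : Susy G m ι Q Ham J) {a : Fin 16 → ℝ} {e0 e1 e2 e3 : ℝ}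
    (ha : Eig G a e0 e1 e2 e3) (he0 : e0 = 1 ∨ e0 = -1) (f0 f1 f2 f3 : ℝ) (φ : D) :
    Lop J f0 f1 f2 f3 (Qp Q G a φ) = Qp Q G a (Lop J f0 f1 f2 f3 φ) -
      ((lam e0 e1 e2 e3 f0 f1 f2 f3 : ℝ) : ℂ) • Qp Q G a φ := by
  simp only [Lop, h.J_Qp mem01 (ha.gg0 he0), h.J_Qp mem34 ha.gg1, h.J_Qp mem56 ha.gg2,
    h.J_Qp mem78 ha.gg3, map_smul, map_sub, map_add]
  have hI : ((lam e0 e1 e2 e3 f0 f1 f2 f3 : ℝ) : ℂ) = (-2 * I) * ((((1 / 3 * f0 : ℝ) : ℂ) *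
      (I / 2 * e0)) - (((1 / 6 * f1 : ℝ) : ℂ) * (I / 2 * e1) +
      ((1 / 6 * f2 : ℝ) : ℂ) * (I / 2 * e2) + ((1 / 6 * f3 : ℝ) : ℂ) * (I / 2 * e3))) := by
    rw [lam]
    push_cast
    linear_combination (1 / 3 * ((f0 : ℂ) * e0) - 1 / 6 * ((f1 : ℂ) * e1 + f2 * e2 + f3 * e3)) *
      Complex.I_mul_I
  rw [hI]
  module

/-- `H_f = 4 H + 2 m L_f` -/
noncomputable def Hf (m : ℝ) (Ham : D →ₗ[ℂ] D) (J : Fin 9 × Fin 9 → D →ₗ[ℂ] D)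
    (f0 f1 f2 f3 : ℝ) (φ : D) : D := (4 : ℂ) • Ham φ + (2 * m : ℂ) • Lop J f0 f1 f2 f3 φ

variable {a : Fin 16 → ℝ} {e0 e1 e2 e3 : ℝ}

/-- `H_v` commutes with `Q_v†` -/
lemma Hv_Qm (h : Susy G m ι Q Ham J) (ha : Eig G a e0 e1 e2 e3)
    (he0 : e0 = 1 ∨ e0 = -1) (he1 : e1 = 1 ∨ e1 = -1) (he2 : e2 = 1 ∨ e2 = -1)
    (he3 : e3 = 1 ∨ e3 = -1) (φ : D) :
    Hf m Ham J e0 e1 e2 e3 (Qm Q G a φ) = Qm Q G a (Hf m Ham J e0 e1 e2 e3 φ) := by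
  unfold Hf
  rw [← h.Hv ha he0 he1 he2 he3, ← h.Hv ha he0 he1 he2 he3, h.Qm_Qm, map_zero, map_add, h.Qm_Qm,
    zero_add, add_zero]

lemma Hv_Qp (h : Susy G m ι Q Ham J) (ha : Eig G a e0 e1 e2 e3)
    (he0 : e0 = 1 ∨ e0 = -1) (he1 : e1 = 1 ∨ e1 = -1) (he2 : e2 = 1 ∨ e2 = -1)
    (he3 : e3 = 1 ∨ e3 = -1) (φ : D) :
    Hf m Ham J e0 e1 e2 e3 (Qp Q G a φ) = Qp Q G a (Hf m Ham J e0 e1 e2 e3 φ) := by
  unfold Hf
  rw [← h.Hv ha he0 he1 he2 he3, ← h.Hv ha he0 he1 he2 he3, h.Qp_Qp, map_zero, map_add, h.Qp_Qp,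
    zero_add, add_zero]

lemma lam_self (he0 : e0 = 1 ∨ e0 = -1) (he1 : e1 = 1 ∨ e1 = -1) (he2 : e2 = 1 ∨ e2 = -1)
    (he3 : e3 = 1 ∨ e3 = -1) : lam e0 e1 e2 e3 e0 e1 e2 e3 = -(1 / 6) := by
  have s : ∀ {x : ℝ}, (x = 1 ∨ x = -1) → x * x = 1 := by
    rintro x (h | h) <;> rw [h] <;> norm_num
  rw [lam, s he0, s he1, s he2, s he3]
  norm_num

/-- `[4 H, Q_v†] = (m/3) Q_v†` -/
lemma Ham_Qm (h : Susy G m ι Q Ham J) (ha : Eig G a e0 e1 e2 e3)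
    (he0 : e0 = 1 ∨ e0 = -1) (he1 : e1 = 1 ∨ e1 = -1) (he2 : e2 = 1 ∨ e2 = -1)
    (he3 : e3 = 1 ∨ e3 = -1) (φ : D) :
    (4 : ℂ) • Ham (Qm Q G a φ) = Qm Q G a ((4 : ℂ) • Ham φ) + ((m / 3 : ℝ) : ℂ) • Qm Q G a φ := by
  have h1 := Hv_Qm h ha he0 he1 he2 he3 φ
  unfold Hf at h1
  rw [L_Qm h ha he0, lam_self he0 he1 he2 he3, map_add, map_smul (Qm Q G a) (2 * m : ℂ)] at h1
  have h2 : (4 : ℂ) • Ham (Qm Q G a φ) = Qm Q G a ((4 : ℂ) • Ham φ) +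
      (2 * m : ℂ) • (Qm Q G a) (Lop J e0 e1 e2 e3 φ) - (2 * m : ℂ) •
        (Qm Q G a (Lop J e0 e1 e2 e3 φ) + ((-(1 / 6) : ℝ) : ℂ) • Qm Q G a φ) :=
    eq_sub_of_add_eq h1
  rw [h2]
  push_cast
  module

lemma Ham_Qp (h : Susy G m ι Q Ham J) (ha : Eig G a e0 e1 e2 e3)
    (he0 : e0 = 1 ∨ e0 = -1) (he1 : e1 = 1 ∨ e1 = -1) (he2 : e2 = 1 ∨ e2 = -1)
    (he3 : e3 = 1 ∨ e3 = -1) (φ : D) :
    (4 : ℂ) • Ham (Qp Q G a φ) = Qp Q G a ((4 : ℂ) • Ham φ) - ((m / 3 : ℝ) : ℂ) • Qp Q G a φ := by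
  have h1 := Hv_Qp h ha he0 he1 he2 he3 φ
  unfold Hf at h1
  rw [L_Qp h ha he0, lam_self he0 he1 he2 he3, map_add, map_smul (Qp Q G a) (2 * m : ℂ)] at h1
  have h2 : (4 : ℂ) • Ham (Qp Q G a φ) = Qp Q G a ((4 : ℂ) • Ham φ) +
      (2 * m : ℂ) • (Qp Q G a) (Lop J e0 e1 e2 e3 φ) - (2 * m : ℂ) •
        (Qp Q G a (Lop J e0 e1 e2 e3 φ) - ((-(1 / 6) : ℝ) : ℂ) • Qp Q G a φ) :=
    eq_sub_of_add_eq h1
  rw [h2]
  push_cast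
  module

/-- commutation of `H_f` with `Q_v†` -/
lemma Hf_Qm (h : Susy G m ι Q Ham J) (ha : Eig G a e0 e1 e2 e3)
    (he0 : e0 = 1 ∨ e0 = -1) (he1 : e1 = 1 ∨ e1 = -1) (he2 : e2 = 1 ∨ e2 = -1)
    (he3 : e3 = 1 ∨ e3 = -1) (f0 f1 f2 f3 : ℝ) (φ : D) :
    Hf m Ham J f0 f1 f2 f3 (Qm Q G a φ) = Qm Q G a (Hf m Ham J f0 f1 f2 f3 φ) +
      ((m / 3 + 2 * m * lam e0 e1 e2 e3 f0 f1 f2 f3 : ℝ) : ℂ) • Qm Q G a φ := by
  unfold Hf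
  rw [Ham_Qm h ha he0 he1 he2 he3, L_Qm h ha he0, map_add, map_smul (Qm Q G a) (2 * m : ℂ)]
  push_cast
  module

lemma Hf_Qp (h : Susy G m ι Q Ham J) (ha : Eig G a e0 e1 e2 e3)
    (he0 : e0 = 1 ∨ e0 = -1) (he1 : e1 = 1 ∨ e1 = -1) (he2 : e2 = 1 ∨ e2 = -1)
    (he3 : e3 = 1 ∨ e3 = -1) (f0 f1 f2 f3 : ℝ) (φ : D) :
    Hf m Ham J f0 f1 f2 f3 (Qp Q G a φ) = Qp Q G a (Hf m Ham J f0 f1 f2 f3 φ) -
      ((m / 3 + 2 * m * lam e0 e1 e2 e3 f0 f1 f2 f3 : ℝ) : ℂ) • Qp Q G a φ := by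
  unfold Hf
  rw [Ham_Qp h ha he0 he1 he2 he3, L_Qp h ha he0, map_add, map_smul (Qp Q G a) (2 * m : ℂ)]
  push_cast
  module

/-- `⟨H_v φ, ψ⟩` -/
lemma inner_Hv_left (h : Susy G m ι Q Ham J) (ha : Eig G a e0 e1 e2 e3)
    (he0 : e0 = 1 ∨ e0 = -1) (he1 : e1 = 1 ∨ e1 = -1) (he2 : e2 = 1 ∨ e2 = -1)
    (he3 : e3 = 1 ∨ e3 = -1) (φ ψ : D) :
    ⟪ι (Hf m Ham J e0 e1 e2 e3 φ), ι ψ⟫_ℂ = ⟪ι (Qm Q G a φ), ι (Qm Q G a ψ)⟫_ℂ +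
      ⟪ι (Qp Q G a φ), ι (Qp Q G a ψ)⟫_ℂ := by
  unfold Hf
  rw [← h.Hv ha he0 he1 he2 he3, map_add, inner_add_left, h.inner_Qp a (Qm Q G a φ) ψ,
    h.inner_Qm a (Qp Q G a φ) ψ]

/-- positivity of the product of two commuting `H`'s, up to the shift -/
lemma pair_ineq (h : Susy G m ι Q Ham J) (ha : Eig G a e0 e1 e2 e3)
    (he0 : e0 = 1 ∨ e0 = -1) (he1 : e1 = 1 ∨ e1 = -1) (he2 : e2 = 1 ∨ e2 = -1)
    (he3 : e3 = 1 ∨ e3 = -1) {a' : Fin 16 → ℝ} {f0 f1 f2 f3 : ℝ} (ha' : Eig G a' f0 f1 f2 f3)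
    (hf0 : f0 = 1 ∨ f0 = -1) (hf1 : f1 = 1 ∨ f1 = -1) (hf2 : f2 = 1 ∨ f2 = -1)
    (hf3 : f3 = 1 ∨ f3 = -1) (φ : D) :
    (m / 3 + 2 * m * lam e0 e1 e2 e3 f0 f1 f2 f3) *
        (‖ι (Qp Q G a φ)‖ ^ 2 - ‖ι (Qm Q G a φ)‖ ^ 2) ≤
      (⟪ι (Hf m Ham J e0 e1 e2 e3 φ), ι (Hf m Ham J f0 f1 f2 f3 φ)⟫_ℂ).re := by
  set k : ℝ := m / 3 + 2 * m * lam e0 e1 e2 e3 f0 f1 f2 f3 with hk
  have p1 : 0 ≤ (⟪ι (Qm Q G a φ), ι (Hf m Ham J f0 f1 f2 f3 (Qm Q G a φ))⟫_ℂ).re :=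
    h.Hv_nonneg ha' hf0 hf1 hf2 hf3 _
  have p2 : 0 ≤ (⟪ι (Qp Q G a φ), ι (Hf m Ham J f0 f1 f2 f3 (Qp Q G a φ))⟫_ℂ).re :=
    h.Hv_nonneg ha' hf0 hf1 hf2 hf3 _
  rw [Hf_Qm h ha he0 he1 he2 he3, ← hk, map_add, inner_add_right, Complex.add_re, map_smul,
    re_inner_real_smul] at p1
  rw [Hf_Qp h ha he0 he1 he2 he3, ← hk, map_sub, inner_sub_right, Complex.sub_re, map_smul,
    re_inner_real_smul] at p2
  rw [inner_Hv_left h ha he0 he1 he2 he3, Complex.add_re]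
  linarith

/-- energy of `Q_v† φ` and `Q_v φ` -/
lemma energy_eq (h : Susy G m ι Q Ham J) (ha : Eig G a e0 e1 e2 e3)
    (he0 : e0 = 1 ∨ e0 = -1) (he1 : e1 = 1 ∨ e1 = -1) (he2 : e2 = 1 ∨ e2 = -1)
    (he3 : e3 = 1 ∨ e3 = -1) (φ : D) :
    4 * ((⟪ι (Qm Q G a φ), ι (Ham (Qm Q G a φ))⟫_ℂ).re +
      (⟪ι (Qp Q G a φ), ι (Ham (Qp Q G a φ))⟫_ℂ).re) =
      (⟪ι (Hf m Ham J e0 e1 e2 e3 φ), ι ((4 : ℂ) • Ham φ)⟫_ℂ).re +
        m / 3 * (‖ι (Qm Q G a φ)‖ ^ 2 - ‖ι (Qp Q G a φ)‖ ^ 2) := by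
  have e1' : 4 * (⟪ι (Qm Q G a φ), ι (Ham (Qm Q G a φ))⟫_ℂ).re =
      (⟪ι (Qm Q G a φ), ι (Qm Q G a ((4 : ℂ) • Ham φ))⟫_ℂ).re +
        m / 3 * ‖ι (Qm Q G a φ)‖ ^ 2 := by
    have h1 : (4 : ℝ) * (⟪ι (Qm Q G a φ), ι (Ham (Qm Q G a φ))⟫_ℂ).re =
        (⟪ι (Qm Q G a φ), ι ((4 : ℂ) • Ham (Qm Q G a φ))⟫_ℂ).re := by
      rw [map_smul, inner_smul_right]; simp
    rw [h1, Ham_Qm h ha he0 he1 he2 he3, map_add, inner_add_right, Complex.add_re, map_smul ι,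
      re_inner_real_smul]
  have e2' : 4 * (⟪ι (Qp Q G a φ), ι (Ham (Qp Q G a φ))⟫_ℂ).re =
      (⟪ι (Qp Q G a φ), ι (Qp Q G a ((4 : ℂ) • Ham φ))⟫_ℂ).re -
        m / 3 * ‖ι (Qp Q G a φ)‖ ^ 2 := by
    have h1 : (4 : ℝ) * (⟪ι (Qp Q G a φ), ι (Ham (Qp Q G a φ))⟫_ℂ).re =
        (⟪ι (Qp Q G a φ), ι ((4 : ℂ) • Ham (Qp Q G a φ))⟫_ℂ).re := by
      rw [map_smul, inner_smul_right]; simp
    rw [h1, Ham_Qp h ha he0 he1 he2 he3, map_sub, inner_sub_right, Complex.sub_re, map_smul ι,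
      re_inner_real_smul]
  rw [inner_Hv_left h ha he0 he1 he2 he3, Complex.add_re]
  linarith

/-- **(E2) for one plane.** -/
theorem e2_plane (h : Susy G m ι Q Ham J) (hm : 0 ≤ m) (ha : Eig G a e0 e1 e2 e3)
    (he0 : e0 = 1 ∨ e0 = -1) (he1 : e1 = 1 ∨ e1 = -1) (he2 : e2 = 1 ∨ e2 = -1)
    (he3 : e3 = 1 ∨ e3 = -1) (φ : D) :
    (⟪ι (Qm Q G a φ), ι (Ham (Qm Q G a φ))⟫_ℂ).re +
      (⟪ι (Qp Q G a φ), ι (Ham (Qp Q G a φ))⟫_ℂ).re ≤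
      40 * (‖ι (Ham φ)‖ ^ 2 + m ^ 2 * ‖ι φ‖ ^ 2) := by
  -- the three other patterns
  obtain ⟨b, hb⟩ := ha.flip0
  obtain ⟨a1, ha1⟩ := hb.flip12
  obtain ⟨a2, ha2⟩ := hb.flip23
  obtain ⟨c, hc⟩ := ha.flip12
  obtain ⟨a3, ha3⟩ := hc.flip23
  rw [neg_neg] at ha3
  have q1 := pair_ineq h ha he0 he1 he2 he3 ha1 (neg_sign he0) (neg_sign he1) (neg_sign he2) he3 φ
  have q2 := pair_ineq h ha he0 he1 he2 he3 ha2 (neg_sign he0) he1 (neg_sign he2) (neg_sign he3) φ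
  have q3 := pair_ineq h ha he0 he1 he2 he3 ha3 he0 (neg_sign he1) he2 (neg_sign he3) φ
  have s : ∀ {x : ℝ}, (x = 1 ∨ x = -1) → x * x = 1 := by
    rintro x (h | h) <;> rw [h] <;> norm_num
  have l1 : lam e0 e1 e2 e3 (-e0) (-e1) (-e2) e3 = -(1 / 6) := by
    rw [lam, neg_mul, neg_mul, neg_mul, s he0, s he1, s he2, s he3]; norm_num
  have l2 : lam e0 e1 e2 e3 (-e0) e1 (-e2) (-e3) = -(1 / 6) := by
    rw [lam, neg_mul, neg_mul, neg_mul, s he0, s he1, s he2, s he3]; norm_num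
  have l3 : lam e0 e1 e2 e3 e0 (-e1) e2 (-e3) = 1 / 2 := by
    rw [lam, neg_mul, neg_mul, s he0, s he1, s he2, s he3]; norm_num
  rw [l1] at q1
  rw [l2] at q2
  rw [l3] at q3
  set A : H := ι (Ham φ) with hA
  set X : H := ι ((m : ℂ) • Lop J e0 e1 e2 e3 φ) with hX
  have hHe : ι (Hf m Ham J e0 e1 e2 e3 φ) = (4 : ℂ) • A + (2 : ℂ) • X := by
    rw [hA, hX, Hf, map_add, map_smul, map_smul, map_smul, smul_smul]
  have hsum : ι (Hf m Ham J (-e0) (-e1) (-e2) e3 φ) + ι (Hf m Ham J (-e0) e1 (-e2) (-e3) φ) +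
      ι (Hf m Ham J e0 (-e1) e2 (-e3) φ) = (12 : ℂ) • A - (2 : ℂ) • X := by
    rw [hA, hX, ← map_add, ← map_add, ← map_smul ι (12 : ℂ) (Ham φ), ← map_smul ι (2 : ℂ) _,
      ← map_sub]
    congr 1
    simp only [Hf, Lop]
    push_cast
    module
  set u := Qm Q G a φ with hu
  set u' := Qp Q G a φ with hu'
  -- `‖u‖² + ‖u'‖² = ⟨φ, H_v φ⟩`
  have hn : ‖ι u‖ ^ 2 + ‖ι u'‖ ^ 2 ≤ ‖ι φ‖ * (4 * ‖A‖ + 2 * ‖X‖) := by
    have h1 := h.inner_Hv a φ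
    rw [← hu, ← hu', hu, hu', h.Hv ha he0 he1 he2 he3] at h1
    rw [← h1]
    refine (Complex.re_le_norm _).trans ((norm_inner_le_norm _ _).trans ?_)
    gcongr
    have h2 : ι ((4 : ℂ) • Ham φ + (2 * m : ℂ) • Lop J e0 e1 e2 e3 φ) = (4 : ℂ) • A + (2 : ℂ) • X :=
      hHe
    rw [h2]
    refine (norm_add_le _ _).trans ?_
    rw [norm_smul, norm_smul]
    norm_num
  have hinner : (⟪(4 : ℂ) • A + (2 : ℂ) • X, (12 : ℂ) • A - (2 : ℂ) • X⟫_ℂ).re =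
      48 * ‖A‖ ^ 2 + 16 * (⟪A, X⟫_ℂ).re - 4 * ‖X‖ ^ 2 := by
    have hc : (⟪X, A⟫_ℂ).re = (⟪A, X⟫_ℂ).re := by
      rw [← inner_conj_symm, Complex.conj_re]
    have hAA : (⟪A, A⟫_ℂ).re = ‖A‖ ^ 2 := by
      rw [← inner_self_eq_norm_sq (𝕜 := ℂ)]; rfl
    have hXX : (⟪X, X⟫_ℂ).re = ‖X‖ ^ 2 := by
      rw [← inner_self_eq_norm_sq (𝕜 := ℂ)]; rfl
    simp only [inner_add_left, inner_sub_right, inner_smul_left, inner_smul_right,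
      Complex.sub_re]
    simp only [map_ofNat, Complex.mul_re, Complex.add_re, Complex.re_ofNat,
      Complex.im_ofNat, zero_mul, sub_zero]
    rw [hc, hAA, hXX]
    ring
  have hpos : 0 ≤ ‖ι u'‖ ^ 2 := by positivity
  have hpos' : 0 ≤ ‖ι u‖ ^ 2 := by positivity
  -- lower bound of the sum of the three products
  have hthree : -(4 / 3 * m) * ‖ι u‖ ^ 2 ≤
      48 * ‖A‖ ^ 2 + 16 * (⟪A, X⟫_ℂ).re - 4 * ‖X‖ ^ 2 := by
    rw [← hinner, ← hHe, ← hsum, inner_add_right, inner_add_right, Complex.add_re, Complex.add_re]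
    have : 0 ≤ m * ‖ι u'‖ ^ 2 := by positivity
    nlinarith
  have hAX : (⟪A, X⟫_ℂ).re ≤ ‖A‖ * ‖X‖ :=
    (Complex.re_le_norm _).trans (norm_inner_le_norm _ _)
  have hA0 := norm_nonneg A
  have hX0 := norm_nonneg X
  have hφ0 := norm_nonneg (ι φ)
  set α := ‖A‖ with hα
  set x := ‖X‖ with hx
  set n := ‖ι φ‖ with hn'
  have hu_le : ‖ι u‖ ^ 2 ≤ n * (4 * α + 2 * x) := by linarith
  have hu'_le : ‖ι u'‖ ^ 2 ≤ n * (4 * α + 2 * x) := by linarith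
  have hXb : 4 * x ^ 2 ≤ 48 * α ^ 2 + 16 * (α * x) + 4 / 3 * m * (n * (4 * α + 2 * x)) := by
    have : 4 / 3 * m * ‖ι u‖ ^ 2 ≤ 4 / 3 * m * (n * (4 * α + 2 * x)) := by gcongr
    linarith
  have hXb' : x ^ 2 ≤ 57 * α ^ 2 + 5 * (m * n) ^ 2 := by
    have h1 : 16 * (α * x) ≤ x ^ 2 + 64 * α ^ 2 := by linarith [sq_nonneg (x - 8 * α)]
    have h2 : 8 / 3 * (m * n * x) ≤ x ^ 2 + 16 / 9 * (m * n) ^ 2 := by
      linarith [sq_nonneg (x - 4 / 3 * (m * n))]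
    have h3 : 16 / 3 * (m * n * α) ≤ α ^ 2 + 64 / 9 * (m * n) ^ 2 := by
      linarith [sq_nonneg (α - 8 / 3 * (m * n))]
    have h4 : 4 / 3 * m * (n * (4 * α + 2 * x)) = 16 / 3 * (m * n * α) + 8 / 3 * (m * n * x) := by
      ring
    have h5 := sq_nonneg (m * n)
    have h6 := sq_nonneg α
    linarith
  have hE := energy_eq h ha he0 he1 he2 he3 φ
  have hE2 : (⟪ι (Hf m Ham J e0 e1 e2 e3 φ), ι ((4 : ℂ) • Ham φ)⟫_ℂ).re ≤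
      16 * α ^ 2 + 8 * (α * x) := by
    refine (Complex.re_le_norm _).trans ((norm_inner_le_norm _ _).trans ?_)
    have n1 : ‖ι (Hf m Ham J e0 e1 e2 e3 φ)‖ ≤ 4 * α + 2 * x := by
      rw [hHe]
      refine (norm_add_le _ _).trans (le_of_eq ?_)
      rw [norm_smul, norm_smul, ← hα, ← hx]
      norm_num
    have n2 : ‖ι ((4 : ℂ) • Ham φ)‖ = 4 * α := by
      rw [map_smul, norm_smul, ← hA, ← hα]
      norm_num
    rw [n2]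
    nlinarith
  rw [← hu, ← hu'] at hE
  have hE3 : m / 3 * (‖ι u‖ ^ 2 - ‖ι u'‖ ^ 2) ≤ m / 3 * (n * (4 * α + 2 * x)) := by
    have : 0 ≤ m / 3 := by positivity
    apply mul_le_mul_of_nonneg_left _ this
    linarith
  have hfin : 16 * α ^ 2 + 8 * (α * x) + m / 3 * (n * (4 * α + 2 * x)) ≤
      160 * (α ^ 2 + m ^ 2 * n ^ 2) := by
    have h1 : 8 * (α * x) ≤ x ^ 2 + 16 * α ^ 2 := by linarith [sq_nonneg (x - 4 * α)]
    have h2 : 2 / 3 * (m * n * x) ≤ 1 / 3 * (x ^ 2 + (m * n) ^ 2) := by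
      linarith [sq_nonneg (x - m * n)]
    have h3 : 4 / 3 * (m * n * α) ≤ 2 / 3 * (α ^ 2 + (m * n) ^ 2) := by
      linarith [sq_nonneg (α - m * n)]
    have h4 : m / 3 * (n * (4 * α + 2 * x)) = 4 / 3 * (m * n * α) + 2 / 3 * (m * n * x) := by
      ring
    have h5 := sq_nonneg (m * n)
    have h6 := sq_nonneg α
    have h7 : m ^ 2 * n ^ 2 = (m * n) ^ 2 := by ring
    rw [h4, h7]
    linarith
  linarith

/-! ### The sixteen charges: an orthonormal basis of eigenvectors -/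

section Basis

/-- signs -/
def sgn (b : Bool) : ℝ := if b then 1 else -1

lemma sgn_eq (b : Bool) : sgn b = 1 ∨ sgn b = -1 := by
  cases b <;> simp [sgn]

lemma sgn_ne {b c : Bool} (h : b ≠ c) : sgn b ≠ sgn c := by
  cases b <;> cases c <;> simp_all [sgn] <;> norm_num

/-- index of the planes -/
abbrev Pl := Bool × Bool × Bool

/-- the signs of a plane -/
noncomputable def sg4 (s : ℝ) (p : Pl) : ℝ := s * sgn p.2.1 * sgn p.2.2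

lemma dot_of_ne {K : Matrix (Fin 16) (Fin 16) ℝ} (hK : Kᵀ = K) {a b : Fin 16 → ℝ} {x y : ℝ}
    (ha : K *ᵥ a = x • a) (hb : K *ᵥ b = y • b) (h : x ≠ y) : a ⬝ᵥ b = 0 := by
  have h1 : a ⬝ᵥ (K *ᵥ b) = y * (a ⬝ᵥ b) := by rw [hb, dotProduct_smul, smul_eq_mul]
  have h2 : a ⬝ᵥ (K *ᵥ b) = x * (a ⬝ᵥ b) := by
    rw [dotProduct_mulVec, ← mulVec_transpose, hK, ha, smul_dotProduct, smul_eq_mul]
  have h3 : (x - y) * (a ⬝ᵥ b) = 0 := by rw [sub_mul, ← h1, ← h2, sub_self]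
  exact (mul_eq_zero.1 h3).resolve_left (sub_ne_zero.2 h)

/-- eigenvectors with different signs are orthogonal -/
lemma eig_orth {a b : Fin 16 → ℝ} {e0 e1 e2 e3 f0 f1 f2 f3 : ℝ} (ha : Eig G a e0 e1 e2 e3)
    (hb : Eig G b f0 f1 f2 f3) (h : e0 ≠ f0 ∨ e1 ≠ f1 ∨ e2 ≠ f2) : a ⬝ᵥ b = 0 := by
  rcases h with h | h | h
  · exact dot_of_ne (W_symm (by decide)) ha.h0 hb.h0 h
  · exact dot_of_ne (W_symm (by decide)) ha.h1 hb.h1 (by simpa using h)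
  · exact dot_of_ne (W_symm (by decide)) ha.h2 hb.h2 (by simpa using h)

/-- `Γ a` has the same signs -/
lemma eig_Gam {a : Fin 16 → ℝ} {e0 e1 e2 e3 : ℝ} (ha : Eig G a e0 e1 e2 e3) :
    Eig G (Gam G *ᵥ a) e0 e1 e2 e3 := by
  have := ha.flip [0, 1, 2]
  have h0 : sgw [2] [0, 1, 2] = 1 := by decide
  have h1 : sgw [0, 1, 2, 3, 4] [0, 1, 2] = 1 := by decide
  have h2 : sgw [0, 1, 2, 5, 6] [0, 1, 2] = 1 := by decide
  have h3 : sgw [0, 1, 2, 7, 8] [0, 1, 2] = 1 := by decide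
  simp only [h0, h1, h2, h3, Int.cast_one, one_mul] at this
  rwa [Gam_eq]

variable (G) in
/-- **The eight planes** `(a_p, Γ a_p)` : sixteen orthonormal vectors. -/
theorem exists_planes : ∃ (s : ℝ) (a : Pl → Fin 16 → ℝ), (s = 1 ∨ s = -1) ∧
    (∀ p, Eig G (a p) (sgn p.1) (sgn p.2.1) (sgn p.2.2) (sg4 s p)) ∧
    ∀ α β, ∑ p : Pl, (a p α * a p β + (Gam G *ᵥ a p) α * (Gam G *ᵥ a p) β) =
      if α = β then 1 else 0 := by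
  obtain ⟨s, hs, hex⟩ := exists_eig G
  have hsg : ∀ p : Pl, sg4 s p = 1 ∨ sg4 s p = -1 := by
    intro p
    rw [sg4]
    rcases hs with h | h <;> rcases sgn_eq p.2.1 with h1 | h1 <;>
      rcases sgn_eq p.2.2 with h2 | h2 <;> simp [h, h1, h2]
  have hprod : ∀ p : Pl, sgn p.2.1 * sgn p.2.2 * sg4 s p = s := by
    intro p
    rw [sg4]
    rcases sgn_eq p.2.1 with h1 | h1 <;> rcases sgn_eq p.2.2 with h2 | h2 <;> simp [h1, h2]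
  choose a ha using fun p : Pl => hex (sgn p.1) (sgn p.2.1) (sgn p.2.2) (sg4 s p) (sgn_eq _)
    (sgn_eq _) (sgn_eq _) (hsg p) (hprod p)
  refine ⟨s, a, hs, ha, ?_⟩
  -- the matrix of the sixteen vectors
  set B : Matrix (Pl × Bool) (Fin 16) ℝ := fun q α =>
    if q.2 then a q.1 α else (Gam G *ᵥ a q.1) α with hB
  have hrow : ∀ q : Pl × Bool, (fun α => B q α) = if q.2 then a q.1 else Gam G *ᵥ a q.1 := by
    rintro ⟨p, b⟩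
    funext α
    cases b <;> simp [hB]
  have hBB : B * Bᵀ = 1 := by
    ext q r
    have h1 : (B * Bᵀ) q r = (fun α => B q α) ⬝ᵥ (fun α => B r α) := by
      simp [Matrix.mul_apply, dotProduct]
    rw [h1, hrow, hrow, Matrix.one_apply]
    by_cases hqr : q.1 = r.1
    · obtain ⟨p, b⟩ := q
      obtain ⟨p', b'⟩ := r
      simp only at hqr
      subst hqr
      cases b <;> cases b'
      · simp [dot_Gam_Gam, (ha p).norm]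
      · simp [dotProduct_comm (Gam G *ᵥ a p), dot_Gam]
      · simp [dot_Gam]
      · simp [(ha p).norm]
    · have hne : q ≠ r := fun h => hqr (by rw [h])
      rw [if_neg hne]
      have hs' : sgn q.1.1 ≠ sgn r.1.1 ∨ sgn q.1.2.1 ≠ sgn r.1.2.1 ∨
          sgn q.1.2.2 ≠ sgn r.1.2.2 := by
        by_contra hcon
        push Not at hcon
        obtain ⟨c1, c2, c3⟩ := hcon
        apply hqr
        refine Prod.ext ?_ (Prod.ext ?_ ?_)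
        · exact by_contra fun h => sgn_ne h c1
        · exact by_contra fun h => sgn_ne h c2
        · exact by_contra fun h => sgn_ne h c3
      cases q.2 <;> cases r.2
      · exact eig_orth (eig_Gam (ha q.1)) (eig_Gam (ha r.1)) hs'
      · exact eig_orth (eig_Gam (ha q.1)) (ha r.1) hs'
      · exact eig_orth (ha q.1) (eig_Gam (ha r.1)) hs'
      · exact eig_orth (ha q.1) (ha r.1) hs'
  have hcard : Fintype.card (Pl × Bool) = Fintype.card (Fin 16) := by decide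
  have hBB' : Bᵀ * B = 1 := by
    have e := Fintype.equivOfCardEq hcard
    have h1 : (B.submatrix e.symm id) * (B.submatrix e.symm id)ᵀ = 1 := by
      rw [Matrix.transpose_submatrix, ← Matrix.submatrix_mul _ _ _ _ _ Function.bijective_id, hBB,
        Matrix.submatrix_one_equiv]
    have h2 := mul_eq_one_comm.1 h1
    rwa [Matrix.transpose_submatrix, ← Matrix.submatrix_mul _ _ _ _ _ e.symm.bijective,
      Matrix.submatrix_id_id] at h2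
  intro α β
  have h1 : (Bᵀ * B) α β = (1 : Matrix (Fin 16) (Fin 16) ℝ) α β := by rw [hBB']
  rw [Matrix.one_apply, Matrix.mul_apply] at h1
  rw [← h1, Fintype.sum_prod_type (f := fun x : Pl × Bool => Bᵀ α x * B x β)]
  refine Finset.sum_congr rfl fun p _ => ?_
  rw [Fintype.sum_bool]
  change _ = B (p, true) α * B (p, true) β + B (p, false) α * B (p, false) β
  simp [hB]

end Basis

/-- the energy form is additive over an orthonormal basis of planes -/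
lemma sum_energy (h : Susy G m ι Q Ham J) {a : Pl → Fin 16 → ℝ}
    (hB : ∀ α β, ∑ p : Pl, (a p α * a p β + (Gam G *ᵥ a p) α * (Gam G *ᵥ a p) β) =
      if α = β then 1 else 0) (φ : D) :
    ∑ α, (⟪ι (Q α φ), ι (Ham (Q α φ))⟫_ℂ).re = ∑ p : Pl, (1 / 2) *
      ((⟪ι (Qm Q G (a p) φ), ι (Ham (Qm Q G (a p) φ))⟫_ℂ).re +
        (⟪ι (Qp Q G (a p) φ), ι (Ham (Qp Q G (a p) φ))⟫_ℂ).re) := by
  have hpm : ∀ b : Fin 16 → ℝ, (1 / 2) *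
      ((⟪ι (Qm Q G b φ), ι (Ham (Qm Q G b φ))⟫_ℂ).re +
        (⟪ι (Qp Q G b φ), ι (Ham (Qp Q G b φ))⟫_ℂ).re) =
      (⟪ι (Qa Q b φ), ι (Ham (Qa Q b φ))⟫_ℂ).re +
      (⟪ι (Qa Q (Gam G *ᵥ b) φ), ι (Ham (Qa Q (Gam G *ᵥ b) φ))⟫_ℂ).re := by
    intro b
    simp only [Qm_apply, Qp_apply, map_sub, map_add, map_smul, inner_sub_left, inner_sub_right,
      inner_add_left, inner_add_right, inner_smul_left, inner_smul_right, Complex.conj_I,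
      Complex.add_re, Complex.sub_re, Complex.mul_re, Complex.mul_im, Complex.neg_re,
      Complex.neg_im, Complex.I_re, Complex.I_im, Complex.add_im, Complex.sub_im]
    ring
  have hexp : ∀ b : Fin 16 → ℝ, (⟪ι (Qa Q b φ), ι (Ham (Qa Q b φ))⟫_ℂ).re =
      ∑ α, ∑ β, b α * b β * (⟪ι (Q α φ), ι (Ham (Q β φ))⟫_ℂ).re := by
    intro b
    simp only [Qa_apply, map_sum, map_smul, sum_inner, inner_sum, inner_smul_left,
      inner_smul_right, Complex.conj_ofReal, Complex.re_sum, Complex.re_ofReal_mul,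
      Finset.mul_sum]
    rw [Finset.sum_comm]
    refine Finset.sum_congr rfl fun α _ => Finset.sum_congr rfl fun β _ => ?_
    ring
  simp_rw [hpm, hexp, ← Finset.sum_add_distrib]
  rw [Finset.sum_comm]
  have h1 : ∀ α : Fin 16, ∑ p : Pl, ∑ β : Fin 16,
      (a p α * a p β * (⟪ι (Q α φ), ι (Ham (Q β φ))⟫_ℂ).re +
        (Gam G *ᵥ a p) α * (Gam G *ᵥ a p) β * (⟪ι (Q α φ), ι (Ham (Q β φ))⟫_ℂ).re) =
      (⟪ι (Q α φ), ι (Ham (Q α φ))⟫_ℂ).re := by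
    intro α
    rw [Finset.sum_comm]
    have h2 : ∀ β : Fin 16, ∑ p : Pl,
        (a p α * a p β * (⟪ι (Q α φ), ι (Ham (Q β φ))⟫_ℂ).re +
        (Gam G *ᵥ a p) α * (Gam G *ᵥ a p) β * (⟪ι (Q α φ), ι (Ham (Q β φ))⟫_ℂ).re) =
        (if α = β then 1 else 0) * (⟪ι (Q α φ), ι (Ham (Q β φ))⟫_ℂ).re := by
      intro β
      rw [← hB, Finset.sum_mul]
      refine Finset.sum_congr rfl fun p _ => ?_
      ring
    simp_rw [h2]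
    simp
  exact (Finset.sum_congr rfl fun α _ => h1 α).symm

/-- **(E2)** : `Σ_α ⟨Q_α φ, H Q_α φ⟩ ≤ 160 (‖H φ‖² + m² ‖φ‖²)` on the whole core. -/
theorem energy_le (h : Susy G m ι Q Ham J) (hm : 0 ≤ m) (φ : D) :
    ∑ α, (⟪ι (Q α φ), ι (Ham (Q α φ))⟫_ℂ).re ≤ 160 * (‖ι (Ham φ)‖ ^ 2 + m ^ 2 * ‖ι φ‖ ^ 2) := by
  obtain ⟨s, a, hs, ha, hB⟩ := exists_planes G
  have hsg : ∀ p : Pl, sg4 s p = 1 ∨ sg4 s p = -1 := by
    intro p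
    rw [sg4]
    rcases hs with h | h <;> rcases sgn_eq p.2.1 with h1 | h1 <;>
      rcases sgn_eq p.2.2 with h2 | h2 <;> simp [h, h1, h2]
  rw [sum_energy h hB]
  calc _ ≤ ∑ _p : Pl, (1 / 2) * (40 * (‖ι (Ham φ)‖ ^ 2 + m ^ 2 * ‖ι φ‖ ^ 2)) := by
        refine Finset.sum_le_sum fun p _ => ?_
        have := e2_plane h hm (ha p) (sgn_eq _) (sgn_eq _) (sgn_eq _) (hsg p) φ
        linarith
    _ = _ := by
        rw [Finset.sum_const, Finset.card_univ]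
        have : Fintype.card Pl = 8 := by decide
        rw [this, nsmul_eq_mul]
        push_cast
        ring

/-- **(E2)**, second order charges: `Σ_{α,β} ‖Q_β Q_α φ‖² ≤ 2560 (‖H φ‖² + m² ‖φ‖²)`. -/
theorem charge_charge_le (h : Susy G m ι Q Ham J) (hm : 0 ≤ m) (φ : D) :
    ∑ α, ∑ β, ‖ι (Q β (Q α φ))‖ ^ 2 ≤ 2560 * (‖ι (Ham φ)‖ ^ 2 + m ^ 2 * ‖ι φ‖ ^ 2) := by
  have h1 : ∀ α, ∑ β, ‖ι (Q β (Q α φ))‖ ^ 2 = 16 * (⟪ι (Q α φ), ι (Ham (Q α φ))⟫_ℂ).re := by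
    intro α
    rw [← h.form_self]
    ring
  simp_rw [h1]
  rw [← Finset.mul_sum]
  have := energy_le h hm φ
  linarith

end Crest.Agent.R330.E2942
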