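import Crest.Agent.R330.PairE_547
import Crest.Agent.R330.Bind6_839

/-!
# Row 330, S8-PAIR, PairC: the error terms e3 and e8 (helper263)

Point `c + p + z` of the slice at a commuting `c`, `p, p' ∈ Uk b c` (`p' = X - c`, `Y = p - p'`),
`z ∈ Zs b c`.

* `e3` : `vco (2 g wb(Y,z)) f`, heavy odd, `‖e3‖ ≤ C g ‖Y‖ ‖z‖ ‖f‖`.
* `e8` : `Σ_{n,t} i Θ(e_t) ((cf_nt(u) - cf_nt(u')) D e_n)`, heavy odd,
  `‖e8‖ ≤ C ((‖Y‖ + ‖z‖) ‖D|Z‖ + ‖z‖ ‖D|Uk‖)`.
-/

set_option autoImplicit false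
set_option linter.unusedSectionVars false

open MeasureTheory Filter Topology Crest.MathPhysics.MatrixQM
open Crest.Agent.R330.IBP837 Crest.Agent.R330.Defs478 Crest.Agent.R330.Frame839
open Crest.Agent.R330.LS839 Crest.Agent.R330.Clus839 Crest.Agent.R330.Bind6839
open Crest.Agent.R330.PairA547 Crest.Agent.R330.PairB547 Crest.Agent.R330.PairE547
open scoped ContDiff InnerProductSpace ENNReal

noncomputable section

namespace Crest.Agent.R330.E3E8263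

/-! ## The oblique remainder, abstract -/

section abst

variable {V E : Type*} [NormedAddCommGroup V] [InnerProductSpace ℝ V] [FiniteDimensional ℝ V]
  [NormedAddCommGroup E] [InnerProductSpace ℝ E] [FiniteDimensional ℝ E]
  {F : Type*} [NormedAddCommGroup F] [InnerProductSpace ℂ F] [FiniteDimensional ℂ F]
  {ι κ : Type*} [Fintype ι] [Fintype κ]
  (A : V →L[ℝ] E →L[ℝ] E) (c : E)

/-- The oblique remainder. -/
def e8 (Θ : E →ₗ[ℝ] (F →ₗ[ℂ] F)) (eT : OrthonormalBasis ι ℝ (Tn A c))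
    (eN : OrthonormalBasis κ ℝ (Tn A c)ᗮ) (u u' : (Tn A c)ᗮ) (D : (Tn A c)ᗮ →L[ℝ] F) : F :=
  ∑ n, ∑ t, Complex.I • Θ (eT t) ((cf A c eT eN n t u - cf A c eT eN n t u') • D (eN n))

/-- The vector of the oblique remainder. -/
def dl (u u' : (Tn A c)ᗮ) (t : Tn A c) : (Tn A c)ᗮ :=
  (Tn A c)ᗮ.orthogonalProjectionOnto (nn A c (c + u) t - nn A c (c + u') t)

variable {A c}

theorem proj_sum (eN : OrthonormalBasis κ ℝ (Tn A c)ᗮ) (x : E) (D : (Tn A c)ᗮ →L[ℝ] F) :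
    ∑ n, ⟪((eN n : (Tn A c)ᗮ) : E), x⟫_ℝ • D (eN n) =
      D ((Tn A c)ᗮ.orthogonalProjectionOnto x) := by
  have h := eN.sum_repr' ((Tn A c)ᗮ.orthogonalProjectionOnto x)
  conv_rhs => rw [← h, map_sum]
  refine Finset.sum_congr rfl fun n _ => ?_
  rw [map_smul]
  congr 1
  rw [← Submodule.inner_orthogonalProjectionOnto_eq_of_mem_left]

theorem e8_eq (Θ : E →ₗ[ℝ] (F →ₗ[ℂ] F)) (eT : OrthonormalBasis ι ℝ (Tn A c))
    (eN : OrthonormalBasis κ ℝ (Tn A c)ᗮ) (u u' : (Tn A c)ᗮ) (D : (Tn A c)ᗮ →L[ℝ] F) :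
    e8 A c Θ eT eN u u' D = ∑ t, Complex.I • Θ (eT t) (D (dl A c u u' (eT t))) := by
  unfold e8
  rw [Finset.sum_comm]
  refine Finset.sum_congr rfl fun t _ => ?_
  rw [← Finset.smul_sum, ← map_sum]
  congr 2
  unfold dl
  rw [← proj_sum eN]
  refine Finset.sum_congr rfl fun n _ => ?_
  unfold cf
  rw [← inner_sub_right]

/-- **Parity of the oblique remainder.** -/
theorem e8_odd {Θ : E →ₗ[ℝ] (F →ₗ[ℂ] F)} {Gam : F →ₗ[ℂ] F}
    (hG : ∀ (t : Tn A c) (f : F), Gam (Θ t f) = - Θ t (Gam f))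
    (eT : OrthonormalBasis ι ℝ (Tn A c)) (eN : OrthonormalBasis κ ℝ (Tn A c)ᗮ)
    (u u' : (Tn A c)ᗮ) {D : (Tn A c)ᗮ →L[ℝ] F} (hD : ∀ n, Gam (D n) = D n) :
    Gam (e8 A c Θ eT eN u u' D) = - e8 A c Θ eT eN u u' D := by
  rw [e8_eq, map_sum, ← Finset.sum_neg_distrib]
  refine Finset.sum_congr rfl fun t _ => ?_
  rw [map_smul, hG, hD, smul_neg]

/-- The derivative of a `Gam`-even function is `Gam`-even. -/
theorem fderiv_even {X : Type*} [NormedAddCommGroup X] [NormedSpace ℝ X] {Gam : F →ₗ[ℂ] F}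
    {τ : X → F} (hτ : ∀ u, Gam (τ u) = τ u) {u : X} (hd : DifferentiableAt ℝ τ u) (n : X) :
    Gam (fderiv ℝ τ u n) = fderiv ℝ τ u n := by
  rw [← fderiv_lin Gam hd]
  congr 2
  funext v
  exact hτ v

variable {r B : ℝ}

theorem dl_coe (hr0 : 0 < r) (hr : GapAt A c r) (hB : ActBound A B) {u u' : (Tn A c)ᗮ}
    (hu : B * ‖u‖ ≤ r / 2) (hu' : B * ‖u'‖ ≤ r / 2) (t : Tn A c) :
    ((dl A c u u' t : (Tn A c)ᗮ) : E) = nn A c (c + u) t - nn A c (c + u') t := by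
  have h1 : B * ‖c + (u : E) - c‖ ≤ r / 2 := by
    rw [add_sub_cancel_left]
    exact hu
  have h2 : B * ‖c + (u' : E) - c‖ ≤ r / 2 := by
    rw [add_sub_cancel_left]
    exact hu'
  have h3 := Submodule.sub_mem _ (nn_mem hr0 hr hB h1 t) (nn_mem hr0 hr hB h2 t)
  exact Submodule.starProjection_eq_self_iff.2 h3

theorem dl_bound (hr0 : 0 < r) (hr : GapAt A c r) (hB : ActBound A B) (hB0 : 0 ≤ B)
    {u u' : (Tn A c)ᗮ} (hu : B * ‖u‖ ≤ r / 2) (hu' : B * ‖u'‖ ≤ r / 2) (t : Tn A c) :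
    ‖dl A c u u' t‖ ≤ 4 * B / r * ‖u - u'‖ * ‖t‖ := by
  have h1 : B * ‖c + (u : E) - c‖ ≤ r / 2 := by
    rw [add_sub_cancel_left]
    exact hu
  have h2 : B * ‖c + (u' : E) - c‖ ≤ r / 2 := by
    rw [add_sub_cancel_left]
    exact hu'
  refine (proj_norm_le _ _).trans ((nn_sub_bound hr0 hr hB hB0 h1 h2 t).trans (le_of_eq ?_))
  rw [add_sub_add_left_eq_sub]
  rfl

/-- Bound of the oblique remainder through bounds of `D` along the vectors `dl`. -/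
theorem e8_le_of {Θ : E →ₗ[ℝ] (F →ₗ[ℂ] F)} {CT K : ℝ} (hCT : 0 ≤ CT)
    (hΘ : ∀ v f, ‖Θ v f‖ ≤ CT * ‖v‖ * ‖f‖) (eT : OrthonormalBasis ι ℝ (Tn A c))
    (eN : OrthonormalBasis κ ℝ (Tn A c)ᗮ) (u u' : (Tn A c)ᗮ) (D : (Tn A c)ᗮ →L[ℝ] F)
    (hK : ∀ t, ‖D (dl A c u u' (eT t))‖ ≤ K) :
    ‖e8 A c Θ eT eN u u' D‖ ≤ Fintype.card ι * (CT * K) := by
  rw [e8_eq]
  refine (norm_sum_le _ _).trans ?_
  have h : ∀ t ∈ (Finset.univ : Finset ι),
      ‖Complex.I • Θ (eT t) (D (dl A c u u' (eT t)))‖ ≤ CT * K := by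
    intro t _
    rw [norm_smul, Complex.norm_I, one_mul]
    refine (hΘ _ _).trans ?_
    have h1 : ‖((eT t : Tn A c) : E)‖ = 1 := eT.orthonormal.1 t
    rw [h1, mul_one]
    exact mul_le_mul_of_nonneg_left (hK t) hCT
  refine (Finset.sum_le_sum h).trans (le_of_eq ?_)
  rw [Finset.sum_const, Finset.card_univ, nsmul_eq_mul]

end abst

/-! ## Literal bounds -/

section lit

variable {N : ℕ} {b : ColorBasis N} {c : Cfg N} {r B : ℝ}

/-- **The light part of the horizontal remainder is of first order in `z`.** -/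
theorem nn_light (hr0 : 0 < r) (hr : GapAt (actB b) c r) (hB : ActBound (actB b) B)
    (hB0 : 0 ≤ B) {p z l : Cfg N} (hp : p ∈ Uk b c) (hl : l ∈ Uk b c)
    (hx : B * ‖p + z‖ ≤ r / 2) (t : Tn (actB b) c) :
    |⟪l, nn (actB b) c (c + (p + z)) t⟫_ℝ| ≤ 2 * B / r * ‖z‖ * ‖t‖ * ‖l‖ := by
  have h1 : B * ‖c + (p + z) - c‖ ≤ r / 2 := by
    rw [add_sub_cancel_left]
    exact hx
  rw [nn_eq' hr0 hr hB h1, add_sub_cancel_left]
  set w : Colg N := ((om (actB b) c (c + (p + z)) t : (kc (actB b) c)ᗮ) : Colg N) with hw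
  have h2 : ⟪l, (Tn (actB b) c)ᗮ.starProjection (actB b w (p + z))⟫_ℝ =
      ⟪l, actB b w (p + z)⟫_ℝ := by
    rw [← Submodule.inner_starProjection_left_eq_right,
      Submodule.starProjection_eq_self_iff.2 (Uk_le_Nor hl)]
  have h3 : ⟪l, actB b w p⟫_ℝ = 0 := by
    have h4 : actB b w p ∈ ((Uk b c)ᗮ : Submodule ℝ (Cfg N)) := by
      unfold Uk
      rw [Tup_orth]
      exact act_mem_Mm hp (om (actB b) c (c + (p + z)) t).2
    exact (Submodule.mem_orthogonal _ _).1 h4 l hl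
  rw [h2, map_add, inner_add_right, h3, zero_add]
  have h5 := om_bound hr0 hr hB h1 t
  have h6 : ‖w‖ ≤ 2 / r * ‖t‖ := h5
  calc |⟪l, actB b w z⟫_ℝ| ≤ ‖l‖ * ‖actB b w z‖ := abs_real_inner_le_norm _ _
    _ ≤ ‖l‖ * (B * ‖w‖ * ‖z‖) := by
        gcongr
        exact hB _ _
    _ ≤ ‖l‖ * (B * (2 / r * ‖t‖) * ‖z‖) := by gcongr
    _ = _ := by ring

/-- Bound of a linear map on a normal vector with small light part. -/
theorem dec_bound {F : Type*} [NormedAddCommGroup F] [NormedSpace ℝ F] {K DL DZ : ℝ}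
    (hK : 0 ≤ K) (hDZ0 : 0 ≤ DZ) (hDL0 : 0 ≤ DL) (D : (Tn (actB b) c)ᗮ →L[ℝ] F)
    (hL : ∀ n : (Tn (actB b) c)ᗮ, (n : Cfg N) ∈ Uk b c → ‖D n‖ ≤ DL * ‖n‖)
    (hZ : ∀ n : (Tn (actB b) c)ᗮ, (n : Cfg N) ∈ Zs b c → ‖D n‖ ≤ DZ * ‖n‖)
    (n : (Tn (actB b) c)ᗮ) (hn : ∀ l ∈ Uk b c, |⟪l, (n : Cfg N)⟫_ℝ| ≤ K * ‖l‖) :
    ‖D n‖ ≤ DL * K + DZ * ‖n‖ := by
  obtain ⟨y, hy, z, hz, hyz⟩ := nor_decomp n.2
  have hn' : n = (⟨y, Uk_le_Nor hy⟩ : (Tn (actB b) c)ᗮ) + ⟨z, hz.2⟩ := Subtype.ext hyz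
  have h0 : ⟪y, z⟫_ℝ = 0 := Zs_perp_Uk hy hz
  have hyK : ‖y‖ ≤ K := by
    have h1 := hn y hy
    rw [hyz, inner_add_right, h0, add_zero, real_inner_self_eq_norm_sq,
      abs_of_nonneg (sq_nonneg _), sq] at h1
    by_cases h2 : ‖y‖ = 0
    · rw [h2]
      exact hK
    · have h3 : 0 < ‖y‖ := lt_of_le_of_ne (norm_nonneg _) (Ne.symm h2)
      exact le_of_mul_le_mul_right h1 h3
  have hzn : ‖z‖ ≤ ‖n‖ := by
    have h1 : ‖(n : Cfg N)‖ ^ 2 = ‖y‖ ^ 2 + ‖z‖ ^ 2 := by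
      rw [hyz, norm_add_sq_real, h0]
      ring
    have h2 : ‖z‖ ^ 2 ≤ ‖(n : Cfg N)‖ ^ 2 := by
      rw [h1]
      nlinarith [sq_nonneg ‖y‖]
    exact le_of_sq_le_sq h2 (norm_nonneg _)
  calc ‖D n‖ = ‖D (⟨y, Uk_le_Nor hy⟩ : (Tn (actB b) c)ᗮ) + D ⟨z, hz.2⟩‖ := by
        rw [← map_add, ← hn']
    _ ≤ DL * ‖y‖ + DZ * ‖z‖ := (norm_add_le _ _).trans (add_le_add (hL _ hy) (hZ _ hz))
    _ ≤ DL * K + DZ * ‖n‖ := by gcongr

variable {F : Type*} [NormedAddCommGroup F] [InnerProductSpace ℂ F] [FiniteDimensional ℂ F]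

/-- **Pointwise bound of the oblique remainder.** -/
theorem e8_bound (hc : Comc b c) (hr0 : 0 < r) (hr : GapAt (actB b) c r)
    (hB : ActBound (actB b) B) (hB0 : 0 ≤ B) {ι κ : Type*} [Fintype ι] [Fintype κ]
    {Θ : Cfg N →ₗ[ℝ] (F →ₗ[ℂ] F)} {CT DL DZ : ℝ} (hCT : 0 ≤ CT)
    (hΘ : ∀ v f, ‖Θ v f‖ ≤ CT * ‖v‖ * ‖f‖) (eT : OrthonormalBasis ι ℝ (Tn (actB b) c))
    (eN : OrthonormalBasis κ ℝ (Tn (actB b) c)ᗮ) {p p' z : Cfg N} (hp : p ∈ Uk b c)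
    (hp' : p' ∈ Uk b c) {u u' : (Tn (actB b) c)ᗮ} (hu : (u : Cfg N) = p + z)
    (hu' : (u' : Cfg N) = p') (hub : B * ‖u‖ ≤ r / 2) (hub' : B * ‖u'‖ ≤ r / 2)
    (D : (Tn (actB b) c)ᗮ →L[ℝ] F) (hDZ0 : 0 ≤ DZ) (hDL0 : 0 ≤ DL)
    (hL : ∀ n : (Tn (actB b) c)ᗮ, (n : Cfg N) ∈ Uk b c → ‖D n‖ ≤ DL * ‖n‖)
    (hZ : ∀ n : (Tn (actB b) c)ᗮ, (n : Cfg N) ∈ Zs b c → ‖D n‖ ≤ DZ * ‖n‖) :
    ‖e8 (actB b) c Θ eT eN u u' D‖ ≤
      Fintype.card ι * (CT * (4 * B / r)) * (DL * ‖z‖ + DZ * (‖p - p'‖ + ‖z‖)) := by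
  have h1 : ∀ t, ‖D (dl (actB b) c u u' (eT t))‖ ≤
      4 * B / r * (DL * ‖z‖ + DZ * (‖p - p'‖ + ‖z‖)) := by
    intro t
    have ht : ‖eT t‖ = 1 := eT.orthonormal.1 t
    have e1 := dl_bound hr0 hr hB hB0 hub hub' (eT t)
    rw [ht, mul_one] at e1
    have e2 : ‖u - u'‖ ≤ ‖p - p'‖ + ‖z‖ := by
      have : ((u - u' : (Tn (actB b) c)ᗮ) : Cfg N) = (p - p') + z := by
        rw [Submodule.coe_sub, hu, hu']
        abel
      calc ‖u - u'‖ = ‖((u - u' : (Tn (actB b) c)ᗮ) : Cfg N)‖ := rfl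
        _ ≤ _ := by rw [this]; exact norm_add_le _ _
    have e3 : ∀ l ∈ Uk b c, |⟪l, ((dl (actB b) c u u' (eT t) : (Tn (actB b) c)ᗮ) : Cfg N)⟫_ℝ| ≤
        (2 * B / r * ‖z‖) * ‖l‖ := by
      intro l hl
      rw [dl_coe hr0 hr hB hub hub', inner_sub_right]
      have hxu : B * ‖c + (u' : Cfg N) - c‖ ≤ r / 2 := by
        rw [add_sub_cancel_left]
        exact hub'
      have e4 : ⟪l, nn (actB b) c (c + (u' : Cfg N)) (eT t)⟫_ℝ = 0 := by
        refine Zs_perp_Uk hl (nn_mem_Zs hr0 hr hB ?_ hxu _)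
        rw [hu']
        exact Submodule.add_mem _ (self_mem_Uk hc) hp'
      rw [e4, sub_zero]
      have e5 := nn_light hr0 hr hB hB0 (z := z) hp hl (by
        rw [← hu]
        exact hub) (eT t)
      rw [← hu, ht, mul_one] at e5
      exact e5
    have e6 := dec_bound (by positivity) hDZ0 hDL0 D hL hZ _ e3
    have hz := norm_nonneg z
    have hq : 0 ≤ B / r := by positivity
    calc ‖D (dl (actB b) c u u' (eT t))‖
        ≤ DL * (2 * B / r * ‖z‖) + DZ * (4 * B / r * (‖p - p'‖ + ‖z‖)) := by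
          refine e6.trans ?_
          gcongr
          exact e1.trans (by gcongr)
      _ ≤ _ := by
          have e7 : 0 ≤ DL * (B / r * ‖z‖) := by positivity
          have e8 : DL * (2 * B / r * ‖z‖) = 2 * (DL * (B / r * ‖z‖)) := by ring
          have e9 : 4 * B / r * (DL * ‖z‖ + DZ * (‖p - p'‖ + ‖z‖)) =
            4 * (DL * (B / r * ‖z‖)) + DZ * (4 * B / r * (‖p - p'‖ + ‖z‖)) := by ring
          rw [e8, e9]
          linarith
  refine (e8_le_of hCT hΘ eT eN u u' D h1).trans (le_of_eq ?_)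
  ring

/-! ## e3 -/

/-- The term `2 g wb(Y,z)`. -/
def e3 (b : ColorBasis N) (M : FermionRep N F) (G : GammaNine) (g : ℝ) (α : Fin 16)
    (Y z : Cfg N) (f : F) : F := wB b M G g α Y z f

theorem e3_odd {M : FermionRep N F} {G : GammaNine} {Gam : F →ₗ[ℂ] F}
    (hG : ∀ L ∈ Od M (kc (actB b) c)ᗮ, ∀ f, Gam (L f) = - L (Gam f)) (g : ℝ) (α : Fin 16)
    {Y z : Cfg N} (hY : Y ∈ Uk b c) (hz : z ∈ Mm b c) {f : F} (hf : Gam f = f) :
    Gam (e3 b M G g α Y z f) = - e3 b M G g α Y z f := by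
  unfold e3
  rw [hG _ (wB_mem M G g α hY hz), hf]

theorem exists_e3_bound (b : ColorBasis N) (M : FermionRep N F) (G : GammaNine) :
    ∃ C : ℝ, 0 ≤ C ∧ ∀ (g : ℝ), 0 ≤ g → ∀ (α : Fin 16) (Y z : Cfg N) (f : F),
      ‖e3 b M G g α Y z f‖ ≤ C * (g * ‖Y‖ * ‖z‖ * ‖f‖) := by
  obtain ⟨C2, h2, hV⟩ := exists_vco_bound M
  obtain ⟨C3, h3, hW⟩ := exists_wb_bound b G
  refine ⟨C2 * (2 * C3), by positivity, fun g hg α Y z f => ?_⟩
  unfold e3 wB
  refine (hV _ (2 * g * (C3 * ‖Y‖ * ‖z‖)) f fun β A => ?_).trans (le_of_eq (by ring))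
  rw [abs_mul, abs_of_nonneg (by positivity)]
  exact mul_le_mul_of_nonneg_left (hW _ _ _ _ _) (by positivity)

/-- The potential at `c + p + z` with the light part, the heavy part at `X`, `e3` and the
quadratic part. -/
theorem pot_split (b : ColorBasis N) (M : FermionRep N F) (G : GammaNine) (g m : ℝ) (α : Fin 16)
    (X Y z : Cfg N) (f : F) :
    vco M (fun β A => wpot b G g m α β A (X + Y + z)) f =
      wA b M G g m α (X + Y) f + wB b M G g α X z f + e3 b M G g α Y z f +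
      vco M (fun β A => g * wb b G α β A z z) f - vco M (fun β A => m * wl G α β A z) f := by
  have h1 : (fun β A => wpot b G g m α β A (X + Y + z)) =
      fun β A => ((wpot b G g m α β A (X + Y) + 2 * g * wb b G α β A X z) +
        2 * g * wb b G α β A Y z + g * wb b G α β A z z) + (-(m * wl G α β A z)) := by
    funext β A
    rw [wpot_add, wb_add_left]
    ring
  have h2 : vco M (fun β A => -(m * wl G α β A z)) f = - vco M (fun β A => m * wl G α β A z) f := by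
    simp only [vco_apply, ← Finset.sum_neg_distrib]
    refine Finset.sum_congr rfl fun A _ => Finset.sum_congr rfl fun β _ => ?_
    push_cast
    rw [neg_smul]
  rw [h1, LS839.vco_add, LS839.vco_add, LS839.vco_add, LS839.vco_add, h2]
  unfold wA wB e3 wB
  abel

/-! ## Bounds of `nP` -/

/-- The literal decomposition of the slice. -/
theorem dec_lit : Dec (actB b) c (Uk b c) (Zs b c) where
  L_le := Uk_le_Nor
  Z_le := fun _ hx => hx.2
  orth := fun _ hx _ hz => Zs_perp_Uk hx hz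
  dec := fun _ hx => nor_decomp hx

theorem norm_proj_le_of (K : Submodule ℝ (Cfg N)) {v : Cfg N} {C : ℝ} (hC : 0 ≤ C)
    (h : ∀ l ∈ K, |⟪l, v⟫_ℝ| ≤ C * ‖l‖) : ‖K.orthogonalProjectionOnto v‖ ≤ C := by
  have h1 := h (K.orthogonalProjectionOnto v) (K.orthogonalProjectionOnto v).2
  have h2 : ⟪((K.orthogonalProjectionOnto v : K) : Cfg N), v⟫_ℝ =
      ‖K.orthogonalProjectionOnto v‖ ^ 2 := by
    rw [← Submodule.inner_orthogonalProjectionOnto_eq_of_mem_left, real_inner_self_eq_norm_sq]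
  rw [h2, abs_of_nonneg (sq_nonneg _), sq] at h1
  by_cases h3 : ‖K.orthogonalProjectionOnto v‖ = 0
  · rw [h3]
    exact hC
  · exact le_of_mul_le_mul_right h1 (lt_of_le_of_ne (norm_nonneg _) (Ne.symm h3))

/-- **Light component of the horizontal remainder.** -/
theorem nP_fst_le (hr0 : 0 < r) (hr : GapAt (actB b) c r) (hB : ActBound (actB b) B)
    (hB0 : 0 ≤ B) (t : Tn (actB b) c) {x : Uk b c × Zs b c}
    (hx : B * ‖(x.1 : Cfg N) + x.2‖ ≤ r / 2) :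
    ‖(nP (actB b) c (Uk b c) (Zs b c) t x).1‖ ≤ 2 * B / r * ‖x.2‖ * ‖t‖ := by
  refine norm_proj_le_of _ (by positivity) fun l hl => ?_
  have h := nn_light hr0 hr hB hB0 (p := x.1) (z := x.2) x.1.2 hl hx t
  rwa [← add_assoc] at h

/-- **Transverse component: difference with the centre point.** -/
theorem nP_snd_sub_le (hr0 : 0 < r) (hr : GapAt (actB b) c r) (hB : ActBound (actB b) B)
    (hB0 : 0 ≤ B) (t : Tn (actB b) c) {x : Uk b c × Zs b c} {X : Cfg N}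
    (hx : B * ‖(x.1 : Cfg N) + x.2‖ ≤ r / 2) (hX : B * ‖X‖ ≤ r / 2) :
    ‖(nP (actB b) c (Uk b c) (Zs b c) t x).2 -
      (Zs b c).orthogonalProjectionOnto (nn (actB b) c (c + X) t)‖ ≤
      4 * B / r * (‖(x.1 : Cfg N) - X‖ + ‖x.2‖) * ‖t‖ := by
  have h1 : (nP (actB b) c (Uk b c) (Zs b c) t x).2 =
    (Zs b c).orthogonalProjectionOnto (nn (actB b) c (c + x.1 + x.2) t) := rfl
  rw [h1, ← map_sub]
  have hx' : B * ‖(c + x.1 + x.2 : Cfg N) - c‖ ≤ r / 2 := by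
    rw [show (c + x.1 + x.2 : Cfg N) - c = x.1 + x.2 by abel]
    exact hx
  have hX' : B * ‖c + X - c‖ ≤ r / 2 := by
    rw [add_sub_cancel_left]
    exact hX
  refine (proj_norm_le _ _).trans ((nn_sub_bound hr0 hr hB hB0 hx' hX' t).trans ?_)
  have h2 : ‖(c + x.1 + x.2 : Cfg N) - (c + X)‖ ≤ ‖(x.1 : Cfg N) - X‖ + ‖x.2‖ := by
    rw [show (c + x.1 + x.2 : Cfg N) - (c + X) = (x.1 - X) + x.2 by abel]
    exact norm_add_le _ _
  gcongr

/-- Light component of the horizontal remainder at a point of `c + Uk`: zero. -/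
theorem nn_light_zero (hc : Comc b c) (hr0 : 0 < r) (hr : GapAt (actB b) c r)
    (hB : ActBound (actB b) B) (t : Tn (actB b) c) {X : Cfg N} (hX : X ∈ Uk b c)
    (hXb : B * ‖X‖ ≤ r / 2) :
    (Uk b c).orthogonalProjectionOnto (nn (actB b) c (c + X) t) = 0 := by
  have hX' : B * ‖c + X - c‖ ≤ r / 2 := by
    rw [add_sub_cancel_left]
    exact hXb
  have h := nn_mem_Zs hr0 hr hB (Submodule.add_mem _ (self_mem_Uk hc) hX) hX' t
  exact Submodule.orthogonalProjectionOnto_apply_of_mem_orthogonal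
    ((Submodule.mem_orthogonal _ _).2 fun l hl => Zs_perp_Uk hl h)

end lit

end Crest.Agent.R330.E3E8263

end
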