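import Crest.Agent.R330.VComp_331

/-!
# Row 330, S8-PAIR error terms e4, e5 (helper331): the potential quadratic in `z`

`g wb(z, z)` splits along `K ⊕ Kᗮ` of colour space into a light part (`e4`) and a heavy part
(`e5`).

* `thv_norm_le`, `TH_norm_le` : norms of `θ_β(u)`, `TH u`.
* `exists_brBound` : the bracket of `colAlg b` is bounded.
* `wbv` : colour vector of `wb`; `exists_wbv_bound`.
* `eL`, `eH` : light and heavy part of `vco (wb z z)`; `vco_split`, `eL_mem`, `eH_mem`,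
  `exists_e_bound`, parities, class bounds `class_eH`, `class_eL`.
-/

set_option autoImplicit false
set_option linter.unusedSectionVars false

open MeasureTheory Filter Topology Crest.MathPhysics.MatrixQM
open Crest.Agent.R330.IBP837 Crest.Agent.R330.Defs478 Crest.Agent.R330.Frame839
open Crest.Agent.R330.LS839 Crest.Agent.R330.Clus839 Crest.Agent.R330.Bind6839
open Crest.Agent.R330.VComp331
open scoped ContDiff InnerProductSpace

noncomputable section

namespace Crest.Agent.R330.E45331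

variable {N : ℕ} {F : Type*} [NormedAddCommGroup F] [InnerProductSpace ℂ F]
  [FiniteDimensional ℂ F] {b : ColorBasis N} {M : FermionRep N F} {G : GammaNine}

/-! ## Norms -/

theorem thv_norm_sq (M : FermionRep N F) (β : Fin 16) (u : Colg N) (f : F) :
    ‖thv M β u f‖ ^ 2 = 1 / 2 * ‖u‖ ^ 2 * ‖f‖ ^ 2 := by
  have h1 := thv_anti M β β u u f
  rw [if_pos rfl] at h1
  have h2 : ⟪thv M β u f, thv M β u f⟫_ℂ = ⟪f, thv M β u (thv M β u f)⟫_ℂ :=
    thv_symm M β u f _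
  have h3 : (2 : ℂ) * ⟪f, thv M β u (thv M β u f)⟫_ℂ =
      ((⟪u, u⟫_ℝ : ℝ) : ℂ) * ⟪f, f⟫_ℂ := by
    have h5 := congrArg (fun x : F => ⟪f, x⟫_ℂ) h1
    simp only [inner_add_right, inner_smul_right] at h5
    linear_combination h5
  rw [← h2, real_inner_self_eq_norm_sq, inner_self_eq_norm_sq_to_K,
    inner_self_eq_norm_sq_to_K] at h3
  have h4 : (2 : ℝ) * ‖thv M β u f‖ ^ 2 = ‖u‖ ^ 2 * ‖f‖ ^ 2 := by
    apply Complex.ofReal_injective
    push_cast at h3 ⊢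
    exact h3
  linarith

theorem thv_norm_le (M : FermionRep N F) (β : Fin 16) (u : Colg N) (f : F) :
    ‖thv M β u f‖ ≤ ‖u‖ * ‖f‖ := by
  have h := thv_norm_sq M β u f
  refine abs_le_of_sq_le_sq' ?_ (by positivity) |>.2
  rw [h, mul_pow]
  nlinarith [mul_nonneg (sq_nonneg ‖u‖) (sq_nonneg ‖f‖)]

theorem TH_norm_le (M : FermionRep N F) (u : Fin 16 → Colg N) (f : F) :
    ‖TH M u f‖ ≤ (∑ β, ‖u β‖) * ‖f‖ := by
  rw [TH_apply, Finset.sum_mul]
  exact (norm_sum_le _ _).trans (Finset.sum_le_sum fun β _ => thv_norm_le M β (u β) f)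

theorem exists_brBound (b : ColorBasis N) : ∃ B : ℝ, 0 < B ∧ (colAlg b).BrBound B := by
  set L := (colAlg b).br.toContinuousBilinearMap with hL
  refine ⟨‖L‖ + 1, by positivity, fun u v => ?_⟩
  have h := L.le_opNorm₂ u v
  have h2 : ‖L‖ * ‖u‖ * ‖v‖ ≤ (‖L‖ + 1) * ‖u‖ * ‖v‖ := by gcongr; linarith
  exact h.trans h2

theorem comp_norm_le (x : Cfg N) (i : Fin 9) : ‖comp x i‖ ≤ ‖x‖ := by
  refine abs_le_of_sq_le_sq' ?_ (norm_nonneg _) |>.2
  rw [norm_sq_comp x]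
  exact Finset.single_le_sum (f := fun j => ‖comp x j‖ ^ 2) (fun _ _ => sq_nonneg _)
    (Finset.mem_univ i)

/-! ## The colour vector of the potential -/

/-- `β ↦ Σ_A wb(x, y)^A_αβ T_A` -/
def wbv (b : ColorBasis N) (G : GammaNine) (α : Fin 16) (x y : Cfg N) (β : Fin 16) : Colg N :=
  WithLp.toLp 2 fun A => wb b G α β A x y

theorem wbv_apply (b : ColorBasis N) (G : GammaNine) (α : Fin 16) (x y : Cfg N) (β : Fin 16) :
    wbv b G α x y β = ∑ i, ∑ j, (1 / 2 * G.γ2 i j α β) • (colAlg b).br (comp x i) (comp y j) :=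
  wbv_eq b G α β x y

theorem exists_wbv_bound (b : ColorBasis N) (G : GammaNine) :
    ∃ C : ℝ, 0 ≤ C ∧ ∀ α x y β, ‖wbv b G α x y β‖ ≤ C * ‖x‖ * ‖y‖ := by
  obtain ⟨B, hB0, hB⟩ := exists_brBound b
  refine ⟨∑ α, ∑ β, ∑ i, ∑ j, |1 / 2 * G.γ2 i j α β| * B, by positivity, fun α x y β => ?_⟩
  rw [wbv_apply]
  have h1 : ‖∑ i, ∑ j, (1 / 2 * G.γ2 i j α β) • (colAlg b).br (comp x i) (comp y j)‖ ≤
      (∑ i, ∑ j, |1 / 2 * G.γ2 i j α β| * B) * (‖x‖ * ‖y‖) := by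
    rw [Finset.sum_mul]
    refine (norm_sum_le _ _).trans (Finset.sum_le_sum fun i _ => ?_)
    rw [Finset.sum_mul]
    refine (norm_sum_le _ _).trans (Finset.sum_le_sum fun j _ => ?_)
    rw [norm_smul, Real.norm_eq_abs, mul_assoc]
    refine mul_le_mul_of_nonneg_left ?_ (abs_nonneg _)
    refine (hB _ _).trans ?_
    rw [mul_assoc]
    refine mul_le_mul_of_nonneg_left ?_ hB0.le
    exact mul_le_mul (comp_norm_le x i) (comp_norm_le y j) (norm_nonneg _) (norm_nonneg _)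
  have h2 : (∑ i, ∑ j, |1 / 2 * G.γ2 i j α β| * B) ≤
      ∑ α, ∑ β, ∑ i, ∑ j, |1 / 2 * G.γ2 i j α β| * B :=
    (Finset.single_le_sum (f := fun β => ∑ i, ∑ j, |1 / 2 * G.γ2 i j α β| * B)
      (fun _ _ => by positivity) (Finset.mem_univ β)).trans
    (Finset.single_le_sum (f := fun α => ∑ β, ∑ i, ∑ j, |1 / 2 * G.γ2 i j α β| * B)
      (fun _ _ => by positivity) (Finset.mem_univ α))
  calc _ ≤ _ := h1
    _ ≤ (∑ α, ∑ β, ∑ i, ∑ j, |1 / 2 * G.γ2 i j α β| * B) * (‖x‖ * ‖y‖) := by gcongr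
    _ = _ := by ring

theorem vco_wbv (M : FermionRep N F) (α : Fin 16) (x y : Cfg N) :
    vco M (fun β A => wb b G α β A x y) = TH M (wbv b G α x y) := by
  unfold vco TH thv wbv
  rw [Finset.sum_comm]

/-! ## Light and heavy part -/

variable (b M G) in
/-- light part of `vco (wb z z)` (`e4 = g a eL`) -/
def eL (K : Submodule ℝ (Colg N)) (α : Fin 16) (z : Cfg N) : F →ₗ[ℂ] F :=
  TH M fun β => K.starProjection (wbv b G α z z β)

variable (b M G) in
/-- heavy part of `vco (wb z z)` (`e5 = g a eH`) -/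
def eH (K : Submodule ℝ (Colg N)) (α : Fin 16) (z : Cfg N) : F →ₗ[ℂ] F :=
  TH M fun β => Kᗮ.starProjection (wbv b G α z z β)

theorem TH_add (M : FermionRep N F) (u v : Fin 16 → Colg N) :
    TH M (fun β => u β + v β) = TH M u + TH M v := by
  unfold TH
  rw [← Finset.sum_add_distrib]
  exact Finset.sum_congr rfl fun β _ => thv_add M β _ _

/-- **The split.** -/
theorem vco_split (K : Submodule ℝ (Colg N)) (α : Fin 16) (z : Cfg N) :
    vco M (fun β A => wb b G α β A z z) = eL b M G K α z + eH b M G K α z := by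
  rw [vco_wbv]
  unfold eL eH
  rw [← TH_add]
  congr 1
  funext β
  exact (Submodule.starProjection_add_starProjection_orthogonal (K := K) _).symm

theorem vco_split_smul (K : Submodule ℝ (Colg N)) (α : Fin 16) (g : ℝ) (z : Cfg N) :
    vco M (fun β A => g * wb b G α β A z z) =
      (g : ℂ) • eL b M G K α z + (g : ℂ) • eH b M G K α z := by
  rw [← smul_add, ← vco_split]
  apply LinearMap.ext
  intro f
  rw [LinearMap.smul_apply, vco_apply, vco_apply, Finset.smul_sum]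
  refine Finset.sum_congr rfl fun A _ => ?_
  rw [Finset.smul_sum]
  refine Finset.sum_congr rfl fun β _ => ?_
  rw [smul_smul]
  push_cast
  rfl

theorem TH_mem (M : FermionRep N F) {K : Submodule ℝ (Colg N)} {u : Fin 16 → Colg N}
    (hu : ∀ β, u β ∈ K) : TH M u ∈ Od M K :=
  Submodule.sum_mem _ fun β _ => thv_mem M β (hu β)

theorem eL_mem (K : Submodule ℝ (Colg N)) (α : Fin 16) (z : Cfg N) :
    eL b M G K α z ∈ Od M K :=
  TH_mem M fun _ => Submodule.starProjection_apply_mem _ _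

theorem eH_mem (K : Submodule ℝ (Colg N)) (α : Fin 16) (z : Cfg N) :
    eH b M G K α z ∈ Od M Kᗮ :=
  TH_mem M fun _ => Submodule.starProjection_apply_mem _ _

theorem exists_e_bound (b : ColorBasis N) (M : FermionRep N F) (G : GammaNine) :
    ∃ C : ℝ, 0 ≤ C ∧ ∀ (K : Submodule ℝ (Colg N)) (α : Fin 16) (z : Cfg N) (f : F),
      ‖eL b M G K α z f‖ ≤ C * ‖z‖ ^ 2 * ‖f‖ ∧ ‖eH b M G K α z f‖ ≤ C * ‖z‖ ^ 2 * ‖f‖ := by
  obtain ⟨C, hC0, hC⟩ := exists_wbv_bound b G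
  have key : ∀ (K : Submodule ℝ (Colg N)) (α : Fin 16) (z : Cfg N) (f : F),
      ‖TH M (fun β => K.starProjection (wbv b G α z z β)) f‖ ≤ 16 * C * ‖z‖ ^ 2 * ‖f‖ := by
    intro K α z f
    refine (TH_norm_le M _ f).trans ?_
    gcongr
    calc ∑ β, ‖K.starProjection (wbv b G α z z β)‖ ≤ ∑ _β : Fin 16, C * ‖z‖ ^ 2 := by
          refine Finset.sum_le_sum fun β _ => ?_
          refine (K.norm_starProjection_apply_le _).trans ((hC α z z β).trans_eq ?_)
          ring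
      _ = 16 * C * ‖z‖ ^ 2 := by
          rw [Finset.sum_const, Finset.card_univ, Fintype.card_fin, nsmul_eq_mul]
          push_cast
          ring
  exact ⟨16 * C, by positivity, fun K α z f => ⟨key K α z f, key Kᗮ α z f⟩⟩

/-! ## Parity -/

section par

variable {K : Submodule ℝ (Colg N)} {Γ : F →ₗ[ℂ] F}

theorem eL_even (hL : ∀ L ∈ Od M K, ∀ f, Γ (L f) = L (Γ f)) {f : F} (hf : Γ f = f)
    (α : Fin 16) (z : Cfg N) : Γ (eL b M G K α z f) = eL b M G K α z f := by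
  rw [hL _ (eL_mem K α z), hf]

theorem eH_odd (hH : ∀ L ∈ Od M Kᗮ, ∀ f, Γ (L f) = - L (Γ f)) {f : F} (hf : Γ f = f)
    (α : Fin 16) (z : Cfg N) : Γ (eH b M G K α z f) = - eH b M G K α z f := by
  rw [hH _ (eH_mem K α z), hf]

end par

/-! ## Class bounds (714's common form) -/

theorem class_aux {g r : ℝ} (hg : 0 ≤ g) (hr : 0 ≤ r) :
    g * r ^ 2 ≤ (1 + Real.sqrt g * r) ^ 4 := by
  have h1 : g * r ^ 2 = (Real.sqrt g * r) ^ 2 := by
    rw [mul_pow, Real.sq_sqrt hg]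
  have h2 : 0 ≤ Real.sqrt g * r := by positivity
  rw [h1]
  nlinarith [sq_nonneg (Real.sqrt g * r), sq_nonneg ((Real.sqrt g * r) ^ 2),
    mul_nonneg h2 h2, mul_nonneg h2 (mul_nonneg h2 h2), pow_nonneg h2 4]

/-- `‖g a e f‖ ≤ C |a| (1 + √g ‖z‖)⁴ ‖f‖` for `e = eL, eH`. -/
theorem exists_class_bound (b : ColorBasis N) (M : FermionRep N F) (G : GammaNine) :
    ∃ C : ℝ, 0 ≤ C ∧ ∀ (K : Submodule ℝ (Colg N)) (α : Fin 16) (z : Cfg N) (f : F) (g a : ℝ),
      0 ≤ g → 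
      ‖((g * a : ℝ) : ℂ) • eL b M G K α z f‖ ≤ C * |a| * (1 + Real.sqrt g * ‖z‖) ^ 4 * ‖f‖ ∧
      ‖((g * a : ℝ) : ℂ) • eH b M G K α z f‖ ≤ C * |a| * (1 + Real.sqrt g * ‖z‖) ^ 4 * ‖f‖ := by
  obtain ⟨C, hC0, hC⟩ := exists_e_bound b M G
  refine ⟨C, hC0, fun K α z f g a hg => ?_⟩
  have key : ∀ X : F, ‖X‖ ≤ C * ‖z‖ ^ 2 * ‖f‖ →
      ‖((g * a : ℝ) : ℂ) • X‖ ≤ C * |a| * (1 + Real.sqrt g * ‖z‖) ^ 4 * ‖f‖ := by
    intro X hX
    rw [norm_smul, Complex.norm_real, Real.norm_eq_abs, abs_mul, abs_of_nonneg hg]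
    calc g * |a| * ‖X‖ ≤ g * |a| * (C * ‖z‖ ^ 2 * ‖f‖) := by gcongr
      _ = C * |a| * (g * ‖z‖ ^ 2) * ‖f‖ := by ring
      _ ≤ C * |a| * (1 + Real.sqrt g * ‖z‖) ^ 4 * ‖f‖ := by
          gcongr
          exact class_aux hg (norm_nonneg _)
  exact ⟨key _ (hC K α z f).1, key _ (hC K α z f).2⟩

end Crest.Agent.R330.E45331
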