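import Crest.Agent.R330.E4_776
import Crest.Agent.R330.GBind_984
import Crest.Agent.R330.Bind6b_839

/-!
# Row 330, S8-PAIR, error term e4, literal (helper776)

On `Zs b c`, for a commuting `X` with `kc X = kc c` and every weight
`wt z = Φ ‖z‖ (QX b (kc c) X z)` (product of the Gaussians and of the radial cut-off):

* `mean_skew_lit` : `∫ wt(z) ⟪T z_i, z_j⟫ = 0` for skew `T`.
* `wk` : the `kc`-part of `wb(z, z)`; `half_Wq` : `(1/2)(1 + Γ) (Wq z z f) = vco (wk z) f` on `Γ f = f`.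
* `e4_mean` : `∫ wt(z) • vco (wk z) f = 0`; `e4_half` : the same for `(1/2)(1 + Γ) (Wq z z f)`.
* `e4_bound` : `‖vco (wk z) f‖ ≤ C ‖z‖² ‖f‖`.
-/

set_option autoImplicit false
set_option linter.unusedSectionVars false

open MeasureTheory Filter Topology Crest.MathPhysics.MatrixQM
open scoped ContDiff InnerProductSpace ENNReal

noncomputable section

namespace Crest.Agent.R330.E4L776

open Crest.Agent.R330.IBP837 Crest.Agent.R330.Defs478 Crest.Agent.R330.Frame839
  Crest.Agent.R330.LS839 Crest.Agent.R330.Clus839 Crest.Agent.R330.Bind6839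
  Crest.Agent.R330.AX984 Crest.Agent.R330.SqrtPD984 Crest.Agent.R330.GPar984
  Crest.Agent.R330.GBind984 Crest.Agent.R330.E4776

variable {N : ℕ} {b : ColorBasis N} {c X : Cfg N}

theorem Zs_eq (b : ColorBasis N) (c : Cfg N) :
    Zs b c = (tenC (N := N)).ZZ (kc (actB b) c) (adX b c) := by
  ext z
  rw [mem_Zs_iff, Ten.mem_ZZ]
  rfl

/-- commuting configurations with the same stabiliser algebra -/
theorem cross (hc : Comc b c) (hK : kc (actB b) X = kc (actB b) c) (i k : Fin 9)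
    (u : Colg N) : adX b X i (adX b c k u) = adX b c k (adX b X i u) := by
  have h1 : comp c k ∈ kc (actB b) X := by
    rw [hK]
    exact self_mem_Uk hc k
  have h2 : adX b X i (comp c k) = 0 := (mem_kc_iff' b).1 h1 i
  rw [adX_apply, adX_apply, adX_apply, adX_apply, (colAlg b).jac]
  rw [adX_apply] at h2
  rw [h2]
  simp

/-- invariance of the weight under joint eigenvector reflections -/
theorem rinv_lit (hc : Comc b c) (hX : Comc b X) (hK : kc (actB b) X = kc (actB b) c)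
    (Φ : ℝ → ℝ → ℝ) {v : Colg N} (hv : JE (kc (actB b) c) (adX b X) (adX b c) v) :
    RInv tenC (Zs b c) (fun z => Φ ‖z‖ (QX b (kc (actB b) c) X z)) v := by
  obtain ⟨s, hs, h⟩ := fam_of_eq hX hK
  obtain ⟨s₀, hs₀, h₀⟩ := exists_fam b hc
  refine ⟨fun z hz => ?_, fun z hz hz' => ?_⟩
  · rw [Zs_eq] at hz ⊢
    exact ZZ_rf tenC h₀ hs₀ hv.e2 hv.e3 hz
  · have h1 : ‖(⟨tenC.ten (rf v) z, hz'⟩ : Zs b c)‖ = ‖(⟨z, hz⟩ : Zs b c)‖ :=
      norm_ten_rf tenC hv.one z
    have h2 : QX b (kc (actB b) c) X (tenC.ten (rf v) z) = QX b (kc (actB b) c) X z := by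
      unfold QX AXc
      rw [AX_rf tenC h hs hv.e1 hv.e3, tenC.inner_eq, tenC.inner_eq]
      refine Finset.sum_congr rfl fun i _ => ?_
      rw [tenC.pr_ten, tenC.pr_ten, rf_inner hv.one]
    simp only
    rw [h1, h2]

theorem span_lit (hc : Comc b c) (hX : Comc b X) (hK : kc (actB b) X = kc (actB b) c)
    (Φ : ℝ → ℝ → ℝ) :
    Submodule.span ℝ {v : Colg N | ‖v‖ = 1 ∧
      RInv tenC (Zs b c) (fun z => Φ ‖z‖ (QX b (kc (actB b) c) X z)) v} = ⊤ := by
  obtain ⟨s, _, h⟩ := fam_of_eq hX hK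
  obtain ⟨s₀, _, h₀⟩ := exists_fam b hc
  rw [eq_top_iff, ← span_JE h h₀ (cross hc hK)]
  exact Submodule.span_mono fun v hv => ⟨hv.one, rinv_lit hc hX hK Φ hv⟩

/-- **Mean zero of skew colour forms, literal.** -/
theorem mean_skew_lit (hc : Comc b c) (hX : Comc b X) (hK : kc (actB b) X = kc (actB b) c)
    (Φ : ℝ → ℝ → ℝ) (μ : Measure (Zs b c)) [μ.IsAddHaarMeasure]
    (hm : AEStronglyMeasurable (fun z : Zs b c => Φ ‖z‖ (QX b (kc (actB b) c) X z)) μ)
    (hi : Integrable (fun z : Zs b c => Φ ‖z‖ (QX b (kc (actB b) c) X z) * ‖z‖ ^ 2) μ)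
    {T : Colg N →L[ℝ] Colg N} (hT : ∀ u w, ⟪T u, w⟫_ℝ = -⟪u, T w⟫_ℝ) (i j : Fin 9) :
    ∫ z : Zs b c, Φ ‖z‖ (QX b (kc (actB b) c) X z) * ⟪T (comp z i), comp z j⟫_ℝ ∂μ = 0 :=
  E4776.mean_skew (τ := tenC) hm hi (span_lit hc hX hK Φ) hT i j

/-- **Symmetry of the covariance, literal.** -/
theorem cov_symm_lit (hc : Comc b c) (hX : Comc b X) (hK : kc (actB b) X = kc (actB b) c)
    (Φ : ℝ → ℝ → ℝ) (μ : Measure (Zs b c)) [μ.IsAddHaarMeasure]
    (hm : AEStronglyMeasurable (fun z : Zs b c => Φ ‖z‖ (QX b (kc (actB b) c) X z)) μ)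
    (hi : Integrable (fun z : Zs b c => Φ ‖z‖ (QX b (kc (actB b) c) X z) * ‖z‖ ^ 2) μ)
    (i j : Fin 9) (u w : Colg N) :
    ∫ z : Zs b c, Φ ‖z‖ (QX b (kc (actB b) c) X z) *
        (⟪u, comp z i⟫_ℝ * ⟪w, comp z j⟫_ℝ) ∂μ =
      ∫ z : Zs b c, Φ ‖z‖ (QX b (kc (actB b) c) X z) *
        (⟪w, comp z i⟫_ℝ * ⟪u, comp z j⟫_ℝ) ∂μ :=
  E4776.cov_symm (τ := tenC) hm hi (span_lit hc hX hK Φ) i j u w

/-! ## the light part of `wb(z, z)` -/

section fermions

variable {F : Type*} [NormedAddCommGroup F] [InnerProductSpace ℂ F] [FiniteDimensional ℂ F]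

/-- the colour vector `wb(z, z')` -/
def wv (b : ColorBasis N) (G : GammaNine) (α β : Fin 16) (z z' : Cfg N) : Colg N :=
  WithLp.toLp 2 fun A => wb b G α β A z z'

/-- the `kc`-part of `wb(z, z)` -/
def wk (b : ColorBasis N) (G : GammaNine) (c : Cfg N) (α : Fin 16) (z : Cfg N) (β : Fin 16)
    (A : Fin (N ^ 2 - 1)) : ℝ := (kc (actB b) c).starProjection (wv b G α β z z) A

/-- the off-diagonal part of `wb(z, z)` -/
def wm (b : ColorBasis N) (G : GammaNine) (c : Cfg N) (α : Fin 16) (z : Cfg N) (β : Fin 16)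
    (A : Fin (N ^ 2 - 1)) : ℝ := (wv b G α β z z - (kc (actB b) c).starProjection (wv b G α β z z)) A

theorem wk_add_wm (b : ColorBasis N) (G : GammaNine) (c : Cfg N) (α : Fin 16) (z : Cfg N)
    (M : FermionRep N F) (f : F) :
    vco M (fun β A => wb b G α β A z z) f = vco M (wk b G c α z) f + vco M (wm b G c α z) f := by
  rw [← LS839.vco_add]
  congr 2
  funext β A
  have h : (wv b G α β z z) A = wb b G α β A z z := rfl
  unfold wk wm
  rw [PiLp.sub_apply, h]
  ring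

theorem wk_mem (M : FermionRep N F) (G : GammaNine) (α : Fin 16) (z : Cfg N) :
    vco M (wk b G c α z) ∈ Od M (kc (actB b) c) := by
  refine vco_mem M fun β => ?_
  have h : (WithLp.toLp 2 (wk b G c α z β) : Colg N) =
      (kc (actB b) c).starProjection (wv b G α β z z) := rfl
  rw [h]
  exact Submodule.starProjection_apply_mem _ _

theorem wm_mem (M : FermionRep N F) (G : GammaNine) (α : Fin 16) (z : Cfg N) :
    vco M (wm b G c α z) ∈ Od M (kc (actB b) c)ᗮ := by
  refine vco_mem M fun β => ?_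
  have h : (WithLp.toLp 2 (wm b G c α z β) : Colg N) =
      wv b G α β z z - (kc (actB b) c).starProjection (wv b G α β z z) := rfl
  rw [h]
  exact Submodule.sub_starProjection_mem_orthogonal _

/-- **the even half of `Wq z z f` is its light part** -/
theorem half_Wq {M : FermionRep N F} {Γ : F →ₗ[ℂ] F}
    (h1 : ∀ L ∈ Od M (kc (actB b) c), ∀ f, Γ (L f) = L (Γ f))
    (h2 : ∀ L ∈ Od M (kc (actB b) c)ᗮ, ∀ f, Γ (L f) = - L (Γ f)) (G : GammaNine) (α : Fin 16)
    (z : Cfg N) {f : F} (hf : Γ f = f) :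
    (1 / 2 : ℂ) • (vco M (fun β A => wb b G α β A z z) f +
      Γ (vco M (fun β A => wb b G α β A z z) f)) = vco M (wk b G c α z) f := by
  rw [wk_add_wm b G c α z M f, map_add, h1 _ (wk_mem M G α z), h2 _ (wm_mem M G α z), hf]
  module

/-- one component of the light part -/
theorem wk_apply (b : ColorBasis N) (G : GammaNine) (c : Cfg N) (α : Fin 16) (z : Cfg N)
    (β : Fin 16) (A : Fin (N ^ 2 - 1)) :
    wk b G c α z β A = ∑ i, ∑ j, -(1 / 2 * G.γ2 i j α β) *
      ⟪(colAlg b).br ((kc (actB b) c).starProjection (EuclideanSpace.single A 1)) (comp z j),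
        comp z i⟫_ℝ := by
  have h0 : wk b G c α z β A =
      ⟪(kc (actB b) c).starProjection (wv b G α β z z), (EuclideanSpace.single A 1 : Colg N)⟫_ℝ := by
    rw [real_inner_comm, EuclideanSpace.inner_single_left]
    simp [wk]
  have h1 : wv b G α β z z = ∑ i, ∑ j, (1 / 2 * G.γ2 i j α β) •
      (colAlg b).br (comp z i) (comp z j) := wbv_eq b G α β z z
  rw [h0, sy_proj, h1, sum_inner]
  refine Finset.sum_congr rfl fun i _ => ?_
  rw [sum_inner]
  refine Finset.sum_congr rfl fun j _ => ?_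
  rw [inner_smul_left, (colAlg b).inv, (colAlg b).anti (comp z j), inner_neg_right,
    real_inner_comm (comp z i)]
  simp only [conj_trivial]
  ring

/-- **(e4), mean zero of the light part of `wb(z, z)`.** -/
theorem e4_mean (hc : Comc b c) (hX : Comc b X) (hK : kc (actB b) X = kc (actB b) c)
    (Φ : ℝ → ℝ → ℝ) (μ : Measure (Zs b c)) [μ.IsAddHaarMeasure]
    (hm : AEStronglyMeasurable (fun z : Zs b c => Φ ‖z‖ (QX b (kc (actB b) c) X z)) μ)
    (hi : Integrable (fun z : Zs b c => Φ ‖z‖ (QX b (kc (actB b) c) X z) * ‖z‖ ^ 2) μ)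
    (M : FermionRep N F) (G : GammaNine) (α : Fin 16) (f : F) :
    ∫ z : Zs b c, Φ ‖z‖ (QX b (kc (actB b) c) X z) • vco M (wk b G c α z) f ∂μ = 0 := by
  set wt : Zs b c → ℝ := fun z => Φ ‖z‖ (QX b (kc (actB b) c) X z) with hwt
  let T : Fin (N ^ 2 - 1) → Colg N →L[ℝ] Colg N := fun A => LinearMap.toContinuousLinearMap
    ((colAlg b).br ((kc (actB b) c).starProjection (EuclideanSpace.single A 1)))
  have hT : ∀ A u w, ⟪T A u, w⟫_ℝ = -⟪u, T A w⟫_ℝ := fun A u w => (colAlg b).skew _ _ _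
  have hint : ∀ A i j, Integrable (fun z : Zs b c => wt z * ⟪T A (comp z j), comp z i⟫_ℝ) μ := by
    intro A i j
    have hc1 : ∀ k : Fin 9, Continuous fun z : Zs b c => comp (z : Cfg N) k := fun k =>
      (rowL (N := N) k).continuous.comp continuous_subtype_val
    have hcont : Continuous fun z : Zs b c => ⟪T A (comp z j), comp z i⟫_ℝ :=
      ((T A).continuous.comp (hc1 j)).inner (hc1 i)
    have hle : ∀ (k : Fin 9) (z : Zs b c), ‖comp (z : Cfg N) k‖ ≤ ‖z‖ := by
      intro k z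
      have h1 : ‖comp (z : Cfg N) k‖ ^ 2 ≤ ‖(z : Cfg N)‖ ^ 2 := by
        rw [norm_sq_comp (z : Cfg N)]
        exact Finset.single_le_sum (f := fun i => ‖comp (z : Cfg N) i‖ ^ 2)
          (fun i _ => sq_nonneg _) (Finset.mem_univ k)
      exact (pow_le_pow_iff_left₀ (norm_nonneg _) (norm_nonneg _) two_ne_zero).1 h1
    refine (hi.const_mul ‖T A‖).mono (hm.mul hcont.aestronglyMeasurable)
      (ae_of_all _ fun z => ?_)
    have h1 : |⟪T A (comp z j), comp z i⟫_ℝ| ≤ ‖T A‖ * ‖z‖ * ‖z‖ :=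
      (abs_real_inner_le_norm _ _).trans (mul_le_mul (((T A).le_opNorm _).trans
        (by gcongr; exact hle j z)) (hle i z) (norm_nonneg _) (by positivity))
    have hwz : wt z = Φ ‖z‖ (QX b (kc (actB b) c) X z) := rfl
    rw [hwz, norm_mul, norm_mul, norm_mul, Real.norm_eq_abs, Real.norm_eq_abs,
      Real.norm_of_nonneg (norm_nonneg (T A)), Real.norm_of_nonneg (by positivity : 0 ≤ ‖z‖ ^ 2)]
    calc |Φ ‖z‖ (QX b (kc (actB b) c) X z)| * |⟪T A (comp z j), comp z i⟫_ℝ|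
        ≤ |Φ ‖z‖ (QX b (kc (actB b) c) X z)| * (‖T A‖ * ‖z‖ * ‖z‖) := by gcongr
      _ = ‖T A‖ * (|Φ ‖z‖ (QX b (kc (actB b) c) X z)| * ‖z‖ ^ 2) := by ring
  have e1 : ∀ z : Zs b c, wt z • vco M (wk b G c α z) f =
      ∑ A, ∑ β, (wt z * wk b G c α z β A) • M.θ β A f := by
    intro z
    unfold vco
    simp only [LinearMap.sum_apply, LinearMap.smul_apply, Finset.smul_sum]
    refine Finset.sum_congr rfl fun A _ => Finset.sum_congr rfl fun β _ => ?_
    rw [← Complex.coe_smul, ← Complex.coe_smul, smul_smul, Complex.ofReal_mul]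
  have e2 : ∀ (A : Fin (N ^ 2 - 1)) (β : Fin 16) (z : Zs b c), wt z * wk b G c α z β A =
      ∑ i, ∑ j, -(1 / 2 * G.γ2 i j α β) * (wt z * ⟪T A (comp z j), comp z i⟫_ℝ) := by
    intro A β z
    rw [wk_apply, Finset.mul_sum]
    refine Finset.sum_congr rfl fun i _ => ?_
    rw [Finset.mul_sum]
    refine Finset.sum_congr rfl fun j _ => ?_
    have : ⟪T A (comp z j), comp z i⟫_ℝ = ⟪(colAlg b).br ((kc (actB b) c).starProjection
      (EuclideanSpace.single A 1)) (comp z j), comp z i⟫_ℝ := rfl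
    rw [this]
    ring
  have hint2 : ∀ A β, Integrable (fun z : Zs b c => wt z * wk b G c α z β A) μ := by
    intro A β
    simp only [e2]
    exact integrable_finsetSum _ fun i _ => integrable_finsetSum _ fun j _ =>
      (hint A i j).const_mul _
  have e3 : ∀ A β, ∫ z : Zs b c, wt z * wk b G c α z β A ∂μ = 0 := by
    intro A β
    simp only [e2]
    rw [integral_finsetSum _ fun i _ => integrable_finsetSum _ fun j _ =>
      (hint A i j).const_mul _]
    refine Finset.sum_eq_zero fun i _ => ?_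
    rw [integral_finsetSum _ fun j _ => (hint A i j).const_mul _]
    refine Finset.sum_eq_zero fun j _ => ?_
    rw [integral_const_mul]
    have := mean_skew_lit hc hX hK Φ μ hm hi (hT A) j i
    rw [show ∫ z : Zs b c, wt z * ⟪T A (comp z j), comp z i⟫_ℝ ∂μ = 0 from this, mul_zero]
  change ∫ z : Zs b c, wt z • vco M (wk b G c α z) f ∂μ = 0
  simp only [e1]
  rw [integral_finsetSum _ fun A _ => integrable_finsetSum _ fun β _ =>
    (hint2 A β).smul_const _]
  refine Finset.sum_eq_zero fun A _ => ?_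
  rw [integral_finsetSum _ fun β _ => (hint2 A β).smul_const _]
  refine Finset.sum_eq_zero fun β _ => ?_
  rw [integral_smul_const, e3, zero_smul]

/-- **(e4) in the form of PairE**: the even half of `Wq z z f` has mean zero. -/
theorem e4_half (hc : Comc b c) (hX : Comc b X) (hK : kc (actB b) X = kc (actB b) c)
    (Φ : ℝ → ℝ → ℝ) (μ : Measure (Zs b c)) [μ.IsAddHaarMeasure]
    (hm : AEStronglyMeasurable (fun z : Zs b c => Φ ‖z‖ (QX b (kc (actB b) c) X z)) μ)
    (hi : Integrable (fun z : Zs b c => Φ ‖z‖ (QX b (kc (actB b) c) X z) * ‖z‖ ^ 2) μ)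
    {M : FermionRep N F} {Γ : F →ₗ[ℂ] F}
    (h1 : ∀ L ∈ Od M (kc (actB b) c), ∀ f, Γ (L f) = L (Γ f))
    (h2 : ∀ L ∈ Od M (kc (actB b) c)ᗮ, ∀ f, Γ (L f) = - L (Γ f)) (G : GammaNine) (α : Fin 16)
    {f : F} (hf : Γ f = f) :
    ∫ z : Zs b c, Φ ‖z‖ (QX b (kc (actB b) c) X z) •
      ((1 / 2 : ℂ) • (vco M (fun β A => wb b G α β A z z) f +
        Γ (vco M (fun β A => wb b G α β A z z) f))) ∂μ = 0 := by
  have e : ∀ z : Zs b c, (1 / 2 : ℂ) • (vco M (fun β A => wb b G α β A z z) f +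
        Γ (vco M (fun β A => wb b G α β A z z) f)) = vco M (wk b G c α z) f := fun z =>
    half_Wq h1 h2 G α z hf
  simp only [e]
  exact e4_mean hc hX hK Φ μ hm hi M G α f

/-- pointwise size of the light part -/
theorem e4_bound (b : ColorBasis N) (M : FermionRep N F) (G : GammaNine) :
    ∃ C : ℝ, 0 ≤ C ∧ ∀ (c : Cfg N) (α : Fin 16) (z : Cfg N) (f : F),
      ‖vco M (wk b G c α z) f‖ ≤ C * ‖z‖ ^ 2 * ‖f‖ := by
  obtain ⟨C1, h1, hC1⟩ := exists_vco_bound M
  obtain ⟨C2, h2, hC2⟩ := exists_wb_bound b G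
  refine ⟨C1 * ((N ^ 2 - 1 : ℕ) + 1) * C2, by positivity, fun c α z f => ?_⟩
  have h3 : ∀ β, ‖wv b G α β z z‖ ≤ ((N ^ 2 - 1 : ℕ) + 1) * (C2 * ‖z‖ * ‖z‖) := by
    intro β
    have h4 : ‖wv b G α β z z‖ ≤ ∑ A, ‖(wb b G α β A z z) •
        (EuclideanSpace.single A (1 : ℝ) : Colg N)‖ := by
      have h5 : wv b G α β z z = ∑ A, (wb b G α β A z z) •
          (EuclideanSpace.single A (1 : ℝ) : Colg N) := by
        ext A
        simp [wv, Finset.sum_apply, Pi.single_apply]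
      conv_lhs => rw [h5]
      exact norm_sum_le _ _
    refine h4.trans ?_
    have h6 : ∀ A ∈ (Finset.univ : Finset (Fin (N ^ 2 - 1))), ‖(wb b G α β A z z) •
        (EuclideanSpace.single A (1 : ℝ) : Colg N)‖ ≤ C2 * ‖z‖ * ‖z‖ := by
      intro A _
      rw [norm_smul, EuclideanSpace.norm_single, norm_one, mul_one, Real.norm_eq_abs]
      exact hC2 α β A z z
    refine (Finset.sum_le_card_nsmul _ _ _ h6).trans ?_
    rw [Finset.card_univ, Fintype.card_fin, nsmul_eq_mul]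
    have h7 : 0 ≤ C2 * ‖z‖ * ‖z‖ := by positivity
    nlinarith
  have h8 : ∀ β A, |wk b G c α z β A| ≤ ((N ^ 2 - 1 : ℕ) + 1) * (C2 * ‖z‖ * ‖z‖) := by
    intro β A
    refine le_trans ?_ (h3 β)
    unfold wk
    exact (PiLp.norm_apply_le ((kc (actB b) c).starProjection (wv b G α β z z)) A).trans
      (Submodule.norm_starProjection_apply_le _ _)
  refine (hC1 _ _ f h8).trans (le_of_eq ?_)
  ring

end fermions

end Crest.Agent.R330.E4L776

end
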