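import Crest.Agent.R330.AX_984

/-!
# Row 330, S8-PAIR, error term e4, abstract part (helper776)

The heavy Gaussian at `X` on the fixed transverse space `Z_c`: every weight
`wt z = Φ ‖z‖ ⟪A_X z, z⟫` satisfies `∫ wt(z) ⟪T z_i, z_j⟫ dz = 0` for every skew `T` on colour space
and all `i, j` (the covariance is symmetric in the colour indices, for each pair `i, j`).

* `rf v` : reflection of colour space in `v^⊥`; `RInv τ Z wt v` : `1 ⊗ rf v` preserves `Z` and `wt`.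
* `cov_symm`, `mean_skew` : the statement when the invariant unit vectors span.
* `Fam.rinv`, `Fam.span` : joint eigenvectors of `D_i D_j`, `D⁰_i D⁰_j`, `P_K`.
* `Fam.mean_skew` : the conclusion.
-/

set_option autoImplicit false
set_option linter.unusedSectionVars false

open MeasureTheory Filter Topology
open scoped InnerProductSpace ContDiff

noncomputable section

namespace Crest.Agent.R330.E4776

open Crest.Agent.R330.SqrtPD984 Crest.Agent.R330.GPar984 Crest.Agent.R330.AX984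

/-! ## Haar measures and isometries -/

section haar

variable {W : Type*} [NormedAddCommGroup W] [InnerProductSpace ℝ W] [FiniteDimensional ℝ W]
  [MeasurableSpace W] [BorelSpace W]

theorem mp_haar (μ : Measure W) [μ.IsAddHaarMeasure] (U : W ≃ₗᵢ[ℝ] W) :
    MeasurePreserving U μ μ := by
  have h1 := U.measurePreserving
  have h2 : μ = Measure.addHaarScalarFactor μ (volume : Measure W) • (volume : Measure W) :=
    Measure.isAddLeftInvariant_eq_smul μ volume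
  rw [h2]
  exact h1.smul_measure _

end haar

/-! ## Colour reflections -/

section refl

variable {V : Type*} [NormedAddCommGroup V] [InnerProductSpace ℝ V]

/-- reflection in the hyperplane orthogonal to `v` (`v` a unit vector) -/
def rf (v : V) : V →L[ℝ] V := ContinuousLinearMap.id ℝ V - (2 : ℝ) • (innerSL ℝ v).smulRight v

theorem rf_apply (v u : V) : rf v u = u - (2 * ⟪v, u⟫_ℝ) • v := by
  simp [rf, smul_smul]

theorem rf_self {v : V} (hv : ‖v‖ = 1) : rf v v = -v := by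
  rw [rf_apply, real_inner_self_eq_norm_sq, hv, one_pow, mul_one, two_smul]
  abel

theorem rf_adj (v u w : V) : ⟪rf v u, w⟫_ℝ = ⟪u, rf v w⟫_ℝ := by
  rw [rf_apply, rf_apply, inner_sub_left, inner_sub_right, inner_smul_left, inner_smul_right,
    real_inner_comm u v]
  simp only [conj_trivial]
  ring

theorem rf_rf {v : V} (hv : ‖v‖ = 1) (u : V) : rf v (rf v u) = u := by
  rw [rf_apply v (rf v u), rf_apply, inner_sub_right, inner_smul_right,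
    real_inner_self_eq_norm_sq, hv]
  module

theorem rf_inner {v : V} (hv : ‖v‖ = 1) (u w : V) : ⟪rf v u, rf v w⟫_ℝ = ⟪u, w⟫_ℝ := by
  rw [rf_adj, rf_rf hv]

theorem rf_comm {T : V →L[ℝ] V} (hT : Sy T) {v : V} {c : ℝ} (hc : T v = c • v) (u : V) :
    T (rf v u) = rf v (T u) := by
  rw [rf_apply, rf_apply, map_sub, map_smul, hc, ← hT v u, hc, inner_smul_left]
  simp only [conj_trivial]
  module

end refl

variable {ι : Type*} [Fintype ι] {V E : Type*}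
  [NormedAddCommGroup V] [InnerProductSpace ℝ V] [FiniteDimensional ℝ V]
  [NormedAddCommGroup E] [InnerProductSpace ℝ E] [FiniteDimensional ℝ E]

/-- The weight `wt` on `Z` is invariant under the colour reflection `1 ⊗ rf v`. -/
structure RInv (τ : Ten ι V E) (Z : Submodule ℝ E) (wt : Z → ℝ) (v : V) : Prop where
  mem : ∀ z ∈ Z, τ.ten (rf v) z ∈ Z
  inv : ∀ (z : E) (hz : z ∈ Z) (h : τ.ten (rf v) z ∈ Z),
    wt ⟨τ.ten (rf v) z, h⟩ = wt ⟨z, hz⟩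

section inv

variable {τ : Ten ι V E} {Z : Submodule ℝ E} {wt : Z → ℝ} {v : V}

theorem ten_rf_rf (τ : Ten ι V E) (hv : ‖v‖ = 1) (e : E) :
    τ.ten (rf v) (τ.ten (rf v) e) = e :=
  τ.ext' fun i => by rw [τ.pr_ten, τ.pr_ten, rf_rf hv]

theorem norm_ten_rf (τ : Ten ι V E) (hv : ‖v‖ = 1) (e : E) : ‖τ.ten (rf v) e‖ = ‖e‖ := by
  have h : ‖τ.ten (rf v) e‖ ^ 2 = ‖e‖ ^ 2 := by
    rw [τ.norm_sq, τ.norm_sq e]
    refine Finset.sum_congr rfl fun i _ => ?_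
    rw [τ.pr_ten, ← real_inner_self_eq_norm_sq, rf_inner hv, real_inner_self_eq_norm_sq]
  exact (pow_left_inj₀ (norm_nonneg _) (norm_nonneg _) two_ne_zero).1 h

/-- the reflection as an isometry of `Z` -/
def rfZ (τ : Ten ι V E) (Z : Submodule ℝ E) (v : V) (hv : ‖v‖ = 1)
    (hm : ∀ z ∈ Z, τ.ten (rf v) z ∈ Z) : Z ≃ₗᵢ[ℝ] Z where
  toLinearEquiv := LinearEquiv.ofInvolutive
    (((τ.ten (rf v)).toLinearMap).restrict hm) (fun z => Subtype.ext (ten_rf_rf τ hv z))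
  norm_map' := fun z => norm_ten_rf τ hv z

theorem rfZ_coe (τ : Ten ι V E) (Z : Submodule ℝ E) (v : V) (hv : ‖v‖ = 1)
    (hm : ∀ z ∈ Z, τ.ten (rf v) z ∈ Z) (z : Z) :
    ((rfZ τ Z v hv hm z : Z) : E) = τ.ten (rf v) z := rfl

variable [MeasurableSpace E] [BorelSpace E]

theorem integrable_pr {μ : Measure Z} (hm : AEStronglyMeasurable wt μ)
    (hi : Integrable (fun z : Z => wt z * ‖z‖ ^ 2) μ) (i j : ι) (u w : V) :
    Integrable (fun z : Z => wt z * (⟪u, τ.pr i z⟫_ℝ * ⟪w, τ.pr j z⟫_ℝ)) μ := by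
  have hc : Continuous fun z : Z => ⟪u, τ.pr i z⟫_ℝ * ⟪w, τ.pr j z⟫_ℝ := by fun_prop
  have hle : ∀ (k : ι) (z : Z), ‖τ.pr k z‖ ≤ ‖z‖ := by
    intro k z
    have h1 : ‖τ.pr k (z : E)‖ ^ 2 ≤ ‖(z : E)‖ ^ 2 := by
      rw [τ.norm_sq (z : E)]
      exact Finset.single_le_sum (f := fun i => ‖τ.pr i (z : E)‖ ^ 2) (fun i _ => sq_nonneg _)
        (Finset.mem_univ k)
    exact (pow_le_pow_iff_left₀ (norm_nonneg _) (norm_nonneg _) two_ne_zero).1 h1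
  refine (hi.const_mul (‖u‖ * ‖w‖)).mono (hm.mul hc.aestronglyMeasurable)
    (ae_of_all _ fun z => ?_)
  have h1 : |⟪u, τ.pr i z⟫_ℝ| ≤ ‖u‖ * ‖z‖ :=
    (abs_real_inner_le_norm _ _).trans (by gcongr; exact hle i z)
  have h2 : |⟪w, τ.pr j z⟫_ℝ| ≤ ‖w‖ * ‖z‖ :=
    (abs_real_inner_le_norm _ _).trans (by gcongr; exact hle j z)
  rw [norm_mul, norm_mul, norm_mul, norm_mul (wt z), Real.norm_eq_abs, Real.norm_eq_abs,
    Real.norm_eq_abs]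
  have h3 : |⟪u, τ.pr i z⟫_ℝ| * |⟪w, τ.pr j z⟫_ℝ| ≤ (‖u‖ * ‖z‖) * (‖w‖ * ‖z‖) := by gcongr
  rw [Real.norm_of_nonneg (by positivity : (0 : ℝ) ≤ ‖u‖ * ‖w‖),
    Real.norm_of_nonneg (by positivity : (0 : ℝ) ≤ ‖z‖ ^ 2)]
  calc |wt z| * (|⟪u, τ.pr i z⟫_ℝ| * |⟪w, τ.pr j z⟫_ℝ|)
      ≤ |wt z| * ((‖u‖ * ‖z‖) * (‖w‖ * ‖z‖)) := by gcongr
    _ = ‖u‖ * ‖w‖ * (|wt z| * ‖z‖ ^ 2) := by ring

/-- invariance of the second moments under one reflection -/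
theorem cov_rf {μ : Measure Z} [μ.IsAddHaarMeasure] (hv : ‖v‖ = 1) (h : RInv τ Z wt v)
    (i j : ι) (u w : V) :
    ∫ z : Z, wt z * (⟪u, τ.pr i z⟫_ℝ * ⟪w, τ.pr j z⟫_ℝ) ∂μ =
      ∫ z : Z, wt z * (⟪rf v u, τ.pr i z⟫_ℝ * ⟪rf v w, τ.pr j z⟫_ℝ) ∂μ := by
  have h1 := (mp_haar μ (rfZ τ Z v hv h.mem)).integral_comp
    (rfZ τ Z v hv h.mem).toHomeomorph.measurableEmbedding
    (fun z : Z => wt z * (⟪u, τ.pr i z⟫_ℝ * ⟪w, τ.pr j z⟫_ℝ))
  rw [← h1]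
  refine integral_congr_ae (ae_of_all _ fun z => ?_)
  simp only
  rw [rfZ_coe, τ.pr_ten, τ.pr_ten, ← rf_adj, ← rf_adj,
    show wt (rfZ τ Z v hv h.mem z) = wt z from h.inv z z.2 (h.mem z z.2)]

/-- the second moments against an invariant unit vector -/
theorem cov_unit {μ : Measure Z} [μ.IsAddHaarMeasure] (hm : AEStronglyMeasurable wt μ)
    (hi : Integrable (fun z : Z => wt z * ‖z‖ ^ 2) μ) (hv : ‖v‖ = 1) (h : RInv τ Z wt v)
    (i j : ι) (u : V) :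
    ∫ z : Z, wt z * (⟪u, τ.pr i z⟫_ℝ * ⟪v, τ.pr j z⟫_ℝ) ∂μ =
      ∫ z : Z, wt z * (⟪v, τ.pr i z⟫_ℝ * ⟪u, τ.pr j z⟫_ℝ) ∂μ := by
  have e1 : ∫ z : Z, wt z * (⟪u, τ.pr i z⟫_ℝ * ⟪v, τ.pr j z⟫_ℝ) ∂μ =
      ⟪v, u⟫_ℝ * ∫ z : Z, wt z * (⟪v, τ.pr i z⟫_ℝ * ⟪v, τ.pr j z⟫_ℝ) ∂μ := by
    have h1 := cov_rf (μ := μ) hv h i j u v
    rw [rf_self hv, rf_apply] at h1
    have h2 : ∀ z : Z, wt z * (⟪u - (2 * ⟪v, u⟫_ℝ) • v, τ.pr i z⟫_ℝ * ⟪-v, τ.pr j z⟫_ℝ) =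
        (2 * ⟪v, u⟫_ℝ) * (wt z * (⟪v, τ.pr i z⟫_ℝ * ⟪v, τ.pr j z⟫_ℝ)) -
          wt z * (⟪u, τ.pr i z⟫_ℝ * ⟪v, τ.pr j z⟫_ℝ) := by
      intro z
      rw [inner_sub_left, inner_smul_left, inner_neg_left]
      simp only [conj_trivial]
      ring
    simp only [h2] at h1
    rw [integral_sub ((integrable_pr hm hi i j v v).const_mul _) (integrable_pr hm hi i j u v),
      integral_const_mul] at h1
    linarith
  have e2 : ∫ z : Z, wt z * (⟪v, τ.pr i z⟫_ℝ * ⟪u, τ.pr j z⟫_ℝ) ∂μ =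
      ⟪v, u⟫_ℝ * ∫ z : Z, wt z * (⟪v, τ.pr i z⟫_ℝ * ⟪v, τ.pr j z⟫_ℝ) ∂μ := by
    have h1 := cov_rf (μ := μ) hv h i j v u
    rw [rf_self hv, rf_apply] at h1
    have h2 : ∀ z : Z, wt z * (⟪-v, τ.pr i z⟫_ℝ * ⟪u - (2 * ⟪v, u⟫_ℝ) • v, τ.pr j z⟫_ℝ) =
        (2 * ⟪v, u⟫_ℝ) * (wt z * (⟪v, τ.pr i z⟫_ℝ * ⟪v, τ.pr j z⟫_ℝ)) -
          wt z * (⟪v, τ.pr i z⟫_ℝ * ⟪u, τ.pr j z⟫_ℝ) := by
      intro z
      rw [inner_sub_left, inner_smul_left, inner_neg_left]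
      simp only [conj_trivial]
      ring
    simp only [h2] at h1
    rw [integral_sub ((integrable_pr hm hi i j v v).const_mul _) (integrable_pr hm hi i j v u),
      integral_const_mul] at h1
    linarith
  rw [e1, e2]

/-- **The covariance is symmetric in the colour indices.** -/
theorem cov_symm {μ : Measure Z} [μ.IsAddHaarMeasure] (hm : AEStronglyMeasurable wt μ)
    (hi : Integrable (fun z : Z => wt z * ‖z‖ ^ 2) μ)
    (hsp : Submodule.span ℝ {v : V | ‖v‖ = 1 ∧ RInv τ Z wt v} = ⊤) (i j : ι) (u w : V) :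
    ∫ z : Z, wt z * (⟪u, τ.pr i z⟫_ℝ * ⟪w, τ.pr j z⟫_ℝ) ∂μ =
      ∫ z : Z, wt z * (⟪w, τ.pr i z⟫_ℝ * ⟪u, τ.pr j z⟫_ℝ) ∂μ := by
  have hw : w ∈ Submodule.span ℝ {v : V | ‖v‖ = 1 ∧ RInv τ Z wt v} := by
    rw [hsp]; trivial
  induction hw using Submodule.span_induction with
  | mem x hx => exact cov_unit hm hi hx.1 hx.2 i j u
  | zero => simp
  | add x y _ _ h1 h2 =>
    have e1 : ∀ z : Z, wt z * (⟪u, τ.pr i z⟫_ℝ * ⟪x + y, τ.pr j z⟫_ℝ) =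
        wt z * (⟪u, τ.pr i z⟫_ℝ * ⟪x, τ.pr j z⟫_ℝ) +
        wt z * (⟪u, τ.pr i z⟫_ℝ * ⟪y, τ.pr j z⟫_ℝ) := fun z => by
      rw [inner_add_left]; ring
    have e2 : ∀ z : Z, wt z * (⟪x + y, τ.pr i z⟫_ℝ * ⟪u, τ.pr j z⟫_ℝ) =
        wt z * (⟪x, τ.pr i z⟫_ℝ * ⟪u, τ.pr j z⟫_ℝ) +
        wt z * (⟪y, τ.pr i z⟫_ℝ * ⟪u, τ.pr j z⟫_ℝ) := fun z => by
      rw [inner_add_left]; ring
    simp only [e1, e2]
    rw [integral_add (integrable_pr hm hi i j u x) (integrable_pr hm hi i j u y),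
      integral_add (integrable_pr hm hi i j x u) (integrable_pr hm hi i j y u), h1, h2]
  | smul r x _ h1 =>
    have e1 : ∀ z : Z, wt z * (⟪u, τ.pr i z⟫_ℝ * ⟪r • x, τ.pr j z⟫_ℝ) =
        r * (wt z * (⟪u, τ.pr i z⟫_ℝ * ⟪x, τ.pr j z⟫_ℝ)) := fun z => by
      rw [inner_smul_left]; simp only [conj_trivial]; ring
    have e2 : ∀ z : Z, wt z * (⟪r • x, τ.pr i z⟫_ℝ * ⟪u, τ.pr j z⟫_ℝ) =
        r * (wt z * (⟪x, τ.pr i z⟫_ℝ * ⟪u, τ.pr j z⟫_ℝ)) := fun z => by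
      rw [inner_smul_left]; simp only [conj_trivial]; ring
    simp only [e1, e2]
    rw [integral_const_mul, integral_const_mul, h1]

/-- **Skew operators have mean zero.** -/
theorem mean_skew {μ : Measure Z} [μ.IsAddHaarMeasure] (hm : AEStronglyMeasurable wt μ)
    (hi : Integrable (fun z : Z => wt z * ‖z‖ ^ 2) μ)
    (hsp : Submodule.span ℝ {v : V | ‖v‖ = 1 ∧ RInv τ Z wt v} = ⊤)
    {T : V →L[ℝ] V} (hT : ∀ u w, ⟪T u, w⟫_ℝ = -⟪u, T w⟫_ℝ) (i j : ι) :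
    ∫ z : Z, wt z * ⟪T (τ.pr i z), τ.pr j z⟫_ℝ ∂μ = 0 := by
  set e := stdOrthonormalBasis ℝ V with he
  have h1 : ∀ z : Z, wt z * ⟪T (τ.pr i z), τ.pr j z⟫_ℝ =
      -∑ a, wt z * (⟪T (e a), τ.pr i z⟫_ℝ * ⟪e a, τ.pr j z⟫_ℝ) := by
    intro z
    rw [← e.sum_inner_mul_inner (T (τ.pr i z)) (τ.pr j z), Finset.mul_sum,
      ← Finset.sum_neg_distrib]
    refine Finset.sum_congr rfl fun a _ => ?_
    rw [hT, real_inner_comm (T (e a))]
    ring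
  have h2 : ∫ z : Z, wt z * ⟪T (τ.pr i z), τ.pr j z⟫_ℝ ∂μ =
      -∑ a, ∫ z : Z, wt z * (⟪T (e a), τ.pr i z⟫_ℝ * ⟪e a, τ.pr j z⟫_ℝ) ∂μ := by
    simp only [h1]
    rw [integral_neg, integral_finsetSum _ fun a _ => integrable_pr hm hi i j _ _]
  have h3 : ∀ a, ∫ z : Z, wt z * (⟪T (e a), τ.pr i z⟫_ℝ * ⟪e a, τ.pr j z⟫_ℝ) ∂μ =
      ∑ b, ⟪e b, T (e a)⟫_ℝ * ∫ z : Z, wt z * (⟪e b, τ.pr i z⟫_ℝ * ⟪e a, τ.pr j z⟫_ℝ) ∂μ := by
    intro a
    have h4 : ∀ z : Z, wt z * (⟪T (e a), τ.pr i z⟫_ℝ * ⟪e a, τ.pr j z⟫_ℝ) =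
        ∑ b, ⟪e b, T (e a)⟫_ℝ * (wt z * (⟪e b, τ.pr i z⟫_ℝ * ⟪e a, τ.pr j z⟫_ℝ)) := by
      intro z
      rw [← e.sum_inner_mul_inner (T (e a)) (τ.pr i z), Finset.sum_mul, Finset.mul_sum]
      refine Finset.sum_congr rfl fun b _ => ?_
      rw [real_inner_comm (e b) (T (e a))]
      ring
    simp only [h4]
    rw [integral_finsetSum _ fun b _ => (integrable_pr hm hi i j _ _).const_mul _]
    exact Finset.sum_congr rfl fun b _ => integral_const_mul _ _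
  rw [h2, neg_eq_zero]
  simp only [h3]
  have h5 : ∑ a, ∑ b, ⟪e b, T (e a)⟫_ℝ *
      ∫ z : Z, wt z * (⟪e b, τ.pr i z⟫_ℝ * ⟪e a, τ.pr j z⟫_ℝ) ∂μ =
      -∑ a, ∑ b, ⟪e b, T (e a)⟫_ℝ *
      ∫ z : Z, wt z * (⟪e b, τ.pr i z⟫_ℝ * ⟪e a, τ.pr j z⟫_ℝ) ∂μ := by
    conv_lhs => rw [Finset.sum_comm]
    rw [← Finset.sum_neg_distrib]
    refine Finset.sum_congr rfl fun a _ => ?_
    rw [← Finset.sum_neg_distrib]
    refine Finset.sum_congr rfl fun b _ => ?_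
    rw [cov_symm hm hi hsp i j (e a) (e b), ← neg_eq_iff_eq_neg.2 (hT (e a) (e b)),
      real_inner_comm (T (e a)) (e b)]
    ring
  linarith

end inv

/-! ## The family of a commuting configuration -/

section fam

variable {K : Submodule ℝ V} {s s₀ : ℝ} {D D₀ : ι → V →L[ℝ] V}

theorem Fam.DD_sy (h : Fam K s D) (i j : ι) (u w : V) :
    ⟪D i (D j u), w⟫_ℝ = ⟪u, D i (D j w)⟫_ℝ := by
  rw [h.skew, h.skew, neg_neg, h.comm]

/-- joint eigenvectors -/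
structure JE (K : Submodule ℝ V) (D D₀ : ι → V →L[ℝ] V) (v : V) : Prop where
  one : ‖v‖ = 1
  e1 : ∀ i j, ∃ c : ℝ, D i (D j v) = c • v
  e2 : ∀ i j, ∃ c : ℝ, D₀ i (D₀ j v) = c • v
  e3 : ∃ c : ℝ, K.starProjection v = c • v

theorem sy_DD (h : Fam K s D) (i j : ι) : Sy (D i * D j) := fun u w => Fam.DD_sy h i j u w

theorem DD_rf (h : Fam K s D) {v : V} (e1 : ∀ i j, ∃ c : ℝ, D i (D j v) = c • v) (i j : ι)
    (u : V) : D i (D j (rf v u)) = rf v (D i (D j u)) := by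
  obtain ⟨c, hc⟩ := e1 i j
  exact rf_comm (sy_DD h i j) hc u

theorem sy_proj (K : Submodule ℝ V) : Sy K.starProjection := fun u w => by
  rw [proj_inner, real_inner_comm (K.starProjection w) u, proj_inner K w u,
    real_inner_comm (K.starProjection w)]

theorem proj_rf {v : V} (e3 : ∃ c : ℝ, K.starProjection v = c • v) (u : V) :
    K.starProjection (rf v u) = rf v (K.starProjection u) := by
  obtain ⟨c, hc⟩ := e3
  exact rf_comm (sy_proj K) hc u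

theorem ll_rf (h : Fam K s D) {v : V} (e1 : ∀ i j, ∃ c : ℝ, D i (D j v) = c • v)
    (e3 : ∃ c : ℝ, K.starProjection v = c • v) : rf v * ll K D = ll K D * rf v := by
  ext u
  change rf v (ll K D u) = ll K D (rf v u)
  rw [ll_apply, ll_apply, map_sub, map_sum, proj_rf e3]
  congr 1
  exact Finset.sum_congr rfl fun i _ => (DD_rf h e1 i i u).symm

theorem lr_rf (h : Fam K s D) (hs : 0 < s) {v : V}
    (e1 : ∀ i j, ∃ c : ℝ, D i (D j v) = c • v) (e3 : ∃ c : ℝ, K.starProjection v = c • v)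
    (u : V) : lr K D (rf v u) = rf v (lr K D u) := by
  have h1 := comm_psq (h.ll_pd hs) (ll_rf h e1 e3)
  have h2 := congrArg (fun R : V →L[ℝ] V => R u) h1
  exact h2.symm

theorem li_rf (h : Fam K s D) (hs : 0 < s) {v : V}
    (e1 : ∀ i j, ∃ c : ℝ, D i (D j v) = c • v) (e3 : ∃ c : ℝ, K.starProjection v = c • v)
    (u : V) : li K D (rf v u) = rf v (li K D u) := by
  have h0 : rf v * lr K D = lr K D * rf v := by
    ext u
    exact (lr_rf h hs e1 e3 u).symm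
  have h1 := comm_inverse (h.lr_pd hs) h0
  have h2 := congrArg (fun R : V →L[ℝ] V => R u) h1
  exact h2.symm

theorem AX_rf (τ : Ten ι V E) (h : Fam K s D) (hs : 0 < s) {v : V}
    (e1 : ∀ i j, ∃ c : ℝ, D i (D j v) = c • v) (e3 : ∃ c : ℝ, K.starProjection v = c • v)
    (e : E) : τ.AX K D (τ.ten (rf v) e) = τ.ten (rf v) (τ.AX K D e) := by
  refine τ.ext' fun i => ?_
  rw [τ.pr_AX, τ.pr_ten, τ.pr_ten, τ.pr_AX, map_add, map_sub, lr_rf h hs e1 e3, proj_rf e3]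
  congr 1
  rw [τ.dv_apply, τ.dv_apply, map_sum, map_sum, map_sum, map_sum, map_sum]
  refine Finset.sum_congr rfl fun j _ => ?_
  rw [τ.pr_ten, ← h.D_li hs, ← h.D_li hs, li_rf h hs e1 e3, DD_rf h e1]

theorem ZZ_rf (τ : Ten ι V E) (h₀ : Fam K s₀ D₀) (hs₀ : 0 < s₀) {v : V}
    (e2 : ∀ i j, ∃ c : ℝ, D₀ i (D₀ j v) = c • v) (e3 : ∃ c : ℝ, K.starProjection v = c • v)
    {z : E} (hz : z ∈ τ.ZZ K D₀) : τ.ten (rf v) z ∈ τ.ZZ K D₀ := by
  obtain ⟨h1, h2⟩ := (τ.mem_ZZ).1 hz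
  refine (τ.mem_ZZ).2 ⟨fun i => ?_, ?_⟩
  · rw [τ.pr_ten, ← Submodule.starProjection_apply_eq_zero_iff, proj_rf e3, proj_zero (h1 i),
      map_zero]
  · set w := τ.dv D₀ (τ.ten (rf v) z) with hw
    have hwK : w ∈ Kᗮ := h₀.dv_mem τ _
    have h3 : ∀ i, D₀ i w = 0 := by
      intro i
      rw [hw, τ.dv_apply, map_sum]
      have h4 : ∀ j, D₀ i (D₀ j (τ.pr j (τ.ten (rf v) z))) = rf v (D₀ i (D₀ j (τ.pr j z))) := by
        intro j
        rw [τ.pr_ten, DD_rf h₀ e2]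
      simp only [h4]
      rw [← map_sum, ← map_sum, ← τ.dv_apply, h2, map_zero, map_zero]
    have h5 := h₀.gap w hwK
    simp only [h3, norm_zero] at h5
    have h6 : ‖w‖ ^ 2 ≤ 0 := by
      have h7 : 0 < s₀ ^ 2 := by positivity
      have h8 : ∑ _i : ι, (0 : ℝ) ^ 2 = 0 := by simp
      rw [h8] at h5
      by_contra hne
      push Not at hne
      nlinarith [mul_pos h7 hne]
    have h9 : ‖w‖ = 0 := by nlinarith [norm_nonneg w]
    exact norm_eq_zero.1 h9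

/-- Gaussian-type weights on the transverse space. -/
def wZ (τ : Ten ι V E) (K : Submodule ℝ V) (D D₀ : ι → V →L[ℝ] V) (Φ : ℝ → ℝ → ℝ)
    (z : τ.ZZ K D₀) : ℝ := Φ ‖z‖ ⟪cmp (τ.ZZ K D₀) (τ.AX K D) z, z⟫_ℝ

theorem rinv_of (τ : Ten ι V E) (h : Fam K s D) (hs : 0 < s) (h₀ : Fam K s₀ D₀) (hs₀ : 0 < s₀)
    {v : V} (hv : JE K D D₀ v) (Φ : ℝ → ℝ → ℝ) :
    RInv τ (τ.ZZ K D₀) (wZ τ K D D₀ Φ) v := by
  refine ⟨fun z hz => ZZ_rf τ h₀ hs₀ hv.e2 hv.e3 hz, fun z hz hz' => ?_⟩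
  unfold wZ
  have h1 : ‖(⟨τ.ten (rf v) z, hz'⟩ : τ.ZZ K D₀)‖ = ‖(⟨z, hz⟩ : τ.ZZ K D₀)‖ :=
    norm_ten_rf τ hv.one z
  have h2 : ⟪cmp (τ.ZZ K D₀) (τ.AX K D) ⟨τ.ten (rf v) z, hz'⟩,
      (⟨τ.ten (rf v) z, hz'⟩ : τ.ZZ K D₀)⟫_ℝ =
      ⟪cmp (τ.ZZ K D₀) (τ.AX K D) ⟨z, hz⟩, (⟨z, hz⟩ : τ.ZZ K D₀)⟫_ℝ := by
    rw [inner_cmp, inner_cmp]
    simp only
    rw [AX_rf τ h hs hv.e1 hv.e3, τ.inner_eq, τ.inner_eq]
    refine Finset.sum_congr rfl fun i _ => ?_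
    rw [τ.pr_ten, τ.pr_ten, rf_inner hv.one]
  rw [h1, h2]

/-- joint eigenvectors span -/
theorem span_JE (h : Fam K s D) (h₀ : Fam K s₀ D₀)
    (hc : ∀ i k u, D i (D₀ k u) = D₀ k (D i u)) :
    Submodule.span ℝ {v : V | JE K D D₀ v} = ⊤ := by
  classical
  let T : (ι × ι) ⊕ (ι × ι) ⊕ Unit → (V →ₗ[ℝ] V) := fun
    | Sum.inl p => (D p.1 * D p.2 : V →L[ℝ] V).toLinearMap
    | Sum.inr (Sum.inl p) => (D₀ p.1 * D₀ p.2 : V →L[ℝ] V).toLinearMap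
    | Sum.inr (Sum.inr _) => (K.starProjection : V →L[ℝ] V).toLinearMap
  have hT : ∀ p, (T p).IsSymmetric := by
    rintro (p | p | p) u w
    · exact sy_DD h p.1 p.2 u w
    · exact sy_DD h₀ p.1 p.2 u w
    · exact sy_proj K u w
  have hcc : ∀ p q u, T p (T q u) = T q (T p u) := by
    have a1 : ∀ (p q : ι × ι) (u : V), D p.1 (D p.2 (D q.1 (D q.2 u))) =
        D q.1 (D q.2 (D p.1 (D p.2 u))) := by
      intro p q u
      rw [h.comm p.2 q.1, h.comm p.1 q.1, h.comm p.2 q.2, h.comm p.1 q.2]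
    have a2 : ∀ (p q : ι × ι) (u : V), D₀ p.1 (D₀ p.2 (D₀ q.1 (D₀ q.2 u))) =
        D₀ q.1 (D₀ q.2 (D₀ p.1 (D₀ p.2 u))) := by
      intro p q u
      rw [h₀.comm p.2 q.1, h₀.comm p.1 q.1, h₀.comm p.2 q.2, h₀.comm p.1 q.2]
    have a3 : ∀ (p q : ι × ι) (u : V), D p.1 (D p.2 (D₀ q.1 (D₀ q.2 u))) =
        D₀ q.1 (D₀ q.2 (D p.1 (D p.2 u))) := by
      intro p q u
      rw [hc p.2 q.1, hc p.1 q.1, hc p.2 q.2, hc p.1 q.2]
    have a4 : ∀ (p : ι × ι) (u : V), D p.1 (D p.2 (K.starProjection u)) =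
        K.starProjection (D p.1 (D p.2 u)) := by
      intro p u
      rw [h.D_proj, map_zero, h.proj_D]
    have a5 : ∀ (p : ι × ι) (u : V), D₀ p.1 (D₀ p.2 (K.starProjection u)) =
        K.starProjection (D₀ p.1 (D₀ p.2 u)) := by
      intro p u
      rw [h₀.D_proj, map_zero, h₀.proj_D]
    rintro (p | p | p) (q | q | q) u
    · exact a1 p q u
    · exact a3 p q u
    · exact a4 p u
    · exact (a3 q p u).symm
    · exact a2 p q u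
    · exact a5 p u
    · exact (a4 q u).symm
    · exact (a5 q u).symm
    · rfl
  have hC : Pairwise (Function.onFun Commute T) := fun p q _ => LinearMap.ext fun u => hcc p q u
  have htop := LinearMap.IsSymmetric.iSup_iInf_eq_top_of_commute hT hC
  rw [eq_top_iff, ← htop]
  refine iSup_le fun χ => ?_
  intro v hv
  rw [Submodule.mem_iInf] at hv
  have hev : ∀ p, T p v = χ p • v := fun p => Module.End.mem_eigenspace_iff.1 (hv p)
  by_cases h0 : v = 0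
  · rw [h0]; exact Submodule.zero_mem _
  have hn : ‖v‖ ≠ 0 := norm_ne_zero_iff.2 h0
  have h1 : v = ‖v‖ • (‖v‖⁻¹ • v) := by rw [smul_smul, mul_inv_cancel₀ hn, one_smul]
  rw [h1]
  refine Submodule.smul_mem _ _ (Submodule.subset_span ?_)
  refine ⟨?_, fun i j => ⟨χ (Sum.inl (i, j)), ?_⟩, fun i j => ⟨χ (Sum.inr (Sum.inl (i, j))), ?_⟩,
    ⟨χ (Sum.inr (Sum.inr ())), ?_⟩⟩
  · rw [norm_smul, norm_inv, norm_norm, inv_mul_cancel₀ hn]
  · have := hev (Sum.inl (i, j))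
    rw [map_smul, map_smul, show D i (D j v) = χ (Sum.inl (i, j)) • v from this, smul_comm]
  · have := hev (Sum.inr (Sum.inl (i, j)))
    rw [map_smul, map_smul, show D₀ i (D₀ j v) = χ (Sum.inr (Sum.inl (i, j))) • v from this,
      smul_comm]
  · have := hev (Sum.inr (Sum.inr ()))
    rw [map_smul, show K.starProjection v = χ (Sum.inr (Sum.inr ())) • v from this, smul_comm]

variable [MeasurableSpace E] [BorelSpace E]

/-- **(e4), abstract**: mean zero of skew colour forms against any Gaussian-type weight. -/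
theorem fam_mean_skew (τ : Ten ι V E) (h : Fam K s D) (hs : 0 < s) (h₀ : Fam K s₀ D₀)
    (hs₀ : 0 < s₀) (hc : ∀ i k u, D i (D₀ k u) = D₀ k (D i u)) (Φ : ℝ → ℝ → ℝ)
    (μ : Measure (τ.ZZ K D₀)) [μ.IsAddHaarMeasure]
    (hm : AEStronglyMeasurable (wZ τ K D D₀ Φ) μ)
    (hi : Integrable (fun z => wZ τ K D D₀ Φ z * ‖z‖ ^ 2) μ)
    {T : V →L[ℝ] V} (hT : ∀ u w, ⟪T u, w⟫_ℝ = -⟪u, T w⟫_ℝ) (i j : ι) :
    ∫ z, wZ τ K D D₀ Φ z * ⟪T (τ.pr i z), τ.pr j z⟫_ℝ ∂μ = 0 := by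
  refine mean_skew hm hi ?_ hT i j
  rw [eq_top_iff, ← span_JE h h₀ hc]
  exact Submodule.span_mono fun v hv => ⟨hv.one, rinv_of τ h hs h₀ hs₀ hv Φ⟩

end fam

end Crest.Agent.R330.E4776

end
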