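import Crest.Agent.R330.PairA_547
import Crest.Agent.R330.Bind6b_839

/-!
# Row 330, S8-PAIR (P3), error term e9 = div nn (helper157)

`Qd` of PairA_547 ends with `Σ_{n,t} I • Θ(e_t) ∂_n (cf n t • τ)`.  Here:

* `q8`, `e9` : the two halves of the product rule; `div_split`, `Qd_split`.
* `e9op c Θ eT eN u` : the operator of `e9` (`e9 τ u = e9op u (τ u)`).
* size: `abs_fderiv_cf_le` (`|∂_v cf| ≤ 4B/r ‖v‖` on the closed ball), `norm_e9_le`,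
  `lintegral_e9_le`, `integral_e9_le`.
* heavy parity: `e9op_odd`, `e9_odd`; literal `e9op_mem_Od`, `e9_odd_lit`.
* vacuum component: `proj_odd_zero`, `inner_even_odd_zero`, `inner_e9_even`.
* regularity: `continuous_e9`, `hcs_e9`.
-/

set_option autoImplicit false
set_option linter.unusedSectionVars false

open MeasureTheory Filter Topology
open scoped ContDiff InnerProductSpace ENNReal

noncomputable section

namespace Crest.Agent.R330.E9157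

open Crest.Agent.R330.Frame839 Crest.Agent.R330.IBP837 Crest.Agent.R330.PairA547

variable {V E : Type*} [NormedAddCommGroup V] [InnerProductSpace ℝ V] [FiniteDimensional ℝ V]
  [NormedAddCommGroup E] [InnerProductSpace ℝ E] [FiniteDimensional ℝ E]
  {F : Type*} [NormedAddCommGroup F] [InnerProductSpace ℂ F] [FiniteDimensional ℂ F]
  {ι κ : Type*} [Fintype ι] [Fintype κ]

section defs

variable (A : V →L[ℝ] E →L[ℝ] E) (c : E)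

/-- Divergence coefficient of the horizontal remainder in the direction `t`. -/
def dvn (eT : OrthonormalBasis ι ℝ (Tn A c)) (eN : OrthonormalBasis κ ℝ (Tn A c)ᗮ)
    (t : ι) (u : (Tn A c)ᗮ) : ℝ :=
  ∑ n, fderiv ℝ (cf A c eT eN n t) u (eN n)

/-- The operator of `e9`. -/
def e9op (Θ : E →ₗ[ℝ] (F →ₗ[ℂ] F)) (eT : OrthonormalBasis ι ℝ (Tn A c))
    (eN : OrthonormalBasis κ ℝ (Tn A c)ᗮ) (u : (Tn A c)ᗮ) : F →ₗ[ℂ] F :=
  ∑ t, (Complex.I * (dvn A c eT eN t u : ℂ)) • Θ (eT t)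

/-- **`e9`**: the derivative falls on the coefficients of `nn`. -/
def e9 (Θ : E →ₗ[ℝ] (F →ₗ[ℂ] F)) (eT : OrthonormalBasis ι ℝ (Tn A c))
    (eN : OrthonormalBasis κ ℝ (Tn A c)ᗮ) (τ : (Tn A c)ᗮ → F) (u : (Tn A c)ᗮ) : F :=
  ∑ n, ∑ t, Complex.I • Θ (eT t) (fderiv ℝ (cf A c eT eN n t) u (eN n) • τ u)

/-- **`q8`**: the derivative falls on `τ`. -/
def q8 (Θ : E →ₗ[ℝ] (F →ₗ[ℂ] F)) (eT : OrthonormalBasis ι ℝ (Tn A c))
    (eN : OrthonormalBasis κ ℝ (Tn A c)ᗮ) (τ : (Tn A c)ᗮ → F) (u : (Tn A c)ᗮ) : F :=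
  ∑ n, ∑ t, Complex.I • Θ (eT t) (cf A c eT eN n t u • fderiv ℝ τ u (eN n))

theorem e9_eq_op (Θ : E →ₗ[ℝ] (F →ₗ[ℂ] F)) (eT : OrthonormalBasis ι ℝ (Tn A c))
    (eN : OrthonormalBasis κ ℝ (Tn A c)ᗮ) (τ : (Tn A c)ᗮ → F) (u : (Tn A c)ᗮ) :
    e9 A c Θ eT eN τ u = e9op A c Θ eT eN u (τ u) := by
  unfold e9 e9op dvn
  rw [Finset.sum_comm, LinearMap.sum_apply]
  refine Finset.sum_congr rfl fun t _ => ?_
  rw [LinearMap.smul_apply, Complex.ofReal_sum, Finset.mul_sum, Finset.sum_smul]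
  refine Finset.sum_congr rfl fun n _ => ?_
  rw [map_rsmul, mul_smul, Complex.coe_smul]

theorem e9_zero (Θ : E →ₗ[ℝ] (F →ₗ[ℂ] F)) (eT : OrthonormalBasis ι ℝ (Tn A c))
    (eN : OrthonormalBasis κ ℝ (Tn A c)ᗮ) {τ : (Tn A c)ᗮ → F} {u : (Tn A c)ᗮ}
    (h : τ u = 0) : e9 A c Θ eT eN τ u = 0 := by
  rw [e9_eq_op, h, map_zero]

end defs

variable {A : V →L[ℝ] E →L[ℝ] E} {c : E} {r B : ℝ}

/-! ## The product rule -/

theorem div_split (hr0 : 0 < r) (hr : GapAt A c r) (hB : ActBound A B)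
    (Θ : E →ₗ[ℝ] (F →ₗ[ℂ] F)) (eT : OrthonormalBasis ι ℝ (Tn A c))
    (eN : OrthonormalBasis κ ℝ (Tn A c)ᗮ) {τ : (Tn A c)ᗮ → F} {u : (Tn A c)ᗮ}
    (hu : B * ‖u‖ ≤ r / 2) (hτ : DifferentiableAt ℝ τ u) :
    ∑ n, ∑ t, Complex.I • Θ (eT t) (fderiv ℝ (fun v => cf A c eT eN n t v • τ v) u (eN n)) =
      q8 A c Θ eT eN τ u + e9 A c Θ eT eN τ u := by
  unfold q8 e9
  rw [← Finset.sum_add_distrib]
  refine Finset.sum_congr rfl fun n _ => ?_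
  rw [← Finset.sum_add_distrib]
  refine Finset.sum_congr rfl fun t _ => ?_
  have hd : DifferentiableAt ℝ (cf A c eT eN n t) u :=
    (contDiffAt_cf hr0 hr hB eT eN n t hu).differentiableAt (by simp)
  have h1 : fderiv ℝ (fun v => cf A c eT eN n t v • τ v) u (eN n) =
      cf A c eT eN n t u • fderiv ℝ τ u (eN n) +
        fderiv ℝ (cf A c eT eN n t) u (eN n) • τ u := by
    have h2 := (hd.hasFDerivAt.smul hτ.hasFDerivAt).fderiv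
    have h3 : (fun v => cf A c eT eN n t v • τ v) = (cf A c eT eN n t) • τ := rfl
    rw [h3, h2]
    simp
  rw [h1, map_add, smul_add]

/-- **`Qd = (flat part) + q8 + e9`.** -/
theorem Qd_split (hr0 : 0 < r) (hr : GapAt A c r) (hB : ActBound A B)
    (Θ : E →ₗ[ℝ] (F →ₗ[ℂ] F)) (W : E → (F →ₗ[ℂ] F)) (Bf : V →ₗ[ℝ] (F →ₗ[ℝ] F))
    (eT : OrthonormalBasis ι ℝ (Tn A c)) (eN : OrthonormalBasis κ ℝ (Tn A c)ᗮ)
    {τ : (Tn A c)ᗮ → F} {u : (Tn A c)ᗮ}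
    (hu : B * ‖u‖ ≤ r / 2) (hτ : DifferentiableAt ℝ τ u) :
    Qd A c Θ W Bf eT eN τ u =
      (∑ n, (-Complex.I) • Θ (eN n) (fderiv ℝ τ u (eN n))) + W (c + u) (τ u) +
      (∑ t, (-Complex.I) • Bf (om A c (c + u) (eT t)) (Θ (eT t) (τ u))) +
      (q8 A c Θ eT eN τ u + e9 A c Θ eT eN τ u) := by
  unfold Qd
  rw [div_split hr0 hr hB Θ eT eN hu hτ]

/-- The same on the whole slice, for `τ` supported in the ball. -/
theorem Qd_split' (hr0 : 0 < r) (hr : GapAt A c r) (hB : ActBound A B)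
    (Θ : E →ₗ[ℝ] (F →ₗ[ℂ] F)) (W : E → (F →ₗ[ℂ] F)) (Bf : V →ₗ[ℝ] (F →ₗ[ℝ] F))
    (eT : OrthonormalBasis ι ℝ (Tn A c)) (eN : OrthonormalBasis κ ℝ (Tn A c)ᗮ)
    {τ : (Tn A c)ᗮ → F} (hτ : ContDiff ℝ 1 τ) (hs : ∀ u ∈ tsupport τ, B * ‖u‖ ≤ r / 2)
    (u : (Tn A c)ᗮ) :
    Qd A c Θ W Bf eT eN τ u =
      (∑ n, (-Complex.I) • Θ (eN n) (fderiv ℝ τ u (eN n))) + W (c + u) (τ u) +
      (∑ t, (-Complex.I) • Bf (om A c (c + u) (eT t)) (Θ (eT t) (τ u))) +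
      (q8 A c Θ eT eN τ u + e9 A c Θ eT eN τ u) := by
  by_cases hu : u ∈ tsupport τ
  · exact Qd_split hr0 hr hB Θ W Bf eT eN (hs u hu) (hτ.differentiable one_ne_zero u)
  · have h0 : τ =ᶠ[𝓝 u] 0 := notMem_tsupport_iff_eventuallyEq.mp hu
    have h1 : τ u = 0 := h0.eq_of_nhds
    have h2 : fderiv ℝ τ u = 0 := by
      rw [h0.fderiv_eq]
      simp
    have h3 : ∀ n t, fderiv ℝ (fun v => cf A c eT eN n t v • τ v) u = 0 := by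
      intro n t
      have h4 : (fun v => cf A c eT eN n t v • τ v) =ᶠ[𝓝 u] fun _ => 0 := by
        filter_upwards [h0] with v hv
        rw [hv]
        simp
      rw [h4.fderiv_eq]
      simp
    unfold Qd q8 e9
    simp [h1, h2, h3]

/-! ## Size -/

theorem cf_sub_bound (hr0 : 0 < r) (hr : GapAt A c r) (hB : ActBound A B) (hB0 : 0 ≤ B)
    (eT : OrthonormalBasis ι ℝ (Tn A c)) (eN : OrthonormalBasis κ ℝ (Tn A c)ᗮ) (n : κ) (t : ι)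
    {u v : (Tn A c)ᗮ} (hu : B * ‖u‖ ≤ r / 2) (hv : B * ‖v‖ ≤ r / 2) :
    |cf A c eT eN n t u - cf A c eT eN n t v| ≤ 4 * B / r * ‖u - v‖ := by
  have hx : ∀ w : (Tn A c)ᗮ, B * ‖w‖ ≤ r / 2 → B * ‖c + (w : E) - c‖ ≤ r / 2 := by
    intro w hw
    rw [add_sub_cancel_left]
    exact hw
  have h1 := nn_sub_bound (A := A) (c := c) hr0 hr hB hB0 (hx u hu) (hx v hv) (eT t)
  have h2 : cf A c eT eN n t u - cf A c eT eN n t v =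
      ⟪(eN n : E), nn A c (c + u) (eT t) - nn A c (c + v) (eT t)⟫_ℝ := by
    unfold cf
    rw [inner_sub_right]
  rw [h2]
  have h3 : ‖(eN n : E)‖ = 1 := eN.norm_eq_one n
  have h4 : ‖eT t‖ = 1 := eT.norm_eq_one t
  have h5 : ‖c + (u : E) - (c + v)‖ = ‖u - v‖ := by
    rw [add_sub_add_left_eq_sub]
    rfl
  calc |⟪(eN n : E), nn A c (c + u) (eT t) - nn A c (c + v) (eT t)⟫_ℝ|
      ≤ ‖(eN n : E)‖ * ‖nn A c (c + u) (eT t) - nn A c (c + v) (eT t)‖ := abs_real_inner_le_norm _ _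
    _ ≤ 1 * (4 * B / r * ‖u - v‖ * 1) := by
        rw [h3]
        rw [h4, h5] at h1
        linarith
    _ = _ := by ring

theorem norm_fderiv_cf_le_int (hr0 : 0 < r) (hr : GapAt A c r) (hB : ActBound A B) (hB0 : 0 ≤ B)
    (eT : OrthonormalBasis ι ℝ (Tn A c)) (eN : OrthonormalBasis κ ℝ (Tn A c)ᗮ) (n : κ) (t : ι)
    {u : (Tn A c)ᗮ} (hu : B * ‖u‖ < r / 2) :
    ‖fderiv ℝ (cf A c eT eN n t) u‖ ≤ 4 * B / r := by
  refine norm_fderiv_le_of_lip' ℝ (by positivity) ?_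
  have hc : ContinuousAt (fun v : (Tn A c)ᗮ => B * ‖v‖) u := by fun_prop
  filter_upwards [hc.eventually_lt_const hu] with v hv
  rw [Real.norm_eq_abs]
  exact cf_sub_bound hr0 hr hB hB0 eT eN n t hv.le hu.le

/-- **Derivative of the coefficients**, on the closed ball. -/
theorem norm_fderiv_cf_le (hr0 : 0 < r) (hr : GapAt A c r) (hB : ActBound A B) (hB0 : 0 ≤ B)
    (eT : OrthonormalBasis ι ℝ (Tn A c)) (eN : OrthonormalBasis κ ℝ (Tn A c)ᗮ) (n : κ) (t : ι)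
    {u : (Tn A c)ᗮ} (hu : B * ‖u‖ ≤ r / 2) :
    ‖fderiv ℝ (cf A c eT eN n t) u‖ ≤ 4 * B / r := by
  have h1 : ContinuousAt (fun v => fderiv ℝ (cf A c eT eN n t) v) u :=
    ((contDiffAt_cf hr0 hr hB eT eN n t hu).fderiv_right (m := 0) (by simp)).continuousAt
  have h2 : Tendsto (fun s : ℝ => s • u) (𝓝[<] 1) (𝓝 u) := by
    have h3 : ContinuousAt (fun s : ℝ => s • u) 1 := by fun_prop
    have h4 := h3.tendsto
    rw [one_smul] at h4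
    exact h4.mono_left nhdsWithin_le_nhds
  have h5 : Tendsto (fun s : ℝ => ‖fderiv ℝ (cf A c eT eN n t) (s • u)‖) (𝓝[<] 1)
      (𝓝 ‖fderiv ℝ (cf A c eT eN n t) u‖) :=
    (continuous_norm.tendsto (fderiv ℝ (cf A c eT eN n t) u)).comp (h1.tendsto.comp h2)
  refine le_of_tendsto h5 ?_
  have h6 : ∀ᶠ s : ℝ in 𝓝[<] 1, s < 1 := eventually_mem_nhdsWithin
  have h7 : ∀ᶠ s : ℝ in 𝓝[<] 1, 0 < s :=
    nhdsWithin_le_nhds (lt_mem_nhds (by norm_num))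
  filter_upwards [h6, h7] with s hs1 hs0
  refine norm_fderiv_cf_le_int hr0 hr hB hB0 eT eN n t ?_
  rw [norm_smul, Real.norm_of_nonneg hs0.le]
  have h8 : B * (s * ‖u‖) = s * (B * ‖u‖) := by ring
  rw [h8]
  have h9 : 0 ≤ B * ‖u‖ := by positivity
  nlinarith

theorem abs_fderiv_cf_le (hr0 : 0 < r) (hr : GapAt A c r) (hB : ActBound A B) (hB0 : 0 ≤ B)
    (eT : OrthonormalBasis ι ℝ (Tn A c)) (eN : OrthonormalBasis κ ℝ (Tn A c)ᗮ) (n : κ) (t : ι)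
    {u : (Tn A c)ᗮ} (hu : B * ‖u‖ ≤ r / 2) (v : (Tn A c)ᗮ) :
    |fderiv ℝ (cf A c eT eN n t) u v| ≤ 4 * B / r * ‖v‖ := by
  rw [← Real.norm_eq_abs]
  exact ((fderiv ℝ (cf A c eT eN n t) u).le_opNorm v).trans
    (mul_le_mul_of_nonneg_right (norm_fderiv_cf_le hr0 hr hB hB0 eT eN n t hu) (norm_nonneg _))

theorem abs_dvn_le (hr0 : 0 < r) (hr : GapAt A c r) (hB : ActBound A B) (hB0 : 0 ≤ B)
    (eT : OrthonormalBasis ι ℝ (Tn A c)) (eN : OrthonormalBasis κ ℝ (Tn A c)ᗮ) (t : ι)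
    {u : (Tn A c)ᗮ} (hu : B * ‖u‖ ≤ r / 2) :
    |dvn A c eT eN t u| ≤ Fintype.card κ * (4 * B / r) := by
  unfold dvn
  refine (Finset.abs_sum_le_sum_abs _ _).trans ?_
  have h1 : ∀ n ∈ (Finset.univ : Finset κ),
      |fderiv ℝ (cf A c eT eN n t) u (eN n)| ≤ 4 * B / r := by
    intro n _
    have h2 := abs_fderiv_cf_le hr0 hr hB hB0 eT eN n t hu (eN n)
    rwa [eN.norm_eq_one n, mul_one] at h2
  refine (Finset.sum_le_sum h1).trans ?_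
  rw [Finset.sum_const, nsmul_eq_mul, Finset.card_univ]

/-- The constant of `e9`. -/
def C9 (ι κ : Type*) [Fintype ι] [Fintype κ] (B r K : ℝ) : ℝ :=
  Fintype.card ι * (Fintype.card κ * (4 * B / r) * K)

theorem C9_nonneg (hr0 : 0 < r) (hB0 : 0 ≤ B) {K : ℝ} (hK0 : 0 ≤ K) : 0 ≤ C9 ι κ B r K := by
  unfold C9
  positivity

/-- **Size of `e9`.** -/
theorem norm_e9op_le (hr0 : 0 < r) (hr : GapAt A c r) (hB : ActBound A B) (hB0 : 0 ≤ B)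
    {Θ : E →ₗ[ℝ] (F →ₗ[ℂ] F)} {K : ℝ} (hK : ∀ e v, ‖Θ e v‖ ≤ K * ‖e‖ * ‖v‖)
    (eT : OrthonormalBasis ι ℝ (Tn A c)) (eN : OrthonormalBasis κ ℝ (Tn A c)ᗮ)
    {u : (Tn A c)ᗮ} (hu : B * ‖u‖ ≤ r / 2) (v : F) :
    ‖e9op A c Θ eT eN u v‖ ≤ C9 ι κ B r K * ‖v‖ := by
  unfold e9op
  rw [LinearMap.sum_apply]
  refine (norm_sum_le _ _).trans ?_
  have h1 : ∀ t ∈ (Finset.univ : Finset ι),
      ‖((Complex.I * (dvn A c eT eN t u : ℂ)) • Θ (eT t)) v‖ ≤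
        Fintype.card κ * (4 * B / r) * K * ‖v‖ := by
    intro t _
    rw [LinearMap.smul_apply, norm_smul, norm_mul, Complex.norm_I, one_mul, Complex.norm_real,
      Real.norm_eq_abs]
    have h2 := abs_dvn_le hr0 hr hB hB0 eT eN t hu
    have h3 : ‖Θ (eT t) v‖ ≤ K * ‖v‖ := by
      have h4 := hK (eT t) v
      have h5 : ‖((eT t : Tn A c) : E)‖ = 1 := eT.norm_eq_one t
      rwa [h5, mul_one] at h4
    calc |dvn A c eT eN t u| * ‖Θ (eT t) v‖ ≤ (Fintype.card κ * (4 * B / r)) * (K * ‖v‖) :=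
          mul_le_mul h2 h3 (norm_nonneg _) (by positivity)
      _ = _ := by ring
  refine (Finset.sum_le_sum h1).trans (le_of_eq ?_)
  rw [Finset.sum_const, nsmul_eq_mul, Finset.card_univ]
  unfold C9
  ring

theorem norm_e9_le (hr0 : 0 < r) (hr : GapAt A c r) (hB : ActBound A B) (hB0 : 0 ≤ B)
    {Θ : E →ₗ[ℝ] (F →ₗ[ℂ] F)} {K : ℝ} (hK : ∀ e v, ‖Θ e v‖ ≤ K * ‖e‖ * ‖v‖)
    (eT : OrthonormalBasis ι ℝ (Tn A c)) (eN : OrthonormalBasis κ ℝ (Tn A c)ᗮ)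
    {τ : (Tn A c)ᗮ → F} (hs : ∀ u, τ u ≠ 0 → B * ‖u‖ ≤ r / 2) (u : (Tn A c)ᗮ) :
    ‖e9 A c Θ eT eN τ u‖ ≤ C9 ι κ B r K * ‖τ u‖ := by
  by_cases h0 : τ u = 0
  · rw [e9_zero A c Θ eT eN h0, h0]
    simp
  · rw [e9_eq_op]
    exact norm_e9op_le hr0 hr hB hB0 hK eT eN (hs u h0) _

/-- **Size of `e9` in `L²`** (extended form). -/
theorem lintegral_e9_le [MeasurableSpace E] [BorelSpace E] (μ : Measure (Tn A c)ᗮ)
    (hr0 : 0 < r) (hr : GapAt A c r) (hB : ActBound A B) (hB0 : 0 ≤ B)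
    {Θ : E →ₗ[ℝ] (F →ₗ[ℂ] F)} {K : ℝ} (hK0 : 0 ≤ K) (hK : ∀ e v, ‖Θ e v‖ ≤ K * ‖e‖ * ‖v‖)
    (eT : OrthonormalBasis ι ℝ (Tn A c)) (eN : OrthonormalBasis κ ℝ (Tn A c)ᗮ)
    {τ : (Tn A c)ᗮ → F} (hs : ∀ u, τ u ≠ 0 → B * ‖u‖ ≤ r / 2) :
    ∫⁻ u, ‖e9 A c Θ eT eN τ u‖ₑ ^ 2 ∂μ ≤
      ENNReal.ofReal (C9 ι κ B r K ^ 2) * ∫⁻ u, ‖τ u‖ₑ ^ 2 ∂μ := by
  rw [← lintegral_const_mul' _ _ ENNReal.ofReal_ne_top]
  refine lintegral_mono fun u => ?_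
  have h1 := norm_e9_le hr0 hr hB hB0 hK eT eN hs u
  have h2 : ‖e9 A c Θ eT eN τ u‖ₑ ≤ ENNReal.ofReal (C9 ι κ B r K) * ‖τ u‖ₑ := by
    rw [← ofReal_norm, ← ofReal_norm,
      ← ENNReal.ofReal_mul (C9_nonneg hr0 hB0 hK0)]
    exact ENNReal.ofReal_le_ofReal h1
  calc ‖e9 A c Θ eT eN τ u‖ₑ ^ 2 ≤ (ENNReal.ofReal (C9 ι κ B r K) * ‖τ u‖ₑ) ^ 2 := by gcongr
    _ = _ := by rw [mul_pow, ENNReal.ofReal_pow (C9_nonneg hr0 hB0 hK0)]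

/-- **Size of `e9` in `L²`** (Bochner form). -/
theorem integral_e9_le [MeasurableSpace E] [BorelSpace E] (μ : Measure (Tn A c)ᗮ)
    (hr0 : 0 < r) (hr : GapAt A c r) (hB : ActBound A B) (hB0 : 0 ≤ B)
    {Θ : E →ₗ[ℝ] (F →ₗ[ℂ] F)} {K : ℝ} (hK : ∀ e v, ‖Θ e v‖ ≤ K * ‖e‖ * ‖v‖)
    (eT : OrthonormalBasis ι ℝ (Tn A c)) (eN : OrthonormalBasis κ ℝ (Tn A c)ᗮ)
    {τ : (Tn A c)ᗮ → F} (hs : ∀ u, τ u ≠ 0 → B * ‖u‖ ≤ r / 2)
    (hi : Integrable (fun u => ‖τ u‖ ^ 2) μ) :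
    ∫ u, ‖e9 A c Θ eT eN τ u‖ ^ 2 ∂μ ≤ C9 ι κ B r K ^ 2 * ∫ u, ‖τ u‖ ^ 2 ∂μ := by
  rw [← integral_const_mul]
  refine integral_mono_of_nonneg (Eventually.of_forall fun u => by positivity)
    (hi.const_mul _) (Eventually.of_forall fun u => ?_)
  change ‖e9 A c Θ eT eN τ u‖ ^ 2 ≤ C9 ι κ B r K ^ 2 * ‖τ u‖ ^ 2
  rw [← mul_pow]
  exact pow_le_pow_left₀ (norm_nonneg _) (norm_e9_le hr0 hr hB hB0 hK eT eN hs u) 2

/-! ## Regularity -/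

theorem hcs_e9 (Θ : E →ₗ[ℝ] (F →ₗ[ℂ] F)) (eT : OrthonormalBasis ι ℝ (Tn A c))
    (eN : OrthonormalBasis κ ℝ (Tn A c)ᗮ) {τ : (Tn A c)ᗮ → F} (hc : HasCompactSupport τ) :
    HasCompactSupport (e9 A c Θ eT eN τ) := by
  refine hc.mono fun u hu => ?_
  rw [Function.mem_support] at hu ⊢
  exact fun h => hu (e9_zero A c Θ eT eN h)

theorem contDiff_e9 (hr0 : 0 < r) (hr : GapAt A c r) (hB : ActBound A B)
    (Θ : E →ₗ[ℝ] (F →ₗ[ℂ] F)) (eT : OrthonormalBasis ι ℝ (Tn A c))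
    (eN : OrthonormalBasis κ ℝ (Tn A c)ᗮ) {m : ℕ∞} {τ : (Tn A c)ᗮ → F} (hτ : ContDiff ℝ m τ)
    (hs : ∀ u ∈ tsupport τ, B * ‖u‖ ≤ r / 2) : ContDiff ℝ m (e9 A c Θ eT eN τ) := by
  refine contDiff_glue (τ := τ) (fun u hu => ?_) (fun u hu => ?_)
  · unfold e9
    refine ContDiffAt.sum fun n _ => ContDiffAt.sum fun t _ => ?_
    have h1 : ContDiffAt ℝ ∞ (fun v => fderiv ℝ (cf A c eT eN n t) v (eN n)) u :=
      ((contDiffAt_cf hr0 hr hB eT eN n t (hs u hu)).fderiv_right (m := ∞)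
        (by simp)).clm_apply contDiffAt_const
    have h2 : ContDiffAt ℝ m (fun v => fderiv ℝ (cf A c eT eN n t) v (eN n) • τ v) u :=
      (h1.of_le (by exact_mod_cast le_top)).smul hτ.contDiffAt
    have : FiniteDimensional ℝ F := FiniteDimensional.complexToReal F
    have h3 : ContDiffAt ℝ m (fun v => (LinearMap.toContinuousLinearMap
        ((Θ (eT t)).restrictScalars ℝ)) (fderiv ℝ (cf A c eT eN n t) v (eN n) • τ v)) u :=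
      ContDiffAt.comp u (ContinuousLinearMap.contDiff _).contDiffAt h2
    exact h3.const_smul Complex.I
  · filter_upwards [hu] with v hv
    exact e9_zero A c Θ eT eN hv

theorem continuous_e9 (hr0 : 0 < r) (hr : GapAt A c r) (hB : ActBound A B)
    (Θ : E →ₗ[ℝ] (F →ₗ[ℂ] F)) (eT : OrthonormalBasis ι ℝ (Tn A c))
    (eN : OrthonormalBasis κ ℝ (Tn A c)ᗮ) {τ : (Tn A c)ᗮ → F} (hτ : Continuous τ)
    (hs : ∀ u ∈ tsupport τ, B * ‖u‖ ≤ r / 2) : Continuous (e9 A c Θ eT eN τ) :=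
  (contDiff_e9 (m := 0) hr0 hr hB Θ eT eN (contDiff_zero.2 hτ) hs).continuous

/-! ## Heavy parity and vacuum component -/

/-- An even projection kills odd vectors. -/
theorem proj_odd_zero {Γ P : F →ₗ[ℂ] F} (hP : ∀ f, P (Γ f) = P f) {e : F} (he : Γ e = -e) :
    P e = 0 := by
  have h1 := hP e
  rw [he, map_neg] at h1
  have h2 : (2 : ℂ) • P e = 0 := by
    rw [two_smul]
    nth_rewrite 1 [← h1]
    simp
  exact (smul_eq_zero.1 h2).resolve_left two_ne_zero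

/-- An even and an odd vector are orthogonal. -/
theorem inner_even_odd_zero {Γ : F →ₗ[ℂ] F} (hs : ∀ f f', ⟪Γ f, f'⟫_ℂ = ⟪f, Γ f'⟫_ℂ)
    {f e : F} (hf : Γ f = f) (he : Γ e = -e) : ⟪f, e⟫_ℂ = 0 := by
  have h1 : ⟪f, e⟫_ℂ = - ⟪f, e⟫_ℂ := by
    conv_lhs => rw [← hf]
    rw [hs, he, inner_neg_right]
  have h2 : (2 : ℂ) * ⟪f, e⟫_ℂ = 0 := by
    rw [two_mul]
    nth_rewrite 1 [h1]
    ring
  exact (mul_eq_zero.1 h2).resolve_left two_ne_zero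

/-- **Heavy parity of `e9`.** -/
theorem e9op_odd {Θ : E →ₗ[ℝ] (F →ₗ[ℂ] F)} {Γ : F →ₗ[ℂ] F}
    (hΓ : ∀ t ∈ Tn A c, ∀ f, Γ (Θ t f) = - Θ t (Γ f))
    (eT : OrthonormalBasis ι ℝ (Tn A c)) (eN : OrthonormalBasis κ ℝ (Tn A c)ᗮ)
    (u : (Tn A c)ᗮ) (f : F) : Γ (e9op A c Θ eT eN u f) = - e9op A c Θ eT eN u (Γ f) := by
  unfold e9op
  simp only [LinearMap.sum_apply, LinearMap.smul_apply, map_sum, map_smul]
  rw [← Finset.sum_neg_distrib]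
  refine Finset.sum_congr rfl fun t _ => ?_
  rw [hΓ _ (eT t).2, smul_neg]

theorem e9_odd {Θ : E →ₗ[ℝ] (F →ₗ[ℂ] F)} {Γ : F →ₗ[ℂ] F}
    (hΓ : ∀ t ∈ Tn A c, ∀ f, Γ (Θ t f) = - Θ t (Γ f))
    (eT : OrthonormalBasis ι ℝ (Tn A c)) (eN : OrthonormalBasis κ ℝ (Tn A c)ᗮ)
    {τ : (Tn A c)ᗮ → F} {u : (Tn A c)ᗮ} (hτ : Γ (τ u) = τ u) :
    Γ (e9 A c Θ eT eN τ u) = - e9 A c Θ eT eN τ u := by
  rw [e9_eq_op, e9op_odd hΓ, hτ]

/-- **Vacuum component of `e9` is zero** (projection form). -/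
theorem proj_e9 {Θ : E →ₗ[ℝ] (F →ₗ[ℂ] F)} {Γ P : F →ₗ[ℂ] F}
    (hΓ : ∀ t ∈ Tn A c, ∀ f, Γ (Θ t f) = - Θ t (Γ f)) (hP : ∀ f, P (Γ f) = P f)
    (eT : OrthonormalBasis ι ℝ (Tn A c)) (eN : OrthonormalBasis κ ℝ (Tn A c)ᗮ)
    {τ : (Tn A c)ᗮ → F} {u : (Tn A c)ᗮ} (hτ : Γ (τ u) = τ u) :
    P (e9 A c Θ eT eN τ u) = 0 :=
  proj_odd_zero hP (e9_odd hΓ eT eN hτ)

/-- **Vacuum component of `e9` is zero** (pairing form). -/
theorem inner_e9_even {Θ : E →ₗ[ℝ] (F →ₗ[ℂ] F)} {Γ : F →ₗ[ℂ] F}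
    (hΓ : ∀ t ∈ Tn A c, ∀ f, Γ (Θ t f) = - Θ t (Γ f))
    (hs : ∀ f f', ⟪Γ f, f'⟫_ℂ = ⟪f, Γ f'⟫_ℂ)
    (eT : OrthonormalBasis ι ℝ (Tn A c)) (eN : OrthonormalBasis κ ℝ (Tn A c)ᗮ)
    {τ : (Tn A c)ᗮ → F} {u : (Tn A c)ᗮ} (hτ : Γ (τ u) = τ u) {f : F} (hf : Γ f = f) :
    ⟪f, e9 A c Θ eT eN τ u⟫_ℂ = 0 :=
  inner_even_odd_zero hs hf (e9_odd hΓ eT eN hτ)

/-- The pairing of an odd error only sees the odd part: `⟪f, e⟫ = ⟪f - P f, e⟫` for every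
symmetric `P` with even range. -/
theorem inner_sub_proj {Γ P : F →ₗ[ℂ] F} (hs : ∀ f f', ⟪Γ f, f'⟫_ℂ = ⟪f, Γ f'⟫_ℂ)
    (hP : ∀ f, Γ (P f) = P f) {e : F} (he : Γ e = -e) (f : F) :
    ⟪f, e⟫_ℂ = ⟪f - P f, e⟫_ℂ := by
  rw [inner_sub_left, inner_even_odd_zero hs (hP f) he, sub_zero]

/-- **Pairing bound for `e9`**: only the non-vacuum part of `f` is seen. -/
theorem norm_inner_e9_le (hr0 : 0 < r) (hr : GapAt A c r) (hB : ActBound A B) (hB0 : 0 ≤ B)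
    {Θ : E →ₗ[ℝ] (F →ₗ[ℂ] F)} {K : ℝ} (hK : ∀ e v, ‖Θ e v‖ ≤ K * ‖e‖ * ‖v‖)
    {Γ P : F →ₗ[ℂ] F} (hΓ : ∀ t ∈ Tn A c, ∀ f, Γ (Θ t f) = - Θ t (Γ f))
    (hs : ∀ f f', ⟪Γ f, f'⟫_ℂ = ⟪f, Γ f'⟫_ℂ) (hP : ∀ f, Γ (P f) = P f)
    (eT : OrthonormalBasis ι ℝ (Tn A c)) (eN : OrthonormalBasis κ ℝ (Tn A c)ᗮ)
    {τ : (Tn A c)ᗮ → F} (hsu : ∀ u, τ u ≠ 0 → B * ‖u‖ ≤ r / 2) {u : (Tn A c)ᗮ}
    (hτ : Γ (τ u) = τ u) (f : F) :
    ‖⟪f, e9 A c Θ eT eN τ u⟫_ℂ‖ ≤ C9 ι κ B r K * (‖f - P f‖ * ‖τ u‖) := by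
  rw [inner_sub_proj hs hP (e9_odd hΓ eT eN hτ) f]
  refine (norm_inner_le_norm _ _).trans ?_
  have h1 := norm_e9_le hr0 hr hB hB0 hK eT eN hsu u
  calc ‖f - P f‖ * ‖e9 A c Θ eT eN τ u‖ ≤ ‖f - P f‖ * (C9 ι κ B r K * ‖τ u‖) := by gcongr
    _ = _ := by ring

/-! ## Literal instance -/

section literal

open Crest.MathPhysics.MatrixQM Crest.Agent.R330.Defs478 Crest.Agent.R330.LS839
  Crest.Agent.R330.Bind6839

variable {N : ℕ} {b : ColorBasis N} {c' : Cfg N}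

theorem Theta_odd {M : FermionRep N F} (G : GammaNine) (α : Fin 16) {Γ : F →ₗ[ℂ] F}
    (hΓ : ∀ L ∈ Od M (kc (actB b) c')ᗮ, ∀ f, Γ (L f) = - L (Γ f)) :
    ∀ t ∈ Tn (actB b) c', ∀ f, Γ (Theta M G α t f) = - Theta M G α t (Γ f) :=
  fun _ ht f => hΓ _ (Theta_mem M G α (Tn_le_Mm ht)) f

variable {Θ : Cfg N →ₗ[ℝ] (F →ₗ[ℂ] F)}

/-- `e9` has coefficients in `Od kᗮ`. -/
theorem e9op_mem_Od {M : FermionRep N F} {G : GammaNine} {α : Fin 16}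
    (hΘ : ∀ e, Θ e = Theta M G α e)
    (eT : OrthonormalBasis ι ℝ (Tn (actB b) c')) (eN : OrthonormalBasis κ ℝ (Tn (actB b) c')ᗮ)
    (u : (Tn (actB b) c')ᗮ) :
    e9op (actB b) c' Θ eT eN u ∈ Od M (kc (actB b) c')ᗮ := by
  unfold e9op
  refine Submodule.sum_mem _ fun t _ => Submodule.smul_mem _ _ ?_
  rw [hΘ]
  exact Theta_mem M G α (Tn_le_Mm (eT t).2)

/-- **Literal heavy parity of `e9`.** -/
theorem e9_odd_lit {M : FermionRep N F} {G : GammaNine} {α : Fin 16}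
    (hΘ : ∀ e, Θ e = Theta M G α e) {Γ : F →ₗ[ℂ] F}
    (hΓ : ∀ L ∈ Od M (kc (actB b) c')ᗮ, ∀ f, Γ (L f) = - L (Γ f))
    (eT : OrthonormalBasis ι ℝ (Tn (actB b) c')) (eN : OrthonormalBasis κ ℝ (Tn (actB b) c')ᗮ)
    {τ : (Tn (actB b) c')ᗮ → F} {u : (Tn (actB b) c')ᗮ} (hτ : Γ (τ u) = τ u) :
    Γ (e9 (actB b) c' Θ eT eN τ u) = - e9 (actB b) c' Θ eT eN τ u := by
  rw [e9_eq_op, hΓ _ (e9op_mem_Od hΘ eT eN u), hτ]

/-- **Literal size of `e9`**: one constant for all `α`, `c`, bases and `τ`. -/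
theorem exists_e9_bound (b : ColorBasis N) (M : FermionRep N F) (G : GammaNine) {r B : ℝ}
    (hr0 : 0 < r) (hB : ActBound (actB b) B) (hB0 : 0 ≤ B) :
    ∃ C : ℝ, 0 ≤ C ∧ ∀ (α : Fin 16) (c : Cfg N), GapAt (actB b) c r →
      ∀ (Θ : Cfg N →ₗ[ℝ] (F →ₗ[ℂ] F)), (∀ e, Θ e = Theta M G α e) →
      ∀ (ι κ : Type) [Fintype ι] [Fintype κ]
      (eT : OrthonormalBasis ι ℝ (Tn (actB b) c)) (eN : OrthonormalBasis κ ℝ (Tn (actB b) c)ᗮ)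
      (τ : (Tn (actB b) c)ᗮ → F), (∀ u, τ u ≠ 0 → B * ‖u‖ ≤ r / 2) →
      ∀ u, ‖e9 (actB b) c Θ eT eN τ u‖ ≤ C * ‖τ u‖ := by
  obtain ⟨K, hK0, hK⟩ := exists_Theta_bound M G
  refine ⟨(Module.finrank ℝ (Cfg N) : ℝ) * ((Module.finrank ℝ (Cfg N) : ℝ) * (4 * B / r) * K),
    by positivity, fun α c hr Θ hΘ ι κ _ _ eT eN τ hs u => ?_⟩
  refine (norm_e9_le hr0 hr hB hB0 (fun e v => by rw [hΘ]; exact hK α e v)
    eT eN hs u).trans (mul_le_mul_of_nonneg_right ?_ (norm_nonneg _))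
  have hcι : (Fintype.card ι : ℝ) ≤ (Module.finrank ℝ (Cfg N) : ℝ) := by
    have e1 : Fintype.card ι = Module.finrank ℝ (Tn (actB b) c) :=
      (Module.finrank_eq_card_basis eT.toBasis).symm
    rw [e1]
    exact_mod_cast Submodule.finrank_le _
  have hcκ : (Fintype.card κ : ℝ) ≤ (Module.finrank ℝ (Cfg N) : ℝ) := by
    have e1 : Fintype.card κ = Module.finrank ℝ (Tn (actB b) c)ᗮ :=
      (Module.finrank_eq_card_basis eN.toBasis).symm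
    rw [e1]
    exact_mod_cast Submodule.finrank_le _
  unfold C9
  gcongr

end literal

end Crest.Agent.R330.E9157

end
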