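import Crest.Agent.R330.VLow_737
import Crest.Agent.R330.S5Defs_798

/-!
# Row 330, section 5a (helper737): link with the frozen statements of section 5 (S5Defs_798)

* `isVac_iff` : `IsVacCfg b c ↔ c ∈ Crit b 1`.
* `lin_ker` : at a vacuum `c`, `DRes c u = 0 ↔ ∃ om, u = [om, c]`.
* `near_one_orbit` : for an `OrbitList`, points with small potential are near one of the orbits.
-/

set_option autoImplicit false
set_option linter.unusedSectionVars false

open Metric Set Topology Filter Crest.MathPhysics.MatrixQM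
open scoped InnerProductSpace Pointwise

namespace Crest.Agent.R330.VLow737

noncomputable section

variable {N : ℕ} (b : ColorBasis N)

theorem Vcyc_nonneg (g m : ℝ) (x : Cfg N) : 0 ≤ CoerCfg87.Vcyc b g m x := by
  unfold CoerCfg87.Vcyc
  positivity

theorem Vhi_nonneg (x : Cfg N) : 0 ≤ CoerCfg87.Vhi x := by
  unfold CoerCfg87.Vhi
  positivity

theorem isVac_iff (c : Cfg N) : S5Defs798.IsVacCfg b c ↔ c ∈ Crit b 1 := by
  change _ ↔ VR b 1 c = 0
  unfold VR S5Defs798.IsVacCfg
  have h1 := Vcyc_nonneg b 1 1 c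
  have h2 := Vhi_nonneg c
  constructor
  · rintro ⟨h3, h4⟩
    rw [h3, h4]; norm_num
  · intro h
    constructor <;> linarith

/-- gauge directions: `gd` is `brk`. -/
theorem gd_eq_brk (om : EuclideanSpace ℝ (Fin (N ^ 2 - 1))) (c : Cfg N) :
    gd b.structConst om c = S5Defs798.brk b om c := rfl

/-- The vacuum equations, block form. -/
theorem crit_eqs {c : Cfg N} (hc : c ∈ Zs b.structConst) :
    (∀ i : Fin 9, (i : ℕ) < 3 → (1 / 3 : ℝ) • col i c =
      brL b.structConst (col (nx i) c) (col (nx (nx i)) c)) ∧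
    ∀ i : Fin 9, ¬ (i : ℕ) < 3 → col i c = 0 := by
  have hc' : ∀ i, Res b.structConst c i = 0 := fun i => by
    have : Res b.structConst c = 0 := hc
    rw [this]; rfl
  refine ⟨fun i hi => ?_, fun i hi => ?_⟩
  · have h := hc' i
    rw [Res_apply, if_pos hi] at h
    exact sub_eq_zero.1 h
  · have h := hc' i
    rw [Res_apply, if_neg hi, smul_eq_zero] at h
    exact h.resolve_left (by norm_num)

/-- Gauge directions are in the kernel of the linearisation. -/
theorem DRes_gd {c : Cfg N} (hc : c ∈ Zs b.structConst)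
    (om : EuclideanSpace ℝ (Fin (N ^ 2 - 1))) :
    DRes b.structConst c (gd b.structConst om c) = 0 := by
  obtain ⟨h1, h2⟩ := crit_eqs b hc
  ext1 i
  change DRes b.structConst c (gd b.structConst om c) i = 0
  rw [DRes_apply]
  split_ifs with hi
  · rw [col_gd, col_gd, col_gd]
    have hj := (isStr b).jacobi om (col (nx i) c) (col (nx (nx i)) c)
    rw [← hj, ← h1 i hi, map_smul, sub_self]
  · rw [col_gd, h2 i hi, map_zero, smul_zero]

theorem DRes_add (f : Fin (N ^ 2 - 1) → Fin (N ^ 2 - 1) → Fin (N ^ 2 - 1) → ℝ) (c z w : Cfg N) :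
    DRes f c (z + w) = DRes f c z + DRes f c w := by
  ext1 i
  change DRes f c (z + w) i = DRes f c z i + DRes f c w i
  rw [DRes_apply, DRes_apply, DRes_apply]
  split_ifs
  · simp only [map_add, LinearMap.add_apply, smul_add]
    abel
  · rw [map_add, smul_add]

/-- The space of gauge directions at `c`. -/
def gaugeSub (c : Cfg N) : Submodule ℝ (Cfg N) where
  carrier := {u | ∃ om : EuclideanSpace ℝ (Fin (N ^ 2 - 1)), u = gd b.structConst om c}
  add_mem' := by
    rintro _ _ ⟨om, rfl⟩ ⟨om', rfl⟩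
    exact ⟨om + om', ext_col fun i => by
      rw [map_add, col_gd, col_gd, col_gd, map_add, LinearMap.add_apply]⟩
  zero_mem' := ⟨0, ext_col fun i => by rw [col_gd, map_zero, map_zero, LinearMap.zero_apply]⟩
  smul_mem' := by
    rintro s _ ⟨om, rfl⟩
    exact ⟨s • om, ext_col fun i => by
      rw [map_smul, col_gd, col_gd, map_smul, LinearMap.smul_apply]⟩

/-- **Kernel of the linearisation** at a vacuum = gauge directions. -/
theorem lin_ker {c : Cfg N} (hc : c ∈ Crit b 1) (u : Cfg N) :
    DRes b.structConst c u = 0 ↔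
      ∃ om : EuclideanSpace ℝ (Fin (N ^ 2 - 1)), u = gd b.structConst om c := by
  rw [Crit_one] at hc
  constructor
  · intro hu
    obtain ⟨v, hv, w, hw, hvw⟩ : ∃ v ∈ gaugeSub b c, ∃ w ∈ (gaugeSub b c)ᗮ, u = v + w := by
      exact ⟨_, Submodule.starProjection_apply_mem _ u, _,
        Submodule.sub_starProjection_mem_orthogonal u, by abel⟩
    have hv' := hv
    obtain ⟨om, hom⟩ := hv
    have h1 : DRes b.structConst c w = 0 := by
      have h2 := DRes_add b.structConst c v w
      rw [← hvw, hu, hom, DRes_gd b hc, zero_add] at h2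
      exact h2.symm
    have h3 : (c, w) ∈ Tr b.structConst := by
      intro om'
      exact hw _ ⟨om', rfl⟩
    have h4 := DRes_inj (isStr b) hc h3 h1
    exact ⟨om, by rw [hvw, h4, add_zero, hom]⟩
  · rintro ⟨om, rfl⟩
    exact DRes_gd b hc om

/-- Points of small potential are near one of the listed orbits, quantitatively. -/
theorem near_list (hN : 0 < N) {c : Nat.Partition N → Cfg N} (hc : S5Defs798.OrbitList b c) :
    ∃ a > 0, ∀ g : ℝ, 0 < g → ∀ x : Cfg N, ∃ l : Nat.Partition N,
      a * infDist x (orb b (g⁻¹ • c l)) ^ 2 ≤ VR b g x := by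
  obtain ⟨a, ha, h⟩ := VR_lower b hN
  refine ⟨a, ha, fun g hg x => ?_⟩
  have h1 := h g hg x
  obtain ⟨y, hy, hyx⟩ := (isCompact_Crit b hN hg).exists_infDist_eq_dist (by
    refine ⟨0, ?_⟩
    rw [mem_Crit_iff b hg, smul_zero, Crit_one]
    exact zero_mem_Zs _) x
  have hy1 : S5Defs798.IsVacCfg b (g • y) := (isVac_iff b _).2 ((mem_Crit_iff b hg y).1 hy)
  obtain ⟨l, k, hk⟩ := hc.all _ hy1
  refine ⟨l, le_trans ?_ h1⟩
  have h2 : y ∈ orb b (g⁻¹ • c l) := by
    refine ⟨k, ?_⟩
    change b.act k (g⁻¹ • c l) = y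
    rw [Col962.act_smul, ← hk, smul_smul, inv_mul_cancel₀ hg.ne', one_smul]
  have h3 : infDist x (orb b (g⁻¹ • c l)) ≤ infDist x (Crit b g) := by
    rw [hyx]
    exact infDist_le_dist_of_mem h2
  exact mul_le_mul_of_nonneg_left (pow_le_pow_left₀ infDist_nonneg h3 2) ha.le

end

end Crest.Agent.R330.VLow737
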