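import Crest.Agent.R330.UpHyp_8
import Crest.Agent.R330.VLowD_737
import Crest.Agent.R330.WeitzG_726
import Crest.Agent.R330.VId_87
import Crest.Agent.R330.Brid_837
import Crest.Agent.R330.Bar_963

/-!
# Row 330, S5d-UP: the energy inequality uniform in the coupling (helper682)

* `norm_Th_le`, `norm_dco_le` : norm bounds of the Clifford map.
* `norm_dW_wpot_le` : `|∂_k w^{g,m}| ≤ C (g ‖x‖ + m)`.
* `norm_Zop_le` : the Yukawa bound `‖Z^{g,m}(x) v‖ ≤ C (g ‖x‖ + m) ‖v‖`.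
* `qf_eq` : the literal energy identity (1.1)
  `q_{g,m}(φ) = ½ Σ_k ∫ ‖∂_k φ‖² + ∫ V_{g,m} ‖φ‖² + (1/16) ∫ re ⟨φ, Z φ⟩`.
* `en_sum`, `en_prop` : (EN); `vz_prop` : (VZ).
-/

set_option autoImplicit false
set_option linter.unusedSectionVars false

open MeasureTheory Filter Topology Metric
open scoped ContDiff InnerProductSpace ENNReal
open Crest.MathPhysics.MatrixQM

noncomputable section

namespace Crest.Agent.R330.En682

open Crest.Agent.R330.IBP837 Crest.Agent.R330.Weitz726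
open Crest.Agent.R330.Defs478 (cc Gam wpot dcharge qf)

variable {N : ℕ}

/-! ## norm bounds -/

section norms

variable {F : Type*} [NormedAddCommGroup F] [InnerProductSpace ℂ F]

theorem norm_Th_sq (M : FermionRep N F) (u : Fin 16 → Fin (N ^ 2 - 1) → ℝ) (v : F) :
    ‖Th M u v‖ ^ 2 = dp u u / 2 * ‖v‖ ^ 2 := by
  have h : ⟪Th M u v, Th M u v⟫_ℂ = ((dp u u / 2 : ℝ) : ℂ) * ⟪v, v⟫_ℂ := by
    rw [Th_symm, Th_sq, inner_smul_right]
  have n2 : ∀ w : F, ⟪w, w⟫_ℂ = ((‖w‖ ^ 2 : ℝ) : ℂ) := fun w => by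
    rw [inner_self_eq_norm_sq_to_K]; norm_cast
  rw [n2, n2, ← Complex.ofReal_mul] at h
  exact Complex.ofReal_injective h

theorem norm_Th_le (M : FermionRep N F) {u : Fin 16 → Fin (N ^ 2 - 1) → ℝ} {K : ℝ} (hK : 0 ≤ K)
    (hu : ∀ β A, |u β A| ≤ K) (v : F) :
    ‖Th M u v‖ ≤ (8 * (N ^ 2 - 1 : ℕ) + 1) * K * ‖v‖ := by
  set n : ℝ := ((N ^ 2 - 1 : ℕ) : ℝ) with hn
  have hn0 : 0 ≤ n := Nat.cast_nonneg _
  have h1 : dp u u ≤ 16 * n * K ^ 2 := by
    unfold dp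
    calc ∑ β, ∑ A, u β A * u β A ≤ ∑ _β : Fin 16, ∑ _A : Fin (N ^ 2 - 1), K ^ 2 := by
          refine Finset.sum_le_sum fun β _ => Finset.sum_le_sum fun A _ => ?_
          rw [← sq, ← sq_abs]
          exact pow_le_pow_left₀ (abs_nonneg _) (hu β A) 2
      _ = 16 * n * K ^ 2 := by
          simp only [Finset.sum_const, Finset.card_univ, Fintype.card_fin, nsmul_eq_mul]
          push_cast
          ring
  have h2 : ‖Th M u v‖ ^ 2 ≤ ((8 * n + 1) * K * ‖v‖) ^ 2 := by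
    rw [norm_Th_sq]
    have h3 : dp u u / 2 * ‖v‖ ^ 2 ≤ 8 * n * K ^ 2 * ‖v‖ ^ 2 :=
      mul_le_mul_of_nonneg_right (by linarith) (sq_nonneg _)
    refine h3.trans ?_
    have h4 : ((8 * n + 1) * K * ‖v‖) ^ 2 = (8 * n + 1) ^ 2 * (K ^ 2 * ‖v‖ ^ 2) := by ring
    rw [h4, mul_assoc]
    refine mul_le_mul_of_nonneg_right ?_ (by positivity)
    nlinarith
  exact le_of_sq_le_sq h2 (by positivity)
where
  le_of_sq_le_sq {a b : ℝ} (h : a ^ 2 ≤ b ^ 2) (hb : 0 ≤ b) : a ≤ b :=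
    (pow_le_pow_iff_left₀' h hb)
  pow_le_pow_iff_left₀' {a b : ℝ} (h : a ^ 2 ≤ b ^ 2) (hb : 0 ≤ b) : a ≤ b := abs_le_of_sq_le' h hb |>.2
  abs_le_of_sq_le' {a b : ℝ} (h : a ^ 2 ≤ b ^ 2) (hb : 0 ≤ b) : -b ≤ a ∧ a ≤ b := by
    exact abs_le.1 (by rw [← sq_abs a] at h; exact (pow_le_pow_iff_left₀ (abs_nonneg a) hb two_ne_zero).1 h)

variable [FiniteDimensional ℂ F]

theorem norm_dco_le (M : FermionRep N F) (G : GammaNine) (α : Fin 16)
    (k : Fin 9 × Fin (N ^ 2 - 1)) (v : F) : ‖dco M G α k v‖ ≤ ‖v‖ := by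
  rw [dco_eq]
  have h := norm_Th_sq M (ug G α k.1 k.2) v
  rw [dp_ug_ug, if_pos rfl, gamma_sq, Matrix.one_apply_eq] at h
  have h2 : ‖Th M (ug G α k.1 k.2) v‖ ^ 2 ≤ ‖v‖ ^ 2 := by
    rw [h]; nlinarith [sq_nonneg ‖v‖]
  exact (pow_le_pow_iff_left₀ (norm_nonneg _) (norm_nonneg _) two_ne_zero).1 h2

end norms

/-! ## the derivative of the potential coefficients -/

/-- the constant of one coefficient -/
def Cw1 (b : ColorBasis N) (G : GammaNine) (α β : Fin 16) (A : Fin (N ^ 2 - 1)) : ℝ :=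
  (∑ B : Fin (N ^ 2 - 1), ∑ C : Fin (N ^ 2 - 1), ∑ i : Fin 9, ∑ j : Fin 9,
      |1 / 2 * b.structConst A B C * G.γ2 i j α β|) +
    ∑ j : Fin 9, |cc j * (Gam G * G.γ j) α β|

theorem Cw1_nonneg (b : ColorBasis N) (G : GammaNine) (α β : Fin 16) (A : Fin (N ^ 2 - 1)) :
    0 ≤ Cw1 b G α β A := by
  unfold Cw1; positivity

/-- the constant -/
def Cw (b : ColorBasis N) (G : GammaNine) : ℝ :=
  ∑ p : Fin 16 × Fin 16 × Fin (N ^ 2 - 1), Cw1 b G p.1 p.2.1 p.2.2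

theorem Cw_nonneg (b : ColorBasis N) (G : GammaNine) : 0 ≤ Cw b G :=
  Finset.sum_nonneg fun _ _ => Cw1_nonneg b G _ _ _

theorem Cw1_le (b : ColorBasis N) (G : GammaNine) (α β : Fin 16) (A : Fin (N ^ 2 - 1)) :
    Cw1 b G α β A ≤ Cw b G := by
  have h := Finset.single_le_sum (s := Finset.univ) (a := ((α, β, A) : Fin 16 × Fin 16 ×
    Fin (N ^ 2 - 1))) (f := fun p : Fin 16 × Fin 16 × Fin (N ^ 2 - 1) =>
    Cw1 b G p.1 p.2.1 p.2.2) (fun p _ => Cw1_nonneg b G p.1 p.2.1 p.2.2) (Finset.mem_univ _)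
  exact h

theorem abs_coord_le (x : Cfg N) (k : Fin 9 × Fin (N ^ 2 - 1)) : |x k| ≤ ‖x‖ := by
  rw [← Real.norm_eq_abs]; exact PiLp.norm_apply_le x k

theorem wpot_lip (b : ColorBasis N) (G : GammaNine) {g m : ℝ} (hg : 0 ≤ g) (hm : 0 ≤ m)
    (α β : Fin 16) (A : Fin (N ^ 2 - 1)) (x y : Cfg N) :
    |wpot b G g m α β A y - wpot b G g m α β A x| ≤
      Cw b G * (g * (‖x‖ + ‖y‖) + m) * ‖y - x‖ := by
  set S : ℝ := ∑ B : Fin (N ^ 2 - 1), ∑ C : Fin (N ^ 2 - 1), ∑ i : Fin 9, ∑ j : Fin 9,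
      |1 / 2 * b.structConst A B C * G.γ2 i j α β| with hS
  set T : ℝ := ∑ j : Fin 9, |cc j * (Gam G * G.γ j) α β| with hT
  have hS0 : 0 ≤ S := by positivity
  have hT0 : 0 ≤ T := by positivity
  have hST : S + T ≤ Cw b G := Cw1_le b G α β A
  have h1 : |(∑ B : Fin (N ^ 2 - 1), ∑ C : Fin (N ^ 2 - 1), ∑ i : Fin 9, ∑ j : Fin 9,
      1 / 2 * b.structConst A B C * y (i, B) * y (j, C) * G.γ2 i j α β) -
      (∑ B : Fin (N ^ 2 - 1), ∑ C : Fin (N ^ 2 - 1), ∑ i : Fin 9, ∑ j : Fin 9,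
      1 / 2 * b.structConst A B C * x (i, B) * x (j, C) * G.γ2 i j α β)| ≤
      S * ((‖x‖ + ‖y‖) * ‖y - x‖) := by
    simp only [← Finset.sum_sub_distrib]
    rw [hS, Finset.sum_mul]
    refine (Finset.abs_sum_le_sum_abs _ _).trans (Finset.sum_le_sum fun B _ => ?_)
    rw [Finset.sum_mul]
    refine (Finset.abs_sum_le_sum_abs _ _).trans (Finset.sum_le_sum fun C _ => ?_)
    rw [Finset.sum_mul]
    refine (Finset.abs_sum_le_sum_abs _ _).trans (Finset.sum_le_sum fun i _ => ?_)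
    rw [Finset.sum_mul]
    refine (Finset.abs_sum_le_sum_abs _ _).trans (Finset.sum_le_sum fun j _ => ?_)
    have e : 1 / 2 * b.structConst A B C * y (i, B) * y (j, C) * G.γ2 i j α β -
        1 / 2 * b.structConst A B C * x (i, B) * x (j, C) * G.γ2 i j α β =
        (1 / 2 * b.structConst A B C * G.γ2 i j α β) *
          (y (i, B) * (y - x) (j, C) + (y - x) (i, B) * x (j, C)) := by
      simp only [PiLp.sub_apply]; ring
    rw [e, abs_mul]
    refine mul_le_mul_of_nonneg_left ?_ (abs_nonneg _)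
    refine (abs_add_le _ _).trans ?_
    rw [abs_mul, abs_mul]
    have a1 := abs_coord_le y (i, B)
    have a2 := abs_coord_le (y - x) (j, C)
    have a3 := abs_coord_le (y - x) (i, B)
    have a4 := abs_coord_le x (j, C)
    have b1 := mul_le_mul a1 a2 (abs_nonneg _) (norm_nonneg y)
    have b2 := mul_le_mul a3 a4 (abs_nonneg _) (norm_nonneg (y - x))
    linarith
  have h2 : |(∑ j : Fin 9, cc j * y (j, A) * (Gam G * G.γ j) α β) -
      ∑ j : Fin 9, cc j * x (j, A) * (Gam G * G.γ j) α β| ≤ T * ‖y - x‖ := by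
    rw [← Finset.sum_sub_distrib, hT, Finset.sum_mul]
    refine (Finset.abs_sum_le_sum_abs _ _).trans (Finset.sum_le_sum fun j _ => ?_)
    have e : cc j * y (j, A) * (Gam G * G.γ j) α β - cc j * x (j, A) * (Gam G * G.γ j) α β =
        (cc j * (Gam G * G.γ j) α β) * (y - x) (j, A) := by
      simp only [PiLp.sub_apply]; ring
    rw [e, abs_mul]
    exact mul_le_mul_of_nonneg_left (abs_coord_le _ _) (abs_nonneg _)
  have h3 : wpot b G g m α β A y - wpot b G g m α β A x =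
      g * ((∑ B : Fin (N ^ 2 - 1), ∑ C : Fin (N ^ 2 - 1), ∑ i : Fin 9, ∑ j : Fin 9,
      1 / 2 * b.structConst A B C * y (i, B) * y (j, C) * G.γ2 i j α β) -
      (∑ B : Fin (N ^ 2 - 1), ∑ C : Fin (N ^ 2 - 1), ∑ i : Fin 9, ∑ j : Fin 9,
      1 / 2 * b.structConst A B C * x (i, B) * x (j, C) * G.γ2 i j α β)) -
      m * ((∑ j : Fin 9, cc j * y (j, A) * (Gam G * G.γ j) α β) -
      ∑ j : Fin 9, cc j * x (j, A) * (Gam G * G.γ j) α β) := by
    unfold wpot; ring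
  rw [h3]
  refine (abs_sub _ _).trans ?_
  rw [abs_mul, abs_mul, abs_of_nonneg hg, abs_of_nonneg hm]
  have k1 := mul_le_mul_of_nonneg_left h1 hg
  have k2 := mul_le_mul_of_nonneg_left h2 hm
  have hxy : 0 ≤ ‖x‖ + ‖y‖ := by positivity
  have k3 : g * (S * ((‖x‖ + ‖y‖) * ‖y - x‖)) ≤ g * (Cw b G * ((‖x‖ + ‖y‖) * ‖y - x‖)) := by
    refine mul_le_mul_of_nonneg_left (mul_le_mul_of_nonneg_right (by linarith) (by positivity)) hg
  have k4 : m * (T * ‖y - x‖) ≤ m * (Cw b G * ‖y - x‖) := by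
    refine mul_le_mul_of_nonneg_left (mul_le_mul_of_nonneg_right (by linarith) (by positivity)) hm
  calc _ ≤ g * (S * ((‖x‖ + ‖y‖) * ‖y - x‖)) + m * (T * ‖y - x‖) := add_le_add k1 k2
    _ ≤ g * (Cw b G * ((‖x‖ + ‖y‖) * ‖y - x‖)) + m * (Cw b G * ‖y - x‖) := add_le_add k3 k4
    _ = _ := by ring

theorem norm_fderiv_wpot_le (b : ColorBasis N) (G : GammaNine) {g m : ℝ} (hg : 0 ≤ g)
    (hm : 0 ≤ m) (α β : Fin 16) (A : Fin (N ^ 2 - 1)) (x : Cfg N) :
    ‖fderiv ℝ (wpot b G g m α β A) x‖ ≤ Cw b G * (2 * g * ‖x‖ + m) := by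
  have hC := Cw_nonneg b G
  refine le_of_forall_pos_le_add fun ε hε => ?_
  -- a radius
  obtain ⟨δ, hδ, hδε⟩ : ∃ δ > 0, Cw b G * (g * δ) ≤ ε := by
    refine ⟨ε / (Cw b G * g + 1), by positivity, ?_⟩
    rw [← mul_assoc, mul_div_assoc', div_le_iff₀ (by positivity)]
    nlinarith [mul_nonneg hC hg]
  refine norm_fderiv_le_of_lip' ℝ (by positivity) ?_
  filter_upwards [Metric.ball_mem_nhds x hδ] with y hy
  rw [Real.norm_eq_abs]
  refine (wpot_lip b G hg hm α β A x y).trans ?_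
  refine mul_le_mul_of_nonneg_right ?_ (norm_nonneg _)
  have h1 : ‖y‖ ≤ ‖x‖ + δ := by
    have h2 : ‖y - x‖ < δ := by rwa [mem_ball, dist_eq_norm] at hy
    have h3 := norm_le_norm_add_norm_sub' y x
    linarith
  have h4 : Cw b G * (g * (‖x‖ + ‖y‖) + m) ≤ Cw b G * (g * (‖x‖ + (‖x‖ + δ)) + m) := by
    gcongr
  refine h4.trans ?_
  linarith [h4, hδε]

theorem abs_dW_wpot_le (b : ColorBasis N) (G : GammaNine) {g m : ℝ} (hg : 0 ≤ g)
    (hm : 0 ≤ m) (α β : Fin 16) (A : Fin (N ^ 2 - 1)) (k : Fin 9 × Fin (N ^ 2 - 1)) (x : Cfg N) :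
    |dW (wpot b G g m) α k x β A| ≤ Cw b G * (2 * g * ‖x‖ + m) := by
  unfold dW
  rw [← Real.norm_eq_abs]
  refine (ContinuousLinearMap.le_opNorm _ _).trans ?_
  rw [PiLp.norm_single, norm_one, mul_one]
  exact norm_fderiv_wpot_le b G hg hm α β A x

section

variable {F : Type*} [NormedAddCommGroup F] [InnerProductSpace ℂ F] [FiniteDimensional ℂ F]

/-- the constant of the Yukawa bound -/
def CZ (b : ColorBasis N) (G : GammaNine) : ℝ :=
  16 * (9 * ((N ^ 2 - 1 : ℕ) : ℝ)) * (8 * ((N ^ 2 - 1 : ℕ) : ℝ) + 1) * Cw b G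

theorem CZ_nonneg (b : ColorBasis N) (G : GammaNine) : 0 ≤ CZ b G := by
  have := Cw_nonneg b G
  unfold CZ; positivity

/-- **The Yukawa bound.** -/
theorem norm_Zop_le (b : ColorBasis N) (M : FermionRep N F) (G : GammaNine) {g m : ℝ}
    (hg : 0 ≤ g) (hm : 0 ≤ m) (x : Cfg N) (v : F) :
    ‖Zop M G (wpot b G g m) x v‖ ≤ CZ b G * (2 * g * ‖x‖ + m) * ‖v‖ := by
  rw [Zop_apply]
  have hC := Cw_nonneg b G
  have h0 : 0 ≤ Cw b G * (2 * g * ‖x‖ + m) := by positivity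
  calc ‖∑ α, ∑ k : Fin 9 × Fin (N ^ 2 - 1),
        (-Complex.I) • dco M G α k (Th M (dW (wpot b G g m) α k x) v)‖
      ≤ ∑ _α : Fin 16, ∑ _k : Fin 9 × Fin (N ^ 2 - 1),
          (8 * ((N ^ 2 - 1 : ℕ) : ℝ) + 1) * (Cw b G * (2 * g * ‖x‖ + m)) * ‖v‖ := by
        refine (norm_sum_le _ _).trans (Finset.sum_le_sum fun α _ => ?_)
        refine (norm_sum_le _ _).trans (Finset.sum_le_sum fun k _ => ?_)
        rw [norm_smul, norm_neg, Complex.norm_I, one_mul]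
        exact (norm_dco_le M G α k _).trans
          (norm_Th_le M h0 (fun β A => abs_dW_wpot_le b G hg hm α β A k x) v)
    _ = CZ b G * (2 * g * ‖x‖ + m) * ‖v‖ := by
        simp only [Finset.sum_const, Finset.card_univ, Fintype.card_fin, Fintype.card_prod,
          nsmul_eq_mul]
        unfold CZ
        push_cast
        ring

/-! ## the literal energy identity -/

theorem Wsq_wpot (b : ColorBasis N) (G : GammaNine) (g m : ℝ) (x : Cfg N) :
    Wsq (wpot b G g m) x = 32 * VId87.Vsq G b g m x := by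
  unfold Wsq dp VId87.Vsq
  rw [← mul_assoc, show (32 : ℝ) * (1 / 32) = 1 by norm_num, one_mul]
  exact Finset.sum_congr rfl fun α _ => Finset.sum_congr rfl fun β _ =>
    Finset.sum_congr rfl fun A _ => by ring

/-- **(1.1)**, literally. -/
theorem qf_eq (b : ColorBasis N) (M : FermionRep N F) (G : GammaNine) (g m : ℝ)
    {φ : Cfg N → F} (hφ : ContDiff ℝ 2 φ) (hc : HasCompactSupport φ) :
    qf b M G g m φ =
      1 / 2 * (∑ k : Fin 9 × Fin (N ^ 2 - 1),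
        ∫ x, ‖fderiv ℝ φ x (EuclideanSpace.single k 1)‖ ^ 2) +
      (∫ x, VId87.Vsq G b g m x * ‖φ x‖ ^ 2) +
      1 / 16 * ∫ x, (⟪φ x, Zop M G (wpot b G g m) x (φ x)⟫_ℂ).re := by
  have h := weitz (M := M) (G := G) (W := wpot b G g m) (φ := φ)
    (fun α β A => Brid837.wpot_contDiff β A) (trZ_wpot b G g m) hφ hc
  unfold qf
  simp only [Brid837.dcharge_eq]
  rw [h]
  have h1 : (∫ x, Wsq (wpot b G g m) x / 2 * ‖φ x‖ ^ 2) =
      16 * ∫ x, VId87.Vsq G b g m x * ‖φ x‖ ^ 2 := by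
    rw [← integral_const_mul]
    refine integral_congr_ae (Eventually.of_forall fun x => ?_)
    simp only [Wsq_wpot]
    ring
  rw [h1]
  ring

/-! ## (EN) -/

theorem Vsq_nonneg (b : ColorBasis N) (G : GammaNine) (g m : ℝ) (x : Cfg N) :
    0 ≤ VId87.Vsq G b g m x := by
  unfold VId87.Vsq
  refine mul_nonneg (by norm_num) (Finset.sum_nonneg fun _ _ => Finset.sum_nonneg fun _ _ =>
    Finset.sum_nonneg fun _ _ => sq_nonneg _)

theorem VR_le_Vsq (b : ColorBasis N) (G : GammaNine) (g : ℝ) (x : Cfg N) :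
    VLow737.VR b g x ≤ VId87.Vsq G b g 1 x := by
  rw [VId87.Vsq_eq]
  unfold VLow737.VR
  have h := mul_nonneg (sq_nonneg g) (VId87.Voth_nonneg b x)
  linarith

/-- the Yukawa term is dominated by half of the potential, uniformly for `0 < g ≤ 1` -/
theorem yukawa_dom (hN : 0 < N) (b : ColorBasis N) (M : FermionRep N F) (G : GammaNine) :
    ∃ C : ℝ, 0 ≤ C ∧ ∀ g : ℝ, 0 < g → g ≤ 1 → ∀ (x : Cfg N) (v : F),
      |1 / 16 * (⟪v, Zop M G (wpot b G g 1) x v⟫_ℂ).re| ≤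
        (1 / 2 * VId87.Vsq G b g 1 x + C) * ‖v‖ ^ 2 := by
  set K : ℝ := CZ b G / 16 with hK
  have hK0 : 0 ≤ K := div_nonneg (CZ_nonneg b G) (by norm_num)
  set c : ℝ := 1 / (432 * (N : ℝ) ^ 3) with hc
  set C1 : ℝ := 1152 * (N : ℝ) ^ 10 with hC1
  have hN' : (0 : ℝ) < N := by exact_mod_cast hN
  have hc0 : 0 < c := by positivity
  have hC10 : 0 ≤ C1 := by positivity
  refine ⟨1 / 2 * C1 + 2 * K ^ 2 / c + K, by positivity, fun g hg hg1 x v => ?_⟩
  have hco := VId87.Vsq_coer G hN b hg x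
  have hV := Vsq_nonneg b G g 1 x
  have hg2 : g ^ 2 ≤ 1 := pow_le_one₀ hg.le hg1
  have h1 : c * (g * ‖x‖) ^ 2 ≤ VId87.Vsq G b g 1 x + C1 := by
    have h2 : g ^ 2 * (‖x‖ ^ 2 / (432 * (N : ℝ) ^ 3) - C1 / g ^ 2) ≤
        g ^ 2 * VId87.Vsq G b g 1 x := mul_le_mul_of_nonneg_left hco (sq_nonneg g)
    have h3 : g ^ 2 * (‖x‖ ^ 2 / (432 * (N : ℝ) ^ 3) - C1 / g ^ 2) =
        c * (g * ‖x‖) ^ 2 - C1 := by
      rw [hc]; field_simp
    have h4 : g ^ 2 * VId87.Vsq G b g 1 x ≤ 1 * VId87.Vsq G b g 1 x :=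
      mul_le_mul_of_nonneg_right hg2 hV
    linarith
  have h5 : K * (2 * g * ‖x‖ + 1) ≤
      1 / 2 * VId87.Vsq G b g 1 x + (1 / 2 * C1 + 2 * K ^ 2 / c + K) := by
    have h6 : 2 * K * (g * ‖x‖) ≤ c / 2 * (g * ‖x‖) ^ 2 + 2 * K ^ 2 / c := by
      have h7 : 0 ≤ (c * (g * ‖x‖) - 2 * K) ^ 2 / (2 * c) := by positivity
      have h8 : (c * (g * ‖x‖) - 2 * K) ^ 2 / (2 * c) =
          c / 2 * (g * ‖x‖) ^ 2 + 2 * K ^ 2 / c - 2 * K * (g * ‖x‖) := by
        field_simp; ring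
      linarith
    linarith
  rw [abs_mul, abs_of_pos (by norm_num : (0 : ℝ) < 1 / 16)]
  have h9 : |(⟪v, Zop M G (wpot b G g 1) x v⟫_ℂ).re| ≤ ‖v‖ * (CZ b G * (2 * g * ‖x‖ + 1) * ‖v‖) :=
    (Complex.abs_re_le_norm _).trans ((norm_inner_le_norm _ _).trans
      (mul_le_mul_of_nonneg_left (norm_Zop_le b M G hg.le zero_le_one x v) (norm_nonneg _)))
  calc 1 / 16 * |(⟪v, Zop M G (wpot b G g 1) x v⟫_ℂ).re|
      ≤ 1 / 16 * (‖v‖ * (CZ b G * (2 * g * ‖x‖ + 1) * ‖v‖)) := by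
        exact mul_le_mul_of_nonneg_left h9 (by norm_num)
    _ = K * (2 * g * ‖x‖ + 1) * ‖v‖ ^ 2 := by rw [hK]; ring
    _ ≤ _ := mul_le_mul_of_nonneg_right h5 (sq_nonneg _)

theorem continuous_Vsq (b : ColorBasis N) (G : GammaNine) (g m : ℝ) :
    Continuous (VId87.Vsq G b g m) := by
  unfold VId87.Vsq
  refine continuous_const.mul (continuous_finsetSum _ fun α _ => continuous_finsetSum _ fun β _ =>
    continuous_finsetSum _ fun A _ => ?_)
  exact (Brid837.wpot_continuous β A).pow 2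

theorem continuous_VR (b : ColorBasis N) (g : ℝ) : Continuous (VLow737.VR b g) := by
  unfold VLow737.VR CoerCfg87.Vcyc CoerCfg87.Vhi CoerCfg87.br CoerCfg87.comp
  fun_prop

theorem integrable_mul_sq {V : Cfg N → ℝ} (hV : Continuous V) {φ : Cfg N → F}
    (hφ : Continuous φ) (hc : HasCompactSupport φ) : Integrable fun x => V x * ‖φ x‖ ^ 2 := by
  refine (hV.mul (hφ.norm.pow 2)).integrable_of_hasCompactSupport ?_
  refine hc.mono fun x hx => ?_
  rw [Function.mem_support] at hx ⊢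
  intro h
  apply hx
  simp [h]

theorem integrable_fderiv_sq {φ : Cfg N → F} (hφ : ContDiff ℝ 1 φ) (hc : HasCompactSupport φ) :
    Integrable fun x => ‖fderiv ℝ φ x‖ ^ 2 := by
  have h1 : Continuous (fderiv ℝ φ) := hφ.continuous_fderiv one_ne_zero
  refine (h1.norm.pow 2).integrable_of_hasCompactSupport ?_
  refine (hc.fderiv (𝕜 := ℝ)).mono fun x hx => ?_
  rw [Function.mem_support] at hx ⊢
  intro h
  apply hx
  simp [h]

theorem integrable_pd_sq {φ : Cfg N → F} (hφ : ContDiff ℝ 1 φ) (hc : HasCompactSupport φ)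
    (k : Fin 9 × Fin (N ^ 2 - 1)) :
    Integrable fun x => ‖fderiv ℝ φ x (EuclideanSpace.single k 1)‖ ^ 2 := by
  have h1 : Continuous fun x => fderiv ℝ φ x (EuclideanSpace.single k 1) :=
    (hφ.continuous_fderiv one_ne_zero).clm_apply continuous_const
  refine (h1.norm.pow 2).integrable_of_hasCompactSupport ?_
  refine (hc.fderiv (𝕜 := ℝ)).mono fun x hx => ?_
  rw [Function.mem_support] at hx ⊢
  intro h
  apply hx
  simp [h]

/-- **(EN)** for `C²` functions of compact support. -/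
theorem en_full (hN : 0 < N) (b : ColorBasis N) (M : FermionRep N F) (G : GammaNine) :
    ∃ C : ℝ, 0 ≤ C ∧ ∀ g : ℝ, 0 < g → g ≤ 1 → ∀ φ : Cfg N → F, ContDiff ℝ 2 φ →
      HasCompactSupport φ →
      1 / 2 * (∫ x, ‖fderiv ℝ φ x‖ ^ 2) + 1 / 2 * (∫ x, VId87.Vsq G b g 1 x * ‖φ x‖ ^ 2) ≤
        qf b M G g 1 φ + C * ∫ x, ‖φ x‖ ^ 2 := by
  obtain ⟨C, hC, hdom⟩ := yukawa_dom hN b M G
  refine ⟨C, hC, fun g hg hg1 φ hφ hc => ?_⟩
  have hφ1 : ContDiff ℝ 1 φ := hφ.of_le (by norm_num)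
  rw [qf_eq b M G g 1 hφ hc]
  have hV := integrable_mul_sq (continuous_Vsq b G g 1) hφ.continuous hc
  have hn : Integrable fun x => ‖φ x‖ ^ 2 := by
    have := integrable_mul_sq (continuous_const (y := (1 : ℝ))) hφ.continuous hc
    simpa using this
  -- gradient
  have h1 : ∫ x, ‖fderiv ℝ φ x‖ ^ 2 ≤ ∑ k : Fin 9 × Fin (N ^ 2 - 1),
      ∫ x, ‖fderiv ℝ φ x (EuclideanSpace.single k 1)‖ ^ 2 := by
    rw [← integral_finsetSum _ fun k _ => integrable_pd_sq hφ1 hc k]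
    refine integral_mono (integrable_fderiv_sq hφ1 hc)
      (integrable_finsetSum _ fun k _ => integrable_pd_sq hφ1 hc k) fun x => ?_
    exact Bar963.opNorm_sq_le (fderiv ℝ φ x)
  -- Yukawa
  have hZ : Integrable fun x => 1 / 16 * (⟪φ x, Zop M G (wpot b G g 1) x (φ x)⟫_ℂ).re := by
    refine Integrable.const_mul ?_ _
    have h2 : Integrable fun x => ⟪φ x, Zop M G (wpot b G g 1) x (φ x)⟫_ℂ := by
      simp only [Zop_apply]
      refine integrable_inner_of_cont hφ1.continuous ?_ (Or.inl hc)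
      exact continuous_finsetSum _ fun α _ => continuous_finsetSum _ fun k _ =>
        Continuous.const_smul ((cont_lin _).comp
          (continuous_Th (continuous_dW (fun β A => Brid837.wpot_contDiff β A) k)
            hφ1.continuous)) _
    exact h2.re
  have h3 : -(1 / 2 * (∫ x, VId87.Vsq G b g 1 x * ‖φ x‖ ^ 2) + C * ∫ x, ‖φ x‖ ^ 2) ≤
      1 / 16 * ∫ x, (⟪φ x, Zop M G (wpot b G g 1) x (φ x)⟫_ℂ).re := by
    rw [← integral_const_mul, ← integral_const_mul, ← integral_const_mul,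
      ← integral_add (hV.const_mul _) (hn.const_mul _), ← integral_neg]
    refine integral_mono ((hV.const_mul _).add (hn.const_mul _)).neg hZ fun x => ?_
    have h4 := (abs_le.1 (hdom g hg hg1 x (φ x))).1
    simp only
    linarith
  linarith

/-- **(EN)**, as frozen by helper8. -/
theorem en_prop (hN : 0 < N) : UpHyp8.EnProp N := by
  intro F _ _ _ _ b M R G
  obtain ⟨C, hC, h⟩ := en_full hN b M G
  refine ⟨C, fun g hg hg1 φ hφ => ?_⟩
  have h1 := h g hg hg1 φ (contDiff_infty.1 hφ.1 2) hφ.2.1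
  have h2 : ∫ x, VLow737.VR b g x * ‖φ x‖ ^ 2 ≤ ∫ x, VId87.Vsq G b g 1 x * ‖φ x‖ ^ 2 := by
    refine integral_mono (integrable_mul_sq (continuous_VR b g) hφ.1.continuous hφ.2.1)
      (integrable_mul_sq (continuous_Vsq b G g 1) hφ.1.continuous hφ.2.1) fun x => ?_
    exact mul_le_mul_of_nonneg_right (VR_le_Vsq b G g x) (sq_nonneg _)
  have h3 : 0 ≤ ∫ x, ‖fderiv ℝ φ x‖ ^ 2 := integral_nonneg fun x => sq_nonneg _
  linarith

/-- **(VZ)**, as frozen by helper8. -/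
theorem vz_prop (hN : 0 < N) : UpHyp8.VzProp N := by
  intro b c hc
  obtain ⟨a, ha, h⟩ := VLow737.near_list b hN hc
  refine ⟨a, ha, fun g hg r hr x hx => ?_⟩
  obtain ⟨l, hl⟩ := h g hg x
  refine le_trans (mul_le_mul_of_nonneg_left (pow_le_pow_left₀ hr ?_ 2) ha.le) hl
  refine (le_infDist (VLow737.orb_nonempty b _)).2 ?_
  rintro _ ⟨k, rfl⟩
  rw [dist_eq_norm]
  exact hx l k

end

end Crest.Agent.R330.En682

end
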