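import Crest.Agent.R330.WeitzF_726
import Crest.Agent.R330.Brid_837
import Crest.Agent.R330.VId_87

/-!
# Row 330, (1.1) for the charges `Q^{g,m}` and (4.2) (helper87)

* `trZ_wpot` : the trace condition for `wpot`.
* `qf_eq` : `q_{g,m}(φ) = ½ Σ ∫ |∂_k φ|² + ∫ V_{g,m} |φ|² + (1/16) ∫ Re ⟪φ, Z φ⟫`.
* `norm_Zop_le` : `‖Z(x) v‖ ≤ KZ (|g| ‖x‖ + |m|) ‖v‖`, `KZ` depends on `b`, `G` only.
* `abs_qf_sub_le`, `qf_ge_local` : the resulting two sided / local bounds.
* `energy` : `½ Σ ∫ |∂_k φ|² + ½ ∫ V_{g,1} |φ|² ≤ q_{g,1}(φ) + CE (1 + g²) ∫ |φ|²`, all `g > 0`.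
* `Vsq_scale`, `Vsq_coer_m` : coercivity with mass `m`.
* `quartic_le` : `∑_α ∫ ‖Q^{1,0} φ - Q^{0,0} φ‖² ≤ C_g (q_{g,1}(φ) + ∫ |φ|²)`.
-/

set_option autoImplicit false
set_option linter.unusedSectionVars false

open MeasureTheory Filter Topology
open scoped ContDiff InnerProductSpace ENNReal
open Crest.MathPhysics.MatrixQM

noncomputable section

namespace Crest.Agent.R330.En87

open Crest.Agent.R330.IBP837 Crest.Agent.R330.Defs478 Crest.Agent.R330.VId87
  Crest.Agent.R330.CoerCfg87 Crest.Agent.R330.Weitz726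

variable {N : ℕ} {F : Type*} [NormedAddCommGroup F] [InnerProductSpace ℂ F]
  [FiniteDimensional ℂ F]

/-! ### Norms of Clifford elements -/

theorem inner_self_re (v : F) : ⟪v, v⟫_ℂ = ((‖v‖ ^ 2 : ℝ) : ℂ) := by
  rw [inner_self_eq_norm_sq_to_K]
  norm_cast

theorem norm_Th_sq (M : FermionRep N F) (u : Fin 16 → Fin (N ^ 2 - 1) → ℝ) (v : F) :
    ‖Th M u v‖ ^ 2 = dp u u / 2 * ‖v‖ ^ 2 := by
  have h : ⟪Th M u v, Th M u v⟫_ℂ = ((dp u u / 2 : ℝ) : ℂ) * ⟪v, v⟫_ℂ := by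
    rw [Th_symm, Th_sq, inner_smul_right]
  rw [inner_self_re, inner_self_re, ← Complex.ofReal_mul] at h
  exact Complex.ofReal_injective h

theorem norm_dco_le (M : FermionRep N F) (G : GammaNine) (α : Fin 16)
    (k : Fin 9 × Fin (N ^ 2 - 1)) (v : F) : ‖dco M G α k v‖ ≤ ‖v‖ := by
  rw [dco_eq]
  have h := norm_Th_sq M (ug G α k.1 k.2) v
  rw [dp_ug_ug, if_pos rfl, gamma_sq, Matrix.one_apply_eq] at h
  refine le_of_sq_le_sq ?_ (norm_nonneg v)
  rw [h]
  nlinarith [sq_nonneg ‖v‖]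
where
  le_of_sq_le_sq {a c : ℝ} (h : a ^ 2 ≤ c ^ 2) (hc : 0 ≤ c) : a ≤ c :=
    abs_le_of_sq_le_sq' h hc |>.2

theorem norm_theta_le (M : FermionRep N F) (β : Fin 16) (A : Fin (N ^ 2 - 1)) (v : F) :
    ‖M.θ β A v‖ ≤ ‖v‖ := by
  have h1 := anti_apply M (β, A) (β, A) v
  rw [if_pos rfl] at h1
  have h3 : ⟪M.θ β A v, M.θ β A v⟫_ℂ = ⟪v, M.θ β A (M.θ β A v)⟫_ℂ := M.selfAdjoint β A v _
  have h4 : ⟪v, M.θ β A (M.θ β A v)⟫_ℂ + ⟪v, M.θ β A (M.θ β A v)⟫_ℂ = ⟪v, v⟫_ℂ := by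
    rw [← inner_add_right]
    exact congrArg _ h1
  rw [← h3, inner_self_re, inner_self_re, ← Complex.ofReal_add] at h4
  have h5 : ‖M.θ β A v‖ ^ 2 + ‖M.θ β A v‖ ^ 2 = ‖v‖ ^ 2 := Complex.ofReal_injective h4
  refine abs_le_of_sq_le_sq' ?_ (norm_nonneg v) |>.2
  nlinarith [sq_nonneg ‖M.θ β A v‖]

theorem norm_Th_le (M : FermionRep N F) (u : Fin 16 → Fin (N ^ 2 - 1) → ℝ) {c : ℝ}
    (hu : ∀ β A, |u β A| ≤ c) (v : F) :
    ‖Th M u v‖ ≤ 16 * ((N ^ 2 - 1 : ℕ) : ℝ) * c * ‖v‖ := by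
  rw [Th_apply]
  refine (norm_sum_le _ _).trans ?_
  have h1 : ∀ β ∈ (Finset.univ : Finset (Fin 16)),
      ‖∑ A, ((u β A : ℝ) : ℂ) • M.θ β A v‖ ≤ ((N ^ 2 - 1 : ℕ) : ℝ) * c * ‖v‖ := by
    intro β _
    refine (norm_sum_le _ _).trans ?_
    have h2 : ∀ A ∈ (Finset.univ : Finset (Fin (N ^ 2 - 1))),
        ‖((u β A : ℝ) : ℂ) • M.θ β A v‖ ≤ c * ‖v‖ := by
      intro A _
      rw [norm_smul, Complex.norm_real, Real.norm_eq_abs]
      exact mul_le_mul (hu β A) (norm_theta_le M β A v) (norm_nonneg _)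
        ((abs_nonneg _).trans (hu β A))
    refine (Finset.sum_le_sum h2).trans ?_
    rw [Finset.sum_const, Finset.card_univ, Fintype.card_fin, nsmul_eq_mul]
    linarith
  refine (Finset.sum_le_sum h1).trans ?_
  rw [Finset.sum_const, Finset.card_univ, Fintype.card_fin, nsmul_eq_mul]
  push_cast
  linarith

/-! ### The derivative of the coefficients -/

theorem abs_apply_le (x : Cfg N) (k : Fin 9 × Fin (N ^ 2 - 1)) : |x k| ≤ ‖x‖ := by
  have := PiLp.norm_apply_le x k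
  rwa [Real.norm_eq_abs] at this

theorem abs_single_le (k p : Fin 9 × Fin (N ^ 2 - 1)) :
    |(EuclideanSpace.single k (1 : ℝ) : Cfg N) p| ≤ 1 := by
  have h := abs_apply_le (EuclideanSpace.single k (1 : ℝ) : Cfg N) p
  rwa [PiLp.norm_single, norm_one] at h

/-- The derivative of `c y_p y_q`. -/
def D2 (c : ℝ) (p q : Fin 9 × Fin (N ^ 2 - 1)) (x : Cfg N) : Cfg N →L[ℝ] ℝ :=
  c • (x p • (EuclideanSpace.proj q : Cfg N →L[ℝ] ℝ) +
    x q • (EuclideanSpace.proj p : Cfg N →L[ℝ] ℝ))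

theorem hasFDerivAt_mul2 (c : ℝ) (p q : Fin 9 × Fin (N ^ 2 - 1)) (x : Cfg N) :
    HasFDerivAt (fun y : Cfg N => c * (y p * y q)) (D2 c p q x) x := by
  have h1 : HasFDerivAt (fun y : Cfg N => y p) (EuclideanSpace.proj p : Cfg N →L[ℝ] ℝ) x :=
    (EuclideanSpace.proj p : Cfg N →L[ℝ] ℝ).hasFDerivAt
  have h2 : HasFDerivAt (fun y : Cfg N => y q) (EuclideanSpace.proj q : Cfg N →L[ℝ] ℝ) x :=
    (EuclideanSpace.proj q : Cfg N →L[ℝ] ℝ).hasFDerivAt
  exact (h1.mul h2).const_mul c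

theorem abs_D2_le (c : ℝ) (p q : Fin 9 × Fin (N ^ 2 - 1)) (x : Cfg N)
    (k : Fin 9 × Fin (N ^ 2 - 1)) :
    |D2 c p q x (EuclideanSpace.single k 1)| ≤ 2 * |c| * ‖x‖ := by
  have h : D2 c p q x (EuclideanSpace.single k 1) =
      c * (x p * (EuclideanSpace.single k (1 : ℝ) : Cfg N) q +
        x q * (EuclideanSpace.single k (1 : ℝ) : Cfg N) p) := rfl
  rw [h, abs_mul]
  have h1 : |x p * (EuclideanSpace.single k (1 : ℝ) : Cfg N) q| ≤ ‖x‖ := by
    rw [abs_mul]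
    calc |x p| * |(EuclideanSpace.single k (1 : ℝ) : Cfg N) q| ≤ ‖x‖ * 1 :=
          mul_le_mul (abs_apply_le x p) (abs_single_le k q) (abs_nonneg _) (norm_nonneg _)
      _ = ‖x‖ := mul_one _
  have h2 : |x q * (EuclideanSpace.single k (1 : ℝ) : Cfg N) p| ≤ ‖x‖ := by
    rw [abs_mul]
    calc |x q| * |(EuclideanSpace.single k (1 : ℝ) : Cfg N) p| ≤ ‖x‖ * 1 :=
          mul_le_mul (abs_apply_le x q) (abs_single_le k p) (abs_nonneg _) (norm_nonneg _)
      _ = ‖x‖ := mul_one _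
  have h3 := (abs_add_le (x p * (EuclideanSpace.single k (1 : ℝ) : Cfg N) q)
    (x q * (EuclideanSpace.single k (1 : ℝ) : Cfg N) p)).trans (add_le_add h1 h2)
  calc |c| * |x p * (EuclideanSpace.single k (1 : ℝ) : Cfg N) q +
        x q * (EuclideanSpace.single k (1 : ℝ) : Cfg N) p| ≤ |c| * (‖x‖ + ‖x‖) :=
        mul_le_mul_of_nonneg_left h3 (abs_nonneg _)
    _ = _ := by ring

/-- The derivative of `wpot`. -/
theorem hasFDerivAt_wpot (b : ColorBasis N) (G : GammaNine) (g m : ℝ) (α β : Fin 16)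
    (A : Fin (N ^ 2 - 1)) (x : Cfg N) :
    HasFDerivAt (wpot b G g m α β A)
      (g • (∑ B : Fin (N ^ 2 - 1), ∑ C : Fin (N ^ 2 - 1), ∑ i : Fin 9, ∑ j : Fin 9,
          D2 (1 / 2 * b.structConst A B C * G.γ2 i j α β) (i, B) (j, C) x) -
        m • ∑ j : Fin 9, (cc j * (Gam G * G.γ j) α β) •
          (EuclideanSpace.proj (j, A) : Cfg N →L[ℝ] ℝ)) x := by
  have h1 : wpot b G g m α β A = fun y : Cfg N =>
      g * (∑ B : Fin (N ^ 2 - 1), ∑ C : Fin (N ^ 2 - 1), ∑ i : Fin 9, ∑ j : Fin 9,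
        (1 / 2 * b.structConst A B C * G.γ2 i j α β) * (y (i, B) * y (j, C))) -
      m * ∑ j : Fin 9, (cc j * (Gam G * G.γ j) α β) * y (j, A) := by
    funext y
    unfold wpot
    congr 2
    · refine Finset.sum_congr rfl fun B _ => Finset.sum_congr rfl fun C _ =>
        Finset.sum_congr rfl fun i _ => Finset.sum_congr rfl fun j _ => ?_
      ring
    · refine Finset.sum_congr rfl fun j _ => ?_
      ring
  rw [h1]
  refine HasFDerivAt.fun_sub (HasFDerivAt.const_mul ?_ g) (HasFDerivAt.const_mul ?_ m)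
  · exact HasFDerivAt.fun_sum fun B _ => HasFDerivAt.fun_sum fun C _ =>
      HasFDerivAt.fun_sum fun i _ => HasFDerivAt.fun_sum fun j _ => hasFDerivAt_mul2 _ _ _ x
  · refine HasFDerivAt.fun_sum fun j _ => HasFDerivAt.const_mul ?_ _
    exact (EuclideanSpace.proj (j, A) : Cfg N →L[ℝ] ℝ).hasFDerivAt

/-- The constant of the derivative bound. -/
def Kw (b : ColorBasis N) (G : GammaNine) : ℝ :=
  ∑ α : Fin 16, ∑ β : Fin 16, ∑ A : Fin (N ^ 2 - 1),
    ((∑ B : Fin (N ^ 2 - 1), ∑ C : Fin (N ^ 2 - 1), ∑ i : Fin 9, ∑ j : Fin 9,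
      2 * |1 / 2 * b.structConst A B C * G.γ2 i j α β|) +
      ∑ j : Fin 9, |cc j * (Gam G * G.γ j) α β|)

theorem Kw_term_le (b : ColorBasis N) (G : GammaNine) (α β : Fin 16) (A : Fin (N ^ 2 - 1)) :
    (∑ B : Fin (N ^ 2 - 1), ∑ C : Fin (N ^ 2 - 1), ∑ i : Fin 9, ∑ j : Fin 9,
      2 * |1 / 2 * b.structConst A B C * G.γ2 i j α β|) +
      ∑ j : Fin 9, |cc j * (Gam G * G.γ j) α β| ≤ Kw b G := by
  have h0 : ∀ (α β : Fin 16) (A : Fin (N ^ 2 - 1)),
      0 ≤ (∑ B : Fin (N ^ 2 - 1), ∑ C : Fin (N ^ 2 - 1), ∑ i : Fin 9, ∑ j : Fin 9,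
      2 * |1 / 2 * b.structConst A B C * G.γ2 i j α β|) +
      ∑ j : Fin 9, |cc j * (Gam G * G.γ j) α β| := fun α β A => by positivity
  unfold Kw
  refine le_trans ?_ (Finset.single_le_sum (f := fun α => ∑ β : Fin 16, ∑ A : Fin (N ^ 2 - 1),
    ((∑ B : Fin (N ^ 2 - 1), ∑ C : Fin (N ^ 2 - 1), ∑ i : Fin 9, ∑ j : Fin 9,
      2 * |1 / 2 * b.structConst A B C * G.γ2 i j α β|) +
      ∑ j : Fin 9, |cc j * (Gam G * G.γ j) α β|))
    (fun α _ => Finset.sum_nonneg fun β _ => Finset.sum_nonneg fun A _ => h0 α β A)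
    (Finset.mem_univ α))
  refine le_trans ?_ (Finset.single_le_sum (f := fun β => ∑ A : Fin (N ^ 2 - 1),
    ((∑ B : Fin (N ^ 2 - 1), ∑ C : Fin (N ^ 2 - 1), ∑ i : Fin 9, ∑ j : Fin 9,
      2 * |1 / 2 * b.structConst A B C * G.γ2 i j α β|) +
      ∑ j : Fin 9, |cc j * (Gam G * G.γ j) α β|))
    (fun β _ => Finset.sum_nonneg fun A _ => h0 α β A)
    (Finset.mem_univ β))
  exact Finset.single_le_sum (f := fun A =>
    ((∑ B : Fin (N ^ 2 - 1), ∑ C : Fin (N ^ 2 - 1), ∑ i : Fin 9, ∑ j : Fin 9,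
      2 * |1 / 2 * b.structConst A B C * G.γ2 i j α β|) +
      ∑ j : Fin 9, |cc j * (Gam G * G.γ j) α β|))
    (fun A _ => h0 α β A) (Finset.mem_univ A)

theorem Kw_nonneg (b : ColorBasis N) (G : GammaNine) : 0 ≤ Kw b G := by
  unfold Kw
  positivity

theorem abs_dW_le (b : ColorBasis N) (G : GammaNine) (g m : ℝ) (α : Fin 16)
    (k : Fin 9 × Fin (N ^ 2 - 1)) (x : Cfg N) (β : Fin 16) (A : Fin (N ^ 2 - 1)) :
    |dW (wpot b G g m) α k x β A| ≤ Kw b G * (|g| * ‖x‖ + |m|) := by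
  unfold dW
  rw [(hasFDerivAt_wpot b G g m α β A x).fderiv]
  have h1 : |(∑ B : Fin (N ^ 2 - 1), ∑ C : Fin (N ^ 2 - 1), ∑ i : Fin 9, ∑ j : Fin 9,
          D2 (1 / 2 * b.structConst A B C * G.γ2 i j α β) (i, B) (j, C) x)
            (EuclideanSpace.single k 1)| ≤
      (∑ B : Fin (N ^ 2 - 1), ∑ C : Fin (N ^ 2 - 1), ∑ i : Fin 9, ∑ j : Fin 9,
        2 * |1 / 2 * b.structConst A B C * G.γ2 i j α β|) * ‖x‖ := by
    simp only [_root_.sum_apply, Finset.sum_mul]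
    refine (Finset.abs_sum_le_sum_abs _ _).trans (Finset.sum_le_sum fun B _ => ?_)
    refine (Finset.abs_sum_le_sum_abs _ _).trans (Finset.sum_le_sum fun C _ => ?_)
    refine (Finset.abs_sum_le_sum_abs _ _).trans (Finset.sum_le_sum fun i _ => ?_)
    refine (Finset.abs_sum_le_sum_abs _ _).trans (Finset.sum_le_sum fun j _ => ?_)
    exact abs_D2_le _ _ _ x k
  have h2 : |(∑ j : Fin 9, (cc j * (Gam G * G.γ j) α β) •
          (EuclideanSpace.proj (j, A) : Cfg N →L[ℝ] ℝ)) (EuclideanSpace.single k 1)| ≤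
      ∑ j : Fin 9, |cc j * (Gam G * G.γ j) α β| := by
    simp only [_root_.sum_apply]
    refine (Finset.abs_sum_le_sum_abs _ _).trans (Finset.sum_le_sum fun j _ => ?_)
    have h3 : ((cc j * (Gam G * G.γ j) α β) • (EuclideanSpace.proj (j, A) : Cfg N →L[ℝ] ℝ))
        (EuclideanSpace.single k 1) = (cc j * (Gam G * G.γ j) α β) *
          (EuclideanSpace.single k (1 : ℝ) : Cfg N) (j, A) := rfl
    rw [h3, abs_mul]
    calc _ ≤ |cc j * (Gam G * G.γ j) α β| * 1 :=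
          mul_le_mul_of_nonneg_left (abs_single_le k _) (abs_nonneg _)
      _ = _ := mul_one _
  have h3 := Kw_term_le b G α β A
  set S1 := ∑ B : Fin (N ^ 2 - 1), ∑ C : Fin (N ^ 2 - 1), ∑ i : Fin 9, ∑ j : Fin 9,
        2 * |1 / 2 * b.structConst A B C * G.γ2 i j α β| with hS1
  set S2 := ∑ j : Fin 9, |cc j * (Gam G * G.γ j) α β| with hS2
  have p1 : 0 ≤ S1 := by rw [hS1]; positivity
  have p2 : 0 ≤ S2 := by rw [hS2]; positivity
  rw [_root_.sub_apply, _root_.smul_apply,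
    _root_.smul_apply, smul_eq_mul, smul_eq_mul]
  refine (abs_sub _ _).trans ?_
  rw [abs_mul, abs_mul]
  have h4 := mul_le_mul_of_nonneg_left h1 (abs_nonneg g)
  have h5 := mul_le_mul_of_nonneg_left h2 (abs_nonneg m)
  have h6 : |g| * (S1 * ‖x‖) ≤ Kw b G * (|g| * ‖x‖) := by
    have : S1 ≤ Kw b G := by linarith
    calc |g| * (S1 * ‖x‖) = S1 * (|g| * ‖x‖) := by ring
      _ ≤ _ := mul_le_mul_of_nonneg_right this (by positivity)
  have h7 : |m| * S2 ≤ Kw b G * |m| := by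
    have : S2 ≤ Kw b G := by linarith
    calc |m| * S2 = S2 * |m| := by ring
      _ ≤ _ := mul_le_mul_of_nonneg_right this (abs_nonneg _)
  linarith

/-- The constant of the Yukawa bound. -/
def KZ (b : ColorBasis N) (G : GammaNine) : ℝ :=
  16 * (9 * ((N ^ 2 - 1 : ℕ) : ℝ)) * (16 * ((N ^ 2 - 1 : ℕ) : ℝ) * Kw b G)

theorem KZ_nonneg (b : ColorBasis N) (G : GammaNine) : 0 ≤ KZ b G := by
  have := Kw_nonneg b G
  unfold KZ
  positivity

/-- **The Yukawa bound.** -/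
theorem norm_Zop_le (b : ColorBasis N) (M : FermionRep N F) (G : GammaNine) (g m : ℝ)
    (x : Cfg N) (v : F) :
    ‖Zop M G (wpot b G g m) x v‖ ≤ KZ b G * (|g| * ‖x‖ + |m|) * ‖v‖ := by
  rw [Zop_apply]
  have h1 : ∀ (α : Fin 16) (k : Fin 9 × Fin (N ^ 2 - 1)),
      ‖(-Complex.I) • dco M G α k (Th M (dW (wpot b G g m) α k x) v)‖ ≤
        16 * ((N ^ 2 - 1 : ℕ) : ℝ) * (Kw b G * (|g| * ‖x‖ + |m|)) * ‖v‖ := by
    intro α k
    rw [norm_smul, norm_neg, Complex.norm_I, one_mul]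
    exact (norm_dco_le M G α k _).trans
      (norm_Th_le M _ (fun β A => abs_dW_le b G g m α k x β A) v)
  refine (norm_sum_le _ _).trans ((Finset.sum_le_sum fun α _ => (norm_sum_le _ _).trans
    (Finset.sum_le_sum fun k _ => h1 α k)).trans ?_)
  simp only [Finset.sum_const, Finset.card_univ, Fintype.card_fin, Fintype.card_prod,
    nsmul_eq_mul]
  refine le_of_eq ?_
  unfold KZ
  push_cast
  ring

/-! ### The trace condition -/

theorem exists_ne5 (a b c d e : Fin 9) : ∃ l : Fin 9, l ≠ a ∧ l ≠ b ∧ l ≠ c ∧ l ≠ d ∧ l ≠ e := by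
  have h : (({a, b, c, d, e} : Finset (Fin 9)).card) < Fintype.card (Fin 9) := by
    refine lt_of_le_of_lt (Finset.card_le_five) ?_
    simp
  obtain ⟨l, hl⟩ := Finset.exists_mem_notMem_of_card_lt_card
    (s := ({a, b, c, d, e} : Finset (Fin 9))) (t := Finset.univ) (by simpa using h)
  simp only [Finset.mem_insert, Finset.mem_singleton, not_or] at hl
  exact ⟨l, hl.2⟩

theorem trace_zero_of_anti (G : GammaNine) (l : Fin 9) {X : Matrix (Fin 16) (Fin 16) ℝ}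
    (h : G.γ l * X = -(X * G.γ l)) : X.trace = 0 := by
  have h1 : (G.γ l * X * G.γ l).trace = X.trace := by
    rw [Matrix.trace_mul_comm, ← mul_assoc, gamma_sq, one_mul]
  have h2 : (G.γ l * X * G.γ l).trace = -X.trace := by
    rw [h, neg_mul, mul_assoc, gamma_sq, mul_one, Matrix.trace_neg]
  linarith

theorem anti_mul {G : GammaNine} {l k : Fin 9} (h : l ≠ k) (X : Matrix (Fin 16) (Fin 16) ℝ) :
    G.γ l * (G.γ k * X) = -(G.γ k * (G.γ l * X)) := by
  rw [← mul_assoc, gamma_anti G h, neg_mul, mul_assoc]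

theorem tr3 (G : GammaNine) (i j k : Fin 9) : (G.γ k * (G.γ i * G.γ j)).trace = 0 := by
  obtain ⟨l, h1, h2, h3, -, -⟩ := exists_ne5 i j k k k
  refine trace_zero_of_anti G l ?_
  rw [anti_mul h3, anti_mul h1, gamma_anti G h2]
  simp only [mul_neg, neg_neg, mul_assoc]

theorem tr5 (G : GammaNine) (j k : Fin 9) : (G.γ k * (Gam G * G.γ j)).trace = 0 := by
  obtain ⟨l, h1, h2, h3, h4, h5⟩ := exists_ne5 j k 0 1 2
  refine trace_zero_of_anti G l ?_
  unfold Gam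
  simp only [mul_assoc]
  rw [anti_mul h2, anti_mul h3, anti_mul h4, anti_mul h5, gamma_anti G h1]
  simp only [mul_neg, neg_neg]

theorem sum_gamma_mul (G : GammaNine) (k : Fin 9) (X : Matrix (Fin 16) (Fin 16) ℝ) :
    ∑ α, ∑ β, G.γ k α β * X α β = (G.γ k * X).trace := by
  rw [Matrix.trace]
  simp only [Matrix.diag_apply, Matrix.mul_apply]
  rw [Finset.sum_comm]
  refine Finset.sum_congr rfl fun β _ => Finset.sum_congr rfl fun α _ => ?_
  have hs : G.γ k α β = G.γ k β α := by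
    conv_lhs => rw [← G.symm k]
    rfl
  rw [hs]

/-- **The trace condition for the charges `Q^{g,m}`.** -/
theorem trZ_wpot (b : ColorBasis N) (G : GammaNine) (g m : ℝ) : TrZ G (wpot b G g m) := by
  intro k x
  have h1 : ∀ α β, wpot b G g m α β k.2 x =
      Wm G g m (fun i j => br b (comp x i) (comp x j) k.2) (fun j => comp x j k.2) α β :=
    fun α β => VId87.wpot_eq G b g m α β k.2 x
  simp only [h1]
  rw [sum_gamma_mul]
  unfold Wm
  rw [Matrix.mul_sub, Matrix.trace_sub, Matrix.mul_smul, Matrix.mul_smul, Matrix.trace_smul,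
    Matrix.trace_smul, Matrix.mul_sum, Matrix.mul_sum, Matrix.trace_sum, Matrix.trace_sum]
  have h2 : ∀ i : Fin 9, ∀ j : Fin 9, (G.γ k.1 * G.γ2 i j).trace = 0 := by
    intro i j
    unfold GammaNine.γ2
    rw [Matrix.mul_smul, Matrix.trace_smul, Matrix.mul_sub, Matrix.trace_sub, tr3, tr3]
    simp
  have h3 : ∑ i : Fin 9, (G.γ k.1 * ∑ j : Fin 9,
      br b (comp x i) (comp x j) k.2 • G.γ2 i j).trace = 0 := by
    refine Finset.sum_eq_zero fun i _ => ?_
    rw [Matrix.mul_sum, Matrix.trace_sum]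
    refine Finset.sum_eq_zero fun j _ => ?_
    rw [Matrix.mul_smul, Matrix.trace_smul, h2, smul_zero]
  have h4 : ∑ j : Fin 9, (G.γ k.1 * (cc j * comp x j k.2) • (Gam G * G.γ j)).trace = 0 := by
    refine Finset.sum_eq_zero fun j _ => ?_
    rw [Matrix.mul_smul, Matrix.trace_smul, tr5, smul_zero]
  rw [h3, h4]
  simp

/-! ### The energy identity -/

theorem Wsq_wpot (b : ColorBasis N) (G : GammaNine) (g m : ℝ) (x : Cfg N) :
    Wsq (wpot b G g m) x = 32 * Vsq G b g m x := by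
  unfold Wsq Vsq dp
  rw [← mul_assoc]
  norm_num
  refine Finset.sum_congr rfl fun α _ => Finset.sum_congr rfl fun β _ =>
    Finset.sum_congr rfl fun A _ => ?_
  ring

theorem Vsq_nonneg (b : ColorBasis N) (G : GammaNine) (g m : ℝ) (x : Cfg N) :
    0 ≤ Vsq G b g m x := by
  unfold Vsq
  positivity

theorem continuous_Vsq (b : ColorBasis N) (G : GammaNine) (g m : ℝ) :
    Continuous (Vsq G b g m) := by
  unfold Vsq
  refine continuous_const.mul (continuous_finsetSum _ fun α _ => continuous_finsetSum _ fun β _ =>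
    continuous_finsetSum _ fun A _ => ?_)
  exact (continuous_wpot b G g m α β A).pow 2

variable {M : FermionRep N F} {φ : Cfg N → F}

/-- `Σ_k ∫ |∂_k φ|²` -/
def grad2 (φ : Cfg N → F) : ℝ :=
  ∑ k : Fin 9 × Fin (N ^ 2 - 1), ∫ x, ‖fderiv ℝ φ x (EuclideanSpace.single k 1)‖ ^ 2

theorem grad2_nonneg (φ : Cfg N → F) : 0 ≤ grad2 φ :=
  Finset.sum_nonneg fun _ _ => integral_nonneg fun _ => sq_nonneg _

/-- **(1.1)** for the charges `Q^{g,m}`. -/
theorem qf_eq (b : ColorBasis N) (M : FermionRep N F) (G : GammaNine) (g m : ℝ)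
    (hφ : ContDiff ℝ 2 φ) (hc : HasCompactSupport φ) :
    qf b M G g m φ = 1 / 2 * grad2 φ + (∫ x, Vsq G b g m x * ‖φ x‖ ^ 2) +
      1 / 16 * ∫ x, (⟪φ x, Zop M G (wpot b G g m) x (φ x)⟫_ℂ).re := by
  have h := weitz (M := M) (G := G) (W := wpot b G g m)
    (fun α β A => Brid837.wpot_contDiff β A) (trZ_wpot b G g m) hφ hc
  unfold qf
  simp only [Brid837.dcharge_eq]
  rw [h]
  have h1 : ∫ x, Wsq (wpot b G g m) x / 2 * ‖φ x‖ ^ 2 =
      16 * ∫ x, Vsq G b g m x * ‖φ x‖ ^ 2 := by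
    rw [← integral_const_mul]
    refine integral_congr_ae (Eventually.of_forall fun x => ?_)
    simp only [Wsq_wpot]
    ring
  rw [h1]
  unfold grad2
  ring

theorem integrable_mul_sq {f : Cfg N → ℝ} (hf : Continuous f) (hφ : Continuous φ)
    (hc : HasCompactSupport φ) : Integrable fun x => f x * ‖φ x‖ ^ 2 := by
  refine (hf.mul (hφ.norm.pow 2)).integrable_of_hasCompactSupport ?_
  refine hc.mono fun x hx h0 => hx ?_
  have h00 : φ x = 0 := h0
  simp [h00]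

theorem continuous_Zop (b : ColorBasis N) (M : FermionRep N F) (G : GammaNine) (g m : ℝ)
    (hφ : Continuous φ) : Continuous fun x => Zop M G (wpot b G g m) x (φ x) := by
  simp only [Zop_apply]
  exact continuous_finsetSum _ fun α _ => continuous_finsetSum _ fun k _ =>
    Continuous.const_smul ((cont_lin _).comp
      (continuous_Th (continuous_dW (fun β A => Brid837.wpot_contDiff β A) k) hφ)) _

theorem integrable_Z (b : ColorBasis N) (M : FermionRep N F) (G : GammaNine) (g m : ℝ)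
    (hφ : Continuous φ) (hc : HasCompactSupport φ) :
    Integrable fun x => (⟪φ x, Zop M G (wpot b G g m) x (φ x)⟫_ℂ).re := by
  refine (Complex.continuous_re.comp (hφ.inner (continuous_Zop b M G g m
    hφ))).integrable_of_hasCompactSupport ?_
  refine hc.mono fun x hx h0 => hx ?_
  have h00 : φ x = 0 := h0
  simp [h00]

theorem abs_re_Z_le (b : ColorBasis N) (M : FermionRep N F) (G : GammaNine) (g m : ℝ)
    (x : Cfg N) (v : F) : |(⟪v, Zop M G (wpot b G g m) x v⟫_ℂ).re| ≤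
      KZ b G * (|g| * ‖x‖ + |m|) * ‖v‖ ^ 2 := by
  refine (Complex.abs_re_le_norm _).trans ((norm_inner_le_norm _ _).trans ?_)
  calc ‖v‖ * ‖Zop M G (wpot b G g m) x v‖ ≤ ‖v‖ * (KZ b G * (|g| * ‖x‖ + |m|) * ‖v‖) :=
        mul_le_mul_of_nonneg_left (norm_Zop_le b M G g m x v) (norm_nonneg _)
    _ = _ := by ring

/-- **The form up to the Yukawa term.** -/
theorem abs_qf_sub_le (b : ColorBasis N) (M : FermionRep N F) (G : GammaNine) (g m : ℝ)
    (hφ : ContDiff ℝ 2 φ) (hc : HasCompactSupport φ) :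
    |qf b M G g m φ - (1 / 2 * grad2 φ + ∫ x, Vsq G b g m x * ‖φ x‖ ^ 2)| ≤
      KZ b G / 16 * ∫ x, (|g| * ‖x‖ + |m|) * ‖φ x‖ ^ 2 := by
  rw [qf_eq b M G g m hφ hc, add_sub_cancel_left, abs_mul, abs_of_nonneg (by norm_num :
    (0 : ℝ) ≤ 1 / 16)]
  have h1 : |∫ x, (⟪φ x, Zop M G (wpot b G g m) x (φ x)⟫_ℂ).re| ≤
      ∫ x, KZ b G * ((|g| * ‖x‖ + |m|) * ‖φ x‖ ^ 2) := by
    refine (abs_integral_le_integral_abs).trans (integral_mono
      (integrable_Z b M G g m hφ.continuous hc).abs ?_ fun x => ?_)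
    · exact (integrable_mul_sq (by fun_prop) hφ.continuous hc).const_mul _
    · refine (abs_re_Z_le b M G g m x (φ x)).trans (le_of_eq ?_)
      ring
  rw [integral_const_mul] at h1
  calc _ ≤ 1 / 16 * (KZ b G * ∫ x, (|g| * ‖x‖ + |m|) * ‖φ x‖ ^ 2) :=
        mul_le_mul_of_nonneg_left h1 (by norm_num)
    _ = _ := by ring

/-- the local lower bound -/
theorem qf_ge_local (b : ColorBasis N) (M : FermionRep N F) (G : GammaNine) (g m : ℝ)
    (hφ : ContDiff ℝ 2 φ) (hc : HasCompactSupport φ) {ρ : ℝ} (hρ : ∀ x, φ x ≠ 0 → ‖x‖ ≤ ρ) :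
    1 / 2 * grad2 φ + (∫ x, Vsq G b g m x * ‖φ x‖ ^ 2) -
      KZ b G / 16 * (|g| * ρ + |m|) * (∫ x, ‖φ x‖ ^ 2) ≤ qf b M G g m φ := by
  have h := abs_qf_sub_le b M G g m hφ hc
  have h1 : ∫ x, (|g| * ‖x‖ + |m|) * ‖φ x‖ ^ 2 ≤ (|g| * ρ + |m|) * ∫ x, ‖φ x‖ ^ 2 := by
    rw [← integral_const_mul]
    refine integral_mono (integrable_mul_sq (by fun_prop) hφ.continuous hc)
      (integrable_mul_sq continuous_const hφ.continuous hc) fun x => ?_
    by_cases h0 : φ x = 0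
    · simp [h0]
    · have := hρ x h0
      refine mul_le_mul_of_nonneg_right ?_ (sq_nonneg _)
      have := mul_le_mul_of_nonneg_left this (abs_nonneg g)
      linarith
  have h2 := mul_le_mul_of_nonneg_left h1 (div_nonneg (KZ_nonneg b G) (by norm_num :
    (0 : ℝ) ≤ 16))
  have h3 := (abs_le.1 h).1
  nlinarith

/-! ### Coercivity with mass -/

theorem wpot_scale (b : ColorBasis N) (G : GammaNine) (g m : ℝ) (α β : Fin 16)
    (A : Fin (N ^ 2 - 1)) (x : Cfg N) :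
    wpot b G g m α β A (m • x) = m ^ 2 * wpot b G g 1 α β A x := by
  unfold wpot
  have h1 : ∀ k : Fin 9 × Fin (N ^ 2 - 1), (m • x) k = m * x k := fun k => rfl
  simp only [h1]
  rw [mul_sub, one_mul]
  congr 1
  · rw [mul_left_comm]
    congr 1
    simp only [Finset.mul_sum]
    refine Finset.sum_congr rfl fun B _ => Finset.sum_congr rfl fun C _ =>
      Finset.sum_congr rfl fun i _ => Finset.sum_congr rfl fun j _ => ?_
    ring
  · simp only [Finset.mul_sum]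
    refine Finset.sum_congr rfl fun j _ => ?_
    ring

theorem Vsq_scale (b : ColorBasis N) (G : GammaNine) (g m : ℝ) (x : Cfg N) :
    Vsq G b g m (m • x) = m ^ 4 * Vsq G b g 1 x := by
  unfold Vsq
  simp only [wpot_scale, mul_pow, ← Finset.mul_sum]
  ring

theorem Vsq_coer_m (hN : 0 < N) (b : ColorBasis N) (G : GammaNine) {g : ℝ} (hg : 0 < g) {m : ℝ}
    (hm : m ≠ 0) (x : Cfg N) :
    m ^ 2 * (‖x‖ ^ 2 / (432 * (N : ℝ) ^ 3)) - 1152 * (N : ℝ) ^ 10 * (m ^ 4 / g ^ 2) ≤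
      Vsq G b g m x := by
  have h := Vsq_coer G hN b hg (m⁻¹ • x)
  have h1 : Vsq G b g m x = m ^ 4 * Vsq G b g 1 (m⁻¹ • x) := by
    rw [← Vsq_scale, smul_inv_smul₀ hm]
  rw [h1]
  have h2 : ‖m⁻¹ • x‖ ^ 2 = (m⁻¹) ^ 2 * ‖x‖ ^ 2 := by
    rw [norm_smul, mul_pow, Real.norm_eq_abs, sq_abs]
  rw [h2] at h
  have h3 := mul_le_mul_of_nonneg_left h (by positivity : (0 : ℝ) ≤ m ^ 4)
  refine le_trans (le_of_eq ?_) h3
  field_simp

/-! ### The energy estimate -/

/-- The constant of the energy estimate. -/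
def CE (b : ColorBasis N) (G : GammaNine) : ℝ :=
  576 * (N : ℝ) ^ 10 + 216 * (N : ℝ) ^ 3 * (KZ b G / 16) ^ 2 + KZ b G / 16

theorem CE_nonneg (b : ColorBasis N) (G : GammaNine) : 0 ≤ CE b G := by
  have := KZ_nonneg b G
  unfold CE
  positivity

/-- The Yukawa term against the potential, pointwise, uniformly in the coupling. -/
theorem yukawa_le (hN : 0 < N) (b : ColorBasis N) (G : GammaNine) {g : ℝ} (hg : 0 < g)
    (x : Cfg N) :
    KZ b G / 16 * (g * ‖x‖ + 1) ≤ 1 / 2 * Vsq G b g 1 x + CE b G * (1 + g ^ 2) := by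
  have hV := Vsq_coer G hN b hg x
  have hV0 := Vsq_nonneg b G g 1 x
  have hK0 : 0 ≤ KZ b G / 16 := div_nonneg (KZ_nonneg b G) (by norm_num)
  have hn : (0 : ℝ) < (N : ℝ) ^ 3 := by positivity
  set V := Vsq G b g 1 x
  set K := KZ b G / 16 with hK
  set n := (N : ℝ) ^ 3 with hn'
  set B := (N : ℝ) ^ 10 with hB
  have hB0 : 0 ≤ B := by rw [hB]; positivity
  set s := ‖x‖
  have hCE : CE b G = 576 * B + 216 * n * K ^ 2 + K := rfl
  rw [hCE]
  have hg2 : 0 < g ^ 2 := by positivity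
  -- Young
  have young : ∀ t : ℝ, 0 ≤ t → K * t ≤ t ^ 2 / (864 * n) + 216 * n * K ^ 2 := by
    intro t _
    have h1 : t ^ 2 / (864 * n) + 216 * n * K ^ 2 - K * t =
        (t - 432 * n * K) ^ 2 / (864 * n) := by
      field_simp
      ring
    have h2 : 0 ≤ (t - 432 * n * K) ^ 2 / (864 * n) := by positivity
    linarith
  rcases le_total g 1 with h1 | h1
  · have h2 := young (g * s) (by positivity)
    have h3 : g ^ 2 * (s ^ 2 / (432 * n) - 1152 * B / g ^ 2) ≤ g ^ 2 * V :=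
      mul_le_mul_of_nonneg_left hV hg2.le
    have h4 : g ^ 2 * (s ^ 2 / (432 * n) - 1152 * B / g ^ 2) =
        (g * s) ^ 2 / (432 * n) - 1152 * B := by
      field_simp
    rw [h4] at h3
    have h5 : (g * s) ^ 2 / (864 * n) = (g * s) ^ 2 / (432 * n) / 2 := by
      field_simp
      ring
    have h6 : g ^ 2 * V ≤ V := by
      have : g ^ 2 ≤ 1 := by nlinarith
      nlinarith
    have h7 : 0 ≤ g ^ 2 * (576 * B + 216 * n * K ^ 2 + K) := by positivity
    rw [h5] at h2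
    nlinarith
  · have h2 := young (g * s) (by positivity)
    have h2' : K * (g * s) ≤ s ^ 2 / (864 * n) + 216 * n * (K * g) ^ 2 := by
      have h1 : s ^ 2 / (864 * n) + 216 * n * (K * g) ^ 2 - K * (g * s) =
          (s - 432 * n * K * g) ^ 2 / (864 * n) := by
        field_simp
        ring
      have h2 : 0 ≤ (s - 432 * n * K * g) ^ 2 / (864 * n) := by positivity
      linarith
    have h5 : s ^ 2 / (864 * n) = s ^ 2 / (432 * n) / 2 := by
      field_simp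
      ring
    have h6 : 1152 * B / g ^ 2 ≤ 1152 * B := by
      refine div_le_self (by positivity) ?_
      nlinarith
    rw [h5] at h2'
    have h7 : 0 ≤ g ^ 2 * (576 * B + K) := by positivity
    have h8 : 0 ≤ 216 * n * K ^ 2 := by positivity
    nlinarith

/-- **The energy estimate**, for all couplings `g > 0`. -/
theorem energy (hN : 0 < N) (b : ColorBasis N) (M : FermionRep N F) (G : GammaNine) {g : ℝ}
    (hg : 0 < g) (hφ : ContDiff ℝ 2 φ) (hc : HasCompactSupport φ) :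
    1 / 2 * grad2 φ + 1 / 2 * (∫ x, Vsq G b g 1 x * ‖φ x‖ ^ 2) ≤
      qf b M G g 1 φ + CE b G * (1 + g ^ 2) * ∫ x, ‖φ x‖ ^ 2 := by
  have h := (abs_le.1 (abs_qf_sub_le b M G g 1 hφ hc)).1
  have iV := integrable_mul_sq (continuous_Vsq b G g 1) hφ.continuous hc
  have i1 := integrable_mul_sq (f := fun x : Cfg N => g * ‖x‖ + 1) (by fun_prop)
    hφ.continuous hc
  have i0 := integrable_mul_sq (f := fun _ : Cfg N => (1 : ℝ)) continuous_const
    hφ.continuous hc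
  simp only [one_mul] at i0
  have h1 : KZ b G / 16 * ∫ x, (|g| * ‖x‖ + |(1 : ℝ)|) * ‖φ x‖ ^ 2 ≤
      1 / 2 * (∫ x, Vsq G b g 1 x * ‖φ x‖ ^ 2) + CE b G * (1 + g ^ 2) * ∫ x, ‖φ x‖ ^ 2 := by
    rw [← integral_const_mul, ← integral_const_mul, ← integral_const_mul,
      ← integral_add (iV.const_mul _) (i0.const_mul _)]
    rw [abs_of_pos hg, abs_one]
    refine integral_mono (i1.const_mul _) ((iV.const_mul _).add (i0.const_mul _)) fun x => ?_
    have h2 := mul_le_mul_of_nonneg_right (yukawa_le hN b G hg x) (sq_nonneg ‖φ x‖)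
    have h3 : 1 / 2 * (Vsq G b g 1 x * ‖φ x‖ ^ 2) + CE b G * (1 + g ^ 2) * ‖φ x‖ ^ 2 =
        (1 / 2 * Vsq G b g 1 x + CE b G * (1 + g ^ 2)) * ‖φ x‖ ^ 2 := by ring
    refine le_trans (le_of_eq ?_) (h2.trans (le_of_eq h3.symm))
    ring
  linarith

/-- The operator norm of the derivative against the partial derivatives. -/
theorem opnorm_fderiv_sq_le (φ : Cfg N → F) (x : Cfg N) :
    ‖fderiv ℝ φ x‖ ^ 2 ≤
      ∑ k : Fin 9 × Fin (N ^ 2 - 1), ‖fderiv ℝ φ x (EuclideanSpace.single k 1)‖ ^ 2 := by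
  set S := ∑ k : Fin 9 × Fin (N ^ 2 - 1), ‖fderiv ℝ φ x (EuclideanSpace.single k 1)‖ ^ 2 with hS
  have hS0 : 0 ≤ S := by rw [hS]; positivity
  have h1 : ‖fderiv ℝ φ x‖ ≤ Real.sqrt S := by
    refine ContinuousLinearMap.opNorm_le_bound _ (Real.sqrt_nonneg _) fun v => ?_
    have hv : v = ∑ k, v k • (EuclideanSpace.single k (1 : ℝ) : Cfg N) := by
      ext j
      simp [Finset.sum_apply, Pi.single_apply]
    have h2 : fderiv ℝ φ x v = ∑ k, v k • fderiv ℝ φ x (EuclideanSpace.single k 1) := by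
      conv_lhs => rw [hv]
      simp only [map_sum, map_smul]
    rw [h2]
    refine (norm_sum_le _ _).trans ?_
    have h3 : ∀ k, ‖v k • fderiv ℝ φ x (EuclideanSpace.single k 1)‖ =
        |v k| * ‖fderiv ℝ φ x (EuclideanSpace.single k 1)‖ := fun k => by
      rw [norm_smul, Real.norm_eq_abs]
    simp only [h3]
    have h4 := Finset.sum_mul_sq_le_sq_mul_sq (Finset.univ : Finset (Fin 9 × Fin (N ^ 2 - 1)))
      (fun k => |v k|) (fun k => ‖fderiv ℝ φ x (EuclideanSpace.single k 1)‖)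
    have h5 : ∑ k, |v k| ^ 2 = ‖v‖ ^ 2 := by
      rw [EuclideanSpace.norm_sq_eq]
      simp only [Real.norm_eq_abs]
    rw [h5] at h4
    refine abs_le_of_sq_le_sq' ?_ (by positivity) |>.2
    rw [mul_pow, Real.sq_sqrt hS0, mul_comm]
    exact h4
  calc ‖fderiv ℝ φ x‖ ^ 2 ≤ (Real.sqrt S) ^ 2 := pow_le_pow_left₀ (norm_nonneg _) h1 2
    _ = S := Real.sq_sqrt hS0

theorem integral_opnorm_le (hφ : ContDiff ℝ 1 φ) (hc : HasCompactSupport φ) :
    ∫ x, ‖fderiv ℝ φ x‖ ^ 2 ≤ grad2 φ := by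
  unfold grad2
  have hcf : HasCompactSupport (fderiv ℝ φ) := hc.fderiv (𝕜 := ℝ)
  have hcont : Continuous (fderiv ℝ φ) := hφ.continuous_fderiv one_ne_zero
  have i1 : ∀ k : Fin 9 × Fin (N ^ 2 - 1), Integrable fun x =>
      ‖fderiv ℝ φ x (EuclideanSpace.single k 1)‖ ^ 2 := by
    intro k
    refine ((hcont.clm_apply continuous_const).norm.pow 2).integrable_of_hasCompactSupport ?_
    refine hcf.mono fun x hx h0 => hx ?_
    have h00 : fderiv ℝ φ x = 0 := h0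
    simp [h00]
  have i2 : Integrable fun x => ‖fderiv ℝ φ x‖ ^ 2 := by
    refine (hcont.norm.pow 2).integrable_of_hasCompactSupport ?_
    refine hcf.mono fun x hx h0 => hx ?_
    have h00 : fderiv ℝ φ x = 0 := h0
    simp [h00]
  rw [← integral_finsetSum _ fun k _ => i1 k]
  exact integral_mono i2 (integrable_finsetSum _ fun k _ => i1 k) fun x =>
    opnorm_fderiv_sq_le φ x

/-- **The energy estimate** with the operator norm of the derivative. -/
theorem energy' (hN : 0 < N) (b : ColorBasis N) (M : FermionRep N F) (G : GammaNine) {g : ℝ}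
    (hg : 0 < g) (hφ : ContDiff ℝ 2 φ) (hc : HasCompactSupport φ) :
    1 / 2 * (∫ x, ‖fderiv ℝ φ x‖ ^ 2) + 1 / 2 * (∫ x, Vsq G b g 1 x * ‖φ x‖ ^ 2) ≤
      qf b M G g 1 φ + CE b G * (1 + g ^ 2) * ∫ x, ‖φ x‖ ^ 2 := by
  have h1 := energy hN b M G hg hφ hc
  have h2 := integral_opnorm_le (hφ.of_le (by norm_num)) hc
  linarith

/-! ### (4.2) -/

theorem Vsq_zero_one_le (b : ColorBasis N) (G : GammaNine) (x : Cfg N) :
    Vsq G b 0 1 x ≤ ‖x‖ ^ 2 / 18 := by
  rw [Vsq_eq, norm_sq_eq]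
  have h1 : Vcyc b 0 1 x = 1 / 9 * ∑ i : Fin 3, ∑ A, (comp x (lo i) A) ^ 2 := by
    unfold Vcyc
    simp only [Finset.mul_sum]
    refine Finset.sum_congr rfl fun i _ => Finset.sum_congr rfl fun A _ => ?_
    ring
  have h2 : 0 ≤ Vhi x := by
    unfold Vhi
    positivity
  rw [h1]
  nlinarith

theorem quartic_pointwise (b : ColorBasis N) (G : GammaNine) (g : ℝ) (x : Cfg N) :
    g ^ 2 * Vsq G b 1 0 x ≤ 2 * Vsq G b g 1 x + 2 * Vsq G b 0 1 x := by
  unfold Vsq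
  rw [mul_left_comm, mul_left_comm 2, mul_left_comm 2, ← mul_add]
  refine mul_le_mul_of_nonneg_left ?_ (by norm_num)
  simp only [Finset.mul_sum, ← Finset.sum_add_distrib]
  refine Finset.sum_le_sum fun α _ => Finset.sum_le_sum fun β _ => Finset.sum_le_sum fun A _ => ?_
  have h : g * wpot b G 1 0 α β A x = wpot b G g 1 α β A x - wpot b G 0 1 α β A x := by
    unfold wpot
    ring
  rw [← mul_pow, h]
  nlinarith [sq_nonneg (wpot b G g 1 α β A x + wpot b G 0 1 α β A x)]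

theorem sum_dcharge_sub (b : ColorBasis N) (M : FermionRep N F) (G : GammaNine) (φ : Cfg N → F)
    (x : Cfg N) :
    ∑ α, ‖dcharge b M G 1 0 α φ x - dcharge b M G 0 0 α φ x‖ ^ 2 =
      16 * Vsq G b 1 0 x * ‖φ x‖ ^ 2 := by
  have h1 : ∀ α, dcharge b M G 1 0 α φ x - dcharge b M G 0 0 α φ x =
      Th M (fun β A => wpot b G 1 0 α β A x) (φ x) := by
    intro α
    rw [Brid837.dcharge_eq, Brid837.dcharge_eq, chargeW_sub_chargeW, vco_eq]
    congr 2
    funext β A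
    have : wpot b G 0 0 α β A x = 0 := by
      unfold wpot
      ring
    rw [this, sub_zero]
  simp only [h1, norm_Th_sq]
  rw [← Finset.sum_mul, ← Finset.sum_div]
  have h2 := Wsq_wpot b G 1 0 x
  unfold Wsq at h2
  rw [h2]
  ring

/-- The constant of (4.2). -/
def C42 (b : ColorBasis N) (G : GammaNine) (g : ℝ) : ℝ :=
  32 / g ^ 2 * (2 * (1 + 24 * (N : ℝ) ^ 3) * (1 + CE b G * (1 + g ^ 2)) +
    24 * (N : ℝ) ^ 3 * (1152 * (N : ℝ) ^ 10 / g ^ 2))

theorem C42_nonneg (b : ColorBasis N) (G : GammaNine) (g : ℝ) : 0 ≤ C42 b G g := by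
  have := CE_nonneg b G
  unfold C42
  positivity

/-- the quartic part against the potential, pointwise -/
theorem quartic_V_le (hN : 0 < N) (b : ColorBasis N) (G : GammaNine) {g : ℝ} (hg : 0 < g)
    (x : Cfg N) :
    16 * Vsq G b 1 0 x ≤ 32 / g ^ 2 * ((1 + 24 * (N : ℝ) ^ 3) * Vsq G b g 1 x +
      24 * (N : ℝ) ^ 3 * (1152 * (N : ℝ) ^ 10 / g ^ 2)) := by
  have hg2 : 0 < g ^ 2 := by positivity
  have hV := Vsq_coer G hN b hg x
  have h1 := quartic_pointwise b G g x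
  have h2 := Vsq_zero_one_le b G x
  have hn : (0 : ℝ) < (N : ℝ) ^ 3 := by positivity
  have h3 : ‖x‖ ^ 2 / 18 ≤ 24 * (N : ℝ) ^ 3 * (Vsq G b g 1 x + 1152 * (N : ℝ) ^ 10 / g ^ 2) := by
    have h4 : ‖x‖ ^ 2 / 18 = 24 * (N : ℝ) ^ 3 * (‖x‖ ^ 2 / (432 * (N : ℝ) ^ 3)) := by
      field_simp
      ring
    rw [h4]
    refine mul_le_mul_of_nonneg_left ?_ (by positivity)
    linarith
  have h5 : 16 * Vsq G b 1 0 x = 16 / g ^ 2 * (g ^ 2 * Vsq G b 1 0 x) := by
    field_simp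
  rw [h5]
  calc 16 / g ^ 2 * (g ^ 2 * Vsq G b 1 0 x)
      ≤ 16 / g ^ 2 * (2 * Vsq G b g 1 x + 2 * (24 * (N : ℝ) ^ 3 *
          (Vsq G b g 1 x + 1152 * (N : ℝ) ^ 10 / g ^ 2))) := by
        refine mul_le_mul_of_nonneg_left ?_ (by positivity)
        linarith
    _ = _ := by ring

/-- **(4.2)** -/
theorem quartic_le (hN : 0 < N) (b : ColorBasis N) (M : FermionRep N F) (G : GammaNine) {g : ℝ}
    (hg : 0 < g) (hφ : ContDiff ℝ 2 φ) (hc : HasCompactSupport φ) :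
    ∑ α, ∫ x, ‖dcharge b M G 1 0 α φ x - dcharge b M G 0 0 α φ x‖ ^ 2 ≤
      C42 b G g * (qf b M G g 1 φ + ∫ x, ‖φ x‖ ^ 2) := by
  have h1c : ContDiff ℝ 1 φ := hφ.of_le (by norm_num)
  have hi : ∀ α, Integrable fun x =>
      ‖dcharge b M G 1 0 α φ x - dcharge b M G 0 0 α φ x‖ ^ 2 := by
    intro α
    refine (((continuous_dcharge b M G 1 0 α h1c).sub
      (continuous_dcharge b M G 0 0 α h1c)).norm.pow 2).integrable_of_hasCompactSupport ?_
    have hs := (Brid837.hasCompactSupport_dcharge (b := b) (M := M) (G := G) (g := 1) (m := 0)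
      (α := α) hc).sub (Brid837.hasCompactSupport_dcharge (b := b) (M := M) (G := G) (g := 0)
      (m := 0) (α := α) hc)
    refine hs.mono fun x hx h0 => hx ?_
    have h00 : dcharge b M G 1 0 α φ x - dcharge b M G 0 0 α φ x = 0 := h0
    simp [h00]
  rw [← integral_finsetSum _ fun α _ => hi α]
  simp only [sum_dcharge_sub]
  have iV := integrable_mul_sq (continuous_Vsq b G g 1) hφ.continuous hc
  have iq := integrable_mul_sq (continuous_Vsq b G 1 0) hφ.continuous hc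
  have i0 := integrable_mul_sq (f := fun _ : Cfg N => (1 : ℝ)) continuous_const
    hφ.continuous hc
  simp only [one_mul] at i0
  set n := (N : ℝ) ^ 3 with hn
  set D := 1152 * (N : ℝ) ^ 10 / g ^ 2 with hD
  have hn0 : 0 ≤ n := by rw [hn]; positivity
  have hD0 : 0 ≤ D := by rw [hD]; positivity
  have hg2 : 0 < g ^ 2 := by positivity
  have h1 : ∫ x, 16 * Vsq G b 1 0 x * ‖φ x‖ ^ 2 ≤
      32 / g ^ 2 * ((1 + 24 * n) * (∫ x, Vsq G b g 1 x * ‖φ x‖ ^ 2) +
        24 * n * D * ∫ x, ‖φ x‖ ^ 2) := by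
    rw [← integral_const_mul, ← integral_const_mul,
      ← integral_add (iV.const_mul _) (i0.const_mul _), ← integral_const_mul]
    refine integral_mono ?_ (((iV.const_mul _).add (i0.const_mul _)).const_mul _) fun x => ?_
    · have := iq.const_mul 16
      refine this.congr (Eventually.of_forall fun x => ?_)
      simp only
      ring
    · have h2 := mul_le_mul_of_nonneg_right (quartic_V_le hN b G hg x) (sq_nonneg ‖φ x‖)
      refine h2.trans (le_of_eq ?_)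
      ring
  have h2 := energy hN b M G hg hφ hc
  have h3 := grad2_nonneg (N := N) φ
  have hq0 : 0 ≤ qf b M G g 1 φ := by
    unfold qf
    exact mul_nonneg (by norm_num) (Finset.sum_nonneg fun α _ => integral_nonneg fun x =>
      sq_nonneg _)
  have hp0 : 0 ≤ ∫ x, ‖φ x‖ ^ 2 := integral_nonneg fun x => sq_nonneg _
  have hCE := CE_nonneg b G
  set I := ∫ x, ‖φ x‖ ^ 2 with hI
  set J := ∫ x, Vsq G b g 1 x * ‖φ x‖ ^ 2 with hJ
  set q := qf b M G g 1 φ with hq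
  have h4 : J ≤ 2 * (1 + CE b G * (1 + g ^ 2)) * (q + I) := by
    have h5 : 0 ≤ CE b G * (1 + g ^ 2) * q := by positivity
    nlinarith
  have h5 : (1 + 24 * n) * J + 24 * n * D * I ≤
      (2 * (1 + 24 * n) * (1 + CE b G * (1 + g ^ 2)) + 24 * n * D) * (q + I) := by
    have h6 := mul_le_mul_of_nonneg_left h4 (by positivity : (0 : ℝ) ≤ 1 + 24 * n)
    have h7 : 0 ≤ 24 * n * D * q := by positivity
    nlinarith
  have h6 := mul_le_mul_of_nonneg_left h5 (by positivity : (0 : ℝ) ≤ 32 / g ^ 2)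
  refine h1.trans (h6.trans (le_of_eq ?_))
  unfold C42
  rw [← hn, ← hD]
  ring

end Crest.Agent.R330.En87

end
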