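import Crest.Agent.R330.GaugeUn_973

/-!
# Row 330 (helper973): any two fermionic modules with gauge action are equivalent

* `exists_unitary` : a unitary `u : F ≃ F'` with `θ' u = u θ`, mapping a vacuum direction to a
  vacuum direction.
* `unitary_rho` : such a `u` intertwines the gauge actions.
-/

set_option autoImplicit false
set_option linter.unusedSectionVars false

noncomputable section

open scoped InnerProductSpace

namespace Crest.Agent.R330.Equiv973

open Crest.MathPhysics.MatrixQM Crest.Agent.R330.Vac973 Crest.Agent.R330.GaugeEx973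
  Crest.Agent.R330.GaugeUn973

variable {N : ℕ} {F F' : Type*} [NormedAddCommGroup F] [InnerProductSpace ℂ F]
  [FiniteDimensional ℂ F] [NormedAddCommGroup F'] [InnerProductSpace ℂ F']
  [FiniteDimensional ℂ F'] {M : FermionRep N F} {M' : FermionRep N F'} {Ω : F} {Ω' : F'}

theorem IsVac.smul {a : ℂ} (h : IsVac M Ω) (ha : a ≠ 0) : IsVac M (a • Ω) :=
  ⟨smul_ne_zero ha h.ne, fun j => by rw [map_smul, h.ann, smul_zero]⟩

/-- An isometric intertwiner. -/
theorem exists_isometry (h : IsVac M Ω) (h' : IsVac M' Ω') (hn : ‖Ω'‖ = ‖Ω‖) :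
    ∃ u : F →ₗᵢ[ℂ] F', u Ω = Ω' ∧ ∀ α A v, M'.θ α A (u v) = u (M.θ α A v) := by
  obtain ⟨U, hU0, hU⟩ := exists_intertwiner h h'
  have h1 : ∀ x y, ⟪U x, U y⟫_ℂ = ⟪x, y⟫_ℂ := inner_intertwiner h (by rw [hU0, hn]) hU
  exact ⟨U.isometryOfInner h1, hU0, fun α A v => (hU α A v).symm⟩

/-- **Uniqueness of the fermionic module** with normalised vacua. -/
theorem exists_unitary_vac (h : IsVac M Ω) (h' : IsVac M' Ω') (hn : ‖Ω'‖ = ‖Ω‖) :
    ∃ u : F ≃ₗᵢ[ℂ] F', u Ω = Ω' ∧ ∀ α A v, M'.θ α A (u v) = u (M.θ α A v) := by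
  obtain ⟨u, hu0, hu⟩ := exists_isometry h h' hn
  obtain ⟨w, hw0, hw⟩ := exists_isometry h' h hn.symm
  have h1 : Module.finrank ℂ F = Module.finrank ℂ F' :=
    le_antisymm (LinearMap.finrank_le_finrank_of_injective u.injective)
      (LinearMap.finrank_le_finrank_of_injective w.injective)
  exact ⟨u.toLinearIsometryEquiv h1, hu0, hu⟩

/-- **Uniqueness of the fermionic module.** -/
theorem exists_unitary [Nontrivial F] [Nontrivial F'] (M : FermionRep N F)
    (M' : FermionRep N F') : ∃ u : F ≃ₗᵢ[ℂ] F', ∀ α A v, M'.θ α A (u v) = u (M.θ α A v) := by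
  obtain ⟨Ω, h⟩ := exists_vac M
  obtain ⟨Ω', h'⟩ := exists_vac M'
  have h1 : ‖Ω'‖ ≠ 0 := norm_ne_zero_iff.2 h'.ne
  have h2 : ‖Ω‖ ≠ 0 := norm_ne_zero_iff.2 h.ne
  have h3 : ((‖Ω‖ / ‖Ω'‖ : ℝ) : ℂ) ≠ 0 := Complex.ofReal_ne_zero.2 (div_ne_zero h2 h1)
  obtain ⟨u, -, hu⟩ := exists_unitary_vac h (IsVac.smul h' h3) (by
    rw [norm_smul, Complex.norm_real, Real.norm_of_nonneg (by positivity), div_mul_cancel₀ _ h1])
  exact ⟨u, hu⟩

/-- **An intertwiner of modules intertwines the gauge actions** (no choice, no sign). -/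
theorem intertwine_rho [Nontrivial F] {b : ColorBasis N} (R : GaugeAction b M)
    (R' : GaugeAction b M') {u : F →ₗ[ℂ] F'} (hu : ∀ α A v, M'.θ α A (u v) = u (M.θ α A v))
    (g : Matrix.specialUnitaryGroup (Fin N) ℂ) (v : F) : u (R.ρ g v) = R'.ρ g (u v) := by
  obtain ⟨Ω, h⟩ := exists_vac M
  have h1 : u ∘ₗ R.ρ g = R'.ρ g ∘ₗ u := by
    refine eq_of_intertwine h (θ' := (rot M' (adjM b g) (adjMat_orth b g)).θ) (fun α A v => ?_)
      (fun α A v => ?_) ?_
    · simp only [LinearMap.comp_apply, rho_theta, map_sum, map_smul, rot, LinearMap.sum_apply,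
        LinearMap.smul_apply, hu]
    · simp only [LinearMap.comp_apply, ← hu, rho_theta, rot, LinearMap.sum_apply,
        LinearMap.smul_apply]
    · simp only [LinearMap.comp_apply]
      rw [rho_vac h R]
      have h2 : ∀ j, ann M' j (u Ω) = 0 := fun j => by
        have h3 : ann M' j (u Ω) = u (ann M j Ω) := by
          simp only [ann, LinearMap.add_apply, LinearMap.smul_apply, map_add, map_smul, hu]
        rw [h3, h.ann, map_zero]
      by_cases h0 : u Ω = 0
      · rw [h0, map_zero]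
      · exact (rho_vac ⟨h0, h2⟩ R' g).symm
  exact LinearMap.congr_fun h1 v

end Crest.Agent.R330.Equiv973

end
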