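import Crest.Agent.R330.Even_478

/-!
# Row 330: `EvenAll N` from a lower bound of `q_{g,1}` on odd core vectors (helper478)
-/

set_option autoImplicit false
set_option linter.unusedSectionVars false

open MeasureTheory Filter Topology Crest.MathPhysics.MatrixQM
open scoped ContDiff InnerProductSpace ENNReal

noncomputable section

namespace Crest.Agent.R330.Even2478

open Crest.Agent.R330.Defs478 Crest.Agent.R330.Sec478 Crest.Agent.R330.SInd478
  Crest.Agent.R330.Par478 Crest.Agent.R330.Dict416 Crest.Agent.R330.Close478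
  Crest.Agent.R330.Scale423 Crest.Agent.R330.Even478

/-- Odd core vectors have `q_{g,1}(φ) ≥ c ‖φ‖²`. -/
def OddGap (N : ℕ) : Prop :=
  ∀ (F : Type) [NormedAddCommGroup F] [InnerProductSpace ℂ F] [FiniteDimensional ℂ F]
    [Nontrivial F] (b : ColorBasis N) (M : FermionRep N F) (R : GaugeAction b M) (G : GammaNine),
    ∃ c : ℝ, 0 < c ∧ ∀ g : ℝ, 0 < g → ∀ P : F →ₗ[ℂ] F, IsParity M G P →
      ∀ φ : Cfg N → F, IsCoreVec b R φ → (∀ x, P (φ x) = -φ x) →
        c * ∫ x, ‖φ x‖ ^ 2 ≤ qf b M G g 1 φ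

/-- **All zero states are even.** -/
theorem evenAll_of_oddGap {N : ℕ} (hO : OddGap N) : EvenAll N := by
  intro F _ _ _ _ b M R G ψ hψ P hP
  by_contra hne
  obtain ⟨c, hc, hO⟩ := hO F b M R G
  set χ : Cfg N → F := fun x => (1 / 2 : ℂ) • (ψ x + (-1 : ℂ) • P (ψ x)) with hχdef
  have hχ : χ ∈ zset b M R G 1 0 :=
    zset_smul (1 / 2) (zset_add hψ (zset_smul (-1) (zset_P hP hψ)))
  have hodd : ∀ x, P (χ x) = -χ x := fun x => by
    simp only [hχdef, map_smul, map_add, hP.sq]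
    module
  have hI : Integrable fun x => ‖χ x‖ ^ 2 := hχ.1.integrable_norm_pow (by norm_num)
  set n : ℝ := ∫ x, ‖χ x‖ ^ 2 with hn
  have hn0 : 0 < n := by
    refine lt_of_le_of_ne (integral_nonneg fun x => sq_nonneg _) fun h1 => hne ?_
    have h2 := (integral_eq_zero_iff_of_nonneg (fun x => sq_nonneg ‖χ x‖) hI).1 (hn ▸ h1.symm)
    filter_upwards [h2] with x hx
    have h3 : ‖χ x‖ ^ 2 = 0 := hx
    have h4 : χ x = 0 := by simpa using h3
    have h5 : ψ x + (-1 : ℂ) • P (ψ x) = 0 := by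
      rcases smul_eq_zero.1 h4 with h6 | h6
      · norm_num at h6
      · exact h6
    rw [neg_smul, one_smul] at h5
    exact (add_neg_eq_zero.1 h5).symm
  set ε : ℝ := min (n / 16) (c * n / 4) with hε
  have hε0 : 0 < ε := by positivity
  have hε1 : ε ≤ n / 16 := min_le_left _ _
  have hε2 : ε ≤ c * n / 4 := min_le_right _ _
  obtain ⟨ρ0, hρ0, h1⟩ := QM0363.quasi_g hχ hε0
  obtain ⟨g1, hg1, h2⟩ := h1 ρ0 hρ0 le_rfl
  obtain ⟨φ, hφ, -, h3, h4⟩ := h2 g1 le_rfl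
  set l : ℝ := g1 ^ ((1 : ℝ) / 3) with hl
  have hl0 : 0 < l := Real.rpow_pos_of_pos hg1 _
  have hU2 : MemLp (Us l χ) 2 volume := Us_memLp hl0 hχ.1
  have hUn : ∫ x, ‖Us l χ x‖ ^ 2 = n := by rw [ScaleD423.integral_norm_sq_Us hl0, hn]
  obtain ⟨φ', hφ', ho, h5, h6⟩ := odd_part hP hφ (Us_odd hodd l) hU2 h3 h4
  set Φ : core b R := ⟨φ', hφ'⟩ with hΦ
  have hlow : n / 2 ≤ ‖ιC R Φ‖ ^ 2 := by
    have h7 : ‖ιC R Φ - hU2.toLp (Us l χ)‖ ^ 2 ≤ ε := by
      rw [norm_ιC_sub_sq]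
      exact h5
    have h8 : ‖hU2.toLp (Us l χ)‖ ^ 2 = n := by
      rw [norm_toLp_sq]
      exact hUn
    set s : ℝ := ‖hU2.toLp (Us l χ)‖ with hs
    have hs0 : 0 ≤ s := norm_nonneg _
    have h10 : ‖ιC R Φ - hU2.toLp (Us l χ)‖ ≤ s / 4 := by
      refine (pow_le_pow_iff_left₀ (norm_nonneg _) (by positivity) two_ne_zero).1 (h7.trans ?_)
      rw [div_pow, h8]
      norm_num
      linarith
    have h11 : 3 / 4 * s ≤ ‖ιC R Φ‖ := by
      have h12 := norm_sub_norm_le (hU2.toLp (Us l χ)) (ιC R Φ)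
      rw [norm_sub_rev] at h12
      linarith
    have h12 : (3 / 4 * s) ^ 2 ≤ ‖ιC R Φ‖ ^ 2 := pow_le_pow_left₀ (by positivity) h11 2
    nlinarith
  rw [norm_ιC_sq] at hlow
  have h7 := hO g1 hg1 P hP φ' hφ' ho
  have h8 : c * (n / 2) ≤ c * ∫ x, ‖φ' x‖ ^ 2 := mul_le_mul_of_nonneg_left hlow hc.le
  have h9 : 0 < c * n := by positivity
  linarith

end Crest.Agent.R330.Even2478

end
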