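import Crest.Agent.R330.Lit_416

/-!
# Row 330: sectors of a form with an involution (helper478)

`V →ι H`, `V →Q H'` as in `FA_416`. `Sym ι Q U W` : an involution `U` of `V`, implemented by a linear
isometry `W` of `H`, which preserves `‖Q φ‖`.

* `sec U s` : the sector `U φ = s φ` (`s = 1` or `s = -1`), `ιs`, `Qs` the restrictions.
* `Sym.gap` : the gap passes to the sectors.
* `Sym.dimGe_add` : `k` even and one odd dimension give `k + 1` dimensions.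
-/

set_option autoImplicit false
set_option linter.unusedSectionVars false

open Filter Topology
open scoped InnerProductSpace

noncomputable section

namespace Crest.Agent.R330.Sector478

open Crest.Agent.R330.FA416

variable {V H H' : Type*} [AddCommGroup V] [Module ℂ V] [NormedAddCommGroup H]
  [InnerProductSpace ℂ H] [NormedAddCommGroup H'] [InnerProductSpace ℂ H']

/-- The sector `U φ = s φ`. -/
def sec (U : V →ₗ[ℂ] V) (s : ℂ) : Submodule ℂ V := LinearMap.ker (U - s • LinearMap.id)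

theorem mem_sec {U : V →ₗ[ℂ] V} {s : ℂ} {φ : V} : φ ∈ sec U s ↔ U φ = s • φ := by
  unfold sec
  rw [LinearMap.mem_ker, LinearMap.sub_apply, LinearMap.smul_apply, LinearMap.id_apply, sub_eq_zero]

/-- An involution compatible with the form. -/
structure Sym (ι : V →ₗ[ℂ] H) (Q : V →ₗ[ℂ] H') (U : V →ₗ[ℂ] V) (W : H →ₗᵢ[ℂ] H) : Prop where
  comm : ∀ φ, W (ι φ) = ι (U φ)
  sqU : ∀ φ, U (U φ) = φ
  sqW : ∀ x, W (W x) = x
  q : ∀ φ, ‖Q (U φ)‖ = ‖Q φ‖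

variable {ι : V →ₗ[ℂ] H} {Q : V →ₗ[ℂ] H'} {U : V →ₗ[ℂ] V} {W : H →ₗᵢ[ℂ] H} {s : ℂ}

variable (ι) in
/-- The embedding of the sector. -/
abbrev ιs (U : V →ₗ[ℂ] V) (s : ℂ) : sec U s →ₗ[ℂ] H := ι ∘ₗ (sec U s).subtype

variable (Q) in
/-- The charges on the sector. -/
abbrev Qs (U : V →ₗ[ℂ] V) (s : ℂ) : sec U s →ₗ[ℂ] H' := Q ∘ₗ (sec U s).subtype

/-- The projection on the sector. -/
def pr (U : V →ₗ[ℂ] V) (s : ℂ) (φ : V) : V := (1 / 2 : ℂ) • (φ + s • U φ)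

theorem pr_mem (hU : ∀ φ, U (U φ) = φ) (hs : s * s = 1) (φ : V) : pr U s φ ∈ sec U s := by
  rw [mem_sec, pr, map_smul, map_add, map_smul, hU, smul_comm]
  congr 1
  rw [smul_add, smul_smul, hs, one_smul, add_comm]

theorem norm_s (hs : s * s = 1) : ‖s‖ = 1 := by
  have h1 : ‖s‖ * ‖s‖ = 1 := by rw [← norm_mul, hs, norm_one]
  have h2 : ‖s‖ ^ 2 = 1 := by rw [sq]; exact h1
  exact (pow_eq_one_iff_of_nonneg (norm_nonneg s) two_ne_zero).1 h2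

theorem norm_Q_pr (h : Sym ι Q U W) (hs : s * s = 1) (φ : V) : ‖Q (pr U s φ)‖ ≤ ‖Q φ‖ := by
  rw [pr, map_smul, map_add, map_smul, norm_smul]
  have h1 : ‖Q φ + s • Q (U φ)‖ ≤ ‖Q φ‖ + ‖Q φ‖ := by
    refine (norm_add_le _ _).trans ?_
    rw [norm_smul, norm_s hs, one_mul, h.q]
  have h2 : ‖(1 / 2 : ℂ)‖ = 1 / 2 := by simp
  rw [h2]
  linarith

/-- The projection in `H`. -/
def prH (W : H →ₗᵢ[ℂ] H) (s : ℂ) (x : H) : H := (1 / 2 : ℂ) • (x + s • W x)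

theorem norm_prH (hs : s * s = 1) (x : H) : ‖prH W s x‖ ≤ ‖x‖ := by
  rw [prH, norm_smul]
  have h1 : ‖x + s • W x‖ ≤ ‖x‖ + ‖x‖ := by
    refine (norm_add_le _ _).trans ?_
    rw [norm_smul, norm_s hs, one_mul, W.norm_map]
  have h2 : ‖(1 / 2 : ℂ)‖ = 1 / 2 := by simp
  rw [h2]
  linarith

theorem prH_sub (x y : H) : prH W s x - prH W s y = prH W s (x - y) := by
  simp only [prH, map_sub]
  module

theorem prH_ι (h : Sym ι Q U W) (φ : V) : prH W s (ι φ) = ι (pr U s φ) := by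
  rw [prH, pr, h.comm, map_smul, map_add, map_smul]

theorem continuous_prH : Continuous (prH W s) := by
  unfold prH
  exact continuous_const.smul (continuous_id.add (continuous_const.smul W.continuous))

/-- zero states project to zero states of the sector -/
theorem prH_mem (h : Sym ι Q U W) (hs : s * s = 1) {x : H} (hx : x ∈ kerF ι Q) :
    prH W s x ∈ kerF (ιs ι U s) (Qs Q U s) := by
  obtain ⟨φ, h1, h2⟩ := mem_kerF.1 hx
  refine mem_kerF.2 ⟨fun n => ⟨pr U s (φ n), pr_mem h.sqU hs _⟩, ?_, ?_⟩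
  · have h3 : ∀ n, (ιs ι U s) ⟨pr U s (φ n), pr_mem h.sqU hs _⟩ = prH W s (ι (φ n)) :=
      fun n => (prH_ι h _).symm
    simp only [h3]
    exact (continuous_prH.tendsto x).comp h1
  · refine squeeze_zero_norm (fun n => ?_) (tendsto_norm_zero.comp h2)
    exact norm_Q_pr h hs (φ n)

/-- **The gap passes to the sectors.** -/
theorem Sym.gap (h : Sym ι Q U W) (hs : s * s = 1) {δ : ℝ} (hδ : 0 ≤ δ) (hG : Gap ι Q δ) :
    Gap (ιs ι U s) (Qs Q U s) δ := by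
  rintro ⟨φ, hφ⟩
  obtain ⟨ψ, h1, h2⟩ := hG φ
  refine ⟨prH W s ψ, prH_mem h hs h1, le_trans (mul_le_mul_of_nonneg_left ?_ hδ) h2⟩
  have h3 : prH W s (ι φ) = ι φ := by
    rw [prH, h.comm, mem_sec.1 hφ, map_smul, smul_smul, hs, one_smul, ← two_smul ℂ, smul_smul]
    norm_num
  have h4 : ‖(ιs ι U s) ⟨φ, hφ⟩ - prH W s ψ‖ ≤ ‖ι φ - ψ‖ := by
    have h5 : (ιs ι U s) ⟨φ, hφ⟩ = prH W s (ι φ) := h3.symm
    rw [h5, prH_sub]
    exact norm_prH hs _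
  exact pow_le_pow_left₀ (norm_nonneg _) h4 2

theorem kerF_sec_le {x : H} (hx : x ∈ kerF (ιs ι U s) (Qs Q U s)) : x ∈ kerF ι Q := by
  obtain ⟨φ, h1, h2⟩ := mem_kerF.1 hx
  exact mem_kerF.2 ⟨fun n => φ n, h1, h2⟩

theorem W_of_kerF_sec (h : Sym ι Q U W) {x : H} (hx : x ∈ kerF (ιs ι U s) (Qs Q U s)) :
    W x = s • x := by
  obtain ⟨φ, h1, -⟩ := mem_kerF.1 hx
  have h2 : ∀ n, W ((ιs ι U s) (φ n)) = s • (ιs ι U s) (φ n) := fun n => by
    have h3 : (ιs ι U s) (φ n) = ι (φ n : V) := rfl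
    rw [h3, h.comm, mem_sec.1 (φ n).2, map_smul]
  have h3 := (W.continuous.tendsto x).comp h1
  have h4 := h1.const_smul s
  refine tendsto_nhds_unique h3 (h4.congr fun n => (h2 n).symm)

/-- The kernel of the sector has dimension at least `k`. -/
def DimS (ι : V →ₗ[ℂ] H) (Q : V →ₗ[ℂ] H') (U : V →ₗ[ℂ] V) (s : ℂ) (k : ℕ) : Prop :=
  DimGe (ιs ι U s) (Qs Q U s) k

/-- The dimension of the kernel of a sector is constant. -/
theorem dimS_const [CompleteSpace H] {Qf : ℝ → V →ₗ[ℂ] H'} {S : Set ℝ} (hS : IsPreconnected S)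
    {δ : ℝ} (hδ : 0 < δ) (hG : ∀ t ∈ S, Gap ι (Qf t) δ) (hsym : ∀ t ∈ S, Sym ι (Qf t) U W)
    (hs : s * s = 1)
    (hloc : ∀ r ∈ S, ∃ C : ℝ, ∀ t ∈ S, ∀ φ,
      ‖Qf t φ - Qf r φ‖ ≤ C * |t - r| * (‖Qf r φ‖ + ‖ι φ‖)) {k : ℕ} {r t : ℝ} (hr : r ∈ S)
    (ht : t ∈ S) (h : DimS ι (Qf r) U s k) : DimS ι (Qf t) U s k := by
  refine (dimGe_const (ι := ιs ι U s) (Qf := fun g => Qs (Qf g) U s) hS hδ
    (fun g hg => (hsym g hg).gap hs hδ.le (hG g hg)) (fun r hr => ?_) hr ht).1 h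
  obtain ⟨C, hC⟩ := hloc r hr
  exact ⟨C, 1, one_pos, fun t ht _ φ => hC t ht φ⟩

/-- Counting in a sector. -/
theorem dimS_of_small [CompleteSpace H] (h : Sym ι Q U W) (hs : s * s = 1) {δ : ℝ}
    (hG : Gap ι Q δ) (hδ : 0 ≤ δ) {k : ℕ} (w : Fin k → V) (hw : ∀ i, w i ∈ sec U s)
    (hc : ∀ c : Fin k → ℂ, c ≠ 0 →
      ‖Q (∑ i, c i • w i)‖ ^ 2 < δ * ‖ι (∑ i, c i • w i)‖ ^ 2) : DimS ι Q U s k := by
  refine dimGe_of_small (h.gap hs hδ hG) hδ (fun i => ⟨w i, hw i⟩) fun c h0 => ?_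
  have h1 : (sec U s).subtype (∑ i, c i • (⟨w i, hw i⟩ : sec U s)) = ∑ i, c i • w i := by
    rw [map_sum]
    rfl
  have h2 := hc c h0
  rw [← h1] at h2
  exact h2

/-- Counting in a sector, almost orthonormal family. -/
theorem dimS_of_gram [CompleteSpace H] (h : Sym ι Q U W) (hs : s * s = 1) {δ : ℝ}
    (hG : Gap ι Q δ) (hδ : 0 ≤ δ) {k : ℕ} (w : Fin k → V) (hw : ∀ i, w i ∈ sec U s) {ε τ : ℝ}
    (hg : ∀ i j, ‖⟪ι (w i), ι (w j)⟫_ℂ - (if i = j then 1 else 0)‖ ≤ ε)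
    (hQ : ∀ i, ‖Q (w i)‖ ≤ τ) (hk : k * τ ^ 2 < δ * (1 - k * ε)) : DimS ι Q U s k :=
  Lit416.dimGe_of_gram (h.gap hs hδ hG) hδ (fun i => ⟨w i, hw i⟩) hg hQ hk

/-- **Adding the dimensions of the two sectors.** -/
theorem Sym.dimGe_add (h : Sym ι Q U W) {k : ℕ} (h1 : DimS ι Q U 1 k)
    (h2 : DimS ι Q U (-1) 1) : DimGe ι Q (k + 1) := by
  obtain ⟨e, he, hm⟩ := h1
  obtain ⟨f, hf, hn⟩ := h2
  refine ⟨Matrix.vecCons (f 0) e, orthonormal_vecCons_iff.2 ⟨hf.1 0, fun i => ?_, he⟩,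
    fun i => ?_⟩
  · have h3 := W_of_kerF_sec h (hm i)
    have h4 := W_of_kerF_sec h (hn 0)
    have h5 := W.inner_map_map (f 0) (e i)
    rw [h3, h4, inner_smul_left, inner_smul_right] at h5
    have h6 : -⟪f 0, e i⟫_ℂ = ⟪f 0, e i⟫_ℂ := by simpa using h5
    have h7 : (2 : ℂ) * ⟪f 0, e i⟫_ℂ = 0 := by
      rw [two_mul]
      nth_rewrite 1 [← h6]
      simp
    rcases mul_eq_zero.1 h7 with h8 | h8
    · norm_num at h8
    · exact h8
  · refine Fin.cases ?_ (fun j => ?_) i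
    · exact kerF_sec_le (hn 0)
    · exact kerF_sec_le (hm j)

end Crest.Agent.R330.Sector478

end
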