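import Crest.Agent.R330.Close_478
import Crest.Agent.R330.Par_478
import Crest.Agent.R330.Sector_478
import Crest.Agent.R330.QM0_363

/-!
# Row 330: all zero states are even (helper478)

* `TrialEven N` : the trial states of section 5, even.
* `evenAll_of` : `GapAll N`, `L42All N`, `Weak N`, `TrialEven N` give `EvenAll N`.
-/

set_option autoImplicit false
set_option linter.unusedSectionVars false

open MeasureTheory Filter Topology Crest.MathPhysics.MatrixQM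
open scoped ContDiff InnerProductSpace ENNReal

noncomputable section

namespace Crest.Agent.R330.Even478

open Crest.Agent.R330.Defs478 Crest.Agent.R330.Top478 Crest.Agent.R330.Sec478
  Crest.Agent.R330.SInd478 Crest.Agent.R330.Par478 Crest.Agent.R330.Sector478
  Crest.Agent.R330.FA416 Crest.Agent.R330.Dict416 Crest.Agent.R330.Close478
  Crest.Agent.R330.Scale423

/-- Even trial states at weak coupling. -/
def TrialEven (N : ℕ) : Prop :=
  ∀ (F : Type) [NormedAddCommGroup F] [InnerProductSpace ℂ F] [FiniteDimensional ℂ F]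
    [Nontrivial F] (b : ColorBasis N) (M : FermionRep N F) (R : GaugeAction b M) (G : GammaNine)
    (ε : ℝ), 0 < ε → ∃ g₀ : ℝ, 0 < g₀ ∧ ∀ g : ℝ, 0 < g → g < g₀ →
      ∃ φ : Nat.Partition N → Cfg N → F, (∀ l, IsCoreVec b R (φ l)) ∧
        (∀ l, 0 < ∫ x, ‖φ l x‖ ^ 2) ∧
        (∀ l, qf b M G g 1 (φ l) ≤ ε * ∫ x, ‖φ l x‖ ^ 2) ∧
        (∀ l l', l ≠ l' → Disjoint (tsupport (φ l)) (tsupport (φ l'))) ∧
        ∀ (P : F →ₗ[ℂ] F), IsParity M G P → ∀ l x, P (φ l x) = φ l x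

variable {N : ℕ} {F : Type*} [NormedAddCommGroup F] [InnerProductSpace ℂ F]
  [FiniteDimensional ℂ F] {b : ColorBasis N} {M : FermionRep N F} {R : GaugeAction b M}
  {G : GammaNine}

/-! ## the involution -/

section inv

variable [Nontrivial F] {P : F →ₗ[ℂ] F} (hP : IsParity M G P)

variable (R) in
/-- parity on the core -/
def UL : core b R →ₗ[ℂ] core b R where
  toFun φ := ⟨fun x => P (φ.1 x), core_P (hP.rho R) φ.2⟩
  map_add' φ ψ := by
    apply Subtype.ext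
    funext x
    exact map_add P _ _
  map_smul' c φ := by
    apply Subtype.ext
    funext x
    exact map_smul P _ _

include hP in
theorem norm_compLp (f : L2 N F) :
    ‖(LinearMap.toContinuousLinearMap P).compLp f‖ = ‖f‖ := by
  rw [Lp.norm_def, Lp.norm_def]
  congr 1
  refine eLpNorm_congr_norm_ae ?_
  filter_upwards [(LinearMap.toContinuousLinearMap P).coeFn_compLp f] with x hx
  rw [hx]
  exact hP.norm _

/-- parity on `L²` -/
def WL : L2 N F →ₗᵢ[ℂ] L2 N F where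
  toLinearMap := ((LinearMap.toContinuousLinearMap P).compLpL 2 volume).toLinearMap
  norm_map' f := norm_compLp hP f

theorem WL_coeFn (f : L2 N F) : (WL hP f : Cfg N → F) =ᵐ[volume] fun x => P (f x) :=
  (LinearMap.toContinuousLinearMap P).coeFn_compLp f

theorem sym (g m : ℝ) : Sym (ιC R) (QC R G g m) (UL R hP) (WL hP) where
  comm φ := by
    apply Lp.ext
    refine (WL_coeFn hP _).trans ?_
    have h1 : (ιC R φ : Cfg N → F) =ᵐ[volume] φ.1 := (cv_memLp φ.2).coeFn_toLp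
    have h2 : (ιC R (UL R hP φ) : Cfg N → F) =ᵐ[volume] fun x => P (φ.1 x) :=
      (cv_memLp (UL R hP φ).2).coeFn_toLp
    filter_upwards [h1, h2] with x h1 h2
    rw [h1, h2]
  sqU φ := by
    apply Subtype.ext
    funext x
    exact hP.sq _
  sqW f := by
    apply Lp.ext
    refine (WL_coeFn hP _).trans ?_
    filter_upwards [WL_coeFn hP f] with x h1
    rw [h1, hP.sq]
  q φ := by
    have h1 : ‖QC R G g m (UL R hP φ)‖ ^ 2 = ‖QC R G g m φ‖ ^ 2 := by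
      rw [norm_QC_sq, norm_QC_sq]
      congr 1
      exact qf_P hP g m (cv_diff φ.2)
    exact (pow_left_inj₀ (norm_nonneg _) (norm_nonneg _) two_ne_zero).1 h1

end inv

/-! ## the dimensions of the sectors do not depend on the coupling -/

theorem QC_loc (h42 : Const416.L42 b M R G) {s : ℝ} (hs : 0 < s) :
    ∃ C : ℝ, ∀ t : ℝ, ∀ φ, ‖QC R G t 1 φ - QC R G s 1 φ‖ ≤
      C * |t - s| * (‖QC R G s 1 φ‖ + ‖ιC R φ‖) := by
  obtain ⟨C, hC⟩ := h42 s hs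
  refine ⟨Real.sqrt (max C 0), fun t φ => ?_⟩
  have h1 := hC φ.1 φ.2
  have hq00 := Lit416.qf_nonneg (b := b) (M := M) (G := G) (g := s) (m := 1) φ.1
  have hi0 : 0 ≤ ∫ x, ‖φ.1 x‖ ^ 2 := integral_nonneg fun x => sq_nonneg _
  have hq : qf b M G s 1 φ.1 + ∫ x, ‖φ.1 x‖ ^ 2 ≤ ‖QC R G s 1 φ‖ ^ 2 + ‖ιC R φ‖ ^ 2 := by
    rw [norm_QC_sq, norm_ιC_sq]
    linarith
  have h2 : ‖QC R G t 1 φ - QC R G s 1 φ‖ ^ 2 ≤
      (Real.sqrt (max C 0) * |t - s| * (‖QC R G s 1 φ‖ + ‖ιC R φ‖)) ^ 2 := by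
    rw [Const416.norm_QC_sub, mul_pow, mul_pow, Real.sq_sqrt (le_max_right _ _), sq_abs]
    calc (t - s) ^ 2 * ∑ α, ∫ x,
          ‖dcharge b M G 1 0 α φ.1 x - dcharge b M G 0 0 α φ.1 x‖ ^ 2
        ≤ (t - s) ^ 2 * (max C 0 * (‖QC R G s 1 φ‖ ^ 2 + ‖ιC R φ‖ ^ 2)) := by
          refine mul_le_mul_of_nonneg_left (h1.trans ?_) (sq_nonneg _)
          calc C * (qf b M G s 1 φ.1 + ∫ x, ‖φ.1 x‖ ^ 2)
              ≤ max C 0 * (qf b M G s 1 φ.1 + ∫ x, ‖φ.1 x‖ ^ 2) :=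
                mul_le_mul_of_nonneg_right (le_max_left _ _) (add_nonneg hq00 hi0)
            _ ≤ _ := mul_le_mul_of_nonneg_left hq (le_max_right _ _)
      _ ≤ (t - s) ^ 2 * (max C 0 * (‖QC R G s 1 φ‖ + ‖ιC R φ‖) ^ 2) := by
          refine mul_le_mul_of_nonneg_left (mul_le_mul_of_nonneg_left ?_ (le_max_right _ _))
            (sq_nonneg _)
          have := mul_nonneg (norm_nonneg (QC R G s 1 φ)) (norm_nonneg (ιC R φ))
          nlinarith
      _ = _ := by ring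
  exact (pow_le_pow_iff_left₀ (norm_nonneg _) (by positivity) two_ne_zero).1 h2

theorem dimGe_sector [Nontrivial F] {P : F →ₗ[ℂ] F} (hP : IsParity M G P) {δ : ℝ} (hδ : 0 < δ)
    (hG : ∀ g : ℝ, 0 < g → GapZ b M R G g 1 δ) (h42 : Const416.L42 b M R G) {z : ℂ}
    (hz : z * z = 1) {k : ℕ} {s t : ℝ} (hs : 0 < s) (ht : 0 < t)
    (h : DimS (ιC R) (QC R G s 1) (UL R hP) z k) : DimS (ιC R) (QC R G t 1) (UL R hP) z k := by
  refine dimS_const (ι := ιC R) (U := UL R hP) (W := WL hP) (Qf := fun g => QC R G g 1)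
    (S := Set.Ioi 0) isPreconnected_Ioi (δ := 16 * δ) (by positivity)
    (fun g hg => Lit416.gapZ_iff.1 (hG g hg)) (fun g _ => sym hP g 1) hz (fun s hs => ?_) hs ht h
  obtain ⟨C, hC⟩ := QC_loc h42 hs
  exact ⟨C, fun t _ φ => hC t φ⟩

/-! ## odd quasi-modes -/

theorem odd_part [Nontrivial F] {P : F →ₗ[ℂ] F} (hP : IsParity M G P) {g : ℝ} {φ : Cfg N → F}
    (hφ : IsCoreVec b R φ) {χ : Cfg N → F} (hχ : ∀ x, P (χ x) = -χ x) (hχ2 : MemLp χ 2 volume)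
    {ε : ℝ} (h1 : ∫ x, ‖φ x - χ x‖ ^ 2 ≤ ε) (h2 : qf b M G g 1 φ ≤ ε) :
    ∃ φ', IsCoreVec b R φ' ∧ (∀ x, P (φ' x) = -φ' x) ∧ ∫ x, ‖φ' x - χ x‖ ^ 2 ≤ ε ∧
      qf b M G g 1 φ' ≤ ε := by
  set Φ : core b R := ⟨φ, hφ⟩ with hΦ
  have hs : ((-1 : ℂ)) * (-1) = 1 := by norm_num
  have hm := pr_mem (U := UL R hP) (sym (R := R) hP g 1).sqU hs Φ
  refine ⟨(pr (UL R hP) (-1) Φ).1, (pr (UL R hP) (-1) Φ).2, fun x => ?_, ?_, ?_⟩
  · have h3 := congrArg (fun y : core b R => y.1 x) (mem_sec.1 hm)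
    have h4 : P ((pr (UL R hP) (-1) Φ).1 x) = ((-1 : ℂ) • (pr (UL R hP) (-1) Φ)).1 x := h3
    rw [h4]
    have h5 : ((-1 : ℂ) • (pr (UL R hP) (-1) Φ)).1 x = (-1 : ℂ) • (pr (UL R hP) (-1) Φ).1 x := rfl
    rw [h5, neg_smul, one_smul]
  · have h3 : prH (WL hP) (-1) (hχ2.toLp χ) = hχ2.toLp χ := by
      have h4 : WL hP (hχ2.toLp χ) = -hχ2.toLp χ := by
        apply Lp.ext
        refine (WL_coeFn hP _).trans ?_
        filter_upwards [hχ2.coeFn_toLp, Lp.coeFn_neg (hχ2.toLp χ)] with x h5 h6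
        rw [h6, Pi.neg_apply, h5, hχ]
      rw [prH, h4]
      simp only [smul_neg, neg_smul, one_smul, neg_neg]
      rw [← two_smul ℂ, smul_smul]
      norm_num
    rw [← norm_ιC_sub_sq (pr (UL R hP) (-1) Φ) hχ2, ← prH_ι (sym (R := R) hP g 1), ← h3, prH_sub]
    refine le_trans (pow_le_pow_left₀ (norm_nonneg _) (norm_prH hs _) 2) ?_
    rw [norm_ιC_sub_sq]
    exact h1
  · have h3 := norm_Q_pr (sym (R := R) hP g 1) hs Φ
    have h4 := pow_le_pow_left₀ (norm_nonneg _) h3 2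
    rw [norm_QC_sq, norm_QC_sq] at h4
    have h5 : qf b M G g 1 Φ.1 ≤ ε := h2
    linarith

theorem Us_odd {P : F →ₗ[ℂ] F} {χ : Cfg N → F} (hχ : ∀ x, P (χ x) = -χ x) (l : ℝ) (x : Cfg N) :
    P (Us l χ x) = -Us l χ x := by
  rw [Us_apply, map_smul, hχ, smul_neg]

theorem sum_one_smul {V : Type*} [AddCommGroup V] [Module ℂ V] (c : Fin 1 → ℂ) (v : V) :
    ∑ i, c i • v = c 0 • v := by simp

/-- An odd zero state gives an odd kernel of `Q^{g,1}` at some coupling. -/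
theorem exists_odd [Nontrivial F] {P : F →ₗ[ℂ] F} (hP : IsParity M G P) {δ : ℝ} (hδ : 0 < δ)
    (hG : ∀ g : ℝ, 0 < g → GapZ b M R G g 1 δ) {χ : Cfg N → F} (hχ : χ ∈ zset b M R G 1 0)
    (hodd : ∀ x, P (χ x) = -χ x) (hn : ∫ x, ‖χ x‖ ^ 2 = 1) :
    ∃ g : ℝ, 0 < g ∧ DimS (ιC R) (QC R G g 1) (UL R hP) (-1) 1 := by
  set ε : ℝ := min (1 / 16) (δ / 4) with hε
  have hε0 : 0 < ε := by positivity
  have hε1 : ε ≤ 1 / 16 := min_le_left _ _
  have hε2 : ε ≤ δ / 4 := min_le_right _ _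
  obtain ⟨ρ0, hρ0, h1⟩ := QM0363.quasi_g hχ hε0
  obtain ⟨g1, hg1, h2⟩ := h1 ρ0 hρ0 le_rfl
  obtain ⟨φ, hφ, -, h3, h4⟩ := h2 g1 le_rfl
  set l : ℝ := g1 ^ ((1 : ℝ) / 3) with hl
  have hl0 : 0 < l := Real.rpow_pos_of_pos hg1 _
  have hU2 : MemLp (Us l χ) 2 volume := Us_memLp hl0 hχ.1
  have hUn : ∫ x, ‖Us l χ x‖ ^ 2 = 1 := by rw [ScaleD423.integral_norm_sq_Us hl0, hn]
  obtain ⟨φ', hφ', ho, h5, h6⟩ := odd_part hP hφ (Us_odd hodd l) hU2 h3 h4
  set Φ : core b R := ⟨φ', hφ'⟩ with hΦ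
  have hmem : Φ ∈ sec (UL R hP) (-1) := by
    rw [mem_sec]
    apply Subtype.ext
    funext x
    have h7 : ((-1 : ℂ) • Φ).1 x = (-1 : ℂ) • φ' x := rfl
    rw [h7, neg_smul, one_smul]
    exact ho x
  have hlow : 1 / 2 ≤ ‖ιC R Φ‖ ^ 2 := by
    have h7 : ‖ιC R Φ - hU2.toLp (Us l χ)‖ ^ 2 ≤ ε := by
      rw [norm_ιC_sub_sq]
      exact h5
    have h8 : ‖hU2.toLp (Us l χ)‖ ^ 2 = 1 := by
      rw [norm_toLp_sq]
      exact hUn
    have h9 : ‖hU2.toLp (Us l χ)‖ = 1 :=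
      (pow_eq_one_iff_of_nonneg (norm_nonneg _) two_ne_zero).1 h8
    have h10 : ‖ιC R Φ - hU2.toLp (Us l χ)‖ ≤ 1 / 4 := by
      refine (pow_le_pow_iff_left₀ (norm_nonneg _) (by norm_num) two_ne_zero).1 (h7.trans ?_)
      norm_num
      linarith
    have h11 : 1 - 1 / 4 ≤ ‖ιC R Φ‖ := by
      have h12 := norm_sub_norm_le (hU2.toLp (Us l χ)) (ιC R Φ)
      rw [norm_sub_rev, h9] at h12
      linarith
    nlinarith
  refine ⟨g1, hg1, dimS_of_small (sym hP g1 1) (by norm_num) (Lit416.gapZ_iff.1 (hG g1 hg1))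
    (by positivity) (fun _ => Φ) (fun _ => hmem) fun c hc => ?_⟩
  have hc0 : c 0 ≠ 0 := fun h0 => hc (funext fun i => by rw [Subsingleton.elim i 0, h0]; rfl)
  rw [sum_one_smul, map_smul, map_smul, norm_smul, norm_smul, mul_pow, mul_pow, norm_QC_sq]
  have hc1 : 0 < ‖c 0‖ ^ 2 := by positivity
  have h7 : qf b M G g1 1 Φ.1 ≤ ε := h6
  have h8 : 16 * qf b M G g1 1 Φ.1 < 16 * δ * ‖ιC R Φ‖ ^ 2 := by nlinarith
  calc ‖c 0‖ ^ 2 * (16 * qf b M G g1 1 Φ.1) < ‖c 0‖ ^ 2 * (16 * δ * ‖ιC R Φ‖ ^ 2) :=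
        mul_lt_mul_of_pos_left h8 hc1
    _ = _ := by ring

/-- Even trial states give an even kernel. -/
theorem even_of_trial [Nontrivial F] {P : F →ₗ[ℂ] F} (hP : IsParity M G P) {g δ : ℝ} (hδ : 0 < δ)
    (hG : GapZ b M R G g 1 δ) {φ : Nat.Partition N → Cfg N → F} (h1 : ∀ l, IsCoreVec b R (φ l))
    (h2 : ∀ l, 0 < ∫ x, ‖φ l x‖ ^ 2) {ε : ℝ} (h3 : ∀ l, qf b M G g 1 (φ l) ≤ ε * ∫ x, ‖φ l x‖ ^ 2)
    (h4 : ∀ l l', l ≠ l' → Disjoint (tsupport (φ l)) (tsupport (φ l')))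
    (h5 : ∀ l x, P (φ l x) = φ l x) (hε0 : 0 ≤ ε) (hε : pN N * ε < δ) :
    DimS (ιC R) (QC R G g 1) (UL R hP) 1 (pN N) := by
  set e : Fin (pN N) ≃ Nat.Partition N := (Fintype.equivFin _).symm with he
  set Φ : Nat.Partition N → core b R := fun l => ⟨φ l, h1 l⟩ with hΦ
  have hn : ∀ l, 0 < ‖ιC R (Φ l)‖ := fun l => by
    have h6 := h2 l
    rw [show ∫ x, ‖φ l x‖ ^ 2 = ‖ιC R (Φ l)‖ ^ 2 from (norm_ιC_sq (Φ l)).symm] at h6
    refine norm_pos_iff.2 fun h7 => ?_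
    rw [h7, norm_zero] at h6
    norm_num at h6
  set w : Fin (pN N) → core b R := fun i => ((‖ιC R (Φ (e i))‖⁻¹ : ℝ) : ℂ) • Φ (e i) with hw
  have hin : ∀ l l', l ≠ l' → ⟪ιC R (Φ l), ιC R (Φ l')⟫_ℂ = 0 := fun l l' hll => by
    rw [inner_ιC]
    have h6 : ∀ x, ⟪(Φ l).1 x, (Φ l').1 x⟫_ℂ = 0 := fun x => by
      by_cases hx : φ l x = 0
      · show ⟪φ l x, φ l' x⟫_ℂ = 0
        rw [hx, inner_zero_left]
      · have h7 : x ∉ tsupport (φ l') := fun hx' =>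
          (Set.disjoint_left.1 (h4 l l' hll)) (subset_tsupport _ hx) hx'
        have h8 : φ l' x = 0 := image_eq_zero_of_notMem_tsupport h7
        show ⟪φ l x, φ l' x⟫_ℂ = 0
        rw [h8, inner_zero_right]
    simp only [h6, integral_zero]
  refine dimS_of_gram (sym hP g 1) (by norm_num) (Lit416.gapZ_iff.1 hG) (by positivity) w
    (fun i => ?_) (ε := 0) (τ := Real.sqrt (16 * ε)) (fun i j => ?_) (fun i => ?_) ?_
  · refine Submodule.smul_mem _ _ ?_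
    rw [mem_sec, one_smul]
    apply Subtype.ext
    funext x
    exact h5 (e i) x
  · have h6 : ⟪ιC R (w i), ιC R (w j)⟫_ℂ = if i = j then 1 else 0 := by
      simp only [hw, map_smul, inner_smul_left, inner_smul_right, Complex.conj_ofReal]
      split_ifs with hij
      · subst hij
        rw [inner_self_eq_norm_sq_to_K]
        have h7 : ((‖ιC R (Φ (e i))‖ : ℝ) : ℂ) ≠ 0 := by
          exact_mod_cast (hn (e i)).ne'
        push_cast
        field_simp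
        rfl
      · rw [hin _ _ (fun h => hij (e.injective h))]
        simp
    rw [h6, sub_self, norm_zero]
  · refine Real.le_sqrt_of_sq_le ?_
    simp only [hw, map_smul, norm_smul, mul_pow]
    rw [norm_QC_sq]
    have h6 := h3 (e i)
    rw [show ∫ x, ‖φ (e i) x‖ ^ 2 = ‖ιC R (Φ (e i))‖ ^ 2 from (norm_ιC_sq (Φ (e i))).symm] at h6
    have h7 := hn (e i)
    have h8 : ‖((‖ιC R (Φ (e i))‖⁻¹ : ℝ) : ℂ)‖ ^ 2 = (‖ιC R (Φ (e i))‖ ^ 2)⁻¹ := by
      rw [Complex.norm_real, Real.norm_eq_abs, sq_abs, inv_pow]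
    rw [h8, inv_mul_le_iff₀ (by positivity)]
    have h9 : qf b M G g 1 (Φ (e i)).1 ≤ ε * ‖ιC R (Φ (e i))‖ ^ 2 := h6
    linarith
  · rw [Real.sq_sqrt (by positivity), mul_zero, sub_zero, mul_one]
    linarith

/-- **All zero states are even.** -/
theorem evenAll_of {N : ℕ} (hG : GapAll N) (h42 : Const416.L42All N) (hW : Weak N)
    (hT : TrialEven N) : EvenAll N := by
  intro F _ _ _ _ b M R G ψ hψ P hP
  by_contra hne
  set χ : Cfg N → F := fun x => (1 / 2 : ℂ) • (ψ x + (-1 : ℂ) • P (ψ x)) with hχdef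
  have hχ : χ ∈ zset b M R G 1 0 :=
    zset_smul (1 / 2) (zset_add hψ (zset_smul (-1) (zset_P hP hψ)))
  have hodd : ∀ x, P (χ x) = -χ x := fun x => by
    simp only [hχdef, map_smul, map_add, hP.sq]
    module
  have hI : Integrable fun x => ‖χ x‖ ^ 2 := hχ.1.integrable_norm_pow (by norm_num)
  set n : ℝ := ∫ x, ‖χ x‖ ^ 2 with hn
  have hn0 : 0 < n := by
    refine lt_of_le_of_ne (integral_nonneg fun x => sq_nonneg _) fun h1 => hne ?_
    have h2 := (integral_eq_zero_iff_of_nonneg (fun x => sq_nonneg ‖χ x‖) hI).1 (hn ▸ h1.symm)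
    filter_upwards [h2] with x hx
    have h3 : ‖χ x‖ ^ 2 = 0 := hx
    have h4 : χ x = 0 := by simpa using h3
    have h5 : ψ x + (-1 : ℂ) • P (ψ x) = 0 := by
      rcases smul_eq_zero.1 h4 with h6 | h6
      · norm_num at h6
      · exact h6
    rw [neg_smul, one_smul] at h5
    exact (add_neg_eq_zero.1 h5).symm
  have hs : 0 < Real.sqrt n := Real.sqrt_pos.2 hn0
  set a : ℝ := (Real.sqrt n)⁻¹ with ha
  have ha2 : a ^ 2 * n = 1 := by
    rw [ha, inv_pow, Real.sq_sqrt hn0.le, inv_mul_cancel₀ hn0.ne']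
  have hδ : (0 : ℝ) < 1 / 24 := by norm_num
  obtain ⟨g1, hg1, h1⟩ := exists_odd (R := R) hP hδ (fun g hg => hG F b M R G g hg)
    (χ := (a : ℂ) • χ) (zset_smul _ hχ)
    (fun x => by rw [Pi.smul_apply, map_smul, hodd, smul_neg]) (by
      have h2 : ∀ x, ‖((a : ℂ) • χ) x‖ ^ 2 = a ^ 2 * ‖χ x‖ ^ 2 := fun x => by
        rw [Pi.smul_apply, norm_smul, mul_pow]
        simp
      simp only [h2, integral_const_mul]
      exact ha2)
  set ε : ℝ := 1 / (48 * pN N) with hε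
  have hp : (0 : ℝ) < pN N := by exact_mod_cast one_le_pN N
  have hε0 : 0 < ε := by positivity
  obtain ⟨g₀, hg₀, h2⟩ := hT F b M R G ε hε0
  obtain ⟨g₂, hg₂, h3⟩ := hW F b M R G
  set g : ℝ := min g₀ g₂ / 2 with hg
  have hg0 : 0 < g := by positivity
  have hgm : g < min g₀ g₂ := half_lt_self (lt_min hg₀ hg₂)
  obtain ⟨φ, a1, a2, a3, a4, a5⟩ := h2 g hg0 (hgm.trans_le (min_le_left _ _))
  have h4 := even_of_trial (R := R) hP hδ (hG F b M R G g hg0) a1 a2 a3 a4 (a5 P hP) hε0.le (by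
    rw [hε]
    field_simp
    norm_num)
  have h5 := dimGe_sector hP hδ (fun g hg => hG F b M R G g hg) (h42 F b M R G)
    (by norm_num) hg1 hg0 h1
  have h6 := (sym hP g 1).dimGe_add h4 h5
  exact (hasDim_iff.1 (h3 g hg0 (hgm.trans_le (min_le_right _ _)))).2 h6

end Crest.Agent.R330.Even478

end
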