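import Crest.Agent.R330.GaugeUn_973

/-!
# Row 330 (helper973): existence of the data

* `nonempty_colorBasis` : `Nonempty (ColorBasis N)` for every `N ≥ 1`.
* `exists_fermionRep` : for every `N` there is a non-trivial finite-dimensional fermionic module
  (Jordan-Wigner).
* `exists_data` : every colour basis has a fermionic module and a gauge action.
-/

set_option autoImplicit false
set_option linter.unusedSectionVars false

noncomputable section

open scoped InnerProductSpace Matrix ComplexConjugate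

namespace Crest.Agent.R330.Exist973

open Crest.MathPhysics.MatrixQM

/-! ### The colour basis -/

section colour

variable {N : ℕ}

/-- The isometry of `ℝ^(N×N)` on Hermitian matrices. -/
def hmat (v : EuclideanSpace ℝ (Fin N × Fin N)) : Matrix (Fin N) (Fin N) ℂ := fun i j =>
  (1 + Complex.I) / 2 * (v (i, j) : ℂ) + (1 - Complex.I) / 2 * (v (j, i) : ℂ)

theorem hmat_herm (v : EuclideanSpace ℝ (Fin N × Fin N)) : (hmat v).IsHermitian := by
  ext i j
  rw [Matrix.conjTranspose_apply, hmat, hmat, Complex.star_def, map_add, map_mul, map_mul,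
    Complex.conj_ofReal, Complex.conj_ofReal, map_div₀, map_div₀, map_add, map_sub, Complex.conj_I,
    map_one, map_ofNat]
  ring

theorem hmat_trace (v : EuclideanSpace ℝ (Fin N × Fin N)) :
    (hmat v).trace = ((∑ i, v (i, i) : ℝ) : ℂ) := by
  rw [Matrix.trace]
  push_cast
  refine Finset.sum_congr rfl fun i _ => ?_
  rw [Matrix.diag_apply, hmat]
  ring

theorem hmat_inner (v w : EuclideanSpace ℝ (Fin N × Fin N)) :
    (hmat v * hmat w).trace = ((⟪v, w⟫_ℝ : ℝ) : ℂ) := by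
  have h1 : ∀ f : Fin N → Fin N → ℂ, ∑ i, ∑ j, f i j = ∑ i, ∑ j, f j i := fun f =>
    Finset.sum_comm
  rw [Matrix.trace, PiLp.inner_apply, Fintype.sum_prod_type]
  push_cast
  simp only [Matrix.diag_apply, Matrix.mul_apply, RCLike.inner_apply, conj_trivial, hmat,
    Complex.ofReal_mul]
  have h2 : ∀ i j : Fin N, ((1 + Complex.I) / 2 * (v (i, j) : ℂ) +
      (1 - Complex.I) / 2 * (v (j, i) : ℂ)) * ((1 + Complex.I) / 2 * (w (j, i) : ℂ) +
      (1 - Complex.I) / 2 * (w (i, j) : ℂ)) =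
      (Complex.I / 2 * ((v (i, j) : ℂ) * (w (j, i) : ℂ)) +
        1 / 2 * ((w (i, j) : ℂ) * (v (i, j) : ℂ))) +
      (1 / 2 * ((w (j, i) : ℂ) * (v (j, i) : ℂ)) -
        Complex.I / 2 * ((v (j, i) : ℂ) * (w (i, j) : ℂ))) := by
    intro i j
    have h3 := Complex.I_mul_I
    linear_combination ((v (i, j) : ℂ) * (w (j, i) : ℂ) / 4 - (v (i, j) : ℂ) * (w (i, j) : ℂ) / 4
      - (v (j, i) : ℂ) * (w (j, i) : ℂ) / 4 + (v (j, i) : ℂ) * (w (i, j) : ℂ) / 4) * h3
  simp only [h2, Finset.sum_add_distrib, Finset.sum_sub_distrib]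
  rw [h1 (fun i j => 1 / 2 * ((w (j, i) : ℂ) * (v (j, i) : ℂ))),
    h1 (fun i j => Complex.I / 2 * ((v (j, i) : ℂ) * (w (i, j) : ℂ)))]
  have h4 : ∀ x y : ℂ, x + y + (y - x) = 2 * y := fun x y => by ring
  rw [h4]
  simp only [Finset.mul_sum]
  refine Finset.sum_congr rfl fun i _ => Finset.sum_congr rfl fun j _ => ?_
  ring

/-- **Every `N ≥ 1` has a colour basis.** -/
theorem nonempty_colorBasis (hN : 1 ≤ N) : Nonempty (ColorBasis N) := by
  set E := EuclideanSpace ℝ (Fin N × Fin N)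
  set δ : E := WithLp.toLp 2 (fun p : Fin N × Fin N => if p.1 = p.2 then (1 : ℝ) else 0) with hδ
  have hδ0 : δ ≠ 0 := by
    intro h
    have h1 := congrArg (fun v : E => v (⟨0, hN⟩, ⟨0, hN⟩)) h
    simp [hδ] at h1
  have hfr : Module.finrank ℝ E = (N ^ 2 - 1) + 1 := by
    have h1 : 1 ≤ N ^ 2 := Nat.one_le_pow _ _ hN
    simp only [E, finrank_euclideanSpace, Fintype.card_prod, Fintype.card_fin]
    rw [← sq]
    omega
  have : Fact (Module.finrank ℝ E = (N ^ 2 - 1) + 1) := ⟨hfr⟩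
  have hfr' : Module.finrank ℝ (ℝ ∙ δ)ᗮ = N ^ 2 - 1 := Submodule.finrank_orthogonal_span_singleton hδ0
  set e : OrthonormalBasis (Fin (N ^ 2 - 1)) ℝ (ℝ ∙ δ)ᗮ :=
    (stdOrthonormalBasis ℝ (ℝ ∙ δ)ᗮ).reindex (finCongr hfr')
  refine ⟨{ T := fun A => hmat (e A : E), herm := fun A => hmat_herm _, traceless := fun A => ?_,
            orthonormal := fun A B => ?_ }⟩
  · rw [hmat_trace]
    have h1 : ⟪δ, (e A : E)⟫_ℝ = 0 :=
      Submodule.mem_orthogonal_singleton_iff_inner_right.1 (e A).2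
    rw [PiLp.inner_apply, Fintype.sum_prod_type] at h1
    simp only [hδ, RCLike.inner_apply, conj_trivial, mul_ite, mul_one, mul_zero,
      Finset.sum_ite_eq, Finset.mem_univ, if_true] at h1
    rw [h1, Complex.ofReal_zero]
  · rw [hmat_inner]
    have h1 : ⟪(e A : E), (e B : E)⟫_ℝ = ⟪e A, e B⟫_ℝ := rfl
    rw [h1, orthonormal_iff_ite.1 e.orthonormal A B]
    split_ifs <;> simp

end colour

/-! ### Jordan-Wigner -/

section jw

variable {F : Type} [NormedAddCommGroup F] [InnerProductSpace ℂ F]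

/-- A family of CAR generators with a parity operator. -/
structure JW (I : Type) [DecidableEq I] (F : Type) [NormedAddCommGroup F]
    [InnerProductSpace ℂ F] where
  /-- the generators -/
  c : I → F →ₗ[ℂ] F
  /-- the parity -/
  Γ : F →ₗ[ℂ] F
  c_symm : ∀ i, (c i).IsSymmetric
  Γ_symm : Γ.IsSymmetric
  anti : ∀ i j v, c i (c j v) + c j (c i v) = if i = j then v else 0
  Γ_sq : ∀ v, Γ (Γ v) = v
  Γ_anti : ∀ i v, Γ (c i v) = -c i (Γ v)
  irr : ∀ W : Submodule ℂ F, (∀ i, ∀ v ∈ W, c i v ∈ W) → W = ⊥ ∨ W = ⊤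

/-- The doubled space. -/
abbrev Dbl (F : Type) := WithLp 2 (F × F)

/-- Linear maps of the doubled space. -/
def dmap (T : F × F →ₗ[ℂ] F × F) : Dbl F →ₗ[ℂ] Dbl F :=
  (WithLp.linearEquiv 2 ℂ (F × F)).symm.toLinearMap ∘ₗ T ∘ₗ
    (WithLp.linearEquiv 2 ℂ (F × F)).toLinearMap

theorem dmap_apply (T : F × F →ₗ[ℂ] F × F) (v : Dbl F) :
    dmap T v = WithLp.toLp 2 (T (WithLp.ofLp v)) := rfl

/-- The factor `1/√2`. -/
def s2 : ℝ := (Real.sqrt 2)⁻¹

theorem s2_sq : (s2 : ℂ) * (s2 : ℂ) = 1 / 2 := by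
  rw [← Complex.ofReal_mul, s2, ← mul_inv, Real.mul_self_sqrt (by norm_num)]
  norm_num

/-- The new generators. -/
def newc (Γ : F →ₗ[ℂ] F) : Bool → (F × F →ₗ[ℂ] F × F)
  | false => (s2 : ℂ) • LinearMap.prod (Γ ∘ₗ LinearMap.snd ℂ F F) (Γ ∘ₗ LinearMap.fst ℂ F F)
  | true => (s2 : ℂ) • LinearMap.prod ((-Complex.I) • (Γ ∘ₗ LinearMap.snd ℂ F F))
      (Complex.I • (Γ ∘ₗ LinearMap.fst ℂ F F))

theorem newc_false (Γ : F →ₗ[ℂ] F) (p : F × F) :
    newc Γ false p = ((s2 : ℂ) • Γ p.2, (s2 : ℂ) • Γ p.1) := rfl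

theorem newc_true (Γ : F →ₗ[ℂ] F) (p : F × F) :
    newc Γ true p = ((s2 : ℂ) • (-Complex.I) • Γ p.2, (s2 : ℂ) • Complex.I • Γ p.1) := rfl

theorem dext {v w : Dbl F} (h1 : (WithLp.ofLp v).1 = (WithLp.ofLp w).1)
    (h2 : (WithLp.ofLp v).2 = (WithLp.ofLp w).2) : v = w :=
  WithLp.ofLp_injective 2 (Prod.ext h1 h2)

/-- Generators of the doubled module. -/
def dc {I : Type} [DecidableEq I] (X : JW I F) : I ⊕ Bool → Dbl F →ₗ[ℂ] Dbl F
  | Sum.inl i => dmap (LinearMap.prodMap (X.c i) (X.c i))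
  | Sum.inr t => dmap (newc X.Γ t)

section comp

variable {I : Type} [DecidableEq I] (X : JW I F) (v : Dbl F)

theorem dc_inl_fst (i : I) : (WithLp.ofLp (dc X (Sum.inl i) v)).1 = X.c i (WithLp.ofLp v).1 := rfl
theorem dc_inl_snd (i : I) : (WithLp.ofLp (dc X (Sum.inl i) v)).2 = X.c i (WithLp.ofLp v).2 := rfl
theorem dc_f_fst : (WithLp.ofLp (dc X (Sum.inr false) v)).1 =
    (s2 : ℂ) • X.Γ (WithLp.ofLp v).2 := rfl
theorem dc_f_snd : (WithLp.ofLp (dc X (Sum.inr false) v)).2 =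
    (s2 : ℂ) • X.Γ (WithLp.ofLp v).1 := rfl
theorem dc_t_fst : (WithLp.ofLp (dc X (Sum.inr true) v)).1 =
    (s2 : ℂ) • (-Complex.I) • X.Γ (WithLp.ofLp v).2 := rfl
theorem dc_t_snd : (WithLp.ofLp (dc X (Sum.inr true) v)).2 =
    (s2 : ℂ) • Complex.I • X.Γ (WithLp.ofLp v).1 := rfl
theorem dG_fst : (WithLp.ofLp (dmap (LinearMap.prodMap X.Γ (-X.Γ)) v)).1 =
    X.Γ (WithLp.ofLp v).1 := rfl
theorem dG_snd : (WithLp.ofLp (dmap (LinearMap.prodMap X.Γ (-X.Γ)) v)).2 =
    -X.Γ (WithLp.ofLp v).2 := rfl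

end comp

/-- One Jordan-Wigner step. -/
def step {I : Type} [DecidableEq I] (X : JW I F) : JW (I ⊕ Bool) (Dbl F) where
  c := dc X
  Γ := dmap (LinearMap.prodMap X.Γ (-X.Γ))
  c_symm := by
    rintro (i | _ | _) v w
    · rw [WithLp.prod_inner_apply, WithLp.prod_inner_apply, dc_inl_fst, dc_inl_snd, dc_inl_fst,
        dc_inl_snd, X.c_symm i, X.c_symm i]
    · rw [WithLp.prod_inner_apply, WithLp.prod_inner_apply, dc_f_fst, dc_f_snd, dc_f_fst, dc_f_snd,
        inner_smul_left, inner_smul_right, inner_smul_left, inner_smul_right, X.Γ_symm, X.Γ_symm,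
        Complex.conj_ofReal, add_comm]
    · rw [WithLp.prod_inner_apply, WithLp.prod_inner_apply, dc_t_fst, dc_t_snd, dc_t_fst, dc_t_snd]
      simp only [inner_smul_left, inner_smul_right, Complex.conj_ofReal, map_neg, Complex.conj_I,
        neg_neg]
      rw [X.Γ_symm, X.Γ_symm]
      ring
  Γ_symm := by
    intro v w
    rw [WithLp.prod_inner_apply, WithLp.prod_inner_apply, dG_fst, dG_snd, dG_fst, dG_snd,
      inner_neg_left, inner_neg_right, X.Γ_symm, X.Γ_symm]
  anti := by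
    have h2 : ∀ v : F, (s2 : ℂ) • (s2 : ℂ) • v + (s2 : ℂ) • (s2 : ℂ) • v = v := fun v => by
      rw [smul_smul, ← add_smul, s2_sq]
      norm_num
    have h3 : ∀ i v, X.Γ (X.c i v) = -X.c i (X.Γ v) := X.Γ_anti
    rintro (i | _ | _) (j | _ | _) v
    · by_cases hij : i = j
      · subst hij
        rw [if_pos rfl]
        refine dext ?_ ?_
        · show X.c i (X.c i (WithLp.ofLp v).1) + X.c i (X.c i (WithLp.ofLp v).1) = _
          rw [X.anti, if_pos rfl]
        · show X.c i (X.c i (WithLp.ofLp v).2) + X.c i (X.c i (WithLp.ofLp v).2) = _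
          rw [X.anti, if_pos rfl]
      · rw [if_neg (fun h => hij (Sum.inl_injective h))]
        refine dext ?_ ?_
        · show X.c i (X.c j (WithLp.ofLp v).1) + X.c j (X.c i (WithLp.ofLp v).1) = 0
          rw [X.anti, if_neg hij]
        · show X.c i (X.c j (WithLp.ofLp v).2) + X.c j (X.c i (WithLp.ofLp v).2) = 0
          rw [X.anti, if_neg hij]
    · rw [if_neg Sum.inl_ne_inr]
      refine dext ?_ ?_
      · show X.c i ((s2 : ℂ) • X.Γ (WithLp.ofLp v).2) + (s2 : ℂ) • X.Γ (X.c i (WithLp.ofLp v).2) = 0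
        rw [map_smul, h3, smul_neg, add_neg_cancel]
      · show X.c i ((s2 : ℂ) • X.Γ (WithLp.ofLp v).1) + (s2 : ℂ) • X.Γ (X.c i (WithLp.ofLp v).1) = 0
        rw [map_smul, h3, smul_neg, add_neg_cancel]
    · rw [if_neg Sum.inl_ne_inr]
      refine dext ?_ ?_
      · show X.c i ((s2 : ℂ) • (-Complex.I) • X.Γ (WithLp.ofLp v).2) +
          (s2 : ℂ) • (-Complex.I) • X.Γ (X.c i (WithLp.ofLp v).2) = 0
        rw [map_smul, map_smul, h3, smul_neg, smul_neg, add_neg_cancel]
      · show X.c i ((s2 : ℂ) • Complex.I • X.Γ (WithLp.ofLp v).1) +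
          (s2 : ℂ) • Complex.I • X.Γ (X.c i (WithLp.ofLp v).1) = 0
        rw [map_smul, map_smul, h3, smul_neg, smul_neg, add_neg_cancel]
    · rw [if_neg Sum.inr_ne_inl]
      refine dext ?_ ?_
      · show (s2 : ℂ) • X.Γ (X.c j (WithLp.ofLp v).2) + X.c j ((s2 : ℂ) • X.Γ (WithLp.ofLp v).2) = 0
        rw [map_smul, h3, smul_neg, neg_add_cancel]
      · show (s2 : ℂ) • X.Γ (X.c j (WithLp.ofLp v).1) + X.c j ((s2 : ℂ) • X.Γ (WithLp.ofLp v).1) = 0
        rw [map_smul, h3, smul_neg, neg_add_cancel]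
    · rw [if_pos rfl]
      refine dext ?_ ?_
      · show (s2 : ℂ) • X.Γ ((s2 : ℂ) • X.Γ (WithLp.ofLp v).1) +
          (s2 : ℂ) • X.Γ ((s2 : ℂ) • X.Γ (WithLp.ofLp v).1) = _
        rw [map_smul, X.Γ_sq, h2]
      · show (s2 : ℂ) • X.Γ ((s2 : ℂ) • X.Γ (WithLp.ofLp v).2) +
          (s2 : ℂ) • X.Γ ((s2 : ℂ) • X.Γ (WithLp.ofLp v).2) = _
        rw [map_smul, X.Γ_sq, h2]
    · rw [if_neg (fun h => Bool.noConfusion (Sum.inr_injective h))]
      refine dext ?_ ?_
      · show (s2 : ℂ) • X.Γ ((s2 : ℂ) • Complex.I • X.Γ (WithLp.ofLp v).1) +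
          (s2 : ℂ) • (-Complex.I) • X.Γ ((s2 : ℂ) • X.Γ (WithLp.ofLp v).1) = 0
        simp only [map_smul, X.Γ_sq, neg_smul, smul_neg]
        rw [smul_comm Complex.I (s2 : ℂ), add_neg_cancel]
      · show (s2 : ℂ) • X.Γ ((s2 : ℂ) • (-Complex.I) • X.Γ (WithLp.ofLp v).2) +
          (s2 : ℂ) • Complex.I • X.Γ ((s2 : ℂ) • X.Γ (WithLp.ofLp v).2) = 0
        simp only [map_smul, X.Γ_sq, neg_smul, smul_neg, map_neg]
        rw [smul_comm Complex.I (s2 : ℂ), neg_add_cancel]
    · rw [if_neg Sum.inr_ne_inl]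
      refine dext ?_ ?_
      · show (s2 : ℂ) • (-Complex.I) • X.Γ (X.c j (WithLp.ofLp v).2) +
          X.c j ((s2 : ℂ) • (-Complex.I) • X.Γ (WithLp.ofLp v).2) = 0
        rw [map_smul, map_smul, h3, smul_neg, smul_neg, neg_add_cancel]
      · show (s2 : ℂ) • Complex.I • X.Γ (X.c j (WithLp.ofLp v).1) +
          X.c j ((s2 : ℂ) • Complex.I • X.Γ (WithLp.ofLp v).1) = 0
        rw [map_smul, map_smul, h3, smul_neg, smul_neg, neg_add_cancel]
    · rw [if_neg (fun h => Bool.noConfusion (Sum.inr_injective h))]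
      refine dext ?_ ?_
      · show (s2 : ℂ) • (-Complex.I) • X.Γ ((s2 : ℂ) • X.Γ (WithLp.ofLp v).1) +
          (s2 : ℂ) • X.Γ ((s2 : ℂ) • Complex.I • X.Γ (WithLp.ofLp v).1) = 0
        simp only [map_smul, X.Γ_sq, neg_smul, smul_neg]
        rw [smul_comm Complex.I (s2 : ℂ), neg_add_cancel]
      · show (s2 : ℂ) • Complex.I • X.Γ ((s2 : ℂ) • X.Γ (WithLp.ofLp v).2) +
          (s2 : ℂ) • X.Γ ((s2 : ℂ) • (-Complex.I) • X.Γ (WithLp.ofLp v).2) = 0
        simp only [map_smul, X.Γ_sq, neg_smul, smul_neg, map_neg]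
        rw [smul_comm Complex.I (s2 : ℂ), add_neg_cancel]
    · rw [if_pos rfl]
      have h4 : ∀ v : F, (-Complex.I) • Complex.I • v = v := fun v => by
        rw [smul_smul, neg_mul, Complex.I_mul_I, neg_neg, one_smul]
      have h5 : ∀ v : F, Complex.I • (-Complex.I) • v = v := fun v => by
        rw [smul_smul, mul_neg, Complex.I_mul_I, neg_neg, one_smul]
      refine dext ?_ ?_
      · show (s2 : ℂ) • (-Complex.I) • X.Γ ((s2 : ℂ) • Complex.I • X.Γ (WithLp.ofLp v).1) +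
          (s2 : ℂ) • (-Complex.I) • X.Γ ((s2 : ℂ) • Complex.I • X.Γ (WithLp.ofLp v).1) = _
        rw [map_smul, map_smul, X.Γ_sq, smul_comm (-Complex.I) (s2 : ℂ), h4, h2]
      · show (s2 : ℂ) • Complex.I • X.Γ ((s2 : ℂ) • (-Complex.I) • X.Γ (WithLp.ofLp v).2) +
          (s2 : ℂ) • Complex.I • X.Γ ((s2 : ℂ) • (-Complex.I) • X.Γ (WithLp.ofLp v).2) = _
        rw [map_smul, map_smul, X.Γ_sq, smul_comm Complex.I (s2 : ℂ), h5, h2]
  Γ_sq := by
    intro v
    refine dext ?_ ?_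
    · rw [dG_fst, dG_fst, X.Γ_sq]
    · rw [dG_snd, dG_snd, map_neg, X.Γ_sq, neg_neg]
  Γ_anti := by
    rintro (i | _ | _) v
    · refine dext ?_ ?_
      · show X.Γ (X.c i (WithLp.ofLp v).1) = -X.c i (X.Γ (WithLp.ofLp v).1)
        rw [X.Γ_anti]
      · show -X.Γ (X.c i (WithLp.ofLp v).2) = -X.c i (-X.Γ (WithLp.ofLp v).2)
        rw [X.Γ_anti, map_neg]
    · refine dext ?_ ?_
      · show X.Γ ((s2 : ℂ) • X.Γ (WithLp.ofLp v).2) = -((s2 : ℂ) • X.Γ (-X.Γ (WithLp.ofLp v).2))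
        rw [map_smul, map_neg, smul_neg, neg_neg]
      · show -X.Γ ((s2 : ℂ) • X.Γ (WithLp.ofLp v).1) = -((s2 : ℂ) • X.Γ (X.Γ (WithLp.ofLp v).1))
        rw [map_smul]
    · refine dext ?_ ?_
      · show X.Γ ((s2 : ℂ) • (-Complex.I) • X.Γ (WithLp.ofLp v).2) =
          -((s2 : ℂ) • (-Complex.I) • X.Γ (-X.Γ (WithLp.ofLp v).2))
        rw [map_smul, map_smul, map_neg, smul_neg, smul_neg, neg_neg]
      · show -X.Γ ((s2 : ℂ) • Complex.I • X.Γ (WithLp.ofLp v).1) =
          -((s2 : ℂ) • Complex.I • X.Γ (X.Γ (WithLp.ofLp v).1))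
        rw [map_smul, map_smul]
  irr := by
    intro W hW
    -- the two projections preserve `W`
    have hs : (s2 : ℂ) * s2 = 1 / 2 := s2_sq
    have hσ : ∀ v ∈ W, (WithLp.toLp 2 ((WithLp.ofLp v).1, -(WithLp.ofLp v).2) : Dbl F) ∈ W := by
      intro v hv
      have h1 := hW (Sum.inr true) _ (hW (Sum.inr false) v hv)
      have h2 := W.smul_mem (2 * Complex.I) h1
      convert h2 using 1
      refine dext ?_ ?_
      · show (WithLp.ofLp v).1 =
          (2 * Complex.I) • (s2 : ℂ) • (-Complex.I) • X.Γ ((s2 : ℂ) • X.Γ (WithLp.ofLp v).1)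
        rw [map_smul, X.Γ_sq]
        simp only [smul_smul]
        have h3 : 2 * Complex.I * (s2 : ℂ) * -Complex.I * (s2 : ℂ) = 1 := by
          linear_combination (-2 * (s2 : ℂ) * (s2 : ℂ)) * Complex.I_mul_I + 2 * hs
        have h4 : 2 * Complex.I * ((s2 : ℂ) * (-Complex.I * (s2 : ℂ))) = 1 := by
          rw [← h3]; ring
        rw [h4, one_smul]
      · show -(WithLp.ofLp v).2 =
          (2 * Complex.I) • (s2 : ℂ) • Complex.I • X.Γ ((s2 : ℂ) • X.Γ (WithLp.ofLp v).2)
        rw [map_smul, X.Γ_sq]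
        simp only [smul_smul]
        have h4 : 2 * Complex.I * ((s2 : ℂ) * (Complex.I * (s2 : ℂ))) = -1 := by
          linear_combination (2 * (s2 : ℂ) * (s2 : ℂ)) * Complex.I_mul_I - 2 * hs
        rw [h4, neg_one_smul]
    have hp1 : ∀ v ∈ W, (WithLp.toLp 2 ((WithLp.ofLp v).1, (0 : F)) : Dbl F) ∈ W := by
      intro v hv
      have h1 := W.smul_mem (1 / 2 : ℂ) (W.add_mem hv (hσ v hv))
      convert h1 using 1
      refine dext ?_ ?_
      · show (WithLp.ofLp v).1 = (1 / 2 : ℂ) • ((WithLp.ofLp v).1 + (WithLp.ofLp v).1)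
        rw [smul_add, ← add_smul]
        norm_num
      · show (0 : F) = (1 / 2 : ℂ) • ((WithLp.ofLp v).2 + -(WithLp.ofLp v).2)
        rw [add_neg_cancel, smul_zero]
    have hp2 : ∀ v ∈ W, (WithLp.toLp 2 ((0 : F), (WithLp.ofLp v).2) : Dbl F) ∈ W := by
      intro v hv
      have h1 := W.sub_mem hv (hp1 v hv)
      convert h1 using 1
      refine dext ?_ ?_
      · show (0 : F) = (WithLp.ofLp v).1 - (WithLp.ofLp v).1
        rw [sub_self]
      · show (WithLp.ofLp v).2 = (WithLp.ofLp v).2 - 0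
        rw [sub_zero]
    -- the first components
    set W1 : Submodule ℂ F :=
      { carrier := {x | (WithLp.toLp 2 (x, (0 : F)) : Dbl F) ∈ W}
        add_mem' := fun {x y} hx hy => by
          have h1 := W.add_mem hx hy
          show (WithLp.toLp 2 (x + y, (0 : F)) : Dbl F) ∈ W
          convert h1 using 1
          refine dext rfl ?_
          show (0 : F) = 0 + 0
          rw [add_zero]
        zero_mem' := by
          have h1 := W.zero_mem
          show (WithLp.toLp 2 ((0 : F), (0 : F)) : Dbl F) ∈ W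
          convert h1 using 1
          exact dext rfl rfl
        smul_mem' := fun a x hx => by
          have h1 := W.smul_mem a hx
          show (WithLp.toLp 2 (a • x, (0 : F)) : Dbl F) ∈ W
          convert h1 using 1
          refine dext rfl ?_
          show (0 : F) = a • (0 : F)
          rw [smul_zero] } with hW1
    have hswap : ∀ x : F, (WithLp.toLp 2 ((0 : F), x) : Dbl F) ∈ W → X.Γ x ∈ W1 := by
      intro x hx
      have h1 := hW (Sum.inr false) _ hx
      have h2 := W.smul_mem (2 * (s2 : ℂ)) h1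
      show (WithLp.toLp 2 (X.Γ x, (0 : F)) : Dbl F) ∈ W
      convert h2 using 1
      refine dext ?_ ?_
      · show X.Γ x = (2 * (s2 : ℂ)) • (s2 : ℂ) • X.Γ x
        rw [smul_smul, mul_assoc, hs]
        norm_num
      · show (0 : F) = (2 * (s2 : ℂ)) • (s2 : ℂ) • X.Γ (0 : F)
        rw [map_zero, smul_zero, smul_zero]
    have hswap' : ∀ x : F, x ∈ W1 → (WithLp.toLp 2 ((0 : F), X.Γ x) : Dbl F) ∈ W := by
      intro x hx
      have h1 := hW (Sum.inr false) _ hx
      have h2 := W.smul_mem (2 * (s2 : ℂ)) h1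
      convert h2 using 1
      refine dext ?_ ?_
      · show (0 : F) = (2 * (s2 : ℂ)) • (s2 : ℂ) • X.Γ (0 : F)
        rw [map_zero, smul_zero, smul_zero]
      · show X.Γ x = (2 * (s2 : ℂ)) • (s2 : ℂ) • X.Γ x
        rw [smul_smul, mul_assoc, hs]
        norm_num
    rcases X.irr W1 (fun i x hx => by
      have h1 := hW (Sum.inl i) _ hx
      show (WithLp.toLp 2 (X.c i x, (0 : F)) : Dbl F) ∈ W
      convert h1 using 1
      refine dext rfl ?_
      show (0 : F) = X.c i 0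
      rw [map_zero]) with h | h
    · left
      rw [Submodule.eq_bot_iff]
      intro v hv
      have h1 : (WithLp.ofLp v).1 ∈ W1 := hp1 v hv
      rw [h, Submodule.mem_bot] at h1
      have h2 : X.Γ (WithLp.ofLp v).2 ∈ W1 := hswap _ (hp2 v hv)
      rw [h, Submodule.mem_bot] at h2
      refine dext h1 ?_
      have h3 := X.Γ_sq (WithLp.ofLp v).2
      rw [h2, map_zero] at h3
      exact h3.symm
    · right
      rw [Submodule.eq_top_iff']
      intro v
      have h1 : (WithLp.ofLp v).1 ∈ W1 := by rw [h]; trivial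
      have h2 : X.Γ (WithLp.ofLp v).2 ∈ W1 := by rw [h]; trivial
      have h3 := hswap' _ h2
      rw [X.Γ_sq] at h3
      have h4 := W.add_mem h1 h3
      convert h4 using 1
      refine dext ?_ ?_
      · show (WithLp.ofLp v).1 = (WithLp.ofLp v).1 + 0
        rw [add_zero]
      · show (WithLp.ofLp v).2 = 0 + (WithLp.ofLp v).2
        rw [zero_add]

/-- The trivial family on `ℂ`. -/
def triv : JW Empty ℂ where
  c := fun i => i.elim
  Γ := LinearMap.id
  c_symm := fun i => i.elim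
  Γ_symm := fun _ _ => rfl
  anti := fun i => i.elim
  Γ_sq := fun _ => rfl
  Γ_anti := fun i => i.elim
  irr := fun W _ => by
    have h1 : Module.finrank ℂ ℂ = 1 := Module.finrank_self ℂ
    rcases eq_bot_or_bot_lt W with h | h
    · exact Or.inl h
    · right
      obtain ⟨v, hv, hv0⟩ := Submodule.exists_mem_ne_zero_of_ne_bot h.ne'
      rw [Submodule.eq_top_iff']
      intro x
      have h2 := W.smul_mem (x / v) hv
      rwa [smul_eq_mul, div_mul_cancel₀ x hv0] at h2

/-- Relabelling. -/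
def JW.relabel {I I' : Type} [DecidableEq I] [DecidableEq I'] (X : JW I F) (e : I' ≃ I) :
    JW I' F where
  c := fun i => X.c (e i)
  Γ := X.Γ
  c_symm := fun i => X.c_symm _
  Γ_symm := X.Γ_symm
  anti := fun i j v => by
    rw [X.anti]
    simp only [e.injective.eq_iff]
  Γ_sq := X.Γ_sq
  Γ_anti := fun i => X.Γ_anti _
  irr := fun W hW => X.irr W fun i v hv => by
    have h1 := hW (e.symm i) v hv
    rwa [e.apply_symm_apply] at h1

theorem exists_jw (n : ℕ) : ∃ (F : Type) (_ : NormedAddCommGroup F) (_ : InnerProductSpace ℂ F)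
    (_ : FiniteDimensional ℂ F) (_ : Nontrivial F), Nonempty (JW (Fin n × Bool) F) := by
  induction n with
  | zero =>
    exact ⟨ℂ, inferInstance, inferInstance, inferInstance, inferInstance,
      ⟨triv.relabel (Equiv.equivOfIsEmpty _ _)⟩⟩
  | succ n ih =>
    obtain ⟨F, i1, i2, i3, i4, ⟨X⟩⟩ := ih
    have h1 : Fintype.card (Fin (n + 1) × Bool) = Fintype.card ((Fin n × Bool) ⊕ Bool) := by
      simp only [Fintype.card_prod, Fintype.card_sum, Fintype.card_fin, Fintype.card_bool]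
      ring
    exact ⟨Dbl F, inferInstance, inferInstance, inferInstance, inferInstance,
      ⟨(step X).relabel (Fintype.equivOfCardEq h1)⟩⟩

/-- **For every finite index set of even cardinality there is an irreducible module.** -/
theorem exists_jw_of_card (I : Type) [Fintype I] [DecidableEq I] {n : ℕ}
    (hI : Fintype.card I = 2 * n) : ∃ (F : Type) (_ : NormedAddCommGroup F)
    (_ : InnerProductSpace ℂ F) (_ : FiniteDimensional ℂ F) (_ : Nontrivial F),
    Nonempty (JW I F) := by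
  obtain ⟨F, i1, i2, i3, i4, ⟨X⟩⟩ := exists_jw n
  have h1 : Fintype.card I = Fintype.card (Fin n × Bool) := by
    rw [hI, Fintype.card_prod, Fintype.card_fin, Fintype.card_bool, mul_comm]
  exact ⟨F, i1, i2, i3, i4, ⟨X.relabel (Fintype.equivOfCardEq h1)⟩⟩

/-- **Existence of the fermionic module** for every `N`. -/
theorem exists_fermionRep (N : ℕ) : ∃ (F : Type) (_ : NormedAddCommGroup F)
    (_ : InnerProductSpace ℂ F) (_ : FiniteDimensional ℂ F) (_ : Nontrivial F),
    Nonempty (FermionRep N F) := by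
  obtain ⟨F, i1, i2, i3, i4, ⟨X⟩⟩ := exists_jw_of_card (Fin 16 × Fin (N ^ 2 - 1))
    (n := 8 * (N ^ 2 - 1)) (by
      rw [Fintype.card_prod, Fintype.card_fin, Fintype.card_fin]
      ring)
  refine ⟨F, i1, i2, i3, i4, ⟨{ θ := fun α A => X.c (α, A)
                                selfAdjoint := fun α A => X.c_symm _
                                anticomm := fun α A β B => ?_
                                irreducible := fun W hW => ?_ }⟩⟩
  · refine LinearMap.ext fun v => ?_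
    have h1 := X.anti (α, A) (β, B) v
    rw [LinearMap.add_apply, LinearMap.comp_apply, LinearMap.comp_apply, h1]
    simp only [Prod.mk.injEq]
    split_ifs <;> rfl
  · exact X.irr W fun i v hv => hW i.1 i.2 v hv

/-- **Existence of the data** over a colour basis. -/
theorem exists_data {N : ℕ} (b : ColorBasis N) : ∃ (F : Type) (_ : NormedAddCommGroup F)
    (_ : InnerProductSpace ℂ F) (_ : FiniteDimensional ℂ F) (_ : Nontrivial F)
    (M : FermionRep N F), Nonempty (GaugeAction b M) := by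
  obtain ⟨F, i1, i2, i3, i4, ⟨M⟩⟩ := exists_fermionRep N
  exact ⟨F, i1, i2, i3, i4, M, GaugeEx973.nonempty_gaugeAction b M⟩

end jw

end Crest.Agent.R330.Exist973

end
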