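import Crest.Agent.R330.Fub_406

/-!
# Row 330, S8-ISO (helper406): `fib_int`, leaf (L2) of 372's plan for HIso / HChart

`∫_{Nor} A0 (X0 + cfT v) exp (- ⟪A z, z⟫) h (X0 + cfT v) (PY v) = ∫_X A0 X nI X ∫_Y h X Y`.
-/

set_option autoImplicit false
set_option linter.unusedSectionVars false

open MeasureTheory Filter Topology Crest.MathPhysics.MatrixQM
open scoped ContDiff InnerProductSpace ENNReal

noncomputable section

namespace Crest.Agent.R330.Fub406

open Crest.Agent.R330.Defs478 Crest.Agent.R330.LS839 Crest.Agent.R330.Frame839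
  Crest.Agent.R330.Clus839 Crest.Agent.R330.Bind6839 Crest.Agent.R330.SlG944
  Crest.Agent.R330.SlF944 Crest.Agent.R330.TDef414 Crest.Agent.R330.LitA974
  Crest.Agent.R330.TG372
open Crest.Agent.R330.SlB314 (Nor Tan brx)

variable {N p : ℕ} {b : ColorBasis N} {S : Type} [Group S] [Fintype S] {C : Chn b p S}
  {F : Type*} [NormedAddCommGroup F] [InnerProductSpace ℂ F]
  [FiniteDimensional ℂ F] {M : FermionRep N F} {R : GaugeAction b M} {G : GammaNine}
  {E : Type*} [NormedAddCommGroup E] [NormedSpace ℝ E]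

/-- a function continuous over a compact set of base points, supported there and in a ball -/
theorem integrable_cpt {K : Set (Pos p)} (hK : IsCompact K) (ρ : ℝ) {h : Pos p → Cfg N → E}
    (hc : ContinuousOn (fun q : Pos p × Cfg N => h q.1 q.2) (K ×ˢ Set.univ))
    (h1 : ∀ X Y, X ∉ K → h X Y = 0) (h2 : ∀ X Y, ρ < ‖Y‖ → h X Y = 0) :
    Integrable fun q : Pos p × C.Blk => h q.1 q.2 := by
  have hcpt : IsCompact (K ×ˢ Metric.closedBall (0 : C.Blk) ρ) :=
    hK.prod (isCompact_closedBall _ _)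
  have hcm : Continuous fun q : Pos p × C.Blk => (q.1, (q.2 : Cfg N)) :=
    continuous_fst.prodMk (continuous_subtype_val.comp continuous_snd)
  have hc' : ContinuousOn (fun q : Pos p × C.Blk => h q.1 q.2)
      (K ×ˢ Metric.closedBall (0 : C.Blk) ρ) :=
    ContinuousOn.comp (g := fun q : Pos p × Cfg N => h q.1 q.2)
      (f := fun q : Pos p × C.Blk => (q.1, (q.2 : Cfg N))) (t := K ×ˢ Set.univ) hc
      hcm.continuousOn fun q hq => ⟨hq.1, Set.mem_univ _⟩
  have h3 : IntegrableOn (fun q : Pos p × C.Blk => h q.1 q.2)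
      (K ×ˢ Metric.closedBall (0 : C.Blk) ρ) := hc'.integrableOn_compact hcpt
  refine (integrableOn_iff_integrable_of_support_subset ?_).1 h3
  intro q hq
  rw [Function.mem_support] at hq
  refine ⟨by_contra fun h => hq (h1 _ _ h), ?_⟩
  rw [mem_closedBall_zero_iff]
  by_contra h
  exact hq (h2 _ _ (not_le.1 h))

variable [CompleteSpace E]

/-- vector valued form of (L2) -/
theorem fib_int' (P : TPack C M R G) (σ : Sl C) {A0 : Pos p → ℝ} {h : Pos p → Cfg N → E}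
    {K : Set (Pos p)} (hK : IsCompact K) (hKr : ∀ X ∈ K, ‖X - σ.X0‖ < σ.r) (ρ : ℝ)
    (hA : ContinuousOn A0 K)
    (hc : ContinuousOn (fun q : Pos p × Cfg N => h q.1 q.2) (K ×ˢ Set.univ))
    (h1 : ∀ X Y, X ∉ K → h X Y = 0) (h2 : ∀ X Y, ρ < ‖Y‖ → h X Y = 0) :
    Integrable (fun v : Nor b (C.cf σ.X0) =>
        (A0 (σ.X0 + C.cfT v) * Real.exp (-⟪P.A (σ.X0 + C.cfT v) (C.PM v), C.PM v⟫_ℝ)) •
          h (σ.X0 + C.cfT v) (C.PY v)) ∧
      ∫ v : Nor b (C.cf σ.X0),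
        (A0 (σ.X0 + C.cfT v) * Real.exp (-⟪P.A (σ.X0 + C.cfT v) (C.PM v), C.PM v⟫_ℝ)) •
          h (σ.X0 + C.cfT v) (C.PY v) =
        ∫ X : Pos p, (A0 X * nI P σ 1 X) • ∫ Y : C.Blk, h X Y := by
  set k : Pos p → Cfg N → E := fun X Y => (A0 X * nI P σ 1 X) • h X Y with hk
  have hnI : ContinuousOn (nI P σ 1) K := fun X hX =>
    (TCore383.contDiffAt_nI P σ one_pos (hKr X hX)).continuousAt.continuousWithinAt
  have hkc : ContinuousOn (fun q : Pos p × Cfg N => k q.1 q.2) (K ×ˢ Set.univ) := by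
    have e1 : ContinuousOn (fun q : Pos p × Cfg N => A0 q.1 * nI P σ 1 q.1) (K ×ˢ Set.univ) :=
      ContinuousOn.comp (g := fun X => A0 X * nI P σ 1 X) (f := fun q : Pos p × Cfg N => q.1)
        (t := K) (hA.mul hnI) continuous_fst.continuousOn fun q hq => hq.1
    exact e1.smul hc
  have hk1 : ∀ X Y, X ∉ K → k X Y = 0 := fun X Y hX => by rw [hk]; simp [h1 X Y hX]
  have hk2 : ∀ X Y, ρ < ‖Y‖ → k X Y = 0 := fun X Y hY => by rw [hk]; simp [h2 X Y hY]
  have hki : Integrable fun q : Pos p × C.Blk => k q.1 q.2 := integrable_cpt hK ρ hkc hk1 hk2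
  -- translate the base point
  have hti : Integrable fun q : Pos p × C.Blk => k (σ.X0 + q.1) q.2 := by
    have hki' := hki
    rw [Measure.volume_eq_prod] at hki' ⊢
    have := hki'.comp_add_left ((σ.X0, 0) : Pos p × C.Blk)
    refine this.congr (Eventually.of_forall fun q => ?_)
    simp
  have hts : ∀ X Y, σ.r ≤ ‖X‖ → k (σ.X0 + X) Y = 0 := fun X Y hX => by
    refine hk1 _ _ fun hm => ?_
    have := hKr _ hm
    rw [add_sub_cancel_left] at this
    exact absurd this (not_lt.2 hX)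
  have e2 : ∀ v : Cfg N, nK P σ 1 (C.cfT v) (C.PM v) • k (σ.X0 + C.cfT v) (C.PY v) =
      (A0 (σ.X0 + C.cfT v) * Real.exp (-⟪P.A (σ.X0 + C.cfT v) (C.PM v), C.PM v⟫_ℝ)) •
          h (σ.X0 + C.cfT v) (C.PY v) := by
    intro v
    by_cases hv : σ.X0 + C.cfT v ∈ K
    · have hp := TCore383.nI_pos P σ one_pos (hKr _ hv)
      rw [hk]
      simp only [nK, one_mul]
      rw [smul_smul]
      congr 1
      field_simp
    · rw [hk1 _ _ hv, h1 _ _ hv, smul_zero, smul_zero]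
  have h3 := integrable_slice_nK P σ one_pos hti hts
  have h4 := slice_norm P σ one_pos hti hts
  simp only [e2] at h3 h4
  refine ⟨h3, h4.trans ?_⟩
  rw [integral_add_left_eq_self (fun X : Pos p => ∫ Y : C.Blk, k X Y) σ.X0]
  refine integral_congr_ae (Eventually.of_forall fun X => ?_)
  simp only [hk]
  rw [integral_smul]

omit [CompleteSpace E] in
/-- **(L2)** -/
theorem fib_int (P : TPack C M R G) (σ : Sl C) {A0 : Pos p → ℝ} {h : Pos p → Cfg N → ℂ}
    {K : Set (Pos p)} (hK : IsCompact K) (hKr : ∀ X ∈ K, ‖X - σ.X0‖ < σ.r) (ρ : ℝ)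
    (hA : ContinuousOn A0 K)
    (hc : ContinuousOn (fun q : Pos p × Cfg N => h q.1 q.2) (K ×ˢ Set.univ))
    (h1 : ∀ X Y, X ∉ K → h X Y = 0) (h2 : ∀ X Y, ρ < ‖Y‖ → h X Y = 0) :
    ∫ v : Nor b (C.cf σ.X0),
        ((A0 (σ.X0 + C.cfT v) *
          Real.exp (-⟪P.A (σ.X0 + C.cfT v) (C.PM v), C.PM v⟫_ℝ) : ℝ) : ℂ) *
          h (σ.X0 + C.cfT v) (C.PY v) =
        ∫ X : Pos p, ((A0 X * nI P σ 1 X : ℝ) : ℂ) * ∫ Y : C.Blk, h X Y := by
  have h3 := (fib_int' P σ hK hKr ρ hA hc h1 h2).2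
  simpa only [Complex.real_smul] using h3

omit [CompleteSpace E] in
theorem fib_integrable (P : TPack C M R G) (σ : Sl C) {A0 : Pos p → ℝ} {h : Pos p → Cfg N → ℂ}
    {K : Set (Pos p)} (hK : IsCompact K) (hKr : ∀ X ∈ K, ‖X - σ.X0‖ < σ.r) (ρ : ℝ)
    (hA : ContinuousOn A0 K)
    (hc : ContinuousOn (fun q : Pos p × Cfg N => h q.1 q.2) (K ×ˢ Set.univ))
    (h1 : ∀ X Y, X ∉ K → h X Y = 0) (h2 : ∀ X Y, ρ < ‖Y‖ → h X Y = 0) :
    Integrable fun v : Nor b (C.cf σ.X0) =>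
        ((A0 (σ.X0 + C.cfT v) *
          Real.exp (-⟪P.A (σ.X0 + C.cfT v) (C.PM v), C.PM v⟫_ℝ) : ℝ) : ℂ) *
          h (σ.X0 + C.cfT v) (C.PY v) := by
  have h3 := (fib_int' P σ hK hKr ρ hA hc h1 h2).1
  simpa only [Complex.real_smul] using h3

end Crest.Agent.R330.Fub406

end
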