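import Crest.Agent.R330.Cliff3_442
import Crest.Agent.R330.DirG_837
import Crest.Agent.R330.Hardy_151

/-!
# Row 330, S8-FIB (helper892), part A: systems of linear charges

`B_α f (z) = -i Σ_s θ(Γ_α e_s) ∂_s f(z) + g θ(T Γ_α z) f(z)` on a Euclidean space `E` with values in a
module `F` of the Clifford relations over `V`.  `Lin Γ T P A c e` : `T` skew, `P = |T|`,
`P Γ_α = Γ_α A`, and the frame identities.

* `energy` : `Σ_α ∫ ‖B_α f‖² = 2c (½ ∫ |∇f|² + ½ g² ∫ |A z|²|f|² + g ∫ ⟨f, quad T f⟩)`.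
* `energy_sq` : `= 2c (½ ∫ |∇f + g A z f|² + g Σ_k (lam_k/2) ∫ ‖ann_k f‖²)`.
* `kill` : `B_α (exp (-g/2 ⟨A z, z⟩) v) = 0` for `v` in the vacuum space.
* `grad_le`, `pot_le` : `½∫|∇f|²`, `½g²∫|Az|²|f|² ≤ (2c)⁻¹ Σ ∫‖B_α f‖² + (g/2) tr A ∫‖f‖²`.
-/

set_option autoImplicit false
set_option linter.unusedSectionVars false
set_option linter.unusedVariables false
set_option linter.deprecated false

open MeasureTheory Filter Topology
open scoped InnerProductSpace ContDiff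
open Crest.Agent.R330.Cliff442 Crest.Agent.R330.DirG837

noncomputable section

namespace Crest.Agent.R330.Fib892

variable {E V F ι κ : Type*} [NormedAddCommGroup E] [InnerProductSpace ℝ E] [FiniteDimensional ℝ E]
  [NormedAddCommGroup V] [InnerProductSpace ℝ V] [FiniteDimensional ℝ V]
  [NormedAddCommGroup F] [InnerProductSpace ℂ F] [FiniteDimensional ℂ F]
  [Fintype ι] [Fintype κ]

/-- Systems of linear charges. -/
structure Lin (Γ : ι → E →ₗ[ℝ] V) (T P : V →ₗ[ℝ] V) (A : E →L[ℝ] E) (c : ℝ)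
    (e : OrthonormalBasis κ ℝ E) : Prop where
  skew : Skew T
  psym : ∀ x y, ⟪P x, y⟫_ℝ = ⟪x, P y⟫_ℝ
  ppos : ∀ x, 0 ≤ ⟪P x, x⟫_ℝ
  psq : ∀ x, P (P x) = -T (T x)
  inter : ∀ α z, P (Γ α z) = Γ α (A z)
  cpos : 0 < c
  fr1 : ∀ z w, ∑ α, ⟪Γ α z, Γ α w⟫_ℝ = 2 * c * ⟪z, w⟫_ℝ
  mix : ∀ z w, ∑ α, ⟪Γ α z, T (Γ α w)⟫_ℝ = 0
  fr2 : ∀ v, ∑ α, ∑ s, ⟪Γ α (e s), v⟫_ℝ • T (Γ α (e s)) = c • T v

/-- The linear charges. -/
def chg (M : CRep V F) (Γ : ι → E →ₗ[ℝ] V) (T : V →ₗ[ℝ] V) (e : OrthonormalBasis κ ℝ E) (g : ℝ)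
    (α : ι) (f : E → F) : E → F :=
  dirG (fun s => e s) (fun s _ => M.θ (Γ α (e s))) (fun z => (g : ℂ) • M.θ (T (Γ α z))) f

variable {M : CRep V F} {Γ : ι → E →ₗ[ℝ] V} {T P : V →ₗ[ℝ] V} {A : E →L[ℝ] E} {c g : ℝ}
  {e : OrthonormalBasis κ ℝ E} {f : E → F}

theorem chg_apply (α : ι) (z : E) : chg M Γ T e g α f z =
    (∑ s, (-Complex.I) • M.θ (Γ α (e s)) (fderiv ℝ f z (e s))) +
      (g : ℂ) • M.θ (T (Γ α z)) (f z) := rfl

/-- `θ x` depends linearly on `x`. -/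
def thL (M : CRep V F) (v : F) : V →ₗ[ℝ] F where
  toFun x := M.θ x v
  map_add' x y := by rw [M.add]; rfl
  map_smul' r x := by rw [M.smul]; exact Complex.coe_smul _ _

theorem thL_apply (v : F) (x : V) : thL M v x = M.θ x v := rfl

theorem contDiff_thL {n : WithTop ℕ∞} (L : E →ₗ[ℝ] V) (v : F) :
    ContDiff ℝ n (fun z => M.θ (L z) v) := by
  have h : (fun z => M.θ (L z) v) = fun z => (LinearMap.toContinuousLinearMap (thL M v ∘ₗ L)) z := by
    funext z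
    rfl
  rw [h]
  exact (LinearMap.toContinuousLinearMap (thL M v ∘ₗ L)).contDiff

theorem fderiv_thL (L : E →ₗ[ℝ] V) (v : F) (z w : E) :
    fderiv ℝ (fun z => M.θ (L z) v) z w = M.θ (L w) v := by
  have h : (fun z => M.θ (L z) v) = fun z => (LinearMap.toContinuousLinearMap (thL M v ∘ₗ L)) z := by
    funext z
    rfl
  rw [h, ContinuousLinearMap.fderiv]
  rfl

theorem contDiff_chg {n m : WithTop ℕ∞} (hmn : m + 1 ≤ n) (α : ι) (hf : ContDiff ℝ n f) :
    ContDiff ℝ m (chg M Γ T e g α f) := by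
  refine contDiff_dirG hmn (fun s v => contDiff_const) (fun v => ?_) hf
  have h : (fun z => ((g : ℂ) • M.θ (T (Γ α z))) v) = fun z => (g : ℂ) • M.θ ((T ∘ₗ Γ α) z) v := rfl
  rw [h]
  exact (contDiff_thL (T ∘ₗ Γ α) v).const_smul _

theorem cs_chg (α : ι) (hc : HasCompactSupport f) : HasCompactSupport (chg M Γ T e g α f) :=
  hasCompactSupport_dirG hc

theorem chg_symm [MeasurableSpace E] [BorelSpace E] {φ ψ : E → F} (α : ι) (hφ : ContDiff ℝ 1 φ)
    (hψ : ContDiff ℝ 1 ψ) (hc : HasCompactSupport φ ∨ HasCompactSupport ψ) :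
    ∫ z, ⟪chg M Γ T e g α φ z, ψ z⟫_ℂ = ∫ z, ⟪φ z, chg M Γ T e g α ψ z⟫_ℂ := by
  refine dirG_symm (fun s _ => M.symm _) (fun z => ?_) (fun s v => contDiff_const) (fun v => ?_)
    (fun x v => by simp) hφ hψ hc
  · intro a b
    rw [LinearMap.smul_apply, LinearMap.smul_apply, inner_smul_left, inner_smul_right, M.symm,
      Complex.conj_ofReal]
  · have h : (fun z => ((g : ℂ) • M.θ (T (Γ α z))) v) =
        fun z => (g : ℂ) • M.θ ((T ∘ₗ Γ α) z) v := rfl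
    rw [h]
    exact ((contDiff_thL (n := 0) (T ∘ₗ Γ α) v).const_smul _).continuous

namespace Lin

variable (h : Lin Γ T P A c e)
include h

theorem asym (z w : E) : ⟪A z, w⟫_ℝ = ⟪z, A w⟫_ℝ := by
  have h1 : 2 * c * ⟪A z, w⟫_ℝ = 2 * c * ⟪z, A w⟫_ℝ := by
    rw [← h.fr1, ← h.fr1]
    refine Finset.sum_congr rfl fun α _ => ?_
    rw [← h.inter, ← h.inter, h.psym]
  have h2 : (2 * c) ≠ 0 := by have := h.cpos; positivity
  exact mul_left_cancel₀ h2 h1

theorem sum_T_sq (z : E) : ∑ α, ‖T (Γ α z)‖ ^ 2 = 2 * c * ‖A z‖ ^ 2 := by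
  rw [← real_inner_self_eq_norm_sq, ← h.fr1]
  refine Finset.sum_congr rfl fun α _ => ?_
  rw [← h.inter, ← real_inner_self_eq_norm_sq, h.skew, h.psym, h.psq, inner_neg_right]

theorem norm_P (x : V) : ‖P x‖ ^ 2 = ‖T x‖ ^ 2 := by
  rw [← real_inner_self_eq_norm_sq, ← real_inner_self_eq_norm_sq, h.skew, h.psym, h.psq,
    inner_neg_right]

theorem P_eq_zero {x : V} (hx : T x = 0) : P x = 0 := by
  have h1 := h.norm_P x
  rw [hx, norm_zero] at h1
  have h2 : ‖P x‖ = 0 := by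
    have : ‖P x‖ ^ 2 = 0 := by rw [h1]; norm_num
    exact pow_eq_zero_iff two_ne_zero |>.1 this
  exact norm_eq_zero.1 h2

/-- The second frame identity for `P`. -/
theorem fr2P (v : V) : ∑ α, ∑ s, ⟪Γ α (e s), v⟫_ℝ • P (Γ α (e s)) = c • P v := by
  have h1 : T (∑ α, ∑ s, ⟪Γ α (e s), v⟫_ℝ • Γ α (e s) - c • v) = 0 := by
    rw [map_sub, map_sum, map_smul, ← h.fr2 v, sub_eq_zero]
    refine Finset.sum_congr rfl fun α _ => ?_
    rw [map_sum]
    exact Finset.sum_congr rfl fun s _ => map_smul _ _ _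
  have h2 := h.P_eq_zero h1
  rw [map_sub, map_sum, map_smul, sub_eq_zero] at h2
  rw [← h2]
  refine Finset.sum_congr rfl fun α _ => ?_
  rw [map_sum]
  exact Finset.sum_congr rfl fun s _ => (map_smul _ _ _).symm

/-- `tr A = Σ lam`. -/
theorem trace {τ : Type*} [Fintype τ] (b : OrthonormalBasis τ ℝ V) {ν : Type*} {s : Finset ν}
    {u v : ν → V} {lam : ν → ℝ} (hn : NF T s u v lam) :
    ∑ s, ⟪A (e s), e s⟫_ℝ = ∑ k ∈ s, lam k := by
  have h1 := hn.trace_abs b h.psym h.ppos h.psq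
  have h2 : 2 * c * ∑ s, ⟪A (e s), e s⟫_ℝ = c * ∑ j, ⟪P (b j), b j⟫_ℝ := by
    rw [Finset.mul_sum]
    have e1 : ∀ s, 2 * c * ⟪A (e s), e s⟫_ℝ = ∑ α, ∑ j, ⟪P (Γ α (e s)), b j⟫_ℝ *
        ⟪b j, Γ α (e s)⟫_ℝ := by
      intro s
      rw [← h.fr1]
      refine Finset.sum_congr rfl fun α _ => ?_
      rw [← h.inter, b.sum_inner_mul_inner]
    simp only [e1]
    rw [Finset.sum_comm]
    have e2 : ∀ α, ∑ s, ∑ j, ⟪P (Γ α (e s)), b j⟫_ℝ * ⟪b j, Γ α (e s)⟫_ℝ =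
        ∑ j, ∑ s, ⟪P (Γ α (e s)), b j⟫_ℝ * ⟪b j, Γ α (e s)⟫_ℝ := fun α => Finset.sum_comm
    simp only [e2]
    rw [Finset.sum_comm, Finset.mul_sum]
    refine Finset.sum_congr rfl fun j _ => ?_
    rw [← real_inner_smul_left, ← h.fr2P (b j), sum_inner]
    refine Finset.sum_congr rfl fun α _ => ?_
    rw [sum_inner]
    refine Finset.sum_congr rfl fun s _ => ?_
    rw [real_inner_smul_left, real_inner_comm (Γ α (e s)) (b j)]
    ring
  rw [h1] at h2
  have h3 := h.cpos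
  have h4 : c * (2 * ∑ s, ⟪A (e s), e s⟫_ℝ) = c * (2 * ∑ k ∈ s, lam k) := by linarith
  have h5 := mul_left_cancel₀ h3.ne' h4
  linarith

end Lin

/-! ### The square of the charges -/

theorem fderiv_const_lin {n : WithTop ℕ∞} (L : F →ₗ[ℂ] F) {ψ : E → F} (hψ : ContDiff ℝ 1 ψ)
    (z w : E) : fderiv ℝ (fun y => L (ψ y)) z w = L (fderiv ℝ ψ z w) := by
  have h := fderiv_lin (B := fun _ => L) (fun v => contDiff_const) hψ z w
  simpa using h

theorem fderiv_chg (α : ι) (hf : ContDiff ℝ 2 f) (z w : E) :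
    fderiv ℝ (chg M Γ T e g α f) z w =
      (∑ s, (-Complex.I) • M.θ (Γ α (e s)) (fderiv ℝ (fun y => fderiv ℝ f y (e s)) z w)) +
        ((g : ℂ) • M.θ (T (Γ α z)) (fderiv ℝ f z w) + (g : ℂ) • M.θ (T (Γ α w)) (f z)) := by
  have hf1 : ContDiff ℝ 1 f := hf.of_le (by norm_num)
  have hd : ∀ s, ContDiff ℝ 1 (fun y => fderiv ℝ f y (e s)) := fun s =>
    (hf.fderiv_right (m := 1) (by norm_num)).clm_apply contDiff_const
  have h1 : chg M Γ T e g α f = fun z => (∑ s, (-Complex.I) • M.θ (Γ α (e s)) (fderiv ℝ f z (e s))) +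
      ((g : ℂ) • M.θ (T (Γ α z))) (f z) := rfl
  have hB : ∀ v, ContDiff ℝ 1 (fun z => ((g : ℂ) • M.θ (T (Γ α z))) v) := by
    intro v
    have h : (fun z => ((g : ℂ) • M.θ (T (Γ α z))) v) =
        fun z => (g : ℂ) • M.θ ((T ∘ₗ Γ α) z) v := rfl
    rw [h]
    exact (contDiff_thL (T ∘ₗ Γ α) v).const_smul _
  have hs : ∀ s, ContDiff ℝ 1 (fun z => (-Complex.I) • M.θ (Γ α (e s)) (fderiv ℝ f z (e s))) :=
    fun s => (contDiff_lin (B := fun _ => M.θ (Γ α (e s))) (fun v => contDiff_const) (hd s)).const_smul _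
  have hV : ContDiff ℝ 1 (fun z => ((g : ℂ) • M.θ (T (Γ α z))) (f z)) := contDiff_lin hB hf1
  rw [h1, fderiv_fun_add ((ContDiff.sum fun s _ => hs s).differentiable (by norm_num) z)
    (hV.differentiable (by norm_num) z), fderiv_fun_sum
    (fun s _ => (hs s).differentiable (by norm_num) z)]
  rw [ContinuousLinearMap.add_apply, ContinuousLinearMap.sum_apply, fderiv_lin hB hf1]
  congr 1
  · refine Finset.sum_congr rfl fun s _ => ?_
    rw [fderiv_fun_const_smul ((contDiff_lin (B := fun _ => M.θ (Γ α (e s)))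
      (fun v => contDiff_const) (hd s)).differentiable (by norm_num) z),
      ContinuousLinearMap.smul_apply, fderiv_const_lin (n := 1) _ (hd s)]
  · congr 1
    have h : (fun y => ((g : ℂ) • M.θ (T (Γ α y))) (f z)) =
        fun y => (g : ℂ) • M.θ ((T ∘ₗ Γ α) y) (f z) := rfl
    rw [h, fderiv_fun_const_smul ((contDiff_thL (n := 1) (T ∘ₗ Γ α) (f z)).differentiable
      (by norm_num) z), ContinuousLinearMap.smul_apply, fderiv_thL]
    rfl

theorem d2_symm (hf : ContDiff ℝ 2 f) (z v w : E) :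
    fderiv ℝ (fun y => fderiv ℝ f y v) z w = fderiv ℝ (fun y => fderiv ℝ f y w) z v := by
  have hd : DifferentiableAt ℝ (fderiv ℝ f) z :=
    ((hf.fderiv_right (m := 1) (by norm_num)).differentiable (by norm_num)) z
  have e1 : ∀ u u' : E, fderiv ℝ (fun y => fderiv ℝ f y u) z u' = fderiv ℝ (fderiv ℝ f) z u' u := by
    intro u u'
    have := (hd.hasFDerivAt.clm_apply (hasFDerivAt_const u z)).fderiv
    rw [this]
    simp
  rw [e1, e1]
  exact (hf.contDiffAt.isSymmSndFDerivAt (by simp)) w v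

/-! ### The sum of the squares, algebra -/

namespace Lin

variable (h : Lin Γ T P A c e)
include h

theorem L1 {D : κ → κ → F} (hD : ∀ s t, D s t = D t s) :
    ∑ α, ∑ t, ∑ s, M.θ (Γ α (e t)) (M.θ (Γ α (e s)) (D t s)) = (c : ℂ) • ∑ s, D s s := by
  classical
  set X := ∑ α, ∑ t, ∑ s, M.θ (Γ α (e t)) (M.θ (Γ α (e s)) (D t s)) with hX
  have h1 : X = ∑ α, ∑ t, ∑ s, M.θ (Γ α (e s)) (M.θ (Γ α (e t)) (D t s)) := by
    rw [hX]
    refine Finset.sum_congr rfl fun α _ => ?_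
    rw [Finset.sum_comm]
    refine Finset.sum_congr rfl fun t _ => Finset.sum_congr rfl fun s _ => ?_
    rw [hD]
  have h2 : X + X = (2 : ℂ) • ((c : ℂ) • ∑ s, D s s) := by
    conv_lhs => lhs; rw [hX]
    conv_lhs => rhs; rw [h1]
    rw [← Finset.sum_add_distrib]
    have e1 : ∀ α, ∑ t, ∑ s, M.θ (Γ α (e t)) (M.θ (Γ α (e s)) (D t s)) +
        ∑ t, ∑ s, M.θ (Γ α (e s)) (M.θ (Γ α (e t)) (D t s)) =
        ∑ t, ∑ s, ((⟪Γ α (e t), Γ α (e s)⟫_ℝ : ℝ) : ℂ) • D t s := by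
      intro α
      rw [← Finset.sum_add_distrib]
      refine Finset.sum_congr rfl fun t _ => ?_
      rw [← Finset.sum_add_distrib]
      exact Finset.sum_congr rfl fun s _ => M.anti_apply _ _ _
    simp only [e1]
    rw [Finset.sum_comm]
    have e2 : ∀ t, ∑ α, ∑ s, ((⟪Γ α (e t), Γ α (e s)⟫_ℝ : ℝ) : ℂ) • D t s =
        ((2 * c : ℝ) : ℂ) • D t t := by
      intro t
      rw [Finset.sum_comm]
      have e3 : ∀ s, ∑ α, ((⟪Γ α (e t), Γ α (e s)⟫_ℝ : ℝ) : ℂ) • D t s =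
          ((2 * c * ⟪e t, e s⟫_ℝ : ℝ) : ℂ) • D t s := by
        intro s
        rw [← Finset.sum_smul, ← Complex.ofReal_sum, h.fr1]
      simp only [e3]
      rw [Finset.sum_eq_single t]
      · rw [real_inner_self_eq_norm_sq, e.orthonormal.1 t]
        simp
      · intro s _ hs
        rw [e.orthonormal.2 hs.symm]
        simp
      · intro hn
        exact absurd (Finset.mem_univ t) hn
    simp only [e2]
    rw [← Finset.smul_sum, smul_smul]
    push_cast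
    rfl
  rw [← two_smul ℂ X] at h2
  exact smul_right_injective F (two_ne_zero (α := ℂ)) h2

theorem L2 (D : κ → F) (z : E) :
    ∑ α, ∑ t, (M.θ (Γ α (e t)) (M.θ (T (Γ α z)) (D t)) +
      M.θ (T (Γ α z)) (M.θ (Γ α (e t)) (D t))) = 0 := by
  simp only [M.anti_apply]
  rw [Finset.sum_comm]
  refine Finset.sum_eq_zero fun t _ => ?_
  rw [← Finset.sum_smul, ← Complex.ofReal_sum, h.mix]
  simp

theorem L3 {τ : Type*} [Fintype τ] (b : OrthonormalBasis τ ℝ V) (v : F) :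
    ∑ α, ∑ t, M.θ (T (Γ α (e t))) (M.θ (Γ α (e t)) v) =
      (c : ℂ) • ∑ j, M.θ (T (b j)) (M.θ (b j) v) := by
  have e1 : ∀ α t, M.θ (T (Γ α (e t))) (M.θ (Γ α (e t)) v) =
      ∑ j, M.θ (⟪Γ α (e t), b j⟫_ℝ • T (Γ α (e t))) (M.θ (b j) v) := by
    intro α t
    rw [← M.expand_basis b (Γ α (e t)) v, map_sum]
    refine Finset.sum_congr rfl fun j _ => ?_
    rw [map_smul, M.smul, real_inner_comm]
    rfl
  simp only [e1]
  have e2 : ∀ α, ∑ t, ∑ j, M.θ (⟪Γ α (e t), b j⟫_ℝ • T (Γ α (e t))) (M.θ (b j) v) =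
      ∑ j, ∑ t, M.θ (⟪Γ α (e t), b j⟫_ℝ • T (Γ α (e t))) (M.θ (b j) v) := fun α =>
    Finset.sum_comm
  simp only [e2]
  rw [Finset.sum_comm, Finset.smul_sum]
  refine Finset.sum_congr rfl fun j _ => ?_
  have e3 := congrArg (fun x => M.θ x (M.θ (b j) v)) (h.fr2 (b j))
  simp only [M.sum, M.smul, LinearMap.sum_apply, LinearMap.smul_apply] at e3
  simp only [M.smul, LinearMap.smul_apply]
  exact e3

theorem L3' {τ : Type*} [Fintype τ] (b : OrthonormalBasis τ ℝ V) (v : F) :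
    ∑ α, ∑ t, M.θ (Γ α (e t)) (M.θ (T (Γ α (e t))) v) =
      -((c : ℂ) • ∑ j, M.θ (T (b j)) (M.θ (b j) v)) := by
  rw [← h.L3 b v, ← Finset.sum_neg_distrib]
  refine Finset.sum_congr rfl fun α _ => ?_
  rw [← Finset.sum_neg_distrib]
  refine Finset.sum_congr rfl fun t _ => M.comm_apply ?_ v
  rw [real_inner_comm, h.skew.inner_self]

theorem L4 (z : E) (v : F) :
    ∑ α, M.θ (T (Γ α z)) (M.θ (T (Γ α z)) v) = ((c * ‖A z‖ ^ 2 : ℝ) : ℂ) • v := by
  have h1 : (2 : ℂ) • ∑ α, M.θ (T (Γ α z)) (M.θ (T (Γ α z)) v) =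
      (2 : ℂ) • (((c * ‖A z‖ ^ 2 : ℝ) : ℂ) • v) := by
    rw [Finset.smul_sum]
    simp only [M.sq_apply]
    rw [← Finset.sum_smul, ← Complex.ofReal_sum, h.sum_T_sq, smul_smul]
    congr 1
    push_cast
    ring
  exact smul_right_injective F (two_ne_zero (α := ℂ)) h1

/-- **The sum of the squares of the charges.** -/
theorem sum_sq {τ : Type*} [Fintype τ] (b : OrthonormalBasis τ ℝ V) (hf : ContDiff ℝ 2 f) (z : E) :
    ∑ α, chg M Γ T e g α (chg M Γ T e g α f) z =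
      (c : ℂ) • (-(∑ s, fderiv ℝ (fun y => fderiv ℝ f y (e s)) z (e s)) +
        ((g ^ 2 * ‖A z‖ ^ 2 : ℝ) : ℂ) • f z + ((2 * g : ℝ) : ℂ) • M.quad b T (f z)) := by
  have e1 : ∀ α, chg M Γ T e g α (chg M Γ T e g α f) z =
      -(∑ t, ∑ s, M.θ (Γ α (e t)) (M.θ (Γ α (e s))
        (fderiv ℝ (fun y => fderiv ℝ f y (e s)) z (e t)))) -
      (Complex.I * g) • (∑ t, (M.θ (Γ α (e t)) (M.θ (T (Γ α z)) (fderiv ℝ f z (e t))) +
        M.θ (T (Γ α z)) (M.θ (Γ α (e t)) (fderiv ℝ f z (e t))))) -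
      (Complex.I * g) • (∑ t, M.θ (Γ α (e t)) (M.θ (T (Γ α (e t))) (f z))) +
      ((g ^ 2 : ℝ) : ℂ) • M.θ (T (Γ α z)) (M.θ (T (Γ α z)) (f z)) := by
    intro α
    rw [chg_apply]
    simp only [fderiv_chg α hf, chg_apply, map_add, map_sum, map_smul, smul_add, Finset.smul_sum,
      Finset.sum_add_distrib, smul_smul]
    have i1 : (-Complex.I * -Complex.I : ℂ) = -1 := by
      rw [neg_mul_neg, Complex.I_mul_I]
    rw [i1]
    simp only [neg_smul, one_smul, Finset.sum_neg_distrib]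
    have i2 : ((g : ℂ) * g) = ((g ^ 2 : ℝ) : ℂ) := by push_cast; ring
    have i3 : (g : ℂ) * (-Complex.I) = -(Complex.I * g) := by ring
    have i4 : (-Complex.I * g : ℂ) = -(Complex.I * g) := by ring
    rw [i2, i3]
    simp only [i4, neg_smul, Finset.sum_neg_distrib]
    abel
  simp only [e1]
  rw [Finset.sum_add_distrib, Finset.sum_sub_distrib, Finset.sum_sub_distrib,
    Finset.sum_neg_distrib, ← Finset.smul_sum, ← Finset.smul_sum, ← Finset.smul_sum, h.L2, h.L3' b,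
    h.L4, h.L1 (D := fun t s => fderiv ℝ (fun y => fderiv ℝ f y (e s)) z (e t))
      (fun s t => d2_symm hf z (e t) (e s)), M.quad_apply]
  rw [smul_zero, sub_zero, smul_neg, sub_neg_eq_add]
  simp only [smul_add, smul_neg, smul_smul]
  have j1 : (Complex.I * g * c : ℂ) = (c * (((2 * g : ℝ) : ℂ) * (Complex.I / 2))) := by
    push_cast; ring
  have j2 : (((g ^ 2 : ℝ) : ℂ) * ((c * ‖A z‖ ^ 2 : ℝ) : ℂ)) =
      ((c : ℂ) * ((g ^ 2 * ‖A z‖ ^ 2 : ℝ) : ℂ)) := by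
    push_cast; ring
  rw [j1, j2]
  abel

end Lin

/-! ### The energy identity -/

theorem inner_self_c' (x : F) : ⟪x, x⟫_ℂ = ((‖x‖ ^ 2 : ℝ) : ℂ) := Cliff442.inner_self_c x

section energy

variable [MeasurableSpace E] [BorelSpace E]

theorem integrable_cs {G : Type*} [NormedAddCommGroup G] {u : E → G} (hu : Continuous u)
    (hc : HasCompactSupport u) : Integrable u := hu.integrable_of_hasCompactSupport hc

theorem cs_of_zero {G : Type*} [NormedAddCommGroup G] {u : E → G} (hc : HasCompactSupport f)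
    (h0 : ∀ z, f z = 0 → u z = 0) : HasCompactSupport u :=
  hc.mono' fun z hz => subset_tsupport _ (fun h1 => hz (h0 z h1))

theorem cs_pd (hc : HasCompactSupport f) (w : E) :
    HasCompactSupport (fun z => fderiv ℝ f z w) :=
  IBP837.hasCompactSupport_fderiv_apply hc w

theorem continuous_lin (L : F →ₗ[ℂ] F) : Continuous L := L.continuous_of_finiteDimensional

namespace Lin

variable (h : Lin Γ T P A c e)
include h

/-- **Energy identity.** -/
theorem energy {τ : Type*} [Fintype τ] (b : OrthonormalBasis τ ℝ V) (hf : ContDiff ℝ 2 f)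
    (hc : HasCompactSupport f) :
    ∑ α, ∫ z, ‖chg M Γ T e g α f z‖ ^ 2 =
      2 * c * (1 / 2 * (∫ z, ∑ s, ‖fderiv ℝ f z (e s)‖ ^ 2) +
        1 / 2 * g ^ 2 * (∫ z, ‖A z‖ ^ 2 * ‖f z‖ ^ 2) +
        g * ∫ z, (⟪f z, M.quad b T (f z)⟫_ℂ).re) := by
  have hf1 : ContDiff ℝ 1 f := hf.of_le (by norm_num)
  have hfc : Continuous f := hf.continuous
  have hB1 : ∀ α, ContDiff ℝ 1 (chg M Γ T e g α f) := fun α => contDiff_chg (by norm_num) α hf
  have hB2 : ∀ α, Continuous (chg M Γ T e g α (chg M Γ T e g α f)) := fun α =>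
    (contDiff_chg (m := 0) (n := 1) (by norm_num) α (hB1 α)).continuous
  have hd : ∀ s, ContDiff ℝ 1 (fun y => fderiv ℝ f y (e s)) := fun s =>
    (hf.fderiv_right (m := 1) (by norm_num)).clm_apply contDiff_const
  -- the left side
  have e1 : ∀ α, ((∫ z, ‖chg M Γ T e g α f z‖ ^ 2 : ℝ) : ℂ) =
      ∫ z, ⟪f z, chg M Γ T e g α (chg M Γ T e g α f) z⟫_ℂ := by
    intro α
    rw [← chg_symm α hf1 (hB1 α) (Or.inl hc), ← integral_complex_ofReal]
    exact integral_congr_ae (Eventually.of_forall fun z => (inner_self_c' _).symm)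
  have i1 : ∀ α, Integrable fun z => ⟪f z, chg M Γ T e g α (chg M Γ T e g α f) z⟫_ℂ := by
    intro α
    refine integrable_cs (hfc.inner (hB2 α)) (cs_of_zero hc fun z hz => ?_)
    rw [hz, inner_zero_left]
  have e2 : ((∑ α, ∫ z, ‖chg M Γ T e g α f z‖ ^ 2 : ℝ) : ℂ) =
      ∫ z, ⟪f z, ∑ α, chg M Γ T e g α (chg M Γ T e g α f) z⟫_ℂ := by
    push_cast
    simp only [e1]
    rw [← integral_finset_sum _ fun α _ => i1 α]
    exact integral_congr_ae (Eventually.of_forall fun z => (inner_sum _ _ _).symm)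
  -- the terms on the right
  have iD : ∀ s, Integrable fun z => ⟪f z, fderiv ℝ (fun y => fderiv ℝ f y (e s)) z (e s)⟫_ℂ := by
    intro s
    refine integrable_cs (hfc.inner (IBP837.fderiv_apply_continuous (hd s) _))
      (cs_of_zero hc fun z hz => ?_)
    rw [hz, inner_zero_left]
  have iA : Integrable fun z => ‖A z‖ ^ 2 * ‖f z‖ ^ 2 := by
    refine integrable_cs (by fun_prop) (cs_of_zero hc fun z hz => ?_)
    rw [hz]; simp
  have iQ : Integrable fun z => ⟪f z, M.quad b T (f z)⟫_ℂ := by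
    refine integrable_cs (hfc.inner ((continuous_lin _).comp hfc)) (cs_of_zero hc fun z hz => ?_)
    rw [hz, inner_zero_left]
  have iP : ∀ s, Integrable fun z => ‖fderiv ℝ f z (e s)‖ ^ 2 := by
    intro s
    refine integrable_cs ((hd s).continuous.norm.pow 2) ((cs_pd hc (e s)).mono'
      fun z hz => subset_tsupport _ fun h1 => hz ?_)
    simp only [h1, norm_zero]
    norm_num
  have e3 : ∀ s, ∫ z, ⟪f z, fderiv ℝ (fun y => fderiv ℝ f y (e s)) z (e s)⟫_ℂ =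
      -((∫ z, ‖fderiv ℝ f z (e s)‖ ^ 2 : ℝ) : ℂ) := by
    intro s
    have h1 := IBP837.ibp (μ := volume) hf1 (hd s) (Or.inl hc) (e s)
    rw [← integral_complex_ofReal, eq_neg_iff_add_eq_zero, add_comm, ← eq_neg_iff_add_eq_zero, ← h1]
    exact integral_congr_ae (Eventually.of_forall fun z => (inner_self_c' _).symm)
  have e4 : ∫ z, ⟪f z, ∑ α, chg M Γ T e g α (chg M Γ T e g α f) z⟫_ℂ =
      (c : ℂ) * (-(∑ s, ∫ z, ⟪f z, fderiv ℝ (fun y => fderiv ℝ f y (e s)) z (e s)⟫_ℂ) +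
        ((g ^ 2 * ∫ z, ‖A z‖ ^ 2 * ‖f z‖ ^ 2 : ℝ) : ℂ) +
        ((2 * g : ℝ) : ℂ) * ∫ z, ⟪f z, M.quad b T (f z)⟫_ℂ) := by
    simp only [h.sum_sq b hf]
    have j1 : ∀ z, ⟪f z, (c : ℂ) • (-(∑ s, fderiv ℝ (fun y => fderiv ℝ f y (e s)) z (e s)) +
        ((g ^ 2 * ‖A z‖ ^ 2 : ℝ) : ℂ) • f z + ((2 * g : ℝ) : ℂ) • M.quad b T (f z))⟫_ℂ =
        (c : ℂ) * ((-(∑ s, ⟪f z, fderiv ℝ (fun y => fderiv ℝ f y (e s)) z (e s)⟫_ℂ) +
        ((g ^ 2 : ℝ) : ℂ) * ((‖A z‖ ^ 2 * ‖f z‖ ^ 2 : ℝ) : ℂ)) +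
        ((2 * g : ℝ) : ℂ) * ⟪f z, M.quad b T (f z)⟫_ℂ) := by
      intro z
      rw [inner_smul_right, inner_add_right, inner_add_right, inner_neg_right, inner_sum,
        inner_smul_right, inner_smul_right, inner_self_c']
      push_cast
      ring
    simp only [j1]
    have k1 : Integrable fun z => (∑ s, ⟪f z, fderiv ℝ (fun y => fderiv ℝ f y (e s)) z (e s)⟫_ℂ) :=
      integrable_finset_sum _ fun s _ => iD s
    have k2 : Integrable fun z => ((g ^ 2 : ℝ) : ℂ) * ((‖A z‖ ^ 2 * ‖f z‖ ^ 2 : ℝ) : ℂ) :=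
      iA.ofReal.const_mul _
    have l1 := integral_add (k1.neg.add k2) (iQ.const_mul ((2 * g : ℝ) : ℂ))
    have l2 := integral_add k1.neg k2
    simp only [Pi.add_apply, Pi.neg_apply] at l1 l2
    rw [integral_const_mul, l1, l2, integral_neg, integral_const_mul, integral_const_mul,
      integral_finset_sum _ fun s _ => iD s, integral_complex_ofReal]
    push_cast
    ring
  have e5 : (∫ z, ⟪f z, M.quad b T (f z)⟫_ℂ).re = ∫ z, (⟪f z, M.quad b T (f z)⟫_ℂ).re := by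
    exact (Complex.reCLM.integral_comp_comm iQ).symm
  have e6 : ∑ α, ∫ z, ‖chg M Γ T e g α f z‖ ^ 2 =
      c * ((∑ s, ∫ z, ‖fderiv ℝ f z (e s)‖ ^ 2) + g ^ 2 * (∫ z, ‖A z‖ ^ 2 * ‖f z‖ ^ 2) +
        2 * g * ∫ z, (⟪f z, M.quad b T (f z)⟫_ℂ).re) := by
    have h1 := congrArg Complex.re (e2.trans e4)
    simp only [e3] at h1
    rw [Complex.ofReal_re, Complex.re_ofReal_mul, Complex.add_re, Complex.add_re,
      Complex.ofReal_re, Complex.re_ofReal_mul, e5] at h1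
    rw [h1]
    congr 3
    rw [Finset.sum_neg_distrib, neg_neg, ← Complex.ofReal_sum, Complex.ofReal_re]
  rw [e6, integral_finset_sum _ fun s _ => iP s]
  ring

end Lin

end energy

end Crest.Agent.R330.Fib892

end
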