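import Crest.Agent.R330.Transp_491
import Crest.Agent.R330.Bind6_839

/-!
# Row 330, section 9.1(e) (helper491): heavy charges on the fixed slice, literal instance

Over `Bind6_839` (`Uk b c = R⁹ ⊗ k`, `Mm b c = R⁹ ⊗ kᗮ`, `Zs b c = Mm ⊓ Nor`, `aB`, `wB`).

* `slice` : `Slice (actB b) c (Zs b c) p` for `p ∈ Uk b c`.
* `wB_act` : `wB p [v, p] = 0` for commuting `p`.
* `Bh b c M G g α v t p f z` : heavy charge of `lsMain_split` at `p` on functions `f : Zs b c → F`;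
  `Bh_eq` : it is `Transp491.Bc`; `Hx b M G g α X e f` : heavy charge at `X` on `Zs b X → F`.
* `Zb_eq` : `Zb = Zs b p` if `p ∈ Uk b c` has the stabiliser algebra of `c`.
* `F1_lit`, `F2_lit` : (F1), (F2) for `Bh b c .. p` from (F1), (F2) for `Hx b .. p`.
* `F3_lit` : `‖Bh p f z - Bh p' f z‖ ≤ C ‖p - p'‖ (‖∂f‖ + g ‖z‖ ‖f‖)`.
-/

set_option autoImplicit false
set_option linter.unusedSectionVars false

open MeasureTheory Filter Topology Crest.MathPhysics.MatrixQM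
open Crest.Agent.R330.IBP837 Crest.Agent.R330.Defs478 Crest.Agent.R330.Frame839
open Crest.Agent.R330.LS839 Crest.Agent.R330.Clus839 Crest.Agent.R330.Bind6839
open Crest.Agent.R330.Transp491
open scoped ContDiff InnerProductSpace ENNReal

noncomputable section

namespace Crest.Agent.R330.Transp2491

variable {N : ℕ} {b : ColorBasis N} {c : Cfg N}

theorem Mm_eq : Tn (actB b) c ⊔ Zs b c = Mm b c := by
  unfold Zs
  rw [inf_comm]
  exact Submodule.sup_orthogonal_inf_of_hasOrthogonalProjection Tn_le_Mm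

theorem slice {p : Cfg N} (hp : p ∈ Uk b c) : Slice (actB b) c (Zs b c) p where
  perp := inf_le_right
  mem v hv := by
    rw [Mm_eq]
    exact act_mem_Mm hp hv

theorem Tb_eq {p : Cfg N} (hk : kc (actB b) p = kc (actB b) c) :
    Tb (actB b) c p = Tn (actB b) p := by
  ext x
  constructor
  · rintro ⟨v, _, rfl⟩
    exact ⟨v, rfl⟩
  · rintro ⟨v, rfl⟩
    refine ⟨(kc (actB b) c)ᗮ.starProjection v, Submodule.starProjection_apply_mem _ _, ?_⟩
    have h1 : (kc (actB b) c).starProjection v ∈ kc (actB b) p := by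
      rw [hk]
      exact Submodule.starProjection_apply_mem _ _
    rw [mem_kc] at h1
    have h2 := Submodule.starProjection_add_starProjection_orthogonal (K := kc (actB b) c) v
    change actB b ((kc (actB b) c)ᗮ.starProjection v) p = actB b v p
    conv_rhs => rw [← h2, map_add, add_apply, h1, zero_add]

theorem Zb_eq {p : Cfg N} (hk : kc (actB b) p = kc (actB b) c) :
    Zs b p = Zb (actB b) c (Zs b c) p := by
  unfold Zb
  rw [Tb_eq hk, Mm_eq]
  unfold Zs Mm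
  rw [hk]

variable {F : Type*} [NormedAddCommGroup F] [InnerProductSpace ℂ F] [FiniteDimensional ℂ F]

/-- `Theta` as a linear map. -/
def thL (M : FermionRep N F) (G : GammaNine) (α : Fin 16) : Cfg N →ₗ[ℝ] (F →ₗ[ℂ] F) where
  toFun := Theta M G α
  map_add' := Theta_add M G α
  map_smul' r e := by
    rw [Theta_smul]
    rfl

variable (b) in
/-- `wB` as a linear map in `z`. -/
def wBL (M : FermionRep N F) (G : GammaNine) (g : ℝ) (α : Fin 16) (p : Cfg N) :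
    Cfg N →ₗ[ℝ] (F →ₗ[ℂ] F) where
  toFun z := wB b M G g α p z
  map_add' := wB_add M G g α p
  map_smul' r z := by
    apply LinearMap.ext
    intro f
    have h : ∀ β A, wb b G α β A p (r • z) = r * wb b G α β A p z := by
      intro β A
      unfold wb
      simp only [Finset.mul_sum]
      refine Finset.sum_congr rfl fun B _ => Finset.sum_congr rfl fun C _ =>
        Finset.sum_congr rfl fun i _ => Finset.sum_congr rfl fun j _ => ?_
      have : (r • z) (j, C) = r * z (j, C) := rfl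
      rw [this]
      ring
    unfold wB
    rw [RingHom.id_apply, LinearMap.smul_apply, vco_apply, vco_apply, Finset.smul_sum]
    refine Finset.sum_congr rfl fun A _ => ?_
    rw [Finset.smul_sum]
    refine Finset.sum_congr rfl fun β _ => ?_
    rw [h, ← Complex.coe_smul, smul_smul]
    congr 1
    push_cast
    ring

theorem wBL_apply (M : FermionRep N F) (G : GammaNine) (g : ℝ) (α : Fin 16) (p z : Cfg N) :
    wBL b M G g α p z = wB b M G g α p z := rfl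

/-- The linear potential at a commuting configuration vanishes on the orbit directions. -/
theorem wb_act {p : Cfg N} (hc : Comc b p) (G : GammaNine) (α β : Fin 16) (v : Colg N) :
    (WithLp.toLp 2 (fun A => wb b G α β A p (actB b v p)) : Colg N) = 0 := by
  rw [wbv_eq]
  set L := colAlg b
  have h1 : ∀ i j, L.br (comp p i) (comp (actB b v p) j) =
      L.br (comp p j) (comp (actB b v p) i) := by
    intro i j
    rw [comp_act, comp_act, L.anti v, L.anti v, map_neg, map_neg, L.comm_ad hc i j]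
  have h2 : ∀ i j, G.γ2 i j α β = - G.γ2 j i α β := by
    intro i j
    unfold GammaNine.γ2
    simp only [Matrix.smul_apply, Matrix.sub_apply, smul_eq_mul]
    ring
  have h3 : ∑ i, ∑ j, (1 / 2 * G.γ2 i j α β) • L.br (comp p i) (comp (actB b v p) j) =
      - ∑ i, ∑ j, (1 / 2 * G.γ2 i j α β) • L.br (comp p i) (comp (actB b v p) j) := by
    conv_lhs => rw [Finset.sum_comm]
    rw [← Finset.sum_neg_distrib]
    refine Finset.sum_congr rfl fun i _ => ?_
    rw [← Finset.sum_neg_distrib]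
    refine Finset.sum_congr rfl fun j _ => ?_
    rw [h1 j i, h2 j i, mul_neg, neg_smul]
  generalize (∑ i, ∑ j, (1 / 2 * G.γ2 i j α β) • L.br (comp p i) (comp (actB b v p) j)) = S at h3 ⊢
  have h4 : (2 : ℝ) • S = 0 := by
    rw [two_smul]
    nth_rw 1 [h3]
    exact neg_add_cancel S
  simpa using h4

theorem wB_act {p : Cfg N} (hc : Comc b p) (M : FermionRep N F) (G : GammaNine) (g : ℝ)
    (α : Fin 16) (v : Colg N) : wBL b M G g α p (actB b v p) = 0 := by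
  rw [wBL_apply]
  unfold wB
  have h : ∀ β A, wb b G α β A p (actB b v p) = 0 := by
    intro β A
    have := congrArg (fun u : Colg N => u A) (wb_act hc G α β v)
    simpa using this
  apply LinearMap.ext
  intro f
  rw [vco_apply]
  simp [h]

/-! ## The literal charges -/

/-- Heavy charge of `lsMain_split` at `p`, on functions of `z ∈ Zs b c`. -/
def Bh (M : FermionRep N F) (G : GammaNine) (g : ℝ) (α : Fin 16) {κ η : Type*} [Fintype κ]
    [Fintype η] (v : OrthonormalBasis κ ℝ (Zs b c)) (t : OrthonormalBasis η ℝ (Tn (actB b) c))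
    (p : Cfg N) (f : Zs b c → F) (z : Zs b c) : F :=
  (∑ i, aB b c M G α t p (v i) (fderiv ℝ f z (v i))) + wB b M G g α p z (f z)

/-- Heavy charge at `X` on functions of `z ∈ Zs b X`. -/
def Hx (M : FermionRep N F) (G : GammaNine) (g : ℝ) (α : Fin 16) {X : Cfg N} {κ : Type*}
    [Fintype κ] (e : OrthonormalBasis κ ℝ (Zs b X)) (f : Zs b X → F) (z : Zs b X) : F :=
  -Complex.I • ∑ i, Theta M G α (e i) (fderiv ℝ f z (e i)) + wB b M G g α X z (f z)

theorem Bh_eq (M : FermionRep N F) (G : GammaNine) (g : ℝ) (α : Fin 16) (p : Cfg N)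
    {κ η : Type*} [Fintype κ]
    [Fintype η] (v : OrthonormalBasis κ ℝ (Zs b c)) (t : OrthonormalBasis η ℝ (Tn (actB b) c))
    (f : Zs b c → F) (z : Zs b c) :
    Bc (actB b) c p (thL M G α) (wBL b M G g α p) v t f z = Bh M G g α v t p f z := by
  rw [Bc_eq]
  unfold Bh aB
  congr 1
  refine Finset.sum_congr rfl fun i _ => ?_
  rw [LinearMap.smul_apply, LinearMap.sub_apply, LinearMap.sum_apply]
  congr 2
  refine Finset.sum_congr rfl fun a _ => ?_
  rw [LinearMap.smul_apply, Complex.coe_smul, real_inner_comm]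
  rfl

/-! ## (F1) and (F2) on the fixed slice -/

theorem F1_K (M : FermionRep N F) (G : GammaNine) {r B : ℝ}
    (hr0 : 0 < r) (hr : GapAt (actB b) c r) (hB : ActBound (actB b) B) (hB0 : 0 ≤ B)
    {p : Cfg N} (hp : p ∈ Uk b c) (hc : Comc b p) (hx : B * ‖p - c‖ ≤ r / 2)
    {ι κ η : Type*} [Fintype ι] [Fintype κ] [Fintype η] {K : Submodule ℝ (Cfg N)}
    (hK : K = Zb (actB b) c (Zs b c) p) (e : OrthonormalBasis ι ℝ K)
    (v : OrthonormalBasis κ ℝ (Zs b c)) (t : OrthonormalBasis η ℝ (Tn (actB b) c)) {C g : ℝ}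
    (H : ∀ f : K → F, ContDiff ℝ ∞ f → HasCompactSupport f →
      (∫ w, ‖fderiv ℝ f w‖ ^ 2) + g ^ 2 * ∫ w, ‖w‖ ^ 2 * ‖f w‖ ^ 2 ≤
      C * (∑ α, (∫ w, ‖Bf (thL M G α) (wBL b M G g α p) e f w‖ ^ 2) + g * ∫ w, ‖f w‖ ^ 2))
    {f : Zs b c → F} (hf : ContDiff ℝ ∞ f) (hfc : HasCompactSupport f) :
    (∫ z, ‖fderiv ℝ f z‖ ^ 2) + g ^ 2 * ∫ z, ‖z‖ ^ 2 * ‖f z‖ ^ 2 ≤
      4 * C * (∑ α, (∫ z, ‖Bh M G g α v t p f z‖ ^ 2) + g * ∫ z, ‖f z‖ ^ 2) := by
  subst hK
  have h := gapF1 hr0 hr hB hB0 hx (slice hp) (Th := thL M G)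
    (Mz := fun α => wBL b M G g α p) (fun α v _ => wB_act hc M G g α v) e v t H hf hfc
  simp only [Bh_eq] at h
  exact h

/-- **(F1) on the fixed slice, literal.** -/
theorem F1_lit (M : FermionRep N F) (G : GammaNine) {r B : ℝ}
    (hr0 : 0 < r) (hr : GapAt (actB b) c r) (hB : ActBound (actB b) B) (hB0 : 0 ≤ B)
    {p : Cfg N} (hp : p ∈ Uk b c) (hc : Comc b p) (hk : kc (actB b) p = kc (actB b) c)
    (hx : B * ‖p - c‖ ≤ r / 2)
    {ι κ η : Type*} [Fintype ι] [Fintype κ] [Fintype η] (e : OrthonormalBasis ι ℝ (Zs b p))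
    (v : OrthonormalBasis κ ℝ (Zs b c)) (t : OrthonormalBasis η ℝ (Tn (actB b) c)) {C g : ℝ}
    (H : ∀ f : Zs b p → F, ContDiff ℝ ∞ f → HasCompactSupport f →
      (∫ w, ‖fderiv ℝ f w‖ ^ 2) + g ^ 2 * ∫ w, ‖w‖ ^ 2 * ‖f w‖ ^ 2 ≤
      C * (∑ α, (∫ w, ‖Hx M G g α e f w‖ ^ 2) + g * ∫ w, ‖f w‖ ^ 2))
    {f : Zs b c → F} (hf : ContDiff ℝ ∞ f) (hfc : HasCompactSupport f) :
    (∫ z, ‖fderiv ℝ f z‖ ^ 2) + g ^ 2 * ∫ z, ‖z‖ ^ 2 * ‖f z‖ ^ 2 ≤
      4 * C * (∑ α, (∫ z, ‖Bh M G g α v t p f z‖ ^ 2) + g * ∫ z, ‖f z‖ ^ 2) :=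
  F1_K M G hr0 hr hB hB0 hp hc hx (Zb_eq hk) e v t H hf hfc

theorem F2_K (M : FermionRep N F) (G : GammaNine) {r B : ℝ}
    (hr0 : 0 < r) (hr : GapAt (actB b) c r) (hB : ActBound (actB b) B)
    {p : Cfg N} (hp : p ∈ Uk b c) (hc : Comc b p) (hx : B * ‖p - c‖ ≤ r / 2)
    {ι κ η : Type*} [Fintype ι] [Fintype κ] [Fintype η] {K : Submodule ℝ (Cfg N)}
    (hK : K = Zb (actB b) c (Zs b c) p) (e : OrthonormalBasis ι ℝ K)
    (v : OrthonormalBasis κ ℝ (Zs b c)) (t : OrthonormalBasis η ℝ (Tn (actB b) c)) {C g : ℝ}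
    {γ : Cfg N → ℝ} (hγ : ∀ w v, γ (w + actB b v p) = γ w) (P : F →ₗ[ℂ] F)
    (H : ∀ f : K → F, ContDiff ℝ ∞ f → HasCompactSupport f →
      g * ∫ w, ‖f w - PrK K γ P f w‖ ^ 2 ≤
      C * ∑ α, ∫ w, ‖Bf (thL M G α) (wBL b M G g α p) e f w‖ ^ 2)
    {f : Zs b c → F} (hf : ContDiff ℝ ∞ f) (hfc : HasCompactSupport f) :
    g * ∫ z, ‖f z - PrK (Zs b c) γ P f z‖ ^ 2 ≤
      C * ∑ α, ∫ z, ‖Bh M G g α v t p f z‖ ^ 2 := by
  subst hK
  have h := gapF2_PrK hr0 hr hB hx (slice hp) (Th := thL M G)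
    (Mz := fun α => wBL b M G g α p) (fun α v _ => wB_act hc M G g α v)
    (fun w v _ => hγ w v) P e v t H hf hfc
  simp only [Bh_eq] at h
  exact h

/-- **(F2) on the fixed slice, literal.** -/
theorem F2_lit (M : FermionRep N F) (G : GammaNine) {r B : ℝ}
    (hr0 : 0 < r) (hr : GapAt (actB b) c r) (hB : ActBound (actB b) B)
    {p : Cfg N} (hp : p ∈ Uk b c) (hc : Comc b p) (hk : kc (actB b) p = kc (actB b) c)
    (hx : B * ‖p - c‖ ≤ r / 2)
    {ι κ η : Type*} [Fintype ι] [Fintype κ] [Fintype η] (e : OrthonormalBasis ι ℝ (Zs b p))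
    (v : OrthonormalBasis κ ℝ (Zs b c)) (t : OrthonormalBasis η ℝ (Tn (actB b) c)) {C g : ℝ}
    {γ : Cfg N → ℝ} (hγ : ∀ w v, γ (w + actB b v p) = γ w) (P : F →ₗ[ℂ] F)
    (H : ∀ f : Zs b p → F, ContDiff ℝ ∞ f → HasCompactSupport f →
      g * ∫ w, ‖f w - PrK (Zs b p) γ P f w‖ ^ 2 ≤ C * ∑ α, ∫ w, ‖Hx M G g α e f w‖ ^ 2)
    {f : Zs b c → F} (hf : ContDiff ℝ ∞ f) (hfc : HasCompactSupport f) :
    g * ∫ z, ‖f z - PrK (Zs b c) γ P f z‖ ^ 2 ≤
      C * ∑ α, ∫ z, ‖Bh M G g α v t p f z‖ ^ 2 :=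
  F2_K M G hr0 hr hB hp hc hx (Zb_eq hk) e v t hγ P H hf hfc

/-! ## (F3) -/

theorem exists_wBL_bound (M : FermionRep N F) (G : GammaNine) :
    ∃ C : ℝ, 0 ≤ C ∧ ∀ (g : ℝ) (α : Fin 16) (p p' z : Cfg N) (x : F), 0 ≤ g →
      ‖wBL b M G g α p z x - wBL b M G g α p' z x‖ ≤ C * g * ‖p - p'‖ * ‖z‖ * ‖x‖ := by
  obtain ⟨C2, h2, hV⟩ := exists_vco_bound M
  obtain ⟨C3, h3, hW⟩ := exists_wb_bound b G
  refine ⟨2 * C2 * C3, by positivity, fun g α p p' z x hg => ?_⟩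
  have h1 : wBL b M G g α p z x - wBL b M G g α p' z x =
      vco M (fun β A => 2 * g * wb b G α β A (p - p') z) x := by
    rw [wBL_apply, wBL_apply, sub_eq_iff_eq_add]
    unfold wB
    rw [← LS839.vco_add]
    congr 1
    congr 1
    funext β A
    have h4 := wb_add_left b G α β A (p - p') p' z
    rw [sub_add_cancel] at h4
    rw [h4]
    ring
  rw [h1]
  refine (hV _ (2 * g * (C3 * ‖p - p'‖ * ‖z‖)) x fun β A => ?_).trans (le_of_eq (by ring))
  rw [abs_mul, abs_of_nonneg (by positivity : (0 : ℝ) ≤ 2 * g)]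
  exact mul_le_mul_of_nonneg_left (hW _ _ _ _ _) (by positivity)

/-- **(F3), literal.** -/
theorem F3_lit (M : FermionRep N F) (G : GammaNine) {r B : ℝ}
    (hr0 : 0 < r) (hr : GapAt (actB b) c r) (hB : ActBound (actB b) B) (hB0 : 0 ≤ B)
    {κ η : Type*} [Fintype κ] [Fintype η]
    (v : OrthonormalBasis κ ℝ (Zs b c)) (t : OrthonormalBasis η ℝ (Tn (actB b) c)) :
    ∃ C : ℝ, 0 ≤ C ∧ ∀ (g : ℝ), 0 ≤ g → ∀ (α : Fin 16) (p p' : Cfg N),
      B * ‖p - c‖ ≤ r / 2 → B * ‖p' - c‖ ≤ r / 2 → ∀ (f : Zs b c → F) (z : Zs b c),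
      ‖Bh M G g α v t p f z - Bh M G g α v t p' f z‖ ≤
        C * ‖p - p'‖ * (‖fderiv ℝ f z‖ + g * (‖z‖ * ‖f z‖)) := by
  obtain ⟨C1, h1, hT⟩ := exists_Theta_bound M G
  obtain ⟨C2, h2, hW⟩ := exists_wBL_bound (b := b) M G
  refine ⟨(Fintype.card η) * (C1 * (4 * B / r)) + C2, by positivity,
    fun g hg α p p' hp hp' f z => ?_⟩
  have h := Bc_sub_bound hr0 hr hB hB0 hp hp' (Th := thL M G α) (hT α) h1
    (M := fun p => wBL b M G g α p) (K' := C2 * g)
    (fun z x => hW g α p p' z x hg) v t f z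
  simp only [Bh_eq] at h
  refine h.trans ?_
  have e1 := norm_nonneg (p - p')
  have e2 := norm_nonneg (fderiv ℝ f z)
  have e3 : 0 ≤ g * (‖z‖ * ‖f z‖) := by positivity
  have e4 : 0 ≤ (Fintype.card η : ℝ) * (C1 * (4 * B / r)) := by positivity
  generalize (Fintype.card η : ℝ) * (C1 * (4 * B / r)) = Q at *
  have e5 : Q * ‖fderiv ℝ f z‖ + C2 * g * (‖z‖ * ‖f z‖) ≤
      (Q + C2) * (‖fderiv ℝ f z‖ + g * (‖z‖ * ‖f z‖)) := by
    nlinarith [mul_nonneg e4 e3, mul_nonneg h2 e2]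
  calc ‖p - p'‖ * (Q * ‖fderiv ℝ f z‖ + C2 * g * (‖z‖ * ‖f z‖))
      ≤ ‖p - p'‖ * ((Q + C2) * (‖fderiv ℝ f z‖ + g * (‖z‖ * ‖f z‖))) := by gcongr
    _ = _ := by ring

end Crest.Agent.R330.Transp2491
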