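import Crest.Agent.R330.LemRc_149
import Crest.Agent.R330.F1b_581
import Crest.Agent.R330.Transp2_491

/-!
# Row 330, leaf S7-R (helper149): the odd part and the projection on the slice

* `integrable_prK` : `‖Φ - P Φ‖²` is integrable on the slice, `P` the fibrewise projection on
  `γ ⊗ ran p`.
* **`lemR_odd`** : (F1) and (F2) on the odd part at `c` give, near `c`, the estimate of the odd
  part on the slice.
* **`lemR_proj`** : (F1) and (F2) at `X` give `(R3)`.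
-/

set_option autoImplicit false
set_option linter.unusedSectionVars false

open MeasureTheory Filter Topology Crest.MathPhysics.MatrixQM Set
open Crest.Agent.R330.IBP837 Crest.Agent.R330.Defs478 Crest.Agent.R330.Frame839
open Crest.Agent.R330.LS839 Crest.Agent.R330.Clus839 Crest.Agent.R330.Bind6839
open Crest.Agent.R330.LemRb149 Crest.Agent.R330.LemA342 Crest.Agent.R330.LemRc149
open Crest.Agent.R330.Transp491 (PrK)
open scoped ContDiff InnerProductSpace ENNReal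

noncomputable section

namespace Crest.Agent.R330.LemRd149

section abstr

variable {U Z F : Type*} [NormedAddCommGroup U] [InnerProductSpace ℝ U] [FiniteDimensional ℝ U]
  [MeasurableSpace U] [BorelSpace U] [NormedAddCommGroup Z] [InnerProductSpace ℝ Z]
  [FiniteDimensional ℝ Z] [MeasurableSpace Z] [BorelSpace Z]
  [NormedAddCommGroup F] [InnerProductSpace ℂ F] [FiniteDimensional ℂ F]
  {μU : Measure U} [μU.IsAddHaarMeasure] {μZ : Measure Z} [μZ.IsAddHaarMeasure]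

/-- The fibre integral against a weight is continuous. -/
theorem continuous_fibInt {γ : Z → ℝ} (hγ : Continuous γ) {Φ : U × Z → F} (hΦ : Continuous Φ)
    (hc : HasCompactSupport Φ) : Continuous fun u => ∫ w, γ w • Φ (u, w) ∂μZ := by
  have hK : IsCompact (Prod.snd '' tsupport Φ) := hc.isCompact.image continuous_snd
  have h1 : ∀ u, ∫ w, γ w • Φ (u, w) ∂μZ =
      ∫ w in Prod.snd '' tsupport Φ, γ w • Φ (u, w) ∂μZ := by
    intro u
    rw [setIntegral_eq_integral_of_forall_compl_eq_zero]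
    intro w hw
    have : Φ (u, w) = 0 := by
      by_contra h
      exact hw ⟨(u, w), subset_tsupport _ h, rfl⟩
    rw [this, smul_zero]
  simp only [h1]
  refine continuous_parametric_integral_of_continuous ?_ hK
  exact (hγ.comp continuous_snd).smul hΦ

theorem hcs_fibInt {γ : Z → ℝ} {Φ : U × Z → F}
    (hc : HasCompactSupport Φ) : HasCompactSupport fun u => ∫ w, γ w • Φ (u, w) ∂μZ := by
  refine HasCompactSupport.intro (hc.isCompact.image continuous_fst) fun u hu => ?_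
  have : ∀ w, Φ (u, w) = 0 := fun w => by
    by_contra h
    exact hu ⟨(u, w), subset_tsupport _ h, rfl⟩
  simp [this]

/-- `‖Φ - P Φ‖²` is integrable. -/
theorem integrable_prK {γ : Z → ℝ} (hγ : Continuous γ) (hγ2 : Integrable (fun z => γ z ^ 2) μZ)
    (L : F →ₗ[ℂ] F) (I : ℝ) {Φ : U × Z → F} (hΦ : Continuous Φ) (hc : HasCompactSupport Φ) :
    Integrable (fun x : U × Z => ‖Φ x - (γ x.2 / I) • L (∫ w, γ w • Φ (x.1, w) ∂μZ)‖ ^ 2)
      (μU.prod μZ) := by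
  have hcc := continuous_fibInt (μZ := μZ) hγ hΦ hc
  have hcs := hcs_fibInt (μZ := μZ) (γ := γ) hc
  have hL : Continuous L := L.continuous_of_finiteDimensional
  have hLc : Continuous fun u => L (∫ w, γ w • Φ (u, w) ∂μZ) := hL.comp hcc
  have i1 : Integrable (fun x => ‖Φ x‖ ^ 2) (μU.prod μZ) := sq_int hΦ hc
  have i2 : Integrable (fun u => ‖L (∫ w, γ w • Φ (u, w) ∂μZ)‖ ^ 2) μU := by
    refine (hLc.norm.pow 2).integrable_of_hasCompactSupport ?_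
    refine hcs.mono' fun u hu => ?_
    by_contra h
    apply hu
    show ‖L (∫ w, γ w • Φ (u, w) ∂μZ)‖ ^ 2 = 0
    rw [image_eq_zero_of_notMem_tsupport (f := fun u => ∫ w, γ w • Φ (u, w) ∂μZ) h]
    simp
  have i3 : Integrable (fun z => (γ z / I) ^ 2) μZ := by
    have : (fun z => (γ z / I) ^ 2) = fun z => (1 / I ^ 2) * γ z ^ 2 := by
      funext z
      rw [div_pow]
      ring
    rw [this]
    exact hγ2.const_mul _
  have i4 : Integrable (fun x : U × Z => ‖L (∫ w, γ w • Φ (x.1, w) ∂μZ)‖ ^ 2 *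
      (γ x.2 / I) ^ 2) (μU.prod μZ) := i2.mul_prod i3
  have hcont : Continuous fun x : U × Z =>
      Φ x - (γ x.2 / I) • L (∫ w, γ w • Φ (x.1, w) ∂μZ) :=
    hΦ.sub (((hγ.comp continuous_snd).div_const I).smul (hLc.comp continuous_fst))
  refine ((i1.const_mul 2).add (i4.const_mul 2)).mono'
    (hcont.norm.pow 2).aestronglyMeasurable (Eventually.of_forall fun x => ?_)
  rw [Real.norm_of_nonneg (by positivity)]
  show _ ≤ 2 * ‖Φ x‖ ^ 2 + 2 * (‖L (∫ w, γ w • Φ (x.1, w) ∂μZ)‖ ^ 2 * (γ x.2 / I) ^ 2)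
  have h1 : ‖Φ x - (γ x.2 / I) • L (∫ w, γ w • Φ (x.1, w) ∂μZ)‖ ≤
      ‖Φ x‖ + |γ x.2 / I| * ‖L (∫ w, γ w • Φ (x.1, w) ∂μZ)‖ := by
    refine (norm_sub_le _ _).trans ?_
    rw [norm_smul, Real.norm_eq_abs]
  have h2 : (‖L (∫ w, γ w • Φ (x.1, w) ∂μZ)‖ ^ 2 * (γ x.2 / I) ^ 2) =
      (|γ x.2 / I| * ‖L (∫ w, γ w • Φ (x.1, w) ∂μZ)‖) ^ 2 := by
    rw [mul_pow, sq_abs]
    ring
  rw [h2]
  have h0 : 0 ≤ |γ x.2 / I| * ‖L (∫ w, γ w • Φ (x.1, w) ∂μZ)‖ := by positivity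
  nlinarith [norm_nonneg (Φ x), norm_nonneg (Φ x - (γ x.2 / I) • L (∫ w, γ w • Φ (x.1, w) ∂μZ)),
    sq_nonneg (‖Φ x‖ - |γ x.2 / I| * ‖L (∫ w, γ w • Φ (x.1, w) ∂μZ)‖)]

end abstr

section lit

variable {N : ℕ} {F : Type*} [NormedAddCommGroup F] [InnerProductSpace ℂ F]
  [FiniteDimensional ℂ F]

theorem Dn_eq {b : ColorBasis N} {c : Cfg N} {κ : Type} [Fintype κ] (g : ℝ)
    (v : OrthonormalBasis κ ℝ (Zs b c)) (f : Zs b c → F) :
    F1b581.Dn volume v g f = ∫ z, Dfib g v f z := rfl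

theorem SB_eq' (b : ColorBasis N) (c : Cfg N) (M : FermionRep N F) (G : GammaNine) {κ κ' : Type}
    [Fintype κ] [Fintype κ'] (v : OrthonormalBasis κ ℝ (Zs b c))
    (t : OrthonormalBasis κ' ℝ (Tn (actB b) c)) (g : ℝ) (p : Cfg N) (f : Zs b c → F) :
    F1b581.SB b c M G v t g p f = ∑ α, ∫ z : Zs b c, ‖Bfib b c M G g α v t p f z‖ ^ 2 := rfl

/-- **(R1, odd part)**: from (F1) and the odd (F2) at `c`. -/
theorem lemR_odd (b : ColorBasis N) (M : FermionRep N F) (G : GammaNine) {r B K : ℝ}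
    (hr0 : 0 < r) (hB0 : 0 ≤ B) (hB : ActBound (actB b) B) (hK : 0 ≤ K) :
    ∃ η : ℝ, 0 < η ∧ ∃ K' : ℝ, 0 ≤ K' ∧ ∀ (g : ℝ), 0 ≤ g → ∀ (c : Cfg N),
      GapAt (actB b) c r → ∀ (κ κ' : Type) [Fintype κ] [Fintype κ']
      (v : OrthonormalBasis κ ℝ (Zs b c)) (t : OrthonormalBasis κ' ℝ (Tn (actB b) c))
      (μU : Measure (Uk b c)) [μU.IsAddHaarMeasure] (n : WithTop ℕ∞), 1 ≤ n →
      ∀ (P : F → Prop) (ρ : ℝ), ρ ≤ η → B * ρ ≤ r / 2 →
      (∀ f : Zs b c → F, ContDiff ℝ n f → HasCompactSupport f → (∀ z, P (f z)) →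
        F1b581.Dn volume v g f ≤ K * (F1b581.SB b c M G v t g c f + g * ∫ z, ‖f z‖ ^ 2)) →
      (∀ f : Zs b c → F, ContDiff ℝ n f → HasCompactSupport f → (∀ z, P (f z)) →
        g * ∫ z, ‖f z‖ ^ 2 ≤ K * F1b581.SB b c M G v t g c f) →
      ∀ h : Sc b c → F, ContDiff ℝ n h → HasCompactSupport h →
        (∀ x : Sc b c, ρ < ‖x.1‖ → h x = 0) → (∀ x, P (h x)) →
      ∫ x, ((∑ i, ‖fderiv ℝ h x (0, v i)‖ ^ 2) + g ^ 2 * ‖x.2‖ ^ 2 * ‖h x‖ ^ 2)
          ∂(μU.prod volume) + g * ∫ x, ‖h x‖ ^ 2 ∂(μU.prod volume) ≤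
        K' * ∑ α, ∫ x, ‖Bop b c M G g α v t h x‖ ^ 2 ∂(μU.prod volume) := by
  obtain ⟨η, hη, K', hK', H⟩ := F1b581.fibre b M G hr0 hB0 hB hK
  refine ⟨η, hη, K', hK', fun g hg c hr κ κ' _ _ v t μU _ n hn P ρ hρη hρ hF1 hF2 h hh hc h0 hP =>
    B1 M G g hn v t hr0 hr hB hρ hB0 (fun u hu f hf hfc hPf => ?_) hh hc h0 hP⟩
  have e1 : ‖c + (u : Cfg N) - c‖ = ‖u‖ := by rw [add_sub_cancel_left]; rfl
  have h1 : B * ‖c + (u : Cfg N) - c‖ ≤ r / 2 := by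
    rw [e1]
    exact (mul_le_mul_of_nonneg_left hu hB0).trans hρ
  have h2 : B * ‖c - c‖ ≤ r / 2 := by
    rw [sub_self, norm_zero, mul_zero]
    positivity
  have h3 := (H g hg c hr κ κ' v t (c + u) c h1 h2 (by rw [e1]; exact hu.trans hρη) f
    (hf.of_le hn) hfc (hF1 f hf hfc hPf)).2.2 (hF2 f hf hfc hPf)
  exact h3

/-- **(R3)**: from (F1) and (F2) at `X`. -/
theorem lemR_proj (b : ColorBasis N) (M : FermionRep N F) (G : GammaNine) {r B K : ℝ}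
    (hr0 : 0 < r) (hB0 : 0 ≤ B) (hB : ActBound (actB b) B) (hK : 0 ≤ K) :
    ∃ η : ℝ, 0 < η ∧ ∃ K' : ℝ, 0 ≤ K' ∧ ∀ (g : ℝ), 0 ≤ g → ∀ (c : Cfg N),
      GapAt (actB b) c r → ∀ (κ κ' : Type) [Fintype κ] [Fintype κ']
      (v : OrthonormalBasis κ ℝ (Zs b c)) (t : OrthonormalBasis κ' ℝ (Tn (actB b) c))
      (μU : Measure (Uk b c)) [μU.IsAddHaarMeasure] (n : WithTop ℕ∞), 1 ≤ n →
      ∀ (ρ : ℝ), B * ρ ≤ r / 2 → ∀ X : Cfg N, B * ‖X - c‖ ≤ r / 2 →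
      ∀ (δ : ℝ), δ ≤ η → ∀ S : Set (Uk b c), MeasurableSet S → (∀ u ∈ S, ‖u‖ ≤ ρ) →
      (∀ u ∈ S, ‖c + (u : Cfg N) - X‖ ≤ δ) → ∀ γ : Cfg N → ℝ,
      Continuous (fun z : Zs b c => γ z) → Integrable (fun z : Zs b c => γ z ^ 2) →
      ∀ L : F →ₗ[ℂ] F,
      (∀ f : Zs b c → F, ContDiff ℝ n f → HasCompactSupport f →
        F1b581.Dn volume v g f ≤ K * (F1b581.SB b c M G v t g X f + g * ∫ z, ‖f z‖ ^ 2)) →
      (∀ f : Zs b c → F, ContDiff ℝ n f → HasCompactSupport f →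
        g * ∫ z, ‖f z - PrK (Zs b c) γ L f z‖ ^ 2 ≤ K * F1b581.SB b c M G v t g X f) →
      ∀ Φ : Sc b c → F, ContDiff ℝ n Φ → HasCompactSupport Φ →
        (∀ x : Sc b c, ρ < ‖x.1‖ → Φ x = 0) →
      g * ∫ x in S ×ˢ univ, ‖Φ x - PrK (Zs b c) γ L (fun z => Φ (x.1, z)) x.2‖ ^ 2
          ∂(μU.prod volume) ≤
        K' * (∑ α, ∫ x, ‖Bop b c M G g α v t Φ x‖ ^ 2 ∂(μU.prod volume) +
          δ ^ 2 * (g * ∫ x, ‖Φ x‖ ^ 2 ∂(μU.prod volume))) := by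
  obtain ⟨η, hη, K', hK', H⟩ := F1b581.fibre b M G hr0 hB0 hB hK
  refine ⟨η, hη, K', hK', fun g hg c hr κ κ' _ _ v t μU _ n hn ρ hρ X hX δ hδ S hS hSρ hSδ γ hγ
    hγ2 L hF1 hF2 Φ hΦ hc h0 => ?_⟩
  refine B2 M G g hn v t hr0 hr hB hρ hB0 hg hK' hS (P := fun _ f z => PrK (Zs b c) γ L f z)
    (fun u hu f hf hfc => ?_) hΦ hc h0 ?_
  · have e1 : ‖c + (u : Cfg N) - c‖ = ‖u‖ := by rw [add_sub_cancel_left]; rfl
    have h1 : B * ‖c + (u : Cfg N) - c‖ ≤ r / 2 := by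
      rw [e1]
      exact (mul_le_mul_of_nonneg_left (hSρ u hu) hB0).trans hρ
    have h3 := (H g hg c hr κ κ' v t (c + u) X h1 hX ((hSδ u hu).trans hδ) f
      (hf.of_le hn) hfc (hF1 f hf hfc)).2.1 _ (hF2 f hf hfc)
    refine h3.trans ?_
    have h4 : 0 ≤ g * ∫ z, ‖f z‖ ^ 2 := mul_nonneg hg (integral_nonneg fun _ => by positivity)
    have h5 : ‖c + (u : Cfg N) - X‖ ^ 2 ≤ δ ^ 2 := by
      have := hSδ u hu
      gcongr
    rw [SB_eq']
    gcongr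
  · exact (integrable_prK (μU := μU) (μZ := volume) hγ hγ2 L _ hΦ.continuous hc).integrableOn

end lit

end Crest.Agent.R330.LemRd149

end
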