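import Crest.Agent.R330.LemB_342
import Crest.Agent.R330.LemRd_149
import Crest.Agent.R330.FibProj_837

/-!
# Row 330, S7-R (helper342): Lemma R on the fixed slice, part 3: the outputs

* `oddIneq_of` : the inequality on the odd part from the fibre inequalities at `c` (149's
  `lemR_odd`).
* `Out` : the bounds of Lemma R for one slice function; `out_of` : from
  `Σ ∫ ‖(A + B) Φ‖² ≤ E`, `∫ ‖Φ‖² ≤ E`.
* `en`, `integrable_en`, `h2_of`, `I1_of` : the fibre projection (any family of operators),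
  fibrewise and integrated over `S`.
-/

set_option autoImplicit false
set_option linter.unusedSectionVars false
set_option maxSynthPendingDepth 3

open MeasureTheory Filter Topology Crest.MathPhysics.MatrixQM Set
open Crest.Agent.R330.IBP837 Crest.Agent.R330.Defs478 Crest.Agent.R330.Frame839
open Crest.Agent.R330.LS839 Crest.Agent.R330.Clus839 Crest.Agent.R330.Bind6839
open Crest.Agent.R330.Decoup924 Crest.Agent.R330.LemA342 Crest.Agent.R330.LemB342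
open scoped ContDiff InnerProductSpace ENNReal

noncomputable section

namespace Crest.Agent.R330.LemC342

variable {N : ℕ} {b : ColorBasis N} {c : Cfg N}
  {F : Type*} [NormedAddCommGroup F] [InnerProductSpace ℂ F] [FiniteDimensional ℂ F]
  {M : FermionRep N F} {G : GammaNine}

theorem dd_eq_dens {κ : Type*} [Fintype κ] (g : ℝ) (v : OrthonormalBasis κ ℝ (Zs b c))
    (h : Sc b c → F) (x : Sc b c) : dd (hv v) (fun x => g * ‖x.2‖) h x =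
      (∑ i, ‖fderiv ℝ h x (0, v i)‖ ^ 2) + g ^ 2 * ‖x.2‖ ^ 2 * ‖h x‖ ^ 2 := by
  rw [dd_eq, mul_pow]

/-- the inequality on the odd part, from the fibre inequalities at the base point -/
theorem oddIneq_of (b : ColorBasis N) (M : FermionRep N F) (G : GammaNine) {r B K : ℝ}
    (hr0 : 0 < r) (hB0 : 0 ≤ B) (hB : ActBound (actB b) B) (hK : 0 ≤ K) :
    ∃ η : ℝ, 0 < η ∧ ∃ K' : ℝ, 0 ≤ K' ∧ ∀ (g : ℝ), 0 ≤ g → ∀ (c : Cfg N),
      GapAt (actB b) c r → ∀ (κ κ' : Type) [Fintype κ] [Fintype κ']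
      (v : OrthonormalBasis κ ℝ (Zs b c)) (t : OrthonormalBasis κ' ℝ (Tn (actB b) c))
      (μU : Measure (Uk b c)) [μU.IsAddHaarMeasure] (Γ : F →ₗ[ℂ] F) (ρ : ℝ), ρ ≤ η →
      B * ρ ≤ r / 2 →
      (∀ f : Zs b c → F, ContDiff ℝ 2 f → HasCompactSupport f → (∀ z, Γ (f z) = - f z) →
        F1b581.Dn volume v g f ≤ K * (F1b581.SB b c M G v t g c f + g * ∫ z, ‖f z‖ ^ 2)) →
      (∀ f : Zs b c → F, ContDiff ℝ 2 f → HasCompactSupport f → (∀ z, Γ (f z) = - f z) →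
        g * ∫ z, ‖f z‖ ^ 2 ≤ K * F1b581.SB b c M G v t g c f) →
      OddIneq (μU.prod volume) M G v t Γ ρ g K' := by
  obtain ⟨η, hη, K', hK', H⟩ := LemRd149.lemR_odd b M G hr0 hB0 hB hK
  refine ⟨η, hη, K', hK', fun g hg c hr κ κ' _ _ v t μU _ Γ ρ hρη hρ hF1 hF2 h hh hc h0 hP => ?_⟩
  have key := H g hg c hr κ κ' v t μU 2 (by norm_num) (fun y => Γ y = - y) ρ hρη hρ hF1 hF2 h hh
    hc h0 hP
  simp only [dd_eq_dens]
  exact key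

/-- the inequality on the odd part, from the fibre inequalities at all points -/
theorem oddIneq_of_fibre {κ η : Type*} [Fintype κ] [Fintype η]
    (v : OrthonormalBasis κ ℝ (Zs b c)) (t : OrthonormalBasis η ℝ (Tn (actB b) c))
    {r B ρ g K : ℝ} (hr0 : 0 < r) (hr : GapAt (actB b) c r) (hB : ActBound (actB b) B)
    (hρ : B * ρ ≤ r / 2) (hB0 : 0 ≤ B) {Γ : F →ₗ[ℂ] F}
    {μU : Measure (Uk b c)} [μU.IsAddHaarMeasure] {μZ : Measure (Zs b c)} [μZ.IsAddHaarMeasure]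
    (hF : ∀ u : Uk b c, ‖u‖ ≤ ρ → ∀ f : Zs b c → F, ContDiff ℝ 2 f → HasCompactSupport f →
      (∀ z, Γ (f z) = - f z) →
      ∫ z, Dfib g v f z ∂μZ + g * ∫ z, ‖f z‖ ^ 2 ∂μZ ≤
        K * ∑ α, ∫ z, ‖Bfib b c M G g α v t (c + u) f z‖ ^ 2 ∂μZ) :
    OddIneq (μU.prod μZ) M G v t Γ ρ g K := by
  intro h hh hc h0 hP
  simp only [dd_eq_dens]
  exact LemRc149.B1 M G g (n := 2) (by norm_num) v t hr0 hr hB hρ hB0 (P := fun y => Γ y = - y)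
    hF hh hc h0 hP

/-! ### The bounds -/

section out

variable {ι κ η : Type*} [Fintype ι] [Fintype κ] [Fintype η]

/-- the bounds of Lemma R for one slice function -/
structure Out (μ : Measure (Sc b c)) (M : FermionRep N F) (G : GammaNine) (Γ : F →ₗ[ℂ] F)
    (e : OrthonormalBasis ι ℝ (Uk b c)) (v : OrthonormalBasis κ ℝ (Zs b c))
    (t : OrthonormalBasis η ℝ (Tn (actB b) c)) (g m : ℝ) (Φ : Sc b c → F) (E : ℝ) : Prop where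
  sA : ∑ α, ∫ x, ‖Aop b c M G g m α e Φ x‖ ^ 2 ∂μ ≤ E
  sB : ∑ α, ∫ x, ‖Bop b c M G g α v t Φ x‖ ^ 2 ∂μ ≤ E
  s0 : ∫ x, ‖Φ x‖ ^ 2 ∂μ ≤ E
  s1 : g * ∫ x, ‖(1 / 2 : ℂ) • (Φ x - Γ (Φ x))‖ ^ 2 ∂μ ≤ E
  sD : ∫ x, dd (hv v) (fun x => g * ‖x.2‖) (fun y => Po (toR Γ) (Φ y)) x ∂μ ≤ E

theorem Po_eq (Γ : F →ₗ[ℂ] F) (y : F) : Po (toR Γ) y = (1 / 2 : ℂ) • (y - Γ y) := by
  rw [Po_apply, toR_apply, ← Complex.coe_smul]
  norm_num

/-- **Lemma R**: the bounds from the energy of `A + B`. -/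
theorem out_of (μ : Measure (Sc b c)) [μ.IsAddHaarMeasure] {r B : ℝ} (hr0 : 0 < r)
    (hr : GapAt (actB b) c r) (hB : ActBound (actB b) B) (hB0 : 0 ≤ B) (hc : Comc b c)
    (M : FermionRep N F) (G : GammaNine) {Γ : F →ₗ[ℂ] F} (hΓ : IsPar b c M Γ)
    (e : OrthonormalBasis ι ℝ (Uk b c)) (v : OrthonormalBasis κ ℝ (Zs b c))
    (t : OrthonormalBasis η ℝ (Tn (actB b) c)) {ρ ρ' : ℝ} (h0 : 0 < ρ) (h1 : ρ < ρ')
    (h2 : B * ρ' ≤ r / 2) {K : ℝ} (hK : 0 ≤ K) :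
    ∃ C : ℝ, 1 ≤ C ∧ ∀ g m : ℝ, 0 ≤ g → OddIneq μ M G v t Γ ρ g K →
      ∀ (Φ : Sc b c → F) (E : ℝ), ContDiff ℝ 2 Φ → HasCompactSupport Φ →
        (∀ x : Sc b c, ρ < ‖x.1‖ → Φ x = 0) →
        ∑ α, ∫ x, ‖Aop b c M G g m α e Φ x + Bop b c M G g α v t Φ x‖ ^ 2 ∂μ ≤ E →
        ∫ x, ‖Φ x‖ ^ 2 ∂μ ≤ E → Out μ M G Γ e v t g m Φ (C * E) := by
  obtain ⟨C, hC, H⟩ := lemR1 μ hr0 hr hB hB0 hc M G hΓ e v t h0 h1 h2
  refine ⟨2 * (1 + C * K) * (1 + K), by nlinarith [mul_nonneg hC hK], ?_⟩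
  intro g m hg hodd Φ E hΦ hcΦ hs hAB hE
  obtain ⟨k1, k2⟩ := H K hK g m hg hodd Φ hΦ hcΦ hs
  have hE0 : 0 ≤ E := (integral_nonneg fun x => by positivity).trans hE
  have hA0 : 0 ≤ ∑ α, ∫ x, ‖Aop b c M G g m α e Φ x‖ ^ 2 ∂μ :=
    Finset.sum_nonneg fun α _ => integral_nonneg fun x => by positivity
  have hB00 : 0 ≤ ∑ α, ∫ x, ‖Bop b c M G g α v t Φ x‖ ^ 2 ∂μ :=
    Finset.sum_nonneg fun α _ => integral_nonneg fun x => by positivity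
  have hCK : 0 ≤ C * K := mul_nonneg hC hK
  have hX : C * K * ∫ x, ‖Φ x‖ ^ 2 ∂μ ≤ C * K * E := mul_le_mul_of_nonneg_left hE hCK
  have q0 : 0 ≤ (1 + C * K) * E := by positivity
  have q1 : 0 ≤ K * ((1 + C * K) * E) := by positivity
  have e1 : 2 * (1 + C * K) * (1 + K) * E = 2 * ((1 + C * K) * E) + 2 * (K * ((1 + C * K) * E)) := by
    ring
  have hSB : ∑ α, ∫ x, ‖Bop b c M G g α v t Φ x‖ ^ 2 ∂μ ≤ 2 * ((1 + C * K) * E) := by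
    nlinarith
  have hSA : ∑ α, ∫ x, ‖Aop b c M G g m α e Φ x‖ ^ 2 ∂μ ≤ (1 + C * K) * E := by
    nlinarith
  have hKB : K * ∑ α, ∫ x, ‖Bop b c M G g α v t Φ x‖ ^ 2 ∂μ ≤ 2 * (K * ((1 + C * K) * E)) := by
    have := mul_le_mul_of_nonneg_left hSB hK
    linarith
  have d0 : 0 ≤ ∫ x, dd (hv v) (fun x => g * ‖x.2‖) (fun y => Po (toR Γ) (Φ y)) x ∂μ :=
    integral_nonneg fun x => dd_nonneg _ _ _ _
  have d1 : 0 ≤ g * ∫ x, ‖Po (toR Γ) (Φ x)‖ ^ 2 ∂μ :=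
    mul_nonneg hg (integral_nonneg fun x => by positivity)
  have hE1 : E ≤ (1 + C * K) * E := by nlinarith [mul_nonneg hCK hE0]
  refine ⟨?_, ?_, ?_, ?_, ?_⟩
  · rw [e1]; linarith
  · rw [e1]; linarith
  · rw [e1]; linarith
  · simp only [← Po_eq]
    rw [e1]; linarith
  · rw [e1]; linarith

end out

/-! ### The fibre projection -/

section proj

variable {κ η : Type*} [Fintype κ] [Fintype η] {v : OrthonormalBasis κ ℝ (Zs b c)}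
  {t : OrthonormalBasis η ℝ (Tn (actB b) c)}
  {μU : Measure (Uk b c)} [μU.IsAddHaarMeasure] {μZ : Measure (Zs b c)} [μZ.IsAddHaarMeasure]

/-- the local energy `K Σ_α ∫ ‖B_α Φ(u, ·)‖²` -/
def en (μZ : Measure (Zs b c)) (M : FermionRep N F) (G : GammaNine)
    (v : OrthonormalBasis κ ℝ (Zs b c)) (t : OrthonormalBasis η ℝ (Tn (actB b) c)) (g K : ℝ)
    (Φ : Sc b c → F) (u : Uk b c) : ℝ :=
  K * ∑ α, ∫ z, ‖Bop b c M G g α v t Φ (u, z)‖ ^ 2 ∂μZ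

theorem en_nonneg {g K : ℝ} (hK : 0 ≤ K) (Φ : Sc b c → F) (u : Uk b c) :
    0 ≤ en μZ M G v t g K Φ u :=
  mul_nonneg hK (Finset.sum_nonneg fun α _ => integral_nonneg fun z => by positivity)

theorem integrable_en {r B ρ g K : ℝ} (hr0 : 0 < r) (hr : GapAt (actB b) c r)
    (hB : ActBound (actB b) B) (hρ : B * ρ ≤ r / 2) (hB0 : 0 ≤ B) {Φ : Sc b c → F}
    (hΦ : ContDiff ℝ 1 Φ) (hc : HasCompactSupport Φ) (h0 : ∀ x : Sc b c, ρ < ‖x.1‖ → Φ x = 0) :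
    Integrable (en μZ M G v t g K Φ) μU ∧
      ∫ u, en μZ M G v t g K Φ u ∂μU =
        K * ∑ α, ∫ x, ‖Bop b c M G g α v t Φ x‖ ^ 2 ∂(μU.prod μZ) := by
  have hI := fun α => LemRc149.integrable_Bop (μU := μU) (μZ := μZ) M G g α v t hr0 hr hB hρ hB0
    hΦ hc h0
  have hJ := fun α => (hI α).integral_prod_left
  unfold en
  refine ⟨(integrable_finsetSum _ fun α _ => hJ α).const_mul K, ?_⟩
  rw [integral_const_mul, integral_finsetSum _ fun α _ => hJ α]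
  congr 1
  exact Finset.sum_congr rfl fun α _ => (integral_prod _ (hI α)).symm

/-- **(h2)** the fibre projection, fibrewise. -/
theorem h2_of {ρ g K : ℝ} {Pr : Uk b c → (Zs b c → F) → Zs b c → F} {d : Uk b c → ℝ}
    (hP0 : ∀ u z, Pr u (fun _ => 0) z = 0) (hK : 0 ≤ K)
    (hF : ∀ u : Uk b c, ‖u‖ ≤ ρ → ∀ f : Zs b c → F, ContDiff ℝ 2 f → HasCompactSupport f →
      g * ∫ z, ‖f z - Pr u f z‖ ^ 2 ∂μZ ≤
        K * (∑ α, ∫ z, ‖Bfib b c M G g α v t (c + u) f z‖ ^ 2 ∂μZ +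
          d u ^ 2 * (g * ∫ z, ‖f z‖ ^ 2 ∂μZ)))
    {Φ : Sc b c → F} (hΦ : ContDiff ℝ 2 Φ) (hc : HasCompactSupport Φ)
    (h0 : ∀ x : Sc b c, ρ < ‖x.1‖ → Φ x = 0) (u : Uk b c) :
    g * ∫ z, ‖Φ (u, z) - Pr u (fun z => Φ (u, z)) z‖ ^ 2 ∂μZ ≤
      en μZ M G v t g K Φ u + g * (Real.sqrt K * d u) ^ 2 * ∫ z, ‖Φ (u, z)‖ ^ 2 ∂μZ := by
  by_cases hu : ‖u‖ ≤ ρ
  · have h1 := hF u hu (fun z => Φ (u, z)) (LemRb149.fib_contDiff hΦ u) (LemRb149.fib_hcs hc u)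
    have hd : ∀ x, DifferentiableAt ℝ Φ x := fun x => hΦ.differentiable (by norm_num) x
    have h2 : ∀ α z, Bop b c M G g α v t Φ (u, z) =
        Bfib b c M G g α v t (c + u) (fun z => Φ (u, z)) z := fun α z =>
      Bop_eq_Bfib v t (hd (u, z))
    unfold en
    simp only [h2]
    refine h1.trans (le_of_eq ?_)
    rw [mul_pow, Real.sq_sqrt hK]
    ring
  · rw [not_le] at hu
    have h1 : ∀ z, Φ (u, z) = 0 := fun z => h0 (u, z) hu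
    simp only [h1, hP0, sub_zero, norm_zero]
    have h2 := en_nonneg (μZ := μZ) (M := M) (G := G) (v := v) (t := t) (g := g) hK Φ u
    simpa using h2

/-- **(I1)** the fibre projection, integrated over `S`. -/
theorem I1_of {r B ρ g K δ : ℝ} (hr0 : 0 < r) (hr : GapAt (actB b) c r)
    (hB : ActBound (actB b) B) (hρ : B * ρ ≤ r / 2) (hB0 : 0 ≤ B)
    {Pr : Uk b c → (Zs b c → F) → Zs b c → F} {d : Uk b c → ℝ} (hd : ∀ u, 0 ≤ d u)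
    (hP0 : ∀ u z, Pr u (fun _ => 0) z = 0) (hg : 0 ≤ g) (hK : 0 ≤ K)
    (hF : ∀ u : Uk b c, ‖u‖ ≤ ρ → ∀ f : Zs b c → F, ContDiff ℝ 2 f → HasCompactSupport f →
      g * ∫ z, ‖f z - Pr u f z‖ ^ 2 ∂μZ ≤
        K * (∑ α, ∫ z, ‖Bfib b c M G g α v t (c + u) f z‖ ^ 2 ∂μZ +
          d u ^ 2 * (g * ∫ z, ‖f z‖ ^ 2 ∂μZ)))
    {Φ : Sc b c → F} (hΦ : ContDiff ℝ 2 Φ) (hc : HasCompactSupport Φ)
    (h0 : ∀ x : Sc b c, ρ < ‖x.1‖ → Φ x = 0) {S : Set (Uk b c)} (hS : MeasurableSet S)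
    (hSd : ∀ u ∈ S, d u ≤ δ) :
    g * ∫ u in S, ∫ z, ‖Φ (u, z) - Pr u (fun z => Φ (u, z)) z‖ ^ 2 ∂μZ ∂μU ≤
      K * (∑ α, ∫ x, ‖Bop b c M G g α v t Φ x‖ ^ 2 ∂(μU.prod μZ) +
        δ ^ 2 * (g * ∫ x, ‖Φ x‖ ^ 2 ∂(μU.prod μZ))) := by
  obtain ⟨i1, i2⟩ := integrable_en (μU := μU) (μZ := μZ) (M := M) (G := G) (v := v) (t := t)
    (g := g) (K := K) hr0 hr hB hρ hB0 (cd_one_of_two hΦ) hc h0
  have i3 : Integrable (fun x => ‖Φ x‖ ^ 2) (μU.prod μZ) := LemRb149.sq_int hΦ.continuous hc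
  have i4 := i3.integral_prod_left
  rw [← integral_const_mul]
  have h1 : ∫ u in S, g * ∫ z, ‖Φ (u, z) - Pr u (fun z => Φ (u, z)) z‖ ^ 2 ∂μZ ∂μU ≤
      ∫ u in S, (en μZ M G v t g K Φ u + g * (K * δ ^ 2) * ∫ z, ‖Φ (u, z)‖ ^ 2 ∂μZ) ∂μU := by
    refine integral_mono_of_nonneg (Eventually.of_forall fun u =>
      mul_nonneg hg (integral_nonneg fun z => by positivity))
      (i1.integrableOn.add (i4.integrableOn.const_mul _)) ?_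
    rw [EventuallyLE, ae_restrict_iff' hS]
    refine Eventually.of_forall fun u hu => ?_
    refine (h2_of hP0 hK hF hΦ hc h0 u).trans ?_
    have h2 : (Real.sqrt K * d u) ^ 2 ≤ K * δ ^ 2 := by
      rw [mul_pow, Real.sq_sqrt hK]
      exact mul_le_mul_of_nonneg_left (pow_le_pow_left₀ (hd u) (hSd u hu) 2) hK
    have h3 : 0 ≤ ∫ z, ‖Φ (u, z)‖ ^ 2 ∂μZ := integral_nonneg fun z => by positivity
    have h4 : g * (Real.sqrt K * d u) ^ 2 * ∫ z, ‖Φ (u, z)‖ ^ 2 ∂μZ ≤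
        g * (K * δ ^ 2) * ∫ z, ‖Φ (u, z)‖ ^ 2 ∂μZ := by gcongr
    linarith
  refine h1.trans ?_
  rw [integral_add i1.integrableOn (i4.integrableOn.const_mul _), integral_const_mul]
  have h5 : ∫ u in S, en μZ M G v t g K Φ u ∂μU ≤ ∫ u, en μZ M G v t g K Φ u ∂μU :=
    setIntegral_le_integral i1 (Eventually.of_forall fun u => en_nonneg hK Φ u)
  have h6 : ∫ u in S, ∫ z, ‖Φ (u, z)‖ ^ 2 ∂μZ ∂μU ≤ ∫ x, ‖Φ x‖ ^ 2 ∂(μU.prod μZ) := by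
    rw [integral_prod _ i3]
    exact setIntegral_le_integral i4 (Eventually.of_forall fun u =>
      integral_nonneg fun z => by positivity)
  have h7 : g * (K * δ ^ 2) * ∫ u in S, ∫ z, ‖Φ (u, z)‖ ^ 2 ∂μZ ∂μU ≤
      g * (K * δ ^ 2) * ∫ x, ‖Φ x‖ ^ 2 ∂(μU.prod μZ) :=
    mul_le_mul_of_nonneg_left h6 (by positivity)
  rw [i2] at h5
  calc _ ≤ K * ∑ α, ∫ x, ‖Bop b c M G g α v t Φ x‖ ^ 2 ∂(μU.prod μZ) +
        g * (K * δ ^ 2) * ∫ x, ‖Φ x‖ ^ 2 ∂(μU.prod μZ) := add_le_add h5 h7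
    _ = _ := by ring

end proj

end Crest.Agent.R330.LemC342

end
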