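import Crest.Agent.R330.Osc_151
import Mathlib.Analysis.InnerProductSpace.ProdL2

/-!
# Fibrewise spectral gaps (helper151)

`E₁ × E₂`, base `E₁`, fibre `E₂`; ground state `H (x, ·)`, fields `a k (x, ·)` and constant `C x`
may depend on the base point.

* `fibre`, `fibre_const` : `∫ x, C x (∫ y ‖f‖² - ‖amp x‖²) ≤ ∫ ∑ ‖∂_k f + a_k f‖²` (fibre directions),
  `amp μ₂ H f x = ∫ y, H (x, y) • f (x, y)`; `dist_amp` : Pythagoras.
* `splitE K : E ≃L K × Kᗮ`, `measurePreserving_splitE`, `hs_split`, `fibre_sub`.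
* `gap_ker` : `A` symmetric, `A = 0` on `K`, `A ≥ c` on `Kᗮ`, `w` any orthonormal basis of `E`:
  `2c ∫ ‖f - gsK • ampS‖² ≤ ∫ ∑ ‖∂_{w k} f + ⟪A p, w k⟫ f‖²`, `gsK p = Z exp (-⟪A p, p⟫ / 2)`.
-/

set_option autoImplicit false
set_option linter.unusedSectionVars false

open MeasureTheory Filter Topology Set Real
open scoped InnerProductSpace ENNReal

noncomputable section

namespace Crest.Agent.R330.Fib151

open Gauss151 Poinc151 Osc151

section prod

variable {E₁ E₂ F : Type*} [NormedAddCommGroup E₁] [NormedSpace ℝ E₁] [FiniteDimensional ℝ E₁]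
  [MeasurableSpace E₁] [BorelSpace E₁]
  [NormedAddCommGroup E₂] [NormedSpace ℝ E₂] [FiniteDimensional ℝ E₂]
  [MeasurableSpace E₂] [BorelSpace E₂]
  {μ₁ : Measure E₁} {μ₂ : Measure E₂} [IsFiniteMeasureOnCompacts μ₁] [IsFiniteMeasureOnCompacts μ₂]
  [SigmaFinite μ₁] [SigmaFinite μ₂]
  [NormedAddCommGroup F] [InnerProductSpace ℝ F] [CompleteSpace F]
  {κ : Type*} [Fintype κ] {v : κ → E₂} {a : κ → E₁ × E₂ → ℝ} {H : E₁ × E₂ → ℝ} {f : E₁ × E₂ → F}

/-- Amplitude of `f` along `H (x, ·)`. -/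
def amp (μ₂ : Measure E₂) (H : E₁ × E₂ → ℝ) (f : E₁ × E₂ → F) (x : E₁) : F :=
  ∫ y, H (x, y) • f (x, y) ∂μ₂

theorem continuous_amp (hf : Continuous f) (hc : HasCompactSupport f) (hH : Continuous H) :
    Continuous (amp μ₂ H f) := by
  have : ProperSpace E₁ := FiniteDimensional.proper ℝ E₁
  have hK : IsCompact (Prod.snd '' tsupport f) := hc.image continuous_snd
  have h1 : amp μ₂ H f = fun x => ∫ y in Prod.snd '' tsupport f, H (x, y) • f (x, y) ∂μ₂ := by
    funext x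
    refine (setIntegral_eq_integral_of_forall_compl_eq_zero fun y hy => ?_).symm
    have : f (x, y) = 0 := by
      by_contra h
      exact hy ⟨(x, y), subset_tsupport f h, rfl⟩
    rw [this, smul_zero]
  rw [h1]
  have h2 : Continuous (Function.uncurry fun (x : E₁) (y : E₂) => H (x, y) • f (x, y)) := hH.smul hf
  exact continuous_parametric_integral_of_continuous h2 hK

theorem compact_amp (hc : HasCompactSupport f) : HasCompactSupport (amp μ₂ H f) := by
  refine HasCompactSupport.of_support_subset_isCompact (hc.image continuous_fst) fun x hx => ?_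
  by_contra h
  refine hx ?_
  have h1 : ∀ y, f (x, y) = 0 := fun y => by
    by_contra h2
    exact h ⟨(x, y), subset_tsupport f h2, rfl⟩
  simp only [amp, h1, smul_zero, integral_zero]

/-- Distance to the fibrewise line. -/
theorem dist_amp (hf : Continuous f) (hc : HasCompactSupport f) (hH : Continuous H)
    (i : ∀ x, Integrable (fun y => H (x, y) ^ 2) μ₂) (n : ∀ x, ∫ y, H (x, y) ^ 2 ∂μ₂ = 1) :
    Integrable (fun p : E₁ × E₂ => ‖f p - H p • amp μ₂ H f p.1‖ ^ 2) (μ₁.prod μ₂) ∧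
    ∫ p, ‖f p - H p • amp μ₂ H f p.1‖ ^ 2 ∂(μ₁.prod μ₂) =
      (∫ p, ‖f p‖ ^ 2 ∂(μ₁.prod μ₂)) - ∫ x, ‖amp μ₂ H f x‖ ^ 2 ∂μ₁ := by
  have hA := continuous_amp (μ₂ := μ₂) hf hc hH
  have hAc : HasCompactSupport (amp μ₂ H f) := compact_amp hc
  have j0 : Integrable (fun p => ‖f p‖ ^ 2) (μ₁.prod μ₂) :=
    integrable_cc hc (hf.norm.pow 2) fun x hx => by rw [hx]; simp
  have j1 : Integrable (fun x => ‖amp μ₂ H f x‖ ^ 2) μ₁ :=
    integrable_cc hAc (hA.norm.pow 2) fun x hx => by rw [hx]; simp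
  have j2 : Integrable (fun p : E₁ × E₂ => 2 * ⟪f p, H p • amp μ₂ H f p.1⟫_ℝ) (μ₁.prod μ₂) :=
    integrable_cc hc (continuous_const.mul (hf.inner (hH.smul (hA.comp continuous_fst))))
      fun x hx => by rw [hx, inner_zero_left, mul_zero]
  have c3 : Continuous fun p : E₁ × E₂ => H p ^ 2 * ‖amp μ₂ H f p.1‖ ^ 2 :=
    (hH.pow 2).mul ((hA.comp continuous_fst).norm.pow 2)
  have j3 : Integrable (fun p : E₁ × E₂ => H p ^ 2 * ‖amp μ₂ H f p.1‖ ^ 2) (μ₁.prod μ₂) := by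
    rw [integrable_prod_iff c3.aestronglyMeasurable]
    refine ⟨ae_of_all _ fun x => (i x).mul_const (‖amp μ₂ H f x‖ ^ 2), ?_⟩
    have e : ∀ x, ∫ y, ‖H (x, y) ^ 2 * ‖amp μ₂ H f x‖ ^ 2‖ ∂μ₂ = ‖amp μ₂ H f x‖ ^ 2 := by
      intro x
      have e1 : ∀ y, ‖H (x, y) ^ 2 * ‖amp μ₂ H f x‖ ^ 2‖ = H (x, y) ^ 2 * ‖amp μ₂ H f x‖ ^ 2 :=
        fun y => Real.norm_of_nonneg (mul_nonneg (sq_nonneg _) (sq_nonneg _))
      simp only [e1]
      rw [integral_mul_const, n x, one_mul]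
    simp only [e]
    exact j1
  have e0 : ∀ p : E₁ × E₂, ‖f p - H p • amp μ₂ H f p.1‖ ^ 2 =
      ‖f p‖ ^ 2 - 2 * ⟪f p, H p • amp μ₂ H f p.1⟫_ℝ + H p ^ 2 * ‖amp μ₂ H f p.1‖ ^ 2 := by
    intro p
    rw [norm_sub_sq_real, norm_smul, mul_pow, Real.norm_eq_abs, sq_abs]
  have j4 : Integrable (fun p : E₁ × E₂ => ‖f p - H p • amp μ₂ H f p.1‖ ^ 2) (μ₁.prod μ₂) :=
    ((j0.sub j2).add j3).congr (ae_of_all _ fun p => (e0 p).symm)
  refine ⟨j4, ?_⟩
  rw [integral_prod _ j4, integral_prod _ j0, ← integral_sub j0.integral_prod_left j1]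
  refine integral_congr_ae (ae_of_all _ fun x => ?_)
  exact dist_line (hH.comp (continuous_const.prodMk continuous_id))
    (hf.comp (continuous_const.prodMk continuous_id)) (slice_right hc x) (i x) (n x)

/-- **Fibrewise gap**: fields, ground state and gap constant depend on the base point; only base
points met by `f` matter. -/
theorem fibre (C : E₁ → ℝ) (h : ∀ x, (∃ y, f (x, y) ≠ 0) →
      Poinc F μ₂ v (fun k y => a k (x, y)) (fun y => H (x, y)) (C x))
    (ha : ∀ k, Continuous (a k)) (hf : ContDiff ℝ 1 f) (hc : HasCompactSupport f) :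
    ∫ x, C x * ((∫ y, ‖f (x, y)‖ ^ 2 ∂μ₂) - ‖amp μ₂ H f x‖ ^ 2) ∂μ₁ ≤
      ∫ p, ∑ k, ‖fderiv ℝ f p (0, v k) + a k p • f p‖ ^ 2 ∂(μ₁.prod μ₂) := by
  have hfc : Continuous f := hf.continuous
  have hfd : ∀ v, Continuous fun p => fderiv ℝ f p v := fun v =>
    (hf.continuous_fderiv one_ne_zero).clm_apply continuous_const
  have dr : ∀ x y v, fderiv ℝ (fun y => f (x, y)) y v = fderiv ℝ f (x, y) (0, v) := by
    intro x y v
    have h1 : HasFDerivAt f (fderiv ℝ f (x, y)) (x, y) :=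
      (hf.differentiable one_ne_zero (x, y)).hasFDerivAt
    have h2 := HasFDerivAt.comp (𝕜 := ℝ) (g := f) (f := fun y' : E₂ => (x, y')) y h1
      (hasFDerivAt_prodMk_right (𝕜 := ℝ) x y)
    have h3 : fderiv ℝ (fun y => f (x, y)) y =
        (fderiv ℝ f (x, y)).comp (ContinuousLinearMap.inr ℝ E₁ E₂) := h2.fderiv
    rw [h3]
    simp
  have g2 : Integrable (fun p : E₁ × E₂ =>
      ∑ k, ‖fderiv ℝ f p (0, v k) + a k p • f p‖ ^ 2) (μ₁.prod μ₂) := by
    have c2 : Continuous fun p : E₁ × E₂ => ∑ k, ‖fderiv ℝ f p (0, v k) + a k p • f p‖ ^ 2 :=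
      continuous_finsetSum _ fun k _ => ((hfd _).add ((ha k).smul hfc)).norm.pow 2
    refine c2.integrable_of_hasCompactSupport
      (HasCompactSupport.of_support_subset_isCompact hc fun p hp => ?_)
    by_contra h'
    refine hp ?_
    have h1 : fderiv ℝ f p = 0 := by
      by_contra h''
      exact h' (support_fderiv_subset ℝ h'')
    show ∑ k, ‖fderiv ℝ f p (0, v k) + a k p • f p‖ ^ 2 = 0
    rw [image_eq_zero_of_notMem_tsupport h', h1]
    simp
  by_cases hi : Integrable (fun x => C x * ((∫ y, ‖f (x, y)‖ ^ 2 ∂μ₂) - ‖amp μ₂ H f x‖ ^ 2)) μ₁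
  · rw [integral_prod _ g2]
    refine integral_mono hi g2.integral_prod_left fun x => ?_
    by_cases hx : ∃ y, f (x, y) ≠ 0
    · have h1 := h x hx (fun y => f (x, y)) (hf.comp (contDiff_const.prodMk contDiff_id))
        (slice_right hc x)
      simp only [dr] at h1
      exact h1
    · push Not at hx
      show C x * ((∫ y, ‖f (x, y)‖ ^ 2 ∂μ₂) - ‖amp μ₂ H f x‖ ^ 2) ≤
        ∫ y, ∑ k, ‖fderiv ℝ f (x, y) (0, v k) + a k (x, y) • f (x, y)‖ ^ 2 ∂μ₂
      have e1 : amp μ₂ H f x = 0 := by simp [amp, hx]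
      simp only [hx, e1, norm_zero]
      simp only [ne_eq, OfNat.ofNat_ne_zero, not_false_eq_true, zero_pow, integral_zero, sub_zero,
        mul_zero]
      exact integral_nonneg fun y => Finset.sum_nonneg fun k _ => sq_nonneg _
  · rw [integral_undef hi]
    exact integral_nonneg fun p => Finset.sum_nonneg fun k _ => sq_nonneg _

/-- Constant gap: distance to the fibrewise line. -/
theorem fibre_const {C : ℝ} (h : ∀ x, (∃ y, f (x, y) ≠ 0) →
      Poinc F μ₂ v (fun k y => a k (x, y)) (fun y => H (x, y)) C)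
    (ha : ∀ k, Continuous (a k)) (hf : ContDiff ℝ 1 f) (hc : HasCompactSupport f)
    (hH : Continuous H) (i : ∀ x, Integrable (fun y => H (x, y) ^ 2) μ₂)
    (n : ∀ x, ∫ y, H (x, y) ^ 2 ∂μ₂ = 1) :
    C * ∫ p, ‖f p - H p • amp μ₂ H f p.1‖ ^ 2 ∂(μ₁.prod μ₂) ≤
      ∫ p, ∑ k, ‖fderiv ℝ f p (0, v k) + a k p • f p‖ ^ 2 ∂(μ₁.prod μ₂) := by
  have h1 := fibre (μ₁ := μ₁) (fun _ => C) h ha hf hc
  have j0 : Integrable (fun p => ‖f p‖ ^ 2) (μ₁.prod μ₂) :=
    integrable_cc hc (hf.continuous.norm.pow 2) fun x hx => by rw [hx]; simp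
  have j1 : Integrable (fun x => ‖amp μ₂ H f x‖ ^ 2) μ₁ :=
    integrable_cc (compact_amp hc) ((continuous_amp hf.continuous hc hH).norm.pow 2)
      fun x hx => by rw [hx]; simp
  rw [integral_const_mul, integral_sub j0.integral_prod_left j1, ← integral_prod _ j0,
    ← (dist_amp hf.continuous hc hH i n).2] at h1
  exact h1

end prod

/-! ### Orthogonal splittings -/

section sub

variable {E F : Type*} [NormedAddCommGroup E] [InnerProductSpace ℝ E] [FiniteDimensional ℝ E]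
  [MeasurableSpace E] [BorelSpace E] [NormedAddCommGroup F] [InnerProductSpace ℝ F]
  [CompleteSpace F] (K : Submodule ℝ E)

/-- `E ≃ K × Kᗮ`. -/
def splitE : E ≃L[ℝ] K × Kᗮ :=
  K.orthogonalDecomposition.toContinuousLinearEquiv.trans
    (WithLp.prodContinuousLinearEquiv 2 ℝ K Kᗮ)

omit [MeasurableSpace E] [BorelSpace E] in
theorem splitE_symm_apply (p : K × Kᗮ) : (splitE K).symm p = (p.1 : E) + p.2 := rfl

omit [MeasurableSpace E] [BorelSpace E] in
theorem splitE_apply (x : E) :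
    splitE K x = (K.orthogonalProjectionOnto x, Kᗮ.orthogonalProjectionOnto x) := by
  show (K.orthogonalDecomposition x).ofLp = _
  rw [K.orthogonalDecomposition_apply]

omit [MeasurableSpace E] [BorelSpace E] in
theorem splitE_add (x : E) :
    ((K.orthogonalProjectionOnto x : K) : E) + (Kᗮ.orthogonalProjectionOnto x : Kᗮ) = x := by
  have h := (splitE K).symm_apply_apply x
  rw [splitE_apply, splitE_symm_apply] at h
  exact h

theorem measurePreserving_splitE : MeasurePreserving (splitE K) (volume : Measure E)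
    ((volume : Measure K).prod (volume : Measure Kᗮ)) :=
  (WithLp.volume_preserving_ofLp K Kᗮ).comp K.orthogonalDecomposition.measurePreserving

omit [MeasurableSpace E] [BorelSpace E] [CompleteSpace F] in
/-- The Hilbert–Schmidt norm splits. -/
theorem hs_split {κ ι₁ ι₂ : Type*} [Fintype κ] [Fintype ι₁] [Fintype ι₂]
    (w : OrthonormalBasis κ ℝ E) (b₁ : OrthonormalBasis ι₁ ℝ K) (b₂ : OrthonormalBasis ι₂ ℝ Kᗮ)
    (L : E →ₗ[ℝ] F) : ∑ k, ‖L (w k)‖ ^ 2 = (∑ i, ‖L (b₁ i)‖ ^ 2) + ∑ j, ‖L (b₂ j)‖ ^ 2 := by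
  have h := hs_indep ((b₁.prod b₂).map K.orthogonalDecomposition.symm) w L
  rw [← h, Fintype.sum_sum_type]
  congr 1
  · refine Finset.sum_congr rfl fun i _ => ?_
    congr 3
    simp
  · refine Finset.sum_congr rfl fun i _ => ?_
    congr 3
    simp

/-- Fibrewise amplitude along `Kᗮ`, as a function on `E`. -/
def ampS (H : E → ℝ) (f : E → F) (x : E) : F :=
  ∫ y : Kᗮ, H ((K.orthogonalProjectionOnto x : K) + (y : E)) •
    f ((K.orthogonalProjectionOnto x : K) + (y : E))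

variable {κ : Type*} [Fintype κ] {v : κ → Kᗮ} {a : κ → E → ℝ} {H : E → ℝ} {f : E → F}

/-- **Fibrewise gap** for an orthogonal splitting. -/
theorem fibre_sub {C : ℝ} (h : ∀ x : K, (∃ y : Kᗮ, f ((x : E) + y) ≠ 0) →
      Poinc F (volume : Measure Kᗮ) v (fun k y => a k ((x : E) + y)) (fun y => H ((x : E) + y)) C)
    (ha : ∀ k, Continuous (a k)) (hf : ContDiff ℝ 1 f) (hc : HasCompactSupport f)
    (hH : Continuous H) (i : ∀ x : K, Integrable (fun y : Kᗮ => H ((x : E) + y) ^ 2))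
    (n : ∀ x : K, ∫ y : Kᗮ, H ((x : E) + y) ^ 2 = 1) :
    C * ∫ p, ‖f p - H p • ampS K H f p‖ ^ 2 ≤
      ∫ p, ∑ k, ‖fderiv ℝ f p (v k) + a k p • f p‖ ^ 2 := by
  set e := splitE K with he
  have hemb : MeasurableEmbedding e := e.toHomeomorph.measurableEmbedding
  have hmp := measurePreserving_splitE K
  have h1 := fibre_const (μ₁ := (volume : Measure K)) (μ₂ := (volume : Measure Kᗮ)) (v := v)
    (a := fun k q => a k (e.symm q)) (H := fun q => H (e.symm q)) (f := fun q => f (e.symm q))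
    (C := C) h (fun k => (ha k).comp e.symm.continuous) (hf.comp e.symm.contDiff)
    (hc.comp_homeomorph e.symm.toHomeomorph) (hH.comp e.symm.continuous) i n
  have e3 : ∀ q w, fderiv ℝ (fun q => f (e.symm q)) q w = fderiv ℝ f (e.symm q) (e.symm w) := by
    intro q w
    have h2 : HasFDerivAt f (fderiv ℝ f (e.symm q)) (e.symm q) :=
      (hf.differentiable one_ne_zero _).hasFDerivAt
    have h3 := h2.comp q e.symm.hasFDerivAt
    have h4 : fderiv ℝ (fun y => f (e.symm y)) q =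
        (fderiv ℝ f (e.symm q)).comp (e.symm : K × Kᗮ →L[ℝ] E) := h3.fderiv
    rw [h4]
    simp
  rw [← hmp.integral_comp hemb, ← hmp.integral_comp hemb] at h1
  simp only [e3] at h1
  have e4 : ∀ p : E, e.symm (splitE K p) = p := fun p => e.symm_apply_apply p
  have e5 : ∀ k, e.symm ((0 : K), v k) = (v k : E) := fun k => by
    rw [he, splitE_symm_apply]
    simp
  have e6 : ∀ p : E, amp (volume : Measure Kᗮ) (fun q => H (e.symm q)) (fun q => f (e.symm q))
      (splitE K p).1 = ampS K H f p := by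
    intro p
    rw [splitE_apply]
    rfl
  simp only [e4, e5, e6] at h1
  exact h1

/-! ### Operators with a kernel -/

/-- Compression of `A` to `Kᗮ`. -/
def comprA (A : E →ₗ[ℝ] E) : Kᗮ →ₗ[ℝ] Kᗮ :=
  ((Kᗮ.orthogonalProjectionOnto : E →L[ℝ] Kᗮ) : E →ₗ[ℝ] Kᗮ) ∘ₗ A ∘ₗ Kᗮ.subtype

omit [MeasurableSpace E] [BorelSpace E] in
theorem inner_comprA (A : E →ₗ[ℝ] E) (x y : Kᗮ) : ⟪comprA K A x, y⟫_ℝ = ⟪A x, (y : E)⟫_ℝ := by
  show ⟪Kᗮ.orthogonalProjectionOnto (A x), y⟫_ℝ = _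
  exact Submodule.inner_orthogonalProjectionOnto_eq_of_mem_right _ _

omit [MeasurableSpace E] [BorelSpace E] in
theorem comprA_symm {A : E →ₗ[ℝ] E} (hA : A.IsSymmetric) : (comprA K A).IsSymmetric := by
  intro x y
  have h1 : ⟪x, comprA K A y⟫_ℝ = ⟪comprA K A y, x⟫_ℝ := real_inner_comm _ _
  rw [h1, inner_comprA, inner_comprA, hA, real_inner_comm]

variable {A : E →ₗ[ℝ] E} (hA : A.IsSymmetric)

/-- Ground state `Z exp (-⟪A p, p⟫ / 2)` of an operator vanishing on `K`, positive on `Kᗮ`. -/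
def gsK (p : E) : ℝ := zOp (comprA_symm K hA) * exp (-⟪A p, p⟫_ℝ / 2)

theorem gsK_eq (hK : ∀ x ∈ K, A x = 0) (x : K) (y : Kᗮ) :
    gsK K hA ((x : E) + y) = gsOp (comprA_symm K hA) 0 y := by
  rw [gsOp_eq, gsK, sub_zero, inner_comprA]
  have h1 : A ((x : E) + y) = A y := by rw [map_add, hK x x.2, zero_add]
  have h2 : ⟪A (y : E), ((x : E) + y)⟫_ℝ = ⟪A (y : E), (y : E)⟫_ℝ := by
    rw [inner_add_right, hA, hK x x.2, inner_zero_right, zero_add]
  rw [h1, h2]

omit [MeasurableSpace E] [BorelSpace E] in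
theorem continuous_gsK : Continuous (gsK K hA) := by
  have h1 : Continuous A := A.continuous_of_finiteDimensional
  unfold gsK
  exact continuous_const.mul (Real.continuous_exp.comp ((h1.inner continuous_id).neg.div_const 2))

theorem normSq_gsK (hK : ∀ x ∈ K, A x = 0) {c : ℝ} (hc0 : 0 < c)
    (h : ∀ y ∈ Kᗮ, c * ‖y‖ ^ 2 ≤ ⟪A y, y⟫_ℝ) (x : K) :
    Integrable (fun y : Kᗮ => gsK K hA ((x : E) + y) ^ 2) ∧
      ∫ y : Kᗮ, gsK K hA ((x : E) + y) ^ 2 = 1 := by
  have h1 : ∀ y : Kᗮ, c * ‖y‖ ^ 2 ≤ ⟪comprA K A y, y⟫_ℝ := fun y => by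
    rw [inner_comprA]
    exact h y y.2
  simp only [gsK_eq K hA hK]
  exact normSq_gsOp (comprA_symm K hA) hc0 h1 0

omit [CompleteSpace F] in
theorem integrable_energy {κ' : Type*} [Fintype κ'] {A : E → E} (hAc : Continuous A) {f : E → F}
    (hf : ContDiff ℝ 1 f) (hc : HasCompactSupport f) (u : κ' → E) :
    Integrable (fun p : E => ∑ k, ‖fderiv ℝ f p (u k) + ⟪A p, u k⟫_ℝ • f p‖ ^ 2) := by
  have hfc : Continuous f := hf.continuous
  have hfd : ∀ v, Continuous fun p => fderiv ℝ f p v := fun v =>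
    (hf.continuous_fderiv one_ne_zero).clm_apply continuous_const
  have c2 : Continuous fun p : E => ∑ k, ‖fderiv ℝ f p (u k) + ⟪A p, u k⟫_ℝ • f p‖ ^ 2 :=
    continuous_finsetSum _ fun k _ =>
      ((hfd _).add ((hAc.inner continuous_const).smul hfc)).norm.pow 2
  refine c2.integrable_of_hasCompactSupport
    (HasCompactSupport.of_support_subset_isCompact hc fun p hp => ?_)
  by_contra h'
  refine hp ?_
  have h1 : fderiv ℝ f p = 0 := by
    by_contra h''
    exact h' (support_fderiv_subset ℝ h'')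
  show ∑ k, ‖fderiv ℝ f p (u k) + ⟪A p, u k⟫_ℝ • f p‖ ^ 2 = 0
  rw [image_eq_zero_of_notMem_tsupport h', h1]
  simp

/-- **Fibrewise gap** for `∂ + A p` when `A` vanishes on `K` and `A ≥ c` on `Kᗮ`; any orthonormal
basis `w`. -/
theorem gap_ker {κ : Type*} [Fintype κ] (w : OrthonormalBasis κ ℝ E) {f : E → F}
    (hK : ∀ x ∈ K, A x = 0) {c : ℝ} (hc0 : 0 < c)
    (h : ∀ y ∈ Kᗮ, c * ‖y‖ ^ 2 ≤ ⟪A y, y⟫_ℝ) (hf : ContDiff ℝ 1 f) (hc : HasCompactSupport f) :
    2 * c * ∫ p, ‖f p - gsK K hA p • ampS K (gsK K hA) f p‖ ^ 2 ≤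
      ∫ p, ∑ k, ‖fderiv ℝ f p (w k) + ⟪A p, w k⟫_ℝ • f p‖ ^ 2 := by
  have h1 : ∀ y : Kᗮ, c * ‖y‖ ^ 2 ≤ ⟪comprA K A y, y⟫_ℝ := fun y => by
    rw [inner_comprA]
    exact h y y.2
  have hAc : Continuous A := A.continuous_of_finiteDimensional
  set b₁ := stdOrthonormalBasis ℝ K
  set b₂ := stdOrthonormalBasis ℝ Kᗮ
  have h2 := fun x₀ : Kᗮ => gap_op (F := F) (comprA_symm K hA) b₂ hc0 h1 x₀
  have e1 : ∀ (x : K) (y : Kᗮ) k, ⟪comprA K A (y - 0), b₂ k⟫_ℝ =
      ⟪A ((x : E) + y), (b₂ k : E)⟫_ℝ := by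
    intro x y k
    rw [sub_zero, inner_comprA, map_add, hK x x.2, zero_add]
  have h3 := fibre_sub K (v := fun k => b₂ k) (a := fun k p => ⟪A p, (b₂ k : E)⟫_ℝ)
    (H := gsK K hA) (f := f) (C := 2 * c) (fun x _ => by
      have h4 := h2 0
      have e2 : (fun y : Kᗮ => gsK K hA ((x : E) + y)) = gsOp (comprA_symm K hA) 0 :=
        funext fun y => gsK_eq K hA hK x y
      rw [e2]
      have e3 : (fun k (y : Kᗮ) => ⟪comprA K A (y - 0), b₂ k⟫_ℝ) =
          fun k (y : Kᗮ) => ⟪A ((x : E) + y), (b₂ k : E)⟫_ℝ := by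
        funext k y
        exact e1 x y k
      rw [e3] at h4
      exact h4) (fun k => hAc.inner continuous_const) hf hc (continuous_gsK K hA)
    (fun x => (normSq_gsK K hA hK hc0 h x).1) (fun x => (normSq_gsK K hA hK hc0 h x).2)
  refine h3.trans ?_
  refine integral_mono (integrable_energy hAc hf hc fun k => (b₂ k : E))
    (integrable_energy hAc hf hc fun k => w k) fun p => ?_
  have h5 := hs_split (F := F) K w b₁ b₂ ((fderiv ℝ f p : E →ₗ[ℝ] F) +
    ((innerSL ℝ (A p) : E →L[ℝ] ℝ) : E →ₗ[ℝ] ℝ).smulRight (f p))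
  simp only [LinearMap.add_apply, LinearMap.smulRight_apply, ContinuousLinearMap.coe_coe,
    innerSL_apply_apply] at h5
  show ∑ k, ‖fderiv ℝ f p (b₂ k : E) + ⟪A p, (b₂ k : E)⟫_ℝ • f p‖ ^ 2 ≤
    ∑ k, ‖fderiv ℝ f p (w k) + ⟪A p, w k⟫_ℝ • f p‖ ^ 2
  rw [h5]
  exact le_add_of_nonneg_left (Finset.sum_nonneg fun k _ => sq_nonneg _)

end sub

end Crest.Agent.R330.Fib151

end
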