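import Crest.Agent.R330.IBP_837

/-!
Row 330 (helper837): fibre integrals `r ↦ ∫ H(r, w) dw` of smooth functions on a product,
smoothness, derivative under the integral sign, fibre amplitudes `r ↦ ∫⟪Ψ(r,w), Φ(r,w)⟫ dw`
and their `L²` / `H¹` bounds.
-/

set_option autoImplicit false
set_option linter.unusedSectionVars false
set_option linter.deprecated false

noncomputable section

namespace Crest.Agent.R330.Fib837

open MeasureTheory Filter Topology Set
open scoped ContDiff InnerProductSpace ENNReal Convolution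
open Crest.Agent.R330.IBP837

section Fib

variable {X Ω : Type*} [NormedAddCommGroup X] [NormedSpace ℝ X] [FiniteDimensional ℝ X]
  [NormedAddCommGroup Ω] [NormedSpace ℝ Ω] [FiniteDimensional ℝ Ω] [MeasurableSpace Ω]
  [BorelSpace Ω] {μ : Measure Ω} [μ.IsAddHaarMeasure]
  {G : Type*} [NormedAddCommGroup G] [NormedSpace ℝ G]

/-- fibre integral of a function on a product -/
def fib (μ : Measure Ω) (H : X × Ω → G) (r : X) : G := ∫ w, H (r, w) ∂μ

/-- smoothness of fibre integrals -/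
theorem contDiff_fib [CompleteSpace G] {n : ℕ∞} {H : X × Ω → G} (hH : ContDiff ℝ n H)
    {k : Set Ω} (hk : IsCompact k) (hz : ∀ p, ∀ w, w ∉ k → H (p, w) = 0) :
    ContDiff ℝ n (fib μ H) := by
  have hf : LocallyIntegrable (fun _ : Ω => (1 : ℝ)) μ := locallyIntegrable_const 1
  have h := contDiffOn_convolution_right_with_param_comp (𝕜 := ℝ) (μ := μ)
    (L := ContinuousLinearMap.lsmul ℝ ℝ) (s := (Set.univ : Set X)) (v := fun _ => (0 : Ω))
    (f := fun _ : Ω => (1 : ℝ)) (g := fun p w => H (p, w)) (n := n)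
    contDiffOn_const isOpen_univ hk (fun p x _ hx => hz p x hx) hf
    (by
      have : (↿fun (p : X) (w : Ω) => H (p, w)) = H := by
        funext q; rfl
      rw [this]
      exact hH.contDiffOn)
  rw [contDiffOn_univ] at h
  have e : fib μ H = fun x => ((fun _ : Ω => (1 : ℝ)) ⋆[ContinuousLinearMap.lsmul ℝ ℝ, μ]
      (fun w => H (x, w))) 0 := by
    funext x
    unfold fib convolution
    simp only [ContinuousLinearMap.lsmul_apply, one_smul, zero_sub]
    exact (integral_neg_eq_self (fun w => H (x, w)) μ).symm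
  rw [e]
  exact h

/-- derivative under the integral sign -/
theorem hasFDerivAt_fib {H : X × Ω → G} (hH : ContDiff ℝ 1 H)
    {k : Set Ω} (hk : IsCompact k) (hz : ∀ p, ∀ w, w ∉ k → H (p, w) = 0) (r : X) :
    HasFDerivAt (fib μ H)
      (∫ w, (fderiv ℝ H (r, w)).comp (ContinuousLinearMap.inl ℝ X Ω) ∂μ) r := by
  have hcd : Continuous (fderiv ℝ H) := hH.continuous_fderiv (by norm_num)
  have hdiff : ∀ p w, HasFDerivAt (fun p => H (p, w))
      ((fderiv ℝ H (p, w)).comp (ContinuousLinearMap.inl ℝ X Ω)) p := by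
    intro p w
    have h1 : HasFDerivAt (fun p : X => (p, w)) (ContinuousLinearMap.inl ℝ X Ω) p :=
      hasFDerivAt_prodMk_left p w
    exact ((hH.differentiable (by norm_num)) (p, w)).hasFDerivAt.comp p h1
  have hz' : ∀ p w, w ∉ k → (fderiv ℝ H (p, w)).comp (ContinuousLinearMap.inl ℝ X Ω) = 0 := by
    intro p w hw
    have h0 : (fun p => H (p, w)) = fun _ => (0 : G) := funext fun p => hz p w hw
    have h1 := hdiff p w
    rw [h0] at h1
    exact h1.unique (hasFDerivAt_const 0 p)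
  have hcomp : Continuous fun q : X × Ω =>
      (fderiv ℝ H q).comp (ContinuousLinearMap.inl ℝ X Ω) := hcd.clm_comp continuous_const
  obtain ⟨M, hM⟩ := (((isCompact_closedBall r 1).prod hk).image
    (continuous_norm.comp hcomp)).bddAbove
  have hMb : ∀ p ∈ Metric.closedBall r 1, ∀ w ∈ k,
      ‖(fderiv ℝ H (p, w)).comp (ContinuousLinearMap.inl ℝ X Ω)‖ ≤ M := by
    intro p hp w hw
    exact hM ⟨(p, w), ⟨hp, hw⟩, rfl⟩
  refine hasFDerivAt_integral_of_dominated_of_fderiv_le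
    (F' := fun p w => (fderiv ℝ H (p, w)).comp (ContinuousLinearMap.inl ℝ X Ω))
    (bound := k.indicator fun _ => M) (s := Metric.closedBall r 1)
    (Metric.closedBall_mem_nhds r one_pos) ?_ ?_ ?_ ?_ ?_ ?_
  · refine Eventually.of_forall fun p => ?_
    exact (hH.continuous.comp (by fun_prop : Continuous fun w : Ω => (p, w))).aestronglyMeasurable
  · have hc : Continuous fun w => H (r, w) :=
      hH.continuous.comp (by fun_prop : Continuous fun w : Ω => (r, w))
    exact hc.integrable_of_hasCompactSupport (HasCompactSupport.intro hk (fun w hw => hz r w hw))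
  · exact (hcomp.comp (by fun_prop : Continuous fun w : Ω => (r, w))).aestronglyMeasurable
  · refine Eventually.of_forall fun w p hp => ?_
    by_cases hw : w ∈ k
    · rw [Set.indicator_of_mem hw]
      exact hMb p hp w hw
    · rw [Set.indicator_of_notMem hw, hz' p w hw, norm_zero]
  · exact (integrable_indicator_iff hk.measurableSet).mpr
      (integrableOn_const hk.measure_lt_top.ne)
  · exact Eventually.of_forall fun w p _ => hdiff p w

theorem fderiv_fib_apply [CompleteSpace G] {H : X × Ω → G} (hH : ContDiff ℝ 1 H)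
    {k : Set Ω} (hk : IsCompact k) (hz : ∀ p, ∀ w, w ∉ k → H (p, w) = 0) (r e : X) :
    fderiv ℝ (fib μ H) r e = ∫ w, fderiv ℝ H (r, w) (e, 0) ∂μ := by
  rw [(hasFDerivAt_fib (μ := μ) hH hk hz r).fderiv]
  have hcd : Continuous (fderiv ℝ H) := hH.continuous_fderiv (by norm_num)
  have hint : Integrable
      (fun w => (fderiv ℝ H (r, w)).comp (ContinuousLinearMap.inl ℝ X Ω)) μ := by
    have hc : Continuous fun w => (fderiv ℝ H (r, w)).comp (ContinuousLinearMap.inl ℝ X Ω) :=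
      (hcd.comp (by fun_prop : Continuous fun w : Ω => (r, w))).clm_comp continuous_const
    refine hc.integrable_of_hasCompactSupport (HasCompactSupport.intro hk fun w hw => ?_)
    have h0 : (fun p => H (p, w)) = fun _ => (0 : G) := funext fun p => hz p w hw
    have h1 : HasFDerivAt (fun p => H (p, w))
      ((fderiv ℝ H (r, w)).comp (ContinuousLinearMap.inl ℝ X Ω)) r :=
      ((hH.differentiable (by norm_num)) (r, w)).hasFDerivAt.comp r (hasFDerivAt_prodMk_left r w)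
    rw [h0] at h1
    exact h1.unique (hasFDerivAt_const 0 r)
  rw [ContinuousLinearMap.integral_apply hint]
  rfl

/-- compact support in `X` -/
theorem hasCompactSupport_fib {H : X × Ω → G} {K : Set X} (hK : IsCompact K)
    (hz : ∀ p, p ∉ K → ∀ w, H (p, w) = 0) : HasCompactSupport (fib μ H) := by
  refine HasCompactSupport.intro hK fun p hp => ?_
  unfold fib
  simp [hz p hp]

/-- the fibre support sets of a compactly supported function on the product -/
theorem exists_fibre_supports {H : X × Ω → G} (hc : HasCompactSupport H) :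
    ∃ (K : Set X) (k : Set Ω), IsCompact K ∧ IsCompact k ∧ (∀ p, p ∉ K → ∀ w, H (p, w) = 0) ∧
      ∀ p, ∀ w, w ∉ k → H (p, w) = 0 := by
  refine ⟨Prod.fst '' tsupport H, Prod.snd '' tsupport H, hc.isCompact.image continuous_fst,
    hc.isCompact.image continuous_snd, fun p hp w => ?_, fun p w hw => ?_⟩
  · by_contra h
    exact hp ⟨(p, w), subset_tsupport _ h, rfl⟩
  · by_contra h
    exact hw ⟨(p, w), subset_tsupport _ h, rfl⟩

end Fib

/-! ### fibre amplitudes -/

section Amp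

variable {X Ω : Type*} [NormedAddCommGroup X] [NormedSpace ℝ X] [FiniteDimensional ℝ X]
  [MeasurableSpace X] [BorelSpace X]
  [NormedAddCommGroup Ω] [NormedSpace ℝ Ω] [FiniteDimensional ℝ Ω] [MeasurableSpace Ω]
  [BorelSpace Ω] {ν : Measure X} [ν.IsAddHaarMeasure] {μ : Measure Ω} [μ.IsAddHaarMeasure]
  {F : Type*} [NormedAddCommGroup F] [InnerProductSpace ℂ F]

/-- the amplitude `a(r) = ∫⟪Ψ(r,w), Φ(r,w)⟫ dw` -/
def amp (μ : Measure Ω) (Ψ Φ : X × Ω → F) (r : X) : ℂ := ∫ w, ⟪Ψ (r, w), Φ (r, w)⟫_ℂ ∂μ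

theorem amp_eq_fib (Ψ Φ : X × Ω → F) : amp μ Ψ Φ = fib μ (fun q => ⟪Ψ q, Φ q⟫_ℂ) := rfl

theorem contDiff_amp {n : ℕ∞} {Ψ Φ : X × Ω → F} (hΨ : ContDiff ℝ n Ψ) (hΦ : ContDiff ℝ n Φ)
    (hc : HasCompactSupport Φ) : ContDiff ℝ n (amp μ Ψ Φ) := by
  obtain ⟨K, k, hK, hk, h1, h2⟩ := exists_fibre_supports hc
  rw [amp_eq_fib]
  exact contDiff_fib (hΨ.inner ℂ hΦ) hk (fun p w hw => by rw [h2 p w hw, inner_zero_right])

theorem hasCompactSupport_amp {Ψ Φ : X × Ω → F} (hc : HasCompactSupport Φ) :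
    HasCompactSupport (amp μ Ψ Φ) := by
  obtain ⟨K, k, hK, hk, h1, h2⟩ := exists_fibre_supports hc
  rw [amp_eq_fib]
  exact hasCompactSupport_fib hK (fun p hp w => by rw [h1 p hp w, inner_zero_right])

theorem amp_eq_zero {Ψ Φ : X × Ω → F} {r : X} (h : ∀ w, Φ (r, w) = 0) : amp μ Ψ Φ r = 0 := by
  unfold amp
  simp [h]

/-- product rule for amplitudes -/
theorem fderiv_amp {Ψ Φ : X × Ω → F} (hΨ : ContDiff ℝ 1 Ψ) (hΦ : ContDiff ℝ 1 Φ)
    (hc : HasCompactSupport Φ) (r e : X) :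
    fderiv ℝ (amp μ Ψ Φ) r e = amp μ Ψ (fun q => fderiv ℝ Φ q (e, 0)) r +
      amp μ (fun q => fderiv ℝ Ψ q (e, 0)) Φ r := by
  obtain ⟨K, k, hK, hk, h1, h2⟩ := exists_fibre_supports hc
  rw [amp_eq_fib, fderiv_fib_apply (hΨ.inner ℂ hΦ) hk
    (fun p w hw => by rw [h2 p w hw, inner_zero_right])]
  have hd : ∀ q : X × Ω, fderiv ℝ (fun q => ⟪Ψ q, Φ q⟫_ℂ) q (e, 0) =
      ⟪Ψ q, fderiv ℝ Φ q (e, 0)⟫_ℂ + ⟪fderiv ℝ Ψ q (e, 0), Φ q⟫_ℂ := fun q =>
    fderiv_inner_apply ℂ ((hΨ.differentiable (by norm_num)) q)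
      ((hΦ.differentiable (by norm_num)) q) (e, 0)
  simp only [hd]
  unfold amp
  have hpr : Continuous fun w : Ω => (r, w) := by fun_prop
  rw [integral_add]
  · apply integrable_inner_of_cont (hΨ.continuous.comp hpr)
      ((fderiv_apply_continuous hΦ (e, (0 : Ω))).comp hpr)
    right
    refine HasCompactSupport.intro hk fun w hw => ?_
    have h1' : HasFDerivAt (fun p => Φ (p, w))
      ((fderiv ℝ Φ (r, w)).comp (ContinuousLinearMap.inl ℝ X Ω)) r :=
      ((hΦ.differentiable (by norm_num)) (r, w)).hasFDerivAt.comp r (hasFDerivAt_prodMk_left r w)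
    have h0 : (fun p => Φ (p, w)) = fun _ => (0 : F) := funext fun p => h2 p w hw
    rw [h0] at h1'
    have := h1'.unique (hasFDerivAt_const 0 r)
    exact congrArg (fun L : X →L[ℝ] F => L e) this
  · apply integrable_inner_of_cont ((fderiv_apply_continuous hΨ (e, (0 : Ω))).comp hpr)
      (hΦ.continuous.comp hpr)
    right
    exact HasCompactSupport.intro hk fun w hw => h2 r w hw

/-- pointwise Cauchy-Schwarz for amplitudes -/
theorem norm_amp_sq_le {Ψ Φ : X × Ω → F} (r : X)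
    (hΨ : MemLp (fun w => Ψ (r, w)) 2 μ) (hΦ : MemLp (fun w => Φ (r, w)) 2 μ) :
    ‖amp μ Ψ Φ r‖ ^ 2 ≤ (∫ w, ‖Ψ (r, w)‖ ^ 2 ∂μ) * ∫ w, ‖Φ (r, w)‖ ^ 2 ∂μ := by
  have h1 : ‖amp μ Ψ Φ r‖ ≤ ∫ w, ‖Ψ (r, w)‖ * ‖Φ (r, w)‖ ∂μ := by
    unfold amp
    refine (norm_integral_le_integral_norm _).trans ?_
    refine integral_mono (integrable_inner_of_memLp hΨ hΦ).norm
      (hΨ.norm.integrable_mul hΦ.norm) (fun w => norm_inner_le_norm _ _)
  have h2 := integral_mul_le_Lp_mul_Lq_of_nonneg (μ := μ) (p := 2) (q := 2)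
    (f := fun w => ‖Ψ (r, w)‖) (g := fun w => ‖Φ (r, w)‖) Real.HolderConjugate.two_two
    (Eventually.of_forall fun _ => norm_nonneg _) (Eventually.of_forall fun _ => norm_nonneg _)
    (by simpa using hΨ.norm) (by simpa using hΦ.norm)
  simp only [Real.rpow_two] at h2
  have h3 : ‖amp μ Ψ Φ r‖ ≤ (∫ w, ‖Ψ (r, w)‖ ^ 2 ∂μ) ^ (1 / 2 : ℝ) *
      (∫ w, ‖Φ (r, w)‖ ^ 2 ∂μ) ^ (1 / 2 : ℝ) := h1.trans h2
  have hA : 0 ≤ ∫ w, ‖Ψ (r, w)‖ ^ 2 ∂μ := integral_nonneg fun _ => by positivity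
  have hB : 0 ≤ ∫ w, ‖Φ (r, w)‖ ^ 2 ∂μ := integral_nonneg fun _ => by positivity
  rw [← Real.sqrt_eq_rpow, ← Real.sqrt_eq_rpow] at h3
  calc ‖amp μ Ψ Φ r‖ ^ 2 ≤ (Real.sqrt (∫ w, ‖Ψ (r, w)‖ ^ 2 ∂μ) *
        Real.sqrt (∫ w, ‖Φ (r, w)‖ ^ 2 ∂μ)) ^ 2 := by gcongr
    _ = _ := by rw [mul_pow, Real.sq_sqrt hA, Real.sq_sqrt hB]

end Amp

end Crest.Agent.R330.Fib837
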