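import Mathlib

/-!
# Row 330, S8-PSI: the volume of `PiLp 2 E` is the product volume (helper269)

For a finite family of finite-dimensional real inner product spaces `E p`:

* `volume_preserving_ofLp`, `volume_preserving_toLp` : `WithLp.ofLp`, `WithLp.toLp` between
  `PiLp 2 E` and `∀ p, E p` (product measure) preserve the volume;
* `integral_comp_ofLp`, `integrable_comp_ofLp`, `integral_eq_pi`, `integrable_iff_pi`;
* `integral_prod`, `integrable_prod` : product functions (values in `ℝ` or `ℂ`);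
* `integral_slot`, `integrable_slot` : a function of the coordinate `q` times a product of
  functions of the other coordinates;
* `integral_weight`, `integrable_weight` : a weight in the coordinate `q` times a full product;
* `integral_normSq`, `integral_normFour_le` : second and fourth moments of product densities.
-/

set_option autoImplicit false
set_option linter.unusedSectionVars false

open MeasureTheory WithLp
open scoped ENNReal

noncomputable section

namespace Crest.Agent.R330.PiVol269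

section Curry

variable {ι : Type*} [Fintype ι] {κ : ι → Type*} [∀ i, Fintype (κ i)]

/-- Currying preserves product measures. -/
theorem measurePreserving_piCurry {X : (i : ι) → κ i → Type*} [∀ i j, MeasurableSpace (X i j)]
    (μ : (i : ι) → (j : κ i) → Measure (X i j)) [∀ i j, SigmaFinite (μ i j)] :
    MeasurePreserving (MeasurableEquiv.piCurry X)
      (Measure.pi fun p : (i : ι) × κ i => μ p.1 p.2)
      (Measure.pi fun i => Measure.pi fun j => μ i j) := by
  set e := (MeasurableEquiv.piCurry X).symm with he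
  refine MeasurePreserving.symm e ?_
  refine ⟨e.measurable, (Measure.pi_eq fun s _ => ?_).symm⟩
  rw [e.map_apply]
  have h1 : e ⁻¹' Set.univ.pi s =
      Set.univ.pi fun i : ι => Set.univ.pi fun j : κ i => s ⟨i, j⟩ := by
    ext x
    simp only [Set.mem_preimage, Set.mem_pi, Set.mem_univ, true_implies]
    constructor
    · intro h i j
      exact h ⟨i, j⟩
    · rintro h ⟨i, j⟩
      exact h i j
  rw [h1, Measure.pi_pi, Fintype.prod_sigma]
  refine Finset.prod_congr rfl fun i _ => ?_
  rw [Measure.pi_pi]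

end Curry

variable {κ : Type*} [Fintype κ] {E : κ → Type*} [∀ p, NormedAddCommGroup (E p)]
  [∀ p, InnerProductSpace ℝ (E p)] [∀ p, FiniteDimensional ℝ (E p)]
  [∀ p, MeasurableSpace (E p)] [∀ p, BorelSpace (E p)]

/-- The volume of `PiLp 2 E` is the product volume. -/
theorem volume_preserving_symm_toLp :
    MeasurePreserving (MeasurableEquiv.toLp 2 (∀ p, E p)).symm volume volume := by
  classical
  let B := Pi.orthonormalBasis fun p => stdOrthonormalBasis ℝ (E p)
  -- `PiLp 2 E → EuclideanSpace ℝ (Σ p, Fin _)`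
  have h1 : MeasurePreserving B.repr volume volume := B.repr.measurePreserving
  have h2 := EuclideanSpace.volume_preserving_symm_measurableEquiv_toLp
    ((p : κ) × Fin (Module.finrank ℝ (E p)))
  have h3 := measurePreserving_piCurry (X := fun (p : κ) (_ : Fin (Module.finrank ℝ (E p))) => ℝ)
    (fun _ _ => (volume : Measure ℝ))
  have h4 : MeasurePreserving
      (fun (y : ∀ p, Fin (Module.finrank ℝ (E p)) → ℝ) (p : κ) =>
        (stdOrthonormalBasis ℝ (E p)).repr.symm (toLp 2 (y p))) volume volume :=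
    volume_preserving_pi (fun p =>
      ((stdOrthonormalBasis ℝ (E p)).repr.symm.measurePreserving).comp
        (PiLp.volume_preserving_toLp (Fin (Module.finrank ℝ (E p)))))
  have h5 := h4.comp (h3.comp (h2.comp h1))
  convert h5 using 1
  funext x p
  have hx : ((MeasurableEquiv.toLp 2 (∀ p, E p)).symm x) p = x p := rfl
  rw [hx]
  simp only [Function.comp]
  have h6 : toLp 2 ((MeasurableEquiv.piCurry
      (fun (p : κ) (_ : Fin (Module.finrank ℝ (E p))) => ℝ))
      ((MeasurableEquiv.toLp 2 (((p : κ) × Fin (Module.finrank ℝ (E p))) → ℝ)).symm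
        (B.repr x)) p) = (stdOrthonormalBasis ℝ (E p)).repr (x p) := by
    ext j
    rfl
  rw [h6, LinearIsometryEquiv.symm_apply_apply]

theorem volume_preserving_ofLp :
    MeasurePreserving (WithLp.ofLp : PiLp 2 E → ∀ p, E p) volume volume :=
  volume_preserving_symm_toLp

theorem volume_preserving_toLp :
    MeasurePreserving (WithLp.toLp 2 : (∀ p, E p) → PiLp 2 E) volume volume :=
  (volume_preserving_symm_toLp (E := E)).symm

variable {G : Type*} [NormedAddCommGroup G]

theorem integral_comp_ofLp [NormedSpace ℝ G] (f : (∀ p, E p) → G) :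
    ∫ Y : PiLp 2 E, f (ofLp Y) = ∫ y : ∀ p, E p, f y :=
  (volume_preserving_symm_toLp (E := E)).integral_comp' f

theorem integral_eq_pi [NormedSpace ℝ G] (f : PiLp 2 E → G) :
    ∫ Y : PiLp 2 E, f Y = ∫ y : ∀ p, E p, f (toLp 2 y) :=
  ((volume_preserving_symm_toLp (E := E)).symm.integral_comp' f).symm

theorem integrable_comp_ofLp {f : (∀ p, E p) → G} :
    Integrable (fun Y : PiLp 2 E => f (ofLp Y)) ↔ Integrable f :=
  (volume_preserving_symm_toLp (E := E)).integrable_comp_emb
    (MeasurableEquiv.measurableEmbedding _)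

theorem integrable_iff_pi {f : PiLp 2 E → G} :
    Integrable f ↔ Integrable fun y : ∀ p, E p => f (toLp 2 y) :=
  ((volume_preserving_symm_toLp (E := E)).symm.integrable_comp_emb
    (MeasurableEquiv.measurableEmbedding _)).symm

/-- The integral of a product function. -/
theorem integral_prod {𝕜 : Type*} [RCLike 𝕜] (f : ∀ p, E p → 𝕜) :
    ∫ Y : PiLp 2 E, ∏ p, f p (Y p) = ∏ p, ∫ y, f p y := by
  rw [integral_comp_ofLp (fun y : ∀ p, E p => ∏ p, f p (y p))]
  exact integral_fintype_prod_volume_eq_prod f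

/-- Product functions are integrable. -/
theorem integrable_prod {𝕜 : Type*} [RCLike 𝕜] {f : ∀ p, E p → 𝕜}
    (hf : ∀ p, Integrable (f p)) : Integrable fun Y : PiLp 2 E => ∏ p, f p (Y p) :=
  (integrable_comp_ofLp (f := fun y : ∀ p, E p => ∏ p, f p (y p))).2
    (Integrable.fintype_prod_dep hf)

section Slot

variable [DecidableEq κ] {𝕜 : Type*} [RCLike 𝕜]

theorem prod_update (f : ∀ p, E p → 𝕜) (q : κ) (h : E q → 𝕜) (Y : ∀ p, E p) :
    ∏ p, Function.update f q h p (Y p) = h (Y q) * ∏ p ∈ Finset.univ.erase q, f p (Y p) := by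
  rw [← Finset.mul_prod_erase Finset.univ _ (Finset.mem_univ q), Function.update_self]
  congr 1
  refine Finset.prod_congr rfl fun p hp => ?_
  rw [Function.update_of_ne (Finset.ne_of_mem_erase hp)]

theorem prod_update_integral (f : ∀ p, E p → 𝕜) (q : κ) (h : E q → 𝕜) :
    ∏ p, ∫ y, Function.update f q h p y =
      (∫ y, h y) * ∏ p ∈ Finset.univ.erase q, ∫ y, f p y := by
  rw [← Finset.mul_prod_erase Finset.univ _ (Finset.mem_univ q), Function.update_self]
  congr 1
  refine Finset.prod_congr rfl fun p hp => ?_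
  rw [Function.update_of_ne (Finset.ne_of_mem_erase hp)]

/-- A function of the slot `q` times functions of the other slots. -/
theorem integral_slot (f : ∀ p, E p → 𝕜) (q : κ) (h : E q → 𝕜) :
    ∫ Y : PiLp 2 E, h (Y q) * ∏ p ∈ Finset.univ.erase q, f p (Y p) =
      (∫ y, h y) * ∏ p ∈ Finset.univ.erase q, ∫ y, f p y := by
  rw [← prod_update_integral, ← integral_prod]
  exact integral_congr_ae (Filter.Eventually.of_forall fun Y => (prod_update f q h (ofLp Y)).symm)

theorem integrable_slot {f : ∀ p, E p → 𝕜} {q : κ} {h : E q → 𝕜} (hh : Integrable h)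
    (hf : ∀ p, p ≠ q → Integrable (f p)) :
    Integrable fun Y : PiLp 2 E => h (Y q) * ∏ p ∈ Finset.univ.erase q, f p (Y p) := by
  have h1 : Integrable fun Y : PiLp 2 E => ∏ p, Function.update f q h p (Y p) := by
    refine integrable_prod fun p => ?_
    by_cases hp : p = q
    · subst hp
      rw [Function.update_self]
      exact hh
    · rw [Function.update_of_ne hp]
      exact hf p hp
  exact h1.congr (Filter.Eventually.of_forall fun Y => prod_update f q h (ofLp Y))

/-- A weight in the slot `q` times a product function. -/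
theorem integral_weight (f : ∀ p, E p → 𝕜) (q : κ) (w : E q → 𝕜) :
    ∫ Y : PiLp 2 E, w (Y q) * ∏ p, f p (Y p) =
      (∫ y, w y * f q y) * ∏ p ∈ Finset.univ.erase q, ∫ y, f p y := by
  rw [← integral_slot]
  refine integral_congr_ae (Filter.Eventually.of_forall fun Y => ?_)
  simp only
  rw [← Finset.mul_prod_erase Finset.univ _ (Finset.mem_univ q), mul_assoc]

theorem integrable_weight {f : ∀ p, E p → 𝕜} {q : κ} {w : E q → 𝕜}
    (hw : Integrable fun y => w y * f q y) (hf : ∀ p, p ≠ q → Integrable (f p)) :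
    Integrable fun Y : PiLp 2 E => w (Y q) * ∏ p, f p (Y p) := by
  refine (integrable_slot (f := f) hw hf).congr (Filter.Eventually.of_forall fun Y => ?_)
  simp only
  rw [← Finset.mul_prod_erase Finset.univ (fun p => f p (Y p)) (Finset.mem_univ q), mul_assoc]

end Slot

section Moments

variable {f : ∀ p, E p → ℝ}

theorem norm_sq_eq (Y : PiLp 2 E) : ‖Y‖ ^ 2 = ∑ p, ‖Y p‖ ^ 2 :=
  PiLp.norm_sq_eq_of_L2 _ Y

theorem norm_pow_four_le (Y : PiLp 2 E) :
    ‖Y‖ ^ 4 ≤ Fintype.card κ * ∑ p, ‖Y p‖ ^ 4 := by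
  have h1 : ‖Y‖ ^ 4 = (∑ p, ‖Y p‖ ^ 2) ^ 2 := by rw [← norm_sq_eq]; ring
  rw [h1]
  have h2 := sq_sum_le_card_mul_sum_sq (s := Finset.univ) (f := fun p => ‖Y p‖ ^ 2)
  refine h2.trans_eq ?_
  rw [Finset.card_univ]
  congr 1
  exact Finset.sum_congr rfl fun p _ => by ring

/-- `∫ ‖Y‖² ∏ f = Σ_q ∫ ‖y‖² f_q` for normalised `f`. -/
theorem integrable_normSq (hf : ∀ p, Integrable (f p))
    (hm : ∀ p, Integrable fun y => ‖y‖ ^ 2 * f p y) :
    Integrable fun Y : PiLp 2 E => ‖Y‖ ^ 2 * ∏ p, f p (Y p) := by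
  classical
  have h1 : Integrable fun Y : PiLp 2 E => ∑ q, ‖Y q‖ ^ 2 * ∏ p, f p (Y p) :=
    integrable_finsetSum _ fun q _ =>
      integrable_weight (f := f) (q := q) (w := fun y => ‖y‖ ^ 2) (hm q) fun p _ => hf p
  refine h1.congr (Filter.Eventually.of_forall fun Y => ?_)
  simp only
  rw [norm_sq_eq, Finset.sum_mul]

theorem integral_normSq (hf : ∀ p, Integrable (f p))
    (hm : ∀ p, Integrable fun y => ‖y‖ ^ 2 * f p y) (h1 : ∀ p, ∫ y, f p y = 1) :
    ∫ Y : PiLp 2 E, ‖Y‖ ^ 2 * ∏ p, f p (Y p) = ∑ q, ∫ y, ‖y‖ ^ 2 * f q y := by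
  classical
  have h2 : ∀ Y : PiLp 2 E, ‖Y‖ ^ 2 * ∏ p, f p (Y p) = ∑ q, ‖Y q‖ ^ 2 * ∏ p, f p (Y p) :=
    fun Y => by rw [norm_sq_eq, Finset.sum_mul]
  rw [integral_congr_ae (Filter.Eventually.of_forall h2), integral_finsetSum _ fun q _ =>
      integrable_weight (f := f) (q := q) (w := fun y => ‖y‖ ^ 2) (hm q) fun p _ => hf p]
  refine Finset.sum_congr rfl fun q _ => ?_
  rw [integral_weight f q (fun y => ‖y‖ ^ 2), Finset.prod_eq_one fun p _ => h1 p, mul_one]

theorem integrable_normFour (hf : ∀ p, Integrable (f p)) (h0 : ∀ p y, 0 ≤ f p y)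
    (hm : ∀ p, Integrable fun y => ‖y‖ ^ 4 * f p y) :
    Integrable fun Y : PiLp 2 E => ‖Y‖ ^ 4 * ∏ p, f p (Y p) := by
  classical
  have h1 : Integrable fun Y : PiLp 2 E =>
      (Fintype.card κ : ℝ) * ∑ q, ‖Y q‖ ^ 4 * ∏ p, f p (Y p) :=
    (integrable_finsetSum _ fun q _ =>
      integrable_weight (f := f) (q := q) (w := fun y => ‖y‖ ^ 4) (hm q) fun p _ => hf p).const_mul _
  refine h1.mono' ?_ (Filter.Eventually.of_forall fun Y => ?_)
  · exact ((continuous_norm.pow 4).aestronglyMeasurable).mul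
      (integrable_prod (f := f) hf).aestronglyMeasurable
  · have h2 : 0 ≤ ∏ p, f p (Y p) := Finset.prod_nonneg fun p _ => h0 p _
    rw [Real.norm_of_nonneg (by positivity), ← Finset.sum_mul, ← mul_assoc]
    exact mul_le_mul_of_nonneg_right (norm_pow_four_le Y) h2

/-- `∫ ‖Y‖⁴ ∏ f ≤ |κ| Σ_q ∫ ‖y‖⁴ f_q` for normalised `f ≥ 0`. -/
theorem integral_normFour_le (hf : ∀ p, Integrable (f p)) (h0 : ∀ p y, 0 ≤ f p y)
    (hm : ∀ p, Integrable fun y => ‖y‖ ^ 4 * f p y) (h1 : ∀ p, ∫ y, f p y = 1) :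
    ∫ Y : PiLp 2 E, ‖Y‖ ^ 4 * ∏ p, f p (Y p) ≤ Fintype.card κ * ∑ q, ∫ y, ‖y‖ ^ 4 * f q y := by
  classical
  have hi : ∀ q ∈ Finset.univ, Integrable fun Y : PiLp 2 E => ‖Y q‖ ^ 4 * ∏ p, f p (Y p) :=
    fun q _ => integrable_weight (f := f) (q := q) (w := fun y => ‖y‖ ^ 4) (hm q) fun p _ => hf p
  have h2 : ∫ Y : PiLp 2 E, ‖Y‖ ^ 4 * ∏ p, f p (Y p) ≤
      ∫ Y : PiLp 2 E, (Fintype.card κ : ℝ) * ∑ q, ‖Y q‖ ^ 4 * ∏ p, f p (Y p) := by
    refine integral_mono (integrable_normFour hf h0 hm) ((integrable_finsetSum _ hi).const_mul _)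
      fun Y => ?_
    have h3 : 0 ≤ ∏ p, f p (Y p) := Finset.prod_nonneg fun p _ => h0 p _
    simp only
    rw [← Finset.sum_mul, ← mul_assoc]
    exact mul_le_mul_of_nonneg_right (norm_pow_four_le Y) h3
  refine h2.trans_eq ?_
  rw [integral_const_mul, integral_finsetSum _ hi]
  congr 1
  refine Finset.sum_congr rfl fun q _ => ?_
  rw [integral_weight f q (fun y => ‖y‖ ^ 4), Finset.prod_eq_one fun p _ => h1 p, mul_one]

/-- Second moment of a product, no normalisation. -/
theorem integral_normSq_gen [DecidableEq κ] (hf : ∀ p, Integrable (f p))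
    (hm : ∀ p, Integrable fun y => ‖y‖ ^ 2 * f p y) :
    ∫ Y : PiLp 2 E, ‖Y‖ ^ 2 * ∏ p, f p (Y p) =
      ∑ q, (∫ y, ‖y‖ ^ 2 * f q y) * ∏ p ∈ Finset.univ.erase q, ∫ y, f p y := by
  have h2 : ∀ Y : PiLp 2 E, ‖Y‖ ^ 2 * ∏ p, f p (Y p) = ∑ q, ‖Y q‖ ^ 2 * ∏ p, f p (Y p) :=
    fun Y => by rw [norm_sq_eq, Finset.sum_mul]
  rw [integral_congr_ae (Filter.Eventually.of_forall h2), integral_finsetSum _ fun q _ =>
      integrable_weight (f := f) (q := q) (w := fun y => ‖y‖ ^ 2) (hm q) fun p _ => hf p]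
  exact Finset.sum_congr rfl fun q _ => integral_weight f q (fun y => ‖y‖ ^ 2)

end Moments

end Crest.Agent.R330.PiVol269

end
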