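import Crest.Agent.R080.Mollify

/-!
# R330 (helper596): mollification in `L²` of vector valued functions

Port of `R348/FormCore1` to functions with values in a Banach space `F`.
`MolK r η`: `η` smooth, compactly supported in the ball of radius `r`, nonnegative, integral one.
`mol η u x = ∫ y, η (x - y) • u y`.
-/

set_option autoImplicit false
set_option linter.unusedSectionVars false
set_option linter.unusedVariables false

open MeasureTheory Set Filter Topology ENNReal
open scoped ContDiff Convolution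

noncomputable section
namespace Crest.Agent.R330.Moll596

variable {E : Type*} [NormedAddCommGroup E] [InnerProductSpace ℝ E] [FiniteDimensional ℝ E]
  [MeasurableSpace E] [BorelSpace E]
variable {F : Type*} [NormedAddCommGroup F] [NormedSpace ℝ F] [CompleteSpace F]

/-- mollification kernel (radial) -/
structure MolK (r : ℝ) (η : E → ℝ) : Prop where
  smooth : ContDiff ℝ ∞ η
  supp : HasCompactSupport η
  nonneg : ∀ x, 0 ≤ η x
  int : ∫ x, η x = 1
  small : ∀ x, r ≤ ‖x‖ → η x = 0
  radial : ∀ x y, ‖x‖ = ‖y‖ → η x = η y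

/-- mollification -/
def mol (η : E → ℝ) (u : E → F) (x : E) : F := ∫ y, η (x - y) • u y

theorem mol_eq_conv (η : E → ℝ) (u : E → F) :
    mol η u = (u ⋆[(ContinuousLinearMap.lsmul ℝ ℝ).flip, volume] η) := by
  funext x
  simp only [mol, convolution_def, ContinuousLinearMap.flip_apply, ContinuousLinearMap.lsmul_apply]

variable {r : ℝ} {η : E → ℝ}

theorem mol_contDiff (h : MolK r η) {u : E → F} (hu : LocallyIntegrable u) :
    ContDiff ℝ ∞ (mol η u) := by
  rw [mol_eq_conv]
  exact h.supp.contDiff_convolution_right (n := ⊤) _ hu h.smooth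

theorem MolK.comp_cont (h : MolK r η) (x : E) : Continuous fun y => η (x - y) :=
  h.smooth.continuous.comp (continuous_const.sub continuous_id)

theorem MolK.comp_smooth (h : MolK r η) (x : E) : ContDiff ℝ ∞ fun y => η (x - y) :=
  h.smooth.comp (contDiff_const.sub contDiff_id)

theorem MolK.comp_supp (h : MolK r η) (x : E) : HasCompactSupport fun y => η (x - y) := by
  have := h.supp.comp_homeomorph (Homeomorph.subLeft x)
  exact this

theorem MolK.fderiv_comp (h : MolK r η) (x y : E) :
    fderiv ℝ (fun y => η (x - y)) y = -fderiv ℝ η (x - y) := by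
  have hd : HasFDerivAt η (fderiv ℝ η (x - y)) (x - y) :=
    (h.smooth.differentiable (by simp) _).hasFDerivAt
  have h2 : HasFDerivAt (fun y => x - y) (-ContinuousLinearMap.id ℝ E) y :=
    (hasFDerivAt_id y).const_sub x
  have h3 := hd.comp y h2
  have h4 : fderiv ℝ (fun y => η (x - y)) y = (fderiv ℝ η (x - y)).comp
    (-ContinuousLinearMap.id ℝ E) := h3.fderiv
  rw [h4]
  ext e
  simp

theorem mol_integrand (h : MolK r η) {g : E → F} (hg : LocallyIntegrable g) (x : E) :
    Integrable fun y => η (x - y) • g y :=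
  hg.integrable_smul_left_of_hasCompactSupport (h.comp_cont x) (h.comp_supp x)

theorem fderiv_integrand (h : MolK r η) {g : E → F} (hg : LocallyIntegrable g) (x : E) :
    Integrable fun y => (fderiv ℝ η (x - y)).smulRight (g y) := by
  have hc : Continuous fun y => fderiv ℝ η (x - y) :=
    (h.smooth.continuous_fderiv (by simp)).comp (continuous_const.sub continuous_id)
  have hs : HasCompactSupport fun y => fderiv ℝ η (x - y) := by
    have := (h.supp.fderiv ℝ).comp_homeomorph (Homeomorph.subLeft x)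
    exact this
  have h1 := hg.integrable_smul_left_of_hasCompactSupport (g := fun y => ‖fderiv ℝ η (x - y)‖)
    hc.norm hs.norm
  refine h1.norm.mono' ?_ (Eventually.of_forall fun y => ?_)
  · have hgm : AEStronglyMeasurable g volume := hg.aestronglyMeasurable
    exact (ContinuousLinearMap.smulRightL ℝ E F).aestronglyMeasurable_comp₂
      hc.aestronglyMeasurable hgm
  · rw [ContinuousLinearMap.norm_smulRight_apply, norm_smul, norm_norm]

theorem fderiv_mol (h : MolK r η) {u : E → F} (hu : LocallyIntegrable u) (x : E) :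
    fderiv ℝ (mol η u) x = ∫ y, (fderiv ℝ η (x - y)).smulRight (u y) := by
  have h1 : ContDiff ℝ 1 η := h.smooth.of_le (by norm_cast)
  have := h.supp.hasFDerivAt_convolution_right (ContinuousLinearMap.lsmul ℝ ℝ).flip hu h1 x
  rw [mol_eq_conv, this.fderiv, convolution_def]
  refine integral_congr_ae (Eventually.of_forall fun y => ?_)
  ext e
  simp [ContinuousLinearMap.precompR_apply]

theorem MolK.lintegral (h : MolK r η) : ∫⁻ x : E, ENNReal.ofReal (η x) = 1 := by
  rw [← ofReal_integral_eq_lintegral_ofReal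
    (h.smooth.continuous.integrable_of_hasCompactSupport h.supp)
    (Eventually.of_forall h.nonneg), h.int, ENNReal.ofReal_one]

/-- Young's inequality -/
theorem lintegral_mol_sq_le (h : MolK r η) {g : E → F} (hg : AEStronglyMeasurable g volume) :
    ∫⁻ x, ‖mol η g x‖ₑ ^ 2 ≤ ∫⁻ x, ‖g x‖ₑ ^ 2 := by
  have hk : Measurable fun x : E => ENNReal.ofReal (η x) :=
    h.smooth.continuous.measurable.ennreal_ofReal
  have := R080.young_lintegral (E := E) volume hk hg.enorm
  rw [h.lintegral, one_pow, one_mul] at this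
  refine le_trans (lintegral_mono fun x => ?_) this
  gcongr
  refine (enorm_integral_le_lintegral_enorm _).trans (lintegral_mono fun y => ?_)
  rw [enorm_smul]
  gcongr
  rw [Real.enorm_of_nonneg (h.nonneg _)]

theorem sq_eLpNorm (g : E → F) : eLpNorm g 2 volume ^ 2 = ∫⁻ x, ‖g x‖ₑ ^ 2 := by
  have h := eLpNorm_nnreal_pow_eq_lintegral (f := g) (μ := (volume : Measure E))
    (p := 2) (by norm_num)
  simpa using h

theorem eLpNorm_mol_le (h : MolK r η) {g : E → F} (hg : AEStronglyMeasurable g volume) :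
    eLpNorm (mol η g) 2 volume ≤ eLpNorm g 2 volume := by
  have := lintegral_mol_sq_le h hg
  rw [← sq_eLpNorm, ← sq_eLpNorm] at this
  exact (ENNReal.pow_le_pow_left_iff (n := 2) (by norm_num)).1 this

theorem mol_sub (h : MolK r η) {u v : E → F} (hu : LocallyIntegrable u) (hv : LocallyIntegrable v) :
    mol η (fun x => u x - v x) = fun x => mol η u x - mol η v x := by
  funext x
  simp only [mol]
  rw [← integral_sub (mol_integrand h hu x) (mol_integrand h hv x)]
  refine integral_congr_ae (Eventually.of_forall fun y => ?_)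
  simp only [smul_sub]

theorem integral_kernel (h : MolK r η) (x : E) : ∫ y, η (x - y) = 1 := by
  rw [integral_sub_left_eq_self η volume x, h.int]

theorem mol_const (h : MolK r η) (x : E) (v : F) : ∫ y, η (x - y) • v = v := by
  rw [integral_smul_const, integral_kernel h, one_smul]

theorem mol_sub_eq (h : MolK r η) {g : E → F} (hg : LocallyIntegrable g) (x : E) :
    mol η g x - g x = ∫ y, η (x - y) • (g y - g x) := by
  have h2 : Integrable fun y => η (x - y) • g x :=
    mol_integrand h (locallyIntegrable_const (g x)) x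
  conv_lhs => rw [← mol_const h x (g x)]
  rw [mol, ← integral_sub (mol_integrand h hg x) h2]
  refine integral_congr_ae (Eventually.of_forall fun y => ?_)
  simp only [smul_sub]

/-- uniform estimate for continuous functions -/
theorem norm_mol_sub_le (h : MolK r η) {g : E → F} (hg : Continuous g) {δ : ℝ} (hδ : 0 ≤ δ)
    (hunif : ∀ x y, ‖x - y‖ < r → ‖g y - g x‖ ≤ δ) (x : E) : ‖mol η g x - g x‖ ≤ δ := by
  rw [mol_sub_eq h hg.locallyIntegrable]
  have h3 : Integrable fun y => η (x - y) * δ :=
    mol_integrand h (locallyIntegrable_const δ) x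
  calc ‖∫ y, η (x - y) • (g y - g x)‖ ≤ ∫ y, η (x - y) * δ := by
        refine norm_integral_le_of_norm_le h3 (Eventually.of_forall fun y => ?_)
        rw [norm_smul, Real.norm_of_nonneg (h.nonneg _)]
        by_cases hxy : ‖x - y‖ < r
        · exact mul_le_mul_of_nonneg_left (hunif x y hxy) (h.nonneg _)
        · rw [h.small _ (not_lt.1 hxy)]; simp
    _ = δ := by
        rw [integral_mul_const, integral_kernel h, one_mul]

/-- convergence for continuous compactly supported functions -/
theorem exists_mol_close_cc {g : E → F} (hg : Continuous g) (hc : HasCompactSupport g)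
    {δ : ℝ≥0∞} (hδ : δ ≠ 0) : ∃ r₀ : ℝ, 0 < r₀ ∧ ∀ r ≤ r₀, ∀ η : E → ℝ, MolK r η →
      eLpNorm (fun x => mol η g x - g x) 2 volume ≤ δ := by
  -- the compact set which contains all supports
  set K : Set E := Metric.cthickening 1 (tsupport g) with hK
  have hKc : IsCompact K := hc.isCompact.cthickening
  have hKm : MeasurableSet K := hKc.isClosed.measurableSet
  have hKf : volume K ≠ ⊤ := hKc.measure_lt_top.ne
  -- choose the uniform error
  obtain ⟨c, hc0, hcδ⟩ : ∃ c : ℝ, 0 < c ∧ ENNReal.ofReal c * (volume K) ^ (1 / 2 : ℝ) ≤ δ := by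
    have hV : (volume K) ^ (1 / 2 : ℝ) ≠ ⊤ := ENNReal.rpow_ne_top_of_nonneg (by norm_num) hKf
    have ht : Tendsto (fun c : ℝ => ENNReal.ofReal c * (volume K) ^ (1 / 2 : ℝ)) (𝓝[>] 0) (𝓝 0) := by
      have h1 : Tendsto (fun c : ℝ => ENNReal.ofReal c) (𝓝[>] 0) (𝓝 0) := by
        have := (ENNReal.continuous_ofReal.tendsto (0 : ℝ)).mono_left
          (nhdsWithin_le_nhds (s := Set.Ioi (0:ℝ)))
        simpa using this
      have := ENNReal.Tendsto.mul_const h1 (Or.inr hV)
      simpa using this
    have hev := ht.eventually (gt_mem_nhds (pos_iff_ne_zero.2 hδ))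
    obtain ⟨c, hc1, hc2⟩ := (hev.and self_mem_nhdsWithin).exists
    exact ⟨c, hc2, hc1.le⟩
  have hU := hc.uniformContinuous_of_continuous hg
  obtain ⟨ρ, hρ, hU⟩ := Metric.uniformContinuous_iff.1 hU c hc0
  refine ⟨min ρ 1, lt_min hρ one_pos, fun r hr η h => ?_⟩
  have hb : ∀ x, ‖mol η g x - g x‖ ≤ c := by
    refine norm_mol_sub_le h hg hc0.le fun x y hxy => ?_
    have : dist y x < ρ := by
      rw [dist_comm, dist_eq_norm]; exact hxy.trans_le (hr.trans (min_le_left _ _))
    have := hU this
    rw [dist_eq_norm] at this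
    exact this.le
  have hz : ∀ x, x ∉ K → mol η g x - g x = 0 := by
    intro x hx
    rw [mol_sub_eq h hg.locallyIntegrable]
    have hgx : g x = 0 := by
      apply image_eq_zero_of_notMem_tsupport
      exact fun h' => hx (Metric.self_subset_cthickening _ h')
    rw [← integral_zero E F (μ := volume)]
    refine integral_congr_ae (Eventually.of_forall fun y => ?_)
    dsimp only
    by_cases hxy : r ≤ ‖x - y‖
    · rw [h.small _ hxy]; simp
    · have hy : g y = 0 := by
        apply image_eq_zero_of_notMem_tsupport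
        intro h'
        apply hx
        apply Metric.mem_cthickening_of_dist_le x y 1 _ h'
        rw [dist_eq_norm]
        exact ((not_le.1 hxy).le.trans hr).trans (min_le_right _ _)
      rw [hgx, hy]; simp
  calc eLpNorm (fun x => mol η g x - g x) 2 volume
      ≤ eLpNorm (K.indicator fun _ => (c : ℝ)) 2 volume := by
        refine eLpNorm_mono fun x => ?_
        by_cases hx : x ∈ K
        · rw [Set.indicator_of_mem hx]
          exact (hb x).trans (le_abs_self c)
        · rw [hz x hx, Set.indicator_of_notMem hx]; simp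
    _ ≤ ‖(c : ℝ)‖ₑ * volume K ^ (1 / (2 : ℝ≥0∞).toReal) := eLpNorm_indicator_const_le _ _
    _ ≤ δ := by
        have : ‖(c : ℝ)‖ₑ = ENNReal.ofReal c := Real.enorm_of_nonneg hc0.le
        rw [this]
        simpa using hcδ

/-- **`L²` convergence of mollifications**, uniformly in the kernel -/
theorem exists_mol_close {g : E → F} (hg : MemLp g 2 volume) {δ : ℝ≥0∞} (hδ : δ ≠ 0) :
    ∃ r₀ : ℝ, 0 < r₀ ∧ ∀ r ≤ r₀, ∀ η : E → ℝ, MolK r η →
      eLpNorm (fun x => mol η g x - g x) 2 volume ≤ δ := by
  have hδ3 : δ / 3 ≠ 0 := by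
    simp [ENNReal.div_eq_zero_iff, hδ]
  obtain ⟨w, hw1, hw2, hw3, hw4⟩ := hg.exists_hasCompactSupport_eLpNorm_sub_le
    (by norm_num : (2 : ℝ≥0∞) ≠ ⊤) hδ3
  obtain ⟨r₀, hr₀, H⟩ := exists_mol_close_cc hw3 hw1 hδ3
  refine ⟨r₀, hr₀, fun r hr η h => ?_⟩
  have hgl : LocallyIntegrable g := hg.locallyIntegrable (by norm_num)
  have hwl : LocallyIntegrable w := hw3.locallyIntegrable
  have e1 : (fun x => mol η g x - g x) = fun x => (mol η (fun y => g y - w y) x +
      (mol η w x - w x)) + (w x - g x) := by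
    funext x
    have := congrFun (mol_sub h hgl hwl) x
    rw [this]; abel
  have hgm : AEStronglyMeasurable g volume := hg.1
  have hwm : AEStronglyMeasurable w volume := hw3.aestronglyMeasurable
  have hm1 : AEStronglyMeasurable (mol η fun y => g y - w y) volume :=
    (mol_contDiff h (hgl.sub hwl)).continuous.aestronglyMeasurable
  have hm2 : AEStronglyMeasurable (fun x => mol η w x - w x) volume :=
    ((mol_contDiff h hwl).continuous.sub hw3).aestronglyMeasurable
  have h3 : δ = δ / 3 + δ / 3 + δ / 3 := (ENNReal.add_thirds δ).symm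
  rw [e1, h3]
  refine (eLpNorm_add_le (hm1.add hm2) (hwm.sub hgm) (by norm_num)).trans (add_le_add
    ((eLpNorm_add_le hm1 hm2 (by norm_num)).trans (add_le_add ?_ (H r hr η h))) ?_)
  · exact (eLpNorm_mol_le h (hgm.sub hwm)).trans hw2
  · have := eLpNorm_sub_comm w g 2 (volume : Measure E)
    rw [this]
    exact hw2

/-! ### the standard radial kernels -/

/-- unnormalised radial bump -/
def bump0 (ε : ℝ) (x : E) : ℝ := Real.smoothTransition (ε ^ 2 - ‖x‖ ^ 2)

theorem bump0_smooth (ε : ℝ) : ContDiff ℝ ∞ (bump0 ε : E → ℝ) :=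
  Real.smoothTransition.contDiff.comp (contDiff_const.sub (contDiff_norm_sq ℝ))

theorem bump0_nonneg (ε : ℝ) (x : E) : 0 ≤ bump0 ε x := Real.smoothTransition.nonneg _

theorem bump0_zero {ε : ℝ} (hε : 0 < ε) {x : E} (hx : ε ≤ ‖x‖) : bump0 ε x = 0 := by
  apply Real.smoothTransition.zero_of_nonpos
  have := pow_le_pow_left₀ hε.le hx 2
  linarith

theorem bump0_supp {ε : ℝ} (hε : 0 < ε) : HasCompactSupport (bump0 ε : E → ℝ) := by
  refine HasCompactSupport.of_support_subset_isCompact (isCompact_closedBall (0 : E) ε) ?_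
  intro x hx
  by_contra h
  apply hx
  apply bump0_zero hε
  simp only [Metric.mem_closedBall, dist_zero_right, not_le] at h
  exact h.le

theorem bump0_integral_pos {ε : ℝ} (hε : 0 < ε) : 0 < ∫ x : E, bump0 ε x := by
  refine (bump0_smooth ε).continuous.integral_pos_of_hasCompactSupport_nonneg_nonzero
    (bump0_supp hε) (bump0_nonneg ε) (x := 0) ?_
  have : 0 < Real.smoothTransition (ε ^ 2 - ‖(0 : E)‖ ^ 2) := by
    apply Real.smoothTransition.pos_of_pos
    simp
    positivity
  exact this.ne'

/-- the standard radial kernel -/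
def ker (ε : ℝ) (x : E) : ℝ := (∫ y : E, bump0 ε y)⁻¹ * bump0 ε x

theorem molK_ker {ε : ℝ} (hε : 0 < ε) : MolK ε (ker ε : E → ℝ) where
  smooth := contDiff_const.mul (bump0_smooth ε)
  supp := (bump0_supp hε).mul_left
  nonneg := fun x => mul_nonneg (inv_nonneg.2 (bump0_integral_pos hε).le) (bump0_nonneg ε x)
  int := by
    have := (bump0_integral_pos (E := E) hε).ne'
    simp only [ker]
    rw [integral_const_mul, inv_mul_cancel₀ this]
  small := fun x hx => by rw [ker, bump0_zero hε hx, mul_zero]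
  radial := fun x y hxy => by rw [ker, ker, bump0, bump0, hxy]

/-! ### radial cut-off functions -/

/-- cut-off: one on `‖x‖ ≤ 1`, zero for `‖x‖ ≥ 2` -/
def cut0 (x : E) : ℝ := Real.smoothTransition (2 - ‖x‖ ^ 2)

theorem cut0_smooth : ContDiff ℝ ∞ (cut0 : E → ℝ) :=
  Real.smoothTransition.contDiff.comp (contDiff_const.sub (contDiff_norm_sq ℝ))

theorem cut0_nonneg (x : E) : 0 ≤ cut0 x := Real.smoothTransition.nonneg _

theorem cut0_le_one (x : E) : cut0 x ≤ 1 := Real.smoothTransition.le_one _

theorem cut0_one {x : E} (hx : ‖x‖ ≤ 1) : cut0 x = 1 := by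
  apply Real.smoothTransition.one_of_one_le
  have : ‖x‖ ^ 2 ≤ 1 := pow_le_one₀ (norm_nonneg _) hx
  linarith

theorem cut0_zero {x : E} (hx : 2 ≤ ‖x‖) : cut0 x = 0 := by
  apply Real.smoothTransition.zero_of_nonpos
  have : (2 : ℝ) ^ 2 ≤ ‖x‖ ^ 2 := pow_le_pow_left₀ (by norm_num) hx 2
  linarith

theorem cut0_supp : HasCompactSupport (cut0 : E → ℝ) := by
  refine HasCompactSupport.of_support_subset_isCompact (isCompact_closedBall (0 : E) 2) ?_
  intro x hx
  by_contra h
  apply hx
  apply cut0_zero
  simp only [Metric.mem_closedBall, dist_zero_right, not_le] at h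
  exact h.le

variable (E) in
theorem exists_cut0_bound : ∃ C : ℝ, 0 ≤ C ∧ ∀ x : E, ‖fderiv ℝ cut0 x‖ ≤ C := by
  obtain ⟨C, hC⟩ := (cut0_supp (E := E).fderiv ℝ).exists_bound_of_continuous
    (cut0_smooth.continuous_fderiv (by simp))
  exact ⟨C, (norm_nonneg _).trans (hC 0), hC⟩

/-- cut-off at scale `R` -/
def cut (R : ℝ) (x : E) : ℝ := cut0 (R⁻¹ • x)

theorem cut_smooth (R : ℝ) : ContDiff ℝ ∞ (cut R : E → ℝ) :=
  cut0_smooth.comp (contDiff_const_smul _)

theorem cut_nonneg (R : ℝ) (x : E) : 0 ≤ cut R x := cut0_nonneg _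

theorem cut_le_one (R : ℝ) (x : E) : cut R x ≤ 1 := cut0_le_one _

theorem cut_one {R : ℝ} (hR : 0 < R) {x : E} (hx : ‖x‖ ≤ R) : cut R x = 1 := by
  apply cut0_one
  rw [norm_smul, norm_inv, Real.norm_of_nonneg hR.le, inv_mul_le_iff₀ hR, mul_one]
  exact hx

theorem cut_zero {R : ℝ} (hR : 0 < R) {x : E} (hx : 2 * R ≤ ‖x‖) : cut R x = 0 := by
  apply cut0_zero
  rw [norm_smul, norm_inv, Real.norm_of_nonneg hR.le, le_inv_mul_iff₀ hR, mul_comm]
  exact hx

theorem cut_supp {R : ℝ} (hR : 0 < R) : HasCompactSupport (cut R : E → ℝ) := by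
  refine HasCompactSupport.of_support_subset_isCompact (isCompact_closedBall (0 : E) (2 * R)) ?_
  intro x hx
  by_contra h
  apply hx
  apply cut_zero hR
  simp only [Metric.mem_closedBall, dist_zero_right, not_le] at h
  exact h.le

theorem cut_radial (R : ℝ) {x y : E} (h : ‖x‖ = ‖y‖) : cut R x = cut R y := by
  simp only [cut, cut0, norm_smul, h]

theorem fderiv_cut (R : ℝ) (x : E) :
    fderiv ℝ (cut R : E → ℝ) x = R⁻¹ • fderiv ℝ cut0 (R⁻¹ • x) := by
  have hd : HasFDerivAt (cut0 : E → ℝ) (fderiv ℝ cut0 (R⁻¹ • x)) (R⁻¹ • x) :=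
    (cut0_smooth.differentiable (by simp) _).hasFDerivAt
  have h2 : HasFDerivAt (fun x : E => R⁻¹ • x) (R⁻¹ • ContinuousLinearMap.id ℝ E) x :=
    (hasFDerivAt_id x).const_smul _
  have h3 : fderiv ℝ (cut R : E → ℝ) x = _ := (hd.comp x h2).fderiv
  rw [h3]
  ext e
  simp

end Crest.Agent.R330.Moll596
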