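import Crest.Agent.R330.Prod8_494
import Crest.Agent.R330.Psi8_477
import Crest.Agent.R330.PiVol_269

/-!
# Row 330 (helper494): the amplitude of a function of the block coordinates

Over 477's block data `D : BD M G k Fb` and `EY k = PiLp 2 (fun p => Cfg (k p))`.

* `sgI q : Cfg (k q) →ₗᵢ EY k`, `TY q = ofEmb (sgI q)` : splitting along the block `q`; `fst_TY`,
  `perp_TY`, `upd_TY`, `pcharge_TY` (= 477's `D.bch`).
* `LY D q` : 161's multiplicity structure of the block `q`.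
* `pproj_pairing`, `pproj_symm` : the block projections are symmetric on `L²`.
* `amp D ψ φ` : the amplitude; `amp_mem`, `amp_mem_sub`, `lprod_amp` (the product projection is
  `D.psi ψ Y (amp D ψ φ)`), `inner_amp` (`⟪f, amp⟫ = ∫ ⟪D.psi ψ Y f, φ Y⟫`, `f ∈ D.W`).
-/

set_option autoImplicit false
set_option linter.unusedSectionVars false

open MeasureTheory Filter Topology Crest.MathPhysics.MatrixQM
open scoped ContDiff InnerProductSpace ENNReal

noncomputable section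

namespace Crest.Agent.R330.Prod494

open Crest.Agent.R330.Cliff442 Crest.Agent.R330.Cliff442.CRep Crest.Agent.R330.Fact161
  Crest.Agent.R330.FactI161 Crest.Agent.R330.Psi477 Crest.Agent.R330.Defs478
  Crest.Agent.R330.LS839 Crest.Agent.R330.Bind6839
open Crest.Agent.R330.Psi477.BD (sg)

/-! ### The projections are symmetric -/

section symm

variable {N : ℕ} {F₁ F : Type*} [NormedAddCommGroup F₁] [InnerProductSpace ℂ F₁]
  [FiniteDimensional ℂ F₁] [NormedAddCommGroup F] [InnerProductSpace ℂ F] [FiniteDimensional ℂ F]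
  {ι : Type*} [Fintype ι] [DecidableEq ι]
  {M : FermionRep N F₁} {θ : Fin 16 → Fin (N ^ 2 - 1) → (F →ₗ[ℂ] F)}
  {E E' : Type*} [NormedAddCommGroup E] [InnerProductSpace ℝ E] [FiniteDimensional ℝ E]
  [MeasurableSpace E] [BorelSpace E] [NormedAddCommGroup E'] [InnerProductSpace ℝ E']
  [FiniteDimensional ℝ E'] [MeasurableSpace E'] [BorelSpace E']

theorem Mult.inner_J_left (L : Mult M θ ι) (w : ι) (u : F₁) (v : F) :
    ⟪L.J w u, v⟫_ℂ = ⟪u, L.comp w v⟫_ℂ := by
  rw [← inner_conj_symm, ← L.inner_comp, inner_conj_symm]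

theorem pproj_pairing (T : E ≃ₗᵢ[ℝ] WithLp 2 (Cfg N × E')) (L : Mult M θ ι) {ψ : Cfg N → F₁}
    (hψ : MemLp ψ 2 volume) {a c : E → F} (ha : MemLp a 2 volume) (hc : MemLp c 2 volume) :
    ∫ x, ⟪pproj T L ψ a x, c x⟫_ℂ =
      ∫ x' : E', ∑ w, (starRingEnd ℂ) (cf T L ψ a w x') * cf T L ψ c w x' := by
  have hI : Integrable (fun x => ⟪pproj T L ψ a x, c x⟫_ℂ) :=
    integrable_inner_of_memLp (memLp_pproj T L hψ ha) hc
  have h1 : ∫ p, ⟪pproj T L ψ a (pm T p), c (pm T p)⟫_ℂ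
      ∂(volume.prod volume : Measure (E' × Cfg N)) = ∫ x, ⟪pproj T L ψ a x, c x⟫_ℂ :=
    (mp_pm T).integral_comp (me_pm T) (fun x => ⟪pproj T L ψ a x, c x⟫_ℂ)
  have hI2 : Integrable (fun p => ⟪pproj T L ψ a (pm T p), c (pm T p)⟫_ℂ)
      (volume.prod volume : Measure (E' × Cfg N)) :=
    (integrable_pm T (h := fun x => ‖⟪pproj T L ψ a x, c x⟫_ℂ‖)).2 hI.norm |>.mono'
      ((hI.1.comp_measurePreserving (mp_pm T))) (Eventually.of_forall fun p => le_refl _)
  rw [← h1, integral_prod _ hI2]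
  refine integral_congr_ae ?_
  filter_upwards [ae_fib_memLp T L hc] with x' hx
  have e1 : ∀ y, ⟪pproj T L ψ a (pm T (x', y)), c (pm T (x', y))⟫_ℂ =
      ∑ w, (starRingEnd ℂ) (cf T L ψ a w x') * ⟪ψ y, L.comp w (c (pm T (x', y)))⟫_ℂ := by
    intro y
    rw [pproj_pm, sum_inner]
    refine Finset.sum_congr rfl fun w _ => ?_
    rw [L.inner_J_left, inner_smul_left]
  simp only [e1]
  rw [integral_finset_sum _ fun w _ => (integrable_inner_of_memLp hψ (hx w)).const_mul _]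
  refine Finset.sum_congr rfl fun w _ => ?_
  rw [integral_const_mul]
  rfl

theorem pproj_symm (T : E ≃ₗᵢ[ℝ] WithLp 2 (Cfg N × E')) (L : Mult M θ ι) {ψ : Cfg N → F₁}
    (hψ : MemLp ψ 2 volume) {a c : E → F} (ha : MemLp a 2 volume) (hc : MemLp c 2 volume) :
    ∫ x, ⟪pproj T L ψ a x, c x⟫_ℂ = ∫ x, ⟪a x, pproj T L ψ c x⟫_ℂ := by
  have h1 : ∫ x, ⟪a x, pproj T L ψ c x⟫_ℂ =
      (starRingEnd ℂ) (∫ x, ⟪pproj T L ψ c x, a x⟫_ℂ) := by
    rw [← integral_conj]
    refine integral_congr_ae (Eventually.of_forall fun x => ?_)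
    simp only
    rw [inner_conj_symm]
  rw [h1, pproj_pairing T L hψ ha hc, pproj_pairing T L hψ hc ha, ← integral_conj]
  refine integral_congr_ae (Eventually.of_forall fun x' => ?_)
  simp only [map_sum, map_mul, Complex.conj_conj]
  exact Finset.sum_congr rfl fun w _ => mul_comm _ _

end symm

section fixd

variable {N : ℕ} {F₁ F : Type*} [NormedAddCommGroup F₁] [InnerProductSpace ℂ F₁]
  [FiniteDimensional ℂ F₁] [NormedAddCommGroup F] [InnerProductSpace ℂ F] [FiniteDimensional ℂ F]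
  {ι : Type*} [Fintype ι] [DecidableEq ι]
  {Mf : FermionRep N F₁} {θ : Fin 16 → Fin (N ^ 2 - 1) → (F →ₗ[ℂ] F)} (L : Mult Mf θ ι)
  {V V₁ ι' : Type*} [NormedAddCommGroup V] [InnerProductSpace ℝ V]
  [NormedAddCommGroup V₁] [InnerProductSpace ℝ V₁]
  {M₁ : CRep V₁ F₁} {u v : ι' → V₁} {s : Finset ι'} {Ω : F₁} (h : Pol M₁ u v s Ω)
  (M : CRep V F) (e : V₁ →ₗᵢ[ℝ] V) (W : OrthonormalBasis ι ℂ (vacE M e u v s))
  (hJ : ∀ i f, L.J i f = wop h M e f (W i))
  {E E' : Type*} [NormedAddCommGroup E] [InnerProductSpace ℝ E] [FiniteDimensional ℝ E]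
  [MeasurableSpace E] [BorelSpace E] [NormedAddCommGroup E'] [InnerProductSpace ℝ E']
  [FiniteDimensional ℝ E'] [MeasurableSpace E'] [BorelSpace E']
include hJ

/-- functions of the form `wop (ψ y) w` are fixed by the projection -/
theorem pproj_fix (T : E ≃ₗᵢ[ℝ] WithLp 2 (Cfg N × E')) {ψ : Cfg N → F₁}
    (hψ : MemLp ψ 2 volume) (h1 : ∫ y, ‖ψ y‖ ^ 2 = 1) {Φ : E → F} {x : E} {w : F}
    (hw : w ∈ vacE M e u v s) (hΦ : ∀ z, Φ (upd T x z) = wop h M e (ψ z) w) :
    pproj T L ψ Φ x = Φ x := by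
  have e2 : ∀ z, wadj h M e (ψ z) (Φ (upd T x z)) = ((‖ψ z‖ ^ 2 : ℝ) : ℂ) • w := by
    intro z
    rw [hΦ, wadj_wop, isc, PE_of_mem hw]
  have hI : Integrable fun z => ((‖ψ z‖ ^ 2 : ℝ) : ℂ) :=
    ((memLp_two_iff_integrable_sq_norm hψ.1).1 hψ).ofReal
  have hint : Integrable fun z => wadj h M e (ψ z) (Φ (upd T x z)) := by
    simp only [e2]
    exact hI.smul_const w
  rw [pproj_eq L h M e W hJ T hint]
  simp only [e2]
  rw [integral_smul_const, integral_complex_ofReal, h1, Complex.ofReal_one, one_smul,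
    ← hΦ, upd_self]

end fixd

/-! ### The block coordinates -/

section EYs

variable {κ : Type*} [Fintype κ] [DecidableEq κ] {k : κ → ℕ}

/-- the block `q` in the block coordinates -/
def sgI (q : κ) : Cfg (k q) →ₗᵢ[ℝ] EY k where
  toFun a := sg q a
  map_add' a c := by
    ext p : 1
    by_cases hp : p = q
    · subst hp; simp [sg]
    · simp [sg, hp]
  map_smul' r a := by
    ext p : 1
    by_cases hp : p = q
    · subst hp; simp [sg]
    · simp [sg, hp]
  norm_map' a := by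
    exact PiLp.norm_single (p := 2) (β := fun p => Cfg (k p)) q a

theorem sgI_apply (q : κ) (a : Cfg (k q)) : sgI q a = sg q a := rfl

theorem inner_sgI (q : κ) (Y : EY k) (a : Cfg (k q)) : ⟪Y, sgI q a⟫_ℝ = ⟪Y q, a⟫_ℝ := by
  rw [PiLp.inner_apply, Finset.sum_eq_single q]
  · simp [sgI_apply, sg]
  · intro p _ hp
    simp [sgI_apply, sg, hp]
  · intro h
    exact absurd (Finset.mem_univ q) h

theorem inner_sgI_ne {p q : κ} (h : p ≠ q) (a : Cfg (k p)) (c : Cfg (k q)) :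
    ⟪sgI p a, sgI q c⟫_ℝ = 0 := by
  rw [inner_sgI, sgI_apply]
  simp [sg, Ne.symm h]

/-- the splitting along the block `q` -/
def TY (q : κ) : EY k ≃ₗᵢ[ℝ] WithLp 2 (Cfg (k q) × (LinearMap.range (sgI (k := k) q).toLinearMap)ᗮ) :=
  ofEmb (sgI q)

theorem fst_TY (q : κ) (Y : EY k) : (TY q Y).fst = Y q :=
  fst_ofEmb_eq (sgI q) fun v => inner_sgI q Y v

theorem perp_TY {p q : κ} (h : p ≠ q) : Perp (TY (k := k) p) (TY q) :=
  perp_ofEmb fun _ _ => inner_sgI_ne h _ _

theorem upd_TY_apply (q : κ) (Y : EY k) (z : Cfg (k q)) (p : κ) :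
    upd (TY q) Y z p = Function.update Y.ofLp q z p := by
  rw [← fst_TY p]
  by_cases hp : p = q
  · subst hp
    rw [fst_upd, Function.update_self]
  · rw [(perp_TY (Ne.symm hp)).fst_upd, fst_TY, Function.update_of_ne hp]

theorem upd_TY (q : κ) (Y : EY k) (z : Cfg (k q)) :
    upd (TY q) Y z = WithLp.toLp 2 (Function.update Y.ofLp q z) := by
  ext p : 1
  exact upd_TY_apply q Y z p

/-- a function which does not depend on any block coordinate is constant -/
theorem const_of_upd {F : Type*} {f : EY k → F} (h : ∀ q Y z, f (upd (TY q) Y z) = f Y)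
    (Y : EY k) : f Y = f 0 := by
  have key : ∀ s : Finset κ, f (WithLp.toLp 2 fun p => if p ∈ s then 0 else Y p) = f Y := by
    intro s
    induction s using Finset.induction_on with
    | empty => simp
    | insert a s ha ih =>
      rw [← ih, ← h a (WithLp.toLp 2 fun p => if p ∈ s then 0 else Y p) 0, upd_TY]
      congr 2
      funext p
      by_cases hp : p = a
      · subst hp
        rw [Function.update_self]
        simp
      · rw [Function.update_of_ne hp]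
        simp [hp]
  have h1 := key Finset.univ
  rw [← h1]
  congr 1
  ext p : 1
  simp

theorem qmp_eval (q : κ) : Measure.QuasiMeasurePreserving (fun Y : EY k => Y q) volume volume := by
  have h1 := (PiVol269.volume_preserving_ofLp (E := fun p => Cfg (k p))).quasiMeasurePreserving
  have h2 : Measure.QuasiMeasurePreserving (Function.eval q : (∀ p, Cfg (k p)) → Cfg (k q))
      volume volume := Measure.quasiMeasurePreserving_eval _ q
  exact h2.comp h1

end EYs

/-! ### The data of 477 -/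

section data

variable {N : ℕ} {F : Type*} [NormedAddCommGroup F] [InnerProductSpace ℂ F]
  [FiniteDimensional ℂ F] {κ : Type*} [Fintype κ] [DecidableEq κ] {k : κ → ℕ}
  {Fb : κ → Type*} [∀ p, NormedAddCommGroup (Fb p)] [∀ p, InnerProductSpace ℂ (Fb p)]
  [∀ p, FiniteDimensional ℂ (Fb p)] {M : FermionRep N F} {G : GammaNine} (D : BD M G k Fb)

/-- 477's block charge is the charge of the splitting -/
theorem pcharge_TY (b : ∀ p, ColorBasis (k p)) (p : κ) (α : Fin 16) (g m : ℝ) (Φ : EY k → F)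
    (Y : EY k) :
    pcharge (TY p) (b p) (bth M (D.ε p)) G g m α Φ Y = D.bch b p α g m Φ Y := by
  unfold pcharge BD.bch
  rw [fst_TY]
  have h1 : ∀ v, emb (TY (k := k) p) v = sg p v := fun v => emb_ofEmb _ _
  simp only [h1]
  rfl

/-- an orthonormal basis of the vacuum space of the block `q` -/
def WY (q : κ) : OrthonormalBasis (Fin (Module.finrank ℂ (vacB M G (D.ε q)))) ℂ
    (vacB M G (D.ε q)) := stdOrthonormalBasis ℂ _

/-- the multiplicity structure of the block `q` -/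
def LY (q : κ) : Mult (D.Mb q) (bth M (D.ε q)) (Fin (Module.finrank ℂ (vacB M G (D.ε q)))) :=
  mult M (D.isv q) (D.nm q) (D.ε q) (WY D q)

theorem LY_J (q : κ) (i : Fin (Module.finrank ℂ (vacB M G (D.ε q)))) (f : Fb q) :
    (LY D q).J i f = wop (D.pol q) (cr M) (te (D.ε q)) f (WY D q i) := mult_J _ _ _ _ _ _ _

theorem antiT_bth {p q : κ} (h : p ≠ q) : AntiT (bth M (D.ε p)) (bth M (D.ε q)) := by
  intro β A β' A' v
  have h1 := thv_anti M β β' (D.ε p (EuclideanSpace.single A 1))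
    (D.ε q (EuclideanSpace.single A' 1)) v
  rw [D.ho p q h, Complex.ofReal_zero, ite_self, zero_smul] at h1
  exact eq_neg_of_add_eq_zero_left h1

variable (ψ : ∀ p, Cfg (k p) → Fb p)

/-- the amplitude -/
def amp (φ : EY k → F) : F :=
  bl D.pol (cr M) (fun p => te (D.ε p)) (fun p => TY p) ψ Finset.univ.toList φ 0

variable {ψ}

theorem bl_const {φ : EY k → F} (Y : EY k) :
    bl D.pol (cr M) (fun p => te (D.ε p)) (fun p => TY p) ψ Finset.univ.toList φ Y =
      amp D ψ φ :=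
  const_of_upd (fun q Y z => bl_upd D.pol (cr M) (fun p => te (D.ε p)) (fun _ _ h => perp_TY h)
    Finset.univ.toList (Finset.nodup_toList _) (Finset.mem_toList.2 (Finset.mem_univ q)) Y z) Y

theorem amp_mem (φ : EY k → F) : amp D ψ φ ∈ D.W :=
  (mem_vacA).2 fun q => bl_mem D.pol (cr M) (fun p => te (D.ε p)) D.orth Finset.univ.toList
    (Finset.mem_toList.2 (Finset.mem_univ q)) 0

theorem amp_mem_sub {φ : EY k → F} (K : Submodule ℂ F)
    (hK : ∀ p, ∀ (f : Fb p) (w : F), w ∈ K → wadj (D.pol p) (cr M) (te (D.ε p)) f w ∈ K)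
    (hφ : ∀ Y, φ Y ∈ K) : amp D ψ φ ∈ K :=
  bl_mem_sub D.pol (cr M) (fun p => te (D.ε p)) K Finset.univ.toList (fun p _ => hK p) hφ 0

/-- **The product projection is `Ψ(Y) a`.** -/
theorem lprod_amp (hψ : ∀ p, MemLp (ψ p) 2 volume) (hev : ∀ p y, D.Even p (ψ p y))
    {φ : EY k → F} (hφ : Continuous φ) (hc : HasCompactSupport φ) (Y : EY k) :
    lprod (fun p => pproj (TY p) (LY D p) (ψ p)) Finset.univ.toList φ Y =
      D.psi ψ Y (amp D ψ φ) := by
  rw [lprod_eq D.pol (cr M) (fun p => te (D.ε p)) (fun _ _ h => perp_TY h) D.orth (LY D) (WY D)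
    (LY_J D) hψ hev (regOut_of_compact hφ hc) Finset.univ.toList (Finset.nodup_toList _) Y,
    bl_const]
  simp only [fst_TY]
  rfl

theorem aesm_pr (hψ : ∀ p, AEStronglyMeasurable (ψ p) volume) (l : List κ) (f : F) :
    AEStronglyMeasurable (fun Y : EY k => pr D.pol (cr M) (fun p => te (D.ε p)) l
      (fun p => ψ p (Y p)) f) volume := by
  induction l with
  | nil => exact aestronglyMeasurable_const
  | cons p l ih =>
    have h1 : AEStronglyMeasurable (fun Y : EY k => ψ p (Y p)) volume :=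
      (hψ p).comp_quasiMeasurePreserving (qmp_eval p)
    have h3 := (continuous_wop2 (D.pol p) (cr M) (te (D.ε p))).comp_aestronglyMeasurable
      (h1.prodMk ih)
    exact h3

theorem memLp_psi (hψ : ∀ p, MemLp (ψ p) 2 volume) {f : F} (hf : f ∈ D.W) :
    MemLp (fun Y : EY k => D.psi ψ Y f) 2 volume := by
  have hm : AEStronglyMeasurable (fun Y : EY k => D.psi ψ Y f) volume :=
    aesm_pr D (fun p => (hψ p).1) _ f
  rw [memLp_two_iff_integrable_sq_norm hm]
  have h1 : ∀ Y : EY k, ‖D.psi ψ Y f‖ ^ 2 = (∏ p, ‖ψ p (Y p)‖ ^ 2) * ‖f‖ ^ 2 := fun Y => by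
    rw [D.norm_psi ψ Y hf, mul_pow, Finset.prod_pow]
  simp only [h1]
  refine Integrable.mul_const ?_ _
  exact PiVol269.integrable_prod (𝕜 := ℝ) (f := fun p y => ‖ψ p y‖ ^ 2)
    fun p => (memLp_two_iff_integrable_sq_norm (hψ p).1).1 (hψ p)

theorem integral_psi_psi {ψ' : ∀ p, Cfg (k p) → Fb p} {f : F} (hf : f ∈ D.W) (f' : F) :
    ∫ Y : EY k, ⟪D.psi ψ Y f, D.psi ψ' Y f'⟫_ℂ = (∏ p, ∫ y, ⟪ψ p y, ψ' p y⟫_ℂ) * ⟪f, f'⟫_ℂ := by
  have h1 : ∀ Y : EY k, ⟪D.psi ψ Y f, D.psi ψ' Y f'⟫_ℂ =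
      (∏ p, ⟪ψ p (Y p), ψ' p (Y p)⟫_ℂ) * ⟪f, f'⟫_ℂ := fun Y => D.inner_Pr _ _ hf f'
  simp only [h1]
  rw [integral_mul_const]
  congr 1
  exact PiVol269.integral_prod (𝕜 := ℂ) (fun p y => ⟪ψ p y, ψ' p y⟫_ℂ)

theorem integral_psi_self (h1 : ∀ p, ∫ y, ‖ψ p y‖ ^ 2 = 1) {f : F} (hf : f ∈ D.W) (f' : F) :
    ∫ Y : EY k, ⟪D.psi ψ Y f, D.psi ψ Y f'⟫_ℂ = ⟪f, f'⟫_ℂ := by
  rw [integral_psi_psi D hf]
  have h2 : ∀ p, ∫ y, ⟪ψ p y, ψ p y⟫_ℂ = 1 := fun p => by
    rw [integral_inner_self, h1 p, Complex.ofReal_one]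
  rw [Finset.prod_congr rfl fun p _ => h2 p, Finset.prod_const_one, one_mul]

/-- the block states are fixed by the block projections -/
theorem pproj_psi (hψ : ∀ p, MemLp (ψ p) 2 volume) (h1 : ∀ p, ∫ y, ‖ψ p y‖ ^ 2 = 1)
    (hev : ∀ p y, D.Even p (ψ p y)) {f : F} (hf : f ∈ D.W) (q : κ) (Y : EY k) :
    pproj (TY q) (LY D q) (ψ q) (fun Y => D.psi ψ Y f) Y = D.psi ψ Y f := by
  set l' := (Finset.univ : Finset κ).toList.erase q with hl'
  have hq : q ∈ (Finset.univ : Finset κ).toList := Finset.mem_toList.2 (Finset.mem_univ q)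
  have hnd : (Finset.univ : Finset κ).toList.Nodup := Finset.nodup_toList _
  have hql' : q ∉ l' := fun h => (List.Nodup.mem_erase_iff hnd).1 h |>.1 rfl
  have e0 : ∀ Y : EY k, D.psi ψ Y f = wop (D.pol q) (cr M) (te (D.ε q)) (ψ q (Y q))
      (pr D.pol (cr M) (fun p => te (D.ε p)) l' (fun p => ψ p (Y p)) f) := fun Y =>
    pr_perm D.pol (cr M) D.orth (List.perm_cons_erase hq) hnd (fun p => hev p _) hf
  set v := pr D.pol (cr M) (fun p => te (D.ε p)) l' (fun p => ψ p (Y p)) f with hv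
  have hvm : v ∈ vacB M G (D.ε q) := mem_pr D.pol (cr M) D.orth hql' _ (mem_vacA.1 hf q)
  have e1 : ∀ z, D.psi ψ (upd (TY q) Y z) f =
      wop (D.pol q) (cr M) (te (D.ε q)) (ψ q z) v := by
    intro z
    rw [e0, ← fst_TY q, fst_upd, hv]
    congr 1
    refine pr_congr D.pol (cr M) (fun p hp => ?_) f
    have hpq : q ≠ p := fun e => hql' (e ▸ hp)
    rw [← fst_TY p, (perp_TY hpq).fst_upd, fst_TY]
  exact pproj_fix (LY D q) (D.pol q) (cr M) (te (D.ε q)) (WY D q) (LY_J D q) (TY q) (hψ q) (h1 q)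
    hvm e1

/-- **The amplitude is the adjoint of the block state.** -/
theorem inner_amp (hψ : ∀ p, MemLp (ψ p) 2 volume) (h1 : ∀ p, ∫ y, ‖ψ p y‖ ^ 2 = 1)
    (hev : ∀ p y, D.Even p (ψ p y)) {φ : EY k → F} (hφ : Continuous φ)
    (hc : HasCompactSupport φ) {f : F} (hf : f ∈ D.W) :
    ⟪f, amp D ψ φ⟫_ℂ = ∫ Y : EY k, ⟪D.psi ψ Y f, φ Y⟫_ℂ := by
  have hφ2 : MemLp φ 2 volume := hφ.memLp_of_hasCompactSupport hc
  have hS := memLp_psi D hψ hf
  have hPJ : ∀ p, IsPJ (volume : Measure (EY k)) (pproj (TY p) (LY D p) (ψ p) :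
      (EY k → F) → EY k → F) := fun p => isPJ_pproj (TY p) (LY D p) (hψ p) (h1 p)
  have key : ∀ l : List κ, ∫ Y : EY k, ⟪D.psi ψ Y f,
      lprod (fun p => pproj (TY p) (LY D p) (ψ p)) l φ Y⟫_ℂ =
      ∫ Y : EY k, ⟪D.psi ψ Y f, φ Y⟫_ℂ := by
    intro l
    induction l with
    | nil => rfl
    | cons p l ih =>
      rw [← ih, lprod_cons, ← pproj_symm (TY p) (LY D p) (hψ p) hS
        (lprod_memLp l (fun p _ => hPJ p) hφ2)]
      refine integral_congr_ae (Eventually.of_forall fun Y => ?_)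
      simp only
      rw [pproj_psi D hψ h1 hev hf p Y]
  rw [← key Finset.univ.toList]
  simp only [lprod_amp D hψ hev hφ hc]
  rw [integral_psi_self D h1 hf]

end data

end Crest.Agent.R330.Prod494

end
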