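import Crest.Agent.R330.Pkg2_915

/-!
# R330/Pkg3_915 : the ground state approximants at coupling `g` (leaf S9-PKG)

`ground_family` : for a ground state `ψ` (structure `Ground`) there are `C`, `g₀` such that for all
`g ≥ g₀` there is `φ` (structure `Fam`), a normalised even core vector supported in
`|y| < g^{-1/6}`, close to `U_l ψ`, `l = g^{1/3}`, with all rates.
-/

set_option autoImplicit false
set_option linter.unusedSectionVars false

open MeasureTheory Filter Topology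
open scoped ContDiff InnerProductSpace ENNReal
open Crest.MathPhysics.MatrixQM
open Crest.Agent.R330.Ims714
open Crest.Agent.R330.Defs478 (wpot dcharge qf zset cc Gam)
open Crest.Agent.R330.SInd478 (Ground IsParity)
open Crest.Agent.R330.Ims2714 (wend dcharge_eq_dop)
open Crest.Agent.R330.Scale423

namespace Crest.Agent.R330.Pkg915

variable {N : ℕ} {F : Type*} [NormedAddCommGroup F] [InnerProductSpace ℂ F]

/-! ## scaling of weighted integrals -/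

theorem norm_Us_sq {l : ℝ} (hl : 0 < l) (φ : Cfg N → F) (x : Cfg N) :
    ‖Us l φ x‖ ^ 2 = nrm N l ^ 2 * ‖φ (l • x)‖ ^ 2 := by
  simp only [Us, norm_smul, Complex.norm_real, Real.norm_of_nonneg (nrm_pos hl).le, mul_pow]

theorem int_scale {l : ℝ} (hl : 0 < l) (f : Cfg N → ℝ) :
    ∫ x, nrm N l ^ 2 * f (l • x) = ∫ x, f x := by
  rw [integral_const_mul, Measure.integral_comp_smul volume f l,
    nrm_sq hl, abs_of_pos (inv_pos.2 (pow_pos hl _)), smul_eq_mul, ← mul_assoc,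
    mul_inv_cancel₀ (pow_pos hl _).ne', one_mul]

theorem int_Us {l : ℝ} (hl : 0 < l) (w : Cfg N → ℝ) (φ : Cfg N → F) :
    ∫ x, w (l • x) * ‖Us l φ x‖ ^ 2 = ∫ x, w x * ‖φ x‖ ^ 2 := by
  rw [← int_scale hl fun x => w x * ‖φ x‖ ^ 2]
  refine integral_congr_ae (Eventually.of_forall fun x => ?_)
  simp only
  rw [norm_Us_sq hl]
  ring

theorem int_Us_sub {l : ℝ} (hl : 0 < l) (φ ψ : Cfg N → F) :
    ∫ x, ‖Us l φ x - Us l ψ x‖ ^ 2 = ∫ x, ‖φ x - ψ x‖ ^ 2 := by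
  have h := int_Us hl (fun _ => 1) (φ - ψ)
  simp only [one_mul, Pi.sub_apply] at h
  rw [← h]
  refine integral_congr_ae (Eventually.of_forall fun x => ?_)
  simp [Us, smul_sub]

theorem dsq_Us {l : ℝ} {φ : Cfg N → F} (hφ : Differentiable ℝ φ) (x : Cfg N) :
    dsq (Us l φ) x = nrm N l ^ 2 * (l ^ 2 * dsq φ (l • x)) := by
  have h2 : Us l φ = fun x => (nrm N l : ℝ) • φ (l • x) := by
    funext x; exact Complex.coe_smul _ _
  have hd : ∀ v : Cfg N, fderiv ℝ (Us l φ) x v = nrm N l • (l • fderiv ℝ φ (l • x) v) := by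
    intro v
    have h3 : HasFDerivAt (fun y : Cfg N => φ (l • y))
        ((fderiv ℝ φ (l • x)).comp (l • ContinuousLinearMap.id ℝ (Cfg N))) x :=
      (hφ (l • x)).hasFDerivAt.comp x ((hasFDerivAt_id x).const_smul l)
    have h4 := (h3.const_smul (nrm N l)).fderiv
    rw [h2]
    have h5 : (fun x : Cfg N => nrm N l • φ (l • x)) = (nrm N l • fun y : Cfg N => φ (l • y)) := rfl
    rw [h5, h4]
    simp
  unfold dsq
  rw [Finset.mul_sum, Finset.mul_sum]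
  refine Finset.sum_congr rfl fun k _ => ?_
  rw [hd, norm_smul, norm_smul, mul_pow, mul_pow, Real.norm_eq_abs, Real.norm_eq_abs, sq_abs,
    sq_abs]

theorem int_dsq_Us {l : ℝ} (hl : 0 < l) (w : Cfg N → ℝ) {φ : Cfg N → F}
    (hφ : Differentiable ℝ φ) :
    ∫ x, w (l • x) * dsq (Us l φ) x = l ^ 2 * ∫ x, w x * dsq φ x := by
  rw [← integral_const_mul, ← int_scale hl fun x => l ^ 2 * (w x * dsq φ x)]
  refine integral_congr_ae (Eventually.of_forall fun x => ?_)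
  simp only
  rw [dsq_Us hφ]
  ring

/-! ## the mass term -/

variable [FiniteDimensional ℂ F]

/-- coefficients of the mass term -/
noncomputable def ms (G : GammaNine) (m : ℝ) (α : Fin 16) (x : Cfg N)
    (p : Fin 16 × Fin (N ^ 2 - 1)) : ℝ :=
  -(m * ∑ j : Fin 9, cc j * x (j, p.2) * (Gam G * G.γ j) α p.1)

theorem dcharge_mass (b : ColorBasis N) (M : FermionRep N F) (G : GammaNine) (g m : ℝ)
    (α : Fin 16) (φ : Cfg N → F) (x : Cfg N) :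
    dcharge b M G g m α φ x = dcharge b M G g 0 α φ x + thc M (ms G m α x) (φ x) := by
  unfold dcharge
  rw [add_assoc, thc_apply, Fintype.sum_prod_type, Finset.sum_comm (s := (Finset.univ :
    Finset (Fin 16))), ← Finset.sum_add_distrib]
  congr 1
  refine Finset.sum_congr rfl fun A _ => ?_
  rw [← Finset.sum_add_distrib]
  refine Finset.sum_congr rfl fun β _ => ?_
  rw [← add_smul]
  congr 1
  rw [← Complex.ofReal_add]
  congr 1
  unfold wpot ms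
  ring

theorem ms_sq_le (G : GammaNine) (N : ℕ) : ∃ K : ℝ, 0 ≤ K ∧ ∀ (m : ℝ) (α : Fin 16) (x : Cfg N),
    ∑ p, ms G m α x p ^ 2 ≤ K * m ^ 2 * ‖x‖ ^ 2 := by
  refine ⟨∑ α : Fin 16, ∑ p : Fin 16 × Fin (N ^ 2 - 1),
    (∑ j : Fin 9, |cc j| * |(Gam G * G.γ j) α p.1|) ^ 2, by positivity, fun m α x => ?_⟩
  have h1 : ∀ p : Fin 16 × Fin (N ^ 2 - 1), ms G m α x p ^ 2 ≤
      (∑ j : Fin 9, |cc j| * |(Gam G * G.γ j) α p.1|) ^ 2 * (m ^ 2 * ‖x‖ ^ 2) := by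
    intro p
    have h2 : |∑ j : Fin 9, cc j * x (j, p.2) * (Gam G * G.γ j) α p.1| ≤
        (∑ j : Fin 9, |cc j| * |(Gam G * G.γ j) α p.1|) * ‖x‖ := by
      refine (Finset.abs_sum_le_sum_abs _ _).trans ?_
      rw [Finset.sum_mul]
      refine Finset.sum_le_sum fun j _ => ?_
      rw [abs_mul, abs_mul]
      have hx : |x (j, p.2)| ≤ ‖x‖ := by
        have := PiLp.norm_apply_le x (j, p.2)
        rwa [Real.norm_eq_abs] at this
      calc |cc j| * |x (j, p.2)| * |(Gam G * G.γ j) α p.1|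
          ≤ |cc j| * ‖x‖ * |(Gam G * G.γ j) α p.1| := by gcongr
        _ = _ := by ring
    unfold ms
    rw [neg_sq, mul_pow, ← sq_abs (∑ j : Fin 9, cc j * x (j, p.2) * (Gam G * G.γ j) α p.1)]
    calc m ^ 2 * |∑ j : Fin 9, cc j * x (j, p.2) * (Gam G * G.γ j) α p.1| ^ 2
        ≤ m ^ 2 * ((∑ j : Fin 9, |cc j| * |(Gam G * G.γ j) α p.1|) * ‖x‖) ^ 2 := by gcongr
      _ = _ := by ring
  refine (Finset.sum_le_sum fun p _ => h1 p).trans ?_
  rw [← Finset.sum_mul, ← mul_assoc]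
  have h3 : ∑ p : Fin 16 × Fin (N ^ 2 - 1), (∑ j : Fin 9, |cc j| * |(Gam G * G.γ j) α p.1|) ^ 2 ≤
      ∑ α : Fin 16, ∑ p : Fin 16 × Fin (N ^ 2 - 1),
        (∑ j : Fin 9, |cc j| * |(Gam G * G.γ j) α p.1|) ^ 2 :=
    Finset.single_le_sum (f := fun α : Fin 16 => ∑ p : Fin 16 × Fin (N ^ 2 - 1),
      (∑ j : Fin 9, |cc j| * |(Gam G * G.γ j) α p.1|) ^ 2)
      (fun _ _ => Finset.sum_nonneg fun _ _ => sq_nonneg _) (Finset.mem_univ α)
  gcongr

theorem qf_mass_le (b : ColorBasis N) (M : FermionRep N F) (G : GammaNine) :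
    ∃ C : ℝ, 0 ≤ C ∧ ∀ (g m : ℝ) (φ : Cfg N → F), ContDiff ℝ 1 φ → HasCompactSupport φ →
      qf b M G g m φ ≤ 2 * qf b M G g 0 φ + C * m ^ 2 * ∫ x, ‖x‖ ^ 2 * ‖φ x‖ ^ 2 := by
  obtain ⟨K, hK, hms⟩ := ms_sq_le G N
  refine ⟨K, hK, fun g m φ hφ hc => ?_⟩
  have hi : Integrable fun x : Cfg N => ‖x‖ ^ 2 * ‖φ x‖ ^ 2 :=
    ((continuous_norm.pow 2).mul (hφ.continuous.norm.pow 2)).integrable_of_hasCompactSupport
      (hasCompactSupport_of_tsupport hc fun x h => by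
        simp [image_eq_zero_of_notMem_tsupport h])
  have hone : ∀ α, ∫ x, ‖dcharge b M G g m α φ x‖ ^ 2 ≤
      2 * (∫ x, ‖dcharge b M G g 0 α φ x‖ ^ 2) + K * m ^ 2 * ∫ x, ‖x‖ ^ 2 * ‖φ x‖ ^ 2 := by
    intro α
    have i1 := Ims2714.integrable_dcharge b M G g m hφ hc α
    have i0 := Ims2714.integrable_dcharge b M G g 0 hφ hc α
    rw [← integral_const_mul, ← integral_const_mul,
      ← integral_add (i0.const_mul _) (hi.const_mul _)]
    refine integral_mono i1 ((i0.const_mul _).add (hi.const_mul _)) fun x => ?_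
    simp only
    rw [dcharge_mass]
    refine sq_add_le.trans ?_
    rw [norm_thc_sq]
    have h1 := hms m α x
    have h2 : (∑ p, ms G m α x p ^ 2) * ‖φ x‖ ^ 2 ≤ (K * m ^ 2 * ‖x‖ ^ 2) * ‖φ x‖ ^ 2 := by
      gcongr
    linarith
  unfold qf
  have h3 := Finset.sum_le_sum fun α (_ : α ∈ (Finset.univ : Finset (Fin 16))) => hone α
  rw [Finset.sum_add_distrib, ← Finset.mul_sum, Finset.sum_const, Finset.card_univ,
    Fintype.card_fin, nsmul_eq_mul] at h3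
  push_cast at h3
  linarith

/-! ## norms -/

theorem rt_add_le {f h : Cfg N → F} (hf : MemLp f 2 volume) (hh : MemLp h 2 volume) :
    Real.sqrt (∫ x, ‖f x + h x‖ ^ 2) ≤ Real.sqrt (∫ x, ‖f x‖ ^ 2) + Real.sqrt (∫ x, ‖h x‖ ^ 2) := by
  have h1 := eLpNorm_add_le hf.1 hh.1 (by norm_num : (1 : ℝ≥0∞) ≤ 2)
  rw [Rel893.eLpNorm_two_sq (hf.add hh), Rel893.eLpNorm_two_sq hf, Rel893.eLpNorm_two_sq hh,
    ← ENNReal.ofReal_add (Real.sqrt_nonneg _) (Real.sqrt_nonneg _)] at h1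
  exact (ENNReal.ofReal_le_ofReal_iff (by positivity)).1 h1

/-! ## the family before normalisation -/

section fam

variable [Nontrivial F] {b : ColorBasis N} {M : FermionRep N F} {R : GaugeAction b M}
  {G : GammaNine} {ψ : Cfg N → F}

theorem qf_eq_dop (g m : ℝ) (φ : Cfg N → F) : qf b M G g m φ =
    1 / 16 * ∑ α, ∫ x, ‖dop G M α (wend b M G g m α) φ x‖ ^ 2 := by
  unfold qf
  simp only [dcharge_eq_dop]

/-- the estimates at radius `1/L`, coupling `L⁶`, scaling factor `L²` -/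
structure FamL (b : ColorBasis N) {M : FermionRep N F} (R : GaugeAction b M) (G : GammaNine)
    (ψ : Cfg N → F) (C L : ℝ) (φ : Cfg N → F) : Prop where
  core : IsCoreVec b R φ
  supp : ∀ y, L⁻¹ ≤ ‖y‖ → φ y = 0
  even : ∀ P : F →ₗ[ℂ] F, IsParity M G P → ∀ y, P (φ y) = φ y
  err : ∫ y, ‖φ y - Us (L ^ 2) ψ y‖ ^ 2 ≤ C / L ^ 4
  mom2 : ∫ y, ‖y‖ ^ 2 * ‖φ y‖ ^ 2 ≤ C / L ^ 4
  mom4 : ∫ y, ‖y‖ ^ 4 * ‖φ y‖ ^ 2 ≤ C / L ^ 8
  q0 : qf b M G (L ^ 6) 0 φ ≤ C / L ^ 2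
  qm : ∀ m : ℝ, qf b M G (L ^ 6) m φ ≤ C * (1 + m ^ 2) / L ^ 2
  grad0 : ∫ y, dsq φ y ≤ C * L ^ 4
  grad2 : ∫ y, ‖y‖ ^ 2 * dsq φ y ≤ C

theorem exists_famL (h : Ground b M R G ψ) : ∃ C : ℝ, 0 ≤ C ∧ ∀ L : ℝ, 1 ≤ L →
    ∃ φ : Cfg N → F, FamL b R G ψ C L φ := by
  obtain ⟨C, hC, hp⟩ := ground_pkg h (s := 2) (by norm_num) (by norm_num)
  obtain ⟨K, hK, hmass⟩ := qf_mass_le b M G
  have hI : Integrable fun x => jw 2 x * ‖ψ x‖ ^ 2 :=
    integrable_jw_of_moment h.memLp (by norm_num) (h.moment 2 (by norm_num) (by norm_num))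
  set I := ∫ x, jw 2 x * ‖ψ x‖ ^ 2 with hIdef
  have hI0 : 0 ≤ I := integral_nonneg fun x => mul_nonneg (jw_pos 2 x).le (by positivity)
  obtain ⟨Ct, hC0, hC1, hC2, hC3, hC4⟩ : ∃ Ct : ℝ, 0 ≤ Ct ∧ 32 * I + 1 ≤ Ct ∧ C ≤ Ct ∧
      C * (16 * I) + 1 ≤ Ct ∧ 2 * (C * (16 * I) + 1) + K * C ≤ Ct := by
    have e1 : 0 ≤ 32 * I + 1 := by positivity
    have e2 : 0 ≤ C * (16 * I) + 1 := by positivity
    have e3 : 0 ≤ 2 * (C * (16 * I) + 1) + K * C := by positivity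
    exact ⟨(32 * I + 1) + C + (C * (16 * I) + 1) + (2 * (C * (16 * I) + 1) + K * C),
      by linarith, by linarith, by linarith, by linarith, by linarith⟩
  refine ⟨Ct, hC0, fun L hL => ?_⟩
  have hL0 : 0 < L := lt_of_lt_of_le one_pos hL
  obtain ⟨φ, hφ, hev⟩ := hp L hL (1 / L ^ 6) (by positivity)
  have hφ1 : ContDiff ℝ 1 φ := hφ.core.1.of_le (by exact_mod_cast le_top)
  have hφd : Differentiable ℝ φ := hφ1.differentiable one_ne_zero
  have hc := hφ.core.2.1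
  have hl : 0 < L ^ 2 := by positivity
  set T := ∫ x in {x : Cfg N | L / 2 ≤ ‖x‖}, ‖ψ x‖ ^ 2 with hT
  have hT1 : T ≤ 16 * I / L ^ 4 := by
    have e1 := tail_le (s := 2) (by norm_num) hL0 h.memLp hI
    have e2 : ∫ x in {x : Cfg N | L / 2 ≤ ‖x‖}, jw 2 x * ‖ψ x‖ ^ 2 ≤ I :=
      setIntegral_le_integral hI
        (Eventually.of_forall fun x => mul_nonneg (jw_pos 2 x).le (by positivity))
    rw [← hT] at e1
    have e3 : (1 + L ^ 2) ^ (2 : ℝ) = (1 + L ^ 2) ^ 2 := by norm_num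
    have e4 : (4 : ℝ) ^ (2 : ℝ) = 16 := by norm_num
    rw [e3, e4] at e1
    have hT0 : 0 ≤ T := integral_nonneg fun x => by positivity
    rw [le_div_iff₀ (by positivity)]
    have e5 : L ^ 4 ≤ (1 + L ^ 2) ^ 2 := by nlinarith [sq_nonneg L]
    nlinarith
  have hL2 : (1 : ℝ) ≤ L ^ 2 := one_le_pow₀ hL
  have hL4 : (1 : ℝ) ≤ L ^ 4 := one_le_pow₀ hL
  have hL6 : (1 : ℝ) ≤ L ^ 6 := one_le_pow₀ hL
  have hjj : ∀ (x : Cfg N), ‖x‖ ^ 2 ≤ jw 2 x ∧ ‖x‖ ^ 4 ≤ jw 2 x ∧ 1 ≤ jw (2 - 1 / 2) x ∧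
      ‖x‖ ^ 2 ≤ jw (2 - 1 / 2) x := by
    intro x
    have e1 : jw 2 x = (1 + ‖x‖ ^ 2) ^ 2 := by unfold jw; norm_num
    have e2 : jw 1 x = 1 + ‖x‖ ^ 2 := by unfold jw; norm_num
    have e3 : jw 1 x ≤ jw (2 - 1 / 2) x := jw_mono (by norm_num) x
    have := norm_nonneg x
    refine ⟨?_, ?_, one_le_jw (by norm_num) x, by linarith⟩
    · rw [e1]; nlinarith [sq_nonneg (‖x‖ ^ 2)]
    · rw [e1]; nlinarith [sq_nonneg ‖x‖]
  have hcont : ∀ k : ℕ, Integrable fun x : Cfg N => ‖x‖ ^ k * ‖φ x‖ ^ 2 := fun k =>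
    ((continuous_norm.pow k).mul (hφ1.continuous.norm.pow 2)).integrable_of_hasCompactSupport
      (hasCompactSupport_of_tsupport hc fun x h => by
        simp [image_eq_zero_of_notMem_tsupport h])
  have hcontd : Integrable fun x : Cfg N => ‖x‖ ^ 2 * dsq φ x :=
    ((continuous_norm.pow 2).mul (continuous_dsq hφ1)).integrable_of_hasCompactSupport
      (hasCompactSupport_of_tsupport hc fun x h => by simp [dsq_eq_zero h])
  have hM2 : ∫ x, ‖x‖ ^ 2 * ‖φ x‖ ^ 2 ≤ C :=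
    (integral_mono (hcont 2) (integrable_jw_norm 2 hφ1.continuous hc) fun x =>
      mul_le_mul_of_nonneg_right (hjj x).1 (by positivity)).trans hφ.norms
  have hM4 : ∫ x, ‖x‖ ^ 4 * ‖φ x‖ ^ 2 ≤ C :=
    (integral_mono (hcont 4) (integrable_jw_norm 2 hφ1.continuous hc) fun x =>
      mul_le_mul_of_nonneg_right (hjj x).2.1 (by positivity)).trans hφ.norms
  have hG0 : ∫ x, dsq φ x ≤ C :=
    (integral_mono (integrable_dsq hφ1 hc) (integrable_jw_dsq _ hφ1 hc) fun x => by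
      have := mul_le_mul_of_nonneg_right (hjj x).2.2.1 (dsq_nonneg φ x)
      simpa using this).trans hφ.grad
  have hG2 : ∫ x, ‖x‖ ^ 2 * dsq φ x ≤ C :=
    (integral_mono hcontd (integrable_jw_dsq _ hφ1 hc) fun x =>
      mul_le_mul_of_nonneg_right (hjj x).2.2.2 (dsq_nonneg φ x)).trans hφ.grad
  have hq1 : qf b M G 1 0 φ ≤ (C * (16 * I) + 1) / L ^ 6 := by
    rw [qf_eq_dop]
    have e1 := hφ.charge
    have e2 : C / L ^ 2 * T ≤ C * (16 * I) / L ^ 6 := by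
      calc C / L ^ 2 * T ≤ C / L ^ 2 * (16 * I / L ^ 4) := by gcongr
        _ = C * (16 * I) / L ^ 6 := by field_simp
    have e3 : 0 ≤ ∑ α, ∫ x, ‖dop G M α (wend b M G 1 0 α) φ x‖ ^ 2 :=
      Finset.sum_nonneg fun _ _ => integral_nonneg fun _ => by positivity
    calc _ ≤ ∑ α, ∫ x, ‖dop G M α (wend b M G 1 0 α) φ x‖ ^ 2 := by linarith
      _ ≤ C * (16 * I) / L ^ 6 + 1 / L ^ 6 := by linarith
      _ = _ := by ring
  have hq0 : qf b M G (L ^ 6) 0 (Us (L ^ 2) φ) ≤ (C * (16 * I) + 1) / L ^ 2 := by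
    rw [ScaleD423.qf_Us b M G (L ^ 6) 0 hl hφd]
    have e1 : L ^ 6 / (L ^ 2) ^ 3 = 1 := by field_simp
    rw [e1, zero_div]
    calc (L ^ 2) ^ 2 * qf b M G 1 0 φ ≤ (L ^ 2) ^ 2 * ((C * (16 * I) + 1) / L ^ 6) := by gcongr
      _ = _ := by field_simp
  have hUc : IsCoreVec b R (Us (L ^ 2) φ) := core_Us hl hφ.core
  have hU1 : ContDiff ℝ 1 (Us (L ^ 2) φ) := Us_contDiff hφ1
  have hUm2 : ∫ y, ‖y‖ ^ 2 * ‖Us (L ^ 2) φ y‖ ^ 2 ≤ C / L ^ 4 := by
    have e1 := int_Us hl (fun x => ‖x‖ ^ 2 / L ^ 4) φ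
    have e2 : ∀ y : Cfg N, ‖L ^ 2 • y‖ ^ 2 / L ^ 4 = ‖y‖ ^ 2 := fun y => by
      rw [norm_smul, Real.norm_of_nonneg hl.le]
      field_simp
    simp only [e2] at e1
    rw [e1]
    have e3 : ∫ x : Cfg N, ‖x‖ ^ 2 / L ^ 4 * ‖φ x‖ ^ 2 =
        (∫ x : Cfg N, ‖x‖ ^ 2 * ‖φ x‖ ^ 2) / L ^ 4 := by
      rw [← integral_div]
      exact integral_congr_ae (Eventually.of_forall fun x => by simp only; ring)
    rw [e3]
    gcongr
  have hUm4 : ∫ y, ‖y‖ ^ 4 * ‖Us (L ^ 2) φ y‖ ^ 2 ≤ C / L ^ 8 := by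
    have e1 := int_Us hl (fun x => ‖x‖ ^ 4 / L ^ 8) φ
    have e2 : ∀ y : Cfg N, ‖L ^ 2 • y‖ ^ 4 / L ^ 8 = ‖y‖ ^ 4 := fun y => by
      rw [norm_smul, Real.norm_of_nonneg hl.le]
      field_simp
    simp only [e2] at e1
    rw [e1]
    have e3 : ∫ x : Cfg N, ‖x‖ ^ 4 / L ^ 8 * ‖φ x‖ ^ 2 =
        (∫ x : Cfg N, ‖x‖ ^ 4 * ‖φ x‖ ^ 2) / L ^ 8 := by
      rw [← integral_div]
      exact integral_congr_ae (Eventually.of_forall fun x => by simp only; ring)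
    rw [e3]
    gcongr
  refine ⟨Us (L ^ 2) φ, hUc, fun y hy => ?_, fun P hP y => ?_, ?_, ?_, ?_, ?_, fun m => ?_, ?_, ?_⟩
  · have e1 : L ≤ ‖L ^ 2 • y‖ := by
      rw [norm_smul, Real.norm_of_nonneg hl.le]
      calc L = L ^ 2 * L⁻¹ := by field_simp
        _ ≤ L ^ 2 * ‖y‖ := by gcongr
    show ((nrm N (L ^ 2) : ℝ) : ℂ) • φ (L ^ 2 • y) = 0
    rw [hφ.supp _ e1, smul_zero]
  · show P (((nrm N (L ^ 2) : ℝ) : ℂ) • φ (L ^ 2 • y)) = _
    rw [map_smul, hev P hP]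
    rfl
  · rw [int_Us_sub hl]
    refine hφ.err0.trans ?_
    rw [← hT]
    have e1 : 2 * T + 1 / L ^ 6 ≤ (32 * I + 1) / L ^ 4 := by
      have e2 : 1 / L ^ 6 ≤ 1 / L ^ 4 := by
        apply one_div_le_one_div_of_le (by positivity)
        exact pow_le_pow_right₀ hL (by norm_num)
      calc 2 * T + 1 / L ^ 6 ≤ 2 * (16 * I / L ^ 4) + 1 / L ^ 4 := by linarith
        _ = _ := by ring
    exact e1.trans (div_le_div_of_nonneg_right hC1 (by positivity))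
  · exact hUm2.trans (div_le_div_of_nonneg_right hC2 (by positivity))
  · exact hUm4.trans (div_le_div_of_nonneg_right hC2 (by positivity))
  · exact hq0.trans (div_le_div_of_nonneg_right hC3 (by positivity))
  · refine (hmass (L ^ 6) m (Us (L ^ 2) φ) hU1 hUc.2.1).trans ?_
    have e1 : K * m ^ 2 * ∫ y, ‖y‖ ^ 2 * ‖Us (L ^ 2) φ y‖ ^ 2 ≤ K * C * m ^ 2 / L ^ 2 := by
      have e0 : C / L ^ 4 ≤ C / L ^ 2 :=
        div_le_div_of_nonneg_left hC (by positivity) (pow_le_pow_right₀ hL (by norm_num))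
      calc K * m ^ 2 * ∫ y, ‖y‖ ^ 2 * ‖Us (L ^ 2) φ y‖ ^ 2 ≤ K * m ^ 2 * (C / L ^ 2) :=
            mul_le_mul_of_nonneg_left (hUm2.trans e0) (by positivity)
        _ = _ := by ring
    calc 2 * qf b M G (L ^ 6) 0 (Us (L ^ 2) φ) + K * m ^ 2 * ∫ y, ‖y‖ ^ 2 *
          ‖Us (L ^ 2) φ y‖ ^ 2 ≤ 2 * ((C * (16 * I) + 1) / L ^ 2) + K * C * m ^ 2 / L ^ 2 := by
          linarith
      _ = (2 * (C * (16 * I) + 1) + K * C * m ^ 2) / L ^ 2 := by ring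
      _ ≤ _ := by
          refine div_le_div_of_nonneg_right ?_ (by positivity)
          have e2 : 0 ≤ (2 * (C * (16 * I) + 1)) * m ^ 2 + K * C := by positivity
          have e3 : (2 * (C * (16 * I) + 1) + K * C) * (1 + m ^ 2) ≤ Ct * (1 + m ^ 2) := by
            gcongr
          linarith
  · have e1 := int_dsq_Us hl (fun _ => 1) hφd
    simp only [one_mul] at e1
    rw [e1]
    have e2 : (L ^ 2) ^ 2 = L ^ 4 := by ring
    rw [e2, mul_comm]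
    exact mul_le_mul_of_nonneg_right (hG0.trans hC2) (by positivity)
  · have e1 := int_dsq_Us hl (fun x => ‖x‖ ^ 2 / L ^ 4) hφd
    have e2 : ∀ y : Cfg N, ‖L ^ 2 • y‖ ^ 2 / L ^ 4 = ‖y‖ ^ 2 := fun y => by
      rw [norm_smul, Real.norm_of_nonneg hl.le]
      field_simp
    simp only [e2] at e1
    rw [e1]
    have e3 : ∫ x : Cfg N, ‖x‖ ^ 2 / L ^ 4 * dsq φ x = (∫ x : Cfg N, ‖x‖ ^ 2 * dsq φ x) / L ^ 4 := by
      rw [← integral_div]
      exact integral_congr_ae (Eventually.of_forall fun x => by simp only; ring)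
    rw [e3]
    have e4 : (L ^ 2) ^ 2 * ((∫ x : Cfg N, ‖x‖ ^ 2 * dsq φ x) / L ^ 4) =
        ∫ x : Cfg N, ‖x‖ ^ 2 * dsq φ x := by field_simp
    rw [e4]
    exact hG2.trans hC2

/-! ## normalisation -/

theorem qf_smul (g m : ℝ) (c : ℂ) {φ : Cfg N → F} (hφ : Differentiable ℝ φ) :
    qf b M G g m (c • φ) = ‖c‖ ^ 2 * qf b M G g m φ := by
  unfold qf
  have h1 : ∀ α, ∫ x, ‖dcharge b M G g m α (c • φ) x‖ ^ 2 =
      ‖c‖ ^ 2 * ∫ x, ‖dcharge b M G g m α φ x‖ ^ 2 := by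
    intro α
    rw [Defs478.dcharge_smul b M G g m α c hφ, ← integral_const_mul]
    refine integral_congr_ae (Eventually.of_forall fun x => ?_)
    simp only [Pi.smul_apply, norm_smul, mul_pow]
  simp only [h1, ← Finset.mul_sum]
  ring

theorem dsq_smul (c : ℂ) {φ : Cfg N → F} (hφ : Differentiable ℝ φ) (x : Cfg N) :
    dsq (c • φ) x = ‖c‖ ^ 2 * dsq φ x := by
  unfold dsq
  rw [Finset.mul_sum]
  refine Finset.sum_congr rfl fun k _ => ?_
  rw [fderiv_const_smul (hφ x)]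
  rw [show (c • fderiv ℝ φ x) (EuclideanSpace.single k 1) = c • fderiv ℝ φ x (EuclideanSpace.single k 1)
    from rfl, norm_smul, mul_pow]

theorem exists_famL_norm (h : Ground b M R G ψ) : ∃ C L₀ : ℝ, 0 ≤ C ∧ 1 ≤ L₀ ∧ ∀ L : ℝ, L₀ ≤ L →
    ∃ φ : Cfg N → F, FamL b R G ψ C L φ ∧ ∫ y, ‖φ y‖ ^ 2 = 1 := by
  obtain ⟨C, hC, hf⟩ := exists_famL h
  refine ⟨4 * C, 1 + 16 * C, by positivity, by linarith, fun L hL => ?_⟩
  have hL1 : 1 ≤ L := by linarith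
  have hL0 : 0 < L := by linarith
  obtain ⟨φ, hφ⟩ := hf L hL1
  have hl : 0 < L ^ 2 := by positivity
  have hφ1 : ContDiff ℝ 1 φ := hφ.core.1.of_le (by exact_mod_cast le_top)
  have hφd : Differentiable ℝ φ := hφ1.differentiable one_ne_zero
  have hc := hφ.core.2.1
  have hφm : MemLp φ 2 volume := hφ1.continuous.memLp_of_hasCompactSupport hc
  have hUm : MemLp (Us (L ^ 2) ψ) 2 volume := Us_memLp hl h.memLp
  have hU1 : ∫ y, ‖Us (L ^ 2) ψ y‖ ^ 2 = 1 := by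
    rw [ScaleD423.integral_norm_sq_Us hl, h.norm]
  have hsmall : C / L ^ 4 ≤ 1 / 16 := by
    rw [div_le_iff₀ (by positivity)]
    have e1 : L ≤ L ^ 4 := by
      have : (1 : ℝ) ≤ L ^ 3 := one_le_pow₀ hL1
      nlinarith
    linarith
  set δ := Real.sqrt (∫ y, ‖φ y - Us (L ^ 2) ψ y‖ ^ 2) with hδ
  have hδ0 : 0 ≤ δ := Real.sqrt_nonneg _
  have hδsq : δ ^ 2 ≤ C / L ^ 4 := by
    rw [hδ, Real.sq_sqrt (integral_nonneg fun _ => by positivity)]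
    exact hφ.err
  have hδ4 : δ ≤ 1 / 4 := by nlinarith
  set n := Real.sqrt (∫ y, ‖φ y‖ ^ 2) with hn
  have hn0 : 0 ≤ n := Real.sqrt_nonneg _
  have hnsq : n ^ 2 = ∫ y, ‖φ y‖ ^ 2 := by
    rw [hn, Real.sq_sqrt (integral_nonneg fun _ => by positivity)]
  have hdm : MemLp (fun y => φ y - Us (L ^ 2) ψ y) 2 volume := hφm.sub hUm
  have hup : n ≤ δ + 1 := by
    have h1 := rt_add_le hdm hUm
    simp only [sub_add_cancel] at h1
    rw [hU1, Real.sqrt_one] at h1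
    exact h1
  have hlo : 1 ≤ δ + n := by
    have h1 := rt_add_le hdm.neg hφm
    have e1 : ∀ y, ‖(-fun y => φ y - Us (L ^ 2) ψ y) y + φ y‖ ^ 2 = ‖Us (L ^ 2) ψ y‖ ^ 2 := by
      intro y
      simp
    have e2 : ∀ y, ‖(-fun y => φ y - Us (L ^ 2) ψ y) y‖ ^ 2 = ‖φ y - Us (L ^ 2) ψ y‖ ^ 2 := by
      intro y
      simp only [Pi.neg_apply, norm_neg]
    simp only [e1, e2] at h1
    rw [hU1, Real.sqrt_one] at h1
    exact h1
  have hn34 : 3 / 4 ≤ n := by linarith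
  have hnpos : 0 < n := by linarith
  set c : ℂ := ((n⁻¹ : ℝ) : ℂ) with hcdef
  have hcn : ‖c‖ = n⁻¹ := by
    rw [hcdef, Complex.norm_real, Real.norm_of_nonneg (inv_nonneg.2 hn0)]
  have hc2 : ‖c‖ ^ 2 ≤ 2 := by
    rw [hcn, inv_pow]
    have e1 : (9 : ℝ) / 16 ≤ n ^ 2 := by nlinarith
    calc (n ^ 2)⁻¹ ≤ (9 / 16 : ℝ)⁻¹ := inv_anti₀ (by norm_num) e1
      _ ≤ 2 := by norm_num
  have hc4 : ‖c‖ ^ 2 ≤ 4 := by linarith
  refine ⟨c • φ, ⟨Defs478.cv_smul c hφ.core, fun y hy => ?_, fun P hP y => ?_, ?_, ?_, ?_, ?_,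
    fun m => ?_, ?_, ?_⟩, ?_⟩
  · rw [Pi.smul_apply, hφ.supp y hy, smul_zero]
  · rw [Pi.smul_apply, map_smul, hφ.even P hP]
  · have h1 : Real.sqrt (∫ y, ‖(c • φ) y - Us (L ^ 2) ψ y‖ ^ 2) ≤ 2 * δ := by
      have hm1 : MemLp (fun y => (c - 1) • φ y) 2 volume := hφm.const_smul (c - 1)
      have h2 := rt_add_le hm1 hdm
      have e1 : ∀ y, (c - 1) • φ y + (φ y - Us (L ^ 2) ψ y) = (c • φ) y - Us (L ^ 2) ψ y := by
        intro y
        rw [Pi.smul_apply, sub_smul, one_smul]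
        abel
      simp only [e1] at h2
      refine h2.trans ?_
      have e2 : Real.sqrt (∫ y, ‖(c - 1) • φ y‖ ^ 2) ≤ δ := by
        have e3 : ∫ y, ‖(c - 1) • φ y‖ ^ 2 = (‖c - 1‖ * n) ^ 2 := by
          rw [mul_pow, hnsq, ← integral_const_mul]
          refine integral_congr_ae (Eventually.of_forall fun x => ?_)
          simp only [norm_smul, mul_pow]
        rw [e3, Real.sqrt_sq (by positivity)]
        have e4 : ‖c - 1‖ = |n⁻¹ - 1| := by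
          rw [hcdef, ← Complex.ofReal_one, ← Complex.ofReal_sub, Complex.norm_real, Real.norm_eq_abs]
        rw [e4, ← abs_of_nonneg hn0, ← abs_mul, abs_of_nonneg hn0]
        have e5 : (n⁻¹ - 1) * n = 1 - n := by field_simp
        rw [e5, abs_le]
        constructor <;> linarith
      linarith
    have h3 := Real.sq_sqrt (integral_nonneg (μ := volume)
      (f := fun y => ‖(c • φ) y - Us (L ^ 2) ψ y‖ ^ 2) fun _ => by positivity)
    rw [← h3]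
    calc Real.sqrt (∫ y, ‖(c • φ) y - Us (L ^ 2) ψ y‖ ^ 2) ^ 2 ≤ (2 * δ) ^ 2 := by
          gcongr
      _ = 4 * δ ^ 2 := by ring
      _ ≤ 4 * (C / L ^ 4) := by gcongr
      _ = _ := by ring
  · have e1 : ∫ y, ‖y‖ ^ 2 * ‖(c • φ) y‖ ^ 2 = ‖c‖ ^ 2 * ∫ y, ‖y‖ ^ 2 * ‖φ y‖ ^ 2 := by
      rw [← integral_const_mul]
      refine integral_congr_ae (Eventually.of_forall fun x => ?_)
      simp only [Pi.smul_apply, norm_smul, mul_pow]
      ring
    rw [e1]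
    calc ‖c‖ ^ 2 * ∫ y, ‖y‖ ^ 2 * ‖φ y‖ ^ 2 ≤ 4 * (C / L ^ 4) := by
          have := hφ.mom2
          have h0 : 0 ≤ ∫ y, ‖y‖ ^ 2 * ‖φ y‖ ^ 2 := integral_nonneg fun _ => by positivity
          gcongr
      _ = _ := by ring
  · have e1 : ∫ y, ‖y‖ ^ 4 * ‖(c • φ) y‖ ^ 2 = ‖c‖ ^ 2 * ∫ y, ‖y‖ ^ 4 * ‖φ y‖ ^ 2 := by
      rw [← integral_const_mul]
      refine integral_congr_ae (Eventually.of_forall fun x => ?_)
      simp only [Pi.smul_apply, norm_smul, mul_pow]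
      ring
    rw [e1]
    calc ‖c‖ ^ 2 * ∫ y, ‖y‖ ^ 4 * ‖φ y‖ ^ 2 ≤ 4 * (C / L ^ 8) := by
          have := hφ.mom4
          have h0 : 0 ≤ ∫ y, ‖y‖ ^ 4 * ‖φ y‖ ^ 2 := integral_nonneg fun _ => by positivity
          gcongr
      _ = _ := by ring
  · rw [qf_smul _ _ _ hφd]
    calc ‖c‖ ^ 2 * qf b M G (L ^ 6) 0 φ ≤ 4 * (C / L ^ 2) := by
          have := hφ.q0
          have h0 := Ims2714.qf_nonneg b M G (L ^ 6) 0 φ
          gcongr
      _ = _ := by ring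
  · rw [qf_smul _ _ _ hφd]
    calc ‖c‖ ^ 2 * qf b M G (L ^ 6) m φ ≤ 4 * (C * (1 + m ^ 2) / L ^ 2) := by
          have := hφ.qm m
          have h0 := Ims2714.qf_nonneg b M G (L ^ 6) m φ
          gcongr
      _ = _ := by ring
  · have e1 : ∫ y, dsq (c • φ) y = ‖c‖ ^ 2 * ∫ y, dsq φ y := by
      rw [← integral_const_mul]
      exact integral_congr_ae (Eventually.of_forall fun x => dsq_smul c hφd x)
    rw [e1]
    calc ‖c‖ ^ 2 * ∫ y, dsq φ y ≤ 4 * (C * L ^ 4) := by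
          have := hφ.grad0
          have h0 : 0 ≤ ∫ y, dsq φ y := integral_nonneg fun _ => dsq_nonneg _ _
          gcongr
      _ = _ := by ring
  · have e1 : ∫ y, ‖y‖ ^ 2 * dsq (c • φ) y = ‖c‖ ^ 2 * ∫ y, ‖y‖ ^ 2 * dsq φ y := by
      rw [← integral_const_mul]
      refine integral_congr_ae (Eventually.of_forall fun x => ?_)
      simp only [dsq_smul c hφd x]
      ring
    rw [e1]
    have := hφ.grad2
    have h0 : 0 ≤ ∫ y, ‖y‖ ^ 2 * dsq φ y :=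
      integral_nonneg fun _ => mul_nonneg (by positivity) (dsq_nonneg _ _)
    exact mul_le_mul hc4 this h0 (by norm_num)
  · have e1 : ∫ y, ‖(c • φ) y‖ ^ 2 = ‖c‖ ^ 2 * ∫ y, ‖φ y‖ ^ 2 := by
      rw [← integral_const_mul]
      refine integral_congr_ae (Eventually.of_forall fun x => ?_)
      simp only [Pi.smul_apply, norm_smul, mul_pow]
    rw [e1, ← hnsq, hcn]
    field_simp

/-! ## the family, powers of `g` -/

/-- **the approximants of the ground state at coupling `g`** -/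
structure Fam (b : ColorBasis N) {M : FermionRep N F} (R : GaugeAction b M) (G : GammaNine)
    (ψ : Cfg N → F) (C g : ℝ) (φ : Cfg N → F) : Prop where
  core : IsCoreVec b R φ
  supp : ∀ y, g ^ (-(1 / 6) : ℝ) ≤ ‖y‖ → φ y = 0
  even : ∀ P : F →ₗ[ℂ] F, IsParity M G P → ∀ y, P (φ y) = φ y
  norm : ∫ y, ‖φ y‖ ^ 2 = 1
  err : ∫ y, ‖φ y - Us (g ^ (1 / 3 : ℝ)) ψ y‖ ^ 2 ≤ C * g ^ (-(2 / 3) : ℝ)
  mom2 : ∫ y, ‖y‖ ^ 2 * ‖φ y‖ ^ 2 ≤ C * g ^ (-(2 / 3) : ℝ)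
  mom4 : ∫ y, ‖y‖ ^ 4 * ‖φ y‖ ^ 2 ≤ C * g ^ (-(4 / 3) : ℝ)
  q0 : qf b M G g 0 φ ≤ C * g ^ (-(1 / 3) : ℝ)
  qm : ∀ m : ℝ, qf b M G g m φ ≤ C * (1 + m ^ 2) * g ^ (-(1 / 3) : ℝ)
  grad0 : ∫ y, dsq φ y ≤ C * g ^ (2 / 3 : ℝ)
  grad2 : ∫ y, ‖y‖ ^ 2 * dsq φ y ≤ C

theorem rpow_inv_pow {g : ℝ} (hg : 0 < g) (k : ℕ) : (g ^ (1 / 6 : ℝ)) ^ k = g ^ ((k : ℝ) / 6) := by
  rw [← Real.rpow_natCast, ← Real.rpow_mul hg.le]
  congr 1
  ring

/-- **the family** -/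
theorem ground_family (h : Ground b M R G ψ) : ∃ C g₀ : ℝ, 0 < C ∧ 1 ≤ g₀ ∧ ∀ g : ℝ, g₀ ≤ g →
    ∃ φ : Cfg N → F, Fam b R G ψ C g φ := by
  obtain ⟨C, L₀, hC, hL0, hf⟩ := exists_famL_norm h
  refine ⟨C + 1, L₀ ^ 6, by positivity, one_le_pow₀ hL0, fun g hg => ?_⟩
  have hg1 : 1 ≤ g := (one_le_pow₀ hL0).trans hg
  have hg0 : 0 < g := by linarith
  set L := g ^ (1 / 6 : ℝ) with hL
  have hLL : L₀ ≤ L := by
    have e1 : L₀ = (L₀ ^ 6) ^ (1 / 6 : ℝ) := by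
      rw [← Real.rpow_natCast, ← Real.rpow_mul (by linarith)]
      norm_num
    rw [e1, hL]
    exact Real.rpow_le_rpow (by positivity) hg (by norm_num)
  obtain ⟨φ, hφ, hn⟩ := hf L hLL
  have h6 : L ^ 6 = g := by
    rw [hL, rpow_inv_pow hg0]; norm_num
  have h2 : L ^ 2 = g ^ (1 / 3 : ℝ) := by
    rw [hL, rpow_inv_pow hg0]; norm_num
  have h4 : L ^ 4 = g ^ (2 / 3 : ℝ) := by
    rw [hL, rpow_inv_pow hg0]; norm_num
  have h8 : L ^ 8 = g ^ (4 / 3 : ℝ) := by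
    rw [hL, rpow_inv_pow hg0]; norm_num
  have hinv : ∀ p : ℝ, g ^ (-p) = (g ^ p)⁻¹ := fun p => Real.rpow_neg hg0.le p
  have hle : ∀ {a B : ℝ}, 0 ≤ B → a ≤ C * B → a ≤ (C + 1) * B := fun hB h => by nlinarith
  refine ⟨φ, ⟨hφ.core, fun y hy => hφ.supp y ?_, hφ.even, hn, ?_, ?_, ?_, ?_, fun m => ?_, ?_, ?_⟩⟩
  · rw [hinv, ← hL] at hy
    exact hy
  · have := hφ.err
    rw [h2, h4, div_eq_mul_inv] at this
    rw [hinv]
    exact hle (by positivity) this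
  · have := hφ.mom2
    rw [h4, div_eq_mul_inv] at this
    rw [hinv]
    exact hle (by positivity) this
  · have := hφ.mom4
    rw [h8, div_eq_mul_inv] at this
    rw [hinv]
    exact hle (by positivity) this
  · have := hφ.q0
    rw [h6, h2, div_eq_mul_inv] at this
    rw [hinv]
    exact hle (by positivity) this
  · have := hφ.qm m
    rw [h6, h2, div_eq_mul_inv, mul_assoc] at this
    rw [hinv, mul_assoc]
    exact hle (by positivity) this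
  · have := hφ.grad0
    rw [h4] at this
    exact hle (by positivity) this
  · have := hφ.grad2
    linarith

end fam

end Crest.Agent.R330.Pkg915
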