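import Crest.Agent.R330.Stab2_973
import Crest.Agent.R330.FactI_161
import Crest.Agent.R330.Par_478
import Crest.Agent.R330.Om0b_331

/-!
# Row 330 (helper973), leaf S8-STAB part 3: the module side (St3)

`R : GaugeAction b M`, blocks `D : Dec N k`, `eps_p = D.emb b bp p`, 161's `cr`, `te`, `polG`, `pr`.

* `rho_thv`, `rho_cr` : `ρ(g) θ(x) f = θ(Ad(g) x) ρ(g) f`.
* `gvac_fix` : the reference vacua are gauge invariant.
* `vacD`, `prD` : 161's `vacA`, `pr` for the blocks of `D`.
* `StK.rho_mem`, `StK.rho_pr`, `StK.rho_core` : the block group.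
* `StW.rho_mem`, `StW.rho_pr`, `StW.rho_core` : the block permutations (even factors).
* `StK.act_sum`, `StW.act_sum` : the configurations `Σ_p embCfg p (Y p)`.
-/

set_option autoImplicit false
set_option linter.unusedSectionVars false

noncomputable section

open Crest.MathPhysics.MatrixQM
open scoped InnerProductSpace BigOperators

namespace Crest.Agent.R330.Stab3973

open Crest.Agent.R330.Cliff442 Crest.Agent.R330.Cliff442.CRep Crest.Agent.R330.Fact161
open Crest.Agent.R330.LS839 Crest.Agent.R330.Bind6839 Crest.Agent.R330.SInd478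
open Crest.Agent.R330.FactI161 Crest.Agent.R330.Stab2973
open Crest.Agent.R330.Blk317 (Dec)
open Crest.Agent.R330.Char973 (SU)

/-! ### 1. Gauge covariance of the Clifford module -/

section cov

variable {N : ℕ} {F : Type*} [NormedAddCommGroup F] [InnerProductSpace ℂ F]
  [FiniteDimensional ℂ F] {b : ColorBasis N} {M : FermionRep N F} (R : GaugeAction b M)

theorem thv_apply' (β : Fin 16) (u : Colg N) (f : F) :
    thv M β u f = ∑ A, ((u A : ℝ) : ℂ) • M.θ β A f := by
  unfold thv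
  rw [LinearMap.sum_apply]
  rfl

/-- **Gauge covariance of `θ_β(u)`.** -/
theorem rho_thv (g : SU N) (β : Fin 16) (u : Colg N) (f : F) :
    R.ρ g (thv M β u f) = thv M β (adV b g u) (R.ρ g f) := by
  have h : ∀ A, R.ρ g (M.θ β A f) = ∑ B, ((b.adjMat g B A : ℝ) : ℂ) • M.θ β B (R.ρ g f) := by
    intro A
    have := LinearMap.congr_fun (R.intertwine g β A) f
    simpa only [LinearMap.comp_apply, LinearMap.sum_apply, LinearMap.smul_apply] using this
  rw [thv_apply', thv_apply', map_sum]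
  simp only [map_smul, h, Finset.smul_sum, smul_smul]
  rw [Finset.sum_comm]
  refine Finset.sum_congr rfl fun B _ => ?_
  rw [adV_apply, Complex.ofReal_sum, Finset.sum_smul]
  refine Finset.sum_congr rfl fun A _ => ?_
  rw [Complex.ofReal_mul, mul_comm]

/-- **Gauge covariance of the Clifford module.** -/
theorem rho_cr (g : SU N) (x : W16 N) (f : F) :
    R.ρ g ((cr M).θ x f) = (cr M).θ (te (adV b g) x) (R.ρ g f) := by
  rw [cr_eq_sum, cr_eq_sum, map_sum]
  refine Finset.sum_congr rfl fun β _ => ?_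
  rw [row_te, rho_thv]

theorem te_te {j k : ℕ} (ε : Colg k →ₗᵢ[ℝ] Colg N) (ε' : Colg j →ₗᵢ[ℝ] Colg k) (x : W16 j) :
    te ε (te ε' x) = te (ε.comp ε') x := by
  refine ext_row fun β => ?_
  rw [row_te, row_te, row_te]
  rfl

theorem te_surjective {ε : Colg N →ₗᵢ[ℝ] Colg N} (h : Function.Surjective ε) :
    Function.Surjective (te ε) := by
  intro x
  choose u hu using fun β => h (row β x)
  refine ⟨∑ β, ins β (u β), ext_row fun β => ?_⟩
  rw [row_te, map_sum]
  simp only [row_ins]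
  rw [Finset.sum_ite_eq, if_pos (Finset.mem_univ _), hu]

theorem rho_rho_inv (g : SU N) (f : F) : R.ρ g (R.ρ g⁻¹ f) = f := by
  have h : (R.ρ g * R.ρ g⁻¹) f = f := by
    rw [← map_mul, mul_inv_cancel, map_one]
    rfl
  exact h

theorem rho_inv_rho (g : SU N) (f : F) : R.ρ g⁻¹ (R.ρ g f) = f := by
  have h : (R.ρ g⁻¹ * R.ρ g) f = f := by
    rw [← map_mul, inv_mul_cancel, map_one]
    rfl
  exact h

theorem rho_injective (g : SU N) : Function.Injective (R.ρ g) := fun x y h => by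
  rw [← rho_inv_rho R g x, h, rho_inv_rho]

theorem rho_surjective (g : SU N) : Function.Surjective (R.ρ g) := fun x =>
  ⟨R.ρ g⁻¹ x, rho_rho_inv R g x⟩

/-- **The reference vacua are gauge invariant.** -/
theorem gvac_fix {G : GammaNine} {Ω : F} (hΩ : IsGVac M G Ω) (g : SU N) :
    R.ρ g Ω = Ω :=
  Om0331.rho_fix_tens R _ (Par478.isGVac_iff.1 hΩ) g

end cov

/-! ### 2. The blocks -/

section blocks

variable {N : ℕ} {F : Type*} [NormedAddCommGroup F] [InnerProductSpace ℂ F]
  [FiniteDimensional ℂ F] (b : ColorBasis N) (M : FermionRep N F)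
  {κ : Type*} [Fintype κ] {k : κ → ℕ} (D : Dec N k) (bp : ∀ p, ColorBasis (k p)) (G : GammaNine)

/-- The common vacuum space of the blocks. -/
def vacD : Submodule ℂ F :=
  vacA (cr M) (fun p => te (D.emb b bp p)) (fun p => gu G (k p)) (fun p => gv G (k p))
    (fun p => gs G (k p))

theorem mem_vacD {w : F} : w ∈ vacD b M D bp G ↔ ∀ p, w ∈ vacB M G (D.emb b bp p) := mem_vacA

/-- the blocks are orthogonal -/
theorem te_emb_orth (p q : κ) (h : p ≠ q) (x : W16 (k p)) (y : W16 (k q)) :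
    ⟪te (D.emb b bp p) x, te (D.emb b bp q) y⟫_ℝ = 0 :=
  te_orth (fun u v => D.inner_emb_ne b bp h u v) x y

variable {Ff : κ → Type*} [∀ p, NormedAddCommGroup (Ff p)] [∀ p, InnerProductSpace ℂ (Ff p)]
  {Mb : ∀ p, FermionRep (k p) (Ff p)} {Ω : ∀ p, Ff p} {G}
  (hΩ : ∀ p, IsGVac (Mb p) G (Ω p)) (h1 : ∀ p, ‖Ω p‖ = 1)

/-- The product over the blocks. -/
def prD (l : List κ) (f : ∀ p, Ff p) (w : F) : F :=
  pr (fun p => polG (hΩ p) (h1 p)) (cr M) (fun p => te (D.emb b bp p)) l f w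

/-- 161's parity of a block. -/
def parD (p : κ) : Ff p →ₗ[ℂ] Ff p := par (polG (hΩ p) (h1 p))

end blocks

/-! ### 3. The block group -/

section stk

variable {N : ℕ} {F : Type*} [NormedAddCommGroup F] [InnerProductSpace ℂ F]
  [FiniteDimensional ℂ F] {b : ColorBasis N} {M : FermionRep N F} (R : GaugeAction b M)
  {κ : Type*} [Fintype κ] {k : κ → ℕ} {D : Dec N k} {bp : ∀ p, ColorBasis (k p)}
  {G : GammaNine}
  {Ff : κ → Type*} [∀ p, NormedAddCommGroup (Ff p)] [∀ p, InnerProductSpace ℂ (Ff p)]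
  [∀ p, FiniteDimensional ℂ (Ff p)]
  {Mb : ∀ p, FermionRep (k p) (Ff p)} (Rb : ∀ p, GaugeAction (bp p) (Mb p)) {Ω : ∀ p, Ff p}
  (hΩ : ∀ p, IsGVac (Mb p) G (Ω p)) (h1 : ∀ p, ‖Ω p‖ = 1)
  {g : SU N} {h : ∀ p, SU (k p)}

theorem te_adV_emb (H : StK D g h) (p : κ) (x : W16 (k p)) :
    te (adV b g) (te (D.emb b bp p) x) = te (D.emb b bp p) (te (adV (bp p) (h p)) x) := by
  refine ext_row fun β => ?_
  rw [row_te, row_te, row_te, row_te, H.adV_emb]

/-- `ρ(g) θ(ε_p x) = θ(ε_p Ad(h_p) x) ρ(g)`. -/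
theorem rho_cr_emb (H : StK D g h) (p : κ) (x : W16 (k p)) (f : F) :
    R.ρ g ((cr M).θ (te (D.emb b bp p) x) f) =
      (cr M).θ (te (D.emb b bp p) (te (adV (bp p) (h p)) x)) (R.ρ g f) := by
  rw [rho_cr, te_adV_emb H]

/-- The vacuum space of one block is stable under the block group. -/
theorem _root_.Crest.Agent.R330.Stab2973.StK.rho_vacB (H : StK D g h) (p : κ) {w : F}
    (hw : w ∈ vacB M G (D.emb b bp p)) : R.ρ g w ∈ vacB M G (D.emb b bp p) := by
  rw [mem_vacB] at hw ⊢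
  intro x
  obtain ⟨y, rfl⟩ := te_surjective (adV_surjective (bp p) (h p)) x
  rw [← rho_cr_emb R H, hw, map_smul, ← te_GJ, ← rho_cr_emb R H]

/-- **The vacuum space is stable under the block group.** -/
theorem _root_.Crest.Agent.R330.Stab2973.StK.rho_mem (H : StK D g h) {w : F}
    (hw : w ∈ vacD b M D bp G) : R.ρ g w ∈ vacD b M D bp G := by
  rw [mem_vacD] at hw ⊢
  exact fun p => H.rho_vacB R p (hw p)

/-- **(St3), the block group**: `ρ(g) pr f w = pr (ρ_p(h_p) f_p) (ρ(g) w)`. -/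
theorem _root_.Crest.Agent.R330.Stab2973.StK.rho_pr (H : StK D g h) {l : List κ} (hl : l.Nodup)
    (f : ∀ p, Ff p) {w : F} (hw : w ∈ vacD b M D bp G) :
    R.ρ g (prD b M D bp hΩ h1 l f w) =
      prD b M D bp hΩ h1 l (fun p => (Rb p).ρ (h p) (f p)) (R.ρ g w) := by
  have h2 := pr_lift (fun p => polG (hΩ p) (h1 p)) (cr M) (e := fun p => te (D.emb b bp p))
    (U := R.ρ g) (σ := id) (O := fun p => te (adV (bp p) (h p))) (Up := fun p => (Rb p).ρ (h p))
    (te_emb_orth b D bp) (fun p => te_surjective (adV_surjective (bp p) (h p)))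
    (fun p => rho_injective (Rb p) (h p)) (fun p x f => rho_cr_emb R H p x f)
    (fun p x f => rho_cr (Rb p) (h p) x f) (fun p => gvac_fix (Rb p) (hΩ p) (h p)) hl
    (f := f) (g := fun p => (Rb p).ρ (h p) (f p)) (fun p _ => rfl) hw
  rw [List.map_id] at h2
  exact h2

/-- **(St3), the block group, for gauge covariant factors.** -/
theorem _root_.Crest.Agent.R330.Stab2973.StK.rho_core (H : StK D g h) {l : List κ}
    (hl : l.Nodup) {φ : ∀ p, Cfg (k p) → Ff p}
    (hφ : ∀ p (c : SU (k p)) y, φ p ((bp p).act c y) = (Rb p).ρ c (φ p y))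
    (Y : ∀ p, Cfg (k p)) {w : F} (hw : w ∈ vacD b M D bp G) :
    R.ρ g (prD b M D bp hΩ h1 l (fun p => φ p (Y p)) w) =
      prD b M D bp hΩ h1 l (fun p => φ p ((bp p).act (h p) (Y p))) (R.ρ g w) := by
  rw [H.rho_pr R Rb hΩ h1 hl _ hw]
  simp only [hφ]

end stk

/-! ### 4. Permutations -/

section stw

variable {N : ℕ} {F : Type*} [NormedAddCommGroup F] [InnerProductSpace ℂ F]
  [FiniteDimensional ℂ F] {b : ColorBasis N} {M : FermionRep N F} (R : GaugeAction b M)
  {κ : Type*} [Fintype κ] {k : κ → ℕ} {D : Dec N k} (bb : ∀ n, ColorBasis n)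
  {G : GammaNine}
  {Fk : ℕ → Type*} [∀ n, NormedAddCommGroup (Fk n)] [∀ n, InnerProductSpace ℂ (Fk n)]
  [∀ n, FiniteDimensional ℂ (Fk n)]
  {Mk : ∀ n, FermionRep n (Fk n)} {Ω : ∀ n, Fk n}
  (hΩ : ∀ n, IsGVac (Mk n) G (Ω n)) (h1 : ∀ n, ‖Ω n‖ = 1)
  {w : SU N} {σ : Equiv.Perm κ} {hσ : ∀ p, k (σ p) = k p}

/-- Transport of spinor-colour vectors. -/
def castW {n n' : ℕ} (h : n = n') (x : W16 n) : W16 n' := h ▸ x

theorem row_castW {n n' : ℕ} (h : n = n') (β : Fin 16) (x : W16 n) :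
    row β (castW h x) = castV h (row β x) := by
  subst h
  rfl

theorem castW_surjective {n n' : ℕ} (h : n = n') : Function.Surjective (castW h) := by
  subst h
  exact Function.surjective_id

theorem castW_GJ {n n' : ℕ} (h : n = n') (x : W16 n) :
    castW h (GJ G n x) = GJ G n' (castW h x) := by
  subst h
  rfl

/-- Transport of fermion vectors. -/
def castF {n n' : ℕ} (h : n = n') : Fk n →ₗ[ℂ] Fk n' where
  toFun f := h ▸ f
  map_add' x y := by subst h; rfl
  map_smul' c x := by subst h; rfl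

theorem castF_rfl {n : ℕ} (f : Fk n) : castF rfl f = f := rfl

theorem castF_injective {n n' : ℕ} (h : n = n') :
    Function.Injective (castF h : Fk n →ₗ[ℂ] Fk n') := by
  subst h
  exact Function.injective_id

theorem castF_th {n n' : ℕ} (h : n = n') (x : W16 n) (f : Fk n) :
    castF h ((cr (Mk n)).θ x f) = (cr (Mk n')).θ (castW h x) (castF h f) := by
  subst h
  rfl

theorem castF_fun {n n' : ℕ} (h : n = n') (φ : ∀ n, Cfg n → Fk n) (y : Cfg n) :
    castF h (φ n y) = φ n' (castY h y) := by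
  subst h
  rfl

theorem castF_const {n n' : ℕ} (h : n = n') (Ω : ∀ n, Fk n) :
    castF h (Ω n) = Ω n' := by
  subst h
  rfl

theorem te_adV_emb_perm (H : StW D w σ hσ) (p : κ) (x : W16 (k p)) :
    te (adV b w) (te (D.emb b (fun p => bb (k p)) p) x) =
      te (D.emb b (fun p => bb (k p)) (σ p)) (castW (hσ p).symm x) := by
  refine ext_row fun β => ?_
  rw [row_te, row_te, row_te, row_castW, H.adV_emb]

/-- `ρ(w) θ(ε_p x) = θ(ε_{σ p} x) ρ(w)`. -/
theorem rho_cr_emb_perm (H : StW D w σ hσ) (p : κ) (x : W16 (k p)) (f : F) :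
    R.ρ w ((cr M).θ (te (D.emb b (fun p => bb (k p)) p) x) f) =
      (cr M).θ (te (D.emb b (fun p => bb (k p)) (σ p)) (castW (hσ p).symm x)) (R.ρ w f) := by
  rw [rho_cr, te_adV_emb_perm bb H]

/-- **The vacuum space is stable under the block permutations.** -/
theorem _root_.Crest.Agent.R330.Stab2973.StW.rho_mem (H : StW D w σ hσ) {v : F}
    (hv : v ∈ vacD b M D (fun p => bb (k p)) G) :
    R.ρ w v ∈ vacD b M D (fun p => bb (k p)) G := by
  rw [mem_vacD] at hv ⊢
  intro q
  obtain ⟨p, rfl⟩ := σ.surjective q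
  have h2 := hv p
  rw [mem_vacB] at h2 ⊢
  intro x
  obtain ⟨y, rfl⟩ := castW_surjective (hσ p).symm x
  rw [← rho_cr_emb_perm R bb H, h2, map_smul, ← castW_GJ, ← rho_cr_emb_perm R bb H]

/-- **(St3), permutations**, before reordering. -/
theorem _root_.Crest.Agent.R330.Stab2973.StW.rho_pr (H : StW D w σ hσ) {l : List κ}
    (hl : l.Nodup) {f g : ∀ p, Fk (k p)} (hg : ∀ p ∈ l, g (σ p) = castF (hσ p).symm (f p))
    {v : F} (hv : v ∈ vacD b M D (fun p => bb (k p)) G) :
    R.ρ w (prD b M D (fun p => bb (k p)) (fun p => hΩ (k p)) (fun p => h1 (k p)) l f v) =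
      prD b M D (fun p => bb (k p)) (fun p => hΩ (k p)) (fun p => h1 (k p)) (l.map σ) g
        (R.ρ w v) :=
  pr_lift (fun p => polG (hΩ (k p)) (h1 (k p))) (cr M)
    (e := fun p => te (D.emb b (fun p => bb (k p)) p))
    (U := R.ρ w) (σ := σ) (O := fun p => castW (hσ p).symm) (Up := fun p => castF (hσ p).symm)
    (te_emb_orth b D _) (fun p => castW_surjective _) (fun p => castF_injective _)
    (fun p x f => rho_cr_emb_perm R bb H p x f) (fun p x f => castF_th _ x f)
    (fun p => castF_const _ Ω) hl hg hv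

/-- **(St3), permutations**, for even factors: the order of the factors plays no role. -/
theorem _root_.Crest.Agent.R330.Stab2973.StW.rho_pr_even (H : StW D w σ hσ) {l : List κ}
    (hl : l.Nodup) (hlσ : (l.map σ).Perm l) {f g : ∀ p, Fk (k p)}
    (hg : ∀ p, g (σ p) = castF (hσ p).symm (f p))
    (hev : ∀ p, parD (Mb := fun p => Mk (k p)) (fun p => hΩ (k p)) (fun p => h1 (k p)) p (g p) =
      g p)
    {v : F} (hv : v ∈ vacD b M D (fun p => bb (k p)) G) :
    R.ρ w (prD b M D (fun p => bb (k p)) (fun p => hΩ (k p)) (fun p => h1 (k p)) l f v) =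
      prD b M D (fun p => bb (k p)) (fun p => hΩ (k p)) (fun p => h1 (k p)) l g
        (R.ρ w v) := by
  rw [H.rho_pr R bb hΩ h1 hl (fun p _ => hg p) hv]
  exact pr_perm (fun p => polG (hΩ (k p)) (h1 (k p))) (cr M) (te_emb_orth b D _) hlσ
    ((List.nodup_map_iff σ.injective).2 hl) hev (H.rho_mem R bb hv)

theorem map_univ_perm (σ : Equiv.Perm κ) :
    ((Finset.univ : Finset κ).toList.map σ).Perm (Finset.univ : Finset κ).toList := by
  rw [List.perm_ext_iff_of_nodup ((List.nodup_map_iff σ.injective).2 (Finset.nodup_toList _))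
    (Finset.nodup_toList _)]
  intro q
  simp only [List.mem_map, Finset.mem_toList, Finset.mem_univ, true_and, iff_true]
  exact ⟨σ.symm q, σ.apply_symm_apply q⟩

/-- **(St3), permutations, for wave functions which depend only on the size of the block.** -/
theorem _root_.Crest.Agent.R330.Stab2973.StW.rho_core (H : StW D w σ hσ)
    {φ : ∀ n, Cfg n → Fk n} {Y Y' : ∀ p, Cfg (k p)}
    (hY : ∀ p, Y' (σ p) = castY (hσ p).symm (Y p))
    (hev : ∀ p, parD (Mb := fun p => Mk (k p)) (fun p => hΩ (k p)) (fun p => h1 (k p)) p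
      (φ (k p) (Y' p)) = φ (k p) (Y' p))
    {v : F} (hv : v ∈ vacD b M D (fun p => bb (k p)) G) :
    R.ρ w (prD b M D (fun p => bb (k p)) (fun p => hΩ (k p)) (fun p => h1 (k p))
        Finset.univ.toList (fun p => φ (k p) (Y p)) v) =
      prD b M D (fun p => bb (k p)) (fun p => hΩ (k p)) (fun p => h1 (k p))
        Finset.univ.toList (fun p => φ (k p) (Y' p)) (R.ρ w v) :=
  H.rho_pr_even R bb hΩ h1 (Finset.nodup_toList _) (map_univ_perm σ)
    (fun p => by rw [hY, castF_fun]) hev hv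

end stw

/-! ### 5. Configurations -/

section conf

open Crest.Agent.R330.SlA314 Crest.Agent.R330.SlB314

variable {N : ℕ} {b : ColorBasis N} {κ : Type*} [Fintype κ] {k : κ → ℕ} {D : Dec N k}

theorem mat_sum {ι : Type*} (s : Finset ι) (x : ι → Cfg N) (i : Fin 9) :
    mat b (∑ p ∈ s, x p) i = ∑ p ∈ s, mat b (x p) i := by
  classical
  induction s using Finset.induction_on with
  | empty =>
    have h := mat_smul b 0 (0 : Cfg N) i
    simpa using h
  | insert a s ha ih => rw [Finset.sum_insert ha, Finset.sum_insert ha, mat_add, ih]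

theorem act_sum' {ι : Type*} (s : Finset ι) (g : SU N) (x : ι → Cfg N) :
    b.act g (∑ p ∈ s, x p) = ∑ p ∈ s, b.act g (x p) := by
  apply mat_inj b
  intro i
  rw [mat_act, mat_sum, mat_sum, Finset.mul_sum, Finset.sum_mul]
  exact Finset.sum_congr rfl fun p _ => (mat_act b g (x p) i).symm

/-- **The block group on `Σ_p embCfg p (Y p)`.** -/
theorem _root_.Crest.Agent.R330.Stab2973.StK.act_sum {g : SU N} {h : ∀ p, SU (k p)}
    (H : StK D g h) (bp : ∀ p, ColorBasis (k p)) (Y : ∀ p, Cfg (k p)) :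
    b.act g (∑ p, D.embCfg b bp p (Y p)) = ∑ p, D.embCfg b bp p ((bp p).act (h p) (Y p)) := by
  rw [act_sum']
  exact Finset.sum_congr rfl fun p _ => H.act_embCfg b bp p (Y p)

/-- **The block permutations on `Σ_p embCfg p (Y p)`.** -/
theorem _root_.Crest.Agent.R330.Stab2973.StW.act_sum {w : SU N} {σ : Equiv.Perm κ}
    {hσ : ∀ p, k (σ p) = k p} (H : StW D w σ hσ) (bb : ∀ n, ColorBasis n)
    {Y Y' : ∀ p, Cfg (k p)} (hY : ∀ p, Y' (σ p) = castY (hσ p).symm (Y p)) :
    b.act w (∑ p, D.embCfg b (fun p => bb (k p)) p (Y p)) =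
      ∑ p, D.embCfg b (fun p => bb (k p)) p (Y' p) := by
  rw [act_sum', ← Equiv.sum_comp σ fun p => D.embCfg b (fun p => bb (k p)) p (Y' p)]
  refine Finset.sum_congr rfl fun p _ => ?_
  rw [H.act_embCfg bb b, hY]

/-- The permuted family of configurations. -/
def permY (σ : Equiv.Perm κ) (hσ : ∀ p, k (σ p) = k p) (Y : ∀ p, Cfg (k p)) : ∀ p, Cfg (k p) :=
  fun q => castY (by rw [← hσ (σ.symm q), Equiv.apply_symm_apply]) (Y (σ.symm q))

theorem permY_apply (σ : Equiv.Perm κ) (hσ : ∀ p, k (σ p) = k p) (Y : ∀ p, Cfg (k p)) (p : κ) :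
    permY σ hσ Y (σ p) = castY (hσ p).symm (Y p) := by
  have h : ∀ (q : κ) (hq : q = p) (h1 : k q = k (σ p)), castY h1 (Y q) =
      castY (hσ p).symm (Y p) := by
    intro q hq h1
    subst hq
    rfl
  exact h _ (Equiv.symm_apply_apply σ p) _

end conf

end Crest.Agent.R330.Stab3973

end
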