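import Crest.Agent.R330.PsiGeo_477
import Crest.Agent.R330.Stab3_973
import Crest.Agent.R330.Pkg3_915
import Crest.Agent.R330.TDefB_414
import Crest.Agent.R330.Exist_973

/-!
# Row 330, S8-PSI (helper477): the literal block state, definitions

* `LinkCov C k bn ε` : the gauge transformations between regular positions permute the blocks and
  act inside the blocks; every block gauge transformation is one of them.
* `Fml bn Mn Rn G k` : small data indexed by the size: reference vacua `Ω`, ground states `ψ`,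
  approximants `φ g` with 915's `Fam`, constants `C`, `g0`; `exists_fml`.
* `Fml.D` : the block data; `Fml.Psi T ε ho g u` : **the block state**; `Fml.s` : its radius.
* `Fml.Psi_iB`, `Fml.Psi_iBe` : on the block part it is `BD.psi`.
* `Link.qblkB_iBe` : the block charges of functions on `C.Blk`.
-/

set_option autoImplicit false
set_option linter.unusedSectionVars false

open MeasureTheory Filter Topology Crest.MathPhysics.MatrixQM
open scoped ContDiff InnerProductSpace ENNReal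

noncomputable section

namespace Crest.Agent.R330.Psi477

open Crest.Agent.R330.Cliff442 Crest.Agent.R330.Fact161 Crest.Agent.R330.FactI161
open Crest.Agent.R330.Bind6839 Crest.Agent.R330.Defs478 Crest.Agent.R330.SInd478
open Crest.Agent.R330.Pkg915 Crest.Agent.R330.LS839 Crest.Agent.R330.TDef414
open Crest.Agent.R330.Frame839 Crest.Agent.R330.IBP837 Crest.Agent.R330.TCore944
open Crest.Agent.R330.Stab2973 (castV castY)

variable {N p : ℕ} {b : ColorBasis N} {S : Type} [Group S] [Fintype S]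
  {κ : Type*} [Fintype κ] [DecidableEq κ] {k : κ → ℕ}

/-- Gauge transformations between regular positions, in the blocks. -/
structure LinkCov (C : Chn b p S) (k : κ → ℕ) (bn : ∀ n, ColorBasis n)
    (ε : ∀ q, Colg (k q) →ₗᵢ[ℝ] Colg N) : Prop where
  /-- every gauge transformation between regular positions permutes blocks of equal sizes and acts
  by `SU(k q)` inside -/
  cov : ∀ (h : Matrix.specialUnitaryGroup (Fin N) ℂ) (X X' : Pos p), C.Reg X → C.Reg X' →
    b.act h (C.cf X) = C.cf X' → ∃ (σ : Equiv.Perm κ) (hσ : ∀ q, k (σ q) = k q)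
      (a : ∀ q, Matrix.specialUnitaryGroup (Fin (k q)) ℂ), ∀ q (u : Colg (k q)),
        adC b h (ε q u) = ε (σ q) (castV (hσ q).symm (adC (bn (k q)) (a q) u))
  /-- every gauge transformation of a block fixes the positions and the other blocks -/
  iota : ∀ q (a : Matrix.specialUnitaryGroup (Fin (k q)) ℂ),
    ∃ h : Matrix.specialUnitaryGroup (Fin N) ℂ, (∀ X, b.act h (C.cf X) = C.cf X) ∧
      (∀ u, adC b h (ε q u) = ε q (adC (bn (k q)) a u)) ∧
      ∀ q', q' ≠ q → ∀ u, adC b h (ε q' u) = ε q' u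

variable {Fn : ℕ → Type} [∀ n, NormedAddCommGroup (Fn n)] [∀ n, InnerProductSpace ℂ (Fn n)]
  [∀ n, FiniteDimensional ℂ (Fn n)]

/-- The small data, indexed by the size of the block. -/
structure Fml (bn : ∀ n, ColorBasis n) (Mn : ∀ n, FermionRep n (Fn n))
    (Rn : ∀ n, GaugeAction (bn n) (Mn n)) (G : GammaNine) (k : κ → ℕ) where
  /-- reference vacua -/
  Ω : ∀ n, Fn n
  isv : ∀ n, IsGVac (Mn n) G (Ω n)
  nm : ∀ n, ‖Ω n‖ = 1
  /-- ground states -/
  ψ : ∀ n, Cfg n → Fn n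
  ground : ∀ q, Ground (bn (k q)) (Mn (k q)) (Rn (k q)) G (ψ (k q))
  /-- approximants at coupling `g` -/
  φ : ℝ → ∀ n, Cfg n → Fn n
  /-- constant -/
  K : ℝ
  /-- first coupling -/
  g0 : ℝ
  hK : 0 < K
  hg0 : 1 ≤ g0
  fam : ∀ g, g0 ≤ g → ∀ q, Fam (bn (k q)) (Rn (k q)) G (ψ (k q)) K g (φ g (k q))

variable {bn : ∀ n, ColorBasis n} {Mn : ∀ n, FermionRep n (Fn n)}
  {Rn : ∀ n, GaugeAction (bn n) (Mn n)} {G : GammaNine}

theorem fam_mono {N : ℕ} {F : Type*} [NormedAddCommGroup F] [InnerProductSpace ℂ F]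
    [FiniteDimensional ℂ F] {b : ColorBasis N} {M : FermionRep N F} {R : GaugeAction b M}
    {ψ φ : Cfg N → F} {C C' g : ℝ} (hg : 0 ≤ g) (h : Fam b R G ψ C g φ) (hC : C ≤ C') :
    Fam b R G ψ C' g φ where
  core := h.core
  supp := h.supp
  even := h.even
  norm := h.norm
  err := h.err.trans (by gcongr)
  mom2 := h.mom2.trans (by gcongr)
  mom4 := h.mom4.trans (by gcongr)
  q0 := h.q0.trans (by gcongr)
  qm m := (h.qm m).trans (by gcongr)
  grad0 := h.grad0.trans (by gcongr)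
  grad2 := h.grad2.trans hC

/-- **The small data exist** as soon as there are ground states for all sizes of the blocks. -/
theorem exists_fml [∀ n, Nontrivial (Fn n)] (bn : ∀ n, ColorBasis n)
    (Mn : ∀ n, FermionRep n (Fn n)) (Rn : ∀ n, GaugeAction (bn n) (Mn n)) (G : GammaNine)
    (k : κ → ℕ) (hS : ∀ q, SInd (k q)) : Nonempty (Fml bn Mn Rn G k) := by
  classical
  have h1 : ∀ n, ∃ Ω : Fn n, ‖Ω‖ = 1 ∧ IsGVac (Mn n) G Ω := fun n => exists_gvac (Mn n) G
  choose Ω hΩ1 hΩ2 using h1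
  have h2 : ∀ n, ∃ ψ : Cfg n → Fn n, (∃ q, k q = n) → Ground (bn n) (Mn n) (Rn n) G ψ := by
    intro n
    by_cases hn : ∃ q, k q = n
    · obtain ⟨q, rfl⟩ := hn
      obtain ⟨ψ, hψ⟩ := hS q (Fn (k q)) (bn (k q)) (Mn (k q)) (Rn (k q)) G
      exact ⟨ψ, fun _ => hψ⟩
    · exact ⟨0, fun h => absurd h hn⟩
  choose ψ hψ using h2
  have h3 : ∀ n, ∃ (C g₀ : ℝ), 0 < C ∧ 1 ≤ g₀ ∧ ∀ g, g₀ ≤ g → ∃ φ : Cfg n → Fn n,
      (∃ q, k q = n) → Fam (bn n) (Rn n) G (ψ n) C g φ := by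
    intro n
    by_cases hn : ∃ q, k q = n
    · obtain ⟨C, g₀, hC, hg, hf⟩ := ground_family (hψ n hn)
      refine ⟨C, g₀, hC, hg, fun g hgg => ?_⟩
      obtain ⟨φ, hφ⟩ := hf g hgg
      exact ⟨φ, fun _ => hφ⟩
    · exact ⟨1, 1, one_pos, le_rfl, fun g _ => ⟨0, fun h => absurd h hn⟩⟩
  choose C g₀ hC hg₀ hf using h3
  have h4 : ∀ (g : ℝ) (n : ℕ), ∃ φ : Cfg n → Fn n, g₀ n ≤ g → (∃ q, k q = n) →
      Fam (bn n) (Rn n) G (ψ n) (C n) g φ := by
    intro g n
    by_cases hg : g₀ n ≤ g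
    · obtain ⟨φ, hφ⟩ := hf n g hg
      exact ⟨φ, fun _ => hφ⟩
    · exact ⟨0, fun h => absurd h hg⟩
  choose φ hφ using h4
  refine ⟨⟨Ω, hΩ2, hΩ1, ψ, fun q => hψ _ ⟨q, rfl⟩, φ, 1 + ∑ q, C (k q), 1 + ∑ q, g₀ (k q), ?_, ?_,
    fun g hg q => ?_⟩⟩
  · have := Finset.sum_nonneg fun (q : κ) (_ : q ∈ Finset.univ) => (hC (k q)).le
    linarith
  · have := Finset.sum_nonneg fun (q : κ) (_ : q ∈ Finset.univ) =>
      zero_le_one.trans (hg₀ (k q))
    linarith
  · have e1 : C (k q) ≤ ∑ q, C (k q) :=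
      Finset.single_le_sum (f := fun q => C (k q)) (fun q _ => (hC (k q)).le) (Finset.mem_univ q)
    have e2 : g₀ (k q) ≤ ∑ q, g₀ (k q) :=
      Finset.single_le_sum (f := fun q => g₀ (k q)) (fun q _ => zero_le_one.trans (hg₀ (k q)))
        (Finset.mem_univ q)
    have e3 : g₀ (k q) ≤ g := by linarith
    have e4 : 0 ≤ g := zero_le_one.trans ((hg₀ (k q)).trans e3)
    exact fam_mono e4 (hφ g (k q) e3 ⟨q, rfl⟩) (by linarith)

namespace Fml

variable (T : Fml bn Mn Rn G k) {F : Type*} [NormedAddCommGroup F] [InnerProductSpace ℂ F]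
  [FiniteDimensional ℂ F] {M : FermionRep N F} (ε : ∀ q, Colg (k q) →ₗᵢ[ℝ] Colg N)
  (ho : ∀ q q', q ≠ q' → ∀ u v, ⟪ε q u, ε q' v⟫_ℝ = 0)

variable (M) in
/-- The block data. -/
def D : BD M G k (fun q => Fn (k q)) where
  ε := ε
  ho := ho
  Mb q := Mn (k q)
  Ω q := T.Ω (k q)
  isv q := T.isv (k q)
  nm q := T.nm (k q)

/-- The factors at coupling `g`. -/
abbrev fac (g : ℝ) : ∀ q, Cfg (k q) → Fn (k q) := fun q => T.φ g (k q)

variable (M) in
/-- **The block state** at coupling `g`, a function on all configurations. -/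
def Psi (g : ℝ) (u : Cfg N) : F →L[ℂ] F :=
  open Classical in
  if T.g0 ≤ g then LinearMap.toContinuousLinearMap ((T.D M ε ho).psi (T.fac g) (iBT ε ho u)) else 0

/-- Its radius. -/
def s (g : ℝ) : ℝ :=
  open Classical in
  if T.g0 ≤ g then (1 + Fintype.card κ) * g ^ (-(1 / 6) : ℝ) else 1

variable {ε ho}

theorem Psi_of_le {g : ℝ} (hg : T.g0 ≤ g) (u : Cfg N) (f : F) :
    T.Psi M ε ho g u f = (T.D M ε ho).psi (T.fac g) (iBT ε ho u) f := by
  unfold Psi
  rw [if_pos hg]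
  rfl

theorem Psi_of_lt {g : ℝ} (hg : ¬ T.g0 ≤ g) (u : Cfg N) : T.Psi M ε ho g u = 0 := by
  unfold Psi
  rw [if_neg hg]

theorem Psi_iB {g : ℝ} (hg : T.g0 ≤ g) (Y : EY k) (f : F) :
    T.Psi M ε ho g (iB ε ho Y) f = (T.D M ε ho).psi (T.fac g) Y f := by
  rw [T.Psi_of_le hg, iBT_iB]

theorem s_of_le {g : ℝ} (hg : T.g0 ≤ g) :
    T.s g = (1 + Fintype.card κ) * g ^ (-(1 / 6) : ℝ) := by
  unfold s
  rw [if_pos hg]

theorem s_of_lt {g : ℝ} (hg : ¬ T.g0 ≤ g) : T.s g = 1 := by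
  unfold s
  rw [if_neg hg]

/-- The factors are even. -/
theorem fac_even {g : ℝ} (hg : T.g0 ≤ g) (q : κ) (y : Cfg (k q)) :
    (T.D M ε ho).Even q (T.fac g q y) :=
  (T.D M ε ho).even_of fun P hP => (T.fam g hg q).even P hP y

theorem fac_smooth {g : ℝ} (hg : T.g0 ≤ g) (q : κ) : ContDiff ℝ ∞ (T.fac g q) :=
  (T.fam g hg q).core.1

theorem fac_compact {g : ℝ} (hg : T.g0 ≤ g) (q : κ) : HasCompactSupport (T.fac g q) :=
  (T.fam g hg q).core.2.1

theorem fac_cov {g : ℝ} (hg : T.g0 ≤ g) (q : κ) (a : Matrix.specialUnitaryGroup (Fin (k q)) ℂ)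
    (y : Cfg (k q)) : T.fac g q ((bn (k q)).act a y) = (Rn (k q)).ρ a (T.fac g q y) :=
  (T.fam g hg q).core.2.2 a y

end Fml

section link

variable {C : Chn b p S} {bb : ∀ q, ColorBasis (k q)} {ε : ∀ q, Colg (k q) →ₗᵢ[ℝ] Colg N}
  {F : Type*} [NormedAddCommGroup F] [InnerProductSpace ℂ F] [FiniteDimensional ℂ F]
  {M : FermionRep N F} {Fb : κ → Type*} [∀ p, NormedAddCommGroup (Fb p)]
  [∀ p, InnerProductSpace ℂ (Fb p)] [∀ p, FiniteDimensional ℂ (Fb p)]

theorem Fml.Psi_iBe (T : Fml bn Mn Rn G k) (h : Link C k bb ε) {g : ℝ} (hg : T.g0 ≤ g) (Y : EY k)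
    (f : F) : T.Psi M ε h.ho g (h.iBe Y : C.Blk) f = (T.D M ε h.ho).psi (T.fac g) Y f := by
  rw [h.coe_iBe, T.Psi_iB hg]

/-- The block charges of functions on `C.Blk`. -/
theorem Link.qblkB_iBe (h : Link C k bb ε) (D : BD M G k Fb) (hD : D.ε = ε) (g : ℝ) (α : Fin 16)
    {w : C.Blk → F} {Y : EY k} (hw : DifferentiableAt ℝ w (h.iBe Y)) :
    qblkB M G g α w (h.iBe Y) = ∑ q, D.bch bb q α g 0 (fun Y => w (h.iBe Y)) Y := by
  -- extend `w` by the orthogonal projection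
  let f : Cfg N → F := fun u => w (h.iBe (iBT ε h.ho u))
  have hf : DifferentiableAt ℝ f (iB ε h.ho Y) := by
    have h1 : DifferentiableAt ℝ (fun u : Cfg N => h.iBe (iBT ε h.ho u)) (iB ε h.ho Y) := by
      have h2 : DifferentiableAt ℝ (fun Y : EY k => h.iBe Y) (iBT ε h.ho (iB ε h.ho Y)) :=
        h.iBe.toContinuousLinearEquiv.differentiableAt
      exact h2.comp _ (iBT ε h.ho).differentiableAt
    have h3 : DifferentiableAt ℝ w (h.iBe (iBT ε h.ho (iB ε h.ho Y))) := by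
      rw [iBT_iB]
      exact hw
    exact h3.comp (iB ε h.ho Y) h1
  have h4 := h.qblk_iB (M := M) (G := G) D hD g α hf
  have h5 : (fun Y : EY k => f (iB ε h.ho Y)) = fun Y => w (h.iBe Y) := by
    funext Y'
    simp only [f, iBT_iB]
  rw [h5] at h4
  rw [← h4]
  unfold qblkB qblk
  have h6 : f (iB ε h.ho Y) = w (h.iBe Y) := congrFun h5 Y
  have h7 : ∀ v : C.Blk, fderiv ℝ w (h.iBe Y) v = fderiv ℝ f (iB ε h.ho Y) (v : Cfg N) := by
    intro v
    have h8 : HasFDerivAt (fun y : C.Blk => f (y : Cfg N))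
        ((fderiv ℝ f (iB ε h.ho Y)).comp C.Blk.subtypeL) (h.iBe Y) := by
      have h9 : HasFDerivAt f (fderiv ℝ f (iB ε h.ho Y)) ((h.iBe Y : C.Blk) : Cfg N) :=
        hf.hasFDerivAt
      exact h9.comp (h.iBe Y) C.Blk.subtypeL.hasFDerivAt
    have h10 : (fun y : C.Blk => f (y : Cfg N)) = w := by
      funext y
      obtain ⟨Y', rfl⟩ := h.iBe.surjective y
      exact congrFun h5 Y'
    rw [h10] at h8
    rw [h8.fderiv]
    rfl
  rw [h6, h.coe_iBe]
  congr 1
  exact Finset.sum_congr rfl fun n _ => by rw [h7]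

end link

end Crest.Agent.R330.Psi477

end
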