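import Crest.Agent.R330.HCoreY_735
import Crest.Agent.R330.Prod9_494
import Crest.Agent.R330.PsiDef_477
import Crest.Agent.R330.ChFlat_718

/-!
# Row 330 (helper735): the core hypothesis of the product Hardy inequality, final form

* `hcore_LY` : for 494's `LY D q`, `TY q` and a function on `C.Blk` as in 414's `PsiHardy`.
* `hcore_Fml` : for the small data `T : Fml ..` of 477 and `LinkCov`.
-/

set_option autoImplicit false
set_option linter.unusedSectionVars false

open MeasureTheory Crest.MathPhysics.MatrixQM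
open scoped BigOperators InnerProductSpace ContDiff

noncomputable section

namespace Crest.Agent.R330.BlkNeut735

open Crest.Agent.R330.Cliff442 Crest.Agent.R330.Cliff442.CRep Crest.Agent.R330.Fact161
open Crest.Agent.R330.LS839 Crest.Agent.R330.Bind6839 Crest.Agent.R330.Defs478
open Crest.Agent.R330.SInd478 Crest.Agent.R330.FactI161 Crest.Agent.R330.TCore944
open Crest.Agent.R330.TDef414 Crest.Agent.R330.Psi477 Crest.Agent.R330.Prod494

section link

variable {N p : ℕ} {b : ColorBasis N} {S : Type} [Group S] [Fintype S] {C : Chn b p S}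
  {κ : Type*} [Fintype κ] [DecidableEq κ] {k : κ → ℕ} {bb : ∀ q, ColorBasis (k q)}
  {ε : ∀ q, Colg (k q) →ₗᵢ[ℝ] Colg N}
  {F : Type*} [NormedAddCommGroup F] [InnerProductSpace ℂ F] [FiniteDimensional ℂ F]
  {M : FermionRep N F} {R : GaugeAction b M} {G : GammaNine} {Fb : κ → Type*}
  [∀ p, NormedAddCommGroup (Fb p)] [∀ p, InnerProductSpace ℂ (Fb p)]
  [∀ p, FiniteDimensional ℂ (Fb p)]

/-- **The hypothesis `hcore`** of 494's product Hardy inequality. -/
theorem hcore_LY (h : Link C k bb ε) (hio : Io C bb ε) (D : BD M G k Fb) (hD : D.ε = ε)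
    (Rb : ∀ q, GaugeAction (bb q) (D.Mb q)) {w : C.Blk → F} (hw : ContDiff ℝ ∞ w)
    (hcs : HasCompactSupport w) (hv : ∀ Y, w Y ∈ C.Fl M G)
    (heq : ∀ (g : Matrix.specialUnitaryGroup (Fin N) ℂ) (X : Pos p), C.Reg X →
      b.act g (C.cf X) = C.cf X → ∀ Y Y' : C.Blk, (Y' : Cfg N) = b.act g Y →
        w Y' = R.ρ g (w Y)) (q : κ) (i : Fin (Module.finrank ℂ (vacB M G (D.ε q))))
    (x' : ↥(LinearMap.range (sgI (k := k) q).toLinearMap)ᗮ) :
    IsCoreVec (bb q) (Rb q) fun y => (LY D q).comp i (fib (TY q) (fun Y => w (h.iBe Y)) x' y) :=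
  hcore_Y h hio D hD Rb hw hcs hv heq
    (by
      obtain ⟨X, hX⟩ := ChFlat718.exists_breg (C := C)
      exact ⟨X, hX.reg⟩) q (TY q) (fun y => emb_ofEmb (sgI q) y) (WY D q) i x'

/-- The block gauge elements from 477's `LinkCov`. -/
theorem io_of_linkCov {bn : ∀ n, ColorBasis n} (hc : LinkCov C k bn ε) :
    Io C (fun q => bn (k q)) ε := hc.iota

end link

end Crest.Agent.R330.BlkNeut735

end
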