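import Crest.Agent.R330.Prod10_494
import Crest.Agent.R330.TDef_414

/-!
# Row 330 (helper494): the light Fock space is stable under the adjoints of the block operators

* `wadj_mem_vacOf` : `(wop f)^*` maps `vacOf M G Kᗮ` into itself if the block lies in `K`.
* `amp_mem_vacOf` : amplitudes of functions valued in `vacOf M G Kᗮ` lie there.
-/

set_option autoImplicit false
set_option linter.unusedSectionVars false

open MeasureTheory Filter Topology Crest.MathPhysics.MatrixQM
open scoped ContDiff InnerProductSpace ENNReal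

noncomputable section

namespace Crest.Agent.R330.Prod494

open Crest.Agent.R330.Cliff442 Crest.Agent.R330.Cliff442.CRep Crest.Agent.R330.Fact161
  Crest.Agent.R330.FactI161 Crest.Agent.R330.Psi477 Crest.Agent.R330.Defs478
  Crest.Agent.R330.LS839 Crest.Agent.R330.Bind6839 Crest.Agent.R330.TDef414

variable {N : ℕ} {F : Type*} [NormedAddCommGroup F] [InnerProductSpace ℂ F]
  [FiniteDimensional ℂ F] {κ : Type*} [Fintype κ] [DecidableEq κ] {k : κ → ℕ}
  {Fb : κ → Type*} [∀ p, NormedAddCommGroup (Fb p)] [∀ p, InnerProductSpace ℂ (Fb p)]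
  [∀ p, FiniteDimensional ℂ (Fb p)] {M : FermionRep N F} {G : GammaNine} (D : BD M G k Fb)

theorem thv_wadj (p : κ) (β : Fin 16) {u : Colg N} (hu : ∀ v, ⟪u, D.ε p v⟫_ℝ = 0) (f : Fb p)
    (w : F) : thv M β u (wadj (D.pol p) (cr M) (te (D.ε p)) f w) =
      wadj (D.pol p) (cr M) (te (D.ε p)) (par (D.pol p) f) (thv M β u w) := by
  have h := adj_wop_th (D.pol p) (cr M) (te (D.ε p)) (x := ins β u)
    (fun y => ins_orth hu β y) f w
  rw [cr_ins] at h
  exact h

theorem wadj_mem_vacOf {K : Submodule ℝ (Colg N)} (hK : ∀ p v, D.ε p v ∈ K) (p : κ) (f : Fb p)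
    (w : F) (hw : w ∈ vacOf M G Kᗮ) :
    wadj (D.pol p) (cr M) (te (D.ε p)) f w ∈ vacOf M G Kᗮ := by
  intro α u hu
  have hu' : ∀ v, ⟪u, D.ε p v⟫_ℝ = 0 := fun v => by
    rw [real_inner_comm]
    exact (Submodule.mem_orthogonal _ _).1 hu _ (hK p v)
  have h1 : gan M G α u (wadj (D.pol p) (cr M) (te (D.ε p)) f w) =
      wadj (D.pol p) (cr M) (te (D.ε p)) (par (D.pol p) f) (gan M G α u w) := by
    unfold gan
    simp only [LinearMap.sub_apply, LinearMap.smul_apply, LinearMap.sum_apply, thv_wadj D p _ hu']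
    unfold wadj
    rw [map_sub, map_smul, map_sum]
    simp only [map_smul]
  rw [h1, hw α u hu, wadj_zero]

/-- the amplitude of a function with values in the light Fock space -/
theorem amp_mem_vacOf {K : Submodule ℝ (Colg N)} (hK : ∀ p v, D.ε p v ∈ K)
    {ψ : ∀ p, Cfg (k p) → Fb p} {φ : EY k → F} (hφ : ∀ Y, φ Y ∈ vacOf M G Kᗮ) :
    amp D ψ φ ∈ vacOf M G Kᗮ :=
  amp_mem_sub D (vacOf M G Kᗮ) (fun p f w hw => wadj_mem_vacOf D hK p f w hw) hφ

end Crest.Agent.R330.Prod494

end
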