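import Crest.Agent.R330.Prod10_494
import Crest.Agent.R330.Prod11_494
import Crest.Agent.R330.HCoreZ_735
import Crest.Agent.R330.PsiDef_477

/-!
# Row 330 (helper450): the block Hardy property of the literal block state (C10)

* `psiHardy` : `PsiHardy P` for every `P` whose block state is 477's `T.Psi`.
-/

set_option autoImplicit false
set_option linter.unusedSectionVars false

open MeasureTheory Filter Topology Crest.MathPhysics.MatrixQM
open scoped ContDiff InnerProductSpace ENNReal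

noncomputable section

namespace Crest.Agent.R330.HBind450

open Crest.Agent.R330.Cliff442 Crest.Agent.R330.Cliff442.CRep Crest.Agent.R330.Fact161
  Crest.Agent.R330.FactI161 Crest.Agent.R330.Psi477 Crest.Agent.R330.Defs478
  Crest.Agent.R330.LS839 Crest.Agent.R330.Bind6839 Crest.Agent.R330.Prod494
  Crest.Agent.R330.TDef414 Crest.Agent.R330.SInd478 Crest.Agent.R330.Scale423
  Crest.Agent.R330.BlkNeut735 Crest.Agent.R330.Pkg915

variable {N p : ℕ} {b : ColorBasis N} {S : Type} [Group S] [Fintype S] {C : Chn b p S}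
  {κ : Type*} [Fintype κ] [DecidableEq κ] {k : κ → ℕ} {ε : ∀ q, Colg (k q) →ₗᵢ[ℝ] Colg N}
  {F : Type*} [NormedAddCommGroup F] [InnerProductSpace ℂ F] [FiniteDimensional ℂ F]
  {M : FermionRep N F} {R : GaugeAction b M} {G : GammaNine}
  {Fn : ℕ → Type} [∀ n, NormedAddCommGroup (Fn n)] [∀ n, InnerProductSpace ℂ (Fn n)]
  [∀ n, FiniteDimensional ℂ (Fn n)] {bn : ∀ n, ColorBasis n} {Mn : ∀ n, FermionRep n (Fn n)}
  {Rn : ∀ n, GaugeAction (bn n) (Mn n)}

/-- **The block Hardy property of the literal block state.** -/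
theorem psiHardy (T : Fml bn Mn Rn G k) (h : Link C k (fun q => bn (k q)) ε)
    (hc : LinkCov C k bn ε) (P : TPack C M R G) (hP : P.Psi = T.Psi M ε h.ho) : PsiHardy P := by
  obtain ⟨K, hK, h1⟩ := psi_hardy (D := T.D M ε h.ho) (bn := fun q => bn (k q))
    (Rn := fun q => Rn (k q)) (ψ₀ := fun q => T.ψ (k q)) T.ground
  refine ⟨K, hK, fun ε₀ hε₀ => ?_⟩
  -- the size of the perturbation
  have hlim : Tendsto (fun g : ℝ => K * √(T.K * g ^ (-(2 / 3) : ℝ))) atTop (𝓝 0) := by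
    have h2 : Tendsto (fun g : ℝ => g ^ (-(2 / 3) : ℝ)) atTop (𝓝 0) :=
      tendsto_rpow_neg_atTop (by norm_num)
    have h3 : Tendsto (fun g : ℝ => K * √(T.K * g ^ (-(2 / 3) : ℝ))) atTop
        (𝓝 (K * √(T.K * 0))) := ((h2.const_mul T.K).sqrt).const_mul K
    simpa using h3
  filter_upwards [hlim.eventually (gt_mem_nhds hε₀), eventually_ge_atTop T.g0,
    eventually_gt_atTop (0 : ℝ)] with g hg1 hg hg0 w hw hcs hv heq
  set D := T.D M ε h.ho with hD
  have hDe : D.ε = ε := rfl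
  set φ : ∀ q, Cfg (k q) → Fn (k q) := T.fac g with hφ
  set W : EY k → F := fun Y => w (h.iBe Y) with hW
  have hφ2 : ∀ q, MemLp (φ q) 2 volume := fun q =>
    (T.fac_smooth hg q).continuous.memLp_of_hasCompactSupport (T.fac_compact hg q)
  have hφ1 : ∀ q, ∫ y, ‖φ q y‖ ^ 2 = 1 := fun q => (T.fam g hg q).norm
  have hφe : ∀ q y, D.Even q (φ q y) := fun q y => T.fac_even hg q y
  have hWs : ContDiff ℝ ∞ W := hw.comp h.iBe.toContinuousLinearEquiv.contDiff
  have hWc : HasCompactSupport W := hcs.comp_homeomorph h.iBe.toHomeomorph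
  have hWv : ∀ Y, W Y ∈ C.Fl M G := fun Y => hv _
  set a := amp D φ W with ha
  have haF : a ∈ C.Fx M G := by
    rw [mem_Fx_iff M G ε C h.mem h.cen0 h.span]
    exact ⟨amp_mem_vacOf D h.mem hWv, amp_mem D W⟩
  have hPsi : ∀ (Y : EY k) (f : F), P.Psi g (h.iBe Y : C.Blk) f = D.psi φ Y f := fun Y f => by
    rw [hP]
    exact T.Psi_iBe h hg Y f
  refine ⟨a, ⟨haF, fun f hf => ?_⟩, fun δ hδ => ?_⟩
  · have hfW : f ∈ D.W := ((mem_Fx_iff M G ε C h.mem h.cen0 h.span).1 hf).2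
    rw [inner_amp D hφ2 hφ1 hφe hWs.continuous hWc hfW, h.integral_blk']
    simp only [hPsi]
    rfl
  · set η := √(T.K * g ^ (-(2 / 3) : ℝ)) with hη
    have hη0 : 0 ≤ η := Real.sqrt_nonneg _
    have hη2 : ∀ q, ∫ y, ‖φ q y - Us (g ^ ((1 : ℝ) / 3)) (T.ψ (k q)) y‖ ^ 2 ≤ η ^ 2 := fun q => by
      rw [hη, Real.sq_sqrt (mul_nonneg T.hK.le (Real.rpow_nonneg hg0.le _))]
      exact (T.fam g hg q).err
    have h2 := h1 g hg0 φ hφ2 hφ1 hφe η hη0 hη2 W (hWs.of_le (by norm_cast)) hWc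
      (fun q i x' => hcore_LY h (io_of_linkCov hc) D hDe (fun q => Rn (k q)) hw hcs hv heq q i x') δ
    -- transport
    have e1 : ∫ Y in Metric.closedBall (0 : C.Blk) δ, ‖w Y - P.Psi g Y a‖ ^ 2 =
        ∫ Y in h.iBe ⁻¹' Metric.closedBall (0 : C.Blk) δ, ‖W Y - D.psi φ Y a‖ ^ 2 := by
      have h3 := (h.iBe.measurePreserving).setIntegral_preimage_emb
        (h.iBe.toHomeomorph.measurableEmbedding) (fun Y : C.Blk => ‖w Y - P.Psi g Y a‖ ^ 2)
        (Metric.closedBall (0 : C.Blk) δ)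
      rw [← h3]
      simp only [hPsi]
      rfl
    have hsub : h.iBe ⁻¹' Metric.closedBall (0 : C.Blk) δ ⊆ {Y : EY k | ∀ q, ‖Y q‖ ≤ δ} := by
      intro Y hY q
      have h3 : ‖h.iBe Y‖ ≤ δ := mem_closedBall_zero_iff.1 hY
      rw [h.iBe.norm_map] at h3
      exact (PiLp.norm_apply_le Y q).trans h3
    have hI : Integrable fun Y : EY k => ‖W Y - D.psi φ Y a‖ ^ 2 := by
      have h3 : MemLp (fun Y : EY k => W Y - D.psi φ Y a) 2 volume :=
        (hWs.continuous.memLp_of_hasCompactSupport hWc).sub (memLp_psi D hφ2 (amp_mem D W))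
      exact (memLp_two_iff_integrable_sq_norm h3.1).1 h3
    have e2 : ∫ Y in h.iBe ⁻¹' Metric.closedBall (0 : C.Blk) δ, ‖W Y - D.psi φ Y a‖ ^ 2 ≤
        ∫ Y in {Y : EY k | ∀ q, ‖Y q‖ ≤ δ}, ‖W Y - D.psi φ Y a‖ ^ 2 :=
      setIntegral_mono_set hI.integrableOn (Eventually.of_forall fun Y => sq_nonneg _)
        (Eventually.of_forall hsub)
    have e3 : ∀ α, ∫ Y : C.Blk, ‖qblkB M G g α w Y‖ ^ 2 =
        ∫ Y : EY k, ‖∑ q, D.bch (fun q => bn (k q)) q α g 0 W Y‖ ^ 2 := fun α => by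
      rw [h.integral_blk']
      refine integral_congr_ae (Eventually.of_forall fun Y => ?_)
      simp only
      rw [h.qblkB_iBe D hDe g α ((hw.differentiable (by simp)) _)]
    have e4 : ∫ Y : C.Blk, ‖w Y‖ ^ 2 = ∫ Y : EY k, ‖W Y‖ ^ 2 := h.integral_blk' _
    have e5 : g ^ (-(2 : ℝ) / 3) = g ^ (-(2 / 3) : ℝ) := by
      congr 1
      norm_num
    rw [e5] at h2
    simp only [e3, e4]
    rw [e1]
    refine e2.trans (h2.trans ?_)
    have h5 : 0 ≤ ∫ Y : EY k, ‖W Y‖ ^ 2 := integral_nonneg fun Y => sq_nonneg _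
    have h6 : K * η * ∫ Y : EY k, ‖W Y‖ ^ 2 ≤ ε₀ * ∫ Y : EY k, ‖W Y‖ ^ 2 :=
      mul_le_mul_of_nonneg_right hg1.le h5
    linarith

end Crest.Agent.R330.HBind450

end
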