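import Crest.Agent.R330.FibProj_837

/-!
# Row 330, S9-PAIRING (helper424): core vectors against trial states on one slice

Coordinates `U × Z` (light directions, heavy directions), `gs (u,z)` the normalised Gaussian,
`om : U → F` the light part of the trial state, `om' : U → F` the exact one, `th` a multiplier close
to `1` (density quotient and cut-off), `Φ` a half density.

* `lint_close` : `∫⁻ ‖th gs om - gs om'‖² ≤ 4 C² (∫⁻ r²‖om‖² + κ ∫⁻ ‖om‖²) + 2 ∫⁻ ‖om - om'‖²`.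
* `norm_integral_inner_sub_le` : Cauchy-Schwarz for the pairings.
* `integral_inner_fpr` : `∫ ⟪gs om', Φ⟫ = ∫ ⟪om', w⟫`, `w = fpr gs p Φ`.
* `integral_inner_amp` : `∫ ⟪om', w⟫ = ∫ ⟪χ, a⟫` for the amplitude `a`.
* `pairing_tendsto` : all together, for sequences.
* `sqrt_quot_close` : the density quotient is close to `1`.
-/

set_option autoImplicit false
set_option linter.unusedSectionVars false

open MeasureTheory Filter Topology Set
open scoped ContDiff InnerProductSpace ENNReal NNReal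

noncomputable section

namespace Crest.Agent.R330.PairC424

open Crest.Agent.R330.FibProj837

/-! ## Closeness of the trial states -/

section close

variable {U Z : Type*} [MeasurableSpace U] [MeasurableSpace Z] {ν : Measure U} {μ : Measure Z}
  [SFinite ν] [SFinite μ]
  {F : Type*} [NormedAddCommGroup F] [InnerProductSpace ℂ F]

theorem enorm_sub_sq_le (a b : F) : ‖a - b‖ₑ ^ 2 ≤ 2 * ‖a‖ₑ ^ 2 + 2 * ‖b‖ₑ ^ 2 := by
  have h1 : ‖a - b‖ ^ 2 ≤ 2 * ‖a‖ ^ 2 + 2 * ‖b‖ ^ 2 := by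
    have h := norm_sub_le a b
    nlinarith [norm_nonneg (a - b), norm_nonneg a, norm_nonneg b, sq_nonneg (‖a‖ - ‖b‖)]
  have e : ∀ v : F, ‖v‖ₑ ^ 2 = ENNReal.ofReal (‖v‖ ^ 2) := fun v => by
    rw [← ofReal_norm, ENNReal.ofReal_pow (norm_nonneg _)]
  rw [e, e, e, show (2 : ℝ≥0∞) = ENNReal.ofReal 2 by simp,
    ← ENNReal.ofReal_mul (by norm_num), ← ENNReal.ofReal_mul (by norm_num),
    ← ENNReal.ofReal_add (by positivity) (by positivity)]
  exact ENNReal.ofReal_le_ofReal h1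

theorem enorm_add_sq_le (a b : F) : ‖a + b‖ₑ ^ 2 ≤ 2 * ‖a‖ₑ ^ 2 + 2 * ‖b‖ₑ ^ 2 := by
  have h := enorm_sub_sq_le a (-b)
  rwa [sub_neg_eq_add, enorm_neg] at h

theorem enorm_eq_ofReal (v : F) : ‖v‖ₑ ^ 2 = ENNReal.ofReal (‖v‖ ^ 2) := by
  rw [← ofReal_norm, ENNReal.ofReal_pow (norm_nonneg _)]

/-- pointwise bound of the difference of the trial states -/
theorem pt_close {t g : ℝ} {v v' : F} {C r s : ℝ}
    (h : g ≠ 0 → v ≠ 0 → |t - 1| ≤ C * (r + s)) :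
    ‖(t * g) • v - g • v'‖ₑ ^ 2 ≤
      ENNReal.ofReal (4 * C ^ 2) * (‖r • v‖ₑ ^ 2 * ENNReal.ofReal (g ^ 2) +
        ‖v‖ₑ ^ 2 * ENNReal.ofReal (s ^ 2 * g ^ 2)) +
      2 * (‖v - v'‖ₑ ^ 2 * ENNReal.ofReal (g ^ 2)) := by
  have h1 : ‖(t * g) • v - g • v'‖ ^ 2 ≤
      4 * C ^ 2 * (‖r • v‖ ^ 2 * g ^ 2 + ‖v‖ ^ 2 * (s ^ 2 * g ^ 2)) +
        2 * (‖v - v'‖ ^ 2 * g ^ 2) := by
    have e1 : (t * g) • v - g • v' = ((t - 1) * g) • v + g • (v - v') := by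
      rw [smul_sub, sub_mul, sub_smul, one_mul]; abel
    have h2 : ‖((t - 1) * g) • v‖ ^ 2 ≤ C ^ 2 * (r + s) ^ 2 * (g ^ 2 * ‖v‖ ^ 2) := by
      by_cases hg : g = 0
      · rw [hg]; simp
      by_cases hv : v = 0
      · rw [hv]; simp
      rw [norm_smul, mul_pow, Real.norm_eq_abs, sq_abs, mul_pow]
      have h3 := h hg hv
      have h4 : (t - 1) ^ 2 ≤ C ^ 2 * (r + s) ^ 2 := by
        rw [← sq_abs (t - 1), ← mul_pow]
        exact pow_le_pow_left₀ (abs_nonneg _) h3 2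
      calc (t - 1) ^ 2 * g ^ 2 * ‖v‖ ^ 2 = (t - 1) ^ 2 * (g ^ 2 * ‖v‖ ^ 2) := by ring
        _ ≤ _ := mul_le_mul_of_nonneg_right h4 (by positivity)
    have h5 : ‖g • (v - v')‖ ^ 2 = g ^ 2 * ‖v - v'‖ ^ 2 := by
      rw [norm_smul, mul_pow, Real.norm_eq_abs, sq_abs]
    have h6 : ‖r • v‖ ^ 2 = r ^ 2 * ‖v‖ ^ 2 := by
      rw [norm_smul, mul_pow, Real.norm_eq_abs, sq_abs]
    have h7 : ‖((t - 1) * g) • v + g • (v - v')‖ ^ 2 ≤
        2 * ‖((t - 1) * g) • v‖ ^ 2 + 2 * ‖g • (v - v')‖ ^ 2 := by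
      have h := norm_add_le (((t - 1) * g) • v) (g • (v - v'))
      nlinarith [norm_nonneg (((t - 1) * g) • v + g • (v - v')),
        norm_nonneg (((t - 1) * g) • v), norm_nonneg (g • (v - v')),
        sq_nonneg (‖((t - 1) * g) • v‖ - ‖g • (v - v')‖)]
    have h8 : (r + s) ^ 2 ≤ 2 * (r ^ 2 + s ^ 2) := by nlinarith [sq_nonneg (r - s)]
    rw [e1, h6]
    calc _ ≤ 2 * ‖((t - 1) * g) • v‖ ^ 2 + 2 * ‖g • (v - v')‖ ^ 2 := h7
      _ ≤ 2 * (C ^ 2 * (r + s) ^ 2 * (g ^ 2 * ‖v‖ ^ 2)) + 2 * (g ^ 2 * ‖v - v'‖ ^ 2) := by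
          rw [h5]
          linarith
      _ ≤ 2 * (C ^ 2 * (2 * (r ^ 2 + s ^ 2)) * (g ^ 2 * ‖v‖ ^ 2)) +
            2 * (g ^ 2 * ‖v - v'‖ ^ 2) := by
          gcongr
      _ = _ := by ring
  have e : ∀ (v : F) (a : ℝ), 0 ≤ a → ‖v‖ₑ ^ 2 * ENNReal.ofReal a =
      ENNReal.ofReal (‖v‖ ^ 2 * a) := fun v a ha => by
    rw [enorm_eq_ofReal, ← ENNReal.ofReal_mul (by positivity)]
  rw [e _ _ (sq_nonneg g), e _ _ (by positivity), e _ _ (sq_nonneg g),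
    ← ENNReal.ofReal_add (by positivity) (by positivity), ← ENNReal.ofReal_mul (by positivity),
    show (2 : ℝ≥0∞) = ENNReal.ofReal 2 by simp, ← ENNReal.ofReal_mul (by norm_num),
    ← ENNReal.ofReal_add (by positivity) (by positivity), enorm_eq_ofReal]
  exact ENNReal.ofReal_le_ofReal h1

/-- **`L²` closeness of the trial states.** -/
theorem lint_close {th gs : U × Z → ℝ} {om om' : U → F} {r : U → ℝ} {s : Z → ℝ} {C : ℝ}
    {κ : ℝ≥0∞}
    (hth : ∀ u z, gs (u, z) ≠ 0 → om u ≠ 0 → |th (u, z) - 1| ≤ C * (r u + s z))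
    (hgs : Measurable gs) (hrm : Measurable r) (hsm : Measurable s)
    (hom : AEStronglyMeasurable om ν) (hom' : AEStronglyMeasurable om' ν)
    (h1 : ∀ u, ∫⁻ z, ENNReal.ofReal (gs (u, z) ^ 2) ∂μ ≤ 1)
    (h2 : ∀ u, om u ≠ 0 → ∫⁻ z, ENNReal.ofReal (s z ^ 2 * gs (u, z) ^ 2) ∂μ ≤ κ) :
    ∫⁻ q, ‖(th q * gs q) • om q.1 - gs q • om' q.1‖ₑ ^ 2 ∂(ν.prod μ) ≤
      ENNReal.ofReal (4 * C ^ 2) * (∫⁻ u, ‖r u • om u‖ₑ ^ 2 ∂ν + κ * ∫⁻ u, ‖om u‖ₑ ^ 2 ∂ν) +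
        2 * ∫⁻ u, ‖om u - om' u‖ₑ ^ 2 ∂ν := by
  -- the bound
  set A : U × Z → ℝ≥0∞ := fun q => ‖r q.1 • om q.1‖ₑ ^ 2 * ENNReal.ofReal (gs q ^ 2) with hA
  set B : U × Z → ℝ≥0∞ := fun q => ‖om q.1‖ₑ ^ 2 * ENNReal.ofReal (s q.2 ^ 2 * gs q ^ 2) with hB
  set D : U × Z → ℝ≥0∞ := fun q => ‖om q.1 - om' q.1‖ₑ ^ 2 * ENNReal.ofReal (gs q ^ 2) with hD
  have hg1 : Measurable fun q : U × Z => ENNReal.ofReal (gs q ^ 2) :=
    (hgs.pow_const 2).ennreal_ofReal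
  have hg2 : Measurable fun q : U × Z => ENNReal.ofReal (s q.2 ^ 2 * gs q ^ 2) :=
    (((hsm.comp measurable_snd).pow_const 2).mul (hgs.pow_const 2)).ennreal_ofReal
  have hq : Measure.QuasiMeasurePreserving (Prod.fst : U × Z → U) (ν.prod μ) ν :=
    Measure.quasiMeasurePreserving_fst
  have m1 : AEMeasurable (fun q : U × Z => ‖r q.1 • om q.1‖ₑ ^ 2) (ν.prod μ) := by
    have := (hrm.aestronglyMeasurable (μ := ν)).smul hom
    exact ((this.enorm.pow_const 2).comp_quasiMeasurePreserving hq)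
  have m2 : AEMeasurable (fun q : U × Z => ‖om q.1‖ₑ ^ 2) (ν.prod μ) :=
    ((hom.enorm.pow_const 2).comp_quasiMeasurePreserving hq)
  have m3 : AEMeasurable (fun q : U × Z => ‖om q.1 - om' q.1‖ₑ ^ 2) (ν.prod μ) :=
    (((hom.sub hom').enorm.pow_const 2).comp_quasiMeasurePreserving hq)
  have mA : AEMeasurable A (ν.prod μ) := m1.mul hg1.aemeasurable
  have mB : AEMeasurable B (ν.prod μ) := m2.mul hg2.aemeasurable
  have mD : AEMeasurable D (ν.prod μ) := m3.mul hg1.aemeasurable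
  have hpt : ∀ q, ‖(th q * gs q) • om q.1 - gs q • om' q.1‖ₑ ^ 2 ≤
      ENNReal.ofReal (4 * C ^ 2) * (A q + B q) + 2 * D q := fun q =>
    pt_close (hth q.1 q.2)
  have f1 : ∀ u, Measurable fun z => ENNReal.ofReal (gs (u, z) ^ 2) := fun u =>
    hg1.comp measurable_prodMk_left
  have f2 : ∀ u, Measurable fun z => ENNReal.ofReal (s z ^ 2 * gs (u, z) ^ 2) := fun u =>
    hg2.comp measurable_prodMk_left
  have iA : ∫⁻ q, A q ∂(ν.prod μ) ≤ ∫⁻ u, ‖r u • om u‖ₑ ^ 2 ∂ν := by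
    rw [lintegral_prod _ mA]
    refine lintegral_mono fun u => ?_
    simp only [hA]
    rw [lintegral_const_mul _ (f1 u)]
    calc _ ≤ ‖r u • om u‖ₑ ^ 2 * 1 := by gcongr; exact h1 u
      _ = _ := mul_one _
  have iD : ∫⁻ q, D q ∂(ν.prod μ) ≤ ∫⁻ u, ‖om u - om' u‖ₑ ^ 2 ∂ν := by
    rw [lintegral_prod _ mD]
    refine lintegral_mono fun u => ?_
    simp only [hD]
    rw [lintegral_const_mul _ (f1 u)]
    calc _ ≤ ‖om u - om' u‖ₑ ^ 2 * 1 := by gcongr; exact h1 u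
      _ = _ := mul_one _
  have iB : ∫⁻ q, B q ∂(ν.prod μ) ≤ κ * ∫⁻ u, ‖om u‖ₑ ^ 2 ∂ν := by
    rw [lintegral_prod _ mB, ← lintegral_const_mul'' _ (hom.enorm.pow_const 2)]
    refine lintegral_mono fun u => ?_
    simp only [hB]
    rw [lintegral_const_mul _ (f2 u)]
    by_cases hu : om u = 0
    · simp [hu]
    · rw [mul_comm κ]
      gcongr
      exact h2 u hu
  calc ∫⁻ q, ‖(th q * gs q) • om q.1 - gs q • om' q.1‖ₑ ^ 2 ∂(ν.prod μ)
      ≤ ∫⁻ q, (ENNReal.ofReal (4 * C ^ 2) * (A q + B q) + 2 * D q) ∂(ν.prod μ) :=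
        lintegral_mono hpt
    _ = ENNReal.ofReal (4 * C ^ 2) * (∫⁻ q, A q ∂(ν.prod μ) + ∫⁻ q, B q ∂(ν.prod μ)) +
          2 * ∫⁻ q, D q ∂(ν.prod μ) := by
        have mAB : AEMeasurable (fun q => A q + B q) (ν.prod μ) := mA.add mB
        rw [lintegral_add_left' (mAB.const_mul _), lintegral_const_mul'' _ mAB,
          lintegral_add_left' mA, lintegral_const_mul'' _ mD]
    _ ≤ _ := by gcongr

end close

/-! ## Cauchy-Schwarz -/

section cs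

variable {S : Type*} [MeasurableSpace S] {σ : Measure S}
  {F : Type*} [NormedAddCommGroup F] [InnerProductSpace ℂ F] {f g Φ : S → F}

theorem integrable_inner (hf : MemLp f 2 σ) (hΦ : MemLp Φ 2 σ) :
    Integrable (fun x => ⟪f x, Φ x⟫_ℂ) σ :=
  (hf.norm.integrable_mul hΦ.norm).mono' (hf.1.inner hΦ.1)
    (Eventually.of_forall fun _ => norm_inner_le_norm _ _)

theorem norm_integral_inner_le (hf : MemLp f 2 σ) (hΦ : MemLp Φ 2 σ) :
    ‖∫ x, ⟪f x, Φ x⟫_ℂ ∂σ‖ ≤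
      Real.sqrt (∫ x, ‖f x‖ ^ 2 ∂σ) * Real.sqrt (∫ x, ‖Φ x‖ ^ 2 ∂σ) := by
  have h2 := integral_mul_le_Lp_mul_Lq_of_nonneg (μ := σ) (p := 2) (q := 2)
    (f := fun z => ‖f z‖) (g := fun z => ‖Φ z‖) Real.HolderConjugate.two_two
    (Eventually.of_forall fun _ => norm_nonneg _) (Eventually.of_forall fun _ => norm_nonneg _)
    (by simpa using hf.norm) (by simpa using hΦ.norm)
  simp only [Real.rpow_two] at h2
  rw [Real.sqrt_eq_rpow, Real.sqrt_eq_rpow]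
  refine ((norm_integral_le_integral_norm _).trans ?_).trans h2
  exact integral_mono_of_nonneg (Eventually.of_forall fun _ => norm_nonneg _)
    (hf.norm.integrable_mul hΦ.norm) (Eventually.of_forall fun _ => norm_inner_le_norm _ _)

theorem norm_integral_inner_sub_le (hf : MemLp f 2 σ) (hg : MemLp g 2 σ) (hΦ : MemLp Φ 2 σ) :
    ‖∫ x, ⟪f x, Φ x⟫_ℂ ∂σ - ∫ x, ⟪g x, Φ x⟫_ℂ ∂σ‖ ≤
      Real.sqrt (∫ x, ‖f x - g x‖ ^ 2 ∂σ) * Real.sqrt (∫ x, ‖Φ x‖ ^ 2 ∂σ) := by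
  rw [← integral_sub (integrable_inner hf hΦ) (integrable_inner hg hΦ)]
  simp only [← inner_sub_left]
  exact norm_integral_inner_le (hf.sub hg) hΦ

theorem lint_eq_ofReal (hf : MemLp f 2 σ) :
    ∫⁻ x, ‖f x‖ₑ ^ 2 ∂σ = ENNReal.ofReal (∫ x, ‖f x‖ ^ 2 ∂σ) := by
  rw [ofReal_integral_eq_lintegral_ofReal (hf.integrable_norm_pow (by norm_num))
    (Eventually.of_forall fun _ => by positivity)]
  simp only [enorm_eq_ofReal]

end cs

/-! ## The pairing estimate -/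

section pairing

variable {U Z : Type*} [MeasurableSpace U] [MeasurableSpace Z] {ν : Measure U} {μ : Measure Z}
  [SFinite ν] [SFinite μ]
  {F : Type*} [NormedAddCommGroup F] [InnerProductSpace ℂ F]

/-- `gs om` is square integrable on the product -/
theorem memLp_gs {gs : U × Z → ℝ} {om : U → F} (hgs : Measurable gs)
    (h1 : ∀ u, ∫⁻ z, ENNReal.ofReal (gs (u, z) ^ 2) ∂μ ≤ 1) (hom : MemLp om 2 ν) :
    MemLp (fun q => gs q • om q.1) 2 (ν.prod μ) := by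
  have hq : Measure.QuasiMeasurePreserving (Prod.fst : U × Z → U) (ν.prod μ) ν :=
    Measure.quasiMeasurePreserving_fst
  have hm : AEStronglyMeasurable (fun q : U × Z => gs q • om q.1) (ν.prod μ) :=
    hgs.aestronglyMeasurable.smul (hom.1.comp_quasiMeasurePreserving hq)
  refine ⟨hm, ?_⟩
  have hg1 : Measurable fun q : U × Z => ENNReal.ofReal (gs q ^ 2) :=
    (hgs.pow_const 2).ennreal_ofReal
  have f1 : ∀ u, Measurable fun z => ENNReal.ofReal (gs (u, z) ^ 2) := fun u =>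
    hg1.comp measurable_prodMk_left
  have m2 : AEMeasurable (fun q : U × Z => ‖om q.1‖ₑ ^ 2) (ν.prod μ) :=
    ((hom.1.enorm.pow_const 2).comp_quasiMeasurePreserving hq)
  have h3 : ∫⁻ q, ‖gs q • om q.1‖ₑ ^ 2 ∂(ν.prod μ) ≤ ∫⁻ u, ‖om u‖ₑ ^ 2 ∂ν := by
    have e : ∀ q : U × Z, ‖gs q • om q.1‖ₑ ^ 2 = ‖om q.1‖ₑ ^ 2 * ENNReal.ofReal (gs q ^ 2) := by
      intro q
      rw [enorm_eq_ofReal, enorm_eq_ofReal, ← ENNReal.ofReal_mul (by positivity), norm_smul,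
        mul_pow, Real.norm_eq_abs, sq_abs, mul_comm]
    simp only [e]
    have mm : AEMeasurable (fun q : U × Z => ‖om q.1‖ₑ ^ 2 * ENNReal.ofReal (gs q ^ 2))
      (ν.prod μ) := m2.mul hg1.aemeasurable
    rw [lintegral_prod _ mm]
    refine lintegral_mono fun u => ?_
    show ∫⁻ z, ‖om u‖ₑ ^ 2 * ENNReal.ofReal (gs (u, z) ^ 2) ∂μ ≤ _
    rw [lintegral_const_mul _ (f1 u)]
    calc _ ≤ ‖om u‖ₑ ^ 2 * 1 := by gcongr; exact h1 u
      _ = _ := mul_one _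
  have h4 : ∫⁻ u, ‖om u‖ₑ ^ 2 ∂ν < ⊤ := by
    rw [lint_eq_ofReal hom]
    exact ENNReal.ofReal_lt_top
  rw [eLpNorm_lt_top_iff_lintegral_rpow_enorm_lt_top (by norm_num) (by norm_num)]
  simpa using h3.trans_lt h4

/-- **The pairing estimate.** -/
theorem pairing_le {th gs : U × Z → ℝ} {om om' : U → F} {r : U → ℝ} {s : Z → ℝ} {C κ : ℝ}
    {Φ : U × Z → F} (hκ : 0 ≤ κ)
    (hth : ∀ u z, gs (u, z) ≠ 0 → om u ≠ 0 → |th (u, z) - 1| ≤ C * (r u + s z))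
    (hthm : Measurable th) (hgs : Measurable gs) (hrm : Measurable r) (hsm : Measurable s)
    (hom : MemLp om 2 ν) (hrom : MemLp (fun u => r u • om u) 2 ν) (hom' : MemLp om' 2 ν)
    (h1 : ∀ u, ∫⁻ z, ENNReal.ofReal (gs (u, z) ^ 2) ∂μ ≤ 1)
    (h2 : ∀ u, om u ≠ 0 →
      ∫⁻ z, ENNReal.ofReal (s z ^ 2 * gs (u, z) ^ 2) ∂μ ≤ ENNReal.ofReal κ)
    (hΦ : MemLp Φ 2 (ν.prod μ)) :
    ‖∫ q, ⟪(th q * gs q) • om q.1, Φ q⟫_ℂ ∂(ν.prod μ) -
        ∫ q, ⟪gs q • om' q.1, Φ q⟫_ℂ ∂(ν.prod μ)‖ ≤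
      Real.sqrt (4 * C ^ 2 * (∫ u, ‖r u • om u‖ ^ 2 ∂ν + κ * ∫ u, ‖om u‖ ^ 2 ∂ν) +
        2 * ∫ u, ‖om u - om' u‖ ^ 2 ∂ν) * Real.sqrt (∫ q, ‖Φ q‖ ^ 2 ∂(ν.prod μ)) := by
  have hcl := lint_close (ν := ν) (μ := μ) hth hgs hrm hsm hom.1 hom'.1 h1 h2
  have hg' : MemLp (fun q : U × Z => gs q • om' q.1) 2 (ν.prod μ) := memLp_gs hgs h1 hom'
  set K : ℝ := 4 * C ^ 2 * (∫ u, ‖r u • om u‖ ^ 2 ∂ν + κ * ∫ u, ‖om u‖ ^ 2 ∂ν) +
        2 * ∫ u, ‖om u - om' u‖ ^ 2 ∂ν with hK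
  have hA : 0 ≤ ∫ u, ‖r u • om u‖ ^ 2 ∂ν := integral_nonneg fun _ => by positivity
  have hB : 0 ≤ ∫ u, ‖om u‖ ^ 2 ∂ν := integral_nonneg fun _ => by positivity
  have hD : 0 ≤ ∫ u, ‖om u - om' u‖ ^ 2 ∂ν := integral_nonneg fun _ => by positivity
  have hsub : MemLp (fun u => om u - om' u) 2 ν := hom.sub hom'
  have hcl' : ∫⁻ q, ‖(th q * gs q) • om q.1 - gs q • om' q.1‖ₑ ^ 2 ∂(ν.prod μ) ≤
      ENNReal.ofReal K := by
    refine hcl.trans (le_of_eq ?_)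
    rw [lint_eq_ofReal hrom, lint_eq_ofReal hom, lint_eq_ofReal hsub,
      ← ENNReal.ofReal_mul hκ, ← ENNReal.ofReal_add hA (by positivity),
      ← ENNReal.ofReal_mul (by positivity), show (2 : ℝ≥0∞) = ENNReal.ofReal 2 by simp,
      ← ENNReal.ofReal_mul (by norm_num), ← ENNReal.ofReal_add (by positivity) (by positivity)]
  have hq : Measure.QuasiMeasurePreserving (Prod.fst : U × Z → U) (ν.prod μ) ν :=
    Measure.quasiMeasurePreserving_fst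
  have hm : AEStronglyMeasurable (fun q : U × Z => (th q * gs q) • om q.1) (ν.prod μ) :=
    (hthm.mul hgs).aestronglyMeasurable.smul (hom.1.comp_quasiMeasurePreserving hq)
  have hdm : AEStronglyMeasurable
      (fun q : U × Z => (th q * gs q) • om q.1 - gs q • om' q.1) (ν.prod μ) := hm.sub hg'.1
  have hd : MemLp (fun q : U × Z => (th q * gs q) • om q.1 - gs q • om' q.1) 2 (ν.prod μ) := by
    refine ⟨hdm, ?_⟩
    rw [eLpNorm_lt_top_iff_lintegral_rpow_enorm_lt_top (by norm_num) (by norm_num)]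
    simpa using hcl'.trans_lt ENNReal.ofReal_lt_top
  have hf : MemLp (fun q : U × Z => (th q * gs q) • om q.1) 2 (ν.prod μ) := by
    have := hd.add hg'
    refine this.ae_eq (Eventually.of_forall fun q => ?_)
    simp
  refine (norm_integral_inner_sub_le hf hg' hΦ).trans ?_
  refine mul_le_mul_of_nonneg_right (Real.sqrt_le_sqrt ?_) (Real.sqrt_nonneg _)
  have h5 := lint_eq_ofReal hd
  rw [h5] at hcl'
  exact (ENNReal.ofReal_le_ofReal_iff (by positivity)).1 hcl'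

/-- Fubini for the projection on the Gaussian -/
theorem integral_inner_fpr {gs : U × Z → ℝ} {p : U → F →ₗ[ℂ] F} {om' : U → F} {Φ : U × Z → F}
    [CompleteSpace F] (hgs : Measurable gs)
    (h1 : ∀ u, ∫⁻ z, ENNReal.ofReal (gs (u, z) ^ 2) ∂μ ≤ 1)
    (hom' : MemLp om' 2 ν) (hΦ : MemLp Φ 2 (ν.prod μ))
    (hfib : ∀ u, Integrable (fun z => gs (u, z) • Φ (u, z)) μ)
    (hp : ∀ u v w, ⟪p u v, w⟫_ℂ = ⟪v, p u w⟫_ℂ) (hfix : ∀ᵐ u ∂ν, p u (om' u) = om' u) :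
    ∫ q, ⟪gs q • om' q.1, Φ q⟫_ℂ ∂(ν.prod μ) = ∫ u, ⟪om' u, fpr μ gs p Φ u⟫_ℂ ∂ν := by
  rw [integral_prod _ (integrable_inner (memLp_gs hgs h1 hom') hΦ)]
  refine integral_congr_ae ?_
  filter_upwards [hfix] with u hu
  have e : ∀ z, ⟪gs (u, z) • om' u, Φ (u, z)⟫_ℂ = ⟪om' u, gs (u, z) • Φ (u, z)⟫_ℂ := by
    intro z
    rw [RCLike.real_smul_eq_coe_smul (K := ℂ), RCLike.real_smul_eq_coe_smul (K := ℂ), inner_smul_left,
      inner_smul_right, RCLike.conj_ofReal]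
  simp only [e]
  rw [integral_inner (hfib u)]
  unfold fpr
  rw [← hp, hu]

end pairing

/-! ## The amplitude -/

section amp

variable {X Y : Type*} [MeasurableSpace X] [MeasurableSpace Y] {νX : Measure X} {νY : Measure Y}
  [SFinite νX] [SFinite νY]
  {F : Type*} [NormedAddCommGroup F] [InnerProductSpace ℂ F]
  {Fx : Type*} [NormedAddCommGroup Fx] [InnerProductSpace ℂ Fx]

/-- the amplitude tested against `χ` -/
theorem integral_inner_amp {Λ : X → Y → Fx →ₗ[ℂ] F} {χ a : X → Fx} {w : X × Y → F}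
    (ha : ∀ x f, ⟪f, a x⟫_ℂ = ∫ y, ⟪Λ x y f, w (x, y)⟫_ℂ ∂νY)
    (hom : MemLp (fun u : X × Y => Λ u.1 u.2 (χ u.1)) 2 (νX.prod νY))
    (hw : MemLp w 2 (νX.prod νY)) :
    ∫ u : X × Y, ⟪Λ u.1 u.2 (χ u.1), w u⟫_ℂ ∂(νX.prod νY) = ∫ x, ⟪χ x, a x⟫_ℂ ∂νX := by
  rw [integral_prod _ (integrable_inner hom hw)]
  refine integral_congr_ae (Eventually.of_forall fun x => ?_)
  exact (ha x (χ x)).symm

end amp

/-! ## The density quotient -/

section quot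

variable {E : Type*} [NormedAddCommGroup E] [NormedSpace ℝ E]

/-- the quotient of the square roots of a positive Lipschitz density -/
theorem sqrt_quot_close {J : E → ℝ} {K : Set E} {L m : ℝ} (hm : 0 < m)
    (hJ : ∀ x ∈ K, m ≤ J x) (hL : ∀ x ∈ K, ∀ y ∈ K, |J x - J y| ≤ L * ‖x - y‖) {x y : E}
    (hx : x ∈ K) (hy : y ∈ K) : |Real.sqrt (J x) / Real.sqrt (J y) - 1| ≤ L / m * ‖x - y‖ := by
  have h1 : 0 < J x := hm.trans_le (hJ x hx)
  have h2 : 0 < J y := hm.trans_le (hJ y hy)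
  have s1 : Real.sqrt m ≤ Real.sqrt (J x) := Real.sqrt_le_sqrt (hJ x hx)
  have s2 : Real.sqrt m ≤ Real.sqrt (J y) := Real.sqrt_le_sqrt (hJ y hy)
  have sm : 0 < Real.sqrt m := Real.sqrt_pos.2 hm
  have hy0 : 0 < Real.sqrt (J y) := sm.trans_le s2
  have e : Real.sqrt (J x) / Real.sqrt (J y) - 1 =
      (J x - J y) / (Real.sqrt (J y) * (Real.sqrt (J x) + Real.sqrt (J y))) := by
    have h3 : J x - J y = (Real.sqrt (J x) - Real.sqrt (J y)) *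
        (Real.sqrt (J x) + Real.sqrt (J y)) := by
      have := Real.mul_self_sqrt h1.le
      have := Real.mul_self_sqrt h2.le
      nlinarith
    rw [h3]
    have h4 : Real.sqrt (J x) + Real.sqrt (J y) ≠ 0 := by positivity
    field_simp
  have hden : m ≤ Real.sqrt (J y) * (Real.sqrt (J x) + Real.sqrt (J y)) := by
    have h5 : Real.sqrt m * Real.sqrt m = m := Real.mul_self_sqrt hm.le
    calc m = Real.sqrt m * Real.sqrt m := h5.symm
      _ ≤ Real.sqrt (J y) * Real.sqrt (J y) := mul_le_mul s2 s2 sm.le hy0.le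
      _ ≤ _ := mul_le_mul_of_nonneg_left (by linarith [Real.sqrt_nonneg (J x)]) hy0.le
  have h6 := hL x hx y hy
  rw [e, abs_div, abs_of_pos (a := Real.sqrt (J y) * (Real.sqrt (J x) + Real.sqrt (J y)))
    (hm.trans_le hden), div_mul_eq_mul_div]
  exact div_le_div₀ ((abs_nonneg _).trans h6) h6 hm hden

end quot

end Crest.Agent.R330.PairC424

end
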