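import Crest.Agent.R330.LocB_8
import Crest.Agent.R330.PairT_245
import Crest.Agent.R330.KEq_823

/-!
# Row 330, S9-LOC (helper8): the fibre projection of a cut-off slice function

`κ : Sc b c → ℝ` smooth with compact support over regular positions, `Φ = half b c κ φ`,
`w u = pV (posu u) ∫ gs (u, z) Φ (u, z) dz`.

* `Cut σ κ` : the properties of the cut-off.
* `contDiff_half`, `hcs_half`.
* `wf P σ ρ κ g φ` : the fibre projection; `contDiff_wf`, `hcs_wf`, `wf_mem`, `wf_equiv`,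
  `wf_supp`.
* `wB` : in the coordinates `Pos p × C.Blk`.
-/

set_option autoImplicit false
set_option linter.unusedSectionVars false

open MeasureTheory Filter Topology Crest.MathPhysics.MatrixQM
open scoped ContDiff InnerProductSpace ENNReal

noncomputable section

namespace Crest.Agent.R330.LocC8

open Crest.Agent.R330.Defs478 Crest.Agent.R330.LS839 Crest.Agent.R330.Frame839
  Crest.Agent.R330.Clus839
  Crest.Agent.R330.Bind6839 Crest.Agent.R330.SlG944 Crest.Agent.R330.SlF944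
  Crest.Agent.R330.IBP837 Crest.Agent.R330.TDef414
  Crest.Agent.R330.LemA342 Crest.Agent.R330.FibProj837 Crest.Agent.R330.LocB8
  Crest.Agent.R330.SlQE87
open Crest.Agent.R330.SlB314 (Nor Tan br)
open Crest.Agent.R330.SlD314 (tube)
open Crest.Agent.R330.KEq823 (actU actZ)

variable {N p : ℕ} {b : ColorBasis N} {S : Type} [Group S] [Fintype S] {C : Chn b p S}
  {F : Type*} [NormedAddCommGroup F] [InnerProductSpace ℂ F] [FiniteDimensional ℂ F]
  {M : FermionRep N F} {R : GaugeAction b M} {G : GammaNine}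

/-- a cut-off over regular positions -/
structure Cut (σ : Sl C) (κ : Sc b (C.cf σ.X0) → ℝ) : Prop where
  smooth : ContDiff ℝ ∞ κ
  supp : HasCompactSupport κ
  breg : ∀ x ∈ tsupport κ, C.BReg (posu σ (x.1 : Cfg N))
  inv : ∀ (h : Matrix.specialUnitaryGroup (Fin N) ℂ) (hc : b.act h (C.cf σ.X0) = C.cf σ.X0)
    (u : Uk b (C.cf σ.X0)) (z : Zs b (C.cf σ.X0)), κ (actU hc u, actZ hc z) = κ (u, z)

section half

variable {c : Cfg N} {κ : Sc b c → ℝ} {φ : Cfg N → F}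

theorem contDiff_half {n : WithTop ℕ∞} (hκ : ContDiff ℝ n κ) (hφ : ContDiff ℝ n φ) :
    ContDiff ℝ n (half b c κ φ) := by
  unfold half
  refine hκ.smul (hφ.comp ?_)
  have h : (fun x : Sc b c => c + (x.1 : Cfg N) + (x.2 : Cfg N)) =
      fun x => c + slL b c x := by
    funext y
    rw [slL_apply, add_assoc]
  rw [h]
  exact contDiff_const.add (slL b c).contDiff

theorem hcs_half (hκ : HasCompactSupport κ) : HasCompactSupport (half b c κ φ) :=
  hκ.smul_right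

theorem half_eq_zero {x : Sc b c} (hx : κ x = 0) : half b c κ φ x = 0 := by
  unfold half
  rw [hx, zero_smul]

end half

/-- the fibre projection of the cut-off slice function -/
def wf (P : TPack C M R G) (σ : Sl C) (ρ : Pos p → Pos p) (κ : Sc b (C.cf σ.X0) → ℝ) (g : ℝ)
    (φ : Cfg N → F) : Uk b (C.cf σ.X0) → F :=
  fpr volume (gsl P σ ρ g) (fun u => pV P (posu σ (u : Cfg N))) (half b (C.cf σ.X0) κ φ)

/-- the integral over the fibre -/
def vf (P : TPack C M R G) (σ : Sl C) (ρ : Pos p → Pos p) (κ : Sc b (C.cf σ.X0) → ℝ) (g : ℝ)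
    (φ : Cfg N → F) : Uk b (C.cf σ.X0) → F :=
  fpr volume (gsl P σ ρ g) (fun _ => LinearMap.id) (half b (C.cf σ.X0) κ φ)

section wf

variable {P : TPack C M R G} {σ : Sl C} {ρ : Pos p → Pos p} {κ : Sc b (C.cf σ.X0) → ℝ} {g : ℝ}
  {φ : Cfg N → F}

theorem wf_eq (u : Uk b (C.cf σ.X0)) :
    wf P σ ρ κ g φ u = pV P (posu σ (u : Cfg N)) (vf P σ ρ κ g φ u) := rfl

/-- the base of the support -/
def bs (κ : Sc b (C.cf σ.X0) → ℝ) : Set (Uk b (C.cf σ.X0)) := Prod.fst '' tsupport κ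

theorem isCompact_bs (hκ : HasCompactSupport κ) : IsCompact (bs κ) := hκ.image continuous_fst

theorem kap_zero_of {u : Uk b (C.cf σ.X0)} (hu : u ∉ bs κ) (z : Zs b (C.cf σ.X0)) :
    κ (u, z) = 0 := by
  by_contra h
  exact hu ⟨(u, z), subset_tsupport _ h, rfl⟩

theorem vf_zero {u : Uk b (C.cf σ.X0)} (hu : u ∉ bs κ) : vf P σ ρ κ g φ u = 0 :=
  fpr_eq_zero fun z => half_eq_zero (kap_zero_of hu z)

theorem wf_zero {u : Uk b (C.cf σ.X0)} (hu : u ∉ bs κ) : wf P σ ρ κ g φ u = 0 := by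
  rw [wf_eq, vf_zero hu, map_zero]

theorem contDiff_vf (hρ : ContDiff ℝ ∞ ρ) (hr : ∀ X, ‖ρ X - σ.X0‖ < σ.r) (hκ : ContDiff ℝ ∞ κ)
    (hs : HasCompactSupport κ) (hφ : ContDiff ℝ ∞ φ) : ContDiff ℝ ∞ (vf P σ ρ κ g φ) :=
  contDiff_fpr (n := ⊤) (contDiff_gsl hρ hr g) (fun _ => contDiff_const) (contDiff_half hκ hφ)
    (hcs_half hs)

theorem contDiffAt_pV_apply {X : Pos p} (hX : C.BReg X) {E : Type*} [NormedAddCommGroup E]
    [NormedSpace ℝ E] {f : E → Pos p} {v : E → F} {x : E} (hf : ContDiffAt ℝ ∞ f x)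
    (hfx : f x = X) (hv : ContDiffAt ℝ ∞ v x) : ContDiffAt ℝ ∞ (fun y => pV P (f y) (v y)) x := by
  subst hfx
  set e := stdOrthonormalBasis ℂ F with he
  have h1 : (fun y => pV P (f y) (v y)) = fun y => ∑ k, ⟪e k, v y⟫_ℂ • pV P (f y) (e k) := by
    funext y
    conv_lhs => rw [← e.sum_repr' (v y)]
    rw [map_sum]
    exact Finset.sum_congr rfl fun k _ => map_smul _ _ _
  rw [h1]
  refine ContDiffAt.sum fun k _ => ?_
  exact (contDiffAt_const.inner ℂ hv).smul ((contDiffAt_pV P hX (e k)).comp x hf)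

theorem contDiff_wf (hρ : ContDiff ℝ ∞ ρ) (hr : ∀ X, ‖ρ X - σ.X0‖ < σ.r) (hκ : Cut σ κ)
    (hφ : ContDiff ℝ ∞ φ) : ContDiff ℝ ∞ (wf P σ ρ κ g φ) := by
  rw [contDiff_iff_contDiffAt]
  intro u
  by_cases hu : u ∈ bs κ
  · obtain ⟨x, hx, rfl⟩ := hu
    exact contDiffAt_pV_apply (hκ.breg x hx) (contDiff_posu σ).contDiffAt rfl
      (contDiff_vf hρ hr hκ.smooth hκ.supp hφ).contDiffAt
  · have hO : IsOpen (bs κ)ᶜ := (isCompact_bs hκ.supp).isClosed.isOpen_compl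
    refine (contDiffAt_const (c := (0 : F))).congr_of_eventuallyEq ?_
    filter_upwards [hO.mem_nhds hu] with y hy
    exact wf_zero hy

theorem hcs_wf (hs : HasCompactSupport κ) : HasCompactSupport (wf P σ ρ κ g φ) :=
  HasCompactSupport.intro (isCompact_bs hs) fun _ hu => wf_zero hu

theorem wf_mem (u : Uk b (C.cf σ.X0)) : wf P σ ρ κ g φ u ∈ Vac P (posu σ (u : Cfg N)) :=
  pV_mem P _ _

end wf

/-! ## Equivariance -/

section equiv

open Crest.Agent.R330.SlA314 (act_inv_act act_inner act_add)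

variable {P : TPack C M R G} {σ : Sl C} {ρ : Pos p → Pos p} {κ : Sc b (C.cf σ.X0) → ℝ} {g : ℝ}
  {φ : Cfg N → F} {h : Matrix.specialUnitaryGroup (Fin N) ℂ}

theorem rho_Vac {X : Pos p} (hX : C.BReg X) (hh : b.act h (C.cf X) = C.cf X) {f : F}
    (hf : f ∈ Vac P X) : R.ρ h f ∈ Vac P X := by
  obtain ⟨f', hf', rfl⟩ := exists_U P hX hf
  obtain ⟨h1, h2⟩ := P.U_cov h X X hX hX hh f' hf'
  rw [h2]
  exact U_mem_Vac P hX h1

theorem stab_inv {c : Cfg N} (hc : b.act h c = c) : b.act h⁻¹ c = c := by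
  conv_lhs => rw [← hc]
  exact act_inv_act b h c

theorem rho_rho_inv (v : F) : R.ρ h (R.ρ h⁻¹ v) = v := by
  have h1 : R.ρ (h * h⁻¹) v = R.ρ h (R.ρ h⁻¹ v) := by
    rw [map_mul]
    rfl
  rw [← h1, mul_inv_cancel, map_one]
  rfl

theorem pV_rho {X : Pos p} (hX : C.BReg X) (hh : b.act h (C.cf X) = C.cf X) (v : F) :
    pV P X (R.ρ h v) = R.ρ h (pV P X v) := by
  refine Submodule.eq_starProjection_of_mem_of_inner_eq_zero
    (rho_Vac hX hh (pV_mem P X v)) fun w hw => ?_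
  rw [← map_sub, ← rho_rho_inv (R := R) (h := h) w, R.unitary]
  exact Submodule.starProjection_inner_eq_zero _ _ (rho_Vac hX (stab_inv hh) hw)

theorem posu_act (hc : b.act h (C.cf σ.X0) = C.cf σ.X0) (u : Cfg N) :
    posu σ (b.act h u) = posu σ u := by
  unfold posu
  rw [TCore383.cfT_act (BrT5658.reg0 σ) hc]

theorem posu_actU (hc : b.act h (C.cf σ.X0) = C.cf σ.X0) (u : Uk b (C.cf σ.X0)) :
    posu σ (actU hc u : Cfg N) = posu σ (u : Cfg N) := posu_act hc u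

theorem gsl_act (hr : ∀ X, ‖ρ X - σ.X0‖ < σ.r) (hc : b.act h (C.cf σ.X0) = C.cf σ.X0)
    (u : Uk b (C.cf σ.X0)) (z : Zs b (C.cf σ.X0)) :
    gsl P σ ρ g (actU hc u, actZ hc z) = gsl P σ ρ g (u, z) := by
  unfold gsl
  simp only [posu_actU hc u]
  set X := ρ (posu σ (u : Cfg N)) with hX
  have hR : C.Reg X := σ.reg X (hr _)
  have h1 : ⟪Az P σ X (actZ hc z), actZ hc z⟫_ℝ = ⟪Az P σ X z, z⟫_ℝ := by
    rw [inner_Az, inner_Az]
    have h2 : ((actZ hc z : Zs b (C.cf σ.X0)) : Cfg N) = b.act h z := rfl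
    rw [h2, P.A_cov h X X hR hR (TCore383.act_cf (BrT5658.reg0 σ) hc X), act_inner]
  unfold GPar984.G
  rw [h1]

theorem half_act (hφ : IsCoreVec b R φ) (hκ : Cut σ κ)
    (hc : b.act h (C.cf σ.X0) = C.cf σ.X0) (u : Uk b (C.cf σ.X0)) (z : Zs b (C.cf σ.X0)) :
    half b (C.cf σ.X0) κ φ (actU hc u, actZ hc z) = R.ρ h (half b (C.cf σ.X0) κ φ (u, z)) := by
  unfold half
  rw [hκ.inv h hc]
  have h1 : C.cf σ.X0 + ((actU hc u : Uk b (C.cf σ.X0)) : Cfg N) +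
      ((actZ hc z : Zs b (C.cf σ.X0)) : Cfg N) = b.act h (C.cf σ.X0 + u + z) := by
    rw [act_add, act_add, hc]
    rfl
  simp only
  rw [h1, hφ.2.2, ← Complex.coe_smul, ← Complex.coe_smul, map_smul]

theorem vf_act (hρ : ContDiff ℝ ∞ ρ) (hr : ∀ X, ‖ρ X - σ.X0‖ < σ.r) (hκ : Cut σ κ)
    (hφ : IsCoreVec b R φ) (hc : b.act h (C.cf σ.X0) = C.cf σ.X0) (u : Uk b (C.cf σ.X0)) :
    vf P σ ρ κ g φ (actU hc u) = R.ρ h (vf P σ ρ κ g φ u) :=
  KEq823.w_equiv R hc (KEq823.measurePreserving_actZ hc) (half_act hφ hκ hc) (gsl_act hr hc)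
    (fun _ _ => rfl) (contDiff_gsl hρ hr g).continuous
    (contDiff_half hκ.smooth hφ.1).continuous (hcs_half hκ.supp) u

theorem wf_act (hρ : ContDiff ℝ ∞ ρ) (hr : ∀ X, ‖ρ X - σ.X0‖ < σ.r) (hκ : Cut σ κ)
    (hφ : IsCoreVec b R φ) (hc : b.act h (C.cf σ.X0) = C.cf σ.X0) (u : Uk b (C.cf σ.X0)) :
    wf P σ ρ κ g φ (actU hc u) = R.ρ h (wf P σ ρ κ g φ u) := by
  rw [wf_eq, wf_eq, vf_act hρ hr hκ hφ hc, posu_actU hc]
  by_cases hu : u ∈ bs κ
  · obtain ⟨x, hx, rfl⟩ := hu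
    exact pV_rho (hκ.breg x hx) (TCore383.act_cf (BrT5658.reg0 σ) hc _) _
  · rw [vf_zero hu, map_zero, map_zero, map_zero]

end equiv

/-! ## Block coordinates -/

section blk

variable {P : TPack C M R G} {σ : Sl C} {ρ : Pos p → Pos p} {κ : Sc b (C.cf σ.X0) → ℝ} {g : ℝ}
  {φ : Cfg N → F} {h : Matrix.specialUnitaryGroup (Fin N) ℂ}

/-- the fibre projection in the coordinates (position, blocks) -/
def wB (P : TPack C M R G) (σ : Sl C) (ρ : Pos p → Pos p) (κ : Sc b (C.cf σ.X0) → ℝ) (g : ℝ)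
    (φ : Cfg N → F) (X : Pos p) (Y : C.Blk) : F :=
  wf P σ ρ κ g φ (PairT245.uE (BrT5658.reg0 σ) (X - σ.X0, Y))

theorem posu_uE (X' : Pos p) (Y : C.Blk) :
    posu σ (PairT245.uE (BrT5658.reg0 σ) (X', Y) : Cfg N) = σ.X0 + X' := by
  unfold posu
  rw [PairT245.coe_uE, PairT245.cfT_sum' X' Y.2]

theorem wB_mem (X : Pos p) (Y : C.Blk) : wB P σ ρ κ g φ X Y ∈ Vac P X := by
  have h1 := wf_mem (P := P) (σ := σ) (ρ := ρ) (κ := κ) (g := g) (φ := φ)
    (PairT245.uE (BrT5658.reg0 σ) (X - σ.X0, Y))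
  rw [posu_uE] at h1
  rw [add_sub_cancel] at h1
  exact h1

theorem contDiff_wB (hρ : ContDiff ℝ ∞ ρ) (hr : ∀ X, ‖ρ X - σ.X0‖ < σ.r) (hκ : Cut σ κ)
    (hφ : ContDiff ℝ ∞ φ) : ContDiff ℝ ∞ (fun q : Pos p × C.Blk => wB P σ ρ κ g φ q.1 q.2) := by
  unfold wB
  refine (contDiff_wf hρ hr hκ hφ).comp ((PairT245.uE (BrT5658.reg0 σ)).contDiff.comp ?_)
  exact (contDiff_fst.sub contDiff_const).prodMk contDiff_snd

/-- the positions of the support -/
def ks (κ : Sc b (C.cf σ.X0) → ℝ) : Set (Pos p) :=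
  (fun u : Uk b (C.cf σ.X0) => posu σ (u : Cfg N)) '' bs κ

theorem isCompact_ks (hκ : HasCompactSupport κ) : IsCompact (ks κ) :=
  (isCompact_bs hκ).image (contDiff_posu σ).continuous

theorem ks_breg (hκ : Cut σ κ) {X : Pos p} (hX : X ∈ ks κ) : C.BReg X := by
  obtain ⟨u, ⟨x, hx, rfl⟩, rfl⟩ := hX
  exact hκ.breg x hx

theorem wB_zero {X : Pos p} (hX : X ∉ ks κ) (Y : C.Blk) : wB P σ ρ κ g φ X Y = 0 := by
  refine wf_zero fun hu => hX ⟨_, hu, ?_⟩
  show posu σ _ = X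
  rw [posu_uE, add_sub_cancel]

theorem hcs_wB (hs : HasCompactSupport κ) :
    HasCompactSupport (fun q : Pos p × C.Blk => wB P σ ρ κ g φ q.1 q.2) := by
  have h1 := hcs_wf (P := P) (σ := σ) (ρ := ρ) (g := g) (φ := φ) hs
  have h2 := h1.comp_homeomorph (PairT245.uE (BrT5658.reg0 σ)).toHomeomorph
  have h3 := h2.comp_homeomorph ((Homeomorph.addRight (-σ.X0)).prodCongr (Homeomorph.refl C.Blk))
  have e : (fun q : Pos p × C.Blk => wB P σ ρ κ g φ q.1 q.2) =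
      (wf P σ ρ κ g φ ∘ (PairT245.uE (BrT5658.reg0 σ)).toHomeomorph) ∘
        ((Homeomorph.addRight (-σ.X0)).prodCongr (Homeomorph.refl C.Blk)) := by
    funext q
    unfold wB
    rw [sub_eq_add_neg]
    rfl
  rw [e]
  exact h3

theorem wB_act (hρ : ContDiff ℝ ∞ ρ) (hr : ∀ X, ‖ρ X - σ.X0‖ < σ.r) (hκ : Cut σ κ)
    (hφ : IsCoreVec b R φ) (hc : b.act h (C.cf σ.X0) = C.cf σ.X0) (X : Pos p) {Y Y' : C.Blk}
    (hY : (Y' : Cfg N) = b.act h Y) : wB P σ ρ κ g φ X Y' = R.ρ h (wB P σ ρ κ g φ X Y) := by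
  unfold wB
  rw [← wf_act hρ hr hκ hφ hc]
  congr 1
  apply Subtype.ext
  have h2 : ((actU hc (PairT245.uE (BrT5658.reg0 σ) (X - σ.X0, Y)) : Uk b (C.cf σ.X0)) : Cfg N) =
      b.act h (PairT245.uE (BrT5658.reg0 σ) (X - σ.X0, Y) : Uk b (C.cf σ.X0)) := rfl
  rw [h2, PairT245.coe_uE, PairT245.coe_uE, SlA314.act_add,
    TCore383.act_cf (BrT5658.reg0 σ) hc, hY]

end blk

end Crest.Agent.R330.LocC8

end
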