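import Crest.Agent.R330.H6B_596
import Crest.Agent.R330.LocC_8

/-!
# Row 330, S9 capture (H6) part (ii): the block charges of the fibre projection (helper596)

`wB P σ ρ κ g φ X Y` of `LocC_8` (fibre projection of `half b c κ φ` in block coordinates).

* `pV_comm` : the projection on the heavy vacua commutes with the light coefficients.
* `qblkB_eq` : `qblkB (wB X) Y = pV X ∫ gs (Ablk Φ)`.
* `qblkB_wB_le`, `qblkB_wB_sum_le` : `Σ_α ∫∫ ‖qblkB (wB X)‖² ≤ Σ_α ∫ ‖Ablk α Φ‖²`.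
* `qblkB_wB_Aop_le` : the same, bounded by `Aop`.
-/

set_option autoImplicit false
set_option linter.unusedSectionVars false

open MeasureTheory Filter Topology Crest.MathPhysics.MatrixQM
open scoped ContDiff InnerProductSpace ENNReal

noncomputable section

namespace Crest.Agent.R330.H6596

open Crest.Agent.R330.Defs478 Crest.Agent.R330.LS839 Crest.Agent.R330.Frame839
  Crest.Agent.R330.Bind6839 Crest.Agent.R330.IBP837 Crest.Agent.R330.TDef414
  Crest.Agent.R330.PairT245 Crest.Agent.R330.LemA342 Crest.Agent.R330.Decoup924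
  Crest.Agent.R330.BlkSplit837 Crest.Agent.R330.BlkSplit837.EmbFam
  Crest.Agent.R330.FibProj837 Crest.Agent.R330.DirG837 Crest.Agent.R330.SlQE87
open Crest.Agent.R330.LocB8 (posu Vac pV gsl posu pV_mem norm_pV_le contDiff_gsl integral_gsl_sq
  memLp_gsl)
open Crest.Agent.R330.LocC8 (Cut wf vf ks bs contDiff_half hcs_half contDiff_vf wB_zero ks_breg
  posu_uE wf_eq contDiff_wB)

variable {N p : ℕ} {b : ColorBasis N} {S : Type} [Group S] [Fintype S] {C : Chn b p S}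
  {F : Type*} [NormedAddCommGroup F] [InnerProductSpace ℂ F] [FiniteDimensional ℂ F]
  {M : FermionRep N F} {R : GaugeAction b M} {G : GammaNine}

/-! ## Commutation -/

theorem sproj_comm {V : Submodule ℂ F} {L : F →ₗ[ℂ] F} {ε : ℂ} (hL : ∀ f ∈ V, L f ∈ V)
    (hs : ∀ f h, ⟪L f, h⟫_ℂ = ε * ⟪f, L h⟫_ℂ) (f : F) :
    V.starProjection (L f) = L (V.starProjection f) := by
  refine Submodule.eq_starProjection_of_mem_of_inner_eq_zero
    (hL _ (Submodule.starProjection_apply_mem _ _)) fun w hw => ?_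
  rw [← map_sub, hs, Submodule.starProjection_inner_eq_zero _ _ (hL w hw), mul_zero]

/-- light coefficients preserve the heavy vacua -/
theorem od_Vac (P : TPack C M R G) {X : Pos p} (hX : C.Reg X) {L : F →ₗ[ℂ] F}
    (hL : L ∈ Od M C.kk) {f : F} (hf : f ∈ Vac P X) : L f ∈ Vac P X := by
  intro z hz α
  have hkc : kc (actB b) (C.cf X) = C.kk := hX
  have h1 : Theta M G α (P.A X z) ∈ Od M C.kkᗮ := Theta_mem M G α (P.A_off X hX z)
  have h2 : wB b M G 1 α (C.cf X) z ∈ Od M C.kkᗮ := by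
    have h3 : z ∈ Mm b (C.cf X) := by
      unfold Mm
      rw [hkc]
      exact hz
    have h4 := wB_mem M G 1 α (self_mem_Uk (Comc_cf (C := C) X)) h3
    rwa [hkc] at h4
  set T : F →ₗ[ℂ] F := Complex.I • Theta M G α (P.A X z) + wB b M G 1 α (C.cf X) z with hT
  have hTm : T ∈ Od M C.kkᗮ := Submodule.add_mem _ (Submodule.smul_mem _ _ h1) h2
  have h5 : T (L f) = -L (T f) :=
    Od_anti M (fun u hu v hv => by
      rw [real_inner_comm]
      exact (Submodule.mem_orthogonal _ _).1 hu v hv) hTm hL f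
  have h6 : T f = 0 := hf z hz α
  change T (L f) = 0
  rw [h5, h6, map_zero, neg_zero]

theorem pV_comm (P : TPack C M R G) {X : Pos p} (hX : C.Reg X) {L : F →ₗ[ℂ] F}
    (hL : L ∈ Od M C.kk) {ε : ℂ} (hs : ∀ f h, ⟪L f, h⟫_ℂ = ε * ⟪f, L h⟫_ℂ) (f : F) :
    pV P X (L f) = L (pV P X f) :=
  sproj_comm (fun _ hf => od_Vac P hX hL hf) hs f

theorem pV_aA (P : TPack C M R G) {X : Pos p} (hX : C.Reg X) {α : Fin 16} {e : Cfg N}
    (he : e ∈ Tup C.kk) (f : F) : pV P X (aA M G α e f) = aA M G α e (pV P X f) :=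
  pV_comm P hX (ε := -1) (Submodule.smul_mem _ _ (Theta_mem M G α he))
    (fun f h => by rw [neg_one_mul]; exact aA_skew M G α e f h) f

theorem wA_mem_kk {g m : ℝ} {α : Fin 16} {X : Pos p} (hX : C.Reg X) {Y : Cfg N}
    (hY : Y ∈ Tup C.kk) : wA b M G g m α Y ∈ Od M C.kk := by
  have hkc : kc (actB b) (C.cf X) = C.kk := hX
  have h1 : Y ∈ Uk b (C.cf X) := (Uk_eq hX).ge hY
  have h2 := wA_mem M G g m α h1
  rwa [hkc] at h2

theorem pV_wA (P : TPack C M R G) {X : Pos p} (hX : C.Reg X) {α : Fin 16} {g m : ℝ} {Y : Cfg N}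
    (hY : Y ∈ Tup C.kk) (f : F) : pV P X (wA b M G g m α Y f) = wA b M G g m α Y (pV P X f) :=
  pV_comm P hX (ε := 1) (wA_mem_kk hX hY)
    (fun f h => by rw [one_mul]; exact wA_symm M G g m α Y f h) f

/-! ## Derivatives along the blocks -/

theorem fderiv_zero_of_const {E H : Type*} [NormedAddCommGroup E] [NormedSpace ℝ E]
    [NormedAddCommGroup H] [NormedSpace ℝ H] {f : E → H} {x v : E}
    (h : ∀ t : ℝ, f (x + t • v) = f x) : fderiv ℝ f x v = 0 := by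
  by_cases hd : DifferentiableAt ℝ f x
  · have h1 : HasDerivAt (fun t : ℝ => f (x + t • v)) (fderiv ℝ f x v) 0 :=
      hd.hasFDerivAt.hasLineDerivAt v
    have h2 : HasDerivAt (fun t : ℝ => f (x + t • v)) 0 0 := by
      simp only [h]
      exact hasDerivAt_const _ _
    exact h1.unique h2
  · rw [fderiv_zero_of_not_differentiableAt hd]
    rfl

variable {P : TPack C M R G} {σ : Sl C} {ρ : Pos p → Pos p} {κ : Sc b (C.cf σ.X0) → ℝ} {g : ℝ}
  {φ : Cfg N → F} {α : Fin 16}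

theorem posu_blk (u : Cfg N) (t : ℝ) {Y : Cfg N} (hY : Y ∈ C.Blk) :
    posu σ (u + t • Y) = posu σ u := by
  unfold posu
  rw [map_add, map_smul, cfT_of_perp hY.2, smul_zero, add_zero]

theorem fderiv_gsl_blk (x : Sc b (C.cf σ.X0)) (n : Fin (Module.finrank ℝ C.Blk)) :
    fderiv ℝ (gsl P σ ρ g) x (dB (BrT5658.reg0 σ) n, 0) = 0 := by
  refine fderiv_zero_of_const fun t => ?_
  unfold gsl
  have h1 : posu σ ((x + t • ((dB (BrT5658.reg0 σ) n, 0) : Sc b (C.cf σ.X0))).1 : Cfg N) =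
      posu σ (x.1 : Cfg N) := posu_blk _ t (stdOrthonormalBasis ℝ C.Blk n).2
  have h2 : (x + t • ((dB (BrT5658.reg0 σ) n, 0) : Sc b (C.cf σ.X0))).2 = x.2 := by
    simp
  rw [h1, h2]

theorem vf_qblk (hρ : ContDiff ℝ ∞ ρ) (hr : ∀ X, ‖ρ X - σ.X0‖ < σ.r) (hκ : Cut σ κ)
    (hφ : ContDiff ℝ ∞ φ) (u : Uk b (C.cf σ.X0)) :
    (∑ n, aA M G α (dB (BrT5658.reg0 σ) n : Cfg N)
        (fderiv ℝ (vf P σ ρ κ g φ) u (dB (BrT5658.reg0 σ) n))) +
      wA b M G g 0 α (C.PY u) (vf P σ ρ κ g φ u) =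
    fpr volume (gsl P σ ρ g) (fun _ => LinearMap.id)
      (Ablk M G (BrT5658.reg0 σ) g α (half b (C.cf σ.X0) κ φ)) u := by
  have h := dirG_fpr (μ := (volume : Measure (Zs b (C.cf σ.X0)))) (gs := gsl P σ ρ g)
    (p := fun _ => (LinearMap.id : F →ₗ[ℂ] F)) (Φ := half b (C.cf σ.X0) κ φ)
    (e := fun n => dB (BrT5658.reg0 σ) n)
    (a := fun n _ => Theta M G α (dB (BrT5658.reg0 σ) n : Cfg N))
    (V := fun u => wA b M G g 0 α (C.PY u))
    ((contDiff_gsl hρ hr g).of_le (by simp)) (fun _ => contDiff_const)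
    ((contDiff_half hκ.smooth hφ).of_le (by simp)) (hcs_half hκ.supp)
    (fun n u z => fderiv_gsl_blk (u, z) n) (fun _ _ _ => by simp) (fun _ _ _ => rfl)
    (fun _ _ => rfl) u
  exact h

/-- `wB` in terms of `vf` -/
theorem wB_eq (X : Pos p) : LocC8.wB P σ ρ κ g φ X = fun Y : C.Blk =>
    pV P X (vf P σ ρ κ g φ (uE (BrT5658.reg0 σ) (X - σ.X0, Y))) := by
  funext Y
  unfold LocC8.wB
  rw [wf_eq, posu_uE, add_sub_cancel]

theorem fderiv_wB (hρ : ContDiff ℝ ∞ ρ) (hr : ∀ X, ‖ρ X - σ.X0‖ < σ.r) (hκ : Cut σ κ)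
    (hφ : ContDiff ℝ ∞ φ) (X : Pos p) (Y : C.Blk) (n : Fin (Module.finrank ℝ C.Blk)) :
    fderiv ℝ (LocC8.wB P σ ρ κ g φ X) Y (stdOrthonormalBasis ℝ C.Blk n) =
      pV P X (fderiv ℝ (vf P σ ρ κ g φ) (uE (BrT5658.reg0 σ) (X - σ.X0, Y))
        (dB (BrT5658.reg0 σ) n)) := by
  have hv : HasFDerivAt (vf P σ ρ κ g φ)
      (fderiv ℝ (vf P σ ρ κ g φ) (uE (BrT5658.reg0 σ) (X - σ.X0, Y)))
      (uE (BrT5658.reg0 σ) (X - σ.X0, Y)) :=
    ((contDiff_vf hρ hr hκ.smooth hκ.supp hφ).differentiable (by simp) _).hasFDerivAt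
  have h1 : HasFDerivAt (fun Y : C.Blk => ((X - σ.X0, Y) : Pos p × C.Blk))
      ((0 : C.Blk →L[ℝ] Pos p).prod (ContinuousLinearMap.id ℝ C.Blk)) Y :=
    (hasFDerivAt_const _ _).prodMk (hasFDerivAt_id _)
  have h2 := (uE (BrT5658.reg0 σ)).hasFDerivAt (x := ((X - σ.X0, Y) : Pos p × C.Blk))
  have h3 := hv.comp Y (h2.comp Y h1)
  have h4 := (toR (pV P X)).hasFDerivAt.comp Y h3
  have h5 : LocC8.wB P σ ρ κ g φ X = (toR (pV P X)) ∘ ((vf P σ ρ κ g φ) ∘
      ((uE (BrT5658.reg0 σ)) ∘ fun Y : C.Blk => ((X - σ.X0, Y) : Pos p × C.Blk))) := wB_eq X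
  rw [h5, h4.fderiv]
  have h6 : uE (BrT5658.reg0 σ) ((0, stdOrthonormalBasis ℝ C.Blk n) : Pos p × C.Blk) =
      dB (BrT5658.reg0 σ) n := by
    apply Subtype.ext
    rw [coe_uE, coe_dB]
    simp
  simp only [ContinuousLinearMap.comp_apply, toR_apply]
  rw [← h6]
  rfl

theorem PY_uE (X' : Pos p) (Y : C.Blk) :
    C.PY (uE (BrT5658.reg0 σ) (X', Y) : Cfg N) = Y := by
  rw [coe_uE, PY_sum' X' Y.2]

/-- **The block charges of the fibre projection.** -/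
theorem qblkB_eq (hρ : ContDiff ℝ ∞ ρ) (hr : ∀ X, ‖ρ X - σ.X0‖ < σ.r) (hκ : Cut σ κ)
    (hφ : ContDiff ℝ ∞ φ) {X : Pos p} (hX : C.Reg X) (Y : C.Blk) :
    qblkB M G g α (LocC8.wB P σ ρ κ g φ X) Y =
      pV P X (fpr volume (gsl P σ ρ g) (fun _ => LinearMap.id)
        (Ablk M G (BrT5658.reg0 σ) g α (half b (C.cf σ.X0) κ φ))
          (uE (BrT5658.reg0 σ) (X - σ.X0, Y))) := by
  rw [← vf_qblk hρ hr hκ hφ]
  unfold qblkB
  simp only [fderiv_wB hρ hr hκ hφ]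
  rw [map_add, map_sum, PY_uE, pV_wA P hX Y.2.1, wB_eq]
  congr 1
  refine Finset.sum_congr rfl fun n _ => ?_
  rw [pV_aA P hX (e := (dB (BrT5658.reg0 σ) n : Cfg N))
    (stdOrthonormalBasis ℝ C.Blk n).2.1]
  rfl

theorem qblkB_zero (Y : C.Blk) :
    qblkB M G g α (fun _ : C.Blk => (0 : F)) Y = 0 := by
  unfold qblkB
  simp

theorem cont_Ablk {X0 : Pos p} (h0 : C.Reg X0) {Φ : Sc b (C.cf X0) → F} (hΦ : ContDiff ℝ ∞ Φ) :
    Continuous (Ablk M G h0 g α Φ) :=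
  (contDiff_Ablk (k := 1) (n := 2) h0 (by norm_num)
    (hΦ.of_le ENat.LEInfty.out)).continuous

/-- pointwise bound -/
theorem qblkB_sq_le (hρ : ContDiff ℝ ∞ ρ) (hr : ∀ X, ‖ρ X - σ.X0‖ < σ.r) (hκ : Cut σ κ)
    (hφ : ContDiff ℝ ∞ φ) (hg : 0 < g) (X : Pos p) (Y : C.Blk) :
    ‖qblkB M G g α (LocC8.wB P σ ρ κ g φ X) Y‖ ^ 2 ≤
      ∫ z, ‖Ablk M G (BrT5658.reg0 σ) g α (half b (C.cf σ.X0) κ φ)
        (uE (BrT5658.reg0 σ) (X - σ.X0, Y), z)‖ ^ 2 := by
  by_cases hX : X ∈ ks κ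
  · rw [qblkB_eq hρ hr hκ hφ (ks_breg hκ hX).reg]
    have h1 := norm_fpr_sq_le (μ := (volume : Measure (Zs b (C.cf σ.X0))))
      (gs := gsl P σ ρ g) (p := fun _ => (LinearMap.id : F →ₗ[ℂ] F))
      (Φ := Ablk M G (BrT5658.reg0 σ) g α (half b (C.cf σ.X0) κ φ))
      (contDiff_gsl hρ hr g).continuous
      (cont_Ablk _ (contDiff_half hκ.smooth hφ)) (hcs_Ablk _ (hcs_half hκ.supp))
      (uE (BrT5658.reg0 σ) (X - σ.X0, Y)) (memLp_gsl hr hg _) (C := 1)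
      (le_of_eq (integral_gsl_sq hr hg _)) (fun v => le_rfl)
    rw [one_mul] at h1
    refine le_trans ?_ h1
    exact pow_le_pow_left₀ (norm_nonneg _) (norm_pV_le P X _) 2
  · have h0 : LocC8.wB P σ ρ κ g φ X = fun _ => 0 := funext fun Y => wB_zero hX Y
    rw [h0, qblkB_zero Y, norm_zero]
    have : (0 : ℝ) ≤ ∫ z, ‖Ablk M G (BrT5658.reg0 σ) g α (half b (C.cf σ.X0) κ φ)
        (uE (BrT5658.reg0 σ) (X - σ.X0, Y), z)‖ ^ 2 := integral_nonneg fun _ => by positivity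
    simpa using this

theorem integrable_Ablk_sq {X0 : Pos p} (h0 : C.Reg X0) {Φ : Sc b (C.cf X0) → F}
    (hΦ : ContDiff ℝ ∞ Φ) (hc : HasCompactSupport Φ) :
    Integrable (fun x => ‖Ablk M G h0 g α Φ x‖ ^ 2)
      ((volume : Measure (Uk b (C.cf X0))).prod (volume : Measure (Zs b (C.cf X0)))) :=
  ((cont_Ablk h0 hΦ).norm.pow 2).integrable_of_hasCompactSupport
    ((hcs_Ablk (M := M) (G := G) (g := g) (α := α) h0 hc).mono' fun x hx => subset_tsupport _ (by intro h; apply hx; simp [h]))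

/-- Fubini in the coordinates (position, blocks, off-diagonal), positions translated -/
theorem fubini_sc {X0 : Pos p} (h0 : C.Reg X0) {f : Sc b (C.cf X0) → ℝ}
    (hf : Integrable f ((volume : Measure (Uk b (C.cf X0))).prod volume)) :
    (∫ X : Pos p, ∫ Y : C.Blk, ∫ z, f (uE h0 (X - X0, Y), z)) =
      ∫ x, f x ∂((volume : Measure (Uk b (C.cf X0))).prod volume) := by
  have h1 : ∫ x, f x ∂((volume : Measure (Uk b (C.cf X0))).prod volume) =
      ∫ u, ∫ z, f (u, z) := integral_prod _ hf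
  have h2 : Integrable (fun u : Uk b (C.cf X0) => ∫ z, f (u, z)) := hf.integral_prod_left
  rw [h1, integral_uk h0]
  have h3 : Integrable (fun q : Pos p × C.Blk => ∫ z, f (uE h0 q, z))
      ((volume : Measure (Pos p)).prod volume) := (integrable_uk h0 _).1 h2
  have h4 : ∫ q : Pos p × C.Blk, ∫ z, f (uE h0 q, z) =
      ∫ X' : Pos p, ∫ Y : C.Blk, ∫ z, f (uE h0 (X', Y), z) := integral_prod _ h3
  rw [h4]
  exact integral_sub_right_eq_self
    (fun X' : Pos p => ∫ Y : C.Blk, ∫ z, f (uE h0 (X', Y), z)) X0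

/-- integrability of the fibre integrals in the same coordinates -/
theorem fubini_int {X0 : Pos p} (h0 : C.Reg X0) {f : Sc b (C.cf X0) → ℝ}
    (hf : Integrable f ((volume : Measure (Uk b (C.cf X0))).prod volume)) :
    Integrable (fun q : Pos p × C.Blk => ∫ z, f (uE h0 (q.1 - X0, q.2), z))
      ((volume : Measure (Pos p)).prod volume) := by
  have h2 : Integrable (fun u : Uk b (C.cf X0) => ∫ z, f (u, z)) := hf.integral_prod_left
  have h3 : Integrable (fun q : Pos p × C.Blk => ∫ z, f (uE h0 q, z))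
      ((volume : Measure (Pos p)).prod volume) := (integrable_uk h0 _).1 h2
  have h4 : MeasurePreserving (fun q : Pos p × C.Blk => (q.1 - X0, q.2))
      ((volume : Measure (Pos p)).prod volume) ((volume : Measure (Pos p)).prod volume) :=
    (measurePreserving_sub_right volume X0).prod (MeasurePreserving.id _)
  exact (h4.integrable_comp h3.aestronglyMeasurable).2 h3

theorem continuous_qblkB_wB (hρ : ContDiff ℝ ∞ ρ) (hr : ∀ X, ‖ρ X - σ.X0‖ < σ.r) (hκ : Cut σ κ)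
    (hφ : ContDiff ℝ ∞ φ) :
    Continuous fun q : Pos p × C.Blk => qblkB M G g α (LocC8.wB P σ ρ κ g φ q.1) q.2 := by
  have hw := contDiff_wB (P := P) (σ := σ) (ρ := ρ) (g := g) hρ hr hκ hφ
  have hd : ∀ (q : Pos p × C.Blk) (e : C.Blk), fderiv ℝ (LocC8.wB P σ ρ κ g φ q.1) q.2 e =
      fderiv ℝ (fun q : Pos p × C.Blk => LocC8.wB P σ ρ κ g φ q.1 q.2) q (0, e) := by
    intro q e
    have h1 : HasFDerivAt (fun Y : C.Blk => ((q.1, Y) : Pos p × C.Blk))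
        ((0 : C.Blk →L[ℝ] Pos p).prod (ContinuousLinearMap.id ℝ C.Blk)) q.2 :=
      (hasFDerivAt_const _ _).prodMk (hasFDerivAt_id _)
    have h2 : HasFDerivAt (fun q : Pos p × C.Blk => LocC8.wB P σ ρ κ g φ q.1 q.2)
        (fderiv ℝ (fun q : Pos p × C.Blk => LocC8.wB P σ ρ κ g φ q.1 q.2) q) (q.1, q.2) :=
      (hw.differentiable (by simp) _).hasFDerivAt
    have h3 := (h2.comp q.2 h1).fderiv
    have h4 : (fun q : Pos p × C.Blk => LocC8.wB P σ ρ κ g φ q.1 q.2) ∘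
        (fun Y : C.Blk => ((q.1, Y) : Pos p × C.Blk)) = LocC8.wB P σ ρ κ g φ q.1 := rfl
    rw [h4] at h3
    rw [h3]
    rfl
  unfold qblkB
  simp only [hd]
  refine Continuous.add (continuous_finsetSum _ fun n _ => ?_) ?_
  · refine (LinearMap.continuous_of_finiteDimensional
      (aA M G α ((stdOrthonormalBasis ℝ C.Blk n : C.Blk) : Cfg N))).comp ?_
    exact (hw.continuous_fderiv (by simp)).clm_apply continuous_const
  · have h5 : Continuous fun q : Pos p × C.Blk => toR (wA b M G g 0 α ((q.2 : C.Blk) : Cfg N)) :=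
      contDiff_toR_wA.continuous.comp (continuous_subtype_val.comp continuous_snd)
    exact h5.clm_apply hw.continuous

/-- **(H6)(ii).** -/
theorem qblkB_wB_le (hρ : ContDiff ℝ ∞ ρ) (hr : ∀ X, ‖ρ X - σ.X0‖ < σ.r) (hκ : Cut σ κ)
    (hφ : ContDiff ℝ ∞ φ) (hg : 0 < g) :
    ∫ X : Pos p, ∫ Y : C.Blk, ‖qblkB M G g α (LocC8.wB P σ ρ κ g φ X) Y‖ ^ 2 ≤
      ∫ x, ‖Ablk M G (BrT5658.reg0 σ) g α (half b (C.cf σ.X0) κ φ) x‖ ^ 2
        ∂((volume : Measure (Uk b (C.cf σ.X0))).prod volume) := by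
  have hi := integrable_Ablk_sq (M := M) (G := G) (g := g) (α := α) (BrT5658.reg0 σ)
    (contDiff_half hκ.smooth hφ) (hcs_half hκ.supp)
  rw [← fubini_sc (BrT5658.reg0 σ) hi]
  have h1 := fubini_int (BrT5658.reg0 σ) hi
  have h2 : Integrable (fun q : Pos p × C.Blk =>
      ‖qblkB M G g α (LocC8.wB P σ ρ κ g φ q.1) q.2‖ ^ 2)
      ((volume : Measure (Pos p)).prod volume) := by
    refine h1.mono' ((continuous_qblkB_wB hρ hr hκ hφ).norm.pow 2).aestronglyMeasurable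
      (Eventually.of_forall fun q => ?_)
    rw [Real.norm_of_nonneg (by positivity)]
    exact qblkB_sq_le hρ hr hκ hφ hg q.1 q.2
  have e1 := integral_prod _ h1
  have e2 := integral_prod _ h2
  simp only at e1 e2
  rw [← e1, ← e2]
  exact integral_mono h2 h1 fun q => qblkB_sq_le hρ hr hκ hφ hg q.1 q.2

theorem qblkB_wB_sum_le (hρ : ContDiff ℝ ∞ ρ) (hr : ∀ X, ‖ρ X - σ.X0‖ < σ.r) (hκ : Cut σ κ)
    (hφ : ContDiff ℝ ∞ φ) (hg : 0 < g) :
    ∑ α, ∫ X : Pos p, ∫ Y : C.Blk, ‖qblkB M G g α (LocC8.wB P σ ρ κ g φ X) Y‖ ^ 2 ≤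
      ∑ α, ∫ x, ‖Ablk M G (BrT5658.reg0 σ) g α (half b (C.cf σ.X0) κ φ) x‖ ^ 2
        ∂((volume : Measure (Uk b (C.cf σ.X0))).prod volume) :=
  Finset.sum_le_sum fun _ _ => qblkB_wB_le hρ hr hκ hφ hg

/-- **(H6).** -/
theorem qblkB_wB_Aop_le {m : ℝ} {ι : Type*} [Fintype ι]
    (e : OrthonormalBasis ι ℝ (Uk b (C.cf σ.X0))) (hρ : ContDiff ℝ ∞ ρ)
    (hr : ∀ X, ‖ρ X - σ.X0‖ < σ.r) (hκ : Cut σ κ) (hφ : ContDiff ℝ ∞ φ) (hg : 0 < g) :
    ∑ α, ∫ X : Pos p, ∫ Y : C.Blk, ‖qblkB M G g α (LocC8.wB P σ ρ κ g φ X) Y‖ ^ 2 ≤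
      2 * ∑ α, ∫ x, ‖Aop b (C.cf σ.X0) M G g m α e (half b (C.cf σ.X0) κ φ) x‖ ^ 2
        ∂((volume : Measure (Uk b (C.cf σ.X0))).prod volume) +
      KW M G * m ^ 2 * ∫ x, ‖C.cf σ.X0 + x.1‖ ^ 2 * ‖half b (C.cf σ.X0) κ φ x‖ ^ 2
        ∂((volume : Measure (Uk b (C.cf σ.X0))).prod volume) := by
  have h1 := qblkB_wB_sum_le (P := P) (g := g) hρ hr hκ hφ hg
  haveI : ((volume : Measure (Uk b (C.cf σ.X0))).prod
      (volume : Measure (Zs b (C.cf σ.X0)))).IsAddHaarMeasure :=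
    Measure.prod.instIsAddHaarMeasure _ _
  have h2 := cen_blk_sum_le (M := M) (G := G) (g := g) (m := m)
    (μ := (volume : Measure (Uk b (C.cf σ.X0))).prod (volume : Measure (Zs b (C.cf σ.X0))))
    (BrT5658.reg0 σ) e ((contDiff_half (b := b) (c := C.cf σ.X0) hκ.smooth hφ).of_le
      ENat.LEInfty.out) (hcs_half hκ.supp)
  have h3 : 0 ≤ ∑ α, ∫ x, ‖Acen M G (BrT5658.reg0 σ) α (half b (C.cf σ.X0) κ φ) x‖ ^ 2
      ∂((volume : Measure (Uk b (C.cf σ.X0))).prod (volume : Measure (Zs b (C.cf σ.X0)))) :=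
    Finset.sum_nonneg fun _ _ => integral_nonneg fun _ => by positivity
  linarith

end Crest.Agent.R330.H6596

end
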