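import Crest.Agent.R330.E1_984
import Crest.Agent.R330.AFld_984
import Crest.Agent.R330.PairT_245

/-!
# Row 330, S9-LOC (helper998): the normalised Gaussian of a chart and its derivative in the position

* `AzX P X0 X` : compression of `P.A X` to `Zs b (C.cf X0)`.
* `exists_reg` : a ball of parameters (`E1984.PR`) around every regular position.
* `gsZ P X0 g X z` : `exp(-(g/2)⟪A z, z⟫) / (∫ exp(-g⟪A z, z⟫))^{1/2}`; `gsZ_eq` : it is `GPar984.G`.
* `gsZ_pack`, `gsR_pack` : smoothness, normalisation, derivative in `X`, second moment.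
-/

set_option autoImplicit false
set_option linter.unusedSectionVars false

open MeasureTheory Filter Topology Crest.MathPhysics.MatrixQM
open scoped ContDiff InnerProductSpace ENNReal

noncomputable section

namespace Crest.Agent.R330.Gs998

open Crest.Agent.R330.Defs478 Crest.Agent.R330.LS839 Crest.Agent.R330.Frame839
  Crest.Agent.R330.Bind6839 Crest.Agent.R330.TDef414 Crest.Agent.R330.SqrtPD984
  Crest.Agent.R330.GPar984 Crest.Agent.R330.AX984 Crest.Agent.R330.E1984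
open Crest.Agent.R330.SlB314 (Nor Tan br)

variable {N p : ℕ} {b : ColorBasis N} {S : Type} [Group S] [Fintype S] {C : Chn b p S}
  {F : Type*} [NormedAddCommGroup F] [InnerProductSpace ℂ F] [FiniteDimensional ℂ F]
  {M : FermionRep N F} {R : GaugeAction b M} {G' : GammaNine} {X0 : Pos p}

/-- the exponent compressed to the transverse heavy space of the centre -/
def AzX (P : TPack C M R G') (X0 X : Pos p) : Zs b (C.cf X0) →L[ℝ] Zs b (C.cf X0) :=
  cmp (Zs b (C.cf X0)) (P.A X)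

theorem inner_AzX (P : TPack C M R G') (X0 X : Pos p) (z z' : Zs b (C.cf X0)) :
    ⟪AzX P X0 X z, z'⟫_ℝ = ⟪P.A X z, (z' : Cfg N)⟫_ℝ := inner_cmp _ _ _ _

theorem AzX_sy (P : TPack C M R G') (X0 X : Pos p) : Sy (AzX P X0 X) :=
  cmp_sy fun z z' => P.A_symm X z z'

theorem AzX_pd (P : TPack C M R G') (h0 : C.Reg X0) : PD (AzX P X0 X0) := by
  refine ⟨AzX_sy P X0 X0, fun z hz => ?_⟩
  rw [inner_AzX]
  obtain ⟨c, ε, hc, hε, h⟩ := P.A_low X0 h0
  have h1 : (z : Cfg N) ∈ C.Zt X0 := by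
    rw [← PairT245.Zs_eq h0]
    exact z.2
  have h2 := h X0 (by simpa using hε) z h1
  have h3 : 0 < ‖(z : Cfg N)‖ := by
    rw [norm_pos_iff]
    exact fun h0 => hz (Subtype.ext h0)
  have h4 : 0 < c * ‖(z : Cfg N)‖ ^ 2 := by positivity
  linarith

theorem contDiffAt_AzX (P : TPack C M R G') (X0 : Pos p) {X : Pos p} (hX : C.Reg X) :
    ContDiffAt ℝ ∞ (AzX P X0) X := contDiffAt_cmp _ (P.A_smooth X hX)

/-- a region of parameters around a regular position -/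
theorem exists_reg (P : TPack C M R G') (h0 : C.Reg X0) :
    ∃ (δ a K L : ℝ) (l : Pos p → (Pos p →L[ℝ] ℝ)), 0 < δ ∧
      PR (AzX P X0) (Metric.ball X0 δ) a K L l ∧ ∀ X ∈ Metric.ball X0 δ, C.Reg X := by
  obtain ⟨δ, a, K, L, l, hδ, h⟩ := exists_PR (m := ∞) (by simp) (contDiffAt_AzX P X0 h0)
    (Eventually.of_forall fun X => AzX_sy P X0 X) (AzX_pd P h0)
  obtain ⟨δ', hδ', h'⟩ := Metric.eventually_nhds_iff_ball.mp (AFld984.eventually_reg C h0)
  exact ⟨min δ δ', a, K, L, l, lt_min hδ hδ', h.mono Metric.isOpen_ball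
    (Metric.ball_subset_ball (min_le_left _ _)),
    fun X hX => h' X (Metric.ball_subset_ball (min_le_right _ _) hX)⟩

/-- the normalised Gaussian -/
def gsZ (P : TPack C M R G') (X0 : Pos p) (g : ℝ) (X : Pos p) (z : Zs b (C.cf X0)) : ℝ :=
  Real.exp (-(g / 2 * ⟪P.A X z, (z : Cfg N)⟫_ℝ)) /
    Real.sqrt (∫ z' : Zs b (C.cf X0), Real.exp (-(g * ⟪P.A X z', (z' : Cfg N)⟫_ℝ)))

theorem integral_exp (P : TPack C M R G') {g : ℝ} (hg : 0 < g) {X : Pos p}
    (hX : PD (AzX P X0 X)) :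
    ∫ z' : Zs b (C.cf X0), Real.exp (-(g * ⟪P.A X z', (z' : Cfg N)⟫_ℝ)) =
      (Real.pi / g) ^ (Module.finrank ℝ (Zs b (C.cf X0)) / 2 : ℝ) / |dt (psq (AzX P X0 X))| := by
  rw [← integral_exp_quad hX hg]
  refine integral_congr_ae (ae_of_all _ fun z => ?_)
  simp only
  rw [inner_AzX, neg_mul]

theorem gsZ_eq (P : TPack C M R G') {g : ℝ} (hg : 0 < g) {X : Pos p} (hX : PD (AzX P X0 X))
    (z : Zs b (C.cf X0)) : gsZ P X0 g X z = G g (AzX P X0 X) z := by
  have hd : 0 < |dt (psq (AzX P X0 X))| := abs_pos.mpr (dt_ne_zero (psq_pd hX))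
  unfold gsZ G
  rw [integral_exp P hg hX, inner_AzX, div_eq_mul_inv, ← Real.sqrt_inv, inv_div,
    mul_comm, Real.sqrt_div hd.le, neg_mul]
  congr 1
  have h1 : Real.sqrt ((Real.pi / g) ^ (Module.finrank ℝ (Zs b (C.cf X0)) / 2 : ℝ)) =
      ((g / Real.pi) ^ (Module.finrank ℝ (Zs b (C.cf X0)) / 4 : ℝ))⁻¹ := by
    rw [Real.sqrt_eq_rpow, ← Real.rpow_mul (by positivity), ← Real.inv_rpow (by positivity),
      inv_div]
    congr 1
    ring
  rw [h1, div_inv_eq_mul, mul_comm]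

theorem contDiffAt_gG (P : TPack C M R G') {X : Pos p} (hX : C.Reg X) (hp : PD (AzX P X0 X))
    (g : ℝ) (z : Zs b (C.cf X0)) :
    ContDiffAt ℝ ∞ (fun q : Pos p × Zs b (C.cf X0) => G g (AzX P X0 q.1) q.2) (X, z) :=
  contDiffAt_G (by simp) g (contDiffAt_AzX P X0 hX)
    (Eventually.of_forall fun X => AzX_sy P X0 X) hp

/-- joint derivative in the direction of the position -/
theorem fderiv_gG (P : TPack C M R G') {Ω : Set (Pos p)} {a K L : ℝ}
    {l : Pos p → (Pos p →L[ℝ] ℝ)} (h : PR (AzX P X0) Ω a K L l) {X : Pos p} (hX : X ∈ Ω)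
    (hr : C.Reg X) (g : ℝ) (z : Zs b (C.cf X0)) (e : Pos p) :
    fderiv ℝ (fun q : Pos p × Zs b (C.cf X0) => G g (AzX P X0 q.1) q.2) (X, z) (e, 0) =
      dG (AzX P X0) l g X e z := by
  rw [← h.fderiv_eq hX g z e]
  have h1 : DifferentiableAt ℝ (fun q : Pos p × Zs b (C.cf X0) => G g (AzX P X0 q.1) q.2)
      (X, z) := (contDiffAt_gG P hr (h.ub X hX).1 g z).differentiableAt (by simp)
  have h2 : HasFDerivAt (fun Y : Pos p => (Y, z)) (ContinuousLinearMap.inl ℝ (Pos p)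
      (Zs b (C.cf X0))) X := (hasFDerivAt_prodMk_left X z)
  have h3 := HasFDerivAt.comp X (g := fun q : Pos p × Zs b (C.cf X0) => G g (AzX P X0 q.1) q.2)
    (f := fun Y : Pos p => (Y, z)) h1.hasFDerivAt h2
  have h4 : fderiv ℝ (fun Y => G g (AzX P X0 Y) z) X = _ := h3.fderiv
  rw [h4]
  rfl

/-- the joint derivative of `gsZ` is the one of `G` -/
theorem fderiv_gsZ (P : TPack C M R G') {Ω : Set (Pos p)} {a K L : ℝ}
    {l : Pos p → (Pos p →L[ℝ] ℝ)} (h : PR (AzX P X0) Ω a K L l) {X : Pos p} (hX : X ∈ Ω)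
    (hr : C.Reg X) {g : ℝ} (hg : 0 < g) (z : Zs b (C.cf X0)) (e : Pos p) :
    fderiv ℝ (fun q : Pos p × Zs b (C.cf X0) => gsZ P X0 g q.1 q.2) (X, z) (e, 0) =
      dG (AzX P X0) l g X e z := by
  rw [← fderiv_gG P h hX hr g z e]
  congr 1
  refine Filter.EventuallyEq.fderiv_eq ?_
  have h1 : ∀ᶠ q : Pos p × Zs b (C.cf X0) in 𝓝 (X, z), q.1 ∈ Ω :=
    continuous_fst.continuousAt.eventually (h.isOpen.mem_nhds hX)
  filter_upwards [h1] with q hq
  exact gsZ_eq P hg (h.ub q.1 hq).1 q.2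

/-- the properties of the normalised Gaussian near a regular position -/
theorem gsZ_pack (P : TPack C M R G') (h0 : C.Reg X0) : ∃ δ C₁ : ℝ, 0 < δ ∧ 0 ≤ C₁ ∧
    (∀ X ∈ Metric.ball X0 δ, C.Reg X ∧ PD (AzX P X0 X)) ∧ ∀ g : ℝ, 0 < g →
      ContDiffOn ℝ ∞ (fun q : Pos p × Zs b (C.cf X0) => gsZ P X0 g q.1 q.2)
        (Metric.ball X0 δ ×ˢ Set.univ) ∧
      ∀ X ∈ Metric.ball X0 δ,
        (∀ z, 0 < gsZ P X0 g X z) ∧
        Continuous (gsZ P X0 g X) ∧
        MemLp (gsZ P X0 g X) 2 ∧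
        ∫ z, gsZ P X0 g X z ^ 2 = 1 ∧
        (Integrable (fun z => ‖z‖ ^ 2 * gsZ P X0 g X z ^ 2) ∧
          ∫ z, ‖z‖ ^ 2 * gsZ P X0 g X z ^ 2 ≤ C₁ / g) ∧
        ∀ e : Pos p,
          MemLp (fun z => fderiv ℝ (fun q : Pos p × Zs b (C.cf X0) => gsZ P X0 g q.1 q.2)
            (X, z) (e, 0)) 2 ∧
          ∫ z, (fderiv ℝ (fun q : Pos p × Zs b (C.cf X0) => gsZ P X0 g q.1 q.2)
            (X, z) (e, 0)) ^ 2 ≤ C₁ * ‖e‖ ^ 2 := by
  obtain ⟨δ, a, K, L, l, hδ, h, hreg⟩ := exists_reg P h0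
  obtain ⟨c1, hc1, h1⟩ := moment_le (Z := Zs b (C.cf X0)) a K h.pos 1
  obtain ⟨c2, hc2, h2⟩ := dG_mom (Z := Zs b (C.cf X0)) (P := Pos p) a K L h.pos 0
  refine ⟨δ, max c1 c2, hδ, hc1.trans (le_max_left _ _),
    fun X hX => ⟨hreg X hX, (h.ub X hX).1⟩, fun g hg => ⟨?_, fun X hX => ?_⟩⟩
  · intro q hq
    have hq1 : q.1 ∈ Metric.ball X0 δ := hq.1
    have h3 := contDiffAt_gG P (hreg q.1 hq1) (h.ub q.1 hq1).1 g q.2
    refine (h3.congr_of_eventuallyEq ?_).contDiffWithinAt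
    have h4 : ∀ᶠ q' : Pos p × Zs b (C.cf X0) in 𝓝 q, q'.1 ∈ Metric.ball X0 δ :=
      continuous_fst.continuousAt.eventually (h.isOpen.mem_nhds hq1)
    filter_upwards [h4] with q' hq'
    exact gsZ_eq P hg (h.ub q'.1 hq').1 q'.2
  · have hG : gsZ P X0 g X = G g (AzX P X0 X) := funext fun z => gsZ_eq P hg (h.ub X hX).1 z
    have hI := integrable_mul_G_sq h.pos hg (h.ub X hX)
    have hM : MemLp (gsZ P X0 g X) 2 := by
      rw [hG, memLp_two_iff_integrable_sq (continuous_G g _).aestronglyMeasurable]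
      simpa using hI 0
    have hmo : ∀ z : Zs b (C.cf X0), ‖z‖ ^ 2 * gsZ P X0 g X z ^ 2 =
        g⁻¹ * ((g * ‖z‖ ^ 2) ^ 1 * G g (AzX P X0 X) z ^ 2) := by
      intro z
      rw [hG]
      field_simp
    have hd : ∀ (e : Pos p) (z : Zs b (C.cf X0)),
        fderiv ℝ (fun q : Pos p × Zs b (C.cf X0) => gsZ P X0 g q.1 q.2) (X, z) (e, 0) =
          dG (AzX P X0) l g X e z := fun e z => fderiv_gsZ P h hX (hreg X hX) hg z e
    refine ⟨fun z => ?_, ?_, hM, ?_, ⟨?_, ?_⟩, fun e => ⟨?_, ?_⟩⟩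
    · rw [hG]; exact G_pos hg (h.ub X hX).1 z
    · rw [hG]; exact continuous_G g _
    · rw [hG]; exact integral_G_sq hg (h.ub X hX).1
    · simp only [hmo]
      exact (hI 1).const_mul _
    · simp only [hmo]
      rw [integral_const_mul, div_eq_inv_mul]
      have h5 := (h1 g hg _ (h.ub X hX)).trans (le_max_left c1 c2)
      gcongr
    · simp only [hd]
      rw [memLp_two_iff_integrable_sq (continuous_dG _ _ _ _ _).aestronglyMeasurable]
      simpa using h.integrable_dG hX hg e 0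
    · simp only [hd]
      have h5 := h2 _ _ _ h X hX g hg e
      simp only [pow_zero, one_mul] at h5
      refine h5.trans ?_
      have h6 : c2 ≤ max c1 c2 := le_max_right _ _
      gcongr

end Crest.Agent.R330.Gs998

end
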