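import Crest.Agent.R330.LocD_8
import Crest.Agent.R330.Amp3_406
import Crest.Agent.R330.Gs_998

/-!
# Row 330, S9 capture (I3): the amplitudes are bounded in `H¹` (helper186)

`κ` a cut-off of the slice over `BReg` (`LocC8.Cut`), `Φ = half b c κ φ`,
`a = ampX P g (wB P σ ρ κ g φ)` (450's amplitude of 8's fibre projection).

* `gsX` : the Gaussian in the coordinates `(X, z)`; `gsX_bounds` : `∫ (∂_X gsX)² ≤ C`.
* `Uz P ζ X = ζ X • U X`, `Ps0` : the block state in the heavy vacuum; norms.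
* `PhiX` : the slice function in the coordinates `(X, (Y, z))`.
* `ampX_eq` : `ampX` is 406's `ampx`.
* `I3` : `a` is `C¹`, supported over `ks κ`, `∫ ‖a‖² ≤ C ∫ ‖Φ‖²`,
  `∫ ‖Da‖² ≤ C (∫ ‖Φ‖² + Σ_q ∫ ‖∂_q Φ‖²)`, `C` independent of `g` and `φ`.
-/

set_option autoImplicit false
set_option linter.unusedSectionVars false
set_option maxHeartbeats 400000

open MeasureTheory Filter Topology Set Crest.MathPhysics.MatrixQM
open scoped ContDiff InnerProductSpace ENNReal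

noncomputable section

namespace Crest.Agent.R330.I3186

open Crest.Agent.R330.Bind6839 Crest.Agent.R330.TDef414 Crest.Agent.R330.LS839
  Crest.Agent.R330.Frame839 Crest.Agent.R330.Clus839 Crest.Agent.R330.Defs478
  Crest.Agent.R330.LemA342 Crest.Agent.R330.FibProj837 Crest.Agent.R330.LocB8
  Crest.Agent.R330.LocC8 Crest.Agent.R330.HBX450 Crest.Agent.R330.Amp406
  Crest.Agent.R330.SlQE87 Crest.Agent.R330.Gs998 Crest.Agent.R330.LocD8

variable {N p : ℕ} {b : ColorBasis N} {S : Type} [Group S] [Fintype S] {C : Chn b p S}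
  {F : Type*} [NormedAddCommGroup F] [InnerProductSpace ℂ F] [FiniteDimensional ℂ F]
  {M : FermionRep N F} {R : GaugeAction b M} {G : GammaNine}

/-! ### Families of operators -/

section absU

variable {E F F' : Type*} [NormedAddCommGroup E] [NormedSpace ℝ E] [FiniteDimensional ℝ E]
  [NormedAddCommGroup F] [InnerProductSpace ℂ F] [FiniteDimensional ℂ F]
  [NormedAddCommGroup F'] [InnerProductSpace ℂ F'] [FiniteDimensional ℂ F']

theorem contDiff_ev {n : WithTop ℕ∞} {T : E → F' →L[ℂ] F} (hT : ContDiff ℝ n T) (v : F') :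
    ContDiff ℝ n fun x => T x v :=
  ((ContinuousLinearMap.apply ℂ F v).restrictScalars ℝ).contDiff.comp hT

theorem fderiv_ev {T : E → F' →L[ℂ] F} {x : E} (h : DifferentiableAt ℝ T x) (d : E) (v : F') :
    fderiv ℝ T x d v = fderiv ℝ (fun y => T y v) x d := by
  have h1 := (((ContinuousLinearMap.apply ℂ F v).restrictScalars ℝ).hasFDerivAt (x := T x)).comp x
    h.hasFDerivAt
  have h2 : HasFDerivAt (fun y => T y v) _ x := h1
  rw [h2.fderiv]
  rfl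

/-- `T x (v x)` -/
theorem contDiff_app {n : WithTop ℕ∞} {T : E → F' →L[ℂ] F} {v : E → F'} (hT : ContDiff ℝ n T)
    (hv : ContDiff ℝ n v) : ContDiff ℝ n fun x => T x (v x) := by
  set e := stdOrthonormalBasis ℂ F' with he
  have h1 : (fun x => T x (v x)) = fun x => ∑ k, ⟪e k, v x⟫_ℂ • T x (e k) := by
    funext x
    conv_lhs => rw [← e.sum_repr' (v x)]
    rw [map_sum]
    exact Finset.sum_congr rfl fun k _ => map_smul _ _ _
  rw [h1]
  refine ContDiff.sum fun k _ => ?_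
  exact (contDiff_const.inner ℂ hv).smul (contDiff_ev hT (e k))

/-- uniform bound of the derivative of a compactly supported family of operators -/
theorem fderiv_bound {T : E → F →L[ℂ] F} (hT : ContDiff ℝ 1 T) (hc : HasCompactSupport T) :
    ∃ B : ℝ, 0 ≤ B ∧ ∀ x d v, ‖fderiv ℝ (fun y => T y v) x d‖ ≤ B * ‖d‖ * ‖v‖ := by
  set e := stdOrthonormalBasis ℂ F with he
  have h1 : ∀ k, ∃ B : ℝ, ∀ x, ‖fderiv ℝ (fun y => T y (e k)) x‖ ≤ B := fun k => by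
    have h2 : HasCompactSupport fun y => T y (e k) :=
      hc.mono fun x hx h0 => hx (by simp [h0])
    have h3 : Continuous (fderiv ℝ fun y => T y (e k)) :=
      (contDiff_ev hT (e k)).continuous_fderiv (by norm_num)
    exact (HasCompactSupport.fderiv ℝ h2).exists_bound_of_continuous h3
  choose B hB using h1
  have hB0 : ∀ k, 0 ≤ B k := fun k => (norm_nonneg _).trans (hB k 0)
  refine ⟨∑ k, B k, Finset.sum_nonneg fun k _ => hB0 k, fun x d v => ?_⟩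
  have h4 : fderiv ℝ (fun y => T y v) x d =
      ∑ k, ⟪e k, v⟫_ℂ • fderiv ℝ (fun y => T y (e k)) x d := by
    have hd : DifferentiableAt ℝ T x := (hT.differentiable (by norm_num)) x
    rw [← fderiv_ev hd]
    conv_lhs => rw [← e.sum_repr' v]
    rw [map_sum]
    refine Finset.sum_congr rfl fun k _ => ?_
    rw [map_smul, fderiv_ev hd]
  rw [h4]
  refine (norm_sum_le _ _).trans ?_
  rw [Finset.sum_mul, Finset.sum_mul]
  refine Finset.sum_le_sum fun k _ => ?_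
  rw [norm_smul]
  have h5 : ‖⟪e k, v⟫_ℂ‖ ≤ ‖v‖ := by
    have := norm_inner_le_norm (𝕜 := ℂ) (e k) v
    rwa [e.orthonormal.1 k, one_mul] at this
  have h6 : ‖fderiv ℝ (fun y => T y (e k)) x d‖ ≤ B k * ‖d‖ :=
    ((fderiv ℝ (fun y => T y (e k)) x).le_opNorm d).trans
      (mul_le_mul_of_nonneg_right (hB k x) (norm_nonneg _))
  calc ‖⟪e k, v⟫_ℂ‖ * ‖fderiv ℝ (fun y => T y (e k)) x d‖ ≤ ‖v‖ * (B k * ‖d‖) :=
        mul_le_mul h5 h6 (norm_nonneg _) (norm_nonneg _)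
    _ = _ := by ring

/-- transfer through a linear isometry -/
theorem transfer [MeasurableSpace E] [BorelSpace E] {μ : Measure E} [μ.IsAddHaarMeasure]
    (J : F' →ₗᵢ[ℂ] F) {a : E → F'} (ha : ContDiff ℝ 1 a) (hc : HasCompactSupport a) :
    ContDiff ℝ 1 (fun X => J (a X)) ∧ (∫ X, ‖J (a X)‖ ^ 2 ∂μ) = ∫ X, ‖a X‖ ^ 2 ∂μ ∧
      (∫ X, ‖fderiv ℝ (fun X => J (a X)) X‖ ^ 2 ∂μ) ≤ ∫ X, ‖fderiv ℝ a X‖ ^ 2 ∂μ := by
  let K : F' →L[ℝ] F := J.toContinuousLinearMap.restrictScalars ℝ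
  have hK : ∀ v, K v = J v := fun v => rfl
  refine ⟨K.contDiff.comp ha, by simp only [J.norm_map], ?_⟩
  have hd : ∀ X, ‖fderiv ℝ (fun X => J (a X)) X‖ ≤ ‖fderiv ℝ a X‖ := by
    intro X
    have h1 : HasFDerivAt (fun X => K (a X)) (K.comp (fderiv ℝ a X)) X :=
      K.hasFDerivAt.comp X ((ha.differentiable (by norm_num)) X).hasFDerivAt
    have h2 : fderiv ℝ (fun X => J (a X)) X = K.comp (fderiv ℝ a X) := h1.fderiv
    rw [h2]
    refine ContinuousLinearMap.opNorm_le_bound _ (norm_nonneg _) fun v => ?_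
    have h3 : ‖K (fderiv ℝ a X v)‖ = ‖fderiv ℝ a X v‖ := J.norm_map _
    rw [ContinuousLinearMap.comp_apply, h3]
    exact (fderiv ℝ a X).le_opNorm v
  have hdc : Continuous (fderiv ℝ a) := ha.continuous_fderiv (by norm_num)
  have hdi : Integrable (fun X => ‖fderiv ℝ a X‖ ^ 2) μ :=
    Rel893.integrable_norm_sq_of_memLp (hdc.memLp_of_hasCompactSupport (hc.fderiv (𝕜 := ℝ)))
  exact integral_mono_of_nonneg (Eventually.of_forall fun X => by positivity) hdi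
    (Eventually.of_forall fun X => pow_le_pow_left₀ (norm_nonneg _) (hd X) 2)

end absU

/-! ### The Gaussian -/

/-- the Gaussian as a function of the position and `z` -/
def gsX (P : TPack C M R G) (σ : Sl C) (ρ : Pos p → Pos p) (g : ℝ)
    (q : Pos p × Zs b (C.cf σ.X0)) : ℝ := GPar984.G g (Az P σ (ρ q.1)) q.2

section gauss

variable {P : TPack C M R G} {σ : Sl C} {ρ : Pos p → Pos p}

theorem gsl_eq_gsX (g : ℝ) (x : Sc b (C.cf σ.X0)) :
    gsl P σ ρ g x = gsX P σ ρ g (posu σ (x.1 : Cfg N), x.2) := rfl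

theorem contDiff_gsX (hρ : ContDiff ℝ ∞ ρ) (hr : ∀ X, ‖ρ X - σ.X0‖ < σ.r) (g : ℝ) :
    ContDiff ℝ ∞ (gsX P σ ρ g) := by
  have h4 : ContDiff ℝ ∞ (fun x : Pos p × Zs b (C.cf σ.X0) => (ρ x.1, x.2)) :=
    (hρ.comp contDiff_fst).prodMk contDiff_snd
  rw [contDiff_iff_contDiffAt]
  intro x
  have h1 := contDiffAt_gX (P := P) g (hr x.1) x.2
  exact h1.comp x h4.contDiffAt

theorem integral_gsX_sq (hr : ∀ X, ‖ρ X - σ.X0‖ < σ.r) {g : ℝ} (hg : 0 < g) (X : Pos p) :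
    ∫ z : Zs b (C.cf σ.X0), gsX P σ ρ g (X, z) ^ 2 = 1 := by
  have h := GPar984.integral_G_sq hg (Az_pd P σ (hr X))
  unfold gsX
  exact h

theorem memLp_gsX (hr : ∀ X, ‖ρ X - σ.X0‖ < σ.r) {g : ℝ} (hg : 0 < g) (X : Pos p) :
    MemLp (fun z : Zs b (C.cf σ.X0) => gsX P σ ρ g (X, z)) 2 := by
  have hc : Continuous fun z : Zs b (C.cf σ.X0) => gsX P σ ρ g (X, z) :=
    GPar984.continuous_G g (Az P σ (ρ X))
  rw [memLp_two_iff_integrable_sq hc.aestronglyMeasurable]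
  by_contra h
  have h1 := integral_undef h
  rw [integral_gsX_sq hr hg X] at h1
  exact one_ne_zero h1

/-- derivative of the Gaussian in the position: uniform bounds -/
theorem gsX_bounds (P : TPack C M R G) (σ : Sl C) : ∃ δ : ℝ, 0 < δ ∧ ∀ ρ : Pos p → Pos p,
    ContDiff ℝ ∞ ρ → (∀ X, ‖ρ X - σ.X0‖ < δ) → ∀ rad : ℝ, ∃ C₁ : ℝ, 0 ≤ C₁ ∧ ∀ g : ℝ, 0 < g →
      ∀ X, ‖X‖ ≤ rad → ∀ e : Pos p,
        MemLp (fun z : Zs b (C.cf σ.X0) => fderiv ℝ (gsX P σ ρ g) (X, z) (e, 0)) 2 ∧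
        ∫ z : Zs b (C.cf σ.X0), fderiv ℝ (gsX P σ ρ g) (X, z) (e, 0) ^ 2 ≤ C₁ * ‖e‖ ^ 2 := by
  obtain ⟨δ, a, K, L, l, hδ, h, hreg⟩ := exists_reg P (BrT5658.reg0 σ)
  obtain ⟨c2, hc2, h2⟩ := E1984.dG_mom (Z := Zs b (C.cf σ.X0)) (P := Pos p) a K L h.pos 0
  refine ⟨δ, hδ, fun ρ hρ hr rad => ?_⟩
  obtain ⟨B, hB⟩ := (isCompact_closedBall (0 : Pos p) rad).exists_bound_of_continuousOn
    (f := fderiv ℝ ρ) (hρ.continuous_fderiv (by simp)).continuousOn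
  refine ⟨c2 * B ^ 2, by positivity, fun g hg X hX e => ?_⟩
  have hm : ρ X ∈ Metric.ball σ.X0 δ := by rw [mem_ball_iff_norm]; exact hr X
  have hd : ∀ z : Zs b (C.cf σ.X0), fderiv ℝ (gsX P σ ρ g) (X, z) (e, 0) =
      E1984.dG (AzX P σ.X0) l g (ρ X) (fderiv ℝ ρ X e) z := by
    intro z
    rw [← fderiv_gG P h hm (hreg _ hm) g z]
    have h3 : HasFDerivAt (fun q : Pos p × Zs b (C.cf σ.X0) => (ρ q.1, q.2))
        (((fderiv ℝ ρ X).comp (ContinuousLinearMap.fst ℝ (Pos p) (Zs b (C.cf σ.X0)))).prod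
          (ContinuousLinearMap.snd ℝ (Pos p) (Zs b (C.cf σ.X0)))) (X, z) := by
      refine HasFDerivAt.prodMk ?_ hasFDerivAt_snd
      have h5 : HasFDerivAt ρ (fderiv ℝ ρ X) ((X, z) : Pos p × Zs b (C.cf σ.X0)).1 :=
        ((hρ.differentiable (by simp)) X).hasFDerivAt
      exact h5.comp (X, z) hasFDerivAt_fst
    have h4 : HasFDerivAt (fun q : Pos p × Zs b (C.cf σ.X0) => GPar984.G g (AzX P σ.X0 q.1) q.2)
        (fderiv ℝ (fun q : Pos p × Zs b (C.cf σ.X0) => GPar984.G g (AzX P σ.X0 q.1) q.2)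
          (ρ X, z)) ((fun q : Pos p × Zs b (C.cf σ.X0) => (ρ q.1, q.2)) (X, z)) :=
      ((contDiffAt_gG P (hreg _ hm) (h.ub _ hm).1 g z).differentiableAt (by simp)).hasFDerivAt
    have h6 := (h4.comp (X, z) h3).fderiv
    have h7 : gsX P σ ρ g = (fun q : Pos p × Zs b (C.cf σ.X0) =>
        GPar984.G g (AzX P σ.X0 q.1) q.2) ∘ fun q => (ρ q.1, q.2) := rfl
    rw [h7, h6]
    rfl
  simp only [hd]
  have hB' : ‖fderiv ℝ ρ X e‖ ≤ B * ‖e‖ :=
    ((fderiv ℝ ρ X).le_opNorm e).trans (mul_le_mul_of_nonneg_right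
      (hB X (by rw [mem_closedBall_zero_iff]; exact hX)) (norm_nonneg _))
  constructor
  · rw [memLp_two_iff_integrable_sq (E1984.continuous_dG _ _ _ _ _).aestronglyMeasurable]
    simpa using h.integrable_dG hm hg (fderiv ℝ ρ X e) 0
  · have h5 := h2 _ _ _ h (ρ X) hm g hg (fderiv ℝ ρ X e)
    simp only [pow_zero, one_mul] at h5
    refine h5.trans ?_
    have h6 : ‖fderiv ℝ ρ X e‖ ^ 2 ≤ (B * ‖e‖) ^ 2 := pow_le_pow_left₀ (norm_nonneg _) hB' 2
    calc c2 * ‖fderiv ℝ ρ X e‖ ^ 2 ≤ c2 * (B * ‖e‖) ^ 2 := mul_le_mul_of_nonneg_left h6 hc2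
      _ = _ := by ring

end gauss

/-! ### The block state in the heavy vacuum -/

/-- the heavy vacuum, cut off -/
def Uz (P : TPack C M R G) (ζ : Pos p → ℝ) (X : Pos p) : F →L[ℂ] F := ((ζ X : ℝ) : ℂ) • P.U X

/-- the block state in the heavy vacuum -/
def Ps0 (P : TPack C M R G) (ζ : Pos p → ℝ) (g : ℝ) (q : Pos p × C.Blk) : C.Fx M G →L[ℂ] F :=
  (Uz P ζ q.1).comp ((P.Psi g (q.2 : Cfg N)).comp (C.Fx M G).subtypeL)

theorem Ps0_apply (P : TPack C M R G) (ζ : Pos p → ℝ) (g : ℝ) (X : Pos p) (Y : C.Blk)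
    (v : C.Fx M G) : Ps0 P ζ g (X, Y) v = Uz P ζ X (P.Psi g (Y : Cfg N) (v : F)) := rfl

section blk

variable {P : TPack C M R G} {ζ : Pos p → ℝ}

theorem contDiff_Uz (hζ : ContDiff ℝ ∞ ζ) (hs : ∀ X ∈ tsupport ζ, C.BReg X) :
    ContDiff ℝ ∞ (Uz P ζ) := by
  rw [contDiff_iff_contDiffAt]
  intro X
  by_cases hX : X ∈ tsupport ζ
  · exact (Complex.ofRealCLM.contDiff.comp hζ).contDiffAt.smul (P.U_smooth X (hs X hX))
  · have h1 : Uz P ζ =ᶠ[𝓝 X] fun _ => 0 := by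
      have h2 := notMem_tsupport_iff_eventuallyEq.1 hX
      filter_upwards [h2] with y hy
      unfold Uz
      rw [hy]; simp
    exact (contDiffAt_const (c := (0 : F →L[ℂ] F))).congr_of_eventuallyEq h1

theorem hcs_Uz (hc : HasCompactSupport ζ) : HasCompactSupport (Uz P ζ) :=
  hc.mono fun X hX h0 => hX (by simp [Uz, h0])

theorem Uz_bound (hζ : ContDiff ℝ ∞ ζ) (hs : ∀ X ∈ tsupport ζ, C.BReg X)
    (hc : HasCompactSupport ζ) : ∃ B : ℝ, 0 ≤ B ∧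
      ∀ X d v, ‖fderiv ℝ (fun X => Uz P ζ X v) X d‖ ≤ B * ‖d‖ * ‖v‖ :=
  fderiv_bound ((contDiff_Uz hζ hs).of_le (by simp)) (hcs_Uz hc)

theorem contDiff_Psi_blk {g : ℝ} (hg : ContDiff ℝ ∞ (P.Psi g)) (v : F) :
    ContDiff ℝ ∞ fun Y : C.Blk => P.Psi g (Y : Cfg N) v :=
  (contDiff_ev hg v).comp C.Blk.subtypeL.contDiff

theorem contDiff_Ps0 (hζ : ContDiff ℝ ∞ ζ) (hs : ∀ X ∈ tsupport ζ, C.BReg X) {g : ℝ}
    (hg : ContDiff ℝ ∞ (P.Psi g)) : ContDiff ℝ ∞ (Ps0 P ζ g) := by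
  refine contDiff_of_apply fun v => ?_
  have h1 : ContDiff ℝ ∞ fun q : Pos p × C.Blk => P.Psi g (q.2 : Cfg N) (v : F) :=
    (contDiff_Psi_blk hg (v : F)).comp contDiff_snd
  have h2 : ContDiff ℝ ∞ fun q : Pos p × C.Blk => Uz P ζ q.1 :=
    (contDiff_Uz hζ hs).comp contDiff_fst
  have h3 : ContDiff ℝ ∞ fun q : Pos p × C.Blk =>
      Uz P ζ q.1 (P.Psi g (q.2 : Cfg N) (v : F)) := contDiff_app h2 h1
  exact h3

theorem fderiv_Ps0 (hζ : ContDiff ℝ ∞ ζ) (hs : ∀ X ∈ tsupport ζ, C.BReg X) {g : ℝ}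
    (hg : ContDiff ℝ ∞ (P.Psi g)) (X e : Pos p) (Y : C.Blk) (v : C.Fx M G) :
    fderiv ℝ (Ps0 P ζ g) (X, Y) (e, 0) v =
      fderiv ℝ (fun X => Uz P ζ X (P.Psi g (Y : Cfg N) (v : F))) X e := by
  have hd := (contDiff_Ps0 hζ hs hg).differentiable (by simp)
  rw [fderiv_ev (hd _)]
  have h1 : HasFDerivAt (fun q => Ps0 P ζ g q v) (fderiv ℝ (fun q => Ps0 P ζ g q v) (X, Y))
      (X, Y) := (((contDiff_ev (contDiff_Ps0 hζ hs hg) v).differentiable (by simp)) _).hasFDerivAt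
  have h2 : HasFDerivAt (fun X : Pos p => ((X, Y) : Pos p × C.Blk))
      (ContinuousLinearMap.inl ℝ (Pos p) C.Blk) X := hasFDerivAt_prodMk_left X Y
  have h3 := h1.comp X h2
  have h4 : HasFDerivAt (fun X => Uz P ζ X (P.Psi g (Y : Cfg N) (v : F))) _ X := h3
  rw [h4.fderiv]
  rfl

/-- the block state has norm at most `3/2` -/
theorem Psi_memLp {g : ℝ} (hg : ContDiff ℝ ∞ (P.Psi g)) (v : F) :
    MemLp (fun Y : C.Blk => P.Psi g (Y : Cfg N) v) 2 := by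
  have hc := (contDiff_Psi_blk hg v).continuous
  rw [memLp_two_iff_integrable_sq_norm hc.aestronglyMeasurable]
  exact integrable_Psi_sq P hg.continuous v

theorem Ps0_norm (hζ : ContDiff ℝ ∞ ζ) (hs : ∀ X ∈ tsupport ζ, C.BReg X)
    (h1 : ∀ X, 0 ≤ ζ X ∧ ζ X ≤ 1) {g : ℝ} (hg : ContDiff ℝ ∞ (P.Psi g))
    (hle : ∀ f ∈ C.Fx M G, ∫ Y : C.Blk, ‖P.Psi g Y f‖ ^ 2 ≤ 3 / 2 * ‖f‖ ^ 2) (X : Pos p)
    (v : C.Fx M G) : MemLp (fun Y => Ps0 P ζ g (X, Y) v) 2 ∧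
      ∫ Y, ‖Ps0 P ζ g (X, Y) v‖ ^ 2 ≤ 3 / 2 * ‖v‖ ^ 2 := by
  have hpt : ∀ Y : C.Blk, ‖Ps0 P ζ g (X, Y) v‖ ≤ ‖P.Psi g (Y : Cfg N) (v : F)‖ := by
    intro Y
    rw [Ps0_apply]
    by_cases hX : X ∈ tsupport ζ
    · unfold Uz
      rw [_root_.smul_apply, norm_smul, norm_U P (hs X hX) (P.Psi_mem g Y Y.2 v v.2),
        Complex.norm_real, Real.norm_of_nonneg (h1 X).1]
      exact mul_le_of_le_one_left (norm_nonneg _) (h1 X).2
    · unfold Uz
      rw [image_eq_zero_of_notMem_tsupport hX]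
      simp
  have hc : Continuous fun Y => Ps0 P ζ g (X, Y) v :=
    (contDiff_ev (contDiff_Ps0 hζ hs hg) v).continuous.comp (by fun_prop)
  have hm := Psi_memLp hg (v : F)
  refine ⟨hm.mono hc.aestronglyMeasurable (Eventually.of_forall hpt), ?_⟩
  refine le_trans ?_ (hle v v.2)
  refine integral_mono_of_nonneg (Eventually.of_forall fun Y => by positivity)
    (integrable_Psi_sq P hg.continuous v) (Eventually.of_forall fun Y => ?_)
  exact pow_le_pow_left₀ (norm_nonneg _) (hpt Y) 2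

theorem Ps0_dnorm (hζ : ContDiff ℝ ∞ ζ) (hs : ∀ X ∈ tsupport ζ, C.BReg X) {B : ℝ} (hB0 : 0 ≤ B)
    (hB : ∀ X d v, ‖fderiv ℝ (fun X => Uz P ζ X v) X d‖ ≤ B * ‖d‖ * ‖v‖)
    {g : ℝ} (hg : ContDiff ℝ ∞ (P.Psi g))
    (hle : ∀ f ∈ C.Fx M G, ∫ Y : C.Blk, ‖P.Psi g Y f‖ ^ 2 ≤ 3 / 2 * ‖f‖ ^ 2) (X e : Pos p)
    (v : C.Fx M G) : MemLp (fun Y => fderiv ℝ (Ps0 P ζ g) (X, Y) (e, 0) v) 2 ∧
      ∫ Y, ‖fderiv ℝ (Ps0 P ζ g) (X, Y) (e, 0) v‖ ^ 2 ≤ (B * ‖e‖) ^ 2 * (3 / 2) * ‖v‖ ^ 2 := by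
  have hpt : ∀ Y : C.Blk, ‖fderiv ℝ (Ps0 P ζ g) (X, Y) (e, 0) v‖ ≤
      B * ‖e‖ * ‖P.Psi g (Y : Cfg N) (v : F)‖ := by
    intro Y
    rw [fderiv_Ps0 hζ hs hg]
    exact hB X e _
  have hc0 : Continuous fun q : Pos p × C.Blk => fderiv ℝ (fun q => Ps0 P ζ g q v) q (e, 0) :=
    ((contDiff_ev (contDiff_Ps0 hζ hs hg) v).continuous_fderiv (by simp)).clm_apply
      continuous_const
  have hc : Continuous fun Y => fderiv ℝ (Ps0 P ζ g) (X, Y) (e, 0) v := by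
    have h2 : (fun Y => fderiv ℝ (Ps0 P ζ g) (X, Y) (e, 0) v) = fun Y =>
        fderiv ℝ (fun q => Ps0 P ζ g q v) (X, Y) (e, 0) := by
      funext Y
      exact fderiv_ev (((contDiff_Ps0 hζ hs hg).differentiable (by simp)) _) _ _
    rw [h2]
    exact hc0.comp (by fun_prop)
  have hm := (Psi_memLp hg (v : F)).norm.const_mul (B * ‖e‖)
  refine ⟨hm.mono hc.aestronglyMeasurable (Eventually.of_forall fun Y => ?_), ?_⟩
  · rw [Real.norm_of_nonneg (by positivity)]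
    exact hpt Y
  · have hi := (integrable_Psi_sq P hg.continuous (v : F)).const_mul ((B * ‖e‖) ^ 2)
    have h3 : ∫ Y : C.Blk, (B * ‖e‖) ^ 2 * ‖P.Psi g Y (v : F)‖ ^ 2 ≤
        (B * ‖e‖) ^ 2 * (3 / 2 * ‖(v : F)‖ ^ 2) := by
      rw [integral_const_mul]
      exact mul_le_mul_of_nonneg_left (hle v v.2) (by positivity)
    have h4 : ∫ Y, ‖fderiv ℝ (Ps0 P ζ g) (X, Y) (e, 0) v‖ ^ 2 ≤
        ∫ Y : C.Blk, (B * ‖e‖) ^ 2 * ‖P.Psi g Y (v : F)‖ ^ 2 := by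
      refine integral_mono_of_nonneg (Eventually.of_forall fun Y => by positivity) hi
        (Eventually.of_forall fun Y => ?_)
      show ‖fderiv ℝ (Ps0 P ζ g) (X, Y) (e, 0) v‖ ^ 2 ≤ (B * ‖e‖) ^ 2 * ‖P.Psi g Y (v : F)‖ ^ 2
      rw [← mul_pow]
      exact pow_le_pow_left₀ (norm_nonneg _) (hpt Y) 2
    calc _ ≤ _ := h4.trans h3
      _ = _ := by
        show _ = (B * ‖e‖) ^ 2 * (3 / 2) * ‖(v : F)‖ ^ 2
        ring

end blk

/-! ### The slice function in the coordinates `(X, (Y, z))` -/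

/-- coordinates of the slice -/
def cX (σ : Sl C) : (Pos p × (C.Blk × Zs b (C.cf σ.X0))) → Sc b (C.cf σ.X0) := fun q =>
  (PairT245.uE (BrT5658.reg0 σ) (q.1 - σ.X0, q.2.1), q.2.2)

/-- the slice function in coordinates -/
def PhiX (σ : Sl C) (κ : Sc b (C.cf σ.X0) → ℝ) (φ : Cfg N → F)
    (q : Pos p × (C.Blk × Zs b (C.cf σ.X0))) : F := half b (C.cf σ.X0) κ φ (cX σ q)

section coord

variable {P : TPack C M R G} {σ : Sl C} {ρ : Pos p → Pos p} {κ : Sc b (C.cf σ.X0) → ℝ} {g : ℝ}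
  {φ : Cfg N → F} {ζ : Pos p → ℝ}

/-- the linear part of the coordinates -/
def cL (σ : Sl C) : (Pos p × (C.Blk × Zs b (C.cf σ.X0))) ≃L[ℝ] Sc b (C.cf σ.X0) :=
  (ContinuousLinearEquiv.prodAssoc ℝ (Pos p) C.Blk (Zs b (C.cf σ.X0))).symm.trans
    ((PairT245.uE (BrT5658.reg0 σ)).prodCongr (ContinuousLinearEquiv.refl ℝ _))

theorem cX_eq (q : Pos p × (C.Blk × Zs b (C.cf σ.X0))) :
    cX σ q = cL σ (q - (σ.X0, (0, 0))) := by
  unfold cX cL
  simp only [ContinuousLinearEquiv.trans_apply]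
  show _ = (PairT245.uE (BrT5658.reg0 σ) (q.1 - σ.X0, q.2.1 - 0), q.2.2 - 0)
  rw [sub_zero, sub_zero]

theorem cX_add (q : Pos p × (C.Blk × Zs b (C.cf σ.X0))) :
    cX σ (q + (σ.X0, (0, 0))) = cL σ q := by
  rw [cX_eq, add_sub_cancel_right]

theorem mp_cL : MeasurePreserving (cL σ) (volume : Measure (Pos p × (C.Blk × Zs b (C.cf σ.X0))))
    (volume : Measure (Sc b (C.cf σ.X0))) := by
  have h1 : MeasurePreserving
      (MeasurableEquiv.prodAssoc.symm : (Pos p × (C.Blk × Zs b (C.cf σ.X0))) ≃ᵐ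
        (Pos p × C.Blk) × Zs b (C.cf σ.X0)) volume volume :=
    (measurePreserving_prodAssoc volume volume volume).symm _
  have h2 : MeasurePreserving (Prod.map (PairT245.uE (BrT5658.reg0 σ))
      (id : Zs b (C.cf σ.X0) → Zs b (C.cf σ.X0))) volume volume :=
    (PairT245.mp_uE (BrT5658.reg0 σ)).prod (MeasurePreserving.id volume)
  exact h2.comp h1

theorem mp_cX : MeasurePreserving (cX σ) (volume : Measure (Pos p × (C.Blk × Zs b (C.cf σ.X0))))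
    (volume : Measure (Sc b (C.cf σ.X0))) := by
  have h1 : MeasurePreserving (fun q : Pos p × (C.Blk × Zs b (C.cf σ.X0)) =>
      q - (σ.X0, (0, 0))) volume volume := by
    have h4 : MeasurePreserving (Prod.map (fun X : Pos p => X - σ.X0)
        (id : C.Blk × Zs b (C.cf σ.X0) → C.Blk × Zs b (C.cf σ.X0))) volume volume :=
      (measurePreserving_sub_right volume σ.X0).prod (MeasurePreserving.id volume)
    have h5 : (fun q : Pos p × (C.Blk × Zs b (C.cf σ.X0)) => q - (σ.X0, (0, 0))) =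
        Prod.map (fun X : Pos p => X - σ.X0) id := by
      funext q
      show (q.1 - σ.X0, (q.2.1 - 0, q.2.2 - 0)) = (q.1 - σ.X0, q.2)
      rw [sub_zero, sub_zero]
    rw [h5]
    exact h4
  have h2 := (mp_cL (σ := σ)).comp h1
  have h3 : cX σ = (cL σ) ∘ fun q => q - (σ.X0, (0, 0)) := funext fun q => cX_eq q
  rw [h3]
  exact h2

theorem contDiff_cX {n : WithTop ℕ∞} : ContDiff ℝ n (cX σ) := by
  have h3 : cX σ = fun q => cL σ (q - (σ.X0, (0, 0))) := funext fun q => cX_eq q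
  rw [h3]
  exact (cL σ).contDiff.comp (contDiff_id.sub contDiff_const)

theorem emb_cX : MeasurableEmbedding (cX σ) := by
  have h3 : cX σ = (cL σ).toHomeomorph ∘ (Homeomorph.subRight (σ.X0, (0, 0))) :=
    funext fun q => cX_eq q
  rw [h3]
  exact (cL σ).toHomeomorph.measurableEmbedding.comp (Homeomorph.measurableEmbedding _)

theorem contDiff_PhiX {n : WithTop ℕ∞} (hκ : ContDiff ℝ n κ) (hφ : ContDiff ℝ n φ) :
    ContDiff ℝ n (PhiX σ κ φ) := (contDiff_half hκ hφ).comp contDiff_cX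

theorem hcs_PhiX (hκ : HasCompactSupport κ) : HasCompactSupport (PhiX σ κ φ) := by
  have h1 := (hcs_half (φ := φ) hκ).comp_homeomorph
    ((Homeomorph.subRight (σ.X0, ((0 : C.Blk), (0 : Zs b (C.cf σ.X0))))).trans
      (cL σ).toHomeomorph)
  have h2 : PhiX σ κ φ = half b (C.cf σ.X0) κ φ ∘
      ((Homeomorph.subRight (σ.X0, ((0 : C.Blk), (0 : Zs b (C.cf σ.X0))))).trans
      (cL σ).toHomeomorph) := by
    funext q
    show half b (C.cf σ.X0) κ φ (cX σ q) = _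
    rw [cX_eq]
    rfl
  rw [h2]
  exact h1

theorem integral_PhiX_sq : ∫ q, ‖PhiX σ κ φ q‖ ^ 2 = ∫ x, ‖half b (C.cf σ.X0) κ φ x‖ ^ 2 :=
  (mp_cX (σ := σ)).integral_comp emb_cX fun x => ‖half b (C.cf σ.X0) κ φ x‖ ^ 2

/-- the direction of a position -/
def dX (σ : Sl C) (e : Pos p) : Sc b (C.cf σ.X0) := (PairT245.uE (BrT5658.reg0 σ) (e, 0), 0)

theorem fderiv_PhiX (hκ : ContDiff ℝ 1 κ) (hφ : ContDiff ℝ 1 φ)
    (q : Pos p × (C.Blk × Zs b (C.cf σ.X0))) (e : Pos p) :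
    fderiv ℝ (PhiX σ κ φ) q (e, 0) = fderiv ℝ (half b (C.cf σ.X0) κ φ) (cX σ q) (dX σ e) := by
  have h1 : HasFDerivAt (half b (C.cf σ.X0) κ φ)
      (fderiv ℝ (half b (C.cf σ.X0) κ φ) (cX σ q)) (cX σ q) :=
    (((contDiff_half hκ hφ).differentiable (by norm_num)) _).hasFDerivAt
  have h2 : HasFDerivAt (cX σ) ((cL σ : (Pos p × (C.Blk × Zs b (C.cf σ.X0))) →L[ℝ]
      Sc b (C.cf σ.X0))) q := by
    have h3 : cX σ = fun q => cL σ (q - (σ.X0, (0, 0))) := funext fun q => cX_eq q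
    rw [h3]
    have h4 := (cL σ).hasFDerivAt (x := q - (σ.X0, (0, 0)))
    have h5 : HasFDerivAt (fun q : Pos p × (C.Blk × Zs b (C.cf σ.X0)) => q - (σ.X0, (0, 0)))
      (ContinuousLinearMap.id ℝ _) q := (hasFDerivAt_id q).sub_const _
    exact h4.comp q h5
  have h3 : HasFDerivAt (PhiX σ κ φ) _ q := h1.comp q h2
  rw [h3.fderiv]
  rfl

theorem integral_fderiv_PhiX (hκ : ContDiff ℝ 1 κ) (hφ : ContDiff ℝ 1 φ) (e : Pos p) :
    ∫ q, ‖fderiv ℝ (PhiX σ κ φ) q (e, 0)‖ ^ 2 =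
      ∫ x, ‖fderiv ℝ (half b (C.cf σ.X0) κ φ) x (dX σ e)‖ ^ 2 := by
  simp only [fderiv_PhiX hκ hφ]
  exact (mp_cX (σ := σ)).integral_comp emb_cX
    fun x => ‖fderiv ℝ (half b (C.cf σ.X0) κ φ) x (dX σ e)‖ ^ 2

end coord

/-! ### The amplitude -/

section amp

instance instHaar (C : Chn b p S) (c : Cfg N) :
    ((volume : Measure C.Blk).prod (volume : Measure (Zs b c))).IsAddHaarMeasure :=
  Measure.prod.instIsAddHaarMeasure _ _

variable {P : TPack C M R G} {σ : Sl C} {ρ : Pos p → Pos p} {κ : Sc b (C.cf σ.X0) → ℝ} {g : ℝ}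
  {φ : Cfg N → F} {ζ : Pos p → ℝ}

/-- the slice function over `(Pos × Blk) × Zs` -/
def PhiY (σ : Sl C) (κ : Sc b (C.cf σ.X0) → ℝ) (φ : Cfg N → F)
    (x : (Pos p × C.Blk) × Zs b (C.cf σ.X0)) : F := PhiX σ κ φ (x.1.1, (x.1.2, x.2))

theorem contDiff_PhiY {n : WithTop ℕ∞} (hκ : ContDiff ℝ n κ) (hφ : ContDiff ℝ n φ) :
    ContDiff ℝ n (PhiY σ κ φ) :=
  (contDiff_PhiX hκ hφ).comp (ContinuousLinearEquiv.prodAssoc ℝ (Pos p) C.Blk
    (Zs b (C.cf σ.X0))).contDiff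

theorem hcs_PhiY (hκ : HasCompactSupport κ) : HasCompactSupport (PhiY σ κ φ) :=
  (hcs_PhiX (φ := φ) hκ).comp_homeomorph (ContinuousLinearEquiv.prodAssoc ℝ (Pos p) C.Blk
    (Zs b (C.cf σ.X0))).toHomeomorph

theorem fpr_PhiY (X : Pos p) (Y : C.Blk) :
    fpr volume (fun q : (Pos p × C.Blk) × Zs b (C.cf σ.X0) => gsX P σ ρ g (q.1.1, q.2))
      (fun _ => LinearMap.id) (PhiY σ κ φ) (X, Y) =
      vf P σ ρ κ g φ (PairT245.uE (BrT5658.reg0 σ) (X - σ.X0, Y)) := by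
  unfold vf fpr
  simp only [LinearMap.id_apply]
  refine integral_congr_ae (Eventually.of_forall fun z => ?_)
  show gsX P σ ρ g (X, z) • PhiY σ κ φ ((X, Y), z) = _
  simp only
  rw [gsl_eq_gsX]
  simp only
  rw [posu_uE, add_sub_cancel]
  rfl

/-- 450's amplitude is 406's -/
theorem ampX_eq (hρ : ContDiff ℝ ∞ ρ) (hr : ∀ X, ‖ρ X - σ.X0‖ < σ.r) (hκ : Cut σ κ)
    (hφ : IsCoreVec b R φ) (hg : 0 < g) (hPsi : ContDiff ℝ ∞ (P.Psi g)) (hζ : ContDiff ℝ ∞ ζ)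
    (hs : ∀ X ∈ tsupport ζ, C.BReg X) (h1 : ∀ X ∈ ks κ, ζ X = 1) (X : Pos p) :
    ((ampx (volume.prod volume) (pst (gsX P σ ρ g) (Ps0 P ζ g)) (PhiX σ κ φ) X : C.Fx M G) : F) =
      ampX P g (LocC8.wB P σ ρ κ g φ) X := by
  have hw := wfam (P := P) (g := g) hρ hr hκ hφ
  by_cases hX : X ∈ ks κ
  · refine ampX_unique (Subtype.mem _) (ampX_mem P g _ X) fun f hf => ?_
    rw [inner_ampX hw hPsi.continuous hf]
    have e0 : ⟪f, ((ampx (volume.prod volume) (pst (gsX P σ ρ g) (Ps0 P ζ g)) (PhiX σ κ φ) X :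
        C.Fx M G) : F)⟫_ℂ = ⟪(⟨f, hf⟩ : C.Fx M G), ampx (volume.prod volume)
          (pst (gsX P σ ρ g) (Ps0 P ζ g)) (PhiX σ κ φ) X⟫_ℂ := rfl
    rw [e0]
    have hvc : Continuous (vf P σ ρ κ g φ) := (contDiff_vf hρ hr hκ.smooth hκ.supp hφ.1).continuous
    have hP0 := (contDiff_Ps0 (P := P) hζ hs hPsi).continuous
    have hPm : ∀ v, MemLp (fun Y => Ps0 P ζ g (X, Y) v) 2 := fun v => by
      have hc : Continuous fun Y => Ps0 P ζ g (X, Y) v :=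
        (contDiff_ev (contDiff_Ps0 (P := P) hζ hs hPsi) v).continuous.comp (by fun_prop)
      refine hc.memLp_of_hasCompactSupport ?_
      refine HasCompactSupport.of_support_subset_isCompact
        (isCompact_closedBall (0 : C.Blk) (P.s g)) fun Y hY => ?_
      rw [mem_closedBall_zero_iff]
      by_contra hn
      rw [not_le] at hn
      refine hY ?_
      have h0 : P.Psi g Y = 0 := P.Psi_supp g Y Y.2 hn.le
      show Ps0 P ζ g (X, Y) v = 0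
      rw [Ps0_apply, h0]
      simp
    have e1 := ampx_pst_eq (μY := (volume : Measure C.Blk))
      (μZ := (volume : Measure (Zs b (C.cf σ.X0)))) (gs := gsX P σ ρ g) (Ψ₀ := Ps0 P ζ g)
      (Φ := PhiY σ κ φ) (contDiff_PhiY hκ.smooth hφ.1).continuous (hcs_PhiY hκ.supp)
      (contDiff_gsX hρ hr g).continuous (p := fun _ => LinearMap.id)
      (fun v => continuous_const) (fun _ => LinearMap.IsSymmetric.id) X
      (memLp_gsX hr hg X) hPm (fun _ _ => rfl)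
    have e2 : (fun q : Pos p × (C.Blk × Zs b (C.cf σ.X0)) => PhiY σ κ φ ((q.1, q.2.1), q.2.2)) =
        PhiX σ κ φ := rfl
    rw [e2] at e1
    rw [e1]
    have hVc : Continuous fun Y : C.Blk =>
        vf P σ ρ κ g φ (PairT245.uE (BrT5658.reg0 σ) (X - σ.X0, Y)) :=
      hvc.comp ((PairT245.uE (BrT5658.reg0 σ)).continuous.comp
        (continuous_const.prodMk continuous_id))
    have hfc : Continuous (fpr volume (fun q : (Pos p × C.Blk) × Zs b (C.cf σ.X0) =>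
        gsX P σ ρ g (q.1.1, q.2)) (fun _ => LinearMap.id) (PhiY σ κ φ)) := by
      have h0 : ContDiff ℝ ((0 : ℕ∞) : WithTop ℕ∞) (fpr volume
          (fun q : (Pos p × C.Blk) × Zs b (C.cf σ.X0) => gsX P σ ρ g (q.1.1, q.2))
          (fun _ => LinearMap.id) (PhiY σ κ φ)) :=
        contDiff_fpr (contDiff_zero.2 ((contDiff_gsX hρ hr g).continuous.comp (by fun_prop)))
          (fun v => contDiff_const)
          (contDiff_zero.2 (contDiff_PhiY hκ.smooth hφ.1).continuous) (hcs_PhiY hκ.supp)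
      exact h0.continuous
    have hVm : MemLp (fun Y : C.Blk => fpr volume
        (fun q : (Pos p × C.Blk) × Zs b (C.cf σ.X0) => gsX P σ ρ g (q.1.1, q.2))
        (fun _ => LinearMap.id) (PhiY σ κ φ) (X, Y)) 2 :=
      Amp837.fibre_memLp hfc (hasCompactSupport_fpr (hcs_PhiY hκ.supp)) X
    rw [inner_ampx' hPm hVm]
    refine integral_congr_ae (Eventually.of_forall fun Y => ?_)
    simp only
    rw [fpr_PhiY, Ps0_apply]
    unfold Uz
    rw [h1 X hX, Complex.ofReal_one, one_smul]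
    have hB := ks_breg hκ hX
    have h3 : P.U X (P.Psi g (Y : Cfg N) f) ∈ Vac P X :=
      U_mem_Vac P hB (P.Psi_mem g Y Y.2 f hf)
    have h4 : LocC8.wB P σ ρ κ g φ X Y =
        pV P X (vf P σ ρ κ g φ (PairT245.uE (BrT5658.reg0 σ) (X - σ.X0, Y))) := by
      unfold LocC8.wB
      rw [wf_eq, posu_uE, add_sub_cancel]
    rw [h4, ← pV_symm P X, pV_of_mem h3]
  · have h5 : ampx ((volume : Measure C.Blk).prod (volume : Measure (Zs b (C.cf σ.X0))))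
        (pst (gsX P σ ρ g) (Ps0 P ζ g)) (PhiX σ κ φ) X = 0 := by
      have h6 : ∀ w, PhiX σ κ φ (X, w) = 0 := fun w => by
        refine half_eq_zero ?_
        by_contra h
        apply hX
        refine ⟨_, ⟨cX σ (X, w), subset_tsupport _ h, rfl⟩, ?_⟩
        show posu σ _ = X
        unfold cX
        rw [posu_uE, add_sub_cancel]
      exact ampx_eq_zero (μ := (volume : Measure C.Blk).prod
        (volume : Measure (Zs b (C.cf σ.X0)))) h6
    rw [h5, ampX_off hw hPsi.continuous hX]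
    rfl

theorem exists_theta {E : Type*} [NormedAddCommGroup E] [InnerProductSpace ℝ E]
    [FiniteDimensional ℝ E] {K O : Set E} (hK : IsCompact K) (hO : IsOpen O) (h : K ⊆ O) :
    ∃ θ : E → ℝ, ContDiff ℝ ∞ θ ∧ HasCompactSupport θ ∧ tsupport θ ⊆ O ∧ (∀ x ∈ K, θ x = 1) ∧
      ∀ x, 0 ≤ θ x ∧ θ x ≤ 1 := by
  obtain ⟨K', hK', h1, h2⟩ := exists_compact_between hK hO h
  obtain ⟨f, h3, h4, h5⟩ := exists_contMDiffMap_zero_one_of_isClosed (modelWithCornersSelf ℝ E)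
    (n := ⊤) (isOpen_interior (s := K')).isClosed_compl hK.isClosed
    (Set.disjoint_left.2 fun x hx hxK => hx (h1 hxK))
  have hsup : tsupport (f : E → ℝ) ⊆ K' := by
    refine closure_minimal (fun x hx => ?_) hK'.isClosed
    by_contra hn
    exact hx (h3 fun hi => hn (interior_subset hi))
  exact ⟨f, contMDiff_iff_contDiff.1 f.contMDiff, hK'.of_isClosed_subset (isClosed_tsupport _) hsup,
    hsup.trans h2, fun x hx => h4 hx, fun x => ⟨(h5 x).1, (h5 x).2⟩⟩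

/-- the energy of the slice function in the position directions -/
def GE (σ : Sl C) (κ : Sc b (C.cf σ.X0) → ℝ) (φ : Cfg N → F) : ℝ :=
  ∑ q, ∫ x, ‖fderiv ℝ (half b (C.cf σ.X0) κ φ) x (dX σ (EuclideanSpace.single q 1))‖ ^ 2

theorem GE_nonneg : 0 ≤ GE σ κ φ :=
  Finset.sum_nonneg fun _ _ => integral_nonneg fun _ => by positivity

/-- **(I3).** -/
theorem I3 (P : TPack C M R G) (σ : Sl C) : ∃ δ : ℝ, 0 < δ ∧ ∀ ρ : Pos p → Pos p,
    ContDiff ℝ ∞ ρ → (∀ X, ‖ρ X - σ.X0‖ < σ.r) → (∀ X, ‖ρ X - σ.X0‖ < δ) →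
    ∀ κ : Sc b (C.cf σ.X0) → ℝ, Cut σ κ → ∃ K : ℝ, 0 ≤ K ∧ ∀ᶠ g in atTop, ∀ φ : Cfg N → F,
      IsCoreVec b R φ →
        ContDiff ℝ 1 (ampX P g (LocC8.wB P σ ρ κ g φ)) ∧
        (∫ X, ‖ampX P g (LocC8.wB P σ ρ κ g φ) X‖ ^ 2) ≤
          K * ∫ x, ‖half b (C.cf σ.X0) κ φ x‖ ^ 2 ∧
        (∫ X, ‖fderiv ℝ (ampX P g (LocC8.wB P σ ρ κ g φ)) X‖ ^ 2) ≤
          K * ((∫ x, ‖half b (C.cf σ.X0) κ φ x‖ ^ 2) + GE σ κ φ) := by
  obtain ⟨δ, hδ, hG⟩ := gsX_bounds P σ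
  refine ⟨δ, hδ, fun ρ hρ hr hrδ κ hκ => ?_⟩
  obtain ⟨rad, hrad⟩ : ∃ r, ks κ ⊆ Metric.closedBall (0 : Pos p) r :=
    (isCompact_ks hκ.supp).isBounded.subset_closedBall 0
  obtain ⟨C₁, hC₁, hG⟩ := hG ρ hρ hrδ rad
  -- the cut-off of the positions
  obtain ⟨ζ, hζ, hζc, hζs, hζ1, hζ01⟩ := exists_theta (isCompact_ks hκ.supp)
    C.isOpen_breg fun X hX => ks_breg hκ hX
  have hζb : ∀ X ∈ tsupport ζ, C.BReg X := fun X hX => hζs hX
  obtain ⟨B, hB0, hB⟩ := Uz_bound (P := P) hζ hζb hζc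
  set c0 : ℝ := 1 * (3 / 2) with hc0
  set c1 : ℝ := 2 * (C₁ * (3 / 2) + 1 * (B ^ 2 * (3 / 2))) with hc1
  have hc1' : 0 ≤ c1 := by rw [hc1]; positivity
  set n : ℝ := ((Fintype.card (Fin 9 × Fin p) : ℕ) : ℝ) with hn
  have hn0 : 0 ≤ n := by rw [hn]; positivity
  refine ⟨c0 + n * (2 * c0 + 2 * c1), by positivity, ?_⟩
  filter_upwards [eventually_Psi_le P, P.Psi_smooth, eventually_gt_atTop (0 : ℝ)] with g hle hPsi hg
  intro φ hφ
  set Ψ : Pos p × (C.Blk × Zs b (C.cf σ.X0)) → C.Fx M G →L[ℂ] F :=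
    pst (gsX P σ ρ g) (Ps0 P ζ g) with hΨd
  have hgs := contDiff_gsX (P := P) hρ hr g
  have hPs := contDiff_Ps0 (P := P) hζ hζb hPsi
  have hΨ1 : ContDiff ℝ 1 Ψ := (contDiff_pst hgs hPs).of_le (by simp)
  have hΦ1 : ContDiff ℝ 1 (PhiX σ κ φ) :=
    contDiff_PhiX (hκ.smooth.of_le (by simp)) (hφ.1.of_le (by simp))
  have hΦc : HasCompactSupport (PhiX σ κ φ) := hcs_PhiX hκ.supp
  have hoff : ∀ X w, rad < ‖X‖ → PhiX σ κ φ (X, w) = 0 := by
    intro X w hX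
    refine half_eq_zero ?_
    by_contra h
    have h2 : X ∈ ks κ := by
      refine ⟨_, ⟨cX σ (X, w), subset_tsupport _ h, rfl⟩, ?_⟩
      show posu σ _ = X
      unfold cX
      rw [posu_uE, add_sub_cancel]
    have h3 := hrad h2
    rw [mem_closedBall_zero_iff] at h3
    linarith
  have hP0 := fun X v => Ps0_norm (P := P) hζ hζb hζ01 hPsi hle X v
  let e := EuclideanSpace.basisFun (Fin 9 × Fin p) ℝ
  have he : ∀ q, e q = EuclideanSpace.single q 1 := fun q => EuclideanSpace.basisFun_apply _ _ q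
  have hen : ∀ q, ‖e q‖ = 1 := fun q => e.orthonormal.1 q
  have hmain := amp_bounds (μ := (volume : Measure C.Blk).prod
      (volume : Measure (Zs b (C.cf σ.X0)))) e hΨ1 hΦ1 hΦc (C₀ := c0) (C₁ := c1)
    (D₀ := ∫ x, ‖half b (C.cf σ.X0) κ φ x‖ ^ 2) (D₁ := GE σ κ φ) (ρ := rad)
    (by rw [hc0]; norm_num) hc1' hoff
    (fun X _ v => pst_norm (memLp_gsX hr hg X) (integral_gsX_sq hr hg X).le
      (fun v => hP0 X v) v)
    (fun X hX q v => by
      have h3 := hG g hg X hX (e q)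
      rw [hen q, one_pow, mul_one] at h3
      have h4 := fun v => Ps0_dnorm (P := P) hζ hζb hB0 hB hPsi hle X (e q) v
      rw [hen q, mul_one] at h4
      exact pst_dnorm (hgs.of_le (by simp)) (hPs.of_le (by simp)) (memLp_gsX hr hg X) h3.1
        (integral_gsX_sq hr hg X).le h3.2 (fun v => hP0 X v) h4 v)
    (le_of_eq integral_PhiX_sq)
    (fun q => by
      rw [he q]
      refine le_trans (le_of_eq (integral_fderiv_PhiX (hκ.smooth.of_le (by simp))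
        (hφ.1.of_le (by simp)) _)) ?_
      exact Finset.single_le_sum (f := fun q => ∫ x, ‖fderiv ℝ (half b (C.cf σ.X0) κ φ) x
        (dX σ (EuclideanSpace.single q 1))‖ ^ 2)
        (fun _ _ => integral_nonneg fun _ => by positivity) (Finset.mem_univ q))
  obtain ⟨m1, m2, m3, m4, m5⟩ := hmain
  set a := ampx ((volume : Measure C.Blk).prod (volume : Measure (Zs b (C.cf σ.X0)))) Ψ
    (PhiX σ κ φ) with ha
  obtain ⟨t1, t2, t3⟩ := transfer (μ := (volume : Measure (Pos p))) (C.Fx M G).subtypeₗᵢ m1 m2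
  have hA : ampX P g (LocC8.wB P σ ρ κ g φ) = fun X => (C.Fx M G).subtypeₗᵢ (a X) := by
    funext X
    exact (ampX_eq hρ hr hκ hφ hg hPsi hζ hζb hζ1 X).symm
  have hD0 : 0 ≤ ∫ x, ‖half b (C.cf σ.X0) κ φ x‖ ^ 2 := integral_nonneg fun _ => by positivity
  have hD1 : 0 ≤ GE σ κ φ := GE_nonneg
  have hc0' : 0 ≤ c0 := by rw [hc0]; norm_num
  rw [hA]
  refine ⟨t1, ?_, ?_⟩
  · rw [t2]
    refine m4.trans (mul_le_mul_of_nonneg_right ?_ hD0)
    have : 0 ≤ n * (2 * c0 + 2 * c1) := by positivity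
    linarith
  · refine t3.trans (m5.trans ?_)
    rw [← hn]
    have t1 : 0 ≤ n * c0 * ∫ x, ‖half b (C.cf σ.X0) κ φ x‖ ^ 2 := by positivity
    have t2 : 0 ≤ n * c1 * GE σ κ φ := by positivity
    have t3 : 0 ≤ c0 * ((∫ x, ‖half b (C.cf σ.X0) κ φ x‖ ^ 2) + GE σ κ φ) := by positivity
    nlinarith [t1, t2, t3]

end amp

end Crest.Agent.R330.I3186

end
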