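import Crest.Agent.R330.I3In_815
import Crest.Agent.R330.I3_186

/-!
# Row 330, (I3): the input `i3` of `LocAt` (plug of 186's `I3` into 815's bounds, helper478)
-/

set_option autoImplicit false
set_option linter.unusedSectionVars false

open MeasureTheory Filter Topology Crest.MathPhysics.MatrixQM
open scoped ContDiff InnerProductSpace ENNReal

noncomputable section

namespace Crest.Agent.R330.I3Fin478

open Crest.Agent.R330.Defs478 Crest.Agent.R330.TDef414 Crest.Agent.R330.LemA342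
  Crest.Agent.R330.LocB8 Crest.Agent.R330.LocC8 Crest.Agent.R330.LocD8 Crest.Agent.R330.LocF8
  Crest.Agent.R330.SlQE87 Crest.Agent.R330.HBX450 Crest.Agent.R330.TrialSys796
  Crest.Agent.R330.H6596 Crest.Agent.R330.I3In815

variable {N p : ℕ} {b : ColorBasis N} {S : Type} [Group S] [Fintype S] {C : Chn b p S}
  {F : Type*} [NormedAddCommGroup F] [InnerProductSpace ℂ F] [FiniteDimensional ℂ F]
  {M : FermionRep N F} {R : GaugeAction b M} {G : GammaNine}

/-- **(I3)** for small charts. -/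
theorem i3 [Nontrivial F] (P : TPack C M R G) (σ : Sl C) {m : ℝ} (hm0 : 0 ≤ m) (hm1 : m ≤ 1) :
    Small σ fun ρ s => ∀ κ, CutS σ κ s → I3In P σ ρ κ m := by
  obtain ⟨δ, hδ, h1⟩ := I3186.I3 P σ
  obtain ⟨s0, hs0, h2⟩ := grad_small P σ hm0 hm1
  refine ⟨s0, min δ σ.r, hs0, lt_min hδ σ.pos, fun s hs hss ρ hρ κ hκ => ?_⟩
  obtain ⟨K, hK, h3⟩ := h1 ρ hρ.smooth (fun X => (hρ.ball X).trans_le (min_le_right _ _))
    (fun X => (hρ.ball X).trans_le (min_le_left _ _)) κ hκ.cut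
  obtain ⟨K', hK', h4⟩ := h2 s hs hss κ hκ
  refine ⟨2 * (K * K'), by positivity, ?_⟩
  filter_upwards [h3, eventually_ge_atTop 1] with g hg hg1 φ hφ
  obtain ⟨b1, b2, b3⟩ := hg φ hφ
  obtain ⟨c1, c2⟩ := h4 g hg1 φ hφ
  have hΦ : ContDiff ℝ ∞ (half b (C.cf σ.X0) κ φ) := contDiff_half hκ.cut.smooth hφ.1
  have hc : HasCompactSupport (half b (C.cf σ.X0) κ φ) := hcs_half hκ.cut.supp
  have h5 : I3186.GE σ κ φ = ∫ x, ∑ q, ‖fderiv ℝ (half b (C.cf σ.X0) κ φ) x
      (dC (BrT5658.reg0 σ) q, 0)‖ ^ 2 ∂(volume.prod volume) := by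
    rw [← sum_int_grad hΦ hc (fun q => ((dC (BrT5658.reg0 σ) q, 0) : Sc b (C.cf σ.X0)))]
    unfold I3186.GE I3186.dX
    simp only [dC_eq]
    rfl
  rw [h5] at b3
  have hEn : 0 ≤ En b M G g m φ := En_nonneg g m φ
  have d1 : K * ∫ x, ‖half b (C.cf σ.X0) κ φ x‖ ^ 2 ∂(volume.prod volume) ≤
      K * (K' * En b M G g m φ) := mul_le_mul_of_nonneg_left c1 hK
  have d2 := mul_le_mul_of_nonneg_left (add_le_add c1 c2) hK
  have d3 : 0 ≤ K * (K' * En b M G g m φ) := by positivity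
  refine ⟨b1, b2.trans (d1.trans ?_), b3.trans (d2.trans ?_)⟩
  · nlinarith
  · nlinarith

end Crest.Agent.R330.I3Fin478

end
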