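import Crest.Agent.R330.LocC_8
import Crest.Agent.R330.CapIntC_737
import Crest.Agent.R330.Ctr_581

/-!
# Row 330, S9-LOC (helper998): centre directions and cut-offs on the slice

* `ctrS_eq`, `PF_eq`, `sub_PF`, `mem_Su` : 737's projection is `C.cf (C.cfT u)`; `u - PF u = PY u`.
* `rad s` : radial cut-off on `Sc b c`; `radT σ s θ` : times `θ (posu)`; `cut_radT : Cut σ ..`,
  `half_radT`.
* `exists_jd_bound`, `jd_half_le` : the density on a ball.
-/

set_option autoImplicit false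
set_option linter.unusedSectionVars false

open MeasureTheory Filter Topology Crest.MathPhysics.MatrixQM
open scoped ContDiff InnerProductSpace ENNReal

noncomputable section

namespace Crest.Agent.R330.HQ998

open Crest.Agent.R330.Defs478 Crest.Agent.R330.LS839 Crest.Agent.R330.Frame839
  Crest.Agent.R330.Clus839
  Crest.Agent.R330.Bind6839 Crest.Agent.R330.SlG944 Crest.Agent.R330.SlF944
  Crest.Agent.R330.IBP837 Crest.Agent.R330.TDef414
  Crest.Agent.R330.LemA342 Crest.Agent.R330.FibProj837 Crest.Agent.R330.LocB8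
  Crest.Agent.R330.LocC8 Crest.Agent.R330.SlQE87 Crest.Agent.R330.Strata737
  Crest.Agent.R330.CapIntC737
open Crest.Agent.R330.SlB314 (Nor Tan br)
open Crest.Agent.R330.SlN712 (jd)
open Crest.Agent.R330.KEq823 (actU actZ)

variable {N p : ℕ} {b : ColorBasis N} {S : Type} [Group S] [Fintype S] {C : Chn b p S}
  {F : Type*} [NormedAddCommGroup F] [InnerProductSpace ℂ F] [FiniteDimensional ℂ F]
  {M : FermionRep N F} {R : GaugeAction b M} {G : GammaNine} {X0 : Pos p}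

/-! ## The centre directions -/

/-- the central directions of 737 are the positions -/
theorem ctrS_eq (h0 : C.Reg X0) : ctrS b (C.cf X0) = C.Cen := by
  have hc : Comc b (C.cf X0) := PairT245.Comc_cf X0
  ext r
  constructor
  · intro hr
    have h1 : ∀ i, ∃ t, C.cen t = comp r i := by
      intro i
      have h2 : comp r i ∈ C.kk := by
        have := Ctr581.comp_mem_kk hc hr i
        rwa [show kc (actB b) (C.cf X0) = C.kk from h0] at this
      refine C.cen_all _ h2 fun v hv => ?_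
      have h3 : v ∈ kc (actB b) (C.cf X0) := by
        rw [show kc (actB b) (C.cf X0) = C.kk from h0]
        exact hv
      exact Ctr581.comp_comm hr i h3
    choose t ht using h1
    refine ⟨mkp t, ?_⟩
    refine ext_comp fun i => ?_
    show comp (C.cf (mkp t)) i = comp r i
    rw [C.comp_cf, pcomp_mkp, ht]
  · rintro ⟨X, rfl⟩
    rw [Ctr581.mem_ctrS_iff, show kc (actB b) (C.cf X0) = C.kk from h0]
    intro u hu
    rw [kc_eq, ColAlg.mem_kk]
    intro i
    show (colAlg b).br (comp (C.cf X) i) u = 0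
    rw [C.comp_cf]
    exact C.cen_comm _ _ hu

/-- the projection on the central directions -/
theorem PF_eq (h0 : C.Reg X0) (y : Cfg N) : PF b (C.cf X0) y = C.cf (C.cfT y) := by
  unfold PF
  refine Submodule.eq_starProjection_of_mem_of_inner_eq_zero ?_ ?_
  · rw [ctrS_eq h0]
    exact ⟨C.cfT y, rfl⟩
  rw [ctrS_eq h0]
  rintro _ ⟨X, rfl⟩
  show ⟪y - C.cf (C.cfT y), C.cf X⟫_ℝ = 0
  rw [inner_sub_left, C.cf.inner_map_map, TCore383.inner_cfT, sub_self]

theorem PK_of_mem (h0 : C.Reg X0) {u : Cfg N} (hu : u ∈ Uk b (C.cf X0)) : C.PK u = u := by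
  unfold Chn.PK
  rw [PairT245.Uk_eq h0] at hu
  exact Submodule.starProjection_eq_self_iff.2 hu

theorem sub_PF (h0 : C.Reg X0) {u : Cfg N} (hu : u ∈ Uk b (C.cf X0)) :
    u - PF b (C.cf X0) u = C.PY u := by
  unfold Chn.PY
  rw [PF_eq h0, PK_of_mem h0 hu]

theorem mem_Su (h0 : C.Reg X0) {η δ : ℝ} {u : Uk b (C.cf X0)} :
    u ∈ Su b (C.cf X0) η δ ↔ ‖(u : Cfg N)‖ < η ∧ ‖C.PY (u : Cfg N)‖ < δ := by
  show (‖(u : Cfg N)‖ < η ∧ ‖(u : Cfg N) - PF b (C.cf X0) u‖ < δ) ↔ _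
  rw [sub_PF h0 u.2]

theorem Su_eq (h0 : C.Reg X0) (η δ : ℝ) : Su b (C.cf X0) η δ =
    {u : Uk b (C.cf X0) | ‖(u : Cfg N)‖ < η ∧ ‖C.PY (u : Cfg N)‖ < δ} :=
  Set.ext fun _ => mem_Su h0

theorem Su_subset (h0 : C.Reg X0) (η δ : ℝ) : Su b (C.cf X0) η δ ⊆
    {u : Uk b (C.cf X0) | ‖C.PY (u : Cfg N)‖ < δ} := fun _ hu => ((mem_Su h0).1 hu).2

/-! ## The radial cut-off -/

section rad

variable {c : Cfg N}

/-- radial cut-off: one for `‖u + z‖ ≤ s / 2`, zero for `s ≤ ‖u + z‖` -/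
def rad (s : ℝ) (x : Sc b c) : ℝ :=
  Real.smoothTransition ((s ^ 2 - (‖x.1‖ ^ 2 + ‖x.2‖ ^ 2)) / (s ^ 2 - s ^ 2 / 4))

theorem contDiff_rad (s : ℝ) : ContDiff ℝ ∞ (rad s : Sc b c → ℝ) := by
  refine Real.smoothTransition.contDiff.comp ?_
  refine ContDiff.div_const (contDiff_const.sub (ContDiff.add ?_ ?_)) _
  · exact (contDiff_norm_sq ℝ).comp contDiff_fst
  · exact (contDiff_norm_sq ℝ).comp contDiff_snd

theorem rad_nonneg (s : ℝ) (x : Sc b c) : 0 ≤ rad s x := Real.smoothTransition.nonneg _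

theorem rad_le_one (s : ℝ) (x : Sc b c) : rad s x ≤ 1 := Real.smoothTransition.le_one _

theorem norm_sq_pt (x : Sc b c) : ‖(x.1 : Cfg N) + x.2‖ ^ 2 = ‖x.1‖ ^ 2 + ‖x.2‖ ^ 2 :=
  CapIntC737.norm_sq x.1 x.2

theorem rad_one {s : ℝ} (hs : 0 < s) {x : Sc b c} (h : ‖(x.1 : Cfg N) + x.2‖ ≤ s / 2) :
    rad s x = 1 := by
  have h1 : ‖(x.1 : Cfg N) + x.2‖ ^ 2 ≤ (s / 2) ^ 2 := pow_le_pow_left₀ (norm_nonneg _) h 2
  rw [norm_sq_pt] at h1
  unfold rad
  apply Real.smoothTransition.one_of_one_le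
  have h2 : 0 < s ^ 2 - s ^ 2 / 4 := by nlinarith [sq_pos_of_pos hs]
  rw [le_div_iff₀ h2]
  nlinarith

theorem rad_zero {s : ℝ} (hs : 0 < s) {x : Sc b c} (h : s ≤ ‖(x.1 : Cfg N) + x.2‖) :
    rad s x = 0 := by
  have h1 : s ^ 2 ≤ ‖(x.1 : Cfg N) + x.2‖ ^ 2 := pow_le_pow_left₀ hs.le h 2
  rw [norm_sq_pt] at h1
  unfold rad
  apply Real.smoothTransition.zero_of_nonpos
  exact div_nonpos_of_nonpos_of_nonneg (by linarith) (by nlinarith [sq_nonneg s])

theorem tsupport_rad {s : ℝ} (hs : 0 < s) :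
    tsupport (rad s : Sc b c → ℝ) ⊆ {x | ‖(x.1 : Cfg N) + x.2‖ ≤ s} := by
  refine closure_minimal (fun x hx => ?_) ?_
  · by_contra h
    exact hx (rad_zero hs (not_le.1 h).le)
  · refine isClosed_le (Continuous.norm ?_) continuous_const
    exact (continuous_subtype_val.comp continuous_fst).add
      (continuous_subtype_val.comp continuous_snd)

theorem norm_le_of {s : ℝ} (hs : 0 < s) {x : Sc b c} (h : ‖(x.1 : Cfg N) + x.2‖ ≤ s) :
    ‖x‖ ≤ s := by
  have h1 := pow_le_pow_left₀ (norm_nonneg _) h 2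
  rw [norm_sq_pt] at h1
  rw [Prod.norm_def]
  refine max_le ?_ ?_
  · refine (pow_le_pow_iff_left₀ (norm_nonneg _) hs.le two_ne_zero).1 ?_
    nlinarith [sq_nonneg ‖x.2‖]
  · refine (pow_le_pow_iff_left₀ (norm_nonneg _) hs.le two_ne_zero).1 ?_
    nlinarith [sq_nonneg ‖x.1‖]

theorem hcs_rad {s : ℝ} (hs : 0 < s) : HasCompactSupport (rad s : Sc b c → ℝ) := by
  refine (isCompact_closedBall (0 : Sc b c) s).of_isClosed_subset (isClosed_tsupport _)
    fun x hx => ?_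
  rw [mem_closedBall_zero_iff]
  exact norm_le_of hs (tsupport_rad hs hx)

theorem rad_act (s : ℝ) {h : Matrix.specialUnitaryGroup (Fin N) ℂ} (hc : b.act h c = c)
    (u : Uk b c) (z : Zs b c) : rad s (actU hc u, actZ hc z) = rad s (u, z) := by
  have h1 : ‖actU hc u‖ = ‖u‖ := by
    show ‖b.act h (u : Cfg N)‖ = ‖(u : Cfg N)‖
    exact SlA314.act_norm b h _
  have h2 : ‖actZ hc z‖ = ‖z‖ := by
    show ‖b.act h (z : Cfg N)‖ = ‖(z : Cfg N)‖
    exact SlA314.act_norm b h _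
  unfold rad
  rw [h1, h2]

end rad

/-! ## Radial cut-off times a function of the position -/

/-- `θ (posu) * rad` -/
def radT (σ : Sl C) (s : ℝ) (θ : Pos p → ℝ) (x : Sc b (C.cf σ.X0)) : ℝ :=
  θ (posu σ (x.1 : Cfg N)) * rad s x

section radT

variable {σ : Sl C} {s : ℝ} {θ : Pos p → ℝ}

theorem contDiff_radT (hθ : ContDiff ℝ ∞ θ) : ContDiff ℝ ∞ (radT σ s θ) :=
  (hθ.comp ((contDiff_posu σ).comp contDiff_fst)).mul (contDiff_rad s)

theorem hcs_radT (hs : 0 < s) : HasCompactSupport (radT σ s θ) := (hcs_rad hs).mul_left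

theorem radT_zero (hs : 0 < s) {x : Sc b (C.cf σ.X0)} (h : s ≤ ‖(x.1 : Cfg N) + x.2‖) :
    radT σ s θ x = 0 := by
  unfold radT
  rw [rad_zero hs h, mul_zero]

theorem norm_lt_of_radT (hs : 0 < s) {x : Sc b (C.cf σ.X0)} (h : radT σ s θ x ≠ 0) :
    ‖(x.1 : Cfg N) + x.2‖ < s := by
  by_contra hlt
  exact h (radT_zero hs (not_lt.1 hlt))

theorem tsupport_radT (hs : 0 < s) : tsupport (radT σ s θ) ⊆
    {x | ‖(x.1 : Cfg N) + x.2‖ ≤ s ∧ posu σ (x.1 : Cfg N) ∈ tsupport θ} := by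
  refine closure_minimal (fun x hx => ⟨?_, ?_⟩) ?_
  · exact (norm_lt_of_radT hs hx).le
  · refine subset_tsupport _ fun h0 => hx ?_
    show θ (posu σ (x.1 : Cfg N)) * rad s x = 0
    rw [h0, zero_mul]
  · refine IsClosed.inter (isClosed_le (Continuous.norm ?_) continuous_const)
      ((isClosed_tsupport θ).preimage ((contDiff_posu σ).comp contDiff_fst).continuous)
    exact (continuous_subtype_val.comp continuous_fst).add
      (continuous_subtype_val.comp continuous_snd)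

theorem radT_act {h : Matrix.specialUnitaryGroup (Fin N) ℂ}
    (hc : b.act h (C.cf σ.X0) = C.cf σ.X0) (u : Uk b (C.cf σ.X0)) (z : Zs b (C.cf σ.X0)) :
    radT σ s θ (actU hc u, actZ hc z) = radT σ s θ (u, z) := by
  unfold radT
  rw [rad_act s hc]
  simp only [posu_actU hc u]

/-- **the cut-off of 8** -/
theorem cut_radT (hs : 0 < s) (hθ : ContDiff ℝ ∞ θ) (hb : ∀ X ∈ tsupport θ, C.BReg X) :
    Cut σ (radT σ s θ) where
  smooth := contDiff_radT hθ
  supp := hcs_radT hs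
  breg x hx := hb _ (tsupport_radT hs hx).2
  inv _ hc u z := radT_act hc u z

theorem half_radT (φ : Cfg N → F) (x : Sc b (C.cf σ.X0)) :
    half b (C.cf σ.X0) (radT σ s θ) φ x =
      θ (posu σ (x.1 : Cfg N)) • half b (C.cf σ.X0) (rad s) φ x := by
  unfold half radT
  rw [mul_smul]

theorem half_rad_one {c : Cfg N} (hs : 0 < s) (φ : Cfg N → F) {x : Sc b c}
    (h : ‖(x.1 : Cfg N) + x.2‖ ≤ s / 2) : half b c (rad s) φ x = φ (c + x.1 + x.2) := by
  unfold half
  rw [rad_one hs h, one_smul]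

end radT

/-! ## The density -/

theorem exists_jd_bound (b : ColorBasis N) (c : Cfg N) (K s : ℝ) : ∃ L : ℝ, 0 ≤ L ∧
    ∀ y : Cfg N, ‖y‖ ≤ s → jd b c K y ≤ L := by
  obtain ⟨L, hL⟩ := (isCompact_closedBall (0 : Cfg N) s).bddAbove_image
    (SlN712.continuous_jd (b := b) (c := c) (C := K)).continuousOn
  refine ⟨max L 0, le_max_right _ _, fun y hy => (hL ⟨y, ?_, rfl⟩).trans (le_max_left _ _)⟩
  rwa [mem_closedBall_zero_iff]

/-- the hypothesis `hle` of 737's `sliceEstC_of` for the radial cut-off -/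
theorem jd_half_le (b : ColorBasis N) (c : Cfg N) (K : ℝ) {s : ℝ} (hs : 0 < s) :
    ∃ L : ℝ, 0 ≤ L ∧ ∀ (φ : Cfg N → F) (u : Uk b c) (z : Zs b c), ‖(u : Cfg N) + z‖ < s / 2 →
      jd b c K ((u : Cfg N) + z) * ‖φ (c + ((u : Cfg N) + z))‖ ^ 2 ≤
        L * ‖half b c (rad s) φ (u, z)‖ ^ 2 := by
  obtain ⟨L, hL0, hL⟩ := exists_jd_bound b c K s
  refine ⟨L, hL0, fun φ u z h => ?_⟩
  rw [half_rad_one hs φ (x := (u, z)) h.le, ← add_assoc]
  have h1 := hL ((u : Cfg N) + z) (by linarith)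
  gcongr

end Crest.Agent.R330.HQ998

end
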