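import Crest.Agent.R330.LocD_8
import Crest.Agent.R330.CapGlue_737
import Crest.Agent.R330.HQ_8X_998

/-!
# Row 330, S9-LOC (helper8): the local capture estimate

* `MassIn` : the masses are bounded by the energy.
* `slice_loc` : the slice estimate for every null sequence, from the literal inputs of `LocD_8`.
* `CapLoc`, `capT_of` : the capture statement `CapT` of a channel.
-/

set_option autoImplicit false
set_option linter.unusedSectionVars false

open MeasureTheory Filter Topology Crest.MathPhysics.MatrixQM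
open scoped ContDiff InnerProductSpace ENNReal

noncomputable section

namespace Crest.Agent.R330.LocE8

open Crest.Agent.R330.Defs478 Crest.Agent.R330.LS839 Crest.Agent.R330.Frame839
  Crest.Agent.R330.Clus839
  Crest.Agent.R330.Bind6839 Crest.Agent.R330.SlG944 Crest.Agent.R330.SlF944
  Crest.Agent.R330.IBP837 Crest.Agent.R330.TDef414
  Crest.Agent.R330.LemA342 Crest.Agent.R330.FibProj837 Crest.Agent.R330.LocB8
  Crest.Agent.R330.LocC8 Crest.Agent.R330.LocD8
  Crest.Agent.R330.SlQE87 Crest.Agent.R330.HBX450 Crest.Agent.R330.CapBind737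
  Crest.Agent.R330.TrialSys796 Crest.Agent.R330.CapIntC737 Crest.Agent.R330.CapGlue737
open Crest.Agent.R330.SlB314 (Nor Tan br)
open Crest.Agent.R330.SlD314 (tube)
open Crest.Agent.R330.KEq823 (actU actZ)

variable {N p : ℕ} {b : ColorBasis N} {S : Type} [Group S] [Fintype S] {C : Chn b p S}
  {F : Type*} [NormedAddCommGroup F] [InnerProductSpace ℂ F] [FiniteDimensional ℂ F]
  {M : FermionRep N F} {R : GaugeAction b M} {G : GammaNine}

section defs

variable (P : TPack C M R G) (σ : Sl C) (ρ : Pos p → Pos p) (κ0 κ : Sc b (C.cf σ.X0) → ℝ) (m : ℝ)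

/-- the mass of the fibre projection is bounded by the energy -/
def MassIn : Prop := ∃ D : ℝ, 0 ≤ D ∧ ∀ᶠ g in atTop, ∀ φ : Cfg N → F, IsCoreVec b R φ →
  (∫ X, ∫ Y : C.Blk, ‖LocC8.wB P σ ρ κ g φ X Y‖ ^ 2) ≤ D * En b M G g m φ

/-- the inputs for one cut-off over regular positions -/
structure CutIn : Prop where
  mass : MassIn P σ ρ κ m
  hq : HQIn P σ ρ κ m
  i3 : I3In P σ ρ κ m
  i4 : I4In P σ ρ κ m

/-- all the inputs of the slice estimate -/
structure LocIn : Prop where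
  rs : ContDiff ℝ ∞ ρ
  rb : ∀ X, ‖ρ X - σ.X0‖ < σ.r
  smooth : ContDiff ℝ ∞ κ0
  supp : HasCompactSupport κ0
  i1 : I1In P σ ρ κ0 m
  tail : TailIn (R := R) (G := G) σ κ0 m
  cut : ∀ ϑ : Pos p → ℝ, ContDiff ℝ ∞ ϑ → Cut σ (cutm σ ϑ κ0) → CutIn P σ ρ (cutm σ ϑ κ0) m

end defs

variable {P : TPack C M R G} {σ : Sl C} {ρ : Pos p → Pos p} {κ0 κ : Sc b (C.cf σ.X0) → ℝ}
  {m : ℝ}

theorem slice_loc_pos (hP : PsiHardy P) (h : LocIn P σ ρ κ0 m) {g : ℕ → ℝ} {φ : ℕ → Cfg N → F}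
    (hn : Null b M R G m (X := Gen C M G) (fun g q => Tgen P q.1 g q.2.fn) g φ)
    (hpos : ∀ j, 0 < g j) {ε : ℝ≥0∞} (hε : 0 < ε) :
    ∃ δ : ℝ, 0 < δ ∧ ∀ᶠ j in atTop,
      ∫⁻ u in Sb σ δ, ∫⁻ z, ‖half b (C.cf σ.X0) κ0 (φ j) (u, z)‖ₑ ^ 2 ≤ ε := by
  obtain ⟨C0, hC0⟩ := hn.en
  have hC0' : 0 ≤ C0 := (En_nonneg (g 0) m (φ 0)).trans (hC0 0)
  obtain ⟨K1, hK1, η, hη, hI1⟩ := h.i1
  obtain ⟨δ, hδ, _, hres⟩ := CapSl924.slice_est_cut (μ := volume) (ν := volume)
    (Φ := fun j => half b (C.cf σ.X0) κ0 (φ j))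
    (fun j => (contDiff_half h.smooth (hn.core j).1).continuous)
    (fun j => hcs_half h.supp)
    (gs := fun j => gsl P σ ρ (g j)) (p := fun _ u => pV P (posu σ (u : Cfg N)))
    (fun j => (contDiff_gsl h.rs h.rb (g j)).continuous)
    (fun j u _ => ⟨memLp_gsl h.rb (hpos j) u, integral_gsl_sq h.rb (hpos j) u⟩)
    (fun j u _ => pV_symm P _) (fun j u _ v => pV_idem P _ v)
    (fun j => aesm_fpr (contDiff_vf h.rs h.rb h.smooth h.supp (hn.core j).1).continuous)
    (η := η) (C := K1 * C0) hη (by positivity) (S := Sb σ)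
    (fun δ hδ hδη e he => by
      have t1 : Tendsto (fun j => K1 * C0 * (g j)⁻¹) atTop (𝓝 0) := by
        simpa using (tendsto_inv_atTop_zero.comp hn.g_top).const_mul (K1 * C0)
      filter_upwards [hn.g_top.eventually hI1, t1.eventually (ge_mem_nhds he)] with j a1 a2
      have b1 := a1 (φ j) (hn.core j) δ hδ hδη
      have hg := hpos j
      have b2 : K1 * (1 + g j * δ ^ 2) * En b M G (g j) m (φ j) ≤
          K1 * (1 + g j * δ ^ 2) * C0 :=
        mul_le_mul_of_nonneg_left (hC0 j) (by positivity)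
      have b3 := mul_le_mul_of_nonneg_left (b1.trans b2) (inv_nonneg.2 hg.le)
      rw [← mul_assoc, inv_mul_cancel₀ hg.ne', one_mul] at b3
      refine b3.trans ?_
      have b4 : (g j)⁻¹ * (K1 * (1 + g j * δ ^ 2) * C0) =
          K1 * C0 * (g j)⁻¹ + K1 * C0 * δ ^ 2 := by
        field_simp
      rw [b4]
      linarith)
    (fun e he => by
      obtain ⟨ϑ, s1, s2, s3, s4, s5⟩ := h.tail (e / (C0 + 1)) (by positivity)
      have hc := h.cut ϑ s1 s4
      obtain ⟨D, hD, hm⟩ := hc.mass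
      obtain ⟨C', hC', hb⟩ := hb_soft hP h.rs h.rb s4 hD hm hc.hq hn.g_top hn.core hC0
      refine ⟨fun u => ϑ (posu σ (u : Cfg N)), s1.continuous.comp (contDiff_posu σ).continuous,
        fun u => s2 _, fun u => s3 _, ?_, 3, C', _, hC',
        amp_tendsto h.rs h.rb s4 hc.i3 hc.i4 hn, fun δ hδ _ e' he' => ?_⟩
      · filter_upwards [hn.g_top.eventually s5] with j a1
        refine (a1 (φ j) (hn.core j)).trans ?_
        have a2 : e / (C0 + 1) * En b M G (g j) m (φ j) ≤ e / (C0 + 1) * (C0 + 1) :=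
          mul_le_mul_of_nonneg_left ((hC0 j).trans (by linarith)) (by positivity)
        refine a2.trans (le_of_eq ?_)
        field_simp
      · filter_upwards [hb δ hδ e' he'] with j a1
        refine le_trans (le_of_eq ?_) a1
        refine integral_congr_ae (Eventually.of_forall fun u => ?_)
        simp only
        rw [wf_cutm, norm_smul, mul_pow, Real.norm_of_nonneg (s2 _)]
        rfl)
    hε
  exact ⟨δ, hδ, hres⟩

/-- **The slice estimate.** -/
theorem slice_loc (hP : PsiHardy P) (h : LocIn P σ ρ κ0 m) {g : ℕ → ℝ} {φ : ℕ → Cfg N → F}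
    (hn : Null b M R G m (X := Gen C M G) (fun g q => Tgen P q.1 g q.2.fn) g φ)
    {ε : ℝ≥0∞} (hε : 0 < ε) :
    ∃ δ : ℝ, 0 < δ ∧ ∀ᶠ j in atTop,
      ∫⁻ u in Sb σ δ, ∫⁻ z, ‖half b (C.cf σ.X0) κ0 (φ j) (u, z)‖ₑ ^ 2 ≤ ε := by
  obtain ⟨n0, hn0⟩ := eventually_atTop.1 (hn.g_top.eventually_gt_atTop 0)
  have hs : Tendsto (fun j : ℕ => j + n0) atTop atTop := tendsto_add_atTop_nat n0
  obtain ⟨δ, hδ, h1⟩ := slice_loc_pos hP h (hn.comp hs) (fun j => hn0 _ (Nat.le_add_left _ _)) hε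
  refine ⟨δ, hδ, ?_⟩
  obtain ⟨n1, hn1⟩ := eventually_atTop.1 h1
  refine eventually_atTop.2 ⟨n1 + n0, fun j hj => ?_⟩
  have h2 := hn1 (j - n0) (by omega)
  rwa [Nat.sub_add_cancel (by omega)] at h2

section cap

variable (P m)

/-- **The inputs at every regular position.** -/
def LocAll : Prop := ∀ X0 : Pos p, C.Reg X0 → ∃ σ : Sl C, σ.X0 = X0 ∧
  ∃ (ρ : Pos p → Pos p) (s : ℝ), 0 < s ∧ LocIn P σ ρ (HQ998.rad s) m

variable {P m}

/-- **The capture statement of a channel.** -/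
theorem capT_of (hP : PsiHardy P) (h : LocAll P m) : CapT P m := by
  intro X0 hX0
  obtain ⟨σ, rfl, ρ, s, hs, hin⟩ := h X0 hX0
  obtain ⟨r0, K, H⟩ := SlM712.exists_SRad b (C.cf σ.X0)
  have hη : 0 < min r0 (s / 2) := lt_min H.pos (by positivity)
  refine sliceEstC_of (PairT245.Comc_cf σ.X0) H hη (min_le_left _ _) fun g φ hn => ?_
  obtain ⟨L, hL, hle⟩ := HQ998.jd_half_le (F := F) b (C.cf σ.X0) K hs
  refine ⟨L, fun j => half b (C.cf σ.X0) (HQ998.rad s) (φ j), hL, fun j => ?_,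
    fun j u z hu => hle (φ j) u z (hu.trans_le (min_le_right _ _)), fun ε hε => ?_⟩
  · exact (contDiff_half hin.smooth (hn.core j).1).continuous
  · obtain ⟨δ, hδ, h1⟩ := slice_loc hP hin hn hε
    refine ⟨δ, hδ, (h1.mono fun j hj => le_trans ?_ hj).frequently⟩
    exact lintegral_mono_set (HQ998.Su_subset hX0 _ _)

end cap

end Crest.Agent.R330.LocE8

end
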