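import Crest.Agent.R330.LemR_342
import Crest.Agent.R330.LocE_8

/-!
# Row 330, S9-LOC (helper342): the inputs of `LocE_8` which come from Lemma R

* `r2k` : all the energies of `half b c κ0 φ` are `≤ K En`.
* `i1In` : `LocD8.I1In`, for every small radial cut-off and every retraction.
* `mass0` : `∫ ‖half b c κ0 φ‖² ≤ K En`.
-/

set_option autoImplicit false
set_option linter.unusedSectionVars false
set_option maxSynthPendingDepth 3

open MeasureTheory Filter Topology Crest.MathPhysics.MatrixQM Set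
open Crest.Agent.R330.IBP837 Crest.Agent.R330.Defs478 Crest.Agent.R330.Frame839
open Crest.Agent.R330.LS839 Crest.Agent.R330.Clus839 Crest.Agent.R330.Bind6839
open Crest.Agent.R330.LemA342 Crest.Agent.R330.LemC342 Crest.Agent.R330.SlQE87
open Crest.Agent.R330.LemR342 Crest.Agent.R330.TDef414 Crest.Agent.R330.FactI161
open Crest.Agent.R330.TrialSys796 (En)
open scoped ContDiff InnerProductSpace ENNReal

noncomputable section

namespace Crest.Agent.R330.I1In342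

variable {N p : ℕ} {b : ColorBasis N} {S : Type} [Group S] [Fintype S] {C : Chn b p S}
  {F : Type*} [NormedAddCommGroup F] [InnerProductSpace ℂ F] [FiniteDimensional ℂ F]
  {M : FermionRep N F} {R : GaugeAction b M} {G : GammaNine}

/-- All the energies of the slice function of a core vector. -/
theorem r2k [Nontrivial F] (M : FermionRep N F) (R : GaugeAction b M) (G : GammaNine)
    {c : Cfg N} (hc : Comc b c) : ∃ s : ℝ, 0 < s ∧ ∀ κ0 : Sc b c → ℝ, ContDiff ℝ ∞ κ0 →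
      HasCompactSupport κ0 → (∀ x, s ^ 2 ≤ ‖x.1‖ ^ 2 + ‖x.2‖ ^ 2 → κ0 x = 0) →
      ∀ (ι κ κ' : Type) [Fintype ι] [Fintype κ] [Fintype κ'] (e : OrthonormalBasis ι ℝ (Uk b c))
      (v : OrthonormalBasis κ ℝ (Zs b c)) (t : OrthonormalBasis κ' ℝ (Tn (actB b) c)),
      ∃ K : ℝ, 0 ≤ K ∧ ∀ g m : ℝ, 1 ≤ g → 0 ≤ m → m ≤ 1 → ∀ φ : Cfg N → F, IsCoreVec b R φ →
        (∑ α, ∫ x, ‖Aop b c M G g m α e (half b c κ0 φ) x‖ ^ 2 ∂(volume.prod volume)) +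
        (∑ α, ∫ x, ‖Bop b c M G g α v t (half b c κ0 φ) x‖ ^ 2 ∂(volume.prod volume)) +
        (∫ x, ‖half b c κ0 φ x‖ ^ 2 ∂(volume.prod volume)) ≤ K * En b M G g m φ := by
  obtain ⟨r, B, ρ0, s0, K, hr0, hr, hB, hB0, hs0, hs0ρ, hρB, hK, H⟩ := lemR b M R G hc
  obtain ⟨Γ, hΓ, hv⟩ := FibP581.exists_par (F := F) b G M hc
  obtain ⟨hF, hO⟩ := H Γ hΓ hv
  refine ⟨s0, hs0, fun κ0 hκ hκc hκs ι κ κ' _ _ _ e v t => ?_⟩
  obtain ⟨D, hD, HD⟩ := hO ι κ κ' e v t κ0 hκ hκc hκs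
  refine ⟨3 * D, by positivity, fun g m hg hm hm1 φ hφ => ?_⟩
  have h1 := HD g m hg hm hm1 φ hφ
  have h2 := h1.sA
  have h3 := h1.sB
  have h4 := h1.s0
  unfold En
  linarith

/-- **(I1) of the capture estimate.** -/
theorem i1In_of [Nontrivial F] (P : TPack C M R G) (σ : Sl C) {m : ℝ} (hm : 0 ≤ m)
    (hm1 : m ≤ 1) : ∃ s0 : ℝ, 0 < s0 ∧ ∀ s : ℝ, 0 < s → s ≤ s0 →
      ∀ κ0 : Sc b (C.cf σ.X0) → ℝ, ContDiff ℝ ∞ κ0 → HasCompactSupport κ0 →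
      (∀ x, s ^ 2 ≤ ‖x.1‖ ^ 2 + ‖x.2‖ ^ 2 → κ0 x = 0) →
      ∀ rt : Pos p → Pos p, (∀ X, ‖rt X - σ.X0‖ < σ.r) → (∀ X, ‖X - σ.X0‖ ≤ s → rt X = X) →
        LocD8.I1In P σ rt κ0 m := by
  have hc : Comc b (C.cf σ.X0) := AFld984.comc_cf C σ.X0
  obtain ⟨r, B, ρ0, s1, K, hr0, hr, hB, hB0, hs1, hs1ρ, hρB, hK, H⟩ := lemR b M R G hc
  obtain ⟨Γ, hΓ, hv⟩ := FibP581.exists_par (F := F) b G M hc
  obtain ⟨hF, hO⟩ := H Γ hΓ hv
  refine ⟨min s1 (σ.r / 2), lt_min hs1 (half_pos σ.pos), ?_⟩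
  intro s hs hss κ0 hκ hκc hκs rt hrt hrt'
  have hs1' : s ≤ s1 := hss.trans (min_le_left _ _)
  have hsr : s < σ.r := (hss.trans (min_le_right _ _)).trans_lt (half_lt_self σ.pos)
  set e := stdOrthonormalBasis ℝ (Uk b (C.cf σ.X0))
  set v := stdOrthonormalBasis ℝ (Zs b (C.cf σ.X0))
  set t := stdOrthonormalBasis ℝ (Tn (actB b) (C.cf σ.X0))
  obtain ⟨D, hD, HD⟩ := (hO.mono hs.le hs1') _ _ _ e v t κ0 hκ hκc hκs
  refine ⟨K * D, by positivity, 1, one_pos, ?_⟩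
  filter_upwards [eventually_ge_atTop (1 : ℝ)] with g hg φ hφ δ hδ _
  have hO' := HD g m hg hm hm1 φ hφ
  have hg0 : 0 < g := lt_of_lt_of_le one_pos hg
  have hE0 : 0 ≤ qf b M G g m φ + ∫ x, ‖φ x‖ ^ 2 :=
    add_nonneg (mul_nonneg (by norm_num)
      (Finset.sum_nonneg fun _ _ => integral_nonneg fun _ => sq_nonneg _))
      (integral_nonneg fun x => by positivity)
  have hφ2 : ContDiff ℝ 2 φ := hφ.1.of_le ENat.LEInfty.out
  have hκ2 : ContDiff ℝ 2 κ0 := hκ.of_le ENat.LEInfty.out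
  have key := I1_loc P σ hr0 hr hB hB0.le
    ((mul_le_mul_of_nonneg_left (hs1'.trans hs1ρ) hB0.le).trans hρB) hK
    (hF.mono (hs1'.trans hs1ρ)) hsr hrt hrt' v t hg0 (cd_half hκ2 hφ2) (cs_half hκc)
    (fun x hx => ?_) (LocD8.isOpen_Sb σ δ).measurableSet (δ := δ) (fun u hu => le_of_lt hu)
  · refine key.trans ?_
    have h1 : K * (∑ α, ∫ x, ‖Bop b (C.cf σ.X0) M G g α v t (half b (C.cf σ.X0) κ0 φ) x‖ ^ 2
        ∂(volume.prod volume) + δ ^ 2 * (g * ∫ x, ‖half b (C.cf σ.X0) κ0 φ x‖ ^ 2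
          ∂(volume.prod volume))) ≤
        K * (D * (qf b M G g m φ + ∫ x, ‖φ x‖ ^ 2) +
          δ ^ 2 * (g * (D * (qf b M G g m φ + ∫ x, ‖φ x‖ ^ 2)))) := by
      have := hO'.sB
      have := hO'.s0
      gcongr
    refine h1.trans (le_of_eq ?_)
    unfold En
    ring
  · have h3 : κ0 x = 0 := by
      refine hκs x ?_
      have h4 : s ^ 2 ≤ ‖x.1‖ ^ 2 := pow_le_pow_left₀ hs.le hx.le 2
      nlinarith [sq_nonneg ‖x.2‖]
    show κ0 x • φ _ = 0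
    rw [h3, zero_smul]

/-- **`I1In` for the radial cut-off.** -/
theorem i1In [Nontrivial F] (P : TPack C M R G) (σ : Sl C) {m : ℝ} (hm : 0 ≤ m) (hm1 : m ≤ 1) :
    ∃ s0 : ℝ, 0 < s0 ∧ ∀ s : ℝ, 0 < s → s ≤ s0 → ∀ rt : Pos p → Pos p,
      (∀ X, ‖rt X - σ.X0‖ < σ.r) → (∀ X, ‖X - σ.X0‖ ≤ s → rt X = X) →
        LocD8.I1In P σ rt (HQ998.rad s) m := by
  obtain ⟨s0, hs0, H⟩ := i1In_of P σ hm hm1
  refine ⟨s0, hs0, fun s hs hss rt h1 h2 => H s hs hss _ (HQ998.contDiff_rad s)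
    (HQ998.hcs_rad hs) (fun x hx => HQ998.rad_zero hs ?_) rt h1 h2⟩
  have h3 := HQ998.norm_sq_pt x
  by_contra hcon
  rw [not_le] at hcon
  have h4 : ‖(x.1 : Cfg N) + x.2‖ ^ 2 < s ^ 2 := pow_lt_pow_left₀ hcon (norm_nonneg _) two_ne_zero
  linarith

end Crest.Agent.R330.I1In342

end
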