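import Crest.Agent.R330.VacJ_288
import Crest.Agent.R330.Contr_973
import Crest.Agent.R330.AX_984
import Crest.Agent.R330.RhoB_406
import Crest.Agent.R330.SlE_944

/-!
# Row 330, S8-V4 (helper288): the vacuum component of the frame term

`c` commuting, `K` its commutant, `p` commuting with `K`; `f` in the heavy vacuum of `p`:
`P Σ_t B(om_p t) Θ_α(t) f = ½ Θ_α(Π_{R⁹⊗K} Σ_t [om_p t, t]) f`.
-/

set_option autoImplicit false
set_option linter.unusedSectionVars false

open scoped InnerProductSpace ContDiff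

noncomputable section

namespace Crest.Agent.R330.VacC288

open Crest.MathPhysics.MatrixQM Crest.Agent.R330.LS839 Crest.Agent.R330.Bind6839
open Crest.Agent.R330.Frame839 Crest.Agent.R330.Defs478 Crest.Agent.R330.Clus839
open Crest.Agent.R330.IBP837
open Crest.Agent.R330.Lift406 (Bop spin gm adL)

variable {N : ℕ} {F : Type*} [NormedAddCommGroup F] [InnerProductSpace ℂ F]
  [FiniteDimensional ℂ F]

/-! ## Bilinear contractions -/

section bil

variable {V G : Type*} [NormedAddCommGroup V] [InnerProductSpace ℝ V] [FiniteDimensional ℝ V]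
  [AddCommGroup G] [Module ℝ G] {ι : Type*} [Fintype ι]

theorem sum_adj (f : V →ₗ[ℝ] V →ₗ[ℝ] G) (e : OrthonormalBasis ι ℝ V) (T T' : V →ₗ[ℝ] V)
    (hT : ∀ u v, ⟪T u, v⟫_ℝ = ⟪u, T' v⟫_ℝ) :
    ∑ s, f (T (e s)) (e s) = ∑ s, f (e s) (T' (e s)) := by
  have h1 : ∀ s, f (T (e s)) (e s) = ∑ p, ⟪e p, T (e s)⟫_ℝ • f (e p) (e s) := by
    intro s
    conv_lhs => rw [← e.sum_repr' (T (e s))]
    simp only [map_sum, map_smul, LinearMap.sum_apply, LinearMap.smul_apply]
  have h2 : ∀ s, f (e s) (T' (e s)) = ∑ p, ⟪e p, T' (e s)⟫_ℝ • f (e s) (e p) := by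
    intro s
    conv_lhs => rw [← e.sum_repr' (T' (e s))]
    simp only [map_sum, map_smul]
  simp only [h1, h2]
  rw [Finset.sum_comm]
  refine Finset.sum_congr rfl fun p _ => Finset.sum_congr rfl fun s _ => ?_
  congr 1
  rw [real_inner_comm, hT, real_inner_comm]

end bil

/-! ## `θ_β(u)` is linear -/

section lin

variable (M : FermionRep N F)

theorem thv_add (β : Fin 16) (u v : Colg N) : thv M β (u + v) = thv M β u + thv M β v := by
  unfold thv
  rw [← Finset.sum_add_distrib]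
  refine Finset.sum_congr rfl fun A _ => ?_
  rw [← add_smul]
  congr 1
  simp

theorem thv_smul (β : Fin 16) (r : ℝ) (u : Colg N) : thv M β (r • u) = (r : ℂ) • thv M β u := by
  unfold thv
  rw [Finset.smul_sum]
  refine Finset.sum_congr rfl fun A _ => ?_
  rw [smul_smul]
  congr 1
  simp

theorem thv_zero (β : Fin 16) : thv M β (0 : Colg N) = 0 := by
  have := thv_smul M β 0 (0 : Colg N)
  rw [zero_smul] at this
  rw [this]
  simp

theorem thv_neg (β : Fin 16) (u : Colg N) : thv M β (-u) = -thv M β u := by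
  have := thv_smul M β (-1) u
  rw [neg_one_smul] at this
  rw [this]
  simp

theorem thv_sum {ι : Type*} (s : Finset ι) (β : Fin 16) (u : ι → Colg N) :
    thv M β (∑ i ∈ s, u i) = ∑ i ∈ s, thv M β (u i) := by
  classical
  induction s using Finset.induction_on with
  | empty => rw [Finset.sum_empty, Finset.sum_empty, thv_zero]
  | insert i s hi ih => rw [Finset.sum_insert hi, Finset.sum_insert hi, thv_add, ih]

theorem thv_symm (β : Fin 16) (u : Colg N) : (thv M β u).IsSymmetric :=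
  isSymmetric_sum _ fun A _ => isSymmetric_real_smul (M.selfAdjoint β A) _

/-- the bilinear map `(u, v) ↦ θ_β(u) θ_β(v) h` -/
def tt (β : Fin 16) (h : F) : Colg N →ₗ[ℝ] Colg N →ₗ[ℝ] F :=
  LinearMap.mk₂ ℝ (fun u v => thv M β u (thv M β v h))
    (fun u u' v => by rw [thv_add]; rfl)
    (fun r u v => by rw [thv_smul, LinearMap.smul_apply, Complex.coe_smul])
    (fun u v v' => by rw [thv_add, LinearMap.add_apply, map_add])
    (fun r u v => by rw [thv_smul, LinearMap.smul_apply, map_smul, Complex.coe_smul])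

theorem tt_apply (β : Fin 16) (h : F) (u v : Colg N) :
    tt M β h u v = thv M β u (thv M β v h) := rfl

theorem thv_single' (β : Fin 16) (A : Fin (N ^ 2 - 1)) :
    thv M β (EuclideanSpace.single A 1) = M.θ β A := by
  unfold thv
  rw [Finset.sum_eq_single A]
  · simp
  · intro B _ hB
    simp [hB]
  · simp

theorem adL_br (b : ColorBasis N) (om v : Fin (N ^ 2 - 1) → ℝ) : adL b om v = SlB314.br b om v := by
  have h := congrArg (fun x : Cfg N => fun A => x ((0 : Fin 9), A))
    (SlE944.brC_eq_brx b om (WithLp.toLp 2 fun p => v p.2))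
  exact h

/-- `B(ω) = ½ Σ_β Σ_s θ_β([ω, e_s]) θ_β(e_s)` in any orthonormal basis. -/
theorem Bop_eq {ι : Type*} [Fintype ι] (b : ColorBasis N) (w : Colg N)
    (e : OrthonormalBasis ι ℝ (Colg N)) (h : F) :
    Bop b M w.ofLp h =
      (1 / 2 : ℂ) • ∑ β, ∑ s, thv M β ((colAlg b).br w (e s)) (thv M β (e s) h) := by
  have h1 : ∀ β, ∑ s, thv M β ((colAlg b).br w (e s)) (thv M β (e s) h) =
      ∑ C, thv M β ((colAlg b).br w (EuclideanSpace.single C 1)) (M.θ β C h) := by
    intro β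
    have h2 := contraction_basis ((tt M β h).comp ((colAlg b).br w)) e
      (EuclideanSpace.basisFun (Fin (N ^ 2 - 1)) ℝ)
    simp only [LinearMap.comp_apply, tt_apply, EuclideanSpace.basisFun_apply, thv_single'] at h2
    exact h2
  simp only [h1]
  unfold Lift406.Bop Lift406.spin
  rw [_root_.smul_apply]
  congr 1
  rw [_root_.sum_apply, Fintype.sum_prod_type]
  refine Finset.sum_congr rfl fun β _ => ?_
  simp only [_root_.sum_apply, _root_.smul_apply, Fintype.sum_prod_type]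
  have h3 : ∀ A, ∑ γ, ∑ C, ((gm b w.ofLp (β, A) (γ, C) : ℝ) : ℂ) •
      (Lift406.th M (β, A) * Lift406.th M (γ, C)) h =
      ∑ C, ((adL b w.ofLp (Pi.single C 1) A : ℝ) : ℂ) • M.θ β A (M.θ β C h) := by
    intro A
    rw [Finset.sum_eq_single β]
    · refine Finset.sum_congr rfl fun C _ => ?_
      rw [Lift406.adL_single, Lift406.gm, if_pos rfl]
      rfl
    · intro γ _ hγ
      refine Finset.sum_eq_zero fun C _ => ?_
      rw [Lift406.gm, if_neg (Ne.symm hγ)]
      simp
    · simp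
  rw [Finset.sum_congr rfl fun A _ => h3 A, Finset.sum_comm]
  refine Finset.sum_congr rfl fun C _ => ?_
  have h4 : (colAlg b).br w (EuclideanSpace.single C 1) =
      (WithLp.toLp 2 (adL b w.ofLp (Pi.single C 1)) : Colg N) := by
    rw [adL_br]
    rfl
  rw [h4]
  unfold thv
  rw [LinearMap.sum_apply]
  exact Finset.sum_congr rfl fun A _ => rfl

end lin

/-! ## The split of `B(w)` -/

section split

/-- Projections commute with operators preserving a subspace and its orthogonal. -/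
theorem proj_comm {V : Type*} [NormedAddCommGroup V] [InnerProductSpace ℝ V]
    [FiniteDimensional ℝ V] (K : Submodule ℝ V) (T : V →ₗ[ℝ] V) (h1 : ∀ u ∈ K, T u ∈ K)
    (h2 : ∀ u ∈ Kᗮ, T u ∈ Kᗮ) (u : V) : T (K.starProjection u) = K.starProjection (T u) := by
  symm
  refine Submodule.eq_starProjection_of_mem_of_inner_eq_zero
    (h1 _ (Submodule.starProjection_apply_mem K u)) fun v hv => ?_
  rw [← map_sub]
  have h3 : T (u - K.starProjection u) ∈ Kᗮ :=
    h2 _ (Submodule.sub_starProjection_mem_orthogonal u)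
  rw [real_inner_comm]
  exact (Submodule.mem_orthogonal _ _).1 h3 v hv

variable (M : FermionRep N F) (b : ColorBasis N)

theorem Bop_split {ι : Type*} [Fintype ι] {K : Submodule ℝ (Colg N)} {w : Colg N}
    (hw : ∀ u ∈ K, (colAlg b).br w u ∈ Kᗮ) (e : OrthonormalBasis ι ℝ (Colg N)) (h : F) :
    Bop b M w.ofLp h =
      (∑ β, ∑ s, thv M β ((colAlg b).br w (K.starProjection (e s)))
        (thv M β (K.starProjection (e s)) h)) +
      (1 / 2 : ℂ) • ∑ β, ∑ s, thv M β (Kᗮ.starProjection ((colAlg b).br w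
        (Kᗮ.starProjection (e s)))) (thv M β (Kᗮ.starProjection (e s)) h) := by
  rw [Bop_eq M b w e h]
  set P : Colg N →ₗ[ℝ] Colg N := K.starProjection.toLinearMap with hP
  set Q : Colg N →ₗ[ℝ] Colg N := Kᗮ.starProjection.toLinearMap with hQ
  set S : Colg N →ₗ[ℝ] Colg N := (colAlg b).br w with hS
  have hPs : ∀ u v, ⟪P u, v⟫_ℝ = ⟪u, P v⟫_ℝ := fun u v =>
    Submodule.inner_starProjection_left_eq_right K u v
  have hQs : ∀ u v, ⟪Q u, v⟫_ℝ = ⟪u, Q v⟫_ℝ := fun u v =>
    Submodule.inner_starProjection_left_eq_right Kᗮ u v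
  have hPP : ∀ u, P (P u) = P u := fun u =>
    Submodule.starProjection_eq_self_iff.2 (Submodule.starProjection_apply_mem K u)
  have hQQ : ∀ u, Q (Q u) = Q u := fun u =>
    Submodule.starProjection_eq_self_iff.2 (Submodule.starProjection_apply_mem Kᗮ u)
  have hPQ : ∀ u, P u + Q u = u := fun u =>
    Submodule.starProjection_add_starProjection_orthogonal (K := K) u
  have hSs : ∀ u v, ⟪S u, v⟫_ℝ = -⟪u, S v⟫_ℝ := fun u v => (colAlg b).skew w u v
  have hSP : ∀ u, Q (S (P u)) = S (P u) := fun u =>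
    Submodule.starProjection_eq_self_iff.2 (hw _ (Submodule.starProjection_apply_mem K u))
  have main : ∀ β, ∑ s, thv M β (S (e s)) (thv M β (e s) h) =
      (∑ s, thv M β (S (P (e s))) (thv M β (P (e s)) h)) +
      (∑ s, thv M β (S (P (e s))) (thv M β (P (e s)) h)) +
      ∑ s, thv M β (Q (S (Q (e s)))) (thv M β (Q (e s)) h) := by
    intro β
    set f := tt M β h with hf
    have e0 : ∀ s, thv M β (S (e s)) (thv M β (e s) h) =
        f (S (P (e s))) (e s) + f (S (Q (e s))) (e s) := by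
      intro s
      rw [← LinearMap.add_apply, ← map_add, ← map_add, hPQ]
      rfl
    have e1 : ∑ s, f (S (P (e s))) (e s) = ∑ s, f (S (P (e s))) (P (e s)) := by
      have := sum_adj (f.comp (S.comp P)) e P P hPs
      simp only [LinearMap.comp_apply, hPP] at this
      exact this
    have e2 : ∑ s, f (S (Q (e s))) (e s) = ∑ s, f (S (Q (e s))) (Q (e s)) := by
      have := sum_adj (f.comp (S.comp Q)) e Q Q hQs
      simp only [LinearMap.comp_apply, hQQ] at this
      exact this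
    have e3 : ∀ s, f (S (Q (e s))) (Q (e s)) =
        f (P (S (Q (e s)))) (Q (e s)) + f (Q (S (Q (e s)))) (Q (e s)) := by
      intro s
      rw [← LinearMap.add_apply, ← map_add, hPQ]
    have e4 : ∑ s, f (P (S (Q (e s)))) (Q (e s)) = -∑ s, f (P (e s)) (Q (S (e s))) := by
      have h5 := sum_adj (f.compl₁₂ P Q) e (S.comp Q) (-(Q.comp S)) (fun u v => by
        rw [LinearMap.comp_apply, LinearMap.neg_apply, LinearMap.comp_apply, hSs, hQs,
          inner_neg_right])
      simp only [LinearMap.compl₁₂_apply, LinearMap.comp_apply, LinearMap.neg_apply, map_neg,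
        hQQ, Finset.sum_neg_distrib] at h5
      exact h5
    have e5 : ∑ s, f (P (e s)) (Q (S (e s))) = ∑ s, f (P (e s)) (S (P (e s))) := by
      have h5 := sum_adj (f.compl₁₂ P (Q.comp S)) e P P hPs
      simp only [LinearMap.compl₁₂_apply, LinearMap.comp_apply, hPP, hSP] at h5
      exact h5
    have e6 : ∀ s, f (P (e s)) (S (P (e s))) = - f (S (P (e s))) (P (e s)) := by
      intro s
      have h5 := thv_anti M β β (P (e s)) (S (P (e s))) h
      have h6 : ⟪P (e s), S (P (e s))⟫_ℝ = 0 :=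
        (Submodule.mem_orthogonal _ _).1 (hw _ (Submodule.starProjection_apply_mem K (e s))) _
          (Submodule.starProjection_apply_mem K (e s))
      rw [h6] at h5
      simp only [Complex.ofReal_zero, ite_self, zero_smul] at h5
      exact eq_neg_of_add_eq_zero_left h5
    rw [Finset.sum_congr rfl fun s _ => e0 s, Finset.sum_add_distrib, e1, e2,
      Finset.sum_congr rfl fun s _ => e3 s, Finset.sum_add_distrib, e4, e5,
      Finset.sum_congr rfl fun s _ => e6 s, Finset.sum_neg_distrib, neg_neg, ← add_assoc]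
    rfl
  rw [Finset.sum_congr rfl fun β _ => main β, Finset.sum_add_distrib, Finset.sum_add_distrib,
    smul_add, smul_add, ← add_smul, add_halves, one_smul]
  rfl

end split

/-! ## The contraction rules of a heavy vacuum -/

/-- `P` contracts heavy generators at `f`: light ones pass, two heavy ones give
`½ (δ ⟨u, v⟩ + i Σ_k γ^k ⟨u, E_k v⟩)`, three give `0`. -/
structure Ctr (M : FermionRep N F) (G : GammaNine) (K : Submodule ℝ (Colg N))
    (E : Fin 9 → Colg N → Colg N) (P : F →ₗ[ℂ] F) (f : F) : Prop where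
  light : ∀ β, ∀ u ∈ K, ∀ h, P (thv M β u h) = thv M β u (P h)
  two : ∀ β γ, ∀ u ∈ Kᗮ, ∀ v ∈ Kᗮ, P (thv M β u (thv M γ v f)) =
    ((1 / 2 : ℂ) * ((if β = γ then ((⟪u, v⟫_ℝ : ℝ) : ℂ) else 0) +
      Complex.I * ∑ k, ((G.γ k β γ : ℝ) : ℂ) * ((⟪u, E k v⟫_ℝ : ℝ) : ℂ))) • f
  three : ∀ β γ δ, ∀ u ∈ Kᗮ, ∀ v ∈ Kᗮ, ∀ w ∈ Kᗮ,
    P (thv M β u (thv M γ v (thv M δ w f))) = 0

section contr

variable (M : FermionRep N F) (b : ColorBasis N) (G : GammaNine)

/-- the `γ`-component of `Θ_α(t)` -/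
def yv (α : Fin 16) (t : Cfg N) (γ : Fin 16) : Colg N := ∑ i, G.γ i α γ • comp t i

theorem Theta_thv (α : Fin 16) (t : Cfg N) : Theta M G α t = ∑ γ, thv M γ (yv G α t γ) := by
  rw [Theta_eq]
  have h : ∀ w : Fin 16 → Fin (N ^ 2 - 1) → ℝ,
      vco M w = ∑ β, thv M β (WithLp.toLp 2 (w β)) := by
    intro w
    unfold vco thv
    rw [Finset.sum_comm]
  rw [h]
  refine Finset.sum_congr rfl fun γ _ => ?_
  have h2 : (WithLp.toLp 2 (fun A => ∑ i, G.γ i α γ * t (i, A)) : Colg N) = yv G α t γ := by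
    ext A
    simp [yv, comp]
  rw [h2]

theorem comp_proj (c x : Cfg N) (i : Fin 9) :
    comp ((Uk b c).starProjection x) i = (kc (actB b) c).starProjection (comp x i) := by
  have h : (Uk b c).starProjection x =
      mkc fun j => (kc (actB b) c).starProjection (comp x j) := by
    refine Submodule.eq_starProjection_of_mem_of_inner_eq_zero (fun j => ?_) fun u hu => ?_
    · rw [comp_mkc]
      exact Submodule.starProjection_apply_mem _ _
    · rw [inner_comp]
      refine Finset.sum_eq_zero fun j _ => ?_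
      rw [comp_sub, comp_mkc, real_inner_comm]
      exact (Submodule.mem_orthogonal _ _).1
        (Submodule.sub_starProjection_mem_orthogonal (K := kc (actB b) c) (comp x j)) _ (hu j)
  rw [h, comp_mkc]

variable {M b G}

/-- **One frame term.** -/
theorem contract {c : Cfg N} {E : Fin 9 → Colg N →ₗ[ℝ] Colg N} {P : F →ₗ[ℂ] F} {f : F}
    (hC : Ctr M G (kc (actB b) c) (fun k => E k) P f) {w : Colg N}
    (hw : w ∈ (kc (actB b) c)ᗮ) {t : Cfg N} (ht : t ∈ Mm b c)
    (hE : ∀ T ∈ kc (actB b) c, ∀ k i, ⟪(colAlg b).br w T, E k (comp t i)⟫_ℝ = 0) (α : Fin 16) :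
    P (Bop b M w.ofLp (Theta M G α t f)) =
      (1 / 2 : ℂ) • Theta M G α ((Uk b c).starProjection (actB b w t)) f := by
  set K := kc (actB b) c with hK
  have hwK : ∀ u ∈ K, (colAlg b).br w u ∈ Kᗮ := by
    intro u hu
    rw [(colAlg b).anti]
    refine Submodule.neg_mem _ ?_
    rw [hK, kc_eq] at hu hw ⊢
    exact (colAlg b).br_mem_perp hu hw
  set e := stdOrthonormalBasis ℝ (Colg N) with he
  have hy : ∀ γ, yv G α t γ ∈ Kᗮ := fun γ =>
    Submodule.sum_mem _ fun i _ => Submodule.smul_mem _ _ (ht i)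
  have hPK : ∀ u, K.starProjection u ∈ K := fun u => Submodule.starProjection_apply_mem K u
  have hQK : ∀ u, Kᗮ.starProjection u ∈ Kᗮ := fun u => Submodule.starProjection_apply_mem Kᗮ u
  -- the double contraction
  have h2 : ∀ β, ∀ T ∈ K, P (thv M β ((colAlg b).br w T) (Theta M G α t f)) =
      ((1 / 2 : ℂ) * ((⟪(colAlg b).br w T, yv G α t β⟫_ℝ : ℝ) : ℂ)) • f := by
    intro β T hT
    rw [Theta_thv, LinearMap.sum_apply, map_sum, map_sum,
      Finset.sum_congr rfl fun γ _ => hC.two β γ _ (hwK T hT) _ (hy γ), ← Finset.sum_smul,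
      ← Finset.mul_sum, Finset.sum_add_distrib]
    congr 2
    have e1 : ∑ γ, (if β = γ then ((⟪(colAlg b).br w T, yv G α t γ⟫_ℝ : ℝ) : ℂ) else 0) =
        ((⟪(colAlg b).br w T, yv G α t β⟫_ℝ : ℝ) : ℂ) := by
      rw [Finset.sum_ite_eq, if_pos (Finset.mem_univ β)]
    have e2 : ∀ γ k, ⟪(colAlg b).br w T, E k (yv G α t γ)⟫_ℝ = 0 := by
      intro γ k
      rw [yv, map_sum, inner_sum]
      refine Finset.sum_eq_zero fun i _ => ?_
      rw [map_smul, inner_smul_right, hE T hT k i, mul_zero]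
    simp only [e1, e2, Complex.ofReal_zero, mul_zero, Finset.sum_const_zero, add_zero]
  rw [Bop_split M b hwK e, map_add, map_smul]
  have h3 : P (∑ β, ∑ s, thv M β (Kᗮ.starProjection ((colAlg b).br w
      (Kᗮ.starProjection (e s)))) (thv M β (Kᗮ.starProjection (e s)) (Theta M G α t f))) = 0 := by
    rw [map_sum]
    refine Finset.sum_eq_zero fun β _ => ?_
    rw [map_sum]
    refine Finset.sum_eq_zero fun s _ => ?_
    rw [Theta_thv, LinearMap.sum_apply, map_sum, map_sum, map_sum]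
    exact Finset.sum_eq_zero fun γ _ => hC.three _ _ _ _ (hQK _) _ (hQK _) _ (hy γ)
  rw [h3, smul_zero, add_zero, map_sum]
  have h4 : ∀ β, P (∑ s, thv M β ((colAlg b).br w (K.starProjection (e s)))
      (thv M β (K.starProjection (e s)) (Theta M G α t f))) =
      (1 / 2 : ℂ) • thv M β (K.starProjection ((colAlg b).br w (yv G α t β))) f := by
    intro β
    rw [map_sum]
    have h5 : ∀ s, P (thv M β ((colAlg b).br w (K.starProjection (e s)))
        (thv M β (K.starProjection (e s)) (Theta M G α t f))) =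
        (1 / 2 : ℂ) • thv M β (⟪e s, K.starProjection ((colAlg b).br w (yv G α t β))⟫_ℝ •
          K.starProjection (e s)) f := by
      intro s
      have h6 := thv_anti M β β ((colAlg b).br w (K.starProjection (e s))) (K.starProjection (e s))
        (Theta M G α t f)
      have h7 : ⟪(colAlg b).br w (K.starProjection (e s)), K.starProjection (e s)⟫_ℝ = 0 := by
        rw [real_inner_comm]
        exact (Submodule.mem_orthogonal _ _).1 (hwK _ (hPK _)) _ (hPK _)
      rw [h7] at h6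
      simp only [Complex.ofReal_zero, ite_self, zero_smul] at h6
      rw [eq_neg_of_add_eq_zero_left h6, map_neg, hC.light β _ (hPK _), h2 β _ (hPK _), map_smul,
        thv_smul, LinearMap.smul_apply, smul_smul, ← neg_smul]
      congr 1
      rw [(colAlg b).skew, Submodule.inner_starProjection_left_eq_right]
      push_cast
      ring
    rw [Finset.sum_congr rfl fun s _ => h5 s, ← Finset.smul_sum, ← LinearMap.sum_apply,
      ← thv_sum]
    congr 3
    have h8 : ∀ s, ⟪e s, K.starProjection ((colAlg b).br w (yv G α t β))⟫_ℝ •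
        K.starProjection (e s) = K.starProjection
          (⟪e s, K.starProjection ((colAlg b).br w (yv G α t β))⟫_ℝ • e s) := by
      intro s
      rw [map_smul]
    rw [Finset.sum_congr rfl fun s _ => h8 s, ← map_sum, e.sum_repr',
      Submodule.starProjection_eq_self_iff]
    exact hPK _
  rw [Finset.sum_congr rfl fun β _ => h4 β, ← Finset.smul_sum, Theta_thv, LinearMap.sum_apply]
  congr 1
  refine Finset.sum_congr rfl fun β _ => ?_
  congr 2
  rw [yv, yv, map_sum, map_sum]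
  refine Finset.sum_congr rfl fun i _ => ?_
  rw [map_smul, map_smul, comp_proj, comp_act]

end contr

/-! ## The complex structure does not contribute -/

section jpart

variable {V : Type*} [NormedAddCommGroup V] [InnerProductSpace ℝ V] [FiniteDimensional ℝ V]

/-- five commuting skew operators -/
theorem skew5 {X1 X2 X3 X4 X5 : V →ₗ[ℝ] V}
    (h1 : ∀ u v, ⟪X1 u, v⟫_ℝ = -⟪u, X1 v⟫_ℝ) (h2 : ∀ u v, ⟪X2 u, v⟫_ℝ = -⟪u, X2 v⟫_ℝ)
    (h3 : ∀ u v, ⟪X3 u, v⟫_ℝ = -⟪u, X3 v⟫_ℝ) (h4 : ∀ u v, ⟪X4 u, v⟫_ℝ = -⟪u, X4 v⟫_ℝ)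
    (h5 : ∀ u v, ⟪X5 u, v⟫_ℝ = -⟪u, X5 v⟫_ℝ)
    (c12 : ∀ u, X1 (X2 u) = X2 (X1 u)) (c13 : ∀ u, X1 (X3 u) = X3 (X1 u))
    (c14 : ∀ u, X1 (X4 u) = X4 (X1 u)) (c15 : ∀ u, X1 (X5 u) = X5 (X1 u))
    (c23 : ∀ u, X2 (X3 u) = X3 (X2 u)) (c24 : ∀ u, X2 (X4 u) = X4 (X2 u))
    (c25 : ∀ u, X2 (X5 u) = X5 (X2 u)) (c34 : ∀ u, X3 (X4 u) = X4 (X3 u))
    (c35 : ∀ u, X3 (X5 u) = X5 (X3 u)) (c45 : ∀ u, X4 (X5 u) = X5 (X4 u)) (w : V) :
    ⟪X1 w, X2 (X3 (X4 (X5 w)))⟫_ℝ = 0 := by
  have e1 : ⟪X1 w, X2 (X3 (X4 (X5 w)))⟫_ℝ = ⟪X5 (X4 (X3 (X2 (X1 w)))), w⟫_ℝ := by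
    rw [h5, h4, h3, h2]
    simp
  have e2 : X5 (X4 (X3 (X2 (X1 w)))) = X1 (X2 (X3 (X4 (X5 w)))) := by
    rw [← c12, ← c13, ← c14, ← c15, ← c23, ← c24, ← c25, ← c34, ← c35, ← c45]
  have e3 : ⟪X1 (X2 (X3 (X4 (X5 w)))), w⟫_ℝ = -⟪X2 (X3 (X4 (X5 w))), X1 w⟫_ℝ := h1 _ _
  have e4 : ⟪X2 (X3 (X4 (X5 w))), X1 w⟫_ℝ = ⟪X1 w, X2 (X3 (X4 (X5 w)))⟫_ℝ := real_inner_comm _ _
  rw [e2, e3, e4] at e1
  linarith

end jpart

section jlit

variable {b : ColorBasis N} {c p : Cfg N} {r B : ℝ}

/-- The point `p` is centralised by the commutant of `c`. -/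
def Cen (b : ColorBasis N) (c p : Cfg N) : Prop :=
  ∀ i, ∀ T ∈ kc (actB b) c, (colAlg b).br T (comp p i) = 0

/-- `ad` of a component, as a continuous map. -/
def adc (b : ColorBasis N) (p : Cfg N) (i : Fin 9) : Colg N →L[ℝ] Colg N :=
  LinearMap.toContinuousLinearMap ((colAlg b).br (comp p i))

theorem adc_apply (b : ColorBasis N) (p : Cfg N) (i : Fin 9) (u : Colg N) :
    adc b p i u = (colAlg b).br (comp p i) u := rfl

theorem br_comm_of {u v : Colg N} (h : (colAlg b).br u v = 0) (w : Colg N) :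
    (colAlg b).br u ((colAlg b).br v w) = (colAlg b).br v ((colAlg b).br u w) := by
  rw [(colAlg b).jac, h]
  simp

theorem self_mem_kc (hc : Comc b c) (i : Fin 9) : comp c i ∈ kc (actB b) c := self_mem_Uk hc i

theorem Cen.self (_hc : Comc b c) : Cen b c c := by
  intro i T hT
  rw [kc_eq] at hT
  rw [(colAlg b).anti, hT i, neg_zero]

theorem Cen.mem (hc : Comc b c) (hp : Cen b c p) (i : Fin 9) : comp p i ∈ kc (actB b) c := by
  rw [kc_eq]
  intro j
  exact hp i _ (self_mem_kc hc j)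

theorem Cen.mem_Uk (hc : Comc b c) (hp : Cen b c p) : p ∈ Uk b c := fun i => hp.mem hc i

theorem br_mem_kc {u v : Colg N} (hu : u ∈ kc (actB b) c) (hv : v ∈ kc (actB b) c) :
    (colAlg b).br u v ∈ kc (actB b) c := by
  rw [kc_eq] at hu hv ⊢
  exact (colAlg b).br_mem_kk hu hv

theorem br_mem_kc_orth {u v : Colg N} (hu : u ∈ kc (actB b) c) (hv : v ∈ (kc (actB b) c)ᗮ) :
    (colAlg b).br u v ∈ (kc (actB b) c)ᗮ := by
  rw [kc_eq] at hu hv ⊢
  exact (colAlg b).br_mem_perp hu hv

/-- the gap of the family `ad c_i` -/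
theorem fam_c (hc : Comc b c) (hr0 : 0 < r) (hr : GapAt (actB b) c r) :
    AX984.Fam (kc (actB b) c) r (adc b c) where
  skew i u v := (colAlg b).skew _ _ _
  comm i j v := br_comm_of (hc i j) v
  ker i w hw := by
    rw [kc_eq] at hw
    exact hw i
  gap w hw := by
    have h1 := hr w hw
    have h2 : ‖actB b w c‖ ^ 2 = ∑ i, ‖adc b c i w‖ ^ 2 := by
      rw [norm_sq_comp]
      refine Finset.sum_congr rfl fun i _ => ?_
      rw [comp_act, adc_apply, (colAlg b).anti, norm_neg]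
    rw [← h2, ← mul_pow]
    exact pow_le_pow_left₀ (by positivity) h1 2

/-- **The complex structure part vanishes termwise.** -/
theorem jpart_zero (hc : Comc b c) (hr0 : 0 < r) (hr : GapAt (actB b) c r)
    (hB : ActBound (actB b) B) (hp : Cen b c p) (hx : B * ‖p - c‖ ≤ r / 2)
    {E : Fin 9 → Colg N →ₗ[ℝ] Colg N} (hEs : ∀ k u v, ⟪E k u, v⟫_ℝ = -⟪u, E k v⟫_ℝ)
    (hEc : ∀ k, ∀ T ∈ kc (actB b) c, ∀ u, E k ((colAlg b).br T u) = (colAlg b).br T (E k u))
    (hEK : ∀ k, ∀ u ∈ kc (actB b) c, E k u = 0)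
    (t : Tn (actB b) c) {T : Colg N} (hT : T ∈ kc (actB b) c) (k i : Fin 9) :
    ⟪(colAlg b).br (om (actB b) c p t : Colg N) T, E k (comp (t : Cfg N) i)⟫_ℝ = 0 := by
  set K := kc (actB b) c with hK
  set w : Colg N := (om (actB b) c p t : Colg N) with hw
  have hwK : w ∈ Kᗮ := (om (actB b) c p t).2
  have hF := fam_c hc hr0 hr
  -- the preimage of `t`
  obtain ⟨η, hηK, hη⟩ : ∃ η ∈ Kᗮ, (t : Cfg N) = actB b η c := by
    obtain ⟨η, hη⟩ := t.2
    refine ⟨η - K.starProjection η, Submodule.sub_starProjection_mem_orthogonal η, ?_⟩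
    have h1 : actB b (K.starProjection η) c = 0 := Submodule.starProjection_apply_mem K η
    rw [map_sub, _root_.sub_apply, h1, sub_zero]
    exact hη.symm
  -- normal equation
  have hN : ∀ ζ : Colg N, ⟪actB b ζ c, actB b w p - actB b η c⟫_ℝ = 0 := by
    intro ζ
    have h1 : ((S (actB b) c p (om (actB b) c p t) : Tn (actB b) c) : Cfg N) = t := by
      rw [S_om hr0 hr hB hx]
    have h2 : (Tn (actB b) c).starProjection (actB b w p) = actB b η c := by
      rw [← hη, ← h1]
      rfl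
    rw [← h2]
    exact (Submodule.mem_orthogonal _ _).1 (Submodule.sub_starProjection_mem_orthogonal _) _
      (mem_Tn (actB b) c ζ)
  have hL : -∑ j, adc b c j (adc b c j η) = -∑ j, adc b c j (adc b p j w) := by
    have h1 : ∀ ζ, ⟪∑ j, adc b c j (adc b p j w) - ∑ j, adc b c j (adc b c j η), ζ⟫_ℝ = 0 := by
      intro ζ
      have h2 := hN ζ
      rw [inner_comp] at h2
      rw [← Finset.sum_sub_distrib, sum_inner, ← neg_eq_zero, ← h2, ← Finset.sum_neg_distrib]
      refine Finset.sum_congr rfl fun j _ => ?_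
      rw [comp_sub, comp_act, comp_act, comp_act, (colAlg b).anti ζ, (colAlg b).anti w,
        (colAlg b).anti η, ← map_sub, adc_apply, (colAlg b).skew, neg_neg, real_inner_comm,
        inner_neg_left, inner_sub_right, inner_sub_right, inner_neg_right, inner_neg_right,
        adc_apply, adc_apply]
      ring
    have h2 := h1 (∑ j, adc b c j (adc b p j w) - ∑ j, adc b c j (adc b c j η))
    rw [inner_self_eq_zero, sub_eq_zero] at h2
    rw [h2]
  have hη2 : η = AX984.li K (adc b c) (AX984.li K (adc b c) (-∑ j, adc b c j (adc b p j w))) := by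
    rw [← hL]
    have h1 := hF.lr_lr hr0 η
    rw [AX984.proj_zero hηK, zero_sub] at h1
    rw [← h1, hF.li_lr hr0, hF.li_lr hr0]
  -- operators commuting with the family
  have hcomm : ∀ X : Colg N →L[ℝ] Colg N, (∀ u ∈ K, X u ∈ K) → (∀ u ∈ Kᗮ, X u ∈ Kᗮ) →
      (∀ j u, X (adc b c j u) = adc b c j (X u)) → ∀ u,
      X (AX984.li K (adc b c) u) = AX984.li K (adc b c) (X u) := by
    intro X h1 h2 h3 u
    refine hF.comm_li_of hr0 (fun v => ?_) u
    rw [AX984.ll_apply, AX984.ll_apply, map_sub, map_sum]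
    congr 1
    · exact proj_comm K X.toLinearMap h1 h2 v
    · refine Finset.sum_congr rfl fun j _ => ?_
      rw [h3, h3]
  set li := AX984.li K (adc b c) with hli
  -- the skew operators
  set S : Colg N →L[ℝ] Colg N := LinearMap.toContinuousLinearMap ((colAlg b).br T) with hS
  set Ek : Colg N →L[ℝ] Colg N := LinearMap.toContinuousLinearMap (E k) with hEk
  have hSa : ∀ u, S u = (colAlg b).br T u := fun u => rfl
  have hEa : ∀ u, Ek u = E k u := fun u => rfl
  have hcK : ∀ j, comp c j ∈ K := fun j => self_mem_kc hc j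
  have hpK : ∀ j, comp p j ∈ K := fun j => hp.mem hc j
  have sc : ∀ j u, S (adc b c j u) = adc b c j (S u) := fun j u =>
    br_comm_of (Cen.self hc j T hT) u
  have sp : ∀ j u, S (adc b p j u) = adc b p j (S u) := fun j u => br_comm_of (hp j T hT) u
  have ec : ∀ j u, Ek (adc b c j u) = adc b c j (Ek u) := fun j u => hEc k _ (hcK j) u
  have ep : ∀ j u, Ek (adc b p j u) = adc b p j (Ek u) := fun j u => hEc k _ (hpK j) u
  have se : ∀ u, S (Ek u) = Ek (S u) := fun u => (hEc k T hT u).symm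
  have cp : ∀ i j u, adc b c i (adc b p j u) = adc b p j (adc b c i u) := fun i j u =>
    br_comm_of (hp j _ (hcK i)) u
  have cc : ∀ i j u, adc b c i (adc b c j u) = adc b c j (adc b c i u) := fun i j u =>
    br_comm_of (hc i j) u
  have hSli : ∀ u, S (li u) = li (S u) := hcomm S (fun u hu => br_mem_kc hT hu)
    (fun u hu => br_mem_kc_orth hT hu) sc
  have hEli : ∀ u, Ek (li u) = li (Ek u) := by
    refine hcomm Ek (fun u hu => ?_) (fun u _ => ?_) ec
    · rw [hEa, hEK k u hu]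
      exact K.zero_mem
    · rw [Submodule.mem_orthogonal]
      intro v hv
      have : ⟪E k v, u⟫_ℝ = 0 := by rw [hEK k v hv, inner_zero_left]
      rw [hEs] at this
      rw [hEa]
      linarith
  have hcli : ∀ j u, adc b c j (li u) = li (adc b c j u) := fun j => hcomm _
    (fun u hu => br_mem_kc (hcK j) hu) (fun u hu => br_mem_kc_orth (hcK j) hu) (fun i u => cc j i u)
  have hpli : ∀ j u, adc b p j (li u) = li (adc b p j u) := fun j => hcomm _
    (fun u hu => br_mem_kc (hpK j) hu) (fun u hu => br_mem_kc_orth (hpK j) hu)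
    (fun i u => (cp i j u).symm)
  have hlis : ∀ u v, ⟪li u, v⟫_ℝ = ⟪u, li v⟫_ℝ := fun u v => (hF.li_pd hr0).1 u v
  -- the computation
  have e1 : comp (t : Cfg N) i = -adc b c i η := by
    rw [hη, comp_act, adc_apply, (colAlg b).anti]
  have e2 : E k (comp (t : Cfg N) i) =
      li (li (∑ j, Ek (adc b c i (adc b c j (adc b p j w))))) := by
    rw [e1, ← hEa, map_neg, hη2, map_neg, map_neg, map_neg, map_neg, neg_neg, map_sum, map_sum,
      map_sum, map_sum, map_sum, map_sum]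
    refine Finset.sum_congr rfl fun j _ => ?_
    rw [hcli, hcli, hEli, hEli]
  have e3 : li (∑ j, Ek (adc b c i (adc b c j (adc b p j w)))) =
      ∑ j, Ek (adc b c i (adc b c j (adc b p j (li w)))) := by
    rw [map_sum]
    refine Finset.sum_congr rfl fun j _ => ?_
    rw [hpli, hcli, hcli, hEli]
  rw [e2, (colAlg b).anti, inner_neg_left, ← hSa, ← hlis, ← hSli, e3, inner_sum, neg_eq_zero]
  refine Finset.sum_eq_zero fun j _ => ?_
  exact skew5 (X1 := S.toLinearMap) (X2 := Ek.toLinearMap) (X3 := (adc b c i).toLinearMap)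
    (X4 := (adc b c j).toLinearMap) (X5 := (adc b p j).toLinearMap)
    (fun u v => (colAlg b).skew _ _ _) (fun u v => hEs k u v) (fun u v => (colAlg b).skew _ _ _)
    (fun u v => (colAlg b).skew _ _ _) (fun u v => (colAlg b).skew _ _ _)
    se (sc i) (sc j) (sp j) (ec i) (ec j) (ep j) (cc i j) (cp i j) (cp j j) (li w)

/-- **V4, from the contraction rules.** -/
theorem frame_vac (hc : Comc b c) (hr0 : 0 < r) (hr : GapAt (actB b) c r)
    (hB : ActBound (actB b) B) (hp : Cen b c p) (hx : B * ‖p - c‖ ≤ r / 2)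
    {M : FermionRep N F} {G : GammaNine} {P : F →ₗ[ℂ] F} {f : F}
    {E : Fin 9 → Colg N →ₗ[ℝ] Colg N} (hEs : ∀ k u v, ⟪E k u, v⟫_ℝ = -⟪u, E k v⟫_ℝ)
    (hEc : ∀ k, ∀ T ∈ kc (actB b) c, ∀ u, E k ((colAlg b).br T u) = (colAlg b).br T (E k u))
    (hEK : ∀ k, ∀ u ∈ kc (actB b) c, E k u = 0)
    (hC : Ctr M G (kc (actB b) c) (fun k => E k) P f) (α : Fin 16) {κ : Type*} [Fintype κ]
    (t : OrthonormalBasis κ ℝ (Tn (actB b) c)) :
    P (∑ a, Bop b M (om (actB b) c p (t a) : Colg N).ofLp (Theta M G α (t a) f)) =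
      (1 / 2 : ℂ) • Theta M G α ((Uk b c).starProjection
        (∑ a, actB b (om (actB b) c p (t a)) (t a))) f := by
  have h1 : ∀ a, P (Bop b M (om (actB b) c p (t a) : Colg N).ofLp (Theta M G α (t a) f)) =
      (1 / 2 : ℂ) • Theta M G α ((Uk b c).starProjection
        (actB b (om (actB b) c p (t a)) (t a))) f := fun a =>
    contract hC (om (actB b) c p (t a)).2 (Tn_le_Mm (t a).2)
      (fun T hT k i => jpart_zero hc hr0 hr hB hp hx hEs hEc hEK (t a) hT k i) α
  have h2 : ∀ (x : κ → Cfg N) (s : Finset κ),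
      Theta M G α (∑ a ∈ s, x a) = ∑ a ∈ s, Theta M G α (x a) := by
    classical
    intro x s
    induction s using Finset.induction_on with
    | empty =>
      rw [Finset.sum_empty, Finset.sum_empty]
      have := Theta_smul M G α 0 (0 : Cfg N)
      rw [zero_smul] at this
      rw [this]
      simp
    | insert a s ha ih => rw [Finset.sum_insert ha, Finset.sum_insert ha, Theta_add, ih]
  rw [map_sum, Finset.sum_congr rfl fun a _ => h1 a, ← Finset.smul_sum, ← LinearMap.sum_apply,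
    ← h2, map_sum]

/-- **V4**, in the form of the pairing: the vacuum component of `-i Σ_a B(om_p t_a) Θ_α(t_a) f`
is `(i/2) Σ_s ∂_{n_s} log |det J| Θ_α(n_s) f`, `n` an orthonormal basis of `R⁹ ⊗ k`. -/
theorem frame_vac_grad (hc : Comc b c) (hr0 : 0 < r) (hr : GapAt (actB b) c r)
    (hB : ActBound (actB b) B) (hp : Cen b c p) (hx : B * ‖p - c‖ ≤ r / 2)
    {M : FermionRep N F} {G : GammaNine} {P : F →ₗ[ℂ] F} {f : F}
    {E : Fin 9 → Colg N →ₗ[ℝ] Colg N} (hEs : ∀ k u v, ⟪E k u, v⟫_ℝ = -⟪u, E k v⟫_ℝ)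
    (hEc : ∀ k, ∀ T ∈ kc (actB b) c, ∀ u, E k ((colAlg b).br T u) = (colAlg b).br T (E k u))
    (hEK : ∀ k, ∀ u ∈ kc (actB b) c, E k u = 0)
    (hC : Ctr M G (kc (actB b) c) (fun k => E k) P f) (α : Fin 16) {κ ι : Type*} [Fintype κ]
    [Fintype ι] (t : OrthonormalBasis κ ℝ (Tn (actB b) c))
    (n : OrthonormalBasis ι ℝ (Uk b c)) :
    P (∑ a, (-Complex.I) • Bop b M (om (actB b) c p (t a) : Colg N).ofLp
        (Theta M G α (t a) f)) =
      (Complex.I / 2) • ∑ s, ((fderiv ℝ (fun y : Cfg N =>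
        Real.log |LinearMap.det (VacJ288.J (actB b) c y)|) p (n s) : ℝ) : ℂ) •
          Theta M G α (n s) f := by
  have h1 : ∀ s, ((fderiv ℝ (fun y : Cfg N =>
        Real.log |LinearMap.det (VacJ288.J (actB b) c y)|) p (n s) : ℝ) : ℂ) •
          Theta M G α (n s) f =
      - (((⟪∑ a, actB b (om (actB b) c p (t a)) (t a), (n s : Cfg N)⟫_ℝ : ℝ) : ℂ) •
        Theta M G α (n s)) f := by
    intro s
    rw [VacJ288.fderiv_log_detJ_skew hr0 hr hB (fun w u v => VacJ288.actB_skew b w u v) hx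
      (n s) t]
    push_cast
    rw [neg_smul]
    rfl
  have h2 := VacJ288.Theta_basis M G α (Uk b c) n
    (∑ a, actB b (om (actB b) c p (t a)) (t a))
  rw [Finset.sum_congr rfl fun s _ => h1 s, Finset.sum_neg_distrib, ← LinearMap.sum_apply, h2,
    ← Finset.smul_sum, map_smul, frame_vac hc hr0 hr hB hp hx hEs hEc hEK hC α t, smul_smul,
    smul_neg, ← neg_smul]
  congr 1
  ring

end jlit

/-! ## The complex structure of a commuting point -/

section cs

variable {b : ColorBasis N} {c p : Cfg N} {r B : ℝ}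

theorem fam_p (hc : Comc b c) (hr0 : 0 < r) (hr : GapAt (actB b) c r)
    (hB : ActBound (actB b) B) (hp : Cen b c p) (hx : B * ‖p - c‖ ≤ r / 2) :
    AX984.Fam (kc (actB b) c) (r / 2) (adc b p) where
  skew i u v := (colAlg b).skew _ _ _
  comm i j v := br_comm_of (hp j _ (hp.mem hc i)) v
  ker i w hw := by
    rw [adc_apply, (colAlg b).anti, hp i w hw, neg_zero]
  gap w hw := by
    have h1 : r / 2 * ‖w‖ ≤ ‖S (actB b) c p ⟨w, hw⟩‖ := S_low hr hB hx ⟨w, hw⟩
    have h2 : ‖S (actB b) c p ⟨w, hw⟩‖ ≤ ‖actB b w p‖ := by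
      rw [S_apply]
      exact proj_norm_le (Tn (actB b) c) (actB b w p)
    have h3 : ‖actB b w p‖ ^ 2 = ∑ i, ‖adc b p i w‖ ^ 2 := by
      rw [norm_sq_comp]
      refine Finset.sum_congr rfl fun i _ => ?_
      rw [comp_act, adc_apply, (colAlg b).anti, norm_neg]
    have h4 : 0 ≤ r / 2 * ‖w‖ := by positivity
    rw [← h3, ← mul_pow]
    exact pow_le_pow_left₀ h4 (h1.trans h2) 2

/-- `E_k = - ad p_k |ad p|⁻¹`. -/
def Ep (b : ColorBasis N) (c p : Cfg N) (k : Fin 9) : Colg N →ₗ[ℝ] Colg N :=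
  -((adc b p k).toLinearMap ∘ₗ (AX984.li (kc (actB b) c) (adc b p)).toLinearMap)

theorem Ep_apply (k : Fin 9) (u : Colg N) :
    Ep b c p k u = -adc b p k (AX984.li (kc (actB b) c) (adc b p) u) := rfl

/-- The operators of a heavy complex structure. -/
structure HS (K : Submodule ℝ (Colg N)) (E : Fin 9 → Colg N →ₗ[ℝ] Colg N) : Prop where
  skew : ∀ k u v, ⟪E k u, v⟫_ℝ = -⟪u, E k v⟫_ℝ
  comm : ∀ k l u, E k (E l u) = E l (E k u)
  ker : ∀ k, ∀ u ∈ K, E k u = 0
  sq : ∀ u ∈ Kᗮ, ∑ k, E k (E k u) = -u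

theorem HS.mem {K : Submodule ℝ (Colg N)} {E : Fin 9 → Colg N →ₗ[ℝ] Colg N} (h : HS K E)
    (k : Fin 9) (u : Colg N) : E k u ∈ Kᗮ := by
  rw [Submodule.mem_orthogonal]
  intro v hv
  have h1 : ⟪E k v, u⟫_ℝ = 0 := by rw [h.ker k v hv, inner_zero_left]
  rw [h.skew] at h1
  linarith

theorem hs_Ep (hc : Comc b c) (hr0 : 0 < r) (hr : GapAt (actB b) c r)
    (hB : ActBound (actB b) B) (hp : Cen b c p) (hx : B * ‖p - c‖ ≤ r / 2) :
    HS (kc (actB b) c) (Ep b c p) := by
  have hF := fam_p hc hr0 hr hB hp hx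
  have hr2 : 0 < r / 2 := by positivity
  refine ⟨fun k u v => ?_, fun k l u => ?_, fun k u hu => ?_, fun u hu => ?_⟩
  · rw [Ep_apply, Ep_apply, inner_neg_left, inner_neg_right, hF.skew, (hF.li_pd hr2).1,
      ← hF.D_li hr2]
  · rw [Ep_apply, Ep_apply, Ep_apply, Ep_apply, map_neg, map_neg, map_neg, map_neg,
      ← hF.D_li hr2 l, ← hF.D_li hr2 k, hF.comm k l]
  · rw [Ep_apply, hF.D_li hr2, hF.ker k u hu, map_zero, neg_zero]
  · have h1 : ∀ k, Ep b c p k (Ep b c p k u) = adc b p k (adc b p k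
        (AX984.li (kc (actB b) c) (adc b p) (AX984.li (kc (actB b) c) (adc b p) u))) := by
      intro k
      rw [Ep_apply, Ep_apply, map_neg, map_neg, neg_neg, ← hF.D_li hr2]
    rw [Finset.sum_congr rfl fun k _ => h1 k]
    have h2 := hF.lr_lr hr2
      (AX984.li (kc (actB b) c) (adc b p) (AX984.li (kc (actB b) c) (adc b p) u))
    rw [AX984.proj_zero (hF.li_mem hr2 (hF.li_mem hr2 hu)), zero_sub, hF.lr_li hr2,
      hF.lr_li hr2] at h2
    exact neg_eq_iff_eq_neg.1 h2.symm

theorem Ep_comm (hc : Comc b c) (hr0 : 0 < r) (hr : GapAt (actB b) c r)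
    (hB : ActBound (actB b) B) (hp : Cen b c p) (hx : B * ‖p - c‖ ≤ r / 2) (k : Fin 9)
    {T : Colg N} (hT : T ∈ kc (actB b) c) (u : Colg N) :
    Ep b c p k ((colAlg b).br T u) = (colAlg b).br T (Ep b c p k u) := by
  have hF := fam_p hc hr0 hr hB hp hx
  have hr2 : 0 < r / 2 := by positivity
  have h1 : ∀ j v, (colAlg b).br T (adc b p j v) = adc b p j ((colAlg b).br T v) := fun j v =>
    br_comm_of (hp j T hT) v
  have h2 : ∀ v, (colAlg b).br T (AX984.li (kc (actB b) c) (adc b p) v) =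
      AX984.li (kc (actB b) c) (adc b p) ((colAlg b).br T v) := by
    intro v
    refine hF.comm_li_of hr2 (T := LinearMap.toContinuousLinearMap ((colAlg b).br T))
      (fun v => ?_) v
    change (colAlg b).br T _ = AX984.ll _ _ ((colAlg b).br T v)
    rw [AX984.ll_apply, AX984.ll_apply, map_sub, map_sum]
    congr 1
    · exact proj_comm _ ((colAlg b).br T) (fun u hu => br_mem_kc hT hu)
        (fun u hu => br_mem_kc_orth hT hu) v
    · refine Finset.sum_congr rfl fun j _ => ?_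
      rw [h1, h1]
  rw [Ep_apply, Ep_apply, map_neg, h1, h2]

end cs

end Crest.Agent.R330.VacC288
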