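import Crest.Agent.R330.LemA_342
import Crest.Agent.R330.TDef_414
import Crest.Agent.R330.VacC_288
import Crest.Agent.R330.WeitzG_726

/-!
# Row 330, S9 (helper818): the centre gradient bound

* `swap` : `∫⟪∂_vΦ, B ∂_wΦ⟫ = ∫⟪∂_wΦ, B ∂_vΦ⟫` for a constant `B`.
* `sum_charge` : `Σ_α ∫ ‖Σ_q T_αq ∂_qΦ‖² = k ∫ Σ_q ‖∂_qΦ‖²` for Clifford coefficients.
* `sum_Theta_anti` : `Σ_α {Θ_α(x), Θ_α(y)} = 16 ⟪x, y⟫`.
* `sum_aA` : the same for `aA` along any orthonormal family of configurations.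
* `gx_cen` : the centre part of the light charge.
-/

set_option autoImplicit false
set_option linter.unusedSectionVars false

open MeasureTheory Filter Topology Crest.MathPhysics.MatrixQM
open Crest.Agent.R330.IBP837 Crest.Agent.R330.Defs478 Crest.Agent.R330.Frame839
open Crest.Agent.R330.LS839 Crest.Agent.R330.Clus839 Crest.Agent.R330.Bind6839
open scoped ContDiff InnerProductSpace ENNReal

noncomputable section

namespace Crest.Agent.R330.GX818

section abs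

variable {E : Type*} [NormedAddCommGroup E] [NormedSpace ℝ E] [FiniteDimensional ℝ E]
  [MeasurableSpace E] [BorelSpace E] {μ : Measure E} [μ.IsAddHaarMeasure]
  {F : Type*} [NormedAddCommGroup F] [InnerProductSpace ℂ F] [FiniteDimensional ℂ F]

/-- a complex linear map as a real continuous linear map -/
def rl (L : F →ₗ[ℂ] F) : F →L[ℝ] F := (LinearMap.toContinuousLinearMap L).restrictScalars ℝ

theorem rl_apply (L : F →ₗ[ℂ] F) (v : F) : rl L v = L v := rfl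

theorem contDiff_bd {Φ : E → F} (hΦ : ContDiff ℝ 2 Φ) (B : F →ₗ[ℂ] F) (w : E) :
    ContDiff ℝ 1 fun x => B (fderiv ℝ Φ x w) :=
  (rl B).contDiff.comp ((hΦ.fderiv_right (m := 1) (by norm_num)).clm_apply contDiff_const)

theorem fderiv_bd {Φ : E → F} (hΦ : ContDiff ℝ 2 Φ) (B : F →ₗ[ℂ] F) (v w x : E) :
    fderiv ℝ (fun x => B (fderiv ℝ Φ x w)) x v = B (fderiv ℝ (fderiv ℝ Φ) x v w) := by
  have h1 : DifferentiableAt ℝ (fderiv ℝ Φ) x :=
    ((hΦ.fderiv_right (m := 1) (by norm_num)).differentiable (by norm_num)) x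
  have h2 : HasFDerivAt (fun x => fderiv ℝ Φ x w)
      ((ContinuousLinearMap.apply ℝ F w).comp (fderiv ℝ (fderiv ℝ Φ) x)) x :=
    (ContinuousLinearMap.apply ℝ F w).hasFDerivAt.comp x h1.hasFDerivAt
  have h3 := ((rl B).hasFDerivAt.comp x h2).fderiv
  have h4 : fderiv ℝ (fun x => B (fderiv ℝ Φ x w)) x =
      (rl B).comp ((ContinuousLinearMap.apply ℝ F w).comp (fderiv ℝ (fderiv ℝ Φ) x)) := h3
  rw [h4]
  rfl

theorem symm_snd {Φ : E → F} (hΦ : ContDiff ℝ 2 Φ) (v w x : E) :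
    fderiv ℝ (fderiv ℝ Φ) x v w = fderiv ℝ (fderiv ℝ Φ) x w v :=
  (hΦ.contDiffAt.isSymmSndFDerivAt (by simp)) v w

/-- Two derivatives may be exchanged. -/
theorem swap {Φ : E → F} (hΦ : ContDiff ℝ 2 Φ) (hc : HasCompactSupport Φ) (B : F →ₗ[ℂ] F)
    (v w : E) : ∫ x, ⟪fderiv ℝ Φ x v, B (fderiv ℝ Φ x w)⟫_ℂ ∂μ =
      ∫ x, ⟪fderiv ℝ Φ x w, B (fderiv ℝ Φ x v)⟫_ℂ ∂μ := by
  have h1 : ContDiff ℝ 1 Φ := hΦ.of_le (by norm_num)
  rw [ibp (μ := μ) h1 (contDiff_bd hΦ B w) (Or.inl hc) v,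
    ibp (μ := μ) h1 (contDiff_bd hΦ B v) (Or.inl hc) w]
  congr 1
  refine integral_congr_ae (ae_of_all _ fun x => ?_)
  simp only
  rw [fderiv_bd hΦ, fderiv_bd hΦ, symm_snd hΦ]

theorem int_pair {Φ : E → F} (hΦ : ContDiff ℝ 2 Φ) (hc : HasCompactSupport Φ)
    (B B' : F →ₗ[ℂ] F) (v w : E) :
    Integrable (fun x => ⟪B (fderiv ℝ Φ x v), B' (fderiv ℝ Φ x w)⟫_ℂ) μ := by
  refine integrable_inner_of_cont (contDiff_bd hΦ B v).continuous (contDiff_bd hΦ B' w).continuous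
    (Or.inl ?_)
  exact (hasCompactSupport_fderiv_apply hc v).comp_left (map_zero B)

/-- **Clifford sums of first derivatives.** -/
theorem sum_charge {κ σ : Type*} [Fintype κ] [Fintype σ] [DecidableEq κ] {k : ℝ}
    {T : σ → κ → F →ₗ[ℂ] F} (hT : ∀ α q, (T α q).IsSymmetric)
    (hanti : ∀ q q' f, ∑ α, (T α q (T α q' f) + T α q' (T α q f)) =
      (((if q = q' then 2 * k else 0) : ℝ) : ℂ) • f)
    (w : κ → E) {Φ : E → F} (hΦ : ContDiff ℝ 2 Φ) (hc : HasCompactSupport Φ) :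
    ∑ α, ∫ x, ‖∑ q, T α q (fderiv ℝ Φ x (w q))‖ ^ 2 ∂μ =
      k * ∫ x, ∑ q, ‖fderiv ℝ Φ x (w q)‖ ^ 2 ∂μ := by
  set d : κ → E → F := fun q x => fderiv ℝ Φ x (w q) with hd
  have hint : ∀ (B B' : F →ₗ[ℂ] F) q q', Integrable (fun x => ⟪B (d q x), B' (d q' x)⟫_ℂ) μ :=
    fun B B' q q' => int_pair hΦ hc B B' (w q) (w q')
  have hint' : ∀ (B' : F →ₗ[ℂ] F) q q', Integrable (fun x => ⟪d q x, B' (d q' x)⟫_ℂ) μ :=
    fun B' q q' => hint LinearMap.id B' q q'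
  -- the left hand side
  have e1 : ∀ α, ((∫ x, ‖∑ q, T α q (d q x)‖ ^ 2 ∂μ : ℝ) : ℂ) =
      ∑ q, ∑ q', ∫ x, ⟪d q x, T α q (T α q' (d q' x))⟫_ℂ ∂μ := by
    intro α
    rw [← integral_complex_ofReal]
    have h1 : ∀ x, ((‖∑ q, T α q (d q x)‖ ^ 2 : ℝ) : ℂ) =
        ∑ q, ∑ q', ⟪d q x, T α q (T α q' (d q' x))⟫_ℂ := by
      intro x
      have h2 : ((‖∑ q, T α q (d q x)‖ ^ 2 : ℝ) : ℂ) =
          ⟪∑ q, T α q (d q x), ∑ q, T α q (d q x)⟫_ℂ := by
        rw [inner_self_eq_norm_sq_to_K]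
        norm_cast
      rw [h2, sum_inner]
      refine Finset.sum_congr rfl fun q _ => ?_
      rw [inner_sum]
      refine Finset.sum_congr rfl fun q' _ => ?_
      exact hT α q _ _
    simp_rw [h1]
    rw [integral_finsetSum _ fun q _ => ?_]
    · refine Finset.sum_congr rfl fun q _ => ?_
      rw [integral_finsetSum _ fun q' _ => ?_]
      exact hint' ((T α q).comp (T α q')) q q'
    · exact integrable_finsetSum _ fun q' _ => hint' ((T α q).comp (T α q')) q q'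
  have e2 : ∀ q q', (∑ α, ∫ x, ⟪d q x, T α q (T α q' (d q' x))⟫_ℂ ∂μ) +
      (∑ α, ∫ x, ⟪d q' x, T α q' (T α q (d q x))⟫_ℂ ∂μ) =
      (((if q = q' then 2 * k else 0) : ℝ) : ℂ) * ∫ x, ⟪d q x, d q' x⟫_ℂ ∂μ := by
    intro q q'
    have h1 : ∀ α, ∫ x, ⟪d q' x, T α q' (T α q (d q x))⟫_ℂ ∂μ =
        ∫ x, ⟪d q x, T α q' (T α q (d q' x))⟫_ℂ ∂μ := fun α =>
      swap hΦ hc ((T α q').comp (T α q)) (w q') (w q)
    simp_rw [h1]
    rw [← Finset.sum_add_distrib]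
    have h2 : ∀ α, (∫ x, ⟪d q x, T α q (T α q' (d q' x))⟫_ℂ ∂μ) +
        (∫ x, ⟪d q x, T α q' (T α q (d q' x))⟫_ℂ ∂μ) =
        ∫ x, ⟪d q x, T α q (T α q' (d q' x)) + T α q' (T α q (d q' x))⟫_ℂ ∂μ := by
      intro α
      refine (integral_add (hint' ((T α q).comp (T α q')) q q')
        (hint' ((T α q').comp (T α q)) q q')).symm.trans ?_
      refine integral_congr_ae (ae_of_all _ fun x => ?_)
      simp only [inner_add_right]
      rfl
    simp_rw [h2]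
    rw [← integral_finsetSum _ fun α _ => ?_]
    · rw [← integral_const_mul]
      refine integral_congr_ae (ae_of_all _ fun x => ?_)
      simp only
      rw [← inner_sum, hanti, inner_smul_right]
    · have h3 := hint' ((T α q).comp (T α q') + (T α q').comp (T α q)) q q'
      exact h3
  -- the sum
  have e3 : (2 : ℂ) * ((∑ α, ∫ x, ‖∑ q, T α q (d q x)‖ ^ 2 ∂μ : ℝ) : ℂ) =
      2 * ((k * ∫ x, ∑ q, ‖d q x‖ ^ 2 ∂μ : ℝ) : ℂ) := by
    have h1 : ((∑ α, ∫ x, ‖∑ q, T α q (d q x)‖ ^ 2 ∂μ : ℝ) : ℂ) =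
        ∑ q, ∑ q', ∑ α, ∫ x, ⟪d q x, T α q (T α q' (d q' x))⟫_ℂ ∂μ := by
      push_cast
      simp_rw [e1]
      rw [Finset.sum_comm]
      refine Finset.sum_congr rfl fun q _ => ?_
      rw [Finset.sum_comm]
    have h2 : (2 : ℂ) * ∑ q, ∑ q', ∑ α, ∫ x, ⟪d q x, T α q (T α q' (d q' x))⟫_ℂ ∂μ =
        ∑ q, ∑ q', ((∑ α, ∫ x, ⟪d q x, T α q (T α q' (d q' x))⟫_ℂ ∂μ) +
          (∑ α, ∫ x, ⟪d q' x, T α q' (T α q (d q x))⟫_ℂ ∂μ)) := by
      simp only [Finset.sum_add_distrib]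
      rw [two_mul]
      congr 1
      rw [Finset.sum_comm]
    rw [h1, h2]
    simp_rw [e2]
    have h3 : ∀ q, ∑ q', (((if q = q' then 2 * k else 0) : ℝ) : ℂ) *
        ∫ x, ⟪d q x, d q' x⟫_ℂ ∂μ = 2 * k * ((∫ x, ‖d q x‖ ^ 2 ∂μ : ℝ) : ℂ) := by
      intro q
      rw [Finset.sum_eq_single q]
      · rw [if_pos rfl, ← integral_complex_ofReal]
        push_cast
        congr 1
        refine integral_congr_ae (ae_of_all _ fun x => ?_)
        simp only
        rw [inner_self_eq_norm_sq_to_K]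
        norm_cast
      · intro q' _ hq
        rw [if_neg (Ne.symm hq)]
        simp
      · simp
    simp_rw [h3]
    rw [← Finset.mul_sum]
    rw [integral_finsetSum _ fun q _ => ?_]
    · push_cast
      ring
    · have h4 := (hint' LinearMap.id q q).re
      refine h4.congr (ae_of_all _ fun x => ?_)
      simp only [LinearMap.id_coe, id_eq]
      exact inner_self_eq_norm_sq (𝕜 := ℂ) (d q x)
  have e4 := mul_left_cancel₀ (two_ne_zero) e3
  exact_mod_cast e4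

end abs

section lit

variable {N : ℕ} {F : Type*} [NormedAddCommGroup F] [InnerProductSpace ℂ F]
  [FiniteDimensional ℂ F]

/-- `Σ_α {Θ_α(x), Θ_α(y)} = 16 ⟪x, y⟫`. -/
theorem sum_Theta_anti (M : FermionRep N F) (G : GammaNine) (x y : Cfg N) (f : F) :
    ∑ α, (Theta M G α x (Theta M G α y f) + Theta M G α y (Theta M G α x f)) =
      ((16 * ⟪x, y⟫_ℝ : ℝ) : ℂ) • f := by
  have h1 : ∀ α, Theta M G α x (Theta M G α y f) + Theta M G α y (Theta M G α x f) =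
      ((∑ γ, ⟪VacC288.yv G α x γ, VacC288.yv G α y γ⟫_ℝ : ℝ) : ℂ) • f := by
    intro α
    rw [VacC288.Theta_thv, VacC288.Theta_thv]
    simp only [LinearMap.sum_apply, map_sum]
    rw [Finset.sum_comm, ← Finset.sum_add_distrib]
    push_cast
    rw [Finset.sum_smul]
    refine Finset.sum_congr rfl fun γ _ => ?_
    rw [← Finset.sum_add_distrib]
    simp_rw [thv_anti]
    rw [Finset.sum_eq_single γ]
    · rw [if_pos rfl]
    · intro γ' _ h
      rw [if_neg (Ne.symm h), zero_smul]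
    · simp
  simp_rw [h1]
  rw [← Finset.sum_smul, ← Complex.ofReal_sum]
  congr 2
  unfold VacC288.yv
  simp only [sum_inner, inner_sum, real_inner_smul_left, real_inner_smul_right]
  have h2 : ∀ i j : Fin 9, ∑ α, ∑ γ, G.γ i α γ * G.γ j α γ = 16 * (if i = j then 1 else 0) := by
    intro i j
    rw [Weitz726.pair_eq_trace, Weitz726.tr2]
    rfl
  have h3 : ∑ α : Fin 16, ∑ γ : Fin 16, ∑ j : Fin 9, ∑ i : Fin 9,
      G.γ j α γ * (G.γ i α γ * ⟪comp x i, comp y j⟫_ℝ) =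
      ∑ i : Fin 9, ∑ j : Fin 9, (∑ α, ∑ γ, G.γ i α γ * G.γ j α γ) * ⟪comp x i, comp y j⟫_ℝ := by
    simp only [Finset.sum_mul]
    calc ∑ α : Fin 16, ∑ γ : Fin 16, ∑ j : Fin 9, ∑ i : Fin 9,
          G.γ j α γ * (G.γ i α γ * ⟪comp x i, comp y j⟫_ℝ)
        = ∑ α : Fin 16, ∑ γ : Fin 16, ∑ i : Fin 9, ∑ j : Fin 9,
          G.γ i α γ * G.γ j α γ * ⟪comp x i, comp y j⟫_ℝ := by
          refine Finset.sum_congr rfl fun α _ => Finset.sum_congr rfl fun γ _ => ?_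
          rw [Finset.sum_comm]
          refine Finset.sum_congr rfl fun i _ => Finset.sum_congr rfl fun j _ => ?_
          ring
      _ = ∑ α : Fin 16, ∑ i : Fin 9, ∑ γ : Fin 16, ∑ j : Fin 9,
          G.γ i α γ * G.γ j α γ * ⟪comp x i, comp y j⟫_ℝ :=
          Finset.sum_congr rfl fun α _ => Finset.sum_comm
      _ = ∑ i : Fin 9, ∑ α : Fin 16, ∑ γ : Fin 16, ∑ j : Fin 9,
          G.γ i α γ * G.γ j α γ * ⟪comp x i, comp y j⟫_ℝ := Finset.sum_comm
      _ = ∑ i : Fin 9, ∑ α : Fin 16, ∑ j : Fin 9, ∑ γ : Fin 16,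
          G.γ i α γ * G.γ j α γ * ⟪comp x i, comp y j⟫_ℝ :=
          Finset.sum_congr rfl fun i _ => Finset.sum_congr rfl fun α _ => Finset.sum_comm
      _ = ∑ i : Fin 9, ∑ j : Fin 9, ∑ α : Fin 16, ∑ γ : Fin 16,
          G.γ i α γ * G.γ j α γ * ⟪comp x i, comp y j⟫_ℝ :=
          Finset.sum_congr rfl fun i _ => Finset.sum_comm
  rw [h3]
  simp_rw [h2]
  simp only [mul_ite, mul_one, mul_zero, ite_mul, zero_mul, Finset.sum_ite_eq, Finset.mem_univ,
    if_true]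
  rw [inner_comp, Finset.mul_sum]

/-- The Clifford sum along an orthonormal family of configurations. -/
theorem sum_aA {E : Type*} [NormedAddCommGroup E] [NormedSpace ℝ E] [FiniteDimensional ℝ E]
    [MeasurableSpace E] [BorelSpace E] {μ : Measure E} [μ.IsAddHaarMeasure]
    (M : FermionRep N F) (G : GammaNine) {κ : Type*} [Fintype κ] {c : κ → Cfg N}
    (hc : Orthonormal ℝ c) (w : κ → E) {Φ : E → F} (hΦ : ContDiff ℝ 2 Φ)
    (hs : HasCompactSupport Φ) :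
    ∑ α, ∫ x, ‖∑ q, aA M G α (c q) (fderiv ℝ Φ x (w q))‖ ^ 2 ∂μ =
      8 * ∫ x, ∑ q, ‖fderiv ℝ Φ x (w q)‖ ^ 2 ∂μ := by
  classical
  have h := sum_charge (μ := μ) (k := 8) (T := fun α q => Theta M G α (c q))
    (fun α q => Theta_symm M G α (c q)) (fun q q' f => ?_) w hΦ hs
  · rw [← h]
    refine Finset.sum_congr rfl fun α _ => integral_congr_ae (ae_of_all _ fun x => ?_)
    simp only
    have h1 : ∑ q, aA M G α (c q) (fderiv ℝ Φ x (w q)) =
        (-Complex.I) • ∑ q, Theta M G α (c q) (fderiv ℝ Φ x (w q)) := by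
      rw [Finset.smul_sum]
      rfl
    rw [h1, norm_smul, norm_neg, Complex.norm_I, one_mul]
  · rw [sum_Theta_anti, orthonormal_iff_ite.1 hc]
    congr 2
    split_ifs <;> norm_num

theorem orthonormal_cf {p : ℕ} {b : ColorBasis N} {S : Type} [Group S] [Fintype S]
    (C : TDef414.Chn b p S) :
    Orthonormal ℝ fun q : Fin 9 × Fin p => C.cf (EuclideanSpace.single q (1 : ℝ)) := by
  classical
  rw [orthonormal_iff_ite]
  intro q q'
  rw [C.cf.inner_map_map, EuclideanSpace.inner_single_left]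
  by_cases h : q = q'
  · simp [h]
  · simp [h]

/-- **The centre part of the light charge.** -/
theorem gx_cen {p : ℕ} {b : ColorBasis N} {S : Type} [Group S] [Fintype S]
    (C : TDef414.Chn b p S) {E : Type*} [NormedAddCommGroup E] [NormedSpace ℝ E]
    [FiniteDimensional ℝ E] [MeasurableSpace E] [BorelSpace E] {μ : Measure E}
    [μ.IsAddHaarMeasure] (M : FermionRep N F) (G : GammaNine) (w : Fin 9 × Fin p → E)
    {Φ : E → F} (hΦ : ContDiff ℝ 2 Φ) (hs : HasCompactSupport Φ) :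
    ∑ α, ∫ x, ‖∑ q, aA M G α (C.cf (EuclideanSpace.single q 1)) (fderiv ℝ Φ x (w q))‖ ^ 2 ∂μ =
      8 * ∫ x, ∑ q, ‖fderiv ℝ Φ x (w q)‖ ^ 2 ∂μ :=
  sum_aA M G (orthonormal_cf C) w hΦ hs

end lit

end Crest.Agent.R330.GX818

end
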