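import Crest.Agent.R330.TDefB_414
import Crest.Agent.R330.CapSl_924
import Crest.Agent.R330.LemA_342
import Crest.Agent.R330.SlQE_87
import Crest.Agent.R330.BrT5_658
import Crest.Agent.R330.TCore_383
import Crest.Agent.R330.AX_984

/-!
# Row 330, S9-LOC (helper8): the data of the slice estimate over `TDef_414`

* `exists_retr` : smooth retraction to a small ball.
* `Vac P X` : the vectors killed by the heavy charges at `X`; `pV P X` its projection.
* `gsl P σ ρ g` : the normalised Gaussian on the fixed slice, smooth, of norm one.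
* `Phi c η φ` : the cut-off slice function.
* `aesm_fpr` : measurability of the fibre projection.
-/

set_option autoImplicit false
set_option linter.unusedSectionVars false

open MeasureTheory Filter Topology Crest.MathPhysics.MatrixQM
open scoped ContDiff InnerProductSpace ENNReal

noncomputable section

namespace Crest.Agent.R330.LocB8

open Crest.Agent.R330.Defs478 Crest.Agent.R330.LS839 Crest.Agent.R330.Frame839
  Crest.Agent.R330.Clus839
  Crest.Agent.R330.Bind6839 Crest.Agent.R330.SlG944 Crest.Agent.R330.SlF944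
  Crest.Agent.R330.IBP837 Crest.Agent.R330.TDef414 Crest.Agent.R330.GPar984
  Crest.Agent.R330.LemA342 Crest.Agent.R330.FibProj837
open Crest.Agent.R330.SlB314 (Nor Tan br)
open Crest.Agent.R330.SlD314 (tube)

/-! ## A smooth retraction -/

theorem exists_retr {E : Type*} [NormedAddCommGroup E] [InnerProductSpace ℝ E]
    [FiniteDimensional ℝ E] (x0 : E) {ε : ℝ} (hε : 0 < ε) :
    ∃ ρ : E → E, ContDiff ℝ ∞ ρ ∧ (∀ x, ‖x - x0‖ ≤ ε / 2 → ρ x = x) ∧ ∀ x, ‖ρ x - x0‖ < ε := by
  let f : ContDiffBump (0 : E) := ⟨ε / 2, ε, by positivity, by linarith⟩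
  refine ⟨fun x => x0 + f (x - x0) • (x - x0), ?_, fun x hx => ?_, fun x => ?_⟩
  · have h1 : ContDiff ℝ ∞ fun x : E => x - x0 := contDiff_id.sub contDiff_const
    exact contDiff_const.add ((f.contDiff.comp h1).smul h1)
  · have h1 : f (x - x0) = 1 := by
      refine f.one_of_mem_closedBall ?_
      rw [mem_closedBall_zero_iff]
      exact hx
    simp only [h1, one_smul]
    abel
  · simp only [add_sub_cancel_left]
    by_cases h : ‖x - x0‖ < ε
    · rw [norm_smul, Real.norm_of_nonneg (f.nonneg' _)]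
      calc f (x - x0) * ‖x - x0‖ ≤ 1 * ‖x - x0‖ := by gcongr; exact f.le_one
        _ = ‖x - x0‖ := one_mul _
        _ < ε := h
    · have h1 : f (x - x0) = 0 := by
        refine f.zero_of_le_dist ?_
        rw [dist_zero_right]
        exact not_lt.1 h
      rw [h1, zero_smul, norm_zero]
      exact hε

variable {N p : ℕ} {b : ColorBasis N} {S : Type} [Group S] [Fintype S] {C : Chn b p S}
  {F : Type*} [NormedAddCommGroup F] [InnerProductSpace ℂ F] [FiniteDimensional ℂ F]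
  {M : FermionRep N F} {R : GaugeAction b M} {G : GammaNine}

/-- position of a slice point -/
def posu (σ : Sl C) (u : Cfg N) : Pos p := σ.X0 + C.cfT u

/-! ## The heavy vacua -/

/-- the vectors killed by the heavy charges at `X` -/
def Vac (P : TPack C M R G) (X : Pos p) : Submodule ℂ F where
  carrier := {f | ∀ z ∈ Tup C.kkᗮ, ∀ α,
    Complex.I • Theta M G α (P.A X z) f + wB b M G 1 α (C.cf X) z f = 0}
  add_mem' {f f'} hf hf' z hz α := by
    have h1 := hf z hz α
    have h2 := hf' z hz α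
    rw [map_add, map_add, smul_add]
    calc _ = (Complex.I • Theta M G α (P.A X z) f + wB b M G 1 α (C.cf X) z f) +
        (Complex.I • Theta M G α (P.A X z) f' + wB b M G 1 α (C.cf X) z f') := by abel
      _ = 0 := by rw [h1, h2, add_zero]
  zero_mem' z _ α := by rw [map_zero, map_zero, smul_zero, add_zero]
  smul_mem' r f hf z hz α := by
    have h1 := hf z hz α
    rw [map_smul, map_smul, smul_comm, ← smul_add, h1, smul_zero]

theorem mem_Vac {P : TPack C M R G} {X : Pos p} {f : F} : f ∈ Vac P X ↔ ∀ z ∈ Tup C.kkᗮ, ∀ α,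
    Complex.I • Theta M G α (P.A X z) f + wB b M G 1 α (C.cf X) z f = 0 := Iff.rfl

/-- the projection on the heavy vacua at `X` -/
def pV (P : TPack C M R G) (X : Pos p) : F →ₗ[ℂ] F :=
  ((Vac P X).starProjection : F →L[ℂ] F).toLinearMap

theorem pV_symm (P : TPack C M R G) (X : Pos p) : (pV P X).IsSymmetric :=
  Submodule.starProjection_isSymmetric _

theorem pV_mem (P : TPack C M R G) (X : Pos p) (f : F) : pV P X f ∈ Vac P X :=
  Submodule.starProjection_apply_mem _ _

theorem pV_of_mem {P : TPack C M R G} {X : Pos p} {f : F} (h : f ∈ Vac P X) : pV P X f = f :=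
  Submodule.starProjection_eq_self_iff.2 h

theorem pV_idem (P : TPack C M R G) (X : Pos p) (f : F) : pV P X (pV P X f) = pV P X f :=
  pV_of_mem (pV_mem P X f)

theorem norm_pV_le (P : TPack C M R G) (X : Pos p) (f : F) : ‖pV P X f‖ ≤ ‖f‖ :=
  Submodule.norm_starProjection_apply_le _ _

/-- any symmetric operator with values in the vacua which fixes them is the projection -/
theorem pV_unique (P : TPack C M R G) (X : Pos p) {q : F →ₗ[ℂ] F} (hs : q.IsSymmetric)
    (hm : ∀ f, q f ∈ Vac P X) (hf : ∀ f ∈ Vac P X, q f = f) : q = pV P X := by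
  refine LinearMap.ext fun f => ?_
  refine (Submodule.eq_starProjection_of_mem_of_inner_eq_zero (hm f) fun w hw => ?_).symm
  rw [inner_sub_left, hs f w, hf w hw, sub_self]

theorem U_mem_Vac (P : TPack C M R G) {X : Pos p} (hX : C.BReg X) {f : F} (hf : f ∈ C.Fl M G) :
    P.U X f ∈ Vac P X := fun z hz α => P.U_kill X hX f hf z hz α

theorem exists_U (P : TPack C M R G) {X : Pos p} (hX : C.BReg X) {f : F} (hf : f ∈ Vac P X) :
    ∃ f' ∈ C.Fl M G, P.U X f' = f := P.U_full X hX f hf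

/-- the projection through `U` -/
theorem pV_eq (P : TPack C M R G) {X : Pos p} (hX : C.BReg X) (f : F) :
    pV P X f = ∑ k, ⟪P.U X (stdOrthonormalBasis ℂ (C.Fl M G) k : F), f⟫_ℂ •
      P.U X (stdOrthonormalBasis ℂ (C.Fl M G) k : F) := by
  set e := stdOrthonormalBasis ℂ (C.Fl M G) with he
  refine Submodule.eq_starProjection_of_mem_of_inner_eq_zero ?_ fun w hw => ?_
  · exact Submodule.sum_mem _ fun k _ => Submodule.smul_mem _ _ (U_mem_Vac P hX (e k).2)
  · obtain ⟨f', hf', rfl⟩ := exists_U P hX hw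
    rw [inner_sub_left, sub_eq_zero, sum_inner]
    have h1 : f' = ∑ k, ⟪e k, (⟨f', hf'⟩ : C.Fl M G)⟫_ℂ • (e k : F) := by
      have := congrArg (Subtype.val) (e.sum_repr' (⟨f', hf'⟩ : C.Fl M G))
      simpa using this.symm
    have h2 : ⟪f, P.U X f'⟫_ℂ = ∑ k, ⟪e k, (⟨f', hf'⟩ : C.Fl M G)⟫_ℂ * ⟪f, P.U X (e k : F)⟫_ℂ := by
      conv_lhs => rw [h1]
      rw [map_sum, inner_sum]
      refine Finset.sum_congr rfl fun k _ => ?_
      rw [map_smul, inner_smul_right]
    rw [h2]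
    refine Finset.sum_congr rfl fun k _ => ?_
    rw [inner_smul_left, P.U_inner X hX _ (e k).2 f' hf', inner_conj_symm, mul_comm]
    rfl

theorem contDiffAt_pV (P : TPack C M R G) {X : Pos p} (hX : C.BReg X) (f : F) :
    ContDiffAt ℝ ∞ (fun X => pV P X f) X := by
  have h1 : ContDiffAt ℝ ∞ (fun X => ∑ k, ⟪P.U X (stdOrthonormalBasis ℂ (C.Fl M G) k : F), f⟫_ℂ •
      P.U X (stdOrthonormalBasis ℂ (C.Fl M G) k : F)) X := by
    refine ContDiffAt.sum fun k _ => ?_
    have h2 : ContDiffAt ℝ ∞ (fun X => P.U X (stdOrthonormalBasis ℂ (C.Fl M G) k : F)) X :=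
      ((ContinuousLinearMap.apply ℂ F (stdOrthonormalBasis ℂ (C.Fl M G) k : F)).restrictScalars
        ℝ).contDiff.contDiffAt.comp X (P.U_smooth X hX)
    exact (h2.inner ℂ contDiffAt_const).smul h2
  refine h1.congr_of_eventuallyEq ?_
  filter_upwards [C.isOpen_breg.mem_nhds hX] with Y hY
  exact pV_eq P hY f

/-! ## The Gaussian -/

/-- the exponent on the slice -/
def Az (P : TPack C M R G) (σ : Sl C) (X : Pos p) :
    Zs b (C.cf σ.X0) →L[ℝ] Zs b (C.cf σ.X0) := AX984.cmp (Zs b (C.cf σ.X0)) (P.A X)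

theorem inner_Az (P : TPack C M R G) (σ : Sl C) (X : Pos p) (z z' : Zs b (C.cf σ.X0)) :
    ⟪Az P σ X z, z'⟫_ℝ = ⟪P.A X z, (z' : Cfg N)⟫_ℝ := AX984.inner_cmp _ _ _ _

theorem Az_sy (P : TPack C M R G) (σ : Sl C) (X : Pos p) : SqrtPD984.Sy (Az P σ X) := by
  intro z z'
  rw [inner_Az, P.A_symm, real_inner_comm, ← inner_Az, real_inner_comm]

theorem Az_pd (P : TPack C M R G) (σ : Sl C) {X : Pos p} (hX : ‖X - σ.X0‖ < σ.r) :
    SqrtPD984.PD (Az P σ X) := by
  refine ⟨Az_sy P σ X, fun z hz => ?_⟩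
  rw [inner_Az]
  have h1 : (z : Cfg N) ∈ C.Zt σ.X0 := by
    rw [← BrT5658.Zs_eq (BrT5658.reg0 σ)]
    exact z.2
  exact BrT5658.A_pos P σ hX h1 (by simpa using hz)

theorem contDiffAt_Az (P : TPack C M R G) (σ : Sl C) {X : Pos p} (hX : ‖X - σ.X0‖ < σ.r) :
    ContDiffAt ℝ ∞ (Az P σ) X :=
  AX984.contDiffAt_cmp _ (P.A_smooth X (σ.reg X hX))

/-- the normalised Gaussian on the slice; `ρ` is a retraction to the chart -/
def gsl (P : TPack C M R G) (σ : Sl C) (ρ : Pos p → Pos p) (g : ℝ) (x : Sc b (C.cf σ.X0)) : ℝ :=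
  GPar984.G g (Az P σ (ρ (posu σ x.1))) x.2

section gsl

variable {P : TPack C M R G} {σ : Sl C} {ρ : Pos p → Pos p}

theorem contDiff_posu (σ : Sl C) : ContDiff ℝ ∞ (fun u : Uk b (C.cf σ.X0) => posu σ (u : Cfg N)) :=
  contDiff_const.add (C.cfT.contDiff.comp (Uk b (C.cf σ.X0)).subtypeL.contDiff)

/-- the Gaussian with its position as a parameter -/
theorem contDiffAt_gX (g : ℝ) {X : Pos p} (hX : ‖X - σ.X0‖ < σ.r) (z : Zs b (C.cf σ.X0)) :
    ContDiffAt ℝ ∞ (fun q : Pos p × Zs b (C.cf σ.X0) => GPar984.G g (Az P σ q.1) q.2) (X, z) :=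
  GPar984.contDiffAt_G (by simp) g (contDiffAt_Az P σ hX)
    (Eventually.of_forall fun X => Az_sy P σ X) (Az_pd P σ hX)

theorem contDiff_gsl (hρ : ContDiff ℝ ∞ ρ) (hr : ∀ X, ‖ρ X - σ.X0‖ < σ.r) (g : ℝ) :
    ContDiff ℝ ∞ (gsl P σ ρ g) := by
  have h3 : ContDiff ℝ ∞ (fun x : Sc b (C.cf σ.X0) => posu σ (x.1 : Cfg N)) :=
    (contDiff_posu σ).comp contDiff_fst
  have h4 : ContDiff ℝ ∞ (fun x : Sc b (C.cf σ.X0) =>
      (ρ (posu σ (x.1 : Cfg N)), x.2)) := (hρ.comp h3).prodMk contDiff_snd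
  rw [contDiff_iff_contDiffAt]
  intro x
  have h1 := contDiffAt_gX (P := P) g (hr (posu σ (x.1 : Cfg N))) x.2
  exact h1.comp x h4.contDiffAt

theorem integral_gsl_sq (hr : ∀ X, ‖ρ X - σ.X0‖ < σ.r) {g : ℝ} (hg : 0 < g)
    (u : Uk b (C.cf σ.X0)) : ∫ z : Zs b (C.cf σ.X0), gsl P σ ρ g (u, z) ^ 2 = 1 := by
  have h := GPar984.integral_G_sq hg (Az_pd P σ (hr (posu σ (u : Cfg N))))
  unfold gsl
  exact h

theorem memLp_gsl (hr : ∀ X, ‖ρ X - σ.X0‖ < σ.r) {g : ℝ} (hg : 0 < g)
    (u : Uk b (C.cf σ.X0)) : MemLp (fun z : Zs b (C.cf σ.X0) => gsl P σ ρ g (u, z)) 2 := by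
  have hc : Continuous fun z : Zs b (C.cf σ.X0) => gsl P σ ρ g (u, z) :=
    GPar984.continuous_G g (Az P σ (ρ (posu σ u)))
  rw [memLp_two_iff_integrable_sq hc.aestronglyMeasurable]
  by_contra h
  have h1 := integral_undef h
  rw [integral_gsl_sq hr hg u] at h1
  exact one_ne_zero h1

theorem gsl_pos (hr : ∀ X, ‖ρ X - σ.X0‖ < σ.r) {g : ℝ} (hg : 0 < g) (x : Sc b (C.cf σ.X0)) :
    0 < gsl P σ ρ g x := GPar984.G_pos hg (Az_pd P σ (hr (posu σ x.1))) x.2

end gsl

end Crest.Agent.R330.LocB8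

end
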