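import Crest.Agent.R330.LemP_342
import Crest.Agent.R330.LemF_581
import Crest.Agent.R330.LemR2_302
import Crest.Agent.R330.LocB_8
import Crest.Agent.R330.SlEx_814

/-!
# Row 330, S7-R (helper342): **Lemma R**

* `lemR` : at every commuting `c`, for every heavy parity `Γ` equal to one on the heavy vacua:
  for every cut-off `η` supported in a small ball of the slice, all the bounds `Out` for
  `half b c η φ`, `φ` any core vector, with the energy `qf + ∫ ‖φ‖²`.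
* `I1_loc`, `I1_core` : the fibre projection in the names of `LocB_8`, integrated over `S`.
-/

set_option autoImplicit false
set_option linter.unusedSectionVars false
set_option maxSynthPendingDepth 3

open MeasureTheory Filter Topology Crest.MathPhysics.MatrixQM Set
open Crest.Agent.R330.IBP837 Crest.Agent.R330.Defs478 Crest.Agent.R330.Frame839
open Crest.Agent.R330.LS839 Crest.Agent.R330.Clus839 Crest.Agent.R330.Bind6839
open Crest.Agent.R330.Decoup924 Crest.Agent.R330.LemA342 Crest.Agent.R330.LemB342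
open Crest.Agent.R330.LemC342 Crest.Agent.R330.SlQE87
open Crest.Agent.R330.FactI161 Crest.Agent.R330.FibQ581 Crest.Agent.R330.LemRe149
open Crest.Agent.R330.FibProj837 (fpj fpr)
open scoped ContDiff InnerProductSpace ENNReal

noncomputable section

namespace Crest.Agent.R330.LemR342

variable {N : ℕ} {b : ColorBasis N}
  {F : Type*} [NormedAddCommGroup F] [InnerProductSpace ℂ F] [FiniteDimensional ℂ F]
  {M : FermionRep N F} {G : GammaNine}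

theorem cd_half {c : Cfg N} {n : WithTop ℕ∞} {η : Sc b c → ℝ} {φ : Cfg N → F}
    (hη : ContDiff ℝ n η) (hφ : ContDiff ℝ n φ) : ContDiff ℝ n (half b c η φ) := by
  unfold half
  refine hη.smul (hφ.comp ?_)
  have : (fun x : Sc b c => c + (x.1 : Cfg N) + (x.2 : Cfg N)) = fun x => c + slL b c x := by
    funext x
    rw [slL_apply, add_assoc]
  rw [this]
  exact contDiff_const.add (slL b c).contDiff

theorem cs_half {c : Cfg N} {η : Sc b c → ℝ} {φ : Cfg N → F} (hη : HasCompactSupport η) :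
    HasCompactSupport (half b c η φ) := by
  refine hη.mono fun x hx => ?_
  intro h0
  apply hx
  show η x • φ _ = 0
  rw [h0, zero_smul]

theorem haarP (b : ColorBasis N) (c : Cfg N) :
    ((volume : Measure (Uk b c)).prod (volume : Measure (Zs b c))).IsAddHaarMeasure :=
  Measure.prod.instIsAddHaarMeasure _ _

/-- The conclusion of Lemma R for the cut-offs supported in the ball of radius `s`. -/
def OutAt (b : ColorBasis N) (c : Cfg N) (M : FermionRep N F) (R : GaugeAction b M)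
    (G : GammaNine) (Γ : F →ₗ[ℂ] F) (s : ℝ) : Prop :=
  ∀ (ι κ κ' : Type) [Fintype ι] [Fintype κ] [Fintype κ'] (e : OrthonormalBasis ι ℝ (Uk b c))
    (v : OrthonormalBasis κ ℝ (Zs b c)) (t : OrthonormalBasis κ' ℝ (Tn (actB b) c))
    (η : Sc b c → ℝ), ContDiff ℝ ∞ η → HasCompactSupport η →
    (∀ x, s ^ 2 ≤ ‖x.1‖ ^ 2 + ‖x.2‖ ^ 2 → η x = 0) →
    ∃ C : ℝ, 1 ≤ C ∧ ∀ g m : ℝ, 1 ≤ g → 0 ≤ m → m ≤ 1 → ∀ φ : Cfg N → F, IsCoreVec b R φ →
      Out (volume.prod volume) M G Γ e v t g m (half b c η φ)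
        (C * (qf b M G g m φ + ∫ x, ‖φ x‖ ^ 2))

/-- **Lemma R.** -/
theorem lemR [Nontrivial F] (b : ColorBasis N) (M : FermionRep N F) (R : GaugeAction b M)
    (G : GammaNine) {c : Cfg N} (hc : Comc b c) :
    ∃ r B ρ s K : ℝ, 0 < r ∧ GapAt (actB b) c r ∧ ActBound (actB b) B ∧ 0 < B ∧
      0 < s ∧ s ≤ ρ ∧ B * ρ ≤ r / 2 ∧ 0 ≤ K ∧
      ∀ Γ : F →ₗ[ℂ] F, IsPar b c M Γ → (∀ f ∈ (cr M).vacJ (FibP581.JX b G c c), Γ f = f) →
        FibPack b c M G Γ ρ K ∧ OutAt b c M R G Γ s := by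
  obtain ⟨B, hB0, hB⟩ := exists_actBound b
  obtain ⟨r, hr0, hr⟩ := SlEx814.exists_gapAt (b := b) c
  obtain ⟨r0, C0, H⟩ := SlM712.exists_SRad (b := b) c
  obtain ⟨ρF, hρ0, hρB, K, hK, HF⟩ := LemF581.lemF b M G hc hr0 hr hB hB0.le
  obtain ⟨s0, hs0, -, -, -, HR⟩ := LemR2302.R2' R G hc hr0 hr hB hB0 H (M := M)
  set ρ := ρF / 2 with hρ
  have hρp : 0 < ρ := half_pos hρ0
  have hρF : ρ < ρF := half_lt_self hρ0
  have hρB' : B * ρ ≤ r / 2 := (mul_le_mul_of_nonneg_left hρF.le hB0.le).trans hρB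
  set s := min s0 ρ with hs
  have hsp : 0 < s := lt_min hs0 hρp
  refine ⟨r, B, ρ, s, K, hr0, hr, hB, hB0, hsp, min_le_right _ _, hρB', hK, fun Γ hΓ hv => ?_⟩
  have hP := (HF Γ hΓ hv).mono hρF.le
  refine ⟨hP, ?_⟩
  intro ι κ κ' _ _ _ e v t η hη hηc hηs
  have hsq : ∀ x : Sc b c, s0 ^ 2 ≤ ‖x.1‖ ^ 2 + ‖x.2‖ ^ 2 → η x = 0 := fun x hx =>
    hηs x ((pow_le_pow_left₀ hsp.le (min_le_left _ _) 2).trans hx)
  obtain ⟨C1, hC1, H1⟩ := HR η hη hηc hsq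
  have := haarP b c
  obtain ⟨C2, hC2, H2⟩ := out_of ((volume : Measure (Uk b c)).prod (volume : Measure (Zs b c)))
    hr0 hr hB hB0.le hc M G hΓ e v t hρp hρF hρB hK
  refine ⟨C2 * (C1 + 1), by nlinarith, fun g m hg hm hm1 φ hφ => ?_⟩
  obtain ⟨h1, h2⟩ := H1 g m hg hm hm1 φ hφ
  have hq : 0 ≤ qf b M G g m φ :=
    mul_nonneg (by norm_num) (Finset.sum_nonneg fun _ _ => integral_nonneg fun _ => sq_nonneg _)
  have hn : 0 ≤ ∫ x, ‖φ x‖ ^ 2 := integral_nonneg fun x => by positivity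
  set E : ℝ := (C1 + 1) * (qf b M G g m φ + ∫ x, ‖φ x‖ ^ 2) with hE
  have hφ2 : ContDiff ℝ 2 φ := hφ.1.of_le ENat.LEInfty.out
  have hη2 : ContDiff ℝ 2 η := hη.of_le ENat.LEInfty.out
  have hg0 : 0 < g := lt_of_lt_of_le one_pos hg
  have key := H2 g m hg0.le (hP.odd κ κ' v t g hg0 volume) (half b c η φ) E
    (cd_half hη2 hφ2) (cs_half hηc) ?_ ?_ ?_
  · rw [hE, ← mul_assoc] at key
    exact key
  · intro x hx
    have h3 : η x = 0 := by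
      refine hηs x ?_
      have h4 : s ^ 2 ≤ ‖x.1‖ ^ 2 :=
        pow_le_pow_left₀ hsp.le ((min_le_right _ _).trans hx.le) 2
      nlinarith [sq_nonneg ‖x.2‖]
    show η x • φ _ = 0
    rw [h3, zero_smul]
  · refine (h1 ι κ κ' e v t).trans ?_
    rw [hE]
    nlinarith
  · refine h2.trans ?_
    rw [hE]
    nlinarith [mul_nonneg hC1 hq]

theorem OutAt.mono {c : Cfg N} {R : GaugeAction b M} {Γ : F →ₗ[ℂ] F} {s s' : ℝ}
    (h : OutAt b c M R G Γ s) (h0 : 0 ≤ s') (hs : s' ≤ s) : OutAt b c M R G Γ s' := by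
  intro ι κ κ' _ _ _ e v t η hη hηc hηs
  exact h ι κ κ' e v t η hη hηc fun x hx => hηs x ((pow_le_pow_left₀ h0 hs 2).trans hx)

/-! ### For a pack `P : TPack C M R G`, in the names of `LocB_8` -/

section pack

open Crest.Agent.R330.TDef414 Crest.Agent.R330.LemP342

variable {p : ℕ} {S : Type} [Group S] [Fintype S] {C : Chn b p S} {R : GaugeAction b M}

/-- `Lp` is the projection on the heavy vacua at the commuting part. -/
theorem Lp_eq [Nontrivial F] (P : TPack C M R G) (σ : Sl C) {u : Uk b (C.cf σ.X0)}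
    (hu : C.Reg (LocB8.posu σ (u : Cfg N))) :
    LemRe149.Lp b (C.cf σ.X0) M G (Fib892.tenS N) u = LocB8.pV P (LocB8.posu σ (u : Cfg N)) := by
  have h0 : C.Reg σ.X0 := BrT5658.reg0 σ
  refine LinearMap.ext fun f => ?_
  have h1 := star_eq P hu (LocB8.Vac P (LocB8.posu σ (u : Cfg N))) (fun f => Iff.rfl) f
  have h2 : LocB8.pV P (LocB8.posu σ (u : Cfg N)) f =
      (LocB8.Vac P (LocB8.posu σ (u : Cfg N))).starProjection f := rfl
  rw [h2, h1]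
  unfold LemRe149.Lp Fib892.Jl LocB8.posu
  rw [Xu_cf h0, show kc (actB b) (C.cf σ.X0) = C.kk from h0]

/-- the Gaussian weight -/
theorem gam_eq [Nontrivial F] (P : TPack C M R G) (σ : Sl C) {u : Uk b (C.cf σ.X0)}
    (hu : C.Reg (LocB8.posu σ (u : Cfg N))) (g : ℝ) (z : Cfg N) :
    gam b (C.cf σ.X0) g u z =
      Real.exp (-(g / 2) * ⟪P.A (LocB8.posu σ (u : Cfg N)) z, z⟫_ℝ) := by
  have h0 : C.Reg σ.X0 := BrT5658.reg0 σ
  unfold gam
  rw [Xu_cf h0, show kc (actB b) (C.cf σ.X0) = C.kk from h0, ← QX_reg P hu]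
  rfl

theorem nrm_gsl [Nontrivial F] (P : TPack C M R G) (σ : Sl C) {ρ : ℝ} {rt : Pos p → Pos p}
    (hr : ∀ X, ‖rt X - σ.X0‖ < σ.r)
    (hρ : ∀ u : Uk b (C.cf σ.X0), ‖u‖ ≤ ρ → C.Reg (LocB8.posu σ (u : Cfg N)) ∧
      rt (LocB8.posu σ (u : Cfg N)) = LocB8.posu σ (u : Cfg N)) {g : ℝ} (hg : 0 < g) :
    Nrm ρ (gam b (C.cf σ.X0) g) (LocB8.gsl P σ rt g) := by
  intro u hu
  obtain ⟨h1, h2⟩ := hρ u hu
  refine ⟨⟨LocB8.gsl P σ rt g (u, 0), fun z => ?_⟩, LocB8.integral_gsl_sq hr hg u⟩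
  rw [gam_eq P σ h1]
  unfold LocB8.gsl GPar984.G
  simp only [LocB8.inner_Az]
  rw [h2]
  simp

theorem norm_cfT_le (C : Chn b p S) (u : Cfg N) : ‖C.cfT u‖ ≤ ‖u‖ := by
  have h1 : ‖C.cfT u‖ ^ 2 ≤ ‖u‖ * ‖C.cfT u‖ := by
    have h2 : ‖C.cfT u‖ ^ 2 = ⟪u, C.cf (C.cfT u)⟫_ℝ := by
      rw [← real_inner_self_eq_norm_sq]
      conv_lhs => unfold Chn.cfT
      rw [ContinuousLinearMap.adjoint_inner_left]
      rfl
    rw [h2]
    refine (real_inner_le_norm _ _).trans ?_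
    rw [C.cf.norm_map]
  rcases eq_or_lt_of_le (norm_nonneg (C.cfT u)) with h | h
  · rw [← h]
    exact norm_nonneg _
  · nlinarith

/-- The radius on which the data of the pack and of Lemma R agree. -/
theorem posu_near (σ : Sl C) {u : Cfg N} (hu : ‖u‖ < σ.r) : C.Reg (LocB8.posu σ u) := by
  refine σ.reg _ ?_
  unfold LocB8.posu
  rw [add_sub_cancel_left]
  exact (norm_cfT_le C u).trans_lt hu

/-- **(F2)** at `c + u` with the projection `pV` and the exponent of the pack. -/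
theorem f2_pack [Nontrivial F] (P : TPack C M R G) (σ : Sl C) {Γ : F →ₗ[ℂ] F} {ρ K : ℝ}
    (hF : FibPack b (C.cf σ.X0) M G Γ ρ K) (hρ : ρ < σ.r) (κ κ' : Type) [Fintype κ]
    [Fintype κ'] (v : OrthonormalBasis κ ℝ (Zs b (C.cf σ.X0)))
    (t : OrthonormalBasis κ' ℝ (Tn (actB b) (C.cf σ.X0))) {g : ℝ} (hg : 0 < g) :
    F2u b (C.cf σ.X0) M G v t g ρ K
      (fun u z => Real.exp (-(g / 2) * ⟪P.A (LocB8.posu σ (u : Cfg N)) z, z⟫_ℝ))
      (fun u => LocB8.pV P (LocB8.posu σ (u : Cfg N))) (fun u => ‖C.PY (u : Cfg N)‖) := by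
  have h0 : C.Reg σ.X0 := BrT5658.reg0 σ
  intro u hu f hf hfc
  have h1 := hF.f2u κ κ' v t g hg u hu f hf hfc
  have hreg : C.Reg (LocB8.posu σ (u : Cfg N)) := posu_near σ (hu.trans_lt hρ)
  rw [Lp_eq P σ hreg, du_cf h0] at h1
  have h2 : gam b (C.cf σ.X0) g u =
      fun z => Real.exp (-(g / 2) * ⟪P.A (LocB8.posu σ (u : Cfg N)) z, z⟫_ℝ) := by
    funext z
    exact gam_eq P σ hreg g z
  rw [h2] at h1
  exact h1

/-- **(I1)** for a chart: the distance of `Φ` to its fibre projection. -/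
theorem I1_loc [Nontrivial F] (P : TPack C M R G) (σ : Sl C) {r B ρ K : ℝ} (hr0 : 0 < r)
    (hr : GapAt (actB b) (C.cf σ.X0) r) (hB : ActBound (actB b) B) (hB0 : 0 ≤ B)
    (hρB : B * ρ ≤ r / 2) (hK : 0 ≤ K) {Γ : F →ₗ[ℂ] F}
    (hF : FibPack b (C.cf σ.X0) M G Γ ρ K) (hρ : ρ < σ.r) {rt : Pos p → Pos p}
    (hrt : ∀ X, ‖rt X - σ.X0‖ < σ.r) (hrt' : ∀ X, ‖X - σ.X0‖ ≤ ρ → rt X = X)
    {κ κ' : Type} [Fintype κ] [Fintype κ'] (v : OrthonormalBasis κ ℝ (Zs b (C.cf σ.X0)))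
    (t : OrthonormalBasis κ' ℝ (Tn (actB b) (C.cf σ.X0))) {g : ℝ} (hg : 0 < g)
    {Φ : Sc b (C.cf σ.X0) → F} (hΦ : ContDiff ℝ 2 Φ) (hc : HasCompactSupport Φ)
    (h0 : ∀ x : Sc b (C.cf σ.X0), ρ < ‖x.1‖ → Φ x = 0)
    {S : Set (Uk b (C.cf σ.X0))} (hS : MeasurableSet S) {δ : ℝ}
    (hSd : ∀ u ∈ S, ‖C.PY (u : Cfg N)‖ ≤ δ) :
    g * ∫ u in S, ∫ z, ‖Φ (u, z) -
        fpj volume (LocB8.gsl P σ rt g) (fun u : Uk b (C.cf σ.X0) => LocB8.pV P
          (LocB8.posu σ (u : Cfg N))) Φ (u, z)‖ ^ 2 ≤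
      K * (∑ α, ∫ x, ‖Bop b (C.cf σ.X0) M G g α v t Φ x‖ ^ 2 ∂(volume.prod volume) +
        δ ^ 2 * (g * ∫ x, ‖Φ x‖ ^ 2 ∂(volume.prod volume))) := by
  refine LemRe149.I1 (μU := volume) (ρ := ρ)
    (γ := fun u z => Real.exp (-(g / 2) * ⟪P.A (LocB8.posu σ (u : Cfg N)) z, z⟫_ℝ))
    (d := fun u => ‖C.PY (u : Cfg N)‖) hr0 hr hB hρB hB0 hg.le hK (fun u => norm_nonneg _)
    (f2_pack P σ hF hρ κ κ' v t hg) ?_ hΦ hc h0 hS (fun u hu _ => hSd u hu)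
  have hreg : ∀ u : Uk b (C.cf σ.X0), ‖u‖ ≤ ρ → C.Reg (LocB8.posu σ (u : Cfg N)) ∧
      rt (LocB8.posu σ (u : Cfg N)) = LocB8.posu σ (u : Cfg N) := by
    intro u hu
    refine ⟨posu_near σ (lt_of_le_of_lt hu hρ), hrt' _ ?_⟩
    unfold LocB8.posu
    rw [add_sub_cancel_left]
    exact (norm_cfT_le C _).trans hu
  intro u hu
  obtain ⟨⟨c', h1⟩, h2⟩ := nrm_gsl P σ hrt hreg hg u hu
  refine ⟨⟨c', fun z => ?_⟩, h2⟩
  rw [h1, gam_eq P σ (hreg u hu).1]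

/-- **Lemma R for a chart**: the bounds and the fibre projection for the slice functions of core
vectors. -/
theorem lemR_pack [Nontrivial F] (P : TPack C M R G) (σ : Sl C) :
    ∃ s ρ : ℝ, 0 < s ∧ s ≤ ρ ∧ ρ < σ.r ∧ ∀ (ι κ κ' : Type) [Fintype ι] [Fintype κ] [Fintype κ']
      (e : OrthonormalBasis ι ℝ (Uk b (C.cf σ.X0))) (v : OrthonormalBasis κ ℝ (Zs b (C.cf σ.X0)))
      (t : OrthonormalBasis κ' ℝ (Tn (actB b) (C.cf σ.X0))) (η : Sc b (C.cf σ.X0) → ℝ),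
      ContDiff ℝ ∞ η → HasCompactSupport η →
      (∀ x, s ^ 2 ≤ ‖x.1‖ ^ 2 + ‖x.2‖ ^ 2 → η x = 0) →
      ∃ D : ℝ, 0 ≤ D ∧ ∀ g m : ℝ, 1 ≤ g → 0 ≤ m → m ≤ 1 → ∀ φ : Cfg N → F, IsCoreVec b R φ →
        (∑ α, ∫ x, ‖Aop b (C.cf σ.X0) M G g m α e (half b (C.cf σ.X0) η φ) x‖ ^ 2
            ∂(volume.prod volume) ≤ D * (qf b M G g m φ + ∫ x, ‖φ x‖ ^ 2)) ∧
        (∑ α, ∫ x, ‖Bop b (C.cf σ.X0) M G g α v t (half b (C.cf σ.X0) η φ) x‖ ^ 2
            ∂(volume.prod volume) ≤ D * (qf b M G g m φ + ∫ x, ‖φ x‖ ^ 2)) ∧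
        (∫ x, ‖half b (C.cf σ.X0) η φ x‖ ^ 2 ∂(volume.prod volume) ≤
            D * (qf b M G g m φ + ∫ x, ‖φ x‖ ^ 2)) ∧
        ∀ rt : Pos p → Pos p, (∀ X, ‖rt X - σ.X0‖ < σ.r) → (∀ X, ‖X - σ.X0‖ ≤ ρ → rt X = X) →
        ∀ (S : Set (Uk b (C.cf σ.X0))) (δ : ℝ), MeasurableSet S →
          (∀ u ∈ S, ‖C.PY (u : Cfg N)‖ ≤ δ) →
          ∫ u in S, ∫ z, ‖half b (C.cf σ.X0) η φ (u, z) -
            fpj volume (LocB8.gsl P σ rt g) (fun u : Uk b (C.cf σ.X0) => LocB8.pV P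
              (LocB8.posu σ (u : Cfg N))) (half b (C.cf σ.X0) η φ) (u, z)‖ ^ 2 ≤
            D * (1 / g + δ ^ 2) * (qf b M G g m φ + ∫ x, ‖φ x‖ ^ 2) := by
  have hc : Comc b (C.cf σ.X0) := AFld984.comc_cf C σ.X0
  obtain ⟨r, B, ρ0, s0, K, hr0, hr, hB, hB0, hs0, hs0ρ, hρB, hK, H⟩ :=
    lemR b M R G hc
  obtain ⟨Γ, hΓ, hv⟩ := FibP581.exists_par (F := F) b G M hc
  obtain ⟨hF, hO⟩ := H Γ hΓ hv
  set ρ := min ρ0 (σ.r / 2) with hρ
  have hρ0 : 0 < ρ := lt_min (hs0.trans_le hs0ρ) (half_pos σ.pos)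
  have hρr : ρ < σ.r := (min_le_right _ _).trans_lt (half_lt_self σ.pos)
  set s := min s0 ρ with hs
  have hsp : 0 < s := lt_min hs0 hρ0
  refine ⟨s, ρ, hsp, min_le_right _ _, hρr, ?_⟩
  intro ι κ κ' _ _ _ e v t η hη hηc hηs
  obtain ⟨D, hD, HD⟩ := (hO.mono hsp.le (min_le_left _ _)) ι κ κ' e v t η hη hηc hηs
  refine ⟨D + K * D, by positivity, fun g m hg hm hm1 φ hφ => ?_⟩
  have hO' := HD g m hg hm hm1 φ hφ
  have hg0 : 0 < g := lt_of_lt_of_le one_pos hg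
  have hq : 0 ≤ qf b M G g m φ :=
    mul_nonneg (by norm_num) (Finset.sum_nonneg fun _ _ => integral_nonneg fun _ => sq_nonneg _)
  have hn : 0 ≤ ∫ x, ‖φ x‖ ^ 2 := integral_nonneg fun x => by positivity
  set E : ℝ := qf b M G g m φ + ∫ x, ‖φ x‖ ^ 2 with hE
  have hE0 : 0 ≤ E := add_nonneg hq hn
  have hDE : D * E ≤ (D + K * D) * E := by
    have : 0 ≤ K * D * E := by positivity
    nlinarith
  refine ⟨hO'.sA.trans hDE, hO'.sB.trans hDE, hO'.s0.trans hDE, ?_⟩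
  intro rt hrt hrt' S δ hS hSd
  have hφ2 : ContDiff ℝ 2 φ := hφ.1.of_le ENat.LEInfty.out
  have hη2 : ContDiff ℝ 2 η := hη.of_le ENat.LEInfty.out
  have key := I1_loc P σ hr0 hr hB hB0.le
    ((mul_le_mul_of_nonneg_left (min_le_left _ _) hB0.le).trans hρB) hK
    (hF.mono (min_le_left ρ0 (σ.r / 2))) hρr hrt hrt' v t hg0 (cd_half hη2 hφ2) (cs_half hηc)
    (fun x hx => ?_) hS hSd
  · have h1 : g * ∫ u in S, ∫ z, ‖half b (C.cf σ.X0) η φ (u, z) -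
        fpj volume (LocB8.gsl P σ rt g) (fun u : Uk b (C.cf σ.X0) => LocB8.pV P
          (LocB8.posu σ (u : Cfg N))) (half b (C.cf σ.X0) η φ) (u, z)‖ ^ 2 ≤
        K * (D * E + δ ^ 2 * (g * (D * E))) := by
      refine key.trans ?_
      have := hO'.sB
      have := hO'.s0
      gcongr
    have h2 : K * (D * E + δ ^ 2 * (g * (D * E))) = g * (K * D * (1 / g + δ ^ 2) * E) := by
      field_simp
    rw [h2] at h1
    have h3 := le_of_mul_le_mul_left h1 hg0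
    refine h3.trans ?_
    have h4 : 0 ≤ D * (1 / g + δ ^ 2) * E := by positivity
    nlinarith
  · have h3 : η x = 0 := by
      refine hηs x ?_
      have h4 : s ^ 2 ≤ ‖x.1‖ ^ 2 :=
        pow_le_pow_left₀ hsp.le ((min_le_right _ _).trans hx.le) 2
      nlinarith [sq_nonneg ‖x.2‖]
    show η x • φ _ = 0
    rw [h3, zero_smul]

end pack

end Crest.Agent.R330.LemR342

end
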