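import Crest.Agent.R330.LocE_8
import Crest.Agent.R330.SlEx_814

/-!
# Row 330, S9-LOC (helper8): radius bookkeeping

* `Retr σ ρ s d`, `CutS σ κ s` : admissible retractions and cut-offs.
* `LocAt P σ m` : the inputs in the form "for all small radii".
* `locAll_of` : `LocAll` from `LocAt` for all charts of small radius.
-/

set_option autoImplicit false
set_option linter.unusedSectionVars false

open MeasureTheory Filter Topology Crest.MathPhysics.MatrixQM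
open scoped ContDiff InnerProductSpace ENNReal

noncomputable section

namespace Crest.Agent.R330.LocF8

open Crest.Agent.R330.Defs478 Crest.Agent.R330.LS839 Crest.Agent.R330.Frame839
  Crest.Agent.R330.Clus839
  Crest.Agent.R330.Bind6839 Crest.Agent.R330.SlG944 Crest.Agent.R330.SlF944
  Crest.Agent.R330.IBP837 Crest.Agent.R330.TDef414
  Crest.Agent.R330.LemA342 Crest.Agent.R330.FibProj837 Crest.Agent.R330.LocB8
  Crest.Agent.R330.LocC8 Crest.Agent.R330.LocD8 Crest.Agent.R330.LocE8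
  Crest.Agent.R330.SlQE87 Crest.Agent.R330.HBX450 Crest.Agent.R330.CapBind737
  Crest.Agent.R330.TrialSys796 Crest.Agent.R330.CapIntC737 Crest.Agent.R330.CapGlue737
open Crest.Agent.R330.HQ998 (rad)

variable {N p : ℕ} {b : ColorBasis N} {S : Type} [Group S] [Fintype S] {C : Chn b p S}
  {F : Type*} [NormedAddCommGroup F] [InnerProductSpace ℂ F] [FiniteDimensional ℂ F]
  {M : FermionRep N F} {R : GaugeAction b M} {G : GammaNine}

/-- admissible retractions: identity on the `s`-ball, values in the `d`-ball -/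
structure Retr (σ : Sl C) (ρ : Pos p → Pos p) (s d : ℝ) : Prop where
  smooth : ContDiff ℝ ∞ ρ
  ball : ∀ X, ‖ρ X - σ.X0‖ < d
  eq_id : ∀ X, ‖X - σ.X0‖ ≤ s → ρ X = X

theorem Retr.mono {σ : Sl C} {ρ : Pos p → Pos p} {s s' d d' : ℝ} (h : Retr σ ρ s d)
    (hs : s' ≤ s) (hd : d ≤ d') : Retr σ ρ s' d' :=
  ⟨h.smooth, fun X => (h.ball X).trans_le hd, fun X hX => h.eq_id X (hX.trans hs)⟩

theorem exists_Retr (σ : Sl C) {s d : ℝ} (hd : 0 < d) (hs : s ≤ d / 2) :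
    ∃ ρ, Retr σ ρ s d := by
  obtain ⟨ρ, h1, h2, h3⟩ := exists_retr σ.X0 hd
  exact ⟨ρ, h1, h3, fun X hX => h2 X (hX.trans hs)⟩

/-- admissible cut-offs of radius `s` -/
structure CutS (σ : Sl C) (κ : Sc b (C.cf σ.X0) → ℝ) (s : ℝ) : Prop where
  cut : Cut σ κ
  zero : ∀ x, s < ‖(x.1 : Cfg N) + x.2‖ → κ x = 0

theorem CutS.mono {σ : Sl C} {κ : Sc b (C.cf σ.X0) → ℝ} {s s' : ℝ} (h : CutS σ κ s)
    (hs : s ≤ s') : CutS σ κ s' :=
  ⟨h.cut, fun _ hx => h.zero _ (hs.trans_lt hx)⟩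

theorem cutS_rad {σ : Sl C} {s : ℝ} (hs : 0 < s) {ϑ : Pos p → ℝ}
    (h : Cut σ (cutm σ ϑ (rad s))) : CutS σ (cutm σ ϑ (rad s)) s :=
  ⟨h, fun _ hx => HQ998.radT_zero (θ := ϑ) hs hx.le⟩

variable (P : TPack C M R G) (σ : Sl C) (m : ℝ)

/-- "for all small radii" -/
def Small (Q : (Pos p → Pos p) → ℝ → Prop) : Prop :=
  ∃ s0 d0 : ℝ, 0 < s0 ∧ 0 < d0 ∧ ∀ s, 0 < s → s ≤ s0 → ∀ ρ, Retr σ ρ s d0 → Q ρ s

/-- **The inputs at one chart.** -/
structure LocAt : Prop where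
  i1 : Small σ fun ρ s => I1In P σ ρ (rad s) m
  tail : Small σ fun _ s => TailIn (R := R) (G := G) σ (rad s) m
  mass : Small σ fun ρ s => ∀ κ, CutS σ κ s → MassIn P σ ρ κ m
  hq : Small σ fun ρ s => ∀ κ, CutS σ κ s → HQIn P σ ρ κ m
  i3 : Small σ fun ρ s => ∀ κ, CutS σ κ s → I3In P σ ρ κ m
  i4 : Small σ fun ρ s => ∀ κ, CutS σ κ s → I4In P σ ρ κ m

variable {P σ m}

theorem Small.of_forall {Q : (Pos p → Pos p) → ℝ → Prop} (h : ∀ ρ s, Q ρ s) : Small σ Q :=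
  ⟨1, 1, one_pos, one_pos, fun s _ _ ρ _ => h ρ s⟩

theorem Small.and {Q Q' : (Pos p → Pos p) → ℝ → Prop} (h : Small σ Q) (h' : Small σ Q') :
    Small σ fun ρ s => Q ρ s ∧ Q' ρ s := by
  obtain ⟨s0, d0, a1, a2, a3⟩ := h
  obtain ⟨s1, d1, b1, b2, b3⟩ := h'
  refine ⟨min s0 s1, min d0 d1, lt_min a1 b1, lt_min a2 b2, fun s hs hs' ρ hρ => ⟨?_, ?_⟩⟩
  · exact a3 s hs (hs'.trans (min_le_left _ _)) ρ (hρ.mono le_rfl (min_le_left _ _))
  · exact b3 s hs (hs'.trans (min_le_right _ _)) ρ (hρ.mono le_rfl (min_le_right _ _))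

/-- the values of the retraction are in the chart -/
theorem small_ball : Small σ fun ρ _ => ContDiff ℝ ∞ ρ ∧ ∀ X, ‖ρ X - σ.X0‖ < σ.r :=
  ⟨1, σ.r, one_pos, σ.pos, fun _ _ _ _ hρ => ⟨hρ.smooth, hρ.ball⟩⟩

theorem Small.exists {Q : (Pos p → Pos p) → ℝ → Prop} (h : Small σ Q) :
    ∃ ρ s, 0 < s ∧ Q ρ s := by
  obtain ⟨s0, d0, a1, a2, a3⟩ := h
  obtain ⟨ρ, hρ⟩ := exists_Retr σ (s := min s0 (d0 / 2)) a2 (min_le_right _ _)
  have hs : 0 < min s0 (d0 / 2) := lt_min a1 (by positivity)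
  exact ⟨ρ, _, hs, a3 _ hs (min_le_left _ _) ρ hρ⟩

/-- from the chart to the inputs of `LocE_8` -/
theorem LocAt.exists (h : LocAt P σ m) : ∃ (ρ : Pos p → Pos p) (s : ℝ), 0 < s ∧
    LocIn P σ ρ (rad s) m := by
  obtain ⟨ρ, s, hs, ⟨⟨⟨⟨⟨⟨⟨h1, h2⟩, h3⟩, h4⟩, h5⟩, h6⟩, h7⟩, h8⟩⟩ :=
    ((((((small_ball.and h.i1).and h.tail).and h.mass).and h.hq).and h.i3).and h.i4).exists
  exact ⟨ρ, s, hs, {
    rs := h1
    rb := h2
    smooth := HQ998.contDiff_rad s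
    supp := HQ998.hcs_rad hs
    i1 := h3
    tail := h4
    cut := fun ϑ _ hc => ⟨h5 _ (cutS_rad hs hc), h6 _ (cutS_rad hs hc), h7 _ (cutS_rad hs hc),
      h8 _ (cutS_rad hs hc)⟩ }⟩

/-- **All the inputs of the local capture estimate**, from charts of small radius. -/
theorem locAll_of (h : ∀ X0 : Pos p, C.Reg X0 → ∃ r0 : ℝ, 0 < r0 ∧ ∀ σ : Sl C, σ.X0 = X0 →
    σ.r < r0 → LocAt P σ m) : LocAll P m := by
  intro X0 hX0
  obtain ⟨r0, hr0, h1⟩ := h X0 hX0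
  obtain ⟨σ, h2, h3⟩ := SlEx814.exists_Sl C hX0 hr0
  exact ⟨σ, h2, (h1 σ h2 h3).exists⟩

/-- the same, when the inputs hold for every chart -/
theorem locAll_of_forall (h : ∀ σ : Sl C, LocAt P σ m) : LocAll P m :=
  locAll_of fun _ _ => ⟨1, one_pos, fun σ _ _ => h σ⟩

/-- **The capture statement of a channel.** -/
theorem capT_of_forall (hP : PsiHardy P) (h : ∀ σ : Sl C, LocAt P σ m) : CapT P m :=
  capT_of hP (locAll_of_forall h)

end Crest.Agent.R330.LocF8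

end
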