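import Crest.Agent.R330.H6B_596
import Crest.Agent.R330.LemR_342
import Crest.Agent.R330.LocF_8
import Crest.Agent.R330.GX_818

/-!
# Row 330, S9-LOC (helper815): the input `I3In` of the local capture estimate

* `gx_le` : the centre gradient of a slice function is bounded by the light charges.
* `grad_small` : mass and centre gradient of the cut-off slice functions of core vectors are bounded
  by the energy.
* `I3Lit P σ` : the amplitude is bounded in `H¹` by mass and centre gradient (helper186).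
* `i3_of` : `Small σ fun ρ s => ∀ κ, CutS σ κ s → I3In P σ ρ κ m`.
-/

set_option autoImplicit false
set_option linter.unusedSectionVars false

open MeasureTheory Filter Topology Crest.MathPhysics.MatrixQM
open scoped ContDiff InnerProductSpace ENNReal

noncomputable section

namespace Crest.Agent.R330.I3In815

open Crest.Agent.R330.Defs478 Crest.Agent.R330.LS839 Crest.Agent.R330.Frame839
  Crest.Agent.R330.Clus839
  Crest.Agent.R330.Bind6839 Crest.Agent.R330.SlG944 Crest.Agent.R330.SlF944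
  Crest.Agent.R330.IBP837 Crest.Agent.R330.TDef414
  Crest.Agent.R330.LemA342 Crest.Agent.R330.FibProj837 Crest.Agent.R330.LocB8
  Crest.Agent.R330.LocC8 Crest.Agent.R330.LocD8 Crest.Agent.R330.LocF8
  Crest.Agent.R330.SlQE87 Crest.Agent.R330.HBX450 Crest.Agent.R330.TrialSys796
  Crest.Agent.R330.H6596

variable {N p : ℕ} {b : ColorBasis N} {S : Type} [Group S] [Fintype S] {C : Chn b p S}
  {F : Type*} [NormedAddCommGroup F] [InnerProductSpace ℂ F] [FiniteDimensional ℂ F]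
  {M : FermionRep N F} {R : GaugeAction b M} {G : GammaNine}

theorem int_sq {V : Type*} [TopologicalSpace V] [MeasurableSpace V] [OpensMeasurableSpace V]
    {μ : Measure V} [IsFiniteMeasureOnCompacts μ] {E : Type*} [NormedAddCommGroup E] {f : V → E}
    (hf : Continuous f) (hc : HasCompactSupport f) : Integrable (fun x => ‖f x‖ ^ 2) μ := by
  have h1 : Continuous fun x => ‖f x‖ ^ 2 := hf.norm.pow 2
  refine h1.integrable_of_hasCompactSupport ?_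
  exact hc.norm.comp_left (g := fun t : ℝ => t ^ 2) (by norm_num)

theorem int_sq_fderiv {V : Type*} [NormedAddCommGroup V] [NormedSpace ℝ V] [MeasurableSpace V]
    [OpensMeasurableSpace V] {μ : Measure V} [IsFiniteMeasureOnCompacts μ] {E : Type*}
    [NormedAddCommGroup E] [NormedSpace ℝ E] {f : V → E}
    (hf : ContDiff ℝ ∞ f) (hc : HasCompactSupport f) (v : V) :
    Integrable (fun x => ‖fderiv ℝ f x v‖ ^ 2) μ := by
  have h1 : Continuous fun x => fderiv ℝ f x v :=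
    (hf.continuous_fderiv (by norm_num)).clm_apply continuous_const
  have h2 : HasCompactSupport fun x => fderiv ℝ f x v :=
    (hc.fderiv ℝ).comp_left (g := fun L : V →L[ℝ] E => L v) rfl
  exact int_sq h1 h2

/-- **(GX)** -/
theorem gx_le {X0 : Pos p} (h0 : C.Reg X0) {μ : Measure (Sc b (C.cf X0))} [μ.IsAddHaarMeasure]
    {ι : Type*} [Fintype ι] (e : OrthonormalBasis ι ℝ (Uk b (C.cf X0))) (g m : ℝ)
    {Φ : Sc b (C.cf X0) → F} (hΦ : ContDiff ℝ 2 Φ) (hc : HasCompactSupport Φ) :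
    8 * ∫ x, ∑ q, ‖fderiv ℝ Φ x (dC h0 q, 0)‖ ^ 2 ∂μ ≤
      2 * ∑ α, ∫ x, ‖Aop b (C.cf X0) M G g m α e Φ x‖ ^ 2 ∂μ +
        KW M G * m ^ 2 * ∫ x, ‖C.cf X0 + x.1‖ ^ 2 * ‖Φ x‖ ^ 2 ∂μ := by
  have h1 := GX818.gx_cen (μ := μ) C M G (fun q => ((dC h0 q, 0) : Sc b (C.cf X0))) hΦ hc
  have h2 := cen_blk_sum_le (μ := μ) (M := M) (G := G) (g := g) (m := m) h0 e hΦ hc
  have h3 : 0 ≤ ∑ α, ∫ x, ‖Ablk M G h0 g α Φ x‖ ^ 2 ∂μ :=
    Finset.sum_nonneg fun α _ => integral_nonneg fun x => by positivity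
  have h4 : ∑ α, ∫ x, ‖Acen M G h0 α Φ x‖ ^ 2 ∂μ =
      8 * ∫ x, ∑ q, ‖fderiv ℝ Φ x (dC h0 q, 0)‖ ^ 2 ∂μ := h1
  linarith

/-- mass and centre gradient of the cut-off slice functions -/
def GradIn (σ : Sl C) (h0 : C.Reg σ.X0) (κ : Sc b (C.cf σ.X0) → ℝ) (M : FermionRep N F)
    (R : GaugeAction b M) (G : GammaNine) (m : ℝ) : Prop :=
  ∃ K : ℝ, 0 ≤ K ∧ ∀ g : ℝ, 1 ≤ g → ∀ φ : Cfg N → F, IsCoreVec b R φ →
    (∫ x, ‖half b (C.cf σ.X0) κ φ x‖ ^ 2 ∂(volume.prod volume)) ≤ K * En b M G g m φ ∧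
    (∫ x, ∑ q, ‖fderiv ℝ (half b (C.cf σ.X0) κ φ) x (dC h0 q, 0)‖ ^ 2 ∂(volume.prod volume)) ≤
      K * En b M G g m φ

theorem norm_sc {c : Cfg N} (x : Sc b c) : ‖(x.1 : Cfg N) + x.2‖ ^ 2 = ‖x.1‖ ^ 2 + ‖x.2‖ ^ 2 := by
  rw [@norm_add_sq_real, Zs_perp_Uk x.1.2 x.2.2]
  simp

/-- **Mass and centre gradient are bounded by the energy.** -/
theorem grad_small [Nontrivial F] (P : TPack C M R G) (σ : Sl C) {m : ℝ} (hm0 : 0 ≤ m)
    (hm1 : m ≤ 1) : ∃ s0 : ℝ, 0 < s0 ∧ ∀ s : ℝ, 0 < s → s ≤ s0 →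
      ∀ κ : Sc b (C.cf σ.X0) → ℝ, CutS σ κ s →
        GradIn σ (BrT5658.reg0 σ) κ M R G m := by
  obtain ⟨s1, ρ, hs1, -, -, h⟩ := LemR342.lemR_pack P σ
  have h0 := BrT5658.reg0 σ
  refine ⟨s1 / 2, by positivity, fun s hs hss κ hκ => ?_⟩
  have hz : ∀ x : Sc b (C.cf σ.X0), s < ‖(x.1 : Cfg N) + x.2‖ → κ x = 0 := hκ.zero
  have hz1 : ∀ x : Sc b (C.cf σ.X0), s1 ^ 2 ≤ ‖x.1‖ ^ 2 + ‖x.2‖ ^ 2 → κ x = 0 := by
    intro x hx
    refine hz x ?_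
    rw [← norm_sc] at hx
    have h2 : s1 ≤ ‖(x.1 : Cfg N) + x.2‖ := le_of_sq_le_sq hx (norm_nonneg _)
    linarith
  obtain ⟨D, hD, h1⟩ := h _ _ _ (stdOrthonormalBasis ℝ (Uk b (C.cf σ.X0)))
    (stdOrthonormalBasis ℝ (Zs b (C.cf σ.X0))) (stdOrthonormalBasis ℝ (Tn (actB b) (C.cf σ.X0)))
    κ hκ.cut.smooth hκ.cut.supp hz1
  set B : ℝ := ‖C.cf σ.X0‖ + s with hB
  have hB0 : 0 ≤ B := by positivity
  have hKW := KW_nonneg (M := M) (G := G)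
  refine ⟨D + (2 * D + KW M G * (B ^ 2 * D)) / 8, by positivity, fun g hg φ hφ => ?_⟩
  obtain ⟨a1, -, a3, -⟩ := h1 g m hg hm0 hm1 φ hφ
  have hE : qf b M G g m φ + ∫ x, ‖φ x‖ ^ 2 = En b M G g m φ := by
    unfold En; ring
  rw [hE] at a1 a3
  have hEn : 0 ≤ En b M G g m φ := En_nonneg g m φ
  have hΦ : ContDiff ℝ ∞ (half b (C.cf σ.X0) κ φ) := contDiff_half hκ.cut.smooth hφ.1
  have hc : HasCompactSupport (half b (C.cf σ.X0) κ φ) := hcs_half hκ.cut.supp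
  have hsq : Integrable (fun x => ‖half b (C.cf σ.X0) κ φ x‖ ^ 2) (volume.prod volume) :=
    int_sq hΦ.continuous hc
  have a4 : ∫ x : Sc b (C.cf σ.X0), ‖C.cf σ.X0 + (x.1 : Cfg N)‖ ^ 2 * ‖half b (C.cf σ.X0) κ φ x‖ ^ 2 ∂(volume.prod volume) ≤
      B ^ 2 * (D * En b M G g m φ) := by
    refine le_trans (integral_mono_of_nonneg (Eventually.of_forall fun x => by positivity)
      (hsq.const_mul (B ^ 2)) (Eventually.of_forall fun x => ?_)) (le_trans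
        (le_of_eq (integral_const_mul _ _)) (mul_le_mul_of_nonneg_left a3 (by positivity)))
    by_cases hx : κ x = 0
    · simp only [half_eq_zero hx, norm_zero]
      simp
    · have h5 : ‖(x.1 : Cfg N) + x.2‖ ≤ s := not_lt.1 fun h6 => hx (hz x h6)
      have h6 : ‖(x.1 : Cfg N)‖ ≤ s := by
        refine le_trans ?_ h5
        refine le_of_sq_le_sq ?_ (norm_nonneg _)
        rw [norm_sc]
        have : ‖(x.1 : Cfg N)‖ = ‖x.1‖ := rfl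
        rw [this]
        nlinarith [sq_nonneg ‖x.2‖]
      have h7 : ‖C.cf σ.X0 + (x.1 : Cfg N)‖ ≤ B := (norm_add_le _ _).trans (by linarith)
      show ‖C.cf σ.X0 + (x.1 : Cfg N)‖ ^ 2 * _ ≤ B ^ 2 * _
      exact mul_le_mul_of_nonneg_right (pow_le_pow_left₀ (norm_nonneg _) h7 2) (by positivity)
  have hH : ((volume : Measure (Uk b (C.cf σ.X0))).prod
      (volume : Measure (Zs b (C.cf σ.X0)))).IsAddHaarMeasure :=
    Measure.prod.instIsAddHaarMeasure _ _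
  have a5 := gx_le (M := M) (G := G) (μ := (volume : Measure (Uk b (C.cf σ.X0))).prod
      (volume : Measure (Zs b (C.cf σ.X0)))) h0
    (stdOrthonormalBasis ℝ (Uk b (C.cf σ.X0))) g m (hΦ.of_le (by norm_cast)) hc
  have hm2 : m ^ 2 ≤ 1 := by nlinarith
  have a6 : KW M G * m ^ 2 * ∫ x : Sc b (C.cf σ.X0), ‖C.cf σ.X0 + (x.1 : Cfg N)‖ ^ 2 * ‖half b (C.cf σ.X0) κ φ x‖ ^ 2
      ∂(volume.prod volume) ≤ KW M G * (B ^ 2 * (D * En b M G g m φ)) := by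
    have h8 : 0 ≤ ∫ x : Sc b (C.cf σ.X0), ‖C.cf σ.X0 + (x.1 : Cfg N)‖ ^ 2 * ‖half b (C.cf σ.X0) κ φ x‖ ^ 2
      ∂(volume.prod volume) := integral_nonneg fun x => by positivity
    have h9 : KW M G * m ^ 2 ≤ KW M G := by nlinarith
    calc _ ≤ KW M G * ∫ x : Sc b (C.cf σ.X0), ‖C.cf σ.X0 + (x.1 : Cfg N)‖ ^ 2 * ‖half b (C.cf σ.X0) κ φ x‖ ^ 2
      ∂(volume.prod volume) := mul_le_mul_of_nonneg_right h9 h8
      _ ≤ _ := mul_le_mul_of_nonneg_left a4 hKW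
  have hp1 : 0 ≤ (2 * D + KW M G * (B ^ 2 * D)) / 8 := by positivity
  constructor
  · refine a3.trans (mul_le_mul_of_nonneg_right ?_ hEn)
    linarith
  · have a7 : 8 * ∫ x, ∑ q, ‖fderiv ℝ (half b (C.cf σ.X0) κ φ) x (dC h0 q, 0)‖ ^ 2
        ∂(volume.prod volume) ≤ 2 * (D * En b M G g m φ) +
          KW M G * (B ^ 2 * (D * En b M G g m φ)) :=
      a5.trans (add_le_add (mul_le_mul_of_nonneg_left a1 (by norm_num)) a6)
    have a8 : (∫ x, ∑ q, ‖fderiv ℝ (half b (C.cf σ.X0) κ φ) x (dC h0 q, 0)‖ ^ 2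
        ∂(volume.prod volume)) ≤ (2 * D + KW M G * (B ^ 2 * D)) / 8 * En b M G g m φ := by
      linarith
    refine a8.trans (mul_le_mul_of_nonneg_right ?_ hEn)
    linarith

/-- (I3), helper186: the amplitude is bounded in `H¹` by mass and centre gradient. -/
def I3Lit (P : TPack C M R G) (σ : Sl C) : Prop :=
  ∃ δ : ℝ, 0 < δ ∧ ∀ ρ : Pos p → Pos p, ContDiff ℝ ∞ ρ → (∀ X, ‖ρ X - σ.X0‖ < σ.r) →
    (∀ X, ‖ρ X - σ.X0‖ < δ) → ∀ κ : Sc b (C.cf σ.X0) → ℝ, Cut σ κ →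
      ∃ K : ℝ, 0 ≤ K ∧ ∀ᶠ g in atTop, ∀ φ : Cfg N → F, ContDiff ℝ ∞ φ →
        ContDiff ℝ 1 (ampX P g (LocC8.wB P σ ρ κ g φ)) ∧
        (∫ X, ‖ampX P g (LocC8.wB P σ ρ κ g φ) X‖ ^ 2) ≤
          K * ∫ x, ‖half b (C.cf σ.X0) κ φ x‖ ^ 2 ∂(volume.prod volume) ∧
        (∫ X, ‖fderiv ℝ (ampX P g (LocC8.wB P σ ρ κ g φ)) X‖ ^ 2) ≤
          K * ((∫ x, ‖half b (C.cf σ.X0) κ φ x‖ ^ 2 ∂(volume.prod volume)) +
            ∫ x, ∑ q, ‖fderiv ℝ (half b (C.cf σ.X0) κ φ) x (dC (BrT5658.reg0 σ) q, 0)‖ ^ 2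
              ∂(volume.prod volume))

/-- **The input (I3).** -/
theorem i3_of [Nontrivial F] {P : TPack C M R G} {σ : Sl C} {m : ℝ} (hm0 : 0 ≤ m) (hm1 : m ≤ 1)
    (h : I3Lit P σ) : Small σ fun ρ s => ∀ κ, CutS σ κ s → I3In P σ ρ κ m := by
  obtain ⟨δ, hδ, h1⟩ := h
  obtain ⟨s0, hs0, h2⟩ := grad_small P σ hm0 hm1
  refine ⟨s0, min δ σ.r, hs0, lt_min hδ σ.pos, fun s hs hss ρ hρ κ hκ => ?_⟩
  obtain ⟨K, hK, h3⟩ := h1 ρ hρ.smooth (fun X => (hρ.ball X).trans_le (min_le_right _ _))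
    (fun X => (hρ.ball X).trans_le (min_le_left _ _)) κ hκ.cut
  obtain ⟨K', hK', h4⟩ := h2 s hs hss κ hκ
  refine ⟨2 * (K * K'), by positivity, ?_⟩
  filter_upwards [h3, eventually_ge_atTop 1] with g hg hg1 φ hφ
  obtain ⟨b1, b2, b3⟩ := hg φ hφ.1
  obtain ⟨c1, c2⟩ := h4 g hg1 φ hφ
  have hEn : 0 ≤ En b M G g m φ := En_nonneg g m φ
  have d1 : K * ∫ x, ‖half b (C.cf σ.X0) κ φ x‖ ^ 2 ∂(volume.prod volume) ≤
      K * (K' * En b M G g m φ) := mul_le_mul_of_nonneg_left c1 hK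
  have d2 := mul_le_mul_of_nonneg_left (add_le_add c1 c2) hK
  have d3 : 0 ≤ K * (K' * En b M G g m φ) := by positivity
  refine ⟨b1, b2.trans (d1.trans ?_), b3.trans (d2.trans ?_)⟩
  · nlinarith
  · nlinarith

theorem dC_eq {X0 : Pos p} (h0 : C.Reg X0) (q : Fin 9 × Fin p) :
    PairT245.uE h0 ((EuclideanSpace.single q 1 : Pos p), (0 : C.Blk)) = dC h0 q := by
  apply Subtype.ext
  rw [PairT245.coe_uE, coe_dC]
  simp

theorem sum_int_grad {X0 : Pos p} {Φ : Sc b (C.cf X0) → F} (hΦ : ContDiff ℝ ∞ Φ)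
    (hc : HasCompactSupport Φ) (v : Fin 9 × Fin p → Sc b (C.cf X0)) :
    ∑ q, ∫ x, ‖fderiv ℝ Φ x (v q)‖ ^ 2 ∂(volume.prod volume) =
      ∫ x, ∑ q, ‖fderiv ℝ Φ x (v q)‖ ^ 2 ∂(volume.prod volume) := by
  exact (integral_finsetSum _ fun q _ => int_sq_fderiv hΦ hc (v q)).symm

/-- **(I3) in helper186's form gives the input (I3).** -/
theorem i3Lit_of {P : TPack C M R G} {σ : Sl C}
    (h : ∃ δ : ℝ, 0 < δ ∧ ∀ ρ : Pos p → Pos p, ContDiff ℝ ∞ ρ → (∀ X, ‖ρ X - σ.X0‖ < σ.r) →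
      (∀ X, ‖ρ X - σ.X0‖ < δ) → ∀ κ : Sc b (C.cf σ.X0) → ℝ, Cut σ κ →
      ∃ K : ℝ, 0 ≤ K ∧ ∀ᶠ g in atTop, ∀ φ : Cfg N → F, ContDiff ℝ ∞ φ →
        ContDiff ℝ 1 (ampX P g (LocC8.wB P σ ρ κ g φ)) ∧
        tsupport (ampX P g (LocC8.wB P σ ρ κ g φ)) ⊆ ks κ ∧
        (∫ X, ‖ampX P g (LocC8.wB P σ ρ κ g φ) X‖ ^ 2) ≤
          K * ∫ x, ‖half b (C.cf σ.X0) κ φ x‖ ^ 2 ∧
        (∫ X, ‖fderiv ℝ (ampX P g (LocC8.wB P σ ρ κ g φ)) X‖ ^ 2) ≤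
          K * ((∫ x, ‖half b (C.cf σ.X0) κ φ x‖ ^ 2) +
            ∑ q, ∫ x, ‖fderiv ℝ (half b (C.cf σ.X0) κ φ) x
              (PairT245.uE (BrT5658.reg0 σ) ((EuclideanSpace.single q 1 : Pos p), (0 : C.Blk)),
                0)‖ ^ 2)) : I3Lit P σ := by
  obtain ⟨δ, hδ, h⟩ := h
  refine ⟨δ, hδ, fun ρ h1 h2 h3 κ hκ => ?_⟩
  obtain ⟨K, hK, h⟩ := h ρ h1 h2 h3 κ hκ
  refine ⟨K, hK, ?_⟩
  filter_upwards [h] with g hg φ hφ
  obtain ⟨b1, -, b3, b4⟩ := hg φ hφ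
  refine ⟨b1, b3, b4.trans (le_of_eq ?_)⟩
  have hΦ : ContDiff ℝ ∞ (half b (C.cf σ.X0) κ φ) := contDiff_half hκ.smooth hφ
  have hc : HasCompactSupport (half b (C.cf σ.X0) κ φ) := hcs_half hκ.supp
  have h5 := sum_int_grad hΦ hc (fun q => ((dC (BrT5658.reg0 σ) q, 0) : Sc b (C.cf σ.X0)))
  simp only [dC_eq]
  rw [← h5]
  rfl

end Crest.Agent.R330.I3In815

end
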