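import Crest.Agent.R330.ALow_302
import Crest.Agent.R330.GPar_984

/-!
Row 330, (I4) pairing (helper756): the Gaussian of a chart.

Abstract part (`QB c K q`): `q` quadratic, `c ‖z‖² ≤ q z ≤ K ‖z‖²`; integrability, positivity and
scaling of `∫ exp (-(g q))`, moments `∫ ‖z‖^(2n) exp (-(g q)) ≤ M g^(-n) ∫ exp (-(g q))`.

Literal part (over `TDef_414`): `low`, `up`, `qb` (G1), `nI_pos`, `integrable_exp`,
`continuousOn_nI` (G2), `moment` (G3), and the normalised Gaussian `gsn`.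
-/

set_option autoImplicit false
set_option linter.unusedSectionVars false

open MeasureTheory Filter Topology Crest.MathPhysics.MatrixQM
open scoped ContDiff InnerProductSpace ENNReal

noncomputable section

namespace Crest.Agent.R330.PairG756

/-! ## abstract part -/

section abs

variable {Z : Type*} [NormedAddCommGroup Z] [InnerProductSpace ℝ Z] [FiniteDimensional ℝ Z]
  [MeasurableSpace Z] [BorelSpace Z]

/-- A continuous quadratic function between `c ‖z‖²` and `K ‖z‖²`. -/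
structure QB (c K : ℝ) (q : Z → ℝ) : Prop where
  cont : Continuous q
  hom : ∀ (t : ℝ) (z : Z), q (t • z) = t ^ 2 * q z
  low : ∀ z, c * ‖z‖ ^ 2 ≤ q z
  up : ∀ z, q z ≤ K * ‖z‖ ^ 2

variable {c K : ℝ} {q : Z → ℝ}

theorem QB.integrable (h : QB c K q) (hc : 0 < c) {g : ℝ} (hg : 0 < g) (n : ℕ) :
    Integrable (fun z => ‖z‖ ^ n * Real.exp (-(g * q z))) := by
  refine (GPar984.integrable_poly_gauss (Z := Z) n (c := g * c) (by positivity)).mono'
    ?_ (ae_of_all _ fun z => ?_)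
  · exact ((continuous_norm.pow n).mul
      (Real.continuous_exp.comp (continuous_const.mul h.cont).neg)).aestronglyMeasurable
  · rw [Real.norm_of_nonneg (by positivity)]
    refine mul_le_mul_of_nonneg_left (Real.exp_le_exp.2 ?_) (by positivity)
    have := mul_le_mul_of_nonneg_left (h.low z) hg.le
    linarith

theorem QB.integrable_exp (h : QB c K q) (hc : 0 < c) {g : ℝ} (hg : 0 < g) :
    Integrable (fun z => Real.exp (-(g * q z))) := by
  have := h.integrable hc hg 0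
  simpa using this

theorem QB.pos (h : QB c K q) (hc : 0 < c) {g : ℝ} (hg : 0 < g) :
    0 < ∫ z, Real.exp (-(g * q z)) :=
  integral_exp_pos (h.integrable_exp hc hg)

/-- Scaling. -/
theorem integral_sqrt_smul (f : Z → ℝ) {g : ℝ} (hg : 0 < g) :
    ∫ z, f (√g • z) = (√g ^ Module.finrank ℝ Z)⁻¹ * ∫ z, f z := by
  rw [Measure.integral_comp_smul, smul_eq_mul, abs_of_nonneg (by positivity)]

theorem QB.scale (h : QB c K q) {g : ℝ} (hg : 0 < g) (n : ℕ) :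
    ∫ z, ‖z‖ ^ (2 * n) * Real.exp (-(g * q z)) =
      (√g ^ Module.finrank ℝ Z)⁻¹ * (g ^ n)⁻¹ * ∫ z, ‖z‖ ^ (2 * n) * Real.exp (-(q z)) := by
  have h1 := integral_sqrt_smul (fun z : Z => ‖z‖ ^ (2 * n) * Real.exp (-(q z))) hg
  have h2 : ∀ z : Z, ‖√g • z‖ ^ (2 * n) * Real.exp (-(q (√g • z))) =
      g ^ n * (‖z‖ ^ (2 * n) * Real.exp (-(g * q z))) := by
    intro z
    rw [h.hom, Real.sq_sqrt hg.le, norm_smul, Real.norm_of_nonneg (Real.sqrt_nonneg g), mul_pow,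
      pow_mul, Real.sq_sqrt hg.le]
    ring
  simp only [h2, integral_const_mul] at h1
  have hgn : (g ^ n) ≠ 0 := by positivity
  calc ∫ z, ‖z‖ ^ (2 * n) * Real.exp (-(g * q z))
      = (g ^ n)⁻¹ * (g ^ n * ∫ z, ‖z‖ ^ (2 * n) * Real.exp (-(g * q z))) := by
        rw [← mul_assoc, inv_mul_cancel₀ hgn, one_mul]
    _ = _ := by rw [h1]; ring

theorem QB.scale_zero (h : QB c K q) {g : ℝ} (hg : 0 < g) :
    ∫ z, Real.exp (-(g * q z)) =
      (√g ^ Module.finrank ℝ Z)⁻¹ * ∫ z, Real.exp (-(q z)) := by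
  have := h.scale hg 0
  simpa using this

/-- **Moments.** -/
theorem moment_le (c K : ℝ) (hc : 0 < c) (n : ℕ) :
    ∃ M : ℝ, 0 ≤ M ∧ ∀ q : Z → ℝ, QB c K q → ∀ g : ℝ, 0 < g →
      ∫ z, ‖z‖ ^ (2 * n) * Real.exp (-(g * q z)) ≤ M / g ^ n * ∫ z, Real.exp (-(g * q z)) := by
  by_cases hK : 0 < K
  swap
  · -- then `Z` is trivial
    refine ⟨1, zero_le_one, fun q h g hg => ?_⟩
    have hz : ∀ z : Z, z = 0 := by
      intro z
      by_contra hz
      have h1 := (h.low z).trans (h.up z)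
      have h2 : 0 < ‖z‖ ^ 2 := by have := norm_pos_iff.2 hz; positivity
      nlinarith
    have hsub : Subsingleton Z := ⟨fun a b => by rw [hz a, hz b]⟩
    rcases n.eq_zero_or_pos with rfl | hn
    · simp
    · have h0 : ∀ z : Z, ‖z‖ ^ (2 * n) * Real.exp (-(g * q z)) = 0 := by
        intro z
        rw [hz z, norm_zero, zero_pow (by omega), zero_mul]
      simp only [h0, integral_zero]
      exact mul_nonneg (by positivity) (integral_nonneg fun z => (Real.exp_pos _).le)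
  · have hi : Integrable (fun z : Z => ‖z‖ ^ (2 * n) * Real.exp (-c * ‖z‖ ^ 2)) :=
      GPar984.integrable_poly_gauss (2 * n) hc
    have hK1 : 0 < ∫ z : Z, Real.exp (-K * ‖z‖ ^ 2) :=
      integral_exp_pos (GPar984.integrable_gauss hK)
    refine ⟨(∫ z : Z, ‖z‖ ^ (2 * n) * Real.exp (-c * ‖z‖ ^ 2)) / ∫ z : Z, Real.exp (-K * ‖z‖ ^ 2),
      div_nonneg (integral_nonneg fun z => by positivity) hK1.le, fun q h g hg => ?_⟩
    rw [h.scale hg n, h.scale_zero hg]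
    have e1 : ∫ z, ‖z‖ ^ (2 * n) * Real.exp (-(q z)) ≤
        ∫ z : Z, ‖z‖ ^ (2 * n) * Real.exp (-c * ‖z‖ ^ 2) := by
      refine integral_mono ?_ hi fun z => ?_
      · have := h.integrable hc one_pos (2 * n)
        simpa using this
      · refine mul_le_mul_of_nonneg_left (Real.exp_le_exp.2 ?_) (by positivity)
        have := h.low z
        linarith
    have e2 : ∫ z : Z, Real.exp (-K * ‖z‖ ^ 2) ≤ ∫ z, Real.exp (-(q z)) := by
      refine integral_mono (GPar984.integrable_gauss hK) ?_ fun z => ?_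
      · have := h.integrable_exp hc one_pos
        simpa using this
      · refine Real.exp_le_exp.2 ?_
        have := h.up z
        linarith
    have e3 : ∫ z, ‖z‖ ^ (2 * n) * Real.exp (-(q z)) ≤
        (∫ z : Z, ‖z‖ ^ (2 * n) * Real.exp (-c * ‖z‖ ^ 2)) / (∫ z : Z, Real.exp (-K * ‖z‖ ^ 2)) *
          ∫ z, Real.exp (-(q z)) := by
      rw [div_mul_eq_mul_div, le_div_iff₀ hK1]
      refine mul_le_mul e1 e2 hK1.le (integral_nonneg fun z => by positivity)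
    have hs : 0 ≤ (√g ^ Module.finrank ℝ Z)⁻¹ * (g ^ n)⁻¹ := by positivity
    calc (√g ^ Module.finrank ℝ Z)⁻¹ * (g ^ n)⁻¹ * ∫ z, ‖z‖ ^ (2 * n) * Real.exp (-(q z))
        ≤ (√g ^ Module.finrank ℝ Z)⁻¹ * (g ^ n)⁻¹ *
          ((∫ z : Z, ‖z‖ ^ (2 * n) * Real.exp (-c * ‖z‖ ^ 2)) /
            (∫ z : Z, Real.exp (-K * ‖z‖ ^ 2)) * ∫ z, Real.exp (-(q z))) :=
          mul_le_mul_of_nonneg_left e3 hs
      _ = _ := by ring

end abs

/-! ## literal part -/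

section literal

open Crest.Agent.R330.TDef414 Crest.Agent.R330.LS839 Crest.Agent.R330.Frame839
  Crest.Agent.R330.Bind6839

variable {N p : ℕ} {b : ColorBasis N} {S : Type} [Group S] [Fintype S] {C : Chn b p S}
  {F : Type*} [NormedAddCommGroup F] [InnerProductSpace ℂ F] [FiniteDimensional ℂ F]
  {M : FermionRep N F} {R : GaugeAction b M} {G : GammaNine}
  (P : TPack C M R G) (σ : Sl C)

/-- **(G1)** Uniform coercivity on the fixed fibre. -/
theorem low {r' : ℝ} (hr : r' < σ.r) : ∃ c : ℝ, 0 < c ∧ ∀ X : Pos p, ‖X - σ.X0‖ ≤ r' →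
    ∀ z : C.Zt σ.X0, c * ‖z‖ ^ 2 ≤ ⟪P.A X z, z⟫_ℝ := by
  obtain ⟨c, hc, h⟩ := ALow302.a_low_chart P σ hr
  exact ⟨c, hc, fun X hX z => h X hX z z.2⟩

theorem up {r' : ℝ} (hr : r' < σ.r) : ∃ K : ℝ, 0 < K ∧ ∀ X : Pos p, ‖X - σ.X0‖ ≤ r' →
    ∀ z : Cfg N, ⟪P.A X z, z⟫_ℝ ≤ K * ‖z‖ ^ 2 := by
  have hf : ContinuousOn P.A (Metric.closedBall σ.X0 r') := fun X hX =>
    (P.A_smooth X (σ.reg X (lt_of_le_of_lt
      (mem_closedBall_iff_norm.1 hX) hr))).continuousAt.continuousWithinAt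
  obtain ⟨K, hK⟩ := (isCompact_closedBall σ.X0 r').exists_bound_of_continuousOn hf
  refine ⟨max K 1, lt_max_of_lt_right one_pos, fun X hX z => ?_⟩
  calc ⟪P.A X z, z⟫_ℝ ≤ ‖P.A X z‖ * ‖z‖ := real_inner_le_norm _ _
    _ ≤ (‖P.A X‖ * ‖z‖) * ‖z‖ := by gcongr; exact ContinuousLinearMap.le_opNorm _ _
    _ ≤ (max K 1 * ‖z‖) * ‖z‖ := by
        gcongr
        exact (hK X (mem_closedBall_iff_norm.2 hX)).trans (le_max_left _ _)
    _ = max K 1 * ‖z‖ ^ 2 := by ring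

/-- The Gaussian exponent of the chart is uniformly a `QB`. -/
theorem qb {r' : ℝ} (hr : r' < σ.r) : ∃ c K : ℝ, 0 < c ∧ 0 < K ∧ ∀ X : Pos p, ‖X - σ.X0‖ ≤ r' →
    QB c K (fun z : C.Zt σ.X0 => ⟪P.A X z, z⟫_ℝ) := by
  obtain ⟨c, hc, h1⟩ := low P σ hr
  obtain ⟨K, hK, h2⟩ := up P σ hr
  refine ⟨c, K, hc, hK, fun X hX => ⟨?_, ?_, h1 X hX, fun z => ?_⟩⟩
  · exact Continuous.inner ((P.A X).continuous.comp continuous_subtype_val) continuous_subtype_val
  · intro t z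
    simp only [Submodule.coe_smul, map_smul, inner_smul_left, inner_smul_right, conj_trivial]
    ring
  · exact h2 X hX z

/-- **(G2)** integrability. -/
theorem integrable_pow_exp {X : Pos p} (hX : ‖X - σ.X0‖ < σ.r) {g : ℝ} (hg : 0 < g) (n : ℕ) :
    Integrable fun z : C.Zt σ.X0 => ‖z‖ ^ n * Real.exp (-(g * ⟪P.A X z, z⟫_ℝ)) := by
  obtain ⟨c, K, hc, -, h⟩ := qb P σ hX
  exact (h X le_rfl).integrable hc hg n

theorem integrable_exp {X : Pos p} (hX : ‖X - σ.X0‖ < σ.r) {g : ℝ} (hg : 0 < g) :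
    Integrable fun z : C.Zt σ.X0 => Real.exp (-(g * ⟪P.A X z, z⟫_ℝ)) := by
  obtain ⟨c, K, hc, -, h⟩ := qb P σ hX
  exact (h X le_rfl).integrable_exp hc hg

/-- **(G2)** positivity. -/
theorem nI_pos {X : Pos p} (hX : ‖X - σ.X0‖ < σ.r) {g : ℝ} (hg : 0 < g) : 0 < nI P σ g X :=
  integral_exp_pos (integrable_exp P σ hX hg)

/-- Scaling of the normalisation. -/
theorem nI_scale {X : Pos p} (hX : ‖X - σ.X0‖ < σ.r) {g : ℝ} (hg : 0 < g) :
    nI P σ g X = (√g ^ Module.finrank ℝ (C.Zt σ.X0))⁻¹ * nI P σ 1 X := by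
  obtain ⟨c, K, hc, -, h⟩ := qb P σ hX
  have h1 := (h X le_rfl).scale_zero hg
  unfold nI
  simp only [one_mul]
  exact h1

/-- **(G2)** continuity. -/
theorem continuousOn_nI {g : ℝ} (hg : 0 < g) :
    ContinuousOn (nI P σ g) (Metric.ball σ.X0 σ.r) := by
  intro X hX
  rw [Metric.mem_ball, dist_eq_norm] at hX
  obtain ⟨r', h1, h2⟩ := exists_between hX
  obtain ⟨c, hc, hlow⟩ := low P σ h2
  refine ContinuousAt.continuousWithinAt ?_
  unfold nI
  have hnear : ∀ᶠ X' in 𝓝 X, ‖X' - σ.X0‖ < r' := by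
    have : ContinuousAt (fun X' : Pos p => ‖X' - σ.X0‖) X := by fun_prop
    exact this.eventually_lt continuousAt_const h1
  have hcontA : ∀ X', ‖X' - σ.X0‖ < r' → ContinuousAt P.A X' := fun X' hX' =>
    (P.A_smooth X' (σ.reg X' (hX'.trans h2))).continuousAt
  refine continuousAt_of_dominated (bound := fun z : C.Zt σ.X0 => Real.exp (-(g * c) * ‖z‖ ^ 2))
    ?_ ?_ ?_ ?_
  · refine Eventually.of_forall fun X' => Continuous.aestronglyMeasurable ?_
    exact Real.continuous_exp.comp (continuous_const.mul (Continuous.inner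
      ((P.A X').continuous.comp continuous_subtype_val) continuous_subtype_val)).neg
  · filter_upwards [hnear] with X' hX'
    refine ae_of_all _ fun z => ?_
    rw [Real.norm_of_nonneg (Real.exp_pos _).le]
    refine Real.exp_le_exp.2 ?_
    have := mul_le_mul_of_nonneg_left (hlow X' hX'.le z) hg.le
    linarith
  · exact GPar984.integrable_gauss (by positivity)
  · refine ae_of_all _ fun z => ?_
    have hA : ContinuousAt (fun X' => P.A X' (z : Cfg N)) X :=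
      (hcontA X h1).clm_apply continuousAt_const
    exact Real.continuous_exp.continuousAt.comp
      (continuousAt_const.mul (hA.inner (𝕜 := ℝ) continuousAt_const)).neg

/-- **(G3)** moments. -/
theorem moment {r' : ℝ} (hr : r' < σ.r) (n : ℕ) : ∃ K : ℝ, 0 ≤ K ∧ ∀ g : ℝ, 0 < g →
    ∀ X : Pos p, ‖X - σ.X0‖ ≤ r' →
      ∫ z : C.Zt σ.X0, ‖z‖ ^ (2 * n) * Real.exp (-(g * ⟪P.A X z, z⟫_ℝ)) ≤
        K / g ^ n * nI P σ g X := by
  obtain ⟨c, K, hc, -, h⟩ := qb P σ hr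
  obtain ⟨Q, hQ, h1⟩ := moment_le (Z := C.Zt σ.X0) c K hc n
  exact ⟨Q, hQ, fun g hg X hX => h1 _ (h X hX) g hg⟩

/-- **(G3)** second moment. -/
theorem moment_two {r' : ℝ} (hr : r' < σ.r) : ∃ K : ℝ, 0 ≤ K ∧ ∀ g : ℝ, 0 < g →
    ∀ X : Pos p, ‖X - σ.X0‖ ≤ r' →
      ∫ z : C.Zt σ.X0, ‖z‖ ^ 2 * Real.exp (-(g * ⟪P.A X z, z⟫_ℝ)) ≤ K / g * nI P σ g X := by
  obtain ⟨K, hK, h⟩ := moment P σ hr 1
  refine ⟨K, hK, fun g hg X hX => ?_⟩
  have := h g hg X hX
  simpa using this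

/-! ### the normalised Gaussian -/

/-- The normalised Gaussian of the chart. -/
def gsn (g : ℝ) (X : Pos p) (z : C.Zt σ.X0) : ℝ :=
  Real.exp (-(g / 2 * ⟪P.A X z, z⟫_ℝ)) / Real.sqrt (nI P σ g X)

theorem gsn_nonneg (g : ℝ) (X : Pos p) (z : C.Zt σ.X0) : 0 ≤ gsn P σ g X z := by
  unfold gsn; positivity

theorem gsn_sq {X : Pos p} (hX : ‖X - σ.X0‖ < σ.r) {g : ℝ} (hg : 0 < g) (z : C.Zt σ.X0) :
    gsn P σ g X z ^ 2 = Real.exp (-(g * ⟪P.A X z, z⟫_ℝ)) / nI P σ g X := by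
  unfold gsn
  rw [div_pow, Real.sq_sqrt (nI_pos P σ hX hg).le, ← Real.exp_nat_mul]
  congr 2
  push_cast
  ring

theorem integral_pow_gsn_sq {X : Pos p} (hX : ‖X - σ.X0‖ < σ.r) {g : ℝ} (hg : 0 < g) (n : ℕ) :
    ∫ z : C.Zt σ.X0, ‖z‖ ^ n * gsn P σ g X z ^ 2 =
      (∫ z : C.Zt σ.X0, ‖z‖ ^ n * Real.exp (-(g * ⟪P.A X z, z⟫_ℝ))) / nI P σ g X := by
  rw [← integral_div]
  refine integral_congr_ae (ae_of_all _ fun z => ?_)
  show ‖z‖ ^ n * gsn P σ g X z ^ 2 =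
    ‖z‖ ^ n * Real.exp (-(g * ⟪P.A X z, z⟫_ℝ)) / nI P σ g X
  rw [gsn_sq P σ hX hg, mul_div_assoc]

theorem integral_gsn_sq {X : Pos p} (hX : ‖X - σ.X0‖ < σ.r) {g : ℝ} (hg : 0 < g) :
    ∫ z : C.Zt σ.X0, gsn P σ g X z ^ 2 = 1 := by
  have h := integral_pow_gsn_sq P σ hX hg 0
  simp only [pow_zero, one_mul] at h
  rw [h]
  exact div_self (nI_pos P σ hX hg).ne'

theorem integrable_pow_gsn_sq {X : Pos p} (hX : ‖X - σ.X0‖ < σ.r) {g : ℝ} (hg : 0 < g) (n : ℕ) :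
    Integrable fun z : C.Zt σ.X0 => ‖z‖ ^ n * gsn P σ g X z ^ 2 := by
  refine ((integrable_pow_exp P σ hX hg n).div_const (nI P σ g X)).congr (ae_of_all _ fun z => ?_)
  show ‖z‖ ^ n * Real.exp (-(g * ⟪P.A X z, z⟫_ℝ)) / nI P σ g X = ‖z‖ ^ n * gsn P σ g X z ^ 2
  rw [gsn_sq P σ hX hg, mul_div_assoc]

theorem continuous_gsn (g : ℝ) (X : Pos p) : Continuous (gsn P σ g X) := by
  unfold gsn
  exact (Real.continuous_exp.comp (continuous_const.mul (Continuous.inner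
      ((P.A X).continuous.comp continuous_subtype_val) continuous_subtype_val)).neg).div_const _

theorem memLp_gsn {X : Pos p} (hX : ‖X - σ.X0‖ < σ.r) {g : ℝ} (hg : 0 < g) :
    MemLp (gsn P σ g X) 2 := by
  rw [memLp_two_iff_integrable_sq (continuous_gsn P σ g X).aestronglyMeasurable]
  have := integrable_pow_gsn_sq P σ hX hg 0
  simpa using this

/-- Moments of the normalised Gaussian. -/
theorem moment_gsn {r' : ℝ} (hr : r' < σ.r) (n : ℕ) : ∃ K : ℝ, 0 ≤ K ∧ ∀ g : ℝ, 0 < g →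
    ∀ X : Pos p, ‖X - σ.X0‖ ≤ r' →
      ∫ z : C.Zt σ.X0, ‖z‖ ^ (2 * n) * gsn P σ g X z ^ 2 ≤ K / g ^ n := by
  obtain ⟨K, hK, h⟩ := moment P σ hr n
  refine ⟨K, hK, fun g hg X hX => ?_⟩
  have hX' : ‖X - σ.X0‖ < σ.r := hX.trans_lt hr
  rw [integral_pow_gsn_sq P σ hX' hg, div_le_iff₀ (nI_pos P σ hX' hg)]
  exact h g hg X hX

theorem moment_two_gsn {r' : ℝ} (hr : r' < σ.r) : ∃ K : ℝ, 0 ≤ K ∧ ∀ g : ℝ, 0 < g →
    ∀ X : Pos p, ‖X - σ.X0‖ ≤ r' →
      ∫ z : C.Zt σ.X0, ‖z‖ ^ 2 * gsn P σ g X z ^ 2 ≤ K / g := by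
  obtain ⟨K, hK, h⟩ := moment_gsn P σ hr 1
  refine ⟨K, hK, fun g hg X hX => ?_⟩
  have := h g hg X hX
  simpa using this

/-- Tails. -/
theorem tail_gsn {r' : ℝ} (hr : r' < σ.r) {δ : ℝ} (hδ : 0 < δ) (n : ℕ) : ∃ K : ℝ, 0 ≤ K ∧
    ∀ g : ℝ, 0 < g → ∀ X : Pos p, ‖X - σ.X0‖ ≤ r' →
      ∫ z in {z : C.Zt σ.X0 | δ ≤ ‖z‖}, gsn P σ g X z ^ 2 ≤ K / g ^ n := by
  obtain ⟨K, hK, h⟩ := moment_gsn P σ hr n
  refine ⟨K / δ ^ (2 * n), by positivity, fun g hg X hX => ?_⟩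
  have hX' : ‖X - σ.X0‖ < σ.r := hX.trans_lt hr
  have hm : MeasurableSet {z : C.Zt σ.X0 | δ ≤ ‖z‖} :=
    (isClosed_le continuous_const continuous_norm).measurableSet
  have hi := integrable_pow_gsn_sq P σ hX' hg (2 * n)
  have hi0 : Integrable fun z : C.Zt σ.X0 => gsn P σ g X z ^ 2 := by
    have := integrable_pow_gsn_sq P σ hX' hg 0
    simpa using this
  calc ∫ z in {z : C.Zt σ.X0 | δ ≤ ‖z‖}, gsn P σ g X z ^ 2
      ≤ ∫ z in {z : C.Zt σ.X0 | δ ≤ ‖z‖},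
          (δ ^ (2 * n))⁻¹ * (‖z‖ ^ (2 * n) * gsn P σ g X z ^ 2) := by
        refine setIntegral_mono_on hi0.integrableOn (hi.const_mul _).integrableOn hm
          fun z hz => ?_
        have h1 : δ ^ (2 * n) ≤ ‖z‖ ^ (2 * n) := pow_le_pow_left₀ hδ.le hz _
        have h2 : 1 ≤ (δ ^ (2 * n))⁻¹ * ‖z‖ ^ (2 * n) := by
          rw [inv_mul_eq_div, one_le_div (by positivity)]
          exact h1
        calc gsn P σ g X z ^ 2 = 1 * gsn P σ g X z ^ 2 := (one_mul _).symm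
          _ ≤ ((δ ^ (2 * n))⁻¹ * ‖z‖ ^ (2 * n)) * gsn P σ g X z ^ 2 :=
              mul_le_mul_of_nonneg_right h2 (sq_nonneg _)
          _ = _ := by ring
    _ ≤ ∫ z : C.Zt σ.X0, (δ ^ (2 * n))⁻¹ * (‖z‖ ^ (2 * n) * gsn P σ g X z ^ 2) :=
        setIntegral_le_integral (hi.const_mul _) (ae_of_all _ fun z => by positivity)
    _ = (δ ^ (2 * n))⁻¹ * ∫ z : C.Zt σ.X0, ‖z‖ ^ (2 * n) * gsn P σ g X z ^ 2 :=
        integral_const_mul _ _
    _ ≤ (δ ^ (2 * n))⁻¹ * (K / g ^ n) :=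
        mul_le_mul_of_nonneg_left (h g hg X hX) (by positivity)
    _ = K / δ ^ (2 * n) / g ^ n := by ring

/-- Joint continuity on the chart. -/
theorem continuousOn_gsn {g : ℝ} (hg : 0 < g) :
    ContinuousOn (fun q : Pos p × C.Zt σ.X0 => gsn P σ g q.1 q.2)
      (Metric.ball σ.X0 σ.r ×ˢ Set.univ) := by
  intro q hq
  have hX : ‖q.1 - σ.X0‖ < σ.r := by
    have := hq.1
    rwa [Metric.mem_ball, dist_eq_norm] at this
  have hA : ContinuousAt P.A q.1 := (P.A_smooth q.1 (σ.reg q.1 hX)).continuousAt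
  have h1 : ContinuousAt (fun q : Pos p × C.Zt σ.X0 => P.A q.1 (q.2 : Cfg N)) q :=
    (hA.comp continuousAt_fst).clm_apply (continuous_subtype_val.continuousAt.comp continuousAt_snd)
  have h2 : ContinuousAt (fun q : Pos p × C.Zt σ.X0 =>
      Real.exp (-(g / 2 * ⟪P.A q.1 (q.2 : Cfg N), (q.2 : Cfg N)⟫_ℝ))) q :=
    Real.continuous_exp.continuousAt.comp (continuousAt_const.mul
      (h1.inner (𝕜 := ℝ) (continuous_subtype_val.continuousAt.comp continuousAt_snd))).neg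
  have h3 : ContinuousAt (nI P σ g) q.1 :=
    (continuousOn_nI P σ hg).continuousAt (Metric.isOpen_ball.mem_nhds hq.1)
  refine ContinuousAt.continuousWithinAt ?_
  exact h2.div (Real.continuous_sqrt.continuousAt.comp (h3.comp continuousAt_fst))
    (Real.sqrt_ne_zero'.2 (nI_pos P σ hX hg))

end literal

end Crest.Agent.R330.PairG756

end
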