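import Crest.Agent.R330.PairT_245

/-!
# Row 330, S8/S9 pairing: the product state on the slice and its amplitude (helper245)

* `omq P g X0 χ (X', Y) = U_{X0+X'} (Psi g Y (χ (X0+X')))`, `omU` the same on `Cfg N` through
  `cfT`, `PY`; `continuous_omq`, `compact_omq`, `memLp_omq`, `continuous_omU`, `compact_omU`,
  `memLp_omU`; `norm_omq`, `omq_eq_zero`.
* `psi_bound`, `omq_sq`, `omq_mom` : sizes uniform in `g` and `χ`.
* `amp_pair` : `∫_{Uk} ⟪U Psi χ, w⟫ = ∫ lam ⟪χ, a⟫`.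
-/

set_option autoImplicit false
set_option linter.unusedSectionVars false

open MeasureTheory Filter Topology Crest.MathPhysics.MatrixQM
open scoped ContDiff InnerProductSpace ENNReal

noncomputable section

namespace Crest.Agent.R330.PairT245

open Crest.Agent.R330.Defs478 Crest.Agent.R330.LS839 Crest.Agent.R330.Frame839
  Crest.Agent.R330.Bind6839 Crest.Agent.R330.IBP837 Crest.Agent.R330.TDef414
open Crest.Agent.R330.SlB314 (Nor Tan br)

variable {N p : ℕ} {b : ColorBasis N} {S : Type} [Group S] [Fintype S] {C : Chn b p S}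
  {F : Type*} [NormedAddCommGroup F] [InnerProductSpace ℂ F] [FiniteDimensional ℂ F]
  {M : FermionRep N F} {R : GaugeAction b M} {G : GammaNine} {X0 : Pos p}

/-! ## The product state -/

/-- The product state in the coordinates `(X', Y)`. -/
def omq (P : TPack C M R G) (g : ℝ) (X0 : Pos p) (χ : Pos p → C.Fx M G) (q : Pos p × C.Blk) : F :=
  P.U (X0 + q.1) (P.Psi g q.2 (χ (X0 + q.1) : F))

/-- The product state on configurations. -/
def omU (P : TPack C M R G) (g : ℝ) (X0 : Pos p) (χ : Pos p → C.Fx M G) (u : Cfg N) : F :=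
  P.U (X0 + C.cfT u) (P.Psi g (C.PY u) (χ (X0 + C.cfT u) : F))

theorem omU_sum (P : TPack C M R G) (g : ℝ) (X0 : Pos p) (χ : Pos p → C.Fx M G) (X' : Pos p)
    (Y : C.Blk) : omU P g X0 χ (C.cf X' + Y) = omq P g X0 χ (X', Y) := by
  unfold omU omq
  rw [cfT_sum' X' Y.2, PY_sum' X' Y.2]

theorem omU_uE (P : TPack C M R G) (g : ℝ) (h0 : C.Reg X0) (χ : Pos p → C.Fx M G)
    (q : Pos p × C.Blk) : omU P g X0 χ (uE h0 q) = omq P g X0 χ q := by
  rw [coe_uE, omU_sum]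

theorem norm_U (P : TPack C M R G) {X : Pos p} (hX : C.BReg X) {f : F} (hf : f ∈ C.Fl M G) :
    ‖P.U X f‖ = ‖f‖ := by
  have h1 := P.U_inner X hX f hf f hf
  rw [inner_self_eq_norm_sq_to_K, inner_self_eq_norm_sq_to_K] at h1
  have h2 : ‖P.U X f‖ ^ 2 = ‖f‖ ^ 2 := by exact_mod_cast h1
  exact (sq_eq_sq₀ (norm_nonneg _) (norm_nonneg _)).1 h2

/-- `χ` is supported in `BReg`. -/
def BSupp (χ : Pos p → C.Fx M G) : Prop := ∀ X ∈ tsupport χ, C.BReg X

theorem norm_omq (P : TPack C M R G) (g : ℝ) {χ : Pos p → C.Fx M G} (hχ : BSupp χ)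
    (q : Pos p × C.Blk) :
    ‖omq P g X0 χ q‖ = ‖P.Psi g q.2 (χ (X0 + q.1) : F)‖ := by
  unfold omq
  by_cases h : χ (X0 + q.1) = 0
  · simp [h]
  · exact norm_U P (hχ _ (subset_tsupport _ h))
      (P.Psi_mem g q.2 q.2.2 _ (χ (X0 + q.1)).2)

theorem omq_eq_zero (P : TPack C M R G) (g : ℝ) {χ : Pos p → C.Fx M G} {q : Pos p × C.Blk}
    (h : χ (X0 + q.1) = 0 ∨ P.s g ≤ ‖q.2‖) : omq P g X0 χ q = 0 := by
  unfold omq
  rcases h with h | h
  · rw [h, ZeroMemClass.coe_zero, map_zero, map_zero]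
  · rw [P.Psi_supp g q.2 q.2.2 h, zero_apply, map_zero]

theorem continuous_omq (P : TPack C M R G) {g : ℝ} (hg : Continuous (P.Psi g))
    {χ : Pos p → C.Fx M G} (hc : Continuous χ) (hχ : BSupp χ) :
    Continuous (omq P g X0 χ) := by
  rw [continuous_iff_continuousAt]
  intro q
  have hq : Continuous fun q : Pos p × C.Blk => X0 + q.1 := by fun_prop
  by_cases h : X0 + q.1 ∈ tsupport χ
  · unfold omq
    have h1 : ContinuousAt (fun q : Pos p × C.Blk => P.U (X0 + q.1)) q :=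
      ContinuousAt.comp (f := fun q : Pos p × C.Blk => X0 + q.1) (g := P.U)
        (P.U_smooth _ (hχ _ h)).continuousAt hq.continuousAt
    have h2 : Continuous fun q : Pos p × C.Blk => P.Psi g q.2 (χ (X0 + q.1) : F) := by
      have h3 : Continuous fun q : Pos p × C.Blk => P.Psi g (q.2 : Cfg N) :=
        hg.comp (continuous_subtype_val.comp continuous_snd)
      have h4 : Continuous fun q : Pos p × C.Blk => (χ (X0 + q.1) : F) :=
        continuous_subtype_val.comp (hc.comp hq)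
      exact h3.clm_apply h4
    exact h1.clm_apply h2.continuousAt
  · have h1 : ∀ᶠ q' in 𝓝 q, omq P g X0 χ q' = 0 := by
      have h2 : (tsupport χ)ᶜ ∈ 𝓝 (X0 + q.1) := (isClosed_tsupport _).isOpen_compl.mem_nhds h
      filter_upwards [hq.continuousAt h2] with q' hq'
      exact omq_eq_zero P g (Or.inl (image_eq_zero_of_notMem_tsupport hq'))
    exact (continuousAt_const.congr (h1.mono fun q' hq' => hq'.symm))

theorem compact_omq (P : TPack C M R G) (g : ℝ) {χ : Pos p → C.Fx M G}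
    (hcs : HasCompactSupport χ) : HasCompactSupport (omq P g X0 χ) := by
  refine HasCompactSupport.of_support_subset_isCompact
    (((hcs.image (f := fun X : Pos p => X - X0) (by fun_prop))).prod
      (isCompact_closedBall (0 : C.Blk) (P.s g))) fun q hq => ?_
  have h1 : ¬ (χ (X0 + q.1) = 0 ∨ P.s g ≤ ‖q.2‖) := fun h => hq (omq_eq_zero P g h)
  push Not at h1
  refine ⟨⟨X0 + q.1, subset_tsupport _ h1.1, by simp⟩, ?_⟩
  simpa using h1.2.le

theorem memLp_omq (P : TPack C M R G) {g : ℝ} (hg : Continuous (P.Psi g))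
    {χ : Pos p → C.Fx M G} (hc : Continuous χ) (hcs : HasCompactSupport χ) (hχ : BSupp χ)
    (q : ℝ≥0∞) : MemLp (omq P g X0 χ) q volume :=
  (continuous_omq P hg hc hχ).memLp_of_hasCompactSupport (compact_omq P g hcs)

theorem continuous_omU (P : TPack C M R G) {g : ℝ} (hg : Continuous (P.Psi g))
    (h0 : C.Reg X0) {χ : Pos p → C.Fx M G} (hc : Continuous χ) (hχ : BSupp χ) :
    Continuous fun u : Uk b (C.cf X0) => omU P g X0 χ u := by
  have h1 : (fun u : Uk b (C.cf X0) => omU P g X0 χ u) = omq P g X0 χ ∘ (uE h0).symm := by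
    funext u
    have h2 := omU_uE P g h0 χ ((uE h0).symm u)
    rw [(uE h0).apply_symm_apply] at h2
    exact h2
  rw [h1]
  exact (continuous_omq P hg hc hχ).comp (uE h0).symm.continuous

theorem compact_omU (P : TPack C M R G) (g : ℝ) (h0 : C.Reg X0) {χ : Pos p → C.Fx M G}
    (hcs : HasCompactSupport χ) :
    HasCompactSupport fun u : Uk b (C.cf X0) => omU P g X0 χ u := by
  have h1 : (fun u : Uk b (C.cf X0) => omU P g X0 χ u) = omq P g X0 χ ∘ (uE h0).symm := by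
    funext u
    have h2 := omU_uE P g h0 χ ((uE h0).symm u)
    rw [(uE h0).apply_symm_apply] at h2
    exact h2
  rw [h1]
  exact (compact_omq P g hcs).comp_homeomorph (uE h0).symm.toHomeomorph

theorem memLp_omU (P : TPack C M R G) {g : ℝ} (hg : Continuous (P.Psi g))
    (h0 : C.Reg X0) {χ : Pos p → C.Fx M G} (hc : Continuous χ) (hcs : HasCompactSupport χ)
    (hχ : BSupp χ) (q : ℝ≥0∞) :
    MemLp (fun u : Uk b (C.cf X0) => omU P g X0 χ u) q volume :=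
  (continuous_omU P hg h0 hc hχ).memLp_of_hasCompactSupport (compact_omU P g h0 hcs)

/-! ## Sizes -/

/-- The block state is bounded on `Fx`, pointwise Cauchy–Schwarz over a basis. -/
theorem norm_sq_psi_le (P : TPack C M R G) (g : ℝ) (Y : C.Blk) (f : C.Fx M G) :
    ‖P.Psi g Y f‖ ^ 2 ≤ ‖f‖ ^ 2 *
      ∑ i, ‖P.Psi g Y ((stdOrthonormalBasis ℂ (C.Fx M G) i : C.Fx M G) : F)‖ ^ 2 := by
  set e := stdOrthonormalBasis ℂ (C.Fx M G) with he
  have h1 : (f : F) = ∑ i, (e.repr f i) • ((e i : C.Fx M G) : F) := by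
    have := congrArg (fun v : C.Fx M G => (v : F)) (e.sum_repr f)
    simp only [Submodule.coe_sum, Submodule.coe_smul] at this
    exact this.symm
  have h2 : P.Psi g Y f = ∑ i, (e.repr f i) • P.Psi g Y ((e i : C.Fx M G) : F) := by
    conv_lhs => rw [h1]
    rw [map_sum]
    exact Finset.sum_congr rfl fun i _ => map_smul _ _ _
  have h3 : ‖P.Psi g Y f‖ ≤ ∑ i, ‖e.repr f i‖ * ‖P.Psi g Y ((e i : C.Fx M G) : F)‖ := by
    rw [h2]
    refine (norm_sum_le _ _).trans (le_of_eq ?_)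
    exact Finset.sum_congr rfl fun i _ => norm_smul _ _
  have h4 : ∑ i, ‖e.repr f i‖ ^ 2 = ‖f‖ ^ 2 := by
    rw [← EuclideanSpace.norm_sq_eq, e.repr.norm_map]
  calc ‖P.Psi g Y f‖ ^ 2 ≤ (∑ i, ‖e.repr f i‖ * ‖P.Psi g Y ((e i : C.Fx M G) : F)‖) ^ 2 :=
        pow_le_pow_left₀ (norm_nonneg _) h3 2
    _ ≤ (∑ i, ‖e.repr f i‖ ^ 2) * ∑ i, ‖P.Psi g Y ((e i : C.Fx M G) : F)‖ ^ 2 :=
        Finset.sum_mul_sq_le_sq_mul_sq _ _ _
    _ = _ := by rw [h4]

theorem integrable_psi_sq (P : TPack C M R G) {g : ℝ} (hg : Continuous (P.Psi g)) (f : F) :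
    Integrable fun Y : C.Blk => ‖P.Psi g Y f‖ ^ 2 := by
  have h1 : Continuous fun Y : C.Blk => ‖P.Psi g Y f‖ ^ 2 :=
    (((hg.comp continuous_subtype_val).clm_apply continuous_const).norm).pow 2
  refine h1.integrable_of_hasCompactSupport ?_
  refine HasCompactSupport.of_support_subset_isCompact
    (isCompact_closedBall (0 : C.Blk) (P.s g)) fun Y hY => ?_
  by_contra h
  apply hY
  have h2 : P.s g ≤ ‖(Y : Cfg N)‖ := by
    have : ¬ ‖Y‖ ≤ P.s g := by simpa using h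
    exact (not_le.1 this).le
  simp [P.Psi_supp g Y Y.2 h2]

/-- `∫_Y ‖Psi g Y f‖² ≤ K ‖f‖²`, uniformly in large `g`. -/
theorem psi_bound (P : TPack C M R G) : ∃ K : ℝ, 0 ≤ K ∧ ∀ᶠ g in atTop, ∀ f : C.Fx M G,
    ∫ Y : C.Blk, ‖P.Psi g Y f‖ ^ 2 ≤ K * ‖f‖ ^ 2 := by
  set e := stdOrthonormalBasis ℂ (C.Fx M G) with he
  have h1 : ∀ i, Tendsto (fun g => ∫ Y : C.Blk, ‖P.Psi g Y ((e i : C.Fx M G) : F)‖ ^ 2) atTop
      (𝓝 1) := by
    intro i
    have h2 := P.Psi_iso (e i) (e i).2 (e i) (e i).2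
    have h3 : ⟪((e i : C.Fx M G) : F), ((e i : C.Fx M G) : F)⟫_ℂ = ((1 : ℝ) : ℂ) := by
      rw [inner_self_eq_norm_sq_to_K]
      have : ‖((e i : C.Fx M G) : F)‖ = 1 := e.orthonormal.1 i
      rw [this]
      simp
    rw [h3] at h2
    have h4 := (Complex.continuous_re.tendsto _).comp h2
    simp only [Complex.ofReal_re] at h4
    refine h4.congr' ?_
    filter_upwards [P.Psi_smooth] with g hg
    simp only [Function.comp]
    have h5 : (fun Y : C.Blk => ⟪P.Psi g Y ((e i : C.Fx M G) : F),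
        P.Psi g Y ((e i : C.Fx M G) : F)⟫_ℂ) =
        fun Y : C.Blk => ((‖P.Psi g Y ((e i : C.Fx M G) : F)‖ ^ 2 : ℝ) : ℂ) := by
      funext Y
      rw [inner_self_eq_norm_sq_to_K]
      simp
    rw [h5, integral_complex_ofReal, Complex.ofReal_re]
  have h2 : Tendsto (fun g => ∑ i, ∫ Y : C.Blk, ‖P.Psi g Y ((e i : C.Fx M G) : F)‖ ^ 2) atTop
      (𝓝 (∑ _i : Fin (Module.finrank ℂ (C.Fx M G)), (1 : ℝ))) :=
    tendsto_finsetSum _ fun i _ => h1 i
  refine ⟨(∑ _i : Fin (Module.finrank ℂ (C.Fx M G)), (1 : ℝ)) + 1,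
    by positivity, ?_⟩
  filter_upwards [h2.eventually (gt_mem_nhds (lt_add_one _)), P.Psi_smooth] with g hg hs f
  have hc := hs.continuous
  calc ∫ Y : C.Blk, ‖P.Psi g Y f‖ ^ 2 ≤
        ∫ Y : C.Blk, ‖f‖ ^ 2 * ∑ i, ‖P.Psi g Y ((e i : C.Fx M G) : F)‖ ^ 2 := by
        refine integral_mono (integrable_psi_sq P hc f) ?_ fun Y => norm_sq_psi_le P g Y f
        exact (integrable_finsetSum _ fun i _ => integrable_psi_sq P hc _).const_mul _
    _ = ‖f‖ ^ 2 * ∑ i, ∫ Y : C.Blk, ‖P.Psi g Y ((e i : C.Fx M G) : F)‖ ^ 2 := by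
        rw [integral_const_mul, integral_finsetSum _ fun i _ => integrable_psi_sq P hc _]
    _ ≤ ‖f‖ ^ 2 * ((∑ _i : Fin (Module.finrank ℂ (C.Fx M G)), (1 : ℝ)) + 1) :=
        mul_le_mul_of_nonneg_left hg.le (by positivity)
    _ = _ := mul_comm _ _

/-- `∫ W(Y) ‖omq‖²` as an iterated integral bounded fibrewise. -/
theorem omq_weight (P : TPack C M R G) {g : ℝ} (hg : Continuous (P.Psi g)) {W : C.Blk → ℝ}
    (hW : Continuous W) {K : ℝ}
    (hK : ∀ f : C.Fx M G, ∫ Y : C.Blk, W Y * ‖P.Psi g Y f‖ ^ 2 ≤ K * ‖f‖ ^ 2)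
    {χ : Pos p → C.Fx M G} (hc : Continuous χ) (hcs : HasCompactSupport χ) (hχ : BSupp χ) :
    ∫ q, W q.2 * ‖omq P g X0 χ q‖ ^ 2 ≤ K * ∫ X, ‖χ X‖ ^ 2 := by
  have hi : Integrable fun q : Pos p × C.Blk => W q.2 * ‖omq P g X0 χ q‖ ^ 2 := by
    have c1 : Continuous fun q : Pos p × C.Blk => W q.2 * ‖omq P g X0 χ q‖ ^ 2 :=
      (hW.comp continuous_snd).mul ((continuous_omq P hg hc hχ).norm.pow 2)
    refine c1.integrable_of_hasCompactSupport ?_
    have c2 := (compact_omq P g hcs (X0 := X0)).norm.comp_left (g := fun t : ℝ => t ^ 2)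
      (by norm_num)
    exact c2.mul_left
  have hχi : Integrable fun X' : Pos p => K * ‖χ (X0 + X')‖ ^ 2 := by
    have c1 : Continuous fun X : Pos p => ‖χ X‖ ^ 2 := hc.norm.pow 2
    have c2 : Integrable fun X : Pos p => ‖χ X‖ ^ 2 :=
      c1.integrable_of_hasCompactSupport (hcs.norm.comp_left (g := fun t : ℝ => t ^ 2)
        (by norm_num))
    exact ((c2.comp_add_left X0).const_mul K)
  rw [Measure.volume_eq_prod] at hi ⊢
  rw [integral_prod _ hi]
  calc ∫ X' : Pos p, ∫ Y : C.Blk, W Y * ‖omq P g X0 χ (X', Y)‖ ^ 2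
      ≤ ∫ X' : Pos p, K * ‖χ (X0 + X')‖ ^ 2 := by
        refine integral_mono hi.integral_prod_left hχi fun X' => ?_
        simp only [norm_omq P g hχ]
        exact hK (χ (X0 + X'))
    _ = K * ∫ X, ‖χ X‖ ^ 2 := by
        rw [integral_const_mul]
        congr 1
        exact integral_add_left_eq_self (fun X : Pos p => ‖χ X‖ ^ 2) X0

/-- Size of the product state. -/
theorem omq_sq (P : TPack C M R G) : ∃ K : ℝ, 0 ≤ K ∧ ∀ᶠ g in atTop, ∀ (X0 : Pos p)
    (χ : Pos p → C.Fx M G), Continuous χ → HasCompactSupport χ → BSupp χ →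
    ∫ q, ‖omq P g X0 χ q‖ ^ 2 ≤ K * ∫ X, ‖χ X‖ ^ 2 := by
  obtain ⟨K, hK, h⟩ := psi_bound P
  refine ⟨K, hK, ?_⟩
  filter_upwards [h, P.Psi_smooth] with g h1 h2 X0 χ hc hcs hχ
  have h3 := omq_weight P h2.continuous (W := fun _ => 1) continuous_const (K := K) (X0 := X0)
    (by simpa using h1) hc hcs hχ
  simpa using h3

/-- Second moment of the product state in the block variables. -/
theorem omq_mom (P : TPack C M R G) : ∃ K : ℝ, 0 ≤ K ∧ ∀ᶠ g in atTop, ∀ (X0 : Pos p)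
    (χ : Pos p → C.Fx M G), Continuous χ → HasCompactSupport χ → BSupp χ →
    ∫ q, ‖q.2‖ ^ 2 * ‖omq P g X0 χ q‖ ^ 2 ≤ K * g ^ (-(2 / 3) : ℝ) * ∫ X, ‖χ X‖ ^ 2 := by
  obtain ⟨K, h⟩ := P.Psi_mom
  refine ⟨max K 0, le_max_right _ _, ?_⟩
  filter_upwards [h, P.Psi_smooth, eventually_gt_atTop 0] with g h1 h2 hg X0 χ hc hcs hχ
  refine omq_weight P h2.continuous (W := fun Y => ‖Y‖ ^ 2) (by fun_prop) (X0 := X0)
    (fun f => ?_) hc hcs hχ
  have h3 := h1 f f.2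
  have hp : 0 < g ^ ((2 : ℝ) / 3) := Real.rpow_pos_of_pos hg _
  have h4 : g ^ (-(2 / 3) : ℝ) = (g ^ ((2 : ℝ) / 3))⁻¹ := Real.rpow_neg hg.le _
  rw [h4, mul_right_comm, ← div_eq_mul_inv, le_div_iff₀ hp, mul_comm]
  refine h3.trans ?_
  exact mul_le_mul_of_nonneg_right (le_max_left _ _) (by positivity)

/-- Size of the product state, on `Uk`. -/
theorem integral_omU_sq (P : TPack C M R G) (g : ℝ) (h0 : C.Reg X0) (χ : Pos p → C.Fx M G) :
    ∫ u : Uk b (C.cf X0), ‖omU P g X0 χ u‖ ^ 2 = ∫ q, ‖omq P g X0 χ q‖ ^ 2 := by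
  rw [integral_uk h0]
  simp only [omU_uE]

/-- Second moment of the product state, on `Uk`. -/
theorem integral_omU_mom (P : TPack C M R G) (g : ℝ) (h0 : C.Reg X0) (χ : Pos p → C.Fx M G) :
    ∫ u : Uk b (C.cf X0), ‖C.PY u‖ ^ 2 * ‖omU P g X0 χ u‖ ^ 2 =
      ∫ q, ‖q.2‖ ^ 2 * ‖omq P g X0 χ q‖ ^ 2 := by
  rw [integral_uk h0]
  simp only [omU_uE]
  refine integral_congr_ae (Eventually.of_forall fun q => ?_)
  simp only [coe_uE, PY_sum' q.1 q.2.2]
  rfl

/-! ## The amplitude -/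

/-- **Pairing on the slice**: `a` is the amplitude of `wt`, and `w` has the values `lam⁻¹ U wt` (in the
weak sense `hw`). -/
theorem amp_pair (P : TPack C M R G) {g : ℝ} (hg : Continuous (P.Psi g)) (h0 : C.Reg X0)
    {χ : Pos p → C.Fx M G} (hc : Continuous χ) (hcs : HasCompactSupport χ) (hχ : BSupp χ)
    {w : Uk b (C.cf X0) → F} (hw2 : MemLp w 2 volume) {wt : Pos p × C.Blk → F}
    {a : Pos p → C.Fx M G} {lam : Pos p → ℂ}
    (hw : ∀ X', χ (X0 + X') ≠ 0 → ∀ Y : C.Blk, ∀ f ∈ C.Fl M G,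
      ⟪P.U (X0 + X') f, w (uE h0 (X', Y))⟫_ℂ = lam X' * ⟪f, wt (X', Y)⟫_ℂ)
    (ha : ∀ X', χ (X0 + X') ≠ 0 → IsBlockAmp P g (fun Y => wt (X', Y)) (a X' : F)) :
    ∫ u : Uk b (C.cf X0), ⟪omU P g X0 χ u, w u⟫_ℂ = ∫ X', lam X' * ⟪χ (X0 + X'), a X'⟫_ℂ := by
  have hint : Integrable fun u : Uk b (C.cf X0) => ⟪omU P g X0 χ u, w u⟫_ℂ :=
    PairC424.integrable_inner (memLp_omU P hg h0 hc hcs hχ 2) hw2
  rw [integral_uk h0]
  rw [integrable_uk h0] at hint
  simp only [omU_uE] at hint ⊢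
  rw [Measure.volume_eq_prod] at hint ⊢
  rw [integral_prod _ hint]
  refine integral_congr_ae (Eventually.of_forall fun X' => ?_)
  simp only
  by_cases h : χ (X0 + X') = 0
  · rw [h, inner_zero_left, mul_zero]
    have h2 : ∀ Y : C.Blk, ⟪omq P g X0 χ (X', Y), w (uE h0 (X', Y))⟫_ℂ = 0 := fun Y => by
      rw [omq_eq_zero P g (Or.inl h), inner_zero_left]
    simp only [h2, integral_zero]
  · have h1 := (ha X' h).2 (χ (X0 + X')) (χ (X0 + X')).2
    rw [Submodule.coe_inner, h1, ← integral_const_mul]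
    refine integral_congr_ae (Eventually.of_forall fun Y => ?_)
    exact hw X' h Y _ (P.Psi_mem g Y Y.2 _ (χ (X0 + X')).2)

/-- The case `w = U wt`. -/
theorem amp_pair_one (P : TPack C M R G) {g : ℝ} (hg : Continuous (P.Psi g)) (h0 : C.Reg X0)
    {χ : Pos p → C.Fx M G} (hc : Continuous χ) (hcs : HasCompactSupport χ) (hχ : BSupp χ)
    {w : Uk b (C.cf X0) → F} (hw2 : MemLp w 2 volume) {wt : Pos p × C.Blk → F}
    {a : Pos p → C.Fx M G}
    (hw : ∀ X', χ (X0 + X') ≠ 0 → ∀ Y : C.Blk,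
      wt (X', Y) ∈ C.Fl M G ∧ w (uE h0 (X', Y)) = P.U (X0 + X') (wt (X', Y)))
    (ha : ∀ X', χ (X0 + X') ≠ 0 → IsBlockAmp P g (fun Y => wt (X', Y)) (a X' : F)) :
    ∫ u : Uk b (C.cf X0), ⟪omU P g X0 χ u, w u⟫_ℂ = ∫ X', ⟪χ (X0 + X'), a X'⟫_ℂ := by
  have h := amp_pair P hg h0 hc hcs hχ hw2 (lam := fun _ => 1) (fun X' hX Y f hf => ?_) ha
  · simpa using h
  · rw [(hw X' hX Y).2, P.U_inner _ (hχ _ (subset_tsupport _ hX)) f hf _ (hw X' hX Y).1, one_mul]

end Crest.Agent.R330.PairT245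

end
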