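import Crest.Agent.R330.PairE_424
import Crest.Agent.R330.PairT2_245
import Crest.Agent.R330.PairG_756

/-!
# Row 330, S9-PAIRING (helper424): the pairing estimate without hypotheses

`pair_all` = `PairE424.pair_final` with the three inputs (continuity of the trial states, second
moment of the Gaussian, size of the light part) discharged from `TCore_383`, `PairG_756`,
`PairT2_245`.
-/

set_option autoImplicit false
set_option linter.unusedSectionVars false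

open MeasureTheory Filter Topology Crest.MathPhysics.MatrixQM
open scoped ContDiff InnerProductSpace ENNReal

noncomputable section

namespace Crest.Agent.R330.PairF424

open Crest.Agent.R330.Defs478 Crest.Agent.R330.LS839
  Crest.Agent.R330.Bind6839 Crest.Agent.R330.SlG944 Crest.Agent.R330.SlF944
  Crest.Agent.R330.TDef414 Crest.Agent.R330.PairD424 Crest.Agent.R330.PairC424
  Crest.Agent.R330.PairE424
open Crest.Agent.R330.SlB314 (Nor Tan br)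
open Crest.Agent.R330.SlD314 (tube mem_tube_iff)

variable {N p : ℕ} {b : ColorBasis N} {S : Type} [Group S] [Fintype S] {C : Chn b p S}
  {F : Type*} [NormedAddCommGroup F] [InnerProductSpace ℂ F]
  [FiniteDimensional ℂ F] {M : FermionRep N F} {R : GaugeAction b M} {G : GammaNine}

theorem hcont (P : TPack C M R G) (σ : Sl C) (χ : Amp M G σ) :
    ∀ᶠ g in atTop, Continuous (Tgen P σ g χ.fn) := by
  rcases subsingleton_or_nontrivial F with h | h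
  · exact Eventually.of_forall fun g => continuous_of_const fun _ _ => Subsingleton.elim _ _
  · filter_upwards [TCore383.core P σ χ] with g hg
    exact hg.1.continuous

theorem hmom (P : TPack C M R G) (σ : Sl C) :
    ∃ K : ℝ, ∀ᶠ g in atTop, ∀ X, ‖X - σ.X0‖ ≤ σ.r / 4 →
      ∫⁻ z : C.Zt σ.X0, ENNReal.ofReal (‖z‖ ^ 2 * gsn P σ g X z ^ 2) ≤
        ENNReal.ofReal (K / g) := by
  have hr := σ.pos
  obtain ⟨K, hK, h⟩ := PairG756.moment_two_gsn P σ (r' := σ.r / 4) (by linarith)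
  refine ⟨K, ?_⟩
  filter_upwards [eventually_gt_atTop 0] with g hg X hX
  have h1 : Integrable fun z : C.Zt σ.X0 => ‖z‖ ^ 2 * PairG756.gsn P σ g X z ^ 2 :=
    PairG756.integrable_pow_gsn_sq P σ (by linarith) hg 2
  have h2 := ofReal_integral_eq_lintegral_ofReal h1
    (Eventually.of_forall fun z => by positivity)
  calc _ = ∫⁻ z : C.Zt σ.X0, ENNReal.ofReal (‖z‖ ^ 2 * PairG756.gsn P σ g X z ^ 2) := rfl
    _ = ENNReal.ofReal (∫ z : C.Zt σ.X0, ‖z‖ ^ 2 * PairG756.gsn P σ g X z ^ 2) := h2.symm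
    _ ≤ _ := ENNReal.ofReal_le_ofReal (h g hg X hX)

theorem lint_sub {L L' : Submodule ℝ (Cfg N)} (h : L = L') (f : Cfg N → ℝ≥0∞) :
    ∫⁻ u : L, f u = ∫⁻ u : L', f u := by
  subst h
  rfl

theorem hom (P : TPack C M R G) (σ : Sl C) (χ : Amp M G σ) :
    ∃ K : ℝ, ∀ᶠ g in atTop,
      ∫⁻ u : Tup C.kk, ‖om P σ g χ.fn u‖ₑ ^ 2 ≤ ENNReal.ofReal K := by
  obtain ⟨K, hK, h⟩ := PairT245.omq_sq P
  refine ⟨K * ∫ X, ‖χ.fn X‖ ^ 2, ?_⟩
  filter_upwards [h, P.Psi_smooth] with g hg hΨ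
  have h0 := reg0 σ
  have h1 := hg σ.X0 χ.fn χ.smooth.continuous χ.compact χ.off
  rw [← PairT245.integral_omU_sq P g h0 χ.fn] at h1
  have h2 := PairT245.memLp_omU P hΨ.continuous h0 χ.smooth.continuous χ.compact χ.off 2
  rw [← lint_sub (PairT245.Uk_eq h0) fun u => ‖om P σ g χ.fn u‖ₑ ^ 2]
  calc _ = ∫⁻ u : Uk b (C.cf σ.X0), ‖PairT245.omU P g σ.X0 χ.fn u‖ₑ ^ 2 := rfl
    _ = ENNReal.ofReal (∫ u : Uk b (C.cf σ.X0), ‖PairT245.omU P g σ.X0 χ.fn u‖ ^ 2) :=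
        lint_eq_ofReal h2
    _ ≤ _ := ENNReal.ofReal_le_ofReal h1

/-- **Pairing of a core vector with a trial state.** -/
theorem pair_all {L Z : Submodule ℝ (Cfg N)} (P : TPack C M R G) (σ : Sl C)
    (hL : L = Tup C.kk) (hZ : Z = C.Zt σ.X0) (χ : Amp M G σ) {η : L × Z → ℝ} {e : Pos p → ℝ}
    (he : ContDiff ℝ ∞ e) (hη : Continuous η) {Lp B ρ : ℝ}
    (hLip : ∀ q q', |η q - η q'| ≤ Lp * (‖q.1 - q'.1‖ + ‖q.2 - q'.2‖)) (hB : ∀ q, |η q| ≤ B)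
    (hsupp : ∀ q : L × Z, ρ < ‖(q.1 : Cfg N) + q.2‖ → η q = 0) (hρ : ρ < σ.r)
    (hηe : ∀ (X : Pos p) (h : C.cf X ∈ L), e X = η (⟨C.cf X, h⟩, 0)) :
    ∃ ε : ℝ → ℝ, Tendsto ε atTop (𝓝 0) ∧ ∀ᶠ g in atTop, ∀ φ : Cfg N → F, Continuous φ →
      (∀ h x, φ (b.act h x) = R.ρ h (φ x)) → MemLp φ 2 volume →
      ‖(∫ x, ⟪Tgen P σ g (ampE σ he χ).fn x, φ x⟫_ℂ) -
        ∫ q : L × Z, ⟪gsn P σ g (σ.X0 + C.cfT q.1) q.2 • om P σ g χ.fn q.1,
          η q • φ (C.cf σ.X0 + ((q.1 : Cfg N) + q.2))⟫_ℂ‖ ≤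
        ε g * Real.sqrt (∫ x, ‖φ x‖ ^ 2) :=
  pair_final P σ hL hZ χ he hη hLip hB hsupp hρ hηe (hcont P σ _) (hmom P σ) (hom P σ χ)

/-- a `C¹` cut-off with compact support is bounded and Lipschitz in the form of `pair_all` -/
theorem lip_of_smooth {L Z : Submodule ℝ (Cfg N)} {η : L × Z → ℝ} (h : ContDiff ℝ ∞ η)
    (hc : HasCompactSupport η) : ∃ Lp B : ℝ,
      (∀ q q', |η q - η q'| ≤ Lp * (‖q.1 - q'.1‖ + ‖q.2 - q'.2‖)) ∧ ∀ q, |η q| ≤ B := by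
  obtain ⟨K, hK⟩ := h.lipschitzWith_of_hasCompactSupport hc (by simp)
  obtain ⟨B, hB⟩ := h.continuous.bounded_above_of_compact_support hc
  refine ⟨K, B, fun q q' => ?_, hB⟩
  have h1 := hK.dist_le_mul q q'
  rw [Real.dist_eq, dist_eq_norm] at h1
  refine h1.trans (mul_le_mul_of_nonneg_left ?_ K.2)
  exact max_le (le_add_of_nonneg_right (norm_nonneg _)) (le_add_of_nonneg_left (norm_nonneg _))

/-- **Pairing with a smooth cut-off of compact support.** -/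
theorem pair_cut {L Z : Submodule ℝ (Cfg N)} (P : TPack C M R G) (σ : Sl C)
    (hL : L = Tup C.kk) (hZ : Z = C.Zt σ.X0) (χ : Amp M G σ) {η : L × Z → ℝ}
    (hη : ContDiff ℝ ∞ η) (hc : HasCompactSupport η) {ρ : ℝ} (hρ : ρ < σ.r)
    (hsupp : ∀ q : L × Z, ρ < ‖(q.1 : Cfg N) + q.2‖ → η q = 0) :
    ∃ χ' : Amp M G σ, ∃ ε : ℝ → ℝ, Tendsto ε atTop (𝓝 0) ∧ ∀ᶠ g in atTop, ∀ φ : Cfg N → F,
      Continuous φ → (∀ h x, φ (b.act h x) = R.ρ h (φ x)) → MemLp φ 2 volume →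
      ‖(∫ x, ⟪Tgen P σ g χ'.fn x, φ x⟫_ℂ) -
        ∫ q : L × Z, ⟪gsn P σ g (σ.X0 + C.cfT q.1) q.2 • om P σ g χ.fn q.1,
          η q • φ (C.cf σ.X0 + ((q.1 : Cfg N) + q.2))⟫_ℂ‖ ≤
        ε g * Real.sqrt (∫ x, ‖φ x‖ ^ 2) := by
  subst hL hZ
  obtain ⟨Lp, B, h1, h2⟩ := lip_of_smooth hη hc
  set emb : Pos p → Tup C.kk := fun X => ⟨C.cf X, cf_mem C X⟩ with hemb
  have hem : ContDiff ℝ ∞ emb :=
    (C.cf.toContinuousLinearMap.codRestrict (Tup C.kk) (cf_mem C)).contDiff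
  have he : ContDiff ℝ ∞ fun X : Pos p => η (emb X, 0) := hη.comp (hem.prodMk contDiff_const)
  exact ⟨ampE σ he χ, pair_all P σ rfl rfl χ he hη.continuous h1 h2 hsupp hρ fun X h => rfl⟩

end Crest.Agent.R330.PairF424

end
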