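import Crest.Agent.R330.LocD_8
import Crest.Agent.R330.PairF_424

/-!
# Row 330, S9 capture, (I4): the amplitudes of a null sequence are weakly null (helper245)

* `G_eq`, `gsl_eq` : 8's Gaussian `gsl` is 424's / 756's `gsn` where `ρ X = X`.
* `exists_theta` : smooth cut-offs between a compact and an open set.
* `slice_amp` : `∫ ⟪gsl • om χ, half κ φ⟫ = ∫ ⟪χ, ampX⟫`.
* `i4In` : 8's `I4In`.
-/

set_option autoImplicit false
set_option linter.unusedSectionVars false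

open MeasureTheory Filter Topology Crest.MathPhysics.MatrixQM
open scoped ContDiff InnerProductSpace ENNReal

noncomputable section

namespace Crest.Agent.R330.I4245

open Crest.Agent.R330.Defs478 Crest.Agent.R330.LS839 Crest.Agent.R330.Frame839
  Crest.Agent.R330.Bind6839 Crest.Agent.R330.IBP837 Crest.Agent.R330.TDef414
  Crest.Agent.R330.PairT245 Crest.Agent.R330.LocB8 Crest.Agent.R330.LocC8 Crest.Agent.R330.LocD8
  Crest.Agent.R330.LemA342 Crest.Agent.R330.FibProj837 Crest.Agent.R330.HBX450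
  Crest.Agent.R330.CapBind737 Crest.Agent.R330.TrialSys796 Crest.Agent.R330.SlQE87

variable {N p : ℕ} {b : ColorBasis N} {S : Type} [Group S] [Fintype S] {C : Chn b p S}
  {F : Type*} [NormedAddCommGroup F] [InnerProductSpace ℂ F] [FiniteDimensional ℂ F]
  {M : FermionRep N F} {R : GaugeAction b M} {G : GammaNine}

/-! ## The Gaussian -/

section gauss

variable {Z : Type*} [NormedAddCommGroup Z] [InnerProductSpace ℝ Z] [FiniteDimensional ℝ Z]
  [MeasurableSpace Z] [BorelSpace Z]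

/-- The normalised Gaussian as a quotient. -/
theorem G_eq {g : ℝ} (hg : 0 < g) {A : Z →L[ℝ] Z} (hA : SqrtPD984.PD A) (z : Z) :
    GPar984.G g A z = Real.exp (-(g / 2 * ⟪A z, z⟫_ℝ)) /
      Real.sqrt (∫ y : Z, Real.exp (-(g * ⟪A y, y⟫_ℝ))) := by
  set c : ℝ := GPar984.G g A 0 with hc
  have hc0 : 0 < c := GPar984.G_pos hg hA 0
  have e1 : ∀ z, GPar984.G g A z = c * Real.exp (-(g / 2 * ⟪A z, z⟫_ℝ)) := by
    intro z
    rw [hc]
    unfold GPar984.G
    rw [map_zero, inner_zero_left, mul_zero, Real.exp_zero, mul_one]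
    congr 2
    ring
  have e2 : ∀ z, GPar984.G g A z ^ 2 = c ^ 2 * Real.exp (-(g * ⟪A z, z⟫_ℝ)) := by
    intro z
    rw [e1, mul_pow, ← Real.exp_nat_mul]
    congr 2
    push_cast
    ring
  have e3 := GPar984.integral_G_sq hg hA
  simp only [e2] at e3
  rw [integral_const_mul] at e3
  have e4 : ∫ y : Z, Real.exp (-(g * ⟪A y, y⟫_ℝ)) = (c⁻¹) ^ 2 := by
    rw [inv_pow]
    exact eq_inv_of_mul_eq_one_right e3
  rw [e1, e4, Real.sqrt_sq (by positivity), div_inv_eq_mul, mul_comm]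

end gauss

theorem reg0 (σ : Sl C) : C.Reg σ.X0 := σ.reg _ (by rw [sub_self, norm_zero]; exact σ.pos)

theorem emb_zE {X0 : Pos p} (h0 : C.Reg X0) : MeasurableEmbedding (zE h0) :=
  (zE h0).toContinuousLinearEquiv.toHomeomorph.measurableEmbedding

/-- The Gaussian on `Zs` is the Gaussian `gsn` of the pairing estimate. -/
theorem gsl_eq (P : TPack C M R G) (σ : Sl C) {ρ : Pos p → Pos p} {g : ℝ} (hg : 0 < g)
    {u : Uk b (C.cf σ.X0)} (hr : ‖ρ (posu σ (u : Cfg N)) - σ.X0‖ < σ.r) (z : Zs b (C.cf σ.X0)) :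
    gsl P σ ρ g (u, z) = PairD424.gsn P σ g (ρ (posu σ (u : Cfg N))) z := by
  unfold gsl PairD424.gsn
  rw [G_eq hg (Az_pd P σ hr), inner_Az]
  have h1 : ∫ y : Zs b (C.cf σ.X0),
      Real.exp (-(g * ⟪Az P σ (ρ (posu σ (u : Cfg N))) y, y⟫_ℝ)) =
      nI P σ g (ρ (posu σ (u : Cfg N))) := by
    unfold nI
    rw [← (mp_zE (reg0 σ)).integral_comp (emb_zE (reg0 σ))]
    refine integral_congr_ae (Eventually.of_forall fun y => ?_)
    simp only
    rw [inner_Az]
    rfl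
  rw [h1]

/-! ## A smooth cut-off -/

theorem exists_theta {E : Type*} [NormedAddCommGroup E] [InnerProductSpace ℝ E]
    [FiniteDimensional ℝ E] {K O : Set E} (hK : IsCompact K) (hO : IsOpen O) (h : K ⊆ O) :
    ∃ θ : E → ℝ, ContDiff ℝ ∞ θ ∧ HasCompactSupport θ ∧ tsupport θ ⊆ O ∧ ∀ x ∈ K, θ x = 1 := by
  obtain ⟨K', hK', h1, h2⟩ := exists_compact_between hK hO h
  obtain ⟨f, h3, h4, -⟩ := exists_contMDiffMap_zero_one_of_isClosed (modelWithCornersSelf ℝ E)
    (n := ⊤) (isOpen_interior (s := K')).isClosed_compl hK.isClosed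
    (Set.disjoint_left.2 fun x hx hxK => hx (h1 hxK))
  have hsup : tsupport (f : E → ℝ) ⊆ K' := by
    refine closure_minimal (fun x hx => ?_) hK'.isClosed
    by_contra hn
    exact hx (h3 fun hi => hn (interior_subset hi))
  exact ⟨f, contMDiff_iff_contDiff.1 f.contMDiff, hK'.of_isClosed_subset (isClosed_tsupport _) hsup,
    hsup.trans h2, fun x hx => h4 hx⟩

/-! ## The slice pairing is the pairing of the amplitudes -/

section amp

variable {P : TPack C M R G} {σ : Sl C} {ρ : Pos p → Pos p} {κ : Sc b (C.cf σ.X0) → ℝ} {g : ℝ}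
  {φ : Cfg N → F} {χ : Pos p → C.Fx M G}

theorem pV_omU (hχ : BSupp χ) (u : Uk b (C.cf σ.X0)) :
    pV P (posu σ (u : Cfg N)) (omU P g σ.X0 χ u) = omU P g σ.X0 χ u := by
  by_cases h : χ (σ.X0 + C.cfT (u : Cfg N)) = 0
  · have h1 : omU P g σ.X0 χ (u : Cfg N) = 0 := by
      unfold omU
      rw [h, ZeroMemClass.coe_zero, map_zero, map_zero]
    rw [h1, map_zero]
  · refine pV_of_mem (U_mem_Vac P (hχ _ (subset_tsupport _ h)) ?_)
    exact P.Psi_mem g _ (PairD424.PY_mem C _) _ (χ (σ.X0 + C.cfT (u : Cfg N))).2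

/-- Fubini for the projection on the Gaussian. -/
theorem slice_fpr (hρ : ContDiff ℝ ∞ ρ) (hr : ∀ X, ‖ρ X - σ.X0‖ < σ.r)
    (hκ : ContDiff ℝ ∞ κ) (hκs : HasCompactSupport κ) (hg : 0 < g) (hΨ : Continuous (P.Psi g))
    (hφ : ContDiff ℝ ∞ φ) (hχ : Continuous χ) (hχs : HasCompactSupport χ) (hχB : BSupp χ) :
    ∫ q : Sc b (C.cf σ.X0), ⟪gsl P σ ρ g q • omU P g σ.X0 χ q.1,
        half b (C.cf σ.X0) κ φ q⟫_ℂ =
      ∫ u : Uk b (C.cf σ.X0), ⟪omU P g σ.X0 χ u, wf P σ ρ κ g φ u⟫_ℂ := by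
  have hgc : Continuous (gsl P σ ρ g) := (contDiff_gsl hρ hr g).continuous
  have hΦc : Continuous (half b (C.cf σ.X0) κ φ) := (contDiff_half hκ hφ).continuous
  have hΦs : HasCompactSupport (half b (C.cf σ.X0) κ φ) := hcs_half hκs
  have h1 : ∀ u : Uk b (C.cf σ.X0), ∫⁻ z, ENNReal.ofReal (gsl P σ ρ g (u, z) ^ 2) ≤ 1 := by
    intro u
    have i1 := (memLp_gsl (P := P) hr hg u).integrable_sq
    have i0 : ∀ z : Zs b (C.cf σ.X0), 0 ≤ gsl P σ ρ g (u, z) ^ 2 := fun z => sq_nonneg _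
    rw [← ofReal_integral_eq_lintegral_ofReal i1 (Eventually.of_forall i0),
      integral_gsl_sq hr hg u, ENNReal.ofReal_one]
  have hfib : ∀ u : Uk b (C.cf σ.X0),
      Integrable fun z => gsl P σ ρ g (u, z) • half b (C.cf σ.X0) κ φ (u, z) := by
    intro u
    have c1 : Continuous fun z : Zs b (C.cf σ.X0) =>
        gsl P σ ρ g (u, z) • half b (C.cf σ.X0) κ φ (u, z) :=
      (hgc.comp (by fun_prop)).smul (hΦc.comp (by fun_prop))
    refine c1.integrable_of_hasCompactSupport ?_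
    refine HasCompactSupport.of_support_subset_isCompact (hΦs.image continuous_snd) fun z hz => ?_
    refine ⟨(u, z), subset_tsupport _ fun h0 => hz ?_, rfl⟩
    simp only [h0, smul_zero]
  exact PairC424.integral_inner_fpr (ν := (volume : Measure (Uk b (C.cf σ.X0))))
    (μ := (volume : Measure (Zs b (C.cf σ.X0)))) (om' := fun u => omU P g σ.X0 χ u)
    hgc.measurable h1 (memLp_omU P hΨ (reg0 σ) hχ hχs hχB 2)
    (hΦc.memLp_of_hasCompactSupport hΦs) hfib
    (fun u v w => pV_symm P _ v w) (Eventually.of_forall fun u => pV_omU hχB u)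

/-- **The slice pairing is the pairing of the amplitudes.** -/
theorem slice_amp (hρ : ContDiff ℝ ∞ ρ) (hr : ∀ X, ‖ρ X - σ.X0‖ < σ.r) (hκ : Cut σ κ)
    (hg : 0 < g) (hΨ : Continuous (P.Psi g)) (hφ : IsCoreVec b R φ) (hχ : Continuous χ)
    (hχs : HasCompactSupport χ) (hχB : BSupp χ) :
    ∫ q : Sc b (C.cf σ.X0), ⟪gsl P σ ρ g q • omU P g σ.X0 χ q.1,
        half b (C.cf σ.X0) κ φ q⟫_ℂ =
      ∫ X, ⟪(χ X : F), ampX P g (LocC8.wB P σ ρ κ g φ) X⟫_ℂ := by
  rw [slice_fpr hρ hr hκ.smooth hκ.supp hg hΨ hφ.1 hχ hχs hχB]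
  have hw2 : MemLp (wf P σ ρ κ g φ) 2 volume :=
    (contDiff_wf hρ hr hκ hφ.1).continuous.memLp_of_hasCompactSupport (hcs_wf hκ.supp)
  have hint : Integrable fun u : Uk b (C.cf σ.X0) => ⟪omU P g σ.X0 χ u, wf P σ ρ κ g φ u⟫_ℂ :=
    PairC424.integrable_inner (memLp_omU P hΨ (reg0 σ) hχ hχs hχB 2) hw2
  rw [integral_uk (reg0 σ)]
  rw [integrable_uk (reg0 σ)] at hint
  simp only [omU_uE] at hint ⊢
  rw [Measure.volume_eq_prod] at hint ⊢
  rw [integral_prod _ hint, ← integral_add_left_eq_self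
    (fun X => ⟪(χ X : F), ampX P g (LocC8.wB P σ ρ κ g φ) X⟫_ℂ) σ.X0]
  refine integral_congr_ae (Eventually.of_forall fun X' => ?_)
  simp only
  rw [inner_ampX (wfam hρ hr hκ hφ) hΨ (χ (σ.X0 + X')).2]
  refine integral_congr_ae (Eventually.of_forall fun Y => ?_)
  simp only
  unfold LocC8.wB omq
  rw [add_sub_cancel_left]

end amp

/-! ## (I4) -/

/-- **(I4)** The amplitudes of a null sequence are weakly null. -/
theorem i4In (P : TPack C M R G) (σ : Sl C) {ρ : Pos p → Pos p} (hρ : ContDiff ℝ ∞ ρ)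
    (hr : ∀ X, ‖ρ X - σ.X0‖ < σ.r) {κ : Sc b (C.cf σ.X0) → ℝ} (hκ : Cut σ κ) {r₁ : ℝ}
    (hr₁ : r₁ < σ.r / 4) (hsupp : ∀ x, κ x ≠ 0 → ‖(x.1 : Cfg N) + x.2‖ ≤ r₁)
    (hρ1 : ∀ X, ‖X - σ.X0‖ ≤ r₁ → ρ X = X) (m : ℝ) : I4In P σ ρ κ m := by
  intro g φ hn χ hχ hχs
  have hrpos := σ.pos
  -- positions over the support of `κ`
  have hpos : ∀ (u : Uk b (C.cf σ.X0)) (z : Zs b (C.cf σ.X0)), κ (u, z) ≠ 0 →
      ‖posu σ (u : Cfg N) - σ.X0‖ ≤ r₁ := by
    intro u z h
    have h1 := hsupp _ h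
    have h2 : posu σ (u : Cfg N) - σ.X0 = C.cfT ((u : Cfg N) + z) := by
      unfold posu
      rw [PairD424.cfT_add C ((Zs_eq (reg0 σ)).le z.2).1, add_sub_cancel_left]
    rw [h2]
    exact (cfT_norm_le _).trans h1
  have hks : ks κ ⊆ Metric.closedBall σ.X0 r₁ := by
    rintro _ ⟨_, ⟨x, hx, rfl⟩, rfl⟩
    have h1 : tsupport κ ⊆ (fun x : Sc b (C.cf σ.X0) => posu σ (x.1 : Cfg N)) ⁻¹'
        Metric.closedBall σ.X0 r₁ := by
      refine closure_minimal (fun x hx => ?_) (Metric.isClosed_closedBall.preimage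
        ((contDiff_posu σ).continuous.comp continuous_fst))
      exact mem_closedBall_iff_norm.2 (hpos x.1 x.2 hx)
    exact h1 hx
  -- cut the test function off
  obtain ⟨θ, hθ, hθs, hθO, hθ1⟩ := exists_theta (isCompact_ks hκ.supp)
    (O := {X | C.BReg X} ∩ Metric.ball σ.X0 (σ.r / 4)) (C.isOpen_breg.inter Metric.isOpen_ball)
    fun X hX => ⟨ks_breg hκ hX, Metric.closedBall_subset_ball hr₁ (hks hX)⟩
  have hsub : tsupport (fun X => ((θ X : ℝ) : ℂ) • χ X) ⊆ tsupport θ := by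
    refine closure_minimal (fun X hX => subset_tsupport _ fun h0 => hX ?_) (isClosed_tsupport _)
    simp only [h0, Complex.ofReal_zero, zero_smul]
  let χθ : Amp M G σ :=
    { fn := fun X => ((θ X : ℝ) : ℂ) • χ X
      smooth := (Complex.ofRealCLM.contDiff.comp hθ).smul hχ
      supp := fun X hX => (hθO (hsub hX)).2
      off := fun X hX => (hθO (hsub hX)).1 }
  obtain ⟨χ', ε, hε, hest⟩ := PairF424.pair_cut P σ (L := Uk b (C.cf σ.X0))
    (Z := Zs b (C.cf σ.X0)) (Uk_eq (reg0 σ)) (Zs_eq (reg0 σ)) χθ hκ.smooth hκ.supp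
    (ρ := r₁) (by linarith) fun q hq => by
      by_contra h
      exact absurd (hsupp q h) (not_le.2 hq)
  obtain ⟨C0, hC0⟩ := hn.en
  have hφ2 : ∀ j, ∫ x, ‖φ j x‖ ^ 2 ≤ C0 := fun j => by
    have h1 := hC0 j
    have h2 : 0 ≤ qf b M G (g j) m (φ j) := by
      unfold qf
      positivity
    unfold En at h1
    linarith
  have hA := hn.pair ⟨σ, χ'⟩
  have hlim : Tendsto (fun j => ε (g j) * Real.sqrt C0) atTop (𝓝 0) := by
    simpa using (hε.comp hn.g_top).mul_const (Real.sqrt C0)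
  have hεp : ∀ᶠ j in atTop, ‖(∫ X, ⟪(χ X : F),
      ampX P (g j) (LocC8.wB P σ ρ κ (g j) (φ j)) X⟫_ℂ) -
      ∫ x, ⟪Tgen P σ (g j) χ'.fn x, φ j x⟫_ℂ‖ ≤ |ε (g j)| * Real.sqrt C0 := by
    filter_upwards [hn.g_top.eventually hest, hn.g_top.eventually P.Psi_smooth,
      hn.g_top.eventually_gt_atTop 0] with j h1 h2 h3
    have hcore := hn.core j
    have h4 := h1 (φ j) hcore.1.continuous hcore.2.2
      (hcore.1.continuous.memLp_of_hasCompactSupport hcore.2.1)
    have h5 := slice_amp (P := P) hρ hr hκ h3 h2.continuous hcore χθ.smooth.continuous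
      χθ.compact χθ.off
    have h6 : ∫ X, ⟪(χ X : F), ampX P (g j) (LocC8.wB P σ ρ κ (g j) (φ j)) X⟫_ℂ =
        ∫ X, ⟪(χθ.fn X : F), ampX P (g j) (LocC8.wB P σ ρ κ (g j) (φ j)) X⟫_ℂ := by
      refine integral_congr_ae (Eventually.of_forall fun X => ?_)
      simp only
      by_cases hX : X ∈ ks κ
      · have h7 : χθ.fn X = χ X := by
          show ((θ X : ℝ) : ℂ) • χ X = χ X
          rw [hθ1 X hX, Complex.ofReal_one, one_smul]
        rw [h7]
      · rw [ampX_off (wfam hρ hr hκ hcore) h2.continuous hX, inner_zero_right, inner_zero_right]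
    have h8 : ∫ q : Sc b (C.cf σ.X0), ⟪gsl P σ ρ (g j) q • omU P (g j) σ.X0 χθ.fn q.1,
        half b (C.cf σ.X0) κ (φ j) q⟫_ℂ =
        ∫ q : Uk b (C.cf σ.X0) × Zs b (C.cf σ.X0),
          ⟪PairD424.gsn P σ (g j) (σ.X0 + C.cfT q.1) q.2 • PairD424.om P σ (g j) χθ.fn q.1,
          κ q • φ j (C.cf σ.X0 + ((q.1 : Cfg N) + q.2))⟫_ℂ := by
      refine integral_congr_ae (Eventually.of_forall fun q => ?_)
      simp only
      by_cases hq : κ q = 0
      · rw [half_eq_zero hq, hq, zero_smul, inner_zero_right, inner_zero_right]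
      · have h9 : ‖posu σ (q.1 : Cfg N) - σ.X0‖ ≤ r₁ := hpos q.1 q.2 hq
        have h10 : gsl P σ ρ (g j) q = PairD424.gsn P σ (g j) (σ.X0 + C.cfT q.1) q.2 := by
          have h11 := gsl_eq P σ (ρ := ρ) h3 (u := q.1) (hr _) q.2
          rw [hρ1 _ h9] at h11
          exact h11
        rw [h10]
        unfold half
        rw [add_assoc]
        rfl
    rw [h6, ← h5, h8, norm_sub_rev]
    refine h4.trans ?_
    exact mul_le_mul (le_abs_self _) (Real.sqrt_le_sqrt (hφ2 j)) (Real.sqrt_nonneg _)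
      (abs_nonneg _)
  have hlim2 : Tendsto (fun j => |ε (g j)| * Real.sqrt C0) atTop (𝓝 0) := by
    have := (hε.comp hn.g_top).abs.mul_const (Real.sqrt C0)
    simpa using this
  have hd := squeeze_zero_norm' hεp hlim2
  have := hd.add hA
  simpa using this

end Crest.Agent.R330.I4245

end
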