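import Crest.Agent.R330.LocD_8
import Crest.Agent.R330.LemR2_302

/-!
# Row 330, S9-LOC (helper879): the mass inputs of the local capture estimate

* `mass_wf` : the fibre projection does not increase the mass.
* `mass_wB_eq` : the mass in block coordinates.
* `mass_sl` : the mass of a cut-off slice function is bounded by the mass of the core vector.
* `massIn`, `massIn2` : the literal inputs of `LocD8.hb_soft`.
-/

set_option autoImplicit false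
set_option linter.unusedSectionVars false

open MeasureTheory Filter Topology Crest.MathPhysics.MatrixQM
open scoped ContDiff InnerProductSpace ENNReal

noncomputable section

namespace Crest.Agent.R330.MassIn879

open Crest.Agent.R330.Defs478 Crest.Agent.R330.LS839 Crest.Agent.R330.Frame839
  Crest.Agent.R330.Clus839
  Crest.Agent.R330.Bind6839 Crest.Agent.R330.SlG944 Crest.Agent.R330.SlF944
  Crest.Agent.R330.IBP837 Crest.Agent.R330.TDef414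
  Crest.Agent.R330.LemA342 Crest.Agent.R330.FibProj837 Crest.Agent.R330.LocB8
  Crest.Agent.R330.LocC8 Crest.Agent.R330.LocD8
  Crest.Agent.R330.SlQE87 Crest.Agent.R330.TrialSys796
open Crest.Agent.R330.SlB314 (Nor Tan br)
open Crest.Agent.R330.SlM712 (SRad exists_SRad)

section sl

variable {N : ℕ} {b : ColorBasis N} {c : Cfg N}
  {F : Type*} [NormedAddCommGroup F] [InnerProductSpace ℂ F] [FiniteDimensional ℂ F]
  {M : FermionRep N F} {R : GaugeAction b M}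

/-- the mass of a cut-off slice function -/
theorem mass_sl {r0 C0 : ℝ} (H : SRad b c r0 C0) {s : ℝ} (hs0 : 0 ≤ s) (hs : s ≤ r0)
    {η : Sc b c → ℝ} (hη : Continuous η) (hηc : HasCompactSupport η)
    (hηs : ∀ x, s ^ 2 ≤ ‖x.1‖ ^ 2 + ‖x.2‖ ^ 2 → η x = 0) :
    ∃ D : ℝ, 0 ≤ D ∧ ∀ φ : Cfg N → F, IsCoreVec b R φ →
      (∫ u, ∫ z, ‖half b c η φ (u, z)‖ ^ 2) ≤ D * ∫ x, ‖φ x‖ ^ 2 := by
  obtain ⟨E, hE⟩ := hηc.exists_bound_of_continuous hη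
  obtain ⟨C₀, hC₀, hSl⟩ := LemR2302.sliceLe_Tb (volume : Measure (Uk b c))
    (volume : Measure (Zs b c)) H hs0 hs
  refine ⟨E ^ 2 * C₀, by positivity, fun φ hφ => ?_⟩
  have h2 := LemR2302.slice_sq hC₀ hSl hφ
  have hcont : Continuous (half b c η φ) := (contDiff_half (n := 0) (contDiff_zero.2 hη)
    (contDiff_zero.2 hφ.1.continuous)).continuous
  have hcs : HasCompactSupport (half b c η φ) := hcs_half hηc
  have hi : Integrable (fun q => ‖half b c η φ q‖ ^ 2)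
      ((volume : Measure (Uk b c)).prod (volume : Measure (Zs b c))) :=
    Amp837.integrable_normSq hcont hcs
  have h4 : ∫ x, ‖half b c η φ x‖ ^ 2 ∂((volume : Measure (Uk b c)).prod
      (volume : Measure (Zs b c))) ≤ E ^ 2 * (C₀ * (∫ x, ‖φ x‖ ^ 2) + 0 + 0) := by
    refine LemR2302.R2_one (LemR2302.measurableSet_Tb s) (sq_nonneg E) (P := fun _ => 0)
      (S := fun _ => 0) (fun x hx => ?_) (fun x hx => ?_) h2 ⟨integrable_zero _ _ _, by simp⟩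
      ⟨integrable_zero _ _ _, by simp⟩
    · unfold half
      rw [norm_smul, mul_pow, add_zero, add_zero]
      exact mul_le_mul_of_nonneg_right (pow_le_pow_left₀ (norm_nonneg _) (hE x) 2)
        (sq_nonneg _)
    · unfold half
      rw [hηs x (not_lt.1 hx), zero_smul]
  rw [integral_prod _ hi] at h4
  refine h4.trans (le_of_eq ?_)
  ring

end sl

variable {N p : ℕ} {b : ColorBasis N} {S : Type} [Group S] [Fintype S] {C : Chn b p S}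
  {F : Type*} [NormedAddCommGroup F] [InnerProductSpace ℂ F] [FiniteDimensional ℂ F]
  {M : FermionRep N F} {R : GaugeAction b M} {G : GammaNine}

section wf

variable {P : TPack C M R G} {σ : Sl C} {ρ : Pos p → Pos p} {κ0 κ : Sc b (C.cf σ.X0) → ℝ}
  {ϑ : Pos p → ℝ} {g : ℝ} {φ : Cfg N → F}

/-- the fibre projection does not increase the mass -/
theorem mass_wf (hρ : ContDiff ℝ ∞ ρ) (hr : ∀ X, ‖ρ X - σ.X0‖ < σ.r) (hκ : ContDiff ℝ ∞ κ)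
    (hs : HasCompactSupport κ) (hφ : ContDiff ℝ ∞ φ) (hg : 0 < g) :
    ∫ u, ‖wf P σ ρ κ g φ u‖ ^ 2 ≤ ∫ u, ∫ z, ‖half b (C.cf σ.X0) κ φ (u, z)‖ ^ 2 := by
  have hc : Continuous (half b (C.cf σ.X0) κ φ) := (contDiff_half hκ hφ).continuous
  have h1 := integral_fpr_sq_le (ν := (volume : Measure (Uk b (C.cf σ.X0))))
    (μ := (volume : Measure (Zs b (C.cf σ.X0)))) (gs := gsl P σ ρ g)
    (p := fun u => pV P (posu σ (u : Cfg N))) (contDiff_gsl hρ hr g).continuous hc (hcs_half hs)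
    zero_le_one (fun u _ => ⟨memLp_gsl hr hg u, (integral_gsl_sq hr hg u).le⟩)
    (fun u v => norm_pV_le P _ v)
  rw [one_mul, integral_prod _ (Amp837.integrable_normSq hc (hcs_half hs))] at h1
  exact h1

/-- the mass in block coordinates -/
theorem mass_wB_eq (hρ : ContDiff ℝ ∞ ρ) (hr : ∀ X, ‖ρ X - σ.X0‖ < σ.r) (hκ : Cut σ κ)
    (hφ : ContDiff ℝ ∞ φ) :
    (∫ X, ∫ Y : C.Blk, ‖LocC8.wB P σ ρ κ g φ X Y‖ ^ 2) = ∫ u, ‖wf P σ ρ κ g φ u‖ ^ 2 := by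
  have hc : Continuous fun u => ‖wf P σ ρ κ g φ u‖ ^ 2 :=
    (contDiff_wf hρ hr hκ hφ).continuous.norm.pow 2
  have hs : HasCompactSupport fun u => ‖wf P σ ρ κ g φ u‖ ^ 2 :=
    (hcs_wf (P := P) (ρ := ρ) (g := g) (φ := φ) hκ.supp).norm.comp_left (g := fun t : ℝ => t ^ 2)
      (by norm_num)
  have hi : Integrable fun u => ‖wf P σ ρ κ g φ u‖ ^ 2 := hc.integrable_of_hasCompactSupport hs
  rw [PairT245.integral_uk (BrT5658.reg0 σ)]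
  have hi2 := (PairT245.integrable_uk (BrT5658.reg0 σ) _).1 hi
  rw [Measure.volume_eq_prod, integral_prod _ hi2]
  rw [← integral_add_right_eq_self (fun X => ∫ Y : C.Blk, ‖LocC8.wB P σ ρ κ g φ X Y‖ ^ 2) σ.X0]
  refine integral_congr_ae (Eventually.of_forall fun X' => ?_)
  simp only
  refine integral_congr_ae (Eventually.of_forall fun Y => ?_)
  simp only
  unfold LocC8.wB
  rw [add_sub_cancel_right]

theorem le_En (g m : ℝ) (φ : Cfg N → F) : ∫ x, ‖φ x‖ ^ 2 ≤ En b M G g m φ := by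
  unfold En
  have : 0 ≤ qf b M G g m φ := by
    unfold qf
    positivity
  linarith

end wf

section main

variable {P : TPack C M R G} {σ : Sl C} {ρ : Pos p → Pos p} {κ0 κ : Sc b (C.cf σ.X0) → ℝ}
  {ϑ : Pos p → ℝ}

/-- the mass of the cut-off slice function -/
theorem massIn2 {r0 C0 : ℝ} (H : SRad b (C.cf σ.X0) r0 C0) {s : ℝ} (hs0 : 0 ≤ s) (hs : s ≤ r0)
    (hη : Continuous κ0) (hηc : HasCompactSupport κ0)
    (hηs : ∀ x : Sc b (C.cf σ.X0), s ^ 2 ≤ ‖x.1‖ ^ 2 + ‖x.2‖ ^ 2 → κ0 x = 0) (m : ℝ) :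
    ∃ D : ℝ, 0 ≤ D ∧ ∀ g : ℝ, ∀ φ : Cfg N → F, IsCoreVec b R φ →
      (∫ u, ∫ z, ‖half b (C.cf σ.X0) κ0 φ (u, z)‖ ^ 2) ≤ D * En b M G g m φ := by
  obtain ⟨D, hD, h⟩ := mass_sl (R := R) H hs0 hs hη hηc hηs
  exact ⟨D, hD, fun g φ hφ => (h φ hφ).trans (mul_le_mul_of_nonneg_left (le_En g m φ) hD)⟩

/-- the mass of the fibre projection -/
theorem massIn {r0 C0 : ℝ} (H : SRad b (C.cf σ.X0) r0 C0) {s : ℝ} (hs0 : 0 ≤ s) (hs : s ≤ r0)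
    (hρ : ContDiff ℝ ∞ ρ) (hr : ∀ X, ‖ρ X - σ.X0‖ < σ.r) (hκ : Cut σ κ)
    (hηs : ∀ x : Sc b (C.cf σ.X0), s ^ 2 ≤ ‖x.1‖ ^ 2 + ‖x.2‖ ^ 2 → κ x = 0) (m : ℝ) :
    ∃ D : ℝ, 0 ≤ D ∧ ∀ g : ℝ, 0 < g → ∀ φ : Cfg N → F, IsCoreVec b R φ →
      (∫ X, ∫ Y : C.Blk, ‖LocC8.wB P σ ρ κ g φ X Y‖ ^ 2) ≤ D * En b M G g m φ := by
  obtain ⟨D, hD, h⟩ := massIn2 (R := R) (M := M) (G := G) H hs0 hs hκ.smooth.continuous hκ.supp
    hηs m
  refine ⟨D, hD, fun g hg φ hφ => ?_⟩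
  rw [mass_wB_eq hρ hr hκ hφ.1]
  exact (mass_wf hρ hr hκ.smooth hκ.supp hφ.1 hg).trans (h g φ hφ)

/-- eventual form, as consumed by `LocD8.hb_soft` -/
theorem massIn_ev {r0 C0 : ℝ} (H : SRad b (C.cf σ.X0) r0 C0) {s : ℝ} (hs0 : 0 ≤ s)
    (hs : s ≤ r0) (hρ : ContDiff ℝ ∞ ρ) (hr : ∀ X, ‖ρ X - σ.X0‖ < σ.r) (hκ : Cut σ κ)
    (hηs : ∀ x : Sc b (C.cf σ.X0), s ^ 2 ≤ ‖x.1‖ ^ 2 + ‖x.2‖ ^ 2 → κ x = 0) (m : ℝ) :
    ∃ D : ℝ, 0 ≤ D ∧ ∀ᶠ g in atTop, ∀ φ : Cfg N → F, IsCoreVec b R φ →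
      (∫ X, ∫ Y : C.Blk, ‖LocC8.wB P σ ρ κ g φ X Y‖ ^ 2) ≤ D * En b M G g m φ := by
  obtain ⟨D, hD, h⟩ := massIn (P := P) H hs0 hs hρ hr hκ hηs m
  exact ⟨D, hD, (eventually_gt_atTop 0).mono h⟩

/-- **everything with one radius**: for `κ0` supported in the small ball of the slice, the mass of
`half κ0 φ` and the mass of the fibre projection of `half κ φ` for every regular cut-off `κ`
supported in the same ball. -/
theorem exists_mass (C : Chn b p S) (M : FermionRep N F) (R : GaugeAction b M) (G : GammaNine)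
    (X0 : Pos p) : ∃ s : ℝ, 0 < s ∧ ∀ (s' : ℝ), 0 < s' → s' ≤ s →
    ∀ σ : Sl C, σ.X0 = X0 → ∀ m : ℝ,
    (∀ κ0 : Sc b (C.cf σ.X0) → ℝ, Continuous κ0 → HasCompactSupport κ0 →
      (∀ x : Sc b (C.cf σ.X0), s' ^ 2 ≤ ‖x.1‖ ^ 2 + ‖x.2‖ ^ 2 → κ0 x = 0) →
      ∃ D : ℝ, 0 ≤ D ∧ ∀ g : ℝ, ∀ φ : Cfg N → F, IsCoreVec b R φ →
        (∫ u, ∫ z, ‖half b (C.cf σ.X0) κ0 φ (u, z)‖ ^ 2) ≤ D * En b M G g m φ) ∧
    (∀ (P : TPack C M R G) (ρ : Pos p → Pos p) (κ : Sc b (C.cf σ.X0) → ℝ),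
      ContDiff ℝ ∞ ρ → (∀ X, ‖ρ X - σ.X0‖ < σ.r) → Cut σ κ →
      (∀ x : Sc b (C.cf σ.X0), s' ^ 2 ≤ ‖x.1‖ ^ 2 + ‖x.2‖ ^ 2 → κ x = 0) →
      ∃ D : ℝ, 0 ≤ D ∧ ∀ᶠ g in atTop, ∀ φ : Cfg N → F, IsCoreVec b R φ →
        (∫ X, ∫ Y : C.Blk, ‖LocC8.wB P σ ρ κ g φ X Y‖ ^ 2) ≤ D * En b M G g m φ) := by
  obtain ⟨r0, C0, H⟩ := exists_SRad (b := b) (C.cf X0)
  refine ⟨r0, H.pos, fun s' hs0 hs σ hσ m => ?_⟩
  subst hσ
  exact ⟨fun κ0 h1 h2 h3 => massIn2 H hs0.le hs h1 h2 h3 m,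
    fun P ρ κ h1 h2 h3 h4 => massIn_ev H hs0.le hs h1 h2 h3 h4 m⟩

/-- the cut-off `cutm` vanishes where `κ0` does -/
theorem cutm_zero {s : ℝ} (h : ∀ x : Sc b (C.cf σ.X0), s ^ 2 ≤ ‖x.1‖ ^ 2 + ‖x.2‖ ^ 2 → κ0 x = 0)
    (x : Sc b (C.cf σ.X0)) (hx : s ^ 2 ≤ ‖x.1‖ ^ 2 + ‖x.2‖ ^ 2) : cutm σ ϑ κ0 x = 0 := by
  unfold cutm
  rw [h x hx, mul_zero]

end main

end Crest.Agent.R330.MassIn879

end
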