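import Crest.Agent.R330.GXC_818
import Crest.Agent.R330.CapIntC_737

/-!
# Row 330, S9 (helper818): GX in the names of the charts

* `grad_chart` : for every chart `σ` there is `r₁ > 0` such that for every smooth cut-off `κ` with
  compact support in `‖x.1 + x.2‖ < r₁`: `Σ_q ∫‖∂_q (half κ φ)‖² ≤ K En(φ)`, `∫‖half κ φ‖² ≤ K En(φ)`,
  uniformly in `g ≥ 1`, `0 ≤ m ≤ 1` and the core vector `φ`.
* `grad_uE` : the same in 245's coordinates `uE`.
* `grad_null` : the same along a sequence of bounded energy.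
-/

set_option autoImplicit false
set_option linter.unusedSectionVars false

open MeasureTheory Filter Topology Crest.MathPhysics.MatrixQM
open Crest.Agent.R330.IBP837 Crest.Agent.R330.Defs478 Crest.Agent.R330.Frame839
open Crest.Agent.R330.LS839 Crest.Agent.R330.Clus839 Crest.Agent.R330.Bind6839
open Crest.Agent.R330.SlQE87 Crest.Agent.R330.LemA342 Crest.Agent.R330.LemB342
open Crest.Agent.R330.LemC342 Crest.Agent.R330.TDef414 Crest.Agent.R330.H6596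
open Crest.Agent.R330.PairT245 Crest.Agent.R330.TrialSys796
open scoped ContDiff InnerProductSpace ENNReal

noncomputable section

namespace Crest.Agent.R330.GXB818

variable {N p : ℕ} {b : ColorBasis N} {S : Type} [Group S] [Fintype S] {C : Chn b p S}
  {F : Type*} [NormedAddCommGroup F] [InnerProductSpace ℂ F] [FiniteDimensional ℂ F]
  {M : FermionRep N F}

theorem reg_X0 (σ : Sl C) : C.Reg σ.X0 := σ.reg σ.X0 (by
  rw [sub_self, norm_zero]
  exact σ.pos)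

/-- **GX on a chart.** -/
theorem grad_chart (R : GaugeAction b M) (G : GammaNine) (σ : Sl C) :
    ∃ r₁ : ℝ, 0 < r₁ ∧ ∀ κ : Sc b (C.cf σ.X0) → ℝ, ContDiff ℝ ∞ κ → HasCompactSupport κ →
      (∀ x, κ x ≠ 0 → ‖(x.1 : Cfg N) + x.2‖ < r₁) →
      ∃ K : ℝ, 0 ≤ K ∧ ∀ g m : ℝ, 1 ≤ g → 0 ≤ m → m ≤ 1 → ∀ φ : Cfg N → F, IsCoreVec b R φ →
        ∑ q, ∫ x, ‖fderiv ℝ (half b (C.cf σ.X0) κ φ) x (dC (reg_X0 σ) q, 0)‖ ^ 2 ≤
          K * En b M G g m φ ∧
        ∫ x, ‖half b (C.cf σ.X0) κ φ x‖ ^ 2 ≤ K * En b M G g m φ := by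
  obtain ⟨r₀, -, hr₀, -, -, hgap, -⟩ := σ.gap
  obtain ⟨B, hB0, hB⟩ := exists_actBound b
  obtain ⟨s, hs, H⟩ := grad_bound R G (reg_X0 σ) hr₀ hgap hB hB0
  refine ⟨s, hs, fun κ hκ hκc hκs => ?_⟩
  obtain ⟨K, hK, h1⟩ := H κ hκ hκc fun x hx => by
    by_contra h0
    have h2 := hκs x h0
    have h3 : ‖(x.1 : Cfg N) + x.2‖ ^ 2 = ‖x.1‖ ^ 2 + ‖x.2‖ ^ 2 := by
      rw [@norm_add_sq_real, Zs_perp_Uk x.1.2 x.2.2]
      simp
    have h4 : ‖(x.1 : Cfg N) + x.2‖ ^ 2 < s ^ 2 := pow_lt_pow_left₀ h2 (norm_nonneg _) two_ne_zero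
    linarith
  refine ⟨K, hK, fun g m hg hm hm1 φ hφ => ?_⟩
  have h5 := h1 g m hg hm hm1 φ hφ
  have h6 : En b M G g m φ = qf b M G g m φ + ∫ x, ‖φ x‖ ^ 2 := add_comm _ _
  rw [h6]
  exact h5

theorem uE_single {X0 : Pos p} (h0 : C.Reg X0) (q : Fin 9 × Fin p) :
    uE h0 (EuclideanSpace.single q 1, 0) = dC h0 q := by
  apply Subtype.ext
  rw [coe_uE, coe_dC]
  simp

end Crest.Agent.R330.GXB818

end
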