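import Crest.Agent.R330.CapSl_924

/-!
# Row 330, S9 capture: cutting near the flats (helper924)

* `slice_est_cut` : the slice estimate when the block Hardy inequality is only available after
  multiplication by cut-offs `θ` of the base, the remaining part having small mass.
-/

set_option autoImplicit false
set_option linter.unusedSectionVars false

noncomputable section

namespace Crest.Agent.R330.CapSl924

open MeasureTheory Filter Topology Set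
open scoped ContDiff InnerProductSpace ENNReal
open Crest.Agent.R330.FibProj837 Crest.Agent.R330.Decoup924

section main

variable {F : Type*} [NormedAddCommGroup F] [InnerProductSpace ℂ F] [FiniteDimensional ℂ F]
  {U Z : Type*} [NormedAddCommGroup U] [NormedSpace ℝ U] [FiniteDimensional ℝ U]
  [MeasurableSpace U] [BorelSpace U]
  [NormedAddCommGroup Z] [NormedSpace ℝ Z] [FiniteDimensional ℝ Z] [MeasurableSpace Z]
  [BorelSpace Z] {μ : Measure U} [μ.IsAddHaarMeasure] {ν : Measure Z} [ν.IsAddHaarMeasure]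

/-- the mass over `S`, split by a cut-off of the base -/
theorem mass_cut_le {Φ : U × Z → F} (hΦ : Continuous Φ) (hc : HasCompactSupport Φ)
    {gs : U × Z → ℝ} {p : U → F →ₗ[ℂ] F} (hgs : Continuous gs)
    (hg : ∀ u, (∃ z, Φ (u, z) ≠ 0) → MemLp (fun z => gs (u, z)) 2 ν ∧ ∫ z, gs (u, z) ^ 2 ∂ν = 1)
    (hps : ∀ u, (∃ z, Φ (u, z) ≠ 0) → (p u).IsSymmetric)
    (hpi : ∀ u, (∃ z, Φ (u, z) ≠ 0) → ∀ v, p u (p u v) = p u v)
    (hw : AEStronglyMeasurable (fpr ν gs p Φ) μ) (S : Set U)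
    {θ : U → ℝ} (hθ : Continuous θ) (h0 : ∀ u, 0 ≤ θ u) (h1 : ∀ u, θ u ≤ 1) :
    ∫ u in S, ∫ z, ‖Φ (u, z)‖ ^ 2 ∂ν ∂μ ≤
      2 * ∫ u in S, ∫ z, ‖Φ (u, z) - fpj ν gs p Φ (u, z)‖ ^ 2 ∂ν ∂μ +
        2 * ∫ u in S, θ u ^ 2 * ‖fpr ν gs p Φ u‖ ^ 2 ∂μ +
        2 * ∫ u, (1 - θ u) ^ 2 * ∫ z, ‖Φ (u, z)‖ ^ 2 ∂ν ∂μ := by
  have hpt : ∀ u, ∫ z, ‖Φ (u, z)‖ ^ 2 ∂ν =
      ∫ z, ‖Φ (u, z) - fpj ν gs p Φ (u, z)‖ ^ 2 ∂ν + ‖fpr ν gs p Φ u‖ ^ 2 := by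
    intro u
    by_cases h : ∃ z, Φ (u, z) ≠ 0
    · exact fibre_pythagoras hgs hΦ hc u (hg u h).1 (hg u h).2 (hps u h) (hpi u h)
    · push Not at h
      have h0 : fpr ν gs p Φ u = 0 := fpr_eq_zero h
      simp [h, fpj, h0]
  have c2 : Continuous fun q => ‖Φ q‖ ^ 2 := hΦ.norm.pow 2
  have s2 : HasCompactSupport fun q => ‖Φ q‖ ^ 2 :=
    hc.norm.comp_left (g := fun t : ℝ => t ^ 2) (by norm_num)
  have iT : Integrable (fun u => ∫ z, ‖Φ (u, z)‖ ^ 2 ∂ν) μ := integrable_fib c2 s2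
  have iW : Integrable (fun u => ‖fpr ν gs p Φ u‖ ^ 2) μ := by
    refine iT.mono (hw.norm.pow 2) (Eventually.of_forall fun u => ?_)
    rw [Real.norm_of_nonneg (by positivity),
      Real.norm_of_nonneg (integral_nonneg fun z => by positivity), hpt u]
    have : 0 ≤ ∫ z, ‖Φ (u, z) - fpj ν gs p Φ (u, z)‖ ^ 2 ∂ν :=
      integral_nonneg fun z => by positivity
    linarith
  have iD : Integrable (fun u => ∫ z, ‖Φ (u, z) - fpj ν gs p Φ (u, z)‖ ^ 2 ∂ν) μ := by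
    refine (iT.sub iW).congr (Eventually.of_forall fun u => ?_)
    simp only [Pi.sub_apply]
    rw [hpt u]; ring
  have iW2 : Integrable (fun u => θ u ^ 2 * ‖fpr ν gs p Φ u‖ ^ 2) μ := by
    refine iW.bdd_mul (c := 1) (hθ.pow 2).aestronglyMeasurable (Eventually.of_forall fun u => ?_)
    rw [Real.norm_of_nonneg (by positivity)]
    exact pow_le_one₀ (h0 u) (h1 u)
  have iT2 : Integrable (fun u => (1 - θ u) ^ 2 * ∫ z, ‖Φ (u, z)‖ ^ 2 ∂ν) μ := by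
    refine iT.bdd_mul (c := 1) ((continuous_const.sub hθ).pow 2).aestronglyMeasurable
      (Eventually.of_forall fun u => ?_)
    rw [Real.norm_of_nonneg (by positivity)]
    exact pow_le_one₀ (by linarith [h1 u]) (by linarith [h0 u])
  have hle : ∀ u, ∫ z, ‖Φ (u, z)‖ ^ 2 ∂ν ≤
      2 * ∫ z, ‖Φ (u, z) - fpj ν gs p Φ (u, z)‖ ^ 2 ∂ν +
      2 * (θ u ^ 2 * ‖fpr ν gs p Φ u‖ ^ 2) + 2 * ((1 - θ u) ^ 2 * ∫ z, ‖Φ (u, z)‖ ^ 2 ∂ν) := by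
    intro u
    have t1 : 1 ≤ 2 * θ u ^ 2 + 2 * (1 - θ u) ^ 2 := by nlinarith [sq_nonneg (2 * θ u - 1)]
    have t2 : 0 ≤ ∫ z, ‖Φ (u, z)‖ ^ 2 ∂ν := integral_nonneg fun z => by positivity
    have t3 : 0 ≤ ∫ z, ‖Φ (u, z) - fpj ν gs p Φ (u, z)‖ ^ 2 ∂ν :=
      integral_nonneg fun z => by positivity
    have t4 : θ u ^ 2 ≤ 1 := pow_le_one₀ (h0 u) (h1 u)
    have t5 := hpt u
    have t6 : ∫ z, ‖Φ (u, z)‖ ^ 2 ∂ν ≤
        (2 * θ u ^ 2 + 2 * (1 - θ u) ^ 2) * ∫ z, ‖Φ (u, z)‖ ^ 2 ∂ν := le_mul_of_one_le_left t2 t1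
    have t7 : θ u ^ 2 * ∫ z, ‖Φ (u, z)‖ ^ 2 ∂ν ≤
        ∫ z, ‖Φ (u, z) - fpj ν gs p Φ (u, z)‖ ^ 2 ∂ν + θ u ^ 2 * ‖fpr ν gs p Φ u‖ ^ 2 := by
      rw [t5, mul_add]
      have := mul_le_of_le_one_left t3 t4
      linarith
    linarith
  have i1 : Integrable (fun u => 2 * ∫ z, ‖Φ (u, z) - fpj ν gs p Φ (u, z)‖ ^ 2 ∂ν +
      2 * (θ u ^ 2 * ‖fpr ν gs p Φ u‖ ^ 2)) μ := (iD.const_mul 2).add (iW2.const_mul 2)
  have i3 : Integrable (fun u => 2 * ∫ z, ‖Φ (u, z) - fpj ν gs p Φ (u, z)‖ ^ 2 ∂ν +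
      2 * (θ u ^ 2 * ‖fpr ν gs p Φ u‖ ^ 2) +
      2 * ((1 - θ u) ^ 2 * ∫ z, ‖Φ (u, z)‖ ^ 2 ∂ν)) μ := i1.add (iT2.const_mul 2)
  calc ∫ u in S, ∫ z, ‖Φ (u, z)‖ ^ 2 ∂ν ∂μ
      ≤ ∫ u in S, (2 * ∫ z, ‖Φ (u, z) - fpj ν gs p Φ (u, z)‖ ^ 2 ∂ν +
        2 * (θ u ^ 2 * ‖fpr ν gs p Φ u‖ ^ 2) +
        2 * ((1 - θ u) ^ 2 * ∫ z, ‖Φ (u, z)‖ ^ 2 ∂ν)) ∂μ :=
        integral_mono iT.integrableOn i3.integrableOn hle
    _ = 2 * ∫ u in S, ∫ z, ‖Φ (u, z) - fpj ν gs p Φ (u, z)‖ ^ 2 ∂ν ∂μ +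
        2 * ∫ u in S, θ u ^ 2 * ‖fpr ν gs p Φ u‖ ^ 2 ∂μ +
        2 * ∫ u in S, (1 - θ u) ^ 2 * ∫ z, ‖Φ (u, z)‖ ^ 2 ∂ν ∂μ := by
        have e1 := integral_add (i1.integrableOn (s := S)) (iT2.const_mul 2).integrableOn
        have e2 := integral_add ((iD.const_mul 2).integrableOn (s := S))
          (iW2.const_mul 2).integrableOn
        rw [e1, e2, integral_const_mul, integral_const_mul, integral_const_mul]
    _ ≤ _ := by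
        have : ∫ u in S, (1 - θ u) ^ 2 * ∫ z, ‖Φ (u, z)‖ ^ 2 ∂ν ∂μ ≤
            ∫ u, (1 - θ u) ^ 2 * ∫ z, ‖Φ (u, z)‖ ^ 2 ∂ν ∂μ :=
          setIntegral_le_integral iT2 (Eventually.of_forall fun u =>
            mul_nonneg (by positivity) (integral_nonneg fun z => by positivity))
        linarith

/-- **(h) with cut-offs** : (I1) fibre distance to the vacuum; for every `e > 0` a cut-off `θ` of the
base such that `(1-θ) Φ_j` has mass `≤ e` and `θ w_j` satisfies the block Hardy inequality with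
amplitudes `A j → 0` (all soft: with `+ e'`, eventually). -/
theorem slice_est_cut {Φ : ℕ → U × Z → F} (hΦ : ∀ j, Continuous (Φ j))
    (hc : ∀ j, HasCompactSupport (Φ j))
    {gs : ℕ → U × Z → ℝ} {p : ℕ → U → F →ₗ[ℂ] F} (hgs : ∀ j, Continuous (gs j))
    (hg : ∀ j u, (∃ z, Φ j (u, z) ≠ 0) →
      MemLp (fun z => gs j (u, z)) 2 ν ∧ ∫ z, gs j (u, z) ^ 2 ∂ν = 1)
    (hps : ∀ j u, (∃ z, Φ j (u, z) ≠ 0) → (p j u).IsSymmetric)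
    (hpi : ∀ j u, (∃ z, Φ j (u, z) ≠ 0) → ∀ v, p j u (p j u v) = p j u v)
    (hw : ∀ j, AEStronglyMeasurable (fpr ν (gs j) (p j) (Φ j)) μ)
    {η C : ℝ} (hη : 0 < η) (hC : 0 ≤ C) {S : ℝ → Set U}
    (I1 : ∀ δ, 0 < δ → δ ≤ η → ∀ e, 0 < e → ∀ᶠ j in atTop,
      ∫ u in S δ, ∫ z, ‖Φ j (u, z) - fpj ν (gs j) (p j) (Φ j) (u, z)‖ ^ 2 ∂ν ∂μ ≤
        C * δ ^ 2 + e)
    (cut : ∀ e, 0 < e → ∃ θ : U → ℝ, Continuous θ ∧ (∀ u, 0 ≤ θ u) ∧ (∀ u, θ u ≤ 1) ∧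
      (∀ᶠ j in atTop, ∫ u, (1 - θ u) ^ 2 * ∫ z, ‖Φ j (u, z)‖ ^ 2 ∂ν ∂μ ≤ e) ∧
      ∃ (K C' : ℝ) (A : ℕ → ℝ), 0 ≤ C' ∧ Tendsto A atTop (𝓝 0) ∧
        ∀ δ, 0 < δ → δ ≤ η → ∀ e', 0 < e' → ∀ᶠ j in atTop,
          ∫ u in S δ, θ u ^ 2 * ‖fpr ν (gs j) (p j) (Φ j) u‖ ^ 2 ∂μ ≤
            K * A j + C' * δ ^ 2 + e')
    {ε : ℝ≥0∞} (hε : 0 < ε) :
    ∃ δ, 0 < δ ∧ δ ≤ η ∧ ∀ᶠ j in atTop, ∫⁻ u in S δ, ∫⁻ z, ‖Φ j (u, z)‖ₑ ^ 2 ∂ν ∂μ ≤ ε := by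
  obtain ⟨e, he, heε⟩ : ∃ e : ℝ, 0 < e ∧ ENNReal.ofReal e ≤ ε := by
    rcases eq_or_ne ε ⊤ with h | h
    · exact ⟨1, one_pos, by rw [h]; exact le_top⟩
    · exact ⟨ε.toReal, ENNReal.toReal_pos hε.ne' h, by rw [ENNReal.ofReal_toReal h]⟩
  obtain ⟨θ, hθ, h0, h1, htail, K, C', A, hC', hA, HB⟩ := cut (e / 8) (by positivity)
  obtain ⟨δ, hδ, hδη, hδe⟩ : ∃ δ : ℝ, 0 < δ ∧ δ ≤ η ∧ (C + C') * δ ^ 2 ≤ e / 16 := by
    refine ⟨min η (Real.sqrt (e / (16 * (C + C') + 16))),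
      lt_min hη (Real.sqrt_pos.2 (by positivity)), min_le_left _ _, ?_⟩
    have h1 : (min η (Real.sqrt (e / (16 * (C + C') + 16)))) ^ 2 ≤ e / (16 * (C + C') + 16) := by
      calc (min η (Real.sqrt (e / (16 * (C + C') + 16)))) ^ 2 ≤
            (Real.sqrt (e / (16 * (C + C') + 16))) ^ 2 :=
            pow_le_pow_left₀ (le_min hη.le (Real.sqrt_nonneg _)) (min_le_right _ _) 2
        _ = _ := Real.sq_sqrt (by positivity)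
    calc (C + C') * (min η (Real.sqrt (e / (16 * (C + C') + 16)))) ^ 2 ≤
        (C + C') * (e / (16 * (C + C') + 16)) := mul_le_mul_of_nonneg_left h1 (by positivity)
      _ ≤ e / 16 := by
          rw [mul_div_assoc', div_le_div_iff₀ (by positivity) (by norm_num)]
          nlinarith
  refine ⟨δ, hδ, hδη, ?_⟩
  have t1 : Tendsto (fun j => K * A j) atTop (𝓝 0) := by simpa using hA.const_mul K
  filter_upwards [I1 δ hδ hδη (e / 16) (by positivity), HB δ hδ hδη (e / 16) (by positivity), htail,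
    t1.eventually (ge_mem_nhds (by positivity : (0 : ℝ) < e / 16))] with j h2 h3 h4 h5
  rw [mass_eq (hΦ j) (hc j)]
  refine (ENNReal.ofReal_le_ofReal ?_).trans heε
  refine (mass_cut_le (hΦ j) (hc j) (hgs j) (hg j) (hps j) (hpi j) (hw j) (S δ) hθ h0 h1).trans ?_
  nlinarith

end main


end Crest.Agent.R330.CapSl924
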