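import Crest.Agent.R330.LocC_8
import Crest.Agent.R330.HBX_450
import Crest.Agent.R330.FlatCut_924
import Crest.Agent.R330.CapBind_737
import Crest.Agent.R330.ChFlat_718

/-!
# Row 330, S9-LOC (helper8): the local capture estimate, assembly

* `Sb σ δ` : block displacements of size `< δ`.
* `aesm_fpr` : measurability of the uncut fibre projection.
* `cutm ϑ κ0` : the cut-off `ϑ(X) κ0`; `cut_fpr`.
* `I1In`, `HQIn`, `I3In`, `I4In`, `TailIn` : the literal inputs.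
* `slice_loc` : the slice estimate for every null sequence.
-/

set_option autoImplicit false
set_option linter.unusedSectionVars false

open MeasureTheory Filter Topology Crest.MathPhysics.MatrixQM
open scoped ContDiff InnerProductSpace ENNReal

noncomputable section

namespace Crest.Agent.R330.LocD8

open Crest.Agent.R330.Defs478 Crest.Agent.R330.LS839 Crest.Agent.R330.Frame839
  Crest.Agent.R330.Clus839
  Crest.Agent.R330.Bind6839 Crest.Agent.R330.SlG944 Crest.Agent.R330.SlF944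
  Crest.Agent.R330.IBP837 Crest.Agent.R330.TDef414
  Crest.Agent.R330.LemA342 Crest.Agent.R330.FibProj837 Crest.Agent.R330.LocB8
  Crest.Agent.R330.LocC8
  Crest.Agent.R330.SlQE87 Crest.Agent.R330.HBX450 Crest.Agent.R330.CapBind737
  Crest.Agent.R330.TrialSys796
open Crest.Agent.R330.SlB314 (Nor Tan br)
open Crest.Agent.R330.SlD314 (tube)
open Crest.Agent.R330.KEq823 (actU actZ)

variable {N p : ℕ} {b : ColorBasis N} {S : Type} [Group S] [Fintype S] {C : Chn b p S}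
  {F : Type*} [NormedAddCommGroup F] [InnerProductSpace ℂ F] [FiniteDimensional ℂ F]
  {M : FermionRep N F} {R : GaugeAction b M} {G : GammaNine}

/-- block displacements of size `< δ` -/
def Sb (σ : Sl C) (δ : ℝ) : Set (Uk b (C.cf σ.X0)) := {u | ‖C.PY (u : Cfg N)‖ < δ}

theorem continuous_PY : Continuous (C.PY : Cfg N → Cfg N) := TCore383.contDiff_PY.continuous

theorem isOpen_Sb (σ : Sl C) (δ : ℝ) : IsOpen (Sb σ δ) :=
  isOpen_lt ((continuous_PY (C := C)).comp continuous_subtype_val).norm continuous_const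

/-! ## Almost every point is regular -/

theorem ae_breg (σ : Sl C) : ∀ᵐ u : Uk b (C.cf σ.X0), C.BReg (posu σ (u : Cfg N)) := by
  have h1 : ∀ᵐ X : Pos p, C.BReg X := by
    have := ChFlat718.null_Zc (C := C)
    rw [ae_iff]
    exact this
  have h2 : ∀ᵐ X' : Pos p, C.BReg (σ.X0 + X') :=
    (measurePreserving_add_left (volume : Measure (Pos p)) σ.X0).quasiMeasurePreserving.ae h1
  have h3 : ∀ᵐ q : Pos p × C.Blk, C.BReg (σ.X0 + q.1) :=
    Measure.quasiMeasurePreserving_fst.ae h2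
  have h4 : ∀ᵐ q : Pos p × C.Blk,
      C.BReg (posu σ (PairT245.uE (BrT5658.reg0 σ) q : Cfg N)) := by
    filter_upwards [h3] with q hq
    have := posu_uE (σ := σ) q.1 q.2
    rw [show (q.1, q.2) = q from rfl] at this
    rwa [this]
  have hm : MeasurableSet {u : Uk b (C.cf σ.X0) | C.BReg (posu σ (u : Cfg N))} :=
    (C.isOpen_breg.preimage (contDiff_posu σ).continuous).measurableSet
  have h5 := (PairT245.mp_uE (BrT5658.reg0 σ)).map_eq
  rw [← h5, ae_map_iff (PairT245.mp_uE (BrT5658.reg0 σ)).measurable.aemeasurable hm]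
  exact h4

theorem aesm_fpr {P : TPack C M R G} {σ : Sl C} {v : Uk b (C.cf σ.X0) → F} (hv : Continuous v) :
    AEStronglyMeasurable (fun u : Uk b (C.cf σ.X0) => pV P (posu σ (u : Cfg N)) (v u)) volume := by
  set O : Set (Uk b (C.cf σ.X0)) := {u | C.BReg (posu σ (u : Cfg N))} with hO
  have hopen : IsOpen O := C.isOpen_breg.preimage (contDiff_posu σ).continuous
  have h1 : ContinuousOn (fun u : Uk b (C.cf σ.X0) => pV P (posu σ (u : Cfg N)) (v u)) O := by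
    intro u hu
    refine ContinuousAt.continuousWithinAt ?_
    set e := stdOrthonormalBasis ℂ F with he
    have h2 : (fun u : Uk b (C.cf σ.X0) => pV P (posu σ (u : Cfg N)) (v u)) =
        fun u => ∑ k, ⟪e k, v u⟫_ℂ • pV P (posu σ (u : Cfg N)) (e k) := by
      funext u
      conv_lhs => rw [← e.sum_repr' (v u)]
      rw [map_sum]
      exact Finset.sum_congr rfl fun k _ => map_smul _ _ _
    rw [h2]
    refine tendsto_finsetSum _ fun k _ => ?_
    have h3 : ContinuousAt (fun u : Uk b (C.cf σ.X0) => pV P (posu σ (u : Cfg N)) (e k)) u :=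
      (contDiffAt_pV P hu (e k)).continuousAt.comp (f := fun u : Uk b (C.cf σ.X0) =>
        posu σ (u : Cfg N)) (contDiff_posu σ).continuous.continuousAt
    exact (continuousAt_const.inner hv.continuousAt).smul h3
  have h2 := h1.aestronglyMeasurable (μ := volume) hopen.measurableSet
  have h3 : ∀ᵐ u : Uk b (C.cf σ.X0), u ∈ O := ae_breg σ
  rwa [Measure.restrict_eq_self_of_ae_mem h3] at h2

/-! ## Cut-offs in the position -/

/-- the cut-off `ϑ(X) κ0` -/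
def cutm (σ : Sl C) (ϑ : Pos p → ℝ) (κ0 : Sc b (C.cf σ.X0) → ℝ) (x : Sc b (C.cf σ.X0)) : ℝ :=
  ϑ (posu σ (x.1 : Cfg N)) * κ0 x

section cut

variable {P : TPack C M R G} {σ : Sl C} {ρ : Pos p → Pos p} {κ0 κ : Sc b (C.cf σ.X0) → ℝ}
  {ϑ : Pos p → ℝ} {g : ℝ} {φ : Cfg N → F}

theorem half_cutm (x : Sc b (C.cf σ.X0)) : half b (C.cf σ.X0) (cutm σ ϑ κ0) φ x =
    ϑ (posu σ (x.1 : Cfg N)) • half b (C.cf σ.X0) κ0 φ x := by
  unfold half cutm
  rw [mul_smul]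

theorem vf_cutm (u : Uk b (C.cf σ.X0)) : vf P σ ρ (cutm σ ϑ κ0) g φ u =
    ϑ (posu σ (u : Cfg N)) • vf P σ ρ κ0 g φ u := by
  unfold vf fpr
  simp only [LinearMap.id_apply]
  rw [← integral_smul]
  refine integral_congr_ae (Eventually.of_forall fun z => ?_)
  simp only
  rw [half_cutm, smul_comm]

theorem wf_cutm (u : Uk b (C.cf σ.X0)) : wf P σ ρ (cutm σ ϑ κ0) g φ u =
    ϑ (posu σ (u : Cfg N)) • wf P σ ρ κ0 g φ u := by
  rw [wf_eq, wf_eq, vf_cutm, ← Complex.coe_smul, map_smul, Complex.coe_smul]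

theorem wfam (hρ : ContDiff ℝ ∞ ρ) (hr : ∀ X, ‖ρ X - σ.X0‖ < σ.r) (hκ : Cut σ κ)
    (hφ : IsCoreVec b R φ) : WFam P (ks κ) (wB P σ ρ κ g φ) where
  closed := (isCompact_ks hκ.supp).isClosed
  breg _ hX := ks_breg hκ hX
  smooth := contDiff_wB hρ hr hκ hφ.1
  supp := hcs_wB hκ.supp
  off _ hX Y := wB_zero hX Y
  vac X hX Y := exists_U P (ks_breg hκ hX) (wB_mem X Y)
  equi X hX _ hh _ _ hY :=
    wB_act hρ hr hκ hφ (TCore383.act_cf (ks_breg hκ hX).reg hh σ.X0) X hY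

/-- Fubini for the fibre projection -/
theorem int_wf (hρ : ContDiff ℝ ∞ ρ) (hr : ∀ X, ‖ρ X - σ.X0‖ < σ.r) (hκ : Cut σ κ)
    (hφ : IsCoreVec b R φ) (δ : ℝ) :
    ∫ u in Sb σ δ, ‖wf P σ ρ κ g φ u‖ ^ 2 ≤
      ∫ X, ∫ Y in Metric.closedBall (0 : C.Blk) δ, ‖wB P σ ρ κ g φ X Y‖ ^ 2 := by
  set f : Uk b (C.cf σ.X0) → ℝ := (Sb σ δ).indicator fun u => ‖wf P σ ρ κ g φ u‖ ^ 2 with hf
  have hc : Continuous fun u => ‖wf P σ ρ κ g φ u‖ ^ 2 :=
    (contDiff_wf hρ hr hκ hφ.1).continuous.norm.pow 2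
  have hs : HasCompactSupport fun u => ‖wf P σ ρ κ g φ u‖ ^ 2 :=
    (hcs_wf (P := P) (ρ := ρ) (g := g) (φ := φ) hκ.supp).norm.comp_left (g := fun t : ℝ => t ^ 2)
      (by norm_num)
  have hi : Integrable fun u => ‖wf P σ ρ κ g φ u‖ ^ 2 := hc.integrable_of_hasCompactSupport hs
  have hif : Integrable f := hi.indicator (isOpen_Sb σ δ).measurableSet
  have h1 : ∫ u in Sb σ δ, ‖wf P σ ρ κ g φ u‖ ^ 2 = ∫ u, f u :=
    (integral_indicator (isOpen_Sb σ δ).measurableSet).symm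
  rw [h1, PairT245.integral_uk (BrT5658.reg0 σ)]
  have hif2 := (PairT245.integrable_uk (BrT5658.reg0 σ) f).1 hif
  rw [Measure.volume_eq_prod, integral_prod _ hif2]
  have h2 : ∫ X, ∫ Y in Metric.closedBall (0 : C.Blk) δ, ‖wB P σ ρ κ g φ X Y‖ ^ 2 =
      ∫ X', ∫ Y in Metric.closedBall (0 : C.Blk) δ, ‖wB P σ ρ κ g φ (X' + σ.X0) Y‖ ^ 2 :=
    (integral_add_right_eq_self (fun X => ∫ Y in Metric.closedBall (0 : C.Blk) δ,
      ‖wB P σ ρ κ g φ X Y‖ ^ 2) σ.X0).symm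
  rw [h2]
  have e : ∀ X' Y, ‖wB P σ ρ κ g φ (X' + σ.X0) Y‖ ^ 2 =
      ‖wf P σ ρ κ g φ (PairT245.uE (BrT5658.reg0 σ) (X', Y))‖ ^ 2 := by
    intro X' Y
    unfold LocC8.wB
    rw [add_sub_cancel_right]
  have hi2 := (PairT245.integrable_uk (BrT5658.reg0 σ) _).1 hi
  rw [Measure.volume_eq_prod] at hi2 hif2
  have hie : Integrable (fun q : Pos p × C.Blk =>
      (Metric.closedBall (0 : C.Blk) δ).indicator (fun Y => ‖wf P σ ρ κ g φ
        (PairT245.uE (BrT5658.reg0 σ) (q.1, Y))‖ ^ 2) q.2) (volume.prod volume) := by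
    have h3 : (fun q : Pos p × C.Blk =>
      (Metric.closedBall (0 : C.Blk) δ).indicator (fun Y => ‖wf P σ ρ κ g φ
        (PairT245.uE (BrT5658.reg0 σ) (q.1, Y))‖ ^ 2) q.2) =
        ((Prod.snd : Pos p × C.Blk → C.Blk) ⁻¹' Metric.closedBall (0 : C.Blk) δ).indicator
          (fun q => ‖wf P σ ρ κ g φ (PairT245.uE (BrT5658.reg0 σ) q)‖ ^ 2) := by
      funext q
      by_cases hq : q.2 ∈ Metric.closedBall (0 : C.Blk) δ
      · rw [Set.indicator_of_mem hq, Set.indicator_of_mem (by exact hq)]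
      · rw [Set.indicator_of_notMem hq, Set.indicator_of_notMem (by exact hq)]
    rw [h3]
    exact hi2.indicator (measurable_snd Metric.isClosed_closedBall.measurableSet)
  refine integral_mono hif2.integral_prod_left ?_ fun X' => ?_
  · have h4 := hie.integral_prod_left
    refine h4.congr (Eventually.of_forall fun X' => ?_)
    simp only
    rw [integral_indicator Metric.isClosed_closedBall.measurableSet]
    simp only [e]
  · simp only [e]
    rw [← integral_indicator Metric.isClosed_closedBall.measurableSet]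
    refine integral_mono_of_nonneg (Eventually.of_forall fun Y => ?_) ?_
      (Eventually.of_forall fun Y => ?_)
    · exact Set.indicator_nonneg (fun _ _ => sq_nonneg _) _
    · have h5 : Continuous fun Y : C.Blk =>
          ‖wf P σ ρ κ g φ (PairT245.uE (BrT5658.reg0 σ) (X', Y))‖ ^ 2 :=
        hc.comp ((PairT245.uE (BrT5658.reg0 σ)).continuous.comp
          (continuous_const.prodMk continuous_id))
      refine IntegrableOn.integrable_indicator ?_ Metric.isClosed_closedBall.measurableSet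
      exact h5.continuousOn.integrableOn_compact (isCompact_closedBall _ _)
    · have hPY : C.PY (PairT245.uE (BrT5658.reg0 σ) (X', Y) : Cfg N) = Y := by
        rw [PairT245.coe_uE]
        exact PairT245.PY_sum' X' Y.2
      by_cases hY : ‖(Y : Cfg N)‖ < δ
      · have m1 : PairT245.uE (BrT5658.reg0 σ) (X', Y) ∈ Sb σ δ := by
          show ‖C.PY (PairT245.uE (BrT5658.reg0 σ) (X', Y) : Cfg N)‖ < δ
          rw [hPY]
          exact hY
        have m2 : Y ∈ Metric.closedBall (0 : C.Blk) δ := by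
          rw [mem_closedBall_zero_iff]
          exact hY.le
        simp only [hf]
        rw [Set.indicator_of_mem m1, Set.indicator_of_mem m2]
      · have m1 : PairT245.uE (BrT5658.reg0 σ) (X', Y) ∉ Sb σ δ := by
          show ¬ ‖C.PY (PairT245.uE (BrT5658.reg0 σ) (X', Y) : Cfg N)‖ < δ
          rw [hPY]
          exact hY
        simp only [hf]
        rw [Set.indicator_of_notMem m1]
        exact Set.indicator_nonneg (fun _ _ => sq_nonneg _) _

end cut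

/-! ## The inputs -/

section inputs

variable (P : TPack C M R G) (σ : Sl C) (ρ : Pos p → Pos p) (κ0 κ : Sc b (C.cf σ.X0) → ℝ) (m : ℝ)

/-- (I1) distance of the slice function to the fibrewise vacua -/
def I1In : Prop := ∃ K : ℝ, 0 ≤ K ∧ ∃ η : ℝ, 0 < η ∧ ∀ᶠ g in atTop, ∀ φ : Cfg N → F,
  IsCoreVec b R φ → ∀ δ : ℝ, 0 < δ → δ ≤ η →
    g * (∫ u in Sb σ δ, ∫ z, ‖half b (C.cf σ.X0) κ0 φ (u, z) -
      fpj volume (gsl P σ ρ g) (fun u => pV P (posu σ (u : Cfg N)))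
        (half b (C.cf σ.X0) κ0 φ) (u, z)‖ ^ 2) ≤ K * (1 + g * δ ^ 2) * En b M G g m φ

/-- (H6) the block charges of the fibre projection -/
def HQIn : Prop := ∃ K : ℝ, 0 ≤ K ∧ ∀ᶠ g in atTop, ∀ φ : Cfg N → F, IsCoreVec b R φ →
  (∑ α, ∫ X, ∫ Y : C.Blk, ‖qblkB M G g α (LocC8.wB P σ ρ κ g φ X) Y‖ ^ 2) ≤ K * En b M G g m φ

/-- (I3) the amplitudes are bounded in `H¹` -/
def I3In : Prop := ∃ K : ℝ, 0 ≤ K ∧ ∀ᶠ g in atTop, ∀ φ : Cfg N → F, IsCoreVec b R φ →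
  ContDiff ℝ 1 (ampX P g (LocC8.wB P σ ρ κ g φ)) ∧
  (∫ X, ‖ampX P g (LocC8.wB P σ ρ κ g φ) X‖ ^ 2) ≤ K * En b M G g m φ ∧
  (∫ X, ‖fderiv ℝ (ampX P g (LocC8.wB P σ ρ κ g φ)) X‖ ^ 2) ≤ K * En b M G g m φ

/-- (I4) the amplitudes tend weakly to zero -/
def I4In : Prop := ∀ (g : ℕ → ℝ) (φ : ℕ → Cfg N → F),
  Null b M R G m (X := Gen C M G) (fun g q => Tgen P q.1 g q.2.fn) g φ →
  ∀ χ : Pos p → C.Fx M G, ContDiff ℝ ∞ χ → HasCompactSupport χ →
    Tendsto (fun j => ∫ X, ⟪(χ X : F), ampX P (g j) (LocC8.wB P σ ρ κ (g j) (φ j)) X⟫_ℂ)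
      atTop (𝓝 0)

/-- the part near the singular positions is small -/
def TailIn : Prop := ∀ e : ℝ, 0 < e → ∃ ϑ : Pos p → ℝ, ContDiff ℝ ∞ ϑ ∧ (∀ X, 0 ≤ ϑ X) ∧
  (∀ X, ϑ X ≤ 1) ∧ Cut σ (cutm σ ϑ κ0) ∧ ∀ᶠ g in atTop, ∀ φ : Cfg N → F, IsCoreVec b R φ →
    (∫ u : Uk b (C.cf σ.X0), (1 - ϑ (posu σ (u : Cfg N))) ^ 2 *
      ∫ z, ‖half b (C.cf σ.X0) κ0 φ (u, z)‖ ^ 2) ≤ e * En b M G g m φ

end inputs

/-! ## The assembly -/

section main

variable {P : TPack C M R G} {σ : Sl C} {ρ : Pos p → Pos p} {κ0 κ : Sc b (C.cf σ.X0) → ℝ}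
  {m : ℝ}

theorem En_nonneg (g m : ℝ) (φ : Cfg N → F) : 0 ≤ En b M G g m φ := by
  unfold En
  have h1 : 0 ≤ ∫ x, ‖φ x‖ ^ 2 := integral_nonneg fun _ => by positivity
  have h2 : 0 ≤ qf b M G g m φ := by
    unfold qf
    positivity
  linarith

/-- the amplitudes of a null sequence tend to zero -/
theorem amp_tendsto (hρ : ContDiff ℝ ∞ ρ) (hr : ∀ X, ‖ρ X - σ.X0‖ < σ.r) (hκ : Cut σ κ)
    (h3 : I3In P σ ρ κ m) (h4 : I4In P σ ρ κ m) {g : ℕ → ℝ} {φ : ℕ → Cfg N → F}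
    (hn : Null b M R G m (X := Gen C M G) (fun g q => Tgen P q.1 g q.2.fn) g φ) :
    Tendsto (fun j => ∫ X, ‖ampX P (g j) (LocC8.wB P σ ρ κ (g j) (φ j)) X‖ ^ 2) atTop (𝓝 0) := by
  obtain ⟨K, hK, h3⟩ := h3
  obtain ⟨C0, hC0⟩ := hn.en
  have hC0' : 0 ≤ C0 := (En_nonneg (g 0) m (φ 0)).trans (hC0 0)
  obtain ⟨n0, hn0⟩ := eventually_atTop.1 (hn.g_top.eventually (h3.and
    (P.Psi_smooth)))
  rw [← tendsto_add_atTop_iff_nat n0]
  set a : ℕ → Pos p → F := fun j => ampX P (g (j + n0)) (LocC8.wB P σ ρ κ (g (j + n0)) (φ (j + n0)))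
    with ha
  obtain ⟨r, hr0⟩ : ∃ r, ks κ ⊆ Metric.closedBall (0 : Pos p) r :=
    (isCompact_ks hκ.supp).isBounded.subset_closedBall 0
  have hsupp : ∀ j, tsupport (a j) ⊆ Metric.closedBall 0 r := fun j => by
    refine closure_minimal (fun X hX => ?_) Metric.isClosed_closedBall
    by_contra hn'
    refine hX ?_
    have h5 := wfam (P := P) (g := g (j + n0)) hρ hr hκ (hn.core (j + n0))
    exact ampX_off h5 (hn0 (j + n0) (Nat.le_add_left _ _)).2.continuous fun h => hn' (hr0 h)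
  refine Amp406.amp_null (r := r) (C := K * C0) (fun j => ?_) hsupp (fun j => ?_) (fun j => ?_)
    fun χ hχ hχc => ?_
  · exact ((hn0 (j + n0) (Nat.le_add_left _ _)).1 _ (hn.core _)).1
  · exact ((hn0 (j + n0) (Nat.le_add_left _ _)).1 _ (hn.core _)).2.1.trans
      (mul_le_mul_of_nonneg_left (hC0 _) hK)
  · exact ((hn0 (j + n0) (Nat.le_add_left _ _)).1 _ (hn.core _)).2.2.trans
      (mul_le_mul_of_nonneg_left (hC0 _) hK)
  · -- project the test function to `Fx`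
    let Q : F →L[ℂ] C.Fx M G := (C.Fx M G).orthogonalProjectionOnto
    have h6 := h4 g φ hn (fun X => Q (χ X)) ((Q.restrictScalars ℝ).contDiff.comp hχ)
      (hχc.comp_left (g := Q) (map_zero _))
    rw [← tendsto_add_atTop_iff_nat n0] at h6
    refine h6.congr fun j => integral_congr_ae (Eventually.of_forall fun X => ?_)
    simp only
    have h7 : ampX P (g (j + n0)) (LocC8.wB P σ ρ κ (g (j + n0)) (φ (j + n0))) X ∈ C.Fx M G :=
      ampX_mem _ _ _ _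
    have h8 : ((Q (χ X) : C.Fx M G) : F) = (C.Fx M G).starProjection (χ X) := rfl
    rw [h8, Submodule.inner_starProjection_left_eq_right,
      Submodule.starProjection_eq_self_iff.2 h7]

/-- **The block Hardy inequality with cut-off, soft form.** -/
theorem hb_soft (hP : PsiHardy P) (hρ : ContDiff ℝ ∞ ρ) (hr : ∀ X, ‖ρ X - σ.X0‖ < σ.r)
    (hκ : Cut σ κ) {D : ℝ} (hD : 0 ≤ D)
    (hmass : ∀ᶠ g in atTop, ∀ φ : Cfg N → F, IsCoreVec b R φ →
      (∫ X, ∫ Y : C.Blk, ‖LocC8.wB P σ ρ κ g φ X Y‖ ^ 2) ≤ D * En b M G g m φ)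
    (hq : HQIn P σ ρ κ m) {g : ℕ → ℝ} {φ : ℕ → Cfg N → F} (hg : Tendsto g atTop atTop)
    (hφ : ∀ j, IsCoreVec b R (φ j)) {C0 : ℝ} (hC0 : ∀ j, En b M G (g j) m (φ j) ≤ C0) :
    ∃ C' : ℝ, 0 ≤ C' ∧ ∀ δ, 0 < δ → ∀ e', 0 < e' → ∀ᶠ j in atTop,
      ∫ u in Sb σ δ, ‖wf P σ ρ κ (g j) (φ j) u‖ ^ 2 ≤
        3 * (∫ X, ‖ampX P (g j) (LocC8.wB P σ ρ κ (g j) (φ j)) X‖ ^ 2) + C' * δ ^ 2 + e' := by
  obtain ⟨K₀, hK₀, h1⟩ := hbX hP
  obtain ⟨Kq, hKq, h2⟩ := hq
  have hC0' : 0 ≤ C0 := (En_nonneg (g 0) m (φ 0)).trans (hC0 0)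
  refine ⟨K₀ * (Kq * C0), by positivity, fun δ hδ e' he' => ?_⟩
  have t1 : Tendsto (fun j => K₀ * (Kq * C0) * (g j) ^ (-(2 / 3) : ℝ)) atTop (𝓝 0) := by
    simpa using ((tendsto_rpow_neg_atTop (by norm_num : (0 : ℝ) < 2 / 3)).comp hg).const_mul
      (K₀ * (Kq * C0))
  filter_upwards [hg.eventually (h1 (e' / (2 * (D * C0 + 1))) (by positivity)), hg.eventually h2,
    hg.eventually hmass, t1.eventually (ge_mem_nhds (by positivity : (0 : ℝ) < e' / 2)),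
    hg.eventually_gt_atTop 0] with j a1 a2 a3 a4 a5
  refine (int_wf hρ hr hκ (hφ j) δ).trans ((a1.2 _ _ (wfam hρ hr hκ (hφ j)) δ hδ).trans ?_)
  have b2 := (a2 (φ j) (hφ j)).trans (mul_le_mul_of_nonneg_left (hC0 j) hKq)
  have b3 := (a3 (φ j) (hφ j)).trans (mul_le_mul_of_nonneg_left (hC0 j) hD)
  have hgp : 0 ≤ (g j) ^ (-(2 / 3) : ℝ) := Real.rpow_nonneg a5.le _
  have c1 : K₀ * ((g j) ^ (-(2 / 3) : ℝ) + δ ^ 2) *
      (∑ α, ∫ X, ∫ Y : C.Blk, ‖qblkB M G (g j) α (LocC8.wB P σ ρ κ (g j) (φ j) X) Y‖ ^ 2) ≤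
      K₀ * ((g j) ^ (-(2 / 3) : ℝ) + δ ^ 2) * (Kq * C0) :=
    mul_le_mul_of_nonneg_left b2 (by positivity)
  have c2 : e' / (2 * (D * C0 + 1)) *
      (∫ X, ∫ Y : C.Blk, ‖LocC8.wB P σ ρ κ (g j) (φ j) X Y‖ ^ 2) ≤ e' / 2 := by
    calc e' / (2 * (D * C0 + 1)) * (∫ X, ∫ Y : C.Blk, ‖LocC8.wB P σ ρ κ (g j) (φ j) X Y‖ ^ 2) ≤
          e' / (2 * (D * C0 + 1)) * (D * C0 + 1) :=
          mul_le_mul_of_nonneg_left (by linarith) (by positivity)
      _ = e' / 2 := by field_simp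
  have c3 : K₀ * ((g j) ^ (-(2 / 3) : ℝ) + δ ^ 2) * (Kq * C0) =
      K₀ * (Kq * C0) * (g j) ^ (-(2 / 3) : ℝ) + K₀ * (Kq * C0) * δ ^ 2 := by ring
  linarith

end main

end Crest.Agent.R330.LocD8

end
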