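import Crest.Agent.R330.HQ_8X_998
import Crest.Agent.R330.LocD_8

/-!
# Row 330, S9-LOC (helper998): the cut-offs of 8 and 924

* `cut_cutm` : `ϑ(X) κ0` is a `Cut` if `tsupport ϑ` is in `BReg`.
* `rad_inv` : invariance of the radial cut-off in the relational form.
-/

set_option autoImplicit false
set_option linter.unusedSectionVars false

open MeasureTheory Filter Topology Crest.MathPhysics.MatrixQM
open scoped ContDiff InnerProductSpace ENNReal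

noncomputable section

namespace Crest.Agent.R330.HQ2998

open Crest.Agent.R330.Defs478 Crest.Agent.R330.LS839 Crest.Agent.R330.Frame839
  Crest.Agent.R330.Clus839
  Crest.Agent.R330.Bind6839 Crest.Agent.R330.TDef414
  Crest.Agent.R330.LemA342 Crest.Agent.R330.LocB8 Crest.Agent.R330.HQ998
  Crest.Agent.R330.LocC8 Crest.Agent.R330.LocD8 Crest.Agent.R330.SlQE87
open Crest.Agent.R330.KEq823 (actU actZ)

variable {N p : ℕ} {b : ColorBasis N} {S : Type} [Group S] [Fintype S] {C : Chn b p S}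
  {F : Type*} [NormedAddCommGroup F] [InnerProductSpace ℂ F] [FiniteDimensional ℂ F]
  {σ : Sl C} {κ0 : Sc b (C.cf σ.X0) → ℝ} {ϑ : Pos p → ℝ}

theorem radT_eq (s : ℝ) (ϑ : Pos p → ℝ) : radT σ s ϑ = cutm σ ϑ (rad s) := rfl

theorem contDiff_cutm (hκ : ContDiff ℝ ∞ κ0) (hϑ : ContDiff ℝ ∞ ϑ) :
    ContDiff ℝ ∞ (cutm σ ϑ κ0) :=
  (hϑ.comp ((contDiff_posu σ).comp contDiff_fst)).mul hκ

theorem hcs_cutm (hκ : HasCompactSupport κ0) : HasCompactSupport (cutm σ ϑ κ0) := hκ.mul_left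

theorem tsupport_cutm : tsupport (cutm σ ϑ κ0) ⊆
    {x | posu σ (x.1 : Cfg N) ∈ tsupport ϑ} ∩ tsupport κ0 := by
  refine Set.subset_inter (closure_minimal (fun x hx => ?_)
    ((isClosed_tsupport ϑ).preimage ((contDiff_posu σ).comp contDiff_fst).continuous)) ?_
  · refine subset_tsupport _ fun h0 => hx ?_
    show ϑ (posu σ (x.1 : Cfg N)) * κ0 x = 0
    rw [h0, zero_mul]
  · exact tsupport_mul_subset_right

/-- **the cut-off of 8** -/
theorem cut_cutm (h1 : ContDiff ℝ ∞ κ0) (h2 : HasCompactSupport κ0)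
    (h3 : ∀ (h : Matrix.specialUnitaryGroup (Fin N) ℂ) (hc : b.act h (C.cf σ.X0) = C.cf σ.X0)
      (u : Uk b (C.cf σ.X0)) (z : Zs b (C.cf σ.X0)), κ0 (actU hc u, actZ hc z) = κ0 (u, z))
    (hϑ : ContDiff ℝ ∞ ϑ) (hb : ∀ X ∈ tsupport ϑ, C.BReg X) : Cut σ (cutm σ ϑ κ0) where
  smooth := contDiff_cutm h1 hϑ
  supp := hcs_cutm h2
  breg x hx := hb _ (tsupport_cutm hx).1
  inv h hc u z := by
    unfold cutm
    rw [h3 h hc]
    simp only [posu_actU hc u]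

theorem cut_cutm_rad {s : ℝ} (hs : 0 < s) (hϑ : ContDiff ℝ ∞ ϑ)
    (hb : ∀ X ∈ tsupport ϑ, C.BReg X) : Cut σ (cutm σ ϑ (rad s)) := cut_radT hs hϑ hb

/-- the invariance in the relational form -/
theorem rad_inv {c : Cfg N} (s : ℝ) (h : Matrix.specialUnitaryGroup (Fin N) ℂ)
    (x x' : Sc b c) (h1 : (x'.1 : Cfg N) = b.act h x.1) (h2 : (x'.2 : Cfg N) = b.act h x.2) :
    rad s x' = rad s x := by
  have e1 : ‖x'.1‖ = ‖x.1‖ := by
    show ‖(x'.1 : Cfg N)‖ = ‖(x.1 : Cfg N)‖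
    rw [h1, SlA314.act_norm]
  have e2 : ‖x'.2‖ = ‖x.2‖ := by
    show ‖(x'.2 : Cfg N)‖ = ‖(x.2 : Cfg N)‖
    rw [h2, SlA314.act_norm]
  unfold rad
  rw [e1, e2]

theorem cutm_inv (hκ : ∀ (h : Matrix.specialUnitaryGroup (Fin N) ℂ),
      b.act h (C.cf σ.X0) = C.cf σ.X0 → ∀ x x' : Sc b (C.cf σ.X0),
      (x'.1 : Cfg N) = b.act h x.1 → (x'.2 : Cfg N) = b.act h x.2 → κ0 x' = κ0 x)
    (h : Matrix.specialUnitaryGroup (Fin N) ℂ) (hc : b.act h (C.cf σ.X0) = C.cf σ.X0)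
    (x x' : Sc b (C.cf σ.X0)) (h1 : (x'.1 : Cfg N) = b.act h x.1)
    (h2 : (x'.2 : Cfg N) = b.act h x.2) : cutm σ ϑ κ0 x' = cutm σ ϑ κ0 x := by
  unfold cutm
  rw [hκ h hc x x' h1 h2, h1, posu_act hc]

/-- the radial cut-off vanishes in the form used by the inputs -/
theorem rad_zero_sq {c : Cfg N} {s : ℝ} (hs : 0 < s) {x : Sc b c}
    (h : s ^ 2 ≤ ‖x.1‖ ^ 2 + ‖x.2‖ ^ 2) : rad s x = 0 := by
  refine rad_zero hs ?_
  refine (pow_le_pow_iff_left₀ hs.le (norm_nonneg _) two_ne_zero).1 ?_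
  rw [norm_sq_pt]
  exact h

end Crest.Agent.R330.HQ2998

end
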