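import Crest.Agent.R330.XCut_924
import Crest.Agent.R330.GXD_818
import Crest.Agent.R330.HQ2_998
import Crest.Agent.R330.LocF_8

/-!
# Row 330, S9-XCUT (helper924): the tail input of the local capture estimate

* `tailIn_of` : `TailIn` from the bound of the gradient along the centre.
* `tail` : `LocAt.tail` of `LocF_8`.
-/

set_option autoImplicit false
set_option linter.unusedSectionVars false

open MeasureTheory Filter Topology Set Crest.MathPhysics.MatrixQM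
open scoped ContDiff InnerProductSpace ENNReal

noncomputable section

namespace Crest.Agent.R330.XCut924

open Crest.Agent.R330.Defs478 Crest.Agent.R330.LS839 Crest.Agent.R330.Frame839
  Crest.Agent.R330.Clus839 Crest.Agent.R330.Bind6839 Crest.Agent.R330.TDef414
  Crest.Agent.R330.LemA342 Crest.Agent.R330.LocB8 Crest.Agent.R330.LocC8
  Crest.Agent.R330.LocD8 Crest.Agent.R330.LocF8 Crest.Agent.R330.SlQE87
  Crest.Agent.R330.H6596 Crest.Agent.R330.TrialSys796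
open Crest.Agent.R330.HQ998 (rad)

variable {N p : ℕ} {b : ColorBasis N} {S : Type} [Group S] [Fintype S] {C : Chn b p S}
  {F : Type*} [NormedAddCommGroup F] [InnerProductSpace ℂ F] [FiniteDimensional ℂ F]
  {M : FermionRep N F} {R : GaugeAction b M} {G : GammaNine}

theorem cfU_single {X0 : Pos p} (h0 : C.Reg X0) (q : Fin 9 × Fin p) :
    cfU h0 (EuclideanSpace.single q 1) = dC h0 q :=
  Subtype.ext (by rw [coe_cfU, coe_dC])

/-- **The tail input** from the gradient along the centre. -/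
theorem tailIn_of {σ : Sl C} (h0 : C.Reg σ.X0) {κ0 : Sc b (C.cf σ.X0) → ℝ} {m K : ℝ}
    (hκ : ContDiff ℝ ∞ κ0) (hκc : HasCompactSupport κ0)
    (hcut : ∀ ϑ : Pos p → ℝ, ContDiff ℝ ∞ ϑ → (∀ X ∈ tsupport ϑ, C.BReg X) →
      Cut σ (cutm σ ϑ κ0)) (hK : 0 ≤ K)
    (hG : ∀ᶠ g in atTop, ∀ φ : Cfg N → F, IsCoreVec b R φ →
      ∑ q, ∫ x, ‖fderiv ℝ (half b (C.cf σ.X0) κ0 φ) x (dC h0 q, 0)‖ ^ 2 ≤
        K * En b M G g m φ) : TailIn (R := R) (G := G) σ κ0 m := by
  obtain ⟨K1, hK1, htail⟩ := exists_tail (F := F) C h0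
  intro e he
  obtain ⟨δ, hδ, hδe⟩ : ∃ δ : ℝ, 0 < δ ∧ K1 * δ ^ 2 * K ≤ e := by
    refine ⟨Real.sqrt (e / (K1 * K + 1)), Real.sqrt_pos.2 (by positivity), ?_⟩
    rw [Real.sq_sqrt (by positivity)]
    have h1 : K1 * (e / (K1 * K + 1)) * K = e * ((K1 * K) / (K1 * K + 1)) := by ring
    have h2 : K1 * K / (K1 * K + 1) ≤ 1 := by
      rw [div_le_one (by positivity)]
      linarith
    rw [h1]
    nlinarith
  refine ⟨thc C δ, thc_smooth δ, thc_nonneg δ, thc_le_one δ,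
    hcut _ (thc_smooth δ) fun X hX => tsupport_thc hδ hX, ?_⟩
  filter_upwards [hG] with g hg φ hφ
  have hΦs : ContDiff ℝ ∞ (half b (C.cf σ.X0) κ0 φ) := LocC8.contDiff_half hκ hφ.1
  have hΦc : HasCompactSupport (half b (C.cf σ.X0) κ0 φ) := LocC8.hcs_half hκc
  set Φ := half b (C.cf σ.X0) κ0 φ with hΦ
  have hθ : Continuous fun x : Sc b (C.cf σ.X0) =>
      1 - thc C δ (σ.X0 + C.cfT (x.1 : Cfg N)) :=
    continuous_const.sub ((thc_smooth (C := C) δ).continuous.comp (continuous_const.add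
      (C.cfT.continuous.comp (continuous_subtype_val.comp continuous_fst))))
  have h1 : ∫ u : Uk b (C.cf σ.X0), (1 - thc C δ (posu σ (u : Cfg N))) ^ 2 *
      ∫ z, ‖Φ (u, z)‖ ^ 2 =
      ∫ x, ‖(1 - thc C δ (σ.X0 + C.cfT (x.1 : Cfg N))) • Φ x‖ ^ 2 := by
    have hi : Integrable (fun x => ‖(1 - thc C δ (σ.X0 + C.cfT (x.1 : Cfg N))) • Φ x‖ ^ 2)
        (volume : Measure (Sc b (C.cf σ.X0))) :=
      integrable_sq_cs (hθ.smul hΦs.continuous) hΦc.smul_left
    rw [Measure.volume_eq_prod] at hi ⊢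
    rw [integral_prod _ hi]
    refine integral_congr_ae (Eventually.of_forall fun u => ?_)
    simp only [norm_smul, mul_pow, Real.norm_eq_abs, sq_abs]
    rw [integral_const_mul]
    rfl
  rw [h1]
  have h2 := htail δ hδ Φ (hΦs.of_le (by norm_cast)) hΦc
  simp only [cfU_single] at h2
  have h3 := hg φ hφ
  have hE : 0 ≤ En b M G g m φ := LocD8.En_nonneg _ _ _
  calc _ ≤ K1 * δ ^ 2 * ∑ q, ∫ x, ‖fderiv ℝ Φ x (dC h0 q, 0)‖ ^ 2 := h2
    _ ≤ K1 * δ ^ 2 * (K * En b M G g m φ) := mul_le_mul_of_nonneg_left h3 (by positivity)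
    _ = (K1 * δ ^ 2 * K) * En b M G g m φ := by ring
    _ ≤ e * En b M G g m φ := mul_le_mul_of_nonneg_right hδe hE

/-- **`LocAt.tail`.** -/
theorem tail (M : FermionRep N F) (R : GaugeAction b M) (G : GammaNine) (σ : Sl C) {m : ℝ}
    (hm : 0 ≤ m) (hm1 : m ≤ 1) :
    Small σ fun _ s => TailIn (R := R) (G := G) σ (rad s) m := by
  obtain ⟨r₁, hr₁, h⟩ := GXB818.grad_chart (M := M) R G σ
  refine ⟨r₁, 1, hr₁, one_pos, fun s hs hs' ρ _ => ?_⟩
  obtain ⟨K, hK, hg⟩ := h (rad s) (HQ998.contDiff_rad s) (HQ998.hcs_rad hs) fun x hx => by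
    by_contra hn
    exact hx (HQ998.rad_zero hs (hs'.trans (not_lt.1 hn)))
  refine tailIn_of (GXB818.reg_X0 σ) (HQ998.contDiff_rad s) (HQ998.hcs_rad hs)
    (fun ϑ h1 h2 => HQ2998.cut_cutm_rad hs h1 h2) hK ?_
  filter_upwards [eventually_ge_atTop (1 : ℝ)] with g hg1 φ hφ
  exact (hg g m hg1 hm hm1 φ hφ).1

end Crest.Agent.R330.XCut924

end
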