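import Crest.Agent.R330.LocF_8
import Crest.Agent.R330.I4_245
import Crest.Agent.R330.I1In_342
import Crest.Agent.R330.MassIn_879
import Crest.Agent.R330.XCutB_924
import Crest.Agent.R330.H6C_596
import Crest.Agent.R330.I3In_815

/-!
# Row 330, S9-LOC (helper8): the inputs plugged in
-/

set_option autoImplicit false
set_option linter.unusedSectionVars false

open MeasureTheory Filter Topology Crest.MathPhysics.MatrixQM
open scoped ContDiff InnerProductSpace ENNReal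

noncomputable section

namespace Crest.Agent.R330.LocG8

open Crest.Agent.R330.Defs478 Crest.Agent.R330.LS839 Crest.Agent.R330.Frame839
  Crest.Agent.R330.Clus839
  Crest.Agent.R330.Bind6839 Crest.Agent.R330.SlG944 Crest.Agent.R330.SlF944
  Crest.Agent.R330.IBP837 Crest.Agent.R330.TDef414
  Crest.Agent.R330.LemA342 Crest.Agent.R330.FibProj837 Crest.Agent.R330.LocB8
  Crest.Agent.R330.LocC8 Crest.Agent.R330.LocD8 Crest.Agent.R330.LocE8 Crest.Agent.R330.LocF8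
  Crest.Agent.R330.SlQE87 Crest.Agent.R330.HBX450 Crest.Agent.R330.CapBind737
  Crest.Agent.R330.TrialSys796 Crest.Agent.R330.CapIntC737 Crest.Agent.R330.CapGlue737
open Crest.Agent.R330.HQ998 (rad)

variable {N p : ℕ} {b : ColorBasis N} {S : Type} [Group S] [Fintype S] {C : Chn b p S}
  {F : Type*} [NormedAddCommGroup F] [InnerProductSpace ℂ F] [FiniteDimensional ℂ F]
  {M : FermionRep N F} {R : GaugeAction b M} {G : GammaNine}
  (P : TPack C M R G) (σ : Sl C) (m : ℝ)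

/-- (I4), 245 -/
theorem i4 : Small σ fun ρ s => ∀ κ, CutS σ κ s → I4In P σ ρ κ m := by
  refine ⟨σ.r / 8, σ.r, by have := σ.pos; positivity, σ.pos, fun s hs hs' ρ hρ κ hκ => ?_⟩
  refine I4245.i4In P σ hρ.smooth hρ.ball hκ.cut (r₁ := s) ?_ (fun x hx => ?_) hρ.eq_id m
  · have := σ.pos
    linarith
  · by_contra h
    exact hx (hκ.zero x (not_le.1 h))

/-- (I1), 342 -/
theorem i1 [Nontrivial F] (hm : 0 ≤ m) (hm1 : m ≤ 1) :
    Small σ fun ρ s => I1In P σ ρ (rad s) m := by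
  obtain ⟨s0, hs0, h⟩ := I1In342.i1In P σ hm hm1
  exact ⟨s0, σ.r, hs0, σ.pos, fun s hs hs' ρ hρ => h s hs hs' ρ hρ.ball hρ.eq_id⟩

theorem cutS_zero_sq {σ : Sl C} {κ : Sc b (C.cf σ.X0) → ℝ} {s : ℝ} (hs : 0 < s)
    (h : CutS σ κ s) (x : Sc b (C.cf σ.X0)) (hx : (2 * s) ^ 2 ≤ ‖x.1‖ ^ 2 + ‖x.2‖ ^ 2) :
    κ x = 0 := by
  refine h.zero x ?_
  rw [← HQ998.norm_sq_pt] at hx
  have h1 := (pow_le_pow_iff_left₀ (by positivity) (norm_nonneg _) two_ne_zero).1 hx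
  linarith

/-- the masses, 879 -/
theorem mass : Small σ fun ρ s => ∀ κ, CutS σ κ s → MassIn P σ ρ κ m := by
  obtain ⟨s0, hs0, h⟩ := MassIn879.exists_mass C M R G σ.X0
  refine ⟨s0 / 2, σ.r, by positivity, σ.pos, fun s hs hs' ρ hρ κ hκ => ?_⟩
  exact (h (2 * s) (by positivity) (by linarith) σ rfl m).2 P ρ κ hρ.smooth hρ.ball hκ.cut
    (cutS_zero_sq hs hκ)

/-- the tail, 924 -/
theorem tail (hm : 0 ≤ m) (hm1 : m ≤ 1) :
    Small σ fun _ s => TailIn (R := R) (G := G) σ (rad s) m :=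
  XCut924.tail M R G σ hm hm1

/-- (H6), 596 -/
theorem hq [Nontrivial F] (hm0 : 0 ≤ m) (hm1 : m ≤ 1) :
    Small σ fun ρ s => ∀ κ, CutS σ κ s → HQIn P σ ρ κ m := by
  obtain ⟨s1, ρ1, hs1, -, -, h⟩ := LemR342.lemR_pack P σ
  refine ⟨s1 / 2, σ.r, by positivity, σ.pos, fun s hs hss ρ hρ κ hκ => ?_⟩
  have hz : ∀ x : Sc b (C.cf σ.X0), s < ‖(x.1 : Cfg N) + x.2‖ → κ x = 0 := hκ.zero
  have hz1 : ∀ x : Sc b (C.cf σ.X0), s1 ^ 2 ≤ ‖x.1‖ ^ 2 + ‖x.2‖ ^ 2 → κ x = 0 := by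
    intro x hx
    refine hz x ?_
    rw [← I3In815.norm_sc] at hx
    have h2 : s1 ≤ ‖(x.1 : Cfg N) + x.2‖ := le_of_sq_le_sq hx (norm_nonneg _)
    linarith
  obtain ⟨D, hD, h1⟩ := h _ _ _ (stdOrthonormalBasis ℝ (Uk b (C.cf σ.X0)))
    (stdOrthonormalBasis ℝ (Zs b (C.cf σ.X0))) (stdOrthonormalBasis ℝ (Tn (actB b) (C.cf σ.X0)))
    κ hκ.cut.smooth hκ.cut.supp hz1
  set B : ℝ := ‖C.cf σ.X0‖ + s with hB
  have hB0 : 0 ≤ B := by positivity
  have hKW := H6596.KW_nonneg (M := M) (G := G)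
  refine ⟨2 * D + H6596.KW M G * (B ^ 2 * D), by positivity, ?_⟩
  filter_upwards [eventually_ge_atTop 1] with g hg φ hφ
  obtain ⟨a1, -, a3, -⟩ := h1 g m hg hm0 hm1 φ hφ
  have hE : qf b M G g m φ + ∫ x, ‖φ x‖ ^ 2 = En b M G g m φ := by
    unfold En; ring
  rw [hE] at a1 a3
  have hEn : 0 ≤ En b M G g m φ := En_nonneg g m φ
  have hΦ : ContDiff ℝ ∞ (half b (C.cf σ.X0) κ φ) := contDiff_half hκ.cut.smooth hφ.1
  have hc : HasCompactSupport (half b (C.cf σ.X0) κ φ) := hcs_half hκ.cut.supp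
  have hsq : Integrable (fun x => ‖half b (C.cf σ.X0) κ φ x‖ ^ 2) (volume.prod volume) :=
    I3In815.int_sq hΦ.continuous hc
  have a4 : ∫ x : Sc b (C.cf σ.X0), ‖C.cf σ.X0 + (x.1 : Cfg N)‖ ^ 2 *
      ‖half b (C.cf σ.X0) κ φ x‖ ^ 2 ∂(volume.prod volume) ≤
      B ^ 2 * (D * En b M G g m φ) := by
    refine le_trans (integral_mono_of_nonneg (Eventually.of_forall fun x => by positivity)
      (hsq.const_mul (B ^ 2)) (Eventually.of_forall fun x => ?_)) (le_trans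
        (le_of_eq (integral_const_mul _ _)) (mul_le_mul_of_nonneg_left a3 (by positivity)))
    by_cases hx : κ x = 0
    · simp only [half_eq_zero hx, norm_zero]
      simp
    · have h5 : ‖(x.1 : Cfg N) + x.2‖ ≤ s := not_lt.1 fun h6 => hx (hz x h6)
      have h6 : ‖(x.1 : Cfg N)‖ ≤ s := by
        refine le_trans ?_ h5
        refine le_of_sq_le_sq ?_ (norm_nonneg _)
        rw [I3In815.norm_sc]
        have : ‖(x.1 : Cfg N)‖ = ‖x.1‖ := rfl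
        rw [this]
        nlinarith [sq_nonneg ‖x.2‖]
      have h7 : ‖C.cf σ.X0 + (x.1 : Cfg N)‖ ≤ B := (norm_add_le _ _).trans (by linarith)
      show ‖C.cf σ.X0 + (x.1 : Cfg N)‖ ^ 2 * _ ≤ B ^ 2 * _
      exact mul_le_mul_of_nonneg_right (pow_le_pow_left₀ (norm_nonneg _) h7 2) (by positivity)
  have a5 := H6596.qblkB_wB_Aop_le (P := P) (G := G) (M := M) (m := m)
    (stdOrthonormalBasis ℝ (Uk b (C.cf σ.X0))) hρ.smooth hρ.ball hκ.cut hφ.1
    (show (0 : ℝ) < g by linarith)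
  have hm2 : m ^ 2 ≤ 1 := by nlinarith
  have a6 : H6596.KW M G * m ^ 2 * ∫ x : Sc b (C.cf σ.X0), ‖C.cf σ.X0 + (x.1 : Cfg N)‖ ^ 2 *
      ‖half b (C.cf σ.X0) κ φ x‖ ^ 2 ∂(volume.prod volume) ≤
      H6596.KW M G * (B ^ 2 * (D * En b M G g m φ)) := by
    have h8 : 0 ≤ ∫ x : Sc b (C.cf σ.X0), ‖C.cf σ.X0 + (x.1 : Cfg N)‖ ^ 2 *
      ‖half b (C.cf σ.X0) κ φ x‖ ^ 2 ∂(volume.prod volume) :=
      integral_nonneg fun x => by positivity
    have h9 : H6596.KW M G * m ^ 2 ≤ H6596.KW M G := by nlinarith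
    calc _ ≤ H6596.KW M G * ∫ x : Sc b (C.cf σ.X0), ‖C.cf σ.X0 + (x.1 : Cfg N)‖ ^ 2 *
          ‖half b (C.cf σ.X0) κ φ x‖ ^ 2 ∂(volume.prod volume) := mul_le_mul_of_nonneg_right h9 h8
      _ ≤ _ := mul_le_mul_of_nonneg_left a4 hKW
  refine a5.trans ?_
  have a7 := add_le_add (mul_le_mul_of_nonneg_left a1 (by norm_num : (0 : ℝ) ≤ 2)) a6
  refine a7.trans (le_of_eq ?_)
  ring

end Crest.Agent.R330.LocG8

end
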