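import Crest.Agent.R330.LinkInst_973
import Crest.Agent.R330.PsiDef_477

/-!
# Row 330 (helper973): 477's `LinkCov` for the channels `Geo692.chn b P`
-/

set_option autoImplicit false

noncomputable section

open Crest.MathPhysics.MatrixQM

namespace Crest.Agent.R330.Link973

open Crest.Agent.R330.Parts879 Crest.Agent.R330.Geo692 Crest.Agent.R330.Psi477
open Crest.Agent.R330.Stab2973

variable {N : ℕ} (b : ColorBasis N) (P : Lam N) (bn : ∀ n, ColorBasis n)

/-- **Gauge transformations between regular positions of the channel of the partition `P`.** -/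
theorem linkCov : LinkCov (chn b P) P.k bn (eps b P bn) where
  cov h X X' _ hX' hh := by
    obtain ⟨σ, hσ, a, h1, -⟩ := cov b P bn h X X' hX' hh
    exact ⟨σ, hσ, a, h1⟩
  iota q a := by
    have H := stK_iota (dec P) q a
    refine ⟨(dec P).iota q a, fun X => ?_, fun u => ?_, fun q' hq' u => ?_⟩
    · rw [chn_cf, cfX_eq_cenCfg]
      refine H.act_cenCfg b fun i => ?_
      have h2 := congrArg (fun v : EuclideanSpace ℝ (Fin 9) => v i) (sum_k_pos b P X)
      simpa using h2
    · have h1 := H.adV_emb b (fun p => bn (P.k p)) q u
      rw [Function.update_self] at h1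
      exact h1
    · have h1 := H.adV_emb b (fun p => bn (P.k p)) q' u
      rw [Function.update_of_ne hq', adV_one] at h1
      exact h1

end Crest.Agent.R330.Link973

end
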