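import Crest.Agent.R330.PsiDef_477
import Crest.Agent.R330.BlkNeut2_735

/-!
# Row 330, S8-PSI (helper477): covariance of the block state

* `adC_br`, `kc_act`, `adC_kk`, `adC_cen` : the adjoint action between regular positions.
* `rho_gan`, `Fx_rho` : the amplitude space is stable.
* `act_iB` : the block coordinates under a block permutation with block rotations.
* `Fml.Psi_cov` : **covariance of the block state** (field `Psi_cov` of `TPack`).
* `stab_fix` : the stabiliser acts trivially on the amplitude space.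
-/

set_option autoImplicit false
set_option linter.unusedSectionVars false

open MeasureTheory Filter Topology Crest.MathPhysics.MatrixQM
open scoped ContDiff InnerProductSpace ENNReal

noncomputable section

namespace Crest.Agent.R330.Psi477

open Crest.Agent.R330.Cliff442 Crest.Agent.R330.Cliff442.CRep Crest.Agent.R330.Fact161
open Crest.Agent.R330.FactI161
open Crest.Agent.R330.Bind6839 Crest.Agent.R330.Defs478 Crest.Agent.R330.SInd478
open Crest.Agent.R330.Pkg915 Crest.Agent.R330.LS839 Crest.Agent.R330.TDef414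
open Crest.Agent.R330.Frame839 Crest.Agent.R330.IBP837 Crest.Agent.R330.TCore944
open Crest.Agent.R330.Clus839 Crest.Agent.R330.BlkNeut735
open Crest.Agent.R330.Stab2973 (castV castY)
open Crest.Agent.R330.Stab3973 (castF castF_injective castF_fun castF_const permY permY_apply
  map_univ_perm)

variable {N : ℕ}

local notation "SU" => Matrix.specialUnitaryGroup (Fin N) ℂ

/-! ## The adjoint action -/

section ad

variable (b : ColorBasis N)

theorem adC_br (h : SU) (u v : Colg N) :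
    adC b h ((colAlg b).br u v) = (colAlg b).br (adC b h u) (adC b h v) := by
  have h1 := act_actB (b := b) h u (mkc fun _ => v)
  have h2 := congrArg (fun x : Cfg N => comp x 0) h1
  simp only [comp_actg, comp_act, comp_mkc] at h2
  exact h2

theorem act_zero' (h : SU) : b.act h (0 : Cfg N) = 0 :=
  ext_comp fun i => by rw [comp_actg, comp_zero, map_zero]

theorem act_inv_act (h : SU) (x : Cfg N) : b.act h⁻¹ (b.act h x) = x :=
  ext_comp fun i => by rw [comp_actg, comp_actg, ← adC_mul, inv_mul_cancel, adC_one]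

theorem adC_inv (h : SU) (u : Colg N) : adC b h (adC b h⁻¹ u) = u := by
  rw [← adC_mul, mul_inv_cancel, adC_one]

theorem kc_act (h : SU) {x : Cfg N} {w : Colg N} (hw : w ∈ kc (actB b) x) :
    adC b h w ∈ kc (actB b) (b.act h x) := by
  rw [mem_kc] at hw ⊢
  rw [← act_actB, hw, act_zero']

end ad

variable {p : ℕ} {b : ColorBasis N} {S : Type} [Group S] [Fintype S] {C : Chn b p S}

theorem adC_kk {h : SU} {X X' : Pos p} (hX : C.Reg X) (hX' : C.Reg X')
    (he : b.act h (C.cf X) = C.cf X') {u : Colg N} (hu : u ∈ C.kk) : adC b h u ∈ C.kk := by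
  unfold Chn.Reg at hX hX'
  rw [← hX] at hu
  have h1 := kc_act b h hu
  rw [he, hX'] at h1
  exact h1

theorem act_inv_cf {h : SU} {X X' : Pos p} (he : b.act h (C.cf X) = C.cf X') :
    b.act h⁻¹ (C.cf X') = C.cf X := by
  rw [← he, act_inv_act]

/-- The adjoint action between regular positions preserves the centre of the stabiliser. -/
theorem adC_cen {h : SU} {X X' : Pos p} (hX : C.Reg X) (hX' : C.Reg X')
    (he : b.act h (C.cf X) = C.cf X') (t : EuclideanSpace ℝ (Fin p)) :
    ∃ t', adC b h (C.cen t) = C.cen t' := by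
  obtain ⟨t', ht'⟩ := C.cen_all (adC b h (C.cen t)) (adC_kk hX hX' he (C.cen_mem t)) fun v hv => by
    have h1 : adC b h⁻¹ v ∈ C.kk := adC_kk hX' hX (act_inv_cf he) hv
    have h2 := C.cen_comm t _ h1
    have h3 := adC_br b h (C.cen t) (adC b h⁻¹ v)
    rw [h2, map_zero, adC_inv] at h3
    exact h3.symm
  exact ⟨t', ht'.symm⟩

section rho

variable {F : Type*} [NormedAddCommGroup F] [InnerProductSpace ℂ F] [FiniteDimensional ℂ F]
  {M : FermionRep N F} (R : GaugeAction b M) {G : GammaNine}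

theorem rho_gan (h : SU) (α : Fin 16) (u : Colg N) (f : F) :
    R.ρ h (gan M G α u f) = gan M G α (adC b h u) (R.ρ h f) := by
  unfold gan
  simp only [LinearMap.sub_apply, LinearMap.smul_apply, LinearMap.sum_apply, map_sub, map_smul,
    map_sum, rho_thv]

/-- **The amplitude space is stable** under the gauge transformations between regular positions. -/
theorem Fx_rho {h : SU} {X X' : Pos p} (hX : C.Reg X) (hX' : C.Reg X')
    (he : b.act h (C.cf X) = C.cf X') {f : F} (hf : f ∈ C.Fx M G) : R.ρ h f ∈ C.Fx M G := by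
  intro α u hu
  have h1 : adC b h⁻¹ u ∈ (LinearMap.range C.cen.toLinearMap)ᗮ := by
    rw [Submodule.mem_orthogonal]
    rintro _ ⟨t, rfl⟩
    obtain ⟨t', ht'⟩ := adC_cen hX hX' he t
    have h2 : ⟪adC b h (C.cen t), adC b h (adC b h⁻¹ u)⟫_ℝ = ⟪C.cen t, adC b h⁻¹ u⟫_ℝ :=
      adC_inner h _ _
    rw [adC_inv, ht'] at h2
    change ⟪C.cen t, _⟫_ℝ = 0
    rw [← h2]
    exact (Submodule.mem_orthogonal _ _).1 hu _ (LinearMap.mem_range_self C.cen.toLinearMap t')
  have h3 := hf α _ h1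
  have h4 := rho_gan R (G := G) h α (adC b h⁻¹ u) f
  rw [h3, map_zero, adC_inv] at h4
  exact h4.symm

theorem mem_cenk {X : Pos p} (hX : C.Reg X) (t : EuclideanSpace ℝ (Fin p)) :
    C.cen t ∈ cenk b (C.cf X) := by
  unfold Chn.Reg at hX
  refine ⟨by rw [hX]; exact C.cen_mem t, fun v hv => ?_⟩
  rw [hX] at hv
  have h1 := C.cen_comm t v hv
  have h2 : SlB314.br b (C.cen t).ofLp v.ofLp = 0 := by
    have := congrArg WithLp.ofLp h1
    exact this
  have h3 := SlB314.cm_br b (C.cen t).ofLp v.ofLp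
  rw [h2] at h3
  have h4 : SlA314.cm b (0 : Fin (N ^ 2 - 1) → ℝ) = 0 := by
    have := SlA314.cm_smul b 0 (0 : Fin (N ^ 2 - 1) → ℝ)
    simpa using this
  rw [h4] at h3
  have h5 := (smul_eq_zero.1 h3.symm).resolve_left (by simp [Complex.I_ne_zero])
  exact (sub_eq_zero.1 h5).symm

/-- **The stabiliser of a regular position acts trivially on the amplitude space.** -/
theorem stab_fix (h : SU) (X : Pos p) (hX : C.Reg X) (he : b.act h (C.cf X) = C.cf X) (f : F)
    (hf : f ∈ C.Fx M G) : R.ρ h f = f := by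
  rcases subsingleton_or_nontrivial F with hF | hF
  · exact Subsingleton.elim _ _
  set K : Submodule ℝ (Colg N) := LinearMap.range C.cen.toLinearMap with hK
  have hirr := irr_vacOf G K M
  let E : Submodule ℂ F :=
    { carrier := {f | f ∈ vacOf M G Kᗮ ∧ R.ρ h f = f}
      add_mem' := fun {x y} hx hy => ⟨Submodule.add_mem _ hx.1 hy.1, by
        rw [map_add, hx.2, hy.2]⟩
      zero_mem' := ⟨Submodule.zero_mem _, map_zero _⟩
      smul_mem' := fun c x hx => ⟨Submodule.smul_mem _ c hx.1, by rw [map_smul, hx.2]⟩ }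
  have hE : E ≤ vacOf M G Kᗮ := fun x hx => hx.1
  have hinv : (cr M).InvOn (rowsIn G K) E := by
    intro x hx y hy
    refine ⟨hirr.1 x hx y hy.1, ?_⟩
    have h1 : teL (adC b h) x = x := by
      refine ext_row fun β => ?_
      rw [row_teL]
      obtain ⟨t, ht⟩ := (mem_rowsIn G K).1 hx β
      have ht' : C.cen t = row β x := ht
      rw [← ht']
      exact adC_cenk he (mem_cenk hX t)
    rw [rho_cr, h1, hy.2]
  obtain ⟨Ω, n1, hv⟩ := exists_gvac M G
  have hΩ : Ω ∈ E := ⟨gvac_mem_vacOf G M hv _, rho_gvac R hv h⟩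
  rcases hirr.2 E hE hinv with h0 | h0
  · rw [h0, Submodule.mem_bot] at hΩ
    rw [hΩ, norm_zero] at n1
    exact absurd n1 zero_ne_one
  · have hf' : f ∈ E := by
      rw [h0]
      exact hf
    exact hf'.2

end rho

/-! ## Covariance of the block coordinates -/

variable {κ : Type*} [Fintype κ] [DecidableEq κ] {k : κ → ℕ}
  {bn : ∀ n, ColorBasis n} {ε : ∀ q, Colg (k q) →ₗᵢ[ℝ] Colg N}

theorem comp_castY {n n' : ℕ} (h : n = n') (y : Cfg n) (i : Fin 9) :
    comp (castY h y) i = castV h (comp y i) := by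
  subst h
  rfl

/-- The transported block coordinates. -/
def mvY (σ : Equiv.Perm κ) (hσ : ∀ q, k (σ q) = k q)
    (a : ∀ q, Matrix.specialUnitaryGroup (Fin (k q)) ℂ) (bn : ∀ n, ColorBasis n) (Y : EY k) :
    EY k :=
  WithLp.toLp 2 (permY σ hσ fun q => (bn (k q)).act (a q) (Y q))

theorem mvY_apply (σ : Equiv.Perm κ) (hσ : ∀ q, k (σ q) = k q)
    (a : ∀ q, Matrix.specialUnitaryGroup (Fin (k q)) ℂ) (bn : ∀ n, ColorBasis n) (Y : EY k)
    (q : κ) : mvY σ hσ a bn Y (σ q) = castY (hσ q).symm ((bn (k q)).act (a q) (Y q)) :=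
  permY_apply σ hσ (fun q => (bn (k q)).act (a q) (Y q)) q

theorem act_iB {ho : ∀ q q', q ≠ q' → ∀ u v, ⟪ε q u, ε q' v⟫_ℝ = 0} {h : SU}
    {σ : Equiv.Perm κ} {hσ : ∀ q, k (σ q) = k q}
    {a : ∀ q, Matrix.specialUnitaryGroup (Fin (k q)) ℂ}
    (hc : ∀ q (u : Colg (k q)), adC b h (ε q u) =
      ε (σ q) (castV (hσ q).symm (adC (bn (k q)) (a q) u))) (Y : EY k) :
    b.act h (iB ε ho Y) = iB ε ho (mvY σ hσ a bn Y) := by
  refine ext_comp fun i => ?_
  rw [comp_actg, comp_iB, comp_iB, map_sum,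
    ← Equiv.sum_comp σ fun q => ε q (comp (mvY σ hσ a bn Y q) i)]
  refine Finset.sum_congr rfl fun q _ => ?_
  rw [mvY_apply, comp_castY, comp_actg, hc]

theorem castV_surjective {n n' : ℕ} (h : n = n') : Function.Surjective (castV h) := by
  subst h
  exact Function.surjective_id

/-- `castV` as a linear map. -/
def castVL {n n' : ℕ} (h : n = n') : Colg n →ₗ[ℝ] Colg n' where
  toFun := castV h
  map_add' := Stab2973.castV_add h
  map_smul' t u := Stab2973.castV_smul h t u

variable {Fn : ℕ → Type} [∀ n, NormedAddCommGroup (Fn n)] [∀ n, InnerProductSpace ℂ (Fn n)]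
  [∀ n, FiniteDimensional ℂ (Fn n)] {Mn : ∀ n, FermionRep n (Fn n)}
  {Rn : ∀ n, GaugeAction (bn n) (Mn n)} {G : GammaNine}

theorem castF_thv {n n' : ℕ} (h : n = n') (β : Fin 16) (c : Colg n) (f : Fn n) :
    castF h (thv (Mn n) β c f) = thv (Mn n') β (castV h c) (castF h f) := by
  subst h
  rfl

variable {F : Type*} [NormedAddCommGroup F] [InnerProductSpace ℂ F] [FiniteDimensional ℂ F]
  {M : FermionRep N F} (R : GaugeAction b M)

/-- **Covariance of products of even covariant factors.** -/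
theorem Fml.psi_cov (T : Fml bn Mn Rn G k)
    {ho : ∀ q q', q ≠ q' → ∀ u v, ⟪ε q u, ε q' v⟫_ℝ = 0} {h : SU} {σ : Equiv.Perm κ}
    {hσ : ∀ q, k (σ q) = k q} {a : ∀ q, Matrix.specialUnitaryGroup (Fin (k q)) ℂ}
    (hc : ∀ q (u : Colg (k q)), adC b h (ε q u) =
      ε (σ q) (castV (hσ q).symm (adC (bn (k q)) (a q) u))) {g : ℝ} (hg : T.g0 ≤ g) (Y : EY k)
    {f : F} (hf : f ∈ (T.D M ε ho).W) (hf' : R.ρ h f ∈ (T.D M ε ho).W) :
    R.ρ h ((T.D M ε ho).psi (T.fac g) Y f) =
      (T.D M ε ho).psi (T.fac g) (mvY σ hσ a bn Y) (R.ρ h f) := by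
  have h1 := rho_prG (M := M) (fun q => T.isv (k q)) (fun q => T.nm (k q)) ε ho R (g := h)
    (σ := σ) (τ := fun q => castVL (hσ q).symm ∘ₗ adC (bn (k q)) (a q))
    (Up := fun q => castF (hσ q).symm ∘ₗ (Rn (k q)).ρ (a q))
    (fun q => (castV_surjective _).comp (adC_surjective _ _))
    (fun q => (castF_injective _).comp (rho_injective _ _)) hc
    (fun q β c f => by
      rw [LinearMap.comp_apply, rho_thv, castF_thv]
      rfl)
    (fun q => by
      rw [LinearMap.comp_apply, rho_gvac (Rn (k q)) (T.isv (k q))]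
      exact castF_const _ T.Ω)
    (l := Finset.univ.toList) (Finset.nodup_toList _)
    (f := BD.val (T.fac g) Y) (f' := BD.val (T.fac g) (mvY σ hσ a bn Y))
    (fun q _ => by
      rw [LinearMap.comp_apply]
      change T.φ g (k (σ q)) (mvY σ hσ a bn Y (σ q)) = castF _ ((Rn (k q)).ρ (a q) (T.fac g q (Y q)))
      rw [mvY_apply, ← T.fac_cov hg]
      exact (castF_fun (hσ q).symm (T.φ g) _).symm) hf
  have h2 := pr_perm (T.D M ε ho).pol (cr M) (T.D M ε ho).orth (map_univ_perm σ)
    ((List.nodup_map_iff σ.injective).2 (Finset.nodup_toList _))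
    (f := BD.val (T.fac g) (mvY σ hσ a bn Y)) (fun q => T.fac_even hg q _) hf'
  exact h1.trans h2

/-- The amplitude space lies in the common vacuum space of the blocks. -/
theorem Link.Fx_le_W {bb : ∀ q, ColorBasis (k q)} (h : Link C k bb ε) (T : Fml bn Mn Rn G k)
    {f : F} (hf : f ∈ C.Fx M G) : f ∈ (T.D M ε h.ho).W :=
  ((mem_Fx_iff M G ε C h.mem (fun q t u => h.cen0 q t u) h.span).1 hf).2

/-- **Covariance of the block state.** -/
theorem Fml.Psi_cov {bb : ∀ q, ColorBasis (k q)} (T : Fml bn Mn Rn G k) (hL : Link C k bb ε)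
    (hc : LinkCov C k bn ε) (h : SU) (X X' : Pos p)
    (hX : C.Reg X) (hX' : C.Reg X') (he : b.act h (C.cf X) = C.cf X') (g : ℝ) (Y : Cfg N)
    (hY : Y ∈ C.Blk) (f : F) (hf : f ∈ C.Fx M G) : R.ρ h f ∈ C.Fx M G ∧
      R.ρ h (T.Psi M ε hL.ho g Y f) = T.Psi M ε hL.ho g (b.act h Y) (R.ρ h f) := by
  have hf' := Fx_rho R hX hX' he hf
  refine ⟨hf', ?_⟩
  by_cases hg : T.g0 ≤ g
  · rw [hL.blk_eq] at hY
    obtain ⟨Y₀, rfl⟩ := hY
    change R.ρ h (T.Psi M ε hL.ho g (iB ε hL.ho Y₀) f) =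
      T.Psi M ε hL.ho g (b.act h (iB ε hL.ho Y₀)) (R.ρ h f)
    obtain ⟨σ, hσ, a, hcov⟩ := hc.cov h X X' hX hX' he
    rw [act_iB (hσ := hσ) hcov, T.Psi_iB hg, T.Psi_iB hg]
    exact T.psi_cov R hcov hg Y₀ (hL.Fx_le_W T hf) (hL.Fx_le_W T hf')
  · rw [T.Psi_of_lt hg, T.Psi_of_lt hg]
    simp

end Crest.Agent.R330.Psi477

end
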