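import Crest.Agent.R330.Prod2_494

/-!
# Row 330 (helper494): the projection `pproj` in `L²` and the capture inequality

* `memLp_pproj`, `integral_pproj_le` : `∫ ‖P φ‖² ≤ ∫ ‖φ‖²` for `φ ∈ L²(E)`, `∫ ‖ψ‖² = 1`.
* `tail_pproj_le` : `∫_{‖y‖ > ρ} ‖P φ‖² ≤ (∫_{‖y‖ > ρ} ‖ψ‖²) ∫ ‖φ‖²`.
* `hw` : the Hardy weight `(1 + ‖y‖²)⁻¹`.
* `Low.capture` : for `φ` supported in `‖y‖ ≤ ρ`,
  `∫ ‖φ - P φ‖² ≤ (1 + ρ²) / c * q(φ) + (∫_{‖y‖ > ρ} ‖ψ‖²) ∫ ‖φ‖²`.
-/

set_option autoImplicit false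
set_option linter.unusedSectionVars false

open MeasureTheory Filter Topology Crest.MathPhysics.MatrixQM
open scoped ContDiff InnerProductSpace ENNReal

noncomputable section

namespace Crest.Agent.R330.Prod494

open Crest.Agent.R330.Defs478

/-- Cauchy-Schwarz for integrals of inner products. -/
theorem cs_int {X V : Type*} [MeasurableSpace X] {μ : Measure X} [NormedAddCommGroup V]
    [InnerProductSpace ℂ V] {f h : X → V} (hf : MemLp f 2 μ) (hh : MemLp h 2 μ) :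
    ‖∫ x, ⟪f x, h x⟫_ℂ ∂μ‖ ^ 2 ≤ (∫ x, ‖f x‖ ^ 2 ∂μ) * ∫ x, ‖h x‖ ^ 2 ∂μ := by
  have h1 : ‖∫ x, ⟪f x, h x⟫_ℂ ∂μ‖ ≤ ∫ x, ‖f x‖ * ‖h x‖ ∂μ := by
    refine (norm_integral_le_integral_norm _).trans ?_
    refine integral_mono_of_nonneg (Eventually.of_forall fun x => norm_nonneg _)
      (hf.norm.integrable_mul hh.norm) (Eventually.of_forall fun x => ?_)
    exact norm_inner_le_norm _ _
  have h2 := integral_mul_le_Lp_mul_Lq_of_nonneg (μ := μ) (p := 2) (q := 2)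
    (Real.HolderConjugate.two_two) (f := fun x => ‖f x‖) (g := fun x => ‖h x‖)
    (Eventually.of_forall fun x => norm_nonneg _) (Eventually.of_forall fun x => norm_nonneg _)
    (by simpa using hf.norm) (by simpa using hh.norm)
  have h3 : ∀ k : X → V, (∫ x, ‖k x‖ ^ (2 : ℝ) ∂μ) = ∫ x, ‖k x‖ ^ 2 ∂μ := fun k =>
    integral_congr_ae (Eventually.of_forall fun x => by simp)
  rw [h3, h3, ← Real.sqrt_eq_rpow, ← Real.sqrt_eq_rpow] at h2
  have h4 : ‖∫ x, ⟪f x, h x⟫_ℂ ∂μ‖ ≤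
      √(∫ x, ‖f x‖ ^ 2 ∂μ) * √(∫ x, ‖h x‖ ^ 2 ∂μ) := h1.trans h2
  have hA : 0 ≤ ∫ x, ‖f x‖ ^ 2 ∂μ := integral_nonneg fun x => sq_nonneg _
  have hB : 0 ≤ ∫ x, ‖h x‖ ^ 2 ∂μ := integral_nonneg fun x => sq_nonneg _
  calc ‖∫ x, ⟪f x, h x⟫_ℂ ∂μ‖ ^ 2
      ≤ (√(∫ x, ‖f x‖ ^ 2 ∂μ) * √(∫ x, ‖h x‖ ^ 2 ∂μ)) ^ 2 :=
        pow_le_pow_left₀ (norm_nonneg _) h4 2
    _ = _ := by rw [mul_pow, Real.sq_sqrt hA, Real.sq_sqrt hB]

variable {N : ℕ} {F₁ F : Type*} [NormedAddCommGroup F₁] [InnerProductSpace ℂ F₁]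
  [FiniteDimensional ℂ F₁] [NormedAddCommGroup F] [InnerProductSpace ℂ F] [FiniteDimensional ℂ F]
  {ι : Type*} [Fintype ι] [DecidableEq ι]
  {b : ColorBasis N} {M : FermionRep N F₁} {R : GaugeAction b M} {G : GammaNine}
  {g m : ℝ} {θ : Fin 16 → Fin (N ^ 2 - 1) → (F →ₗ[ℂ] F)}
  {E E' : Type*} [NormedAddCommGroup E] [InnerProductSpace ℝ E] [FiniteDimensional ℝ E]
  [MeasurableSpace E] [BorelSpace E] [NormedAddCommGroup E'] [InnerProductSpace ℝ E']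
  [FiniteDimensional ℝ E'] [MeasurableSpace E'] [BorelSpace E']

/-- the point of `E` with coordinates `p = (x', y)` -/
def pm (T : E ≃ₗᵢ[ℝ] WithLp 2 (Cfg N × E')) (p : E' × Cfg N) : E := pt T p.2 p.1

/-- the homeomorphism `pm` -/
def pmH (T : E ≃ₗᵢ[ℝ] WithLp 2 (Cfg N × E')) : E' × Cfg N ≃ₜ E :=
  (Homeomorph.prodComm E' (Cfg N)).trans (ptH T)

theorem pmH_apply (T : E ≃ₗᵢ[ℝ] WithLp 2 (Cfg N × E')) (p : E' × Cfg N) : pmH T p = pm T p := rfl

theorem pmH_symm_apply (T : E ≃ₗᵢ[ℝ] WithLp 2 (Cfg N × E')) (x : E) :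
    (pmH T).symm x = ((T x).snd, (T x).fst) := rfl

theorem mp_pm (T : E ≃ₗᵢ[ℝ] WithLp 2 (Cfg N × E')) :
    MeasurePreserving (pm T) (volume.prod volume) volume :=
  (measurePreserving_pt T).comp Measure.measurePreserving_swap

theorem me_pm (T : E ≃ₗᵢ[ℝ] WithLp 2 (Cfg N × E')) : MeasurableEmbedding (pm T) :=
  (pmH T).measurableEmbedding

theorem mp_symm (T : E ≃ₗᵢ[ℝ] WithLp 2 (Cfg N × E')) :
    MeasurePreserving (fun x => ((T x).snd, (T x).fst)) volume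
      (volume.prod volume : Measure (E' × Cfg N)) := by
  have h : MeasurePreserving ((pmH T).toMeasurableEquiv) (volume.prod volume) volume := mp_pm T
  exact h.symm

theorem integrable_pm (T : E ≃ₗᵢ[ℝ] WithLp 2 (Cfg N × E')) {V : Type*} [NormedAddCommGroup V]
    {h : E → V} : Integrable (fun p => h (pm T p)) (volume.prod volume) ↔ Integrable h :=
  (mp_pm T).integrable_comp_emb (me_pm T)

theorem integral_pm (T : E ≃ₗᵢ[ℝ] WithLp 2 (Cfg N × E')) {h : E → ℝ} (hh : Integrable h) :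
    ∫ x, h x = ∫ x', ∫ y, h (pm T (x', y)) := by
  have h1 : ∫ p, h (pm T p) ∂(volume.prod volume : Measure (E' × Cfg N)) = ∫ x, h x :=
    (mp_pm T).integral_comp (me_pm T) h
  rw [← h1, integral_prod]
  exact (integrable_pm T).2 hh

/-- the coefficients of the projection -/
def cf (T : E ≃ₗᵢ[ℝ] WithLp 2 (Cfg N × E')) (L : Mult M θ ι) (ψ : Cfg N → F₁) (φ : E → F)
    (w : ι) (x' : E') : ℂ := ∫ z, ⟪ψ z, L.comp w (fib T φ x' z)⟫_ℂ

theorem pproj_pm (T : E ≃ₗᵢ[ℝ] WithLp 2 (Cfg N × E')) (L : Mult M θ ι) (ψ : Cfg N → F₁)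
    (φ : E → F) (p : E' × Cfg N) :
    pproj T L ψ φ (pm T p) = ∑ w, L.J w (cf T L ψ φ w p.1 • ψ p.2) := by
  unfold pm
  rw [pproj_pt]
  rfl

theorem norm_sq_pproj_pm (T : E ≃ₗᵢ[ℝ] WithLp 2 (Cfg N × E')) (L : Mult M θ ι) (ψ : Cfg N → F₁)
    (φ : E → F) (p : E' × Cfg N) :
    ‖pproj T L ψ φ (pm T p)‖ ^ 2 = ∑ w, ‖cf T L ψ φ w p.1‖ ^ 2 * ‖ψ p.2‖ ^ 2 := by
  rw [pproj_pm, L.norm_sq_sum]
  refine Finset.sum_congr rfl fun w _ => ?_
  rw [norm_smul, mul_pow]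

section L2

variable (T : E ≃ₗᵢ[ℝ] WithLp 2 (Cfg N × E')) (L : Mult M θ ι) {ψ : Cfg N → F₁} {φ : E → F}

theorem aesm_inner (hψ : MemLp ψ 2 volume) (hφ : MemLp φ 2 volume) (w : ι) :
    AEStronglyMeasurable (fun p : E' × Cfg N => ⟪ψ p.2, L.comp w (φ (pm T p))⟫_ℂ)
      (volume.prod volume) := by
  have h1 : AEStronglyMeasurable (fun p : E' × Cfg N => ψ p.2) (volume.prod volume) :=
    hψ.1.comp_snd
  have h2 : AEStronglyMeasurable (fun p : E' × Cfg N => L.comp w (φ (pm T p)))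
      (volume.prod volume) :=
    (L.compL w).continuous.comp_aestronglyMeasurable
      (hφ.1.comp_measurePreserving (mp_pm T))
  exact h1.inner h2

theorem aesm_cf (hψ : MemLp ψ 2 volume) (hφ : MemLp φ 2 volume) (w : ι) :
    AEStronglyMeasurable (cf T L ψ φ w) volume :=
  (aesm_inner T L hψ hφ w).integral_prod_right'

theorem integrable_comp_sq (hφ : MemLp φ 2 volume) (w : ι) :
    Integrable (fun p : E' × Cfg N => ‖L.comp w (φ (pm T p))‖ ^ 2) (volume.prod volume) := by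
  have h2 : MemLp (fun p : E' × Cfg N => φ (pm T p)) 2 (volume.prod volume) :=
    hφ.comp_measurePreserving (mp_pm T)
  have h3 : MemLp (fun p : E' × Cfg N => L.comp w (φ (pm T p))) 2 (volume.prod volume) :=
    (L.compL w).comp_memLp' h2
  exact (memLp_two_iff_integrable_sq_norm h3.1).1 h3

theorem cf_sq_le (hψ : MemLp ψ 2 volume) (hφ : MemLp φ 2 volume) (w : ι) :
    ∀ᵐ x' : E', ‖cf T L ψ φ w x'‖ ^ 2 ≤
      (∫ z, ‖ψ z‖ ^ 2) * ∫ z, ‖L.comp w (φ (pm T (x', z)))‖ ^ 2 := by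
  have h2 : MemLp (fun p : E' × Cfg N => φ (pm T p)) 2 (volume.prod volume) :=
    hφ.comp_measurePreserving (mp_pm T)
  have h3 : MemLp (fun p : E' × Cfg N => L.comp w (φ (pm T p))) 2 (volume.prod volume) :=
    (L.compL w).comp_memLp' h2
  filter_upwards [h3.1.prodMk_left, (integrable_comp_sq T L hφ w).prod_right_ae] with x' h4 h5
  have h6 : MemLp (fun z => L.comp w (φ (pm T (x', z)))) 2 volume :=
    (memLp_two_iff_integrable_sq_norm h4).2 h5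
  exact cs_int hψ h6

theorem integrable_cf_sq (hψ : MemLp ψ 2 volume) (hφ : MemLp φ 2 volume) (w : ι) :
    Integrable (fun x' : E' => ‖cf T L ψ φ w x'‖ ^ 2) := by
  refine ((integrable_comp_sq T L hφ w).integral_prod_left.const_mul
    (∫ z, ‖ψ z‖ ^ 2)).mono' ((aesm_cf T L hψ hφ w).norm.pow 2) ?_
  filter_upwards [cf_sq_le T L hψ hφ w] with x' h
  rw [Real.norm_of_nonneg (sq_nonneg _)]
  exact h

theorem sum_integral_cf_sq (hψ : MemLp ψ 2 volume) (hφ : MemLp φ 2 volume) :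
    ∑ w, ∫ x' : E', ‖cf T L ψ φ w x'‖ ^ 2 ≤ (∫ z, ‖ψ z‖ ^ 2) * ∫ x, ‖φ x‖ ^ 2 := by
  have hI : Integrable (fun x => ‖φ x‖ ^ 2) := (memLp_two_iff_integrable_sq_norm hφ.1).1 hφ
  have h1 : ∫ x, ‖φ x‖ ^ 2 = ∑ w, ∫ x' : E', ∫ z, ‖L.comp w (φ (pm T (x', z)))‖ ^ 2 := by
    rw [integral_pm T hI, ← integral_finset_sum _ fun w _ =>
      (integrable_comp_sq T L hφ w).integral_prod_left]
    have h4 : ∀ᵐ x' : E', ∀ w, Integrable fun z => ‖L.comp w (φ (pm T (x', z)))‖ ^ 2 :=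
      ae_all_iff.2 fun w => (integrable_comp_sq T L hφ w).prod_right_ae
    refine integral_congr_ae ?_
    filter_upwards [h4] with x' h5
    rw [← integral_finset_sum _ fun w _ => h5 w]
    exact integral_congr_ae (Eventually.of_forall fun z => L.norm_sq_comp _)
  rw [h1, Finset.mul_sum]
  refine Finset.sum_le_sum fun w _ => ?_
  rw [← integral_const_mul]
  exact integral_mono_ae (integrable_cf_sq T L hψ hφ w)
    ((integrable_comp_sq T L hφ w).integral_prod_left.const_mul _) (cf_sq_le T L hψ hφ w)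

theorem aesm_pproj (hψ : MemLp ψ 2 volume) (hφ : MemLp φ 2 volume) :
    AEStronglyMeasurable (pproj T L ψ φ) volume := by
  have h1 : AEStronglyMeasurable
      (fun p : E' × Cfg N => ∑ w, L.J w (cf T L ψ φ w p.1 • ψ p.2)) (volume.prod volume) := by
    refine Finset.aestronglyMeasurable_fun_sum _ fun w _ => ?_
    have h2 : AEStronglyMeasurable (fun p : E' × Cfg N => cf T L ψ φ w p.1 • ψ p.2)
        (volume.prod volume) := ((aesm_cf T L hψ hφ w).comp_fst).smul hψ.1.comp_snd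
    exact (L.JL w).continuous.comp_aestronglyMeasurable h2
  have e : pproj T L ψ φ = (fun p : E' × Cfg N => ∑ w, L.J w (cf T L ψ φ w p.1 • ψ p.2)) ∘
      (fun x : E => ((T x).snd, (T x).fst)) := by
    funext x
    have h2 := pproj_pm T L ψ φ ((T x).snd, (T x).fst)
    have h3 : pm T ((T x).snd, (T x).fst) = x := pt_T T x
    rw [h3] at h2
    exact h2
  rw [e]
  exact h1.comp_measurePreserving (mp_symm T)

theorem integrable_cf_mul (hψ : MemLp ψ 2 volume) (hφ : MemLp φ 2 volume) {u : Cfg N → ℝ}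
    (hu : Integrable u) (w : ι) :
    Integrable (fun p : E' × Cfg N => ‖cf T L ψ φ w p.1‖ ^ 2 * u p.2) (volume.prod volume) :=
  (integrable_cf_sq T L hψ hφ w).mul_prod hu

/-- weighted norms of the projection -/
theorem integral_weight_pproj (hψ : MemLp ψ 2 volume) (hφ : MemLp φ 2 volume) {wt : Cfg N → ℝ}
    (hwt : AEStronglyMeasurable wt volume) {B : ℝ} (hB : ∀ y, ‖wt y‖ ≤ B) :
    Integrable (fun x => wt (T x).fst * ‖pproj T L ψ φ x‖ ^ 2) ∧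
    ∫ x, wt (T x).fst * ‖pproj T L ψ φ x‖ ^ 2 =
      (∑ w, ∫ x' : E', ‖cf T L ψ φ w x'‖ ^ 2) * ∫ y, wt y * ‖ψ y‖ ^ 2 := by
  have hS : Integrable fun y => ‖ψ y‖ ^ 2 := (memLp_two_iff_integrable_sq_norm hψ.1).1 hψ
  have hu : Integrable fun y => wt y * ‖ψ y‖ ^ 2 := hS.bdd_mul hwt (Eventually.of_forall hB)
  have e : ∀ p : E' × Cfg N, wt (T (pm T p)).fst * ‖pproj T L ψ φ (pm T p)‖ ^ 2 =
      ∑ w, ‖cf T L ψ φ w p.1‖ ^ 2 * (wt p.2 * ‖ψ p.2‖ ^ 2) := by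
    intro p
    have h1 : (T (pm T p)).fst = p.2 := T_pt_fst T _ _
    rw [h1, norm_sq_pproj_pm, Finset.mul_sum]
    refine Finset.sum_congr rfl fun w _ => ?_
    ring
  have hI : Integrable (fun x => wt (T x).fst * ‖pproj T L ψ φ x‖ ^ 2) := by
    rw [← integrable_pm T]
    simp only [e]
    exact integrable_finset_sum _ fun w _ => integrable_cf_mul T L hψ hφ hu w
  refine ⟨hI, ?_⟩
  rw [integral_pm T hI]
  simp only [e]
  have h2 : ∀ x' : E', ∫ y, ∑ w, ‖cf T L ψ φ w x'‖ ^ 2 * (wt y * ‖ψ y‖ ^ 2) =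
      (∑ w, ‖cf T L ψ φ w x'‖ ^ 2) * ∫ y, wt y * ‖ψ y‖ ^ 2 := by
    intro x'
    rw [integral_finset_sum _ fun w _ => hu.const_mul _, Finset.sum_mul]
    exact Finset.sum_congr rfl fun w _ => integral_const_mul _ _
  simp only [h2]
  rw [integral_mul_const, integral_finset_sum _ fun w _ => integrable_cf_sq T L hψ hφ w]

theorem memLp_pproj (hψ : MemLp ψ 2 volume) (hφ : MemLp φ 2 volume) :
    MemLp (pproj T L ψ φ) 2 volume := by
  rw [memLp_two_iff_integrable_sq_norm (aesm_pproj T L hψ hφ)]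
  have h := (integral_weight_pproj T L hψ hφ (wt := fun _ => (1 : ℝ))
    aestronglyMeasurable_const (B := 1) fun _ => by simp).1
  simpa using h

/-- the projection is a contraction -/
theorem integral_pproj_le (hψ : MemLp ψ 2 volume) (hψ1 : ∫ y, ‖ψ y‖ ^ 2 = 1)
    (hφ : MemLp φ 2 volume) : ∫ x, ‖pproj T L ψ φ x‖ ^ 2 ≤ ∫ x, ‖φ x‖ ^ 2 := by
  have h := (integral_weight_pproj T L hψ hφ (wt := fun _ => (1 : ℝ))
    aestronglyMeasurable_const (B := 1) fun _ => by simp).2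
  simp only [one_mul] at h
  rw [h, hψ1, mul_one]
  have h2 := sum_integral_cf_sq T L hψ hφ
  rwa [hψ1, one_mul] at h2

/-- the tail of the projection -/
theorem tail_pproj_le (hψ : MemLp ψ 2 volume) (hψ1 : ∫ y, ‖ψ y‖ ^ 2 = 1)
    (hφ : MemLp φ 2 volume) {wt : Cfg N → ℝ}
    (hwt : AEStronglyMeasurable wt volume) {B : ℝ} (hB : ∀ y, ‖wt y‖ ≤ B) (h0 : ∀ y, 0 ≤ wt y) :
    ∫ x, wt (T x).fst * ‖pproj T L ψ φ x‖ ^ 2 ≤
      (∫ y, wt y * ‖ψ y‖ ^ 2) * ∫ x, ‖φ x‖ ^ 2 := by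
  rw [(integral_weight_pproj T L hψ hφ hwt hB).2, mul_comm]
  have h2 := sum_integral_cf_sq T L hψ hφ
  rw [hψ1, one_mul] at h2
  exact mul_le_mul_of_nonneg_left h2 (integral_nonneg fun y => mul_nonneg (h0 y) (sq_nonneg _))

end L2

/-- The Hardy weight. -/
def hw (y : Cfg N) : ℝ := (1 + ‖y‖ ^ 2)⁻¹

theorem hw_pos (y : Cfg N) : 0 < hw y := by unfold hw; positivity

theorem hw_le (y : Cfg N) : ‖hw y‖ ≤ 1 := by
  rw [Real.norm_of_nonneg (hw_pos y).le]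
  unfold hw
  exact inv_le_one_of_one_le₀ (by nlinarith [sq_nonneg ‖y‖])

theorem continuous_hw : Continuous (hw (N := N)) := by
  unfold hw
  exact (continuous_const.add (continuous_norm.pow 2)).inv₀ fun y =>
    (by positivity : (1 : ℝ) + ‖y‖ ^ 2 ≠ 0)

/-- the indicator of `‖y‖ > ρ` -/
def out (ρ : ℝ) (y : Cfg N) : ℝ := if ρ < ‖y‖ then 1 else 0

theorem out_nonneg (ρ : ℝ) (y : Cfg N) : 0 ≤ out ρ y := by unfold out; split_ifs <;> norm_num

theorem out_le (ρ : ℝ) (y : Cfg N) : ‖out ρ y‖ ≤ 1 := by unfold out; split_ifs <;> norm_num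

theorem measurable_out (ρ : ℝ) : Measurable (out (N := N) ρ) := by
  unfold out
  exact Measurable.ite (measurableSet_lt measurable_const measurable_norm) measurable_const
    measurable_const

/-- **Capture inequality**: for `φ` supported in `‖y‖ ≤ ρ`. -/
theorem Low.capture {c : ℝ} {ψ : Cfg N → F₁} (h : Low b M R G g m c hw ψ) (hc : 0 < c)
    (T : E ≃ₗᵢ[ℝ] WithLp 2 (Cfg N × E')) (L : Mult M θ ι) (hψ : MemLp ψ 2 volume)
    (hψ1 : ∫ y, ‖ψ y‖ ^ 2 = 1) {φ : E → F} (hφ : ContDiff ℝ 1 φ) (hcs : HasCompactSupport φ)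
    (hcore : ∀ w x', IsCoreVec b R fun y => L.comp w (fib T φ x' y)) {ρ : ℝ}
    (hsupp : ∀ x, ρ < ‖(T x).fst‖ → φ x = 0) :
    ∫ x, ‖φ x - pproj T L ψ φ x‖ ^ 2 ≤
      (1 + ρ ^ 2) / c * ((1 / 16 : ℝ) * ∑ α : Fin 16, ∫ x, ‖pcharge T b θ G g m α φ x‖ ^ 2) +
        (∫ y, out ρ y * ‖ψ y‖ ^ 2) * ∫ x, ‖φ x‖ ^ 2 := by
  have hφ2 : MemLp φ 2 volume := hφ.continuous.memLp_of_hasCompactSupport hcs
  have hP := memLp_pproj T L hψ hφ2
  have hD : MemLp (fun x => φ x - pproj T L ψ φ x) 2 volume := hφ2.sub hP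
  have hD2 : Integrable fun x => ‖φ x - pproj T L ψ φ x‖ ^ 2 :=
    (memLp_two_iff_integrable_sq_norm hD.1).1 hD
  have hcf : Continuous fun x : E => (T x).fst := continuous_snd.comp (pmH T).symm.continuous
  have hI1 : Integrable fun x => hw (T x).fst * ‖φ x - pproj T L ψ φ x‖ ^ 2 :=
    hD2.bdd_mul (continuous_hw.comp hcf).aestronglyMeasurable
      (Eventually.of_forall fun x => hw_le _)
  have hI2 := (integral_weight_pproj T L hψ hφ2 (measurable_out (N := N) ρ).aestronglyMeasurable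
    (B := 1) (out_le ρ)).1
  have h1 := h.plift T L hψ continuous_hw.aestronglyMeasurable hw_le hφ hcs hcore
  have h2 := tail_pproj_le T L hψ hψ1 hφ2 (measurable_out (N := N) ρ).aestronglyMeasurable
    (B := 1) (out_le ρ) (out_nonneg ρ)
  have h3 : ∫ x, ‖φ x - pproj T L ψ φ x‖ ^ 2 ≤
      ∫ x, ((1 + ρ ^ 2) * (hw (T x).fst * ‖φ x - pproj T L ψ φ x‖ ^ 2) +
        out ρ (T x).fst * ‖pproj T L ψ φ x‖ ^ 2) := by
    refine integral_mono hD2 ((hI1.const_mul _).add hI2) fun x => ?_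
    show ‖φ x - pproj T L ψ φ x‖ ^ 2 ≤
      (1 + ρ ^ 2) * (hw (T x).fst * ‖φ x - pproj T L ψ φ x‖ ^ 2) +
        out ρ (T x).fst * ‖pproj T L ψ φ x‖ ^ 2
    by_cases hx : ρ < ‖(T x).fst‖
    · rw [hsupp x hx, zero_sub, norm_neg, out, if_pos hx, one_mul]
      have : 0 ≤ (1 + ρ ^ 2) * (hw (T x).fst * ‖pproj T L ψ φ x‖ ^ 2) := by
        have := (hw_pos (T x).fst).le
        positivity
      linarith
    · rw [out, if_neg hx, zero_mul, add_zero, ← mul_assoc]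
      have h4 : 1 ≤ (1 + ρ ^ 2) * hw (T x).fst := by
        unfold hw
        rw [← div_eq_mul_inv, one_le_div (by positivity)]
        have h5 : ‖(T x).fst‖ ≤ ρ := not_lt.1 hx
        have h6 := pow_le_pow_left₀ (norm_nonneg _) h5 2
        linarith
      nlinarith [sq_nonneg ‖φ x - pproj T L ψ φ x‖]
  rw [integral_add (hI1.const_mul _) hI2, integral_const_mul] at h3
  refine h3.trans (add_le_add ?_ h2)
  rw [div_mul_eq_mul_div, le_div_iff₀ hc]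
  have h7 : 0 ≤ 1 + ρ ^ 2 := by positivity
  have h8 := mul_le_mul_of_nonneg_left h1 h7
  linarith

end Crest.Agent.R330.Prod494

end
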