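import Crest.Agent.R330.Fact2_161
import Crest.Agent.R330.PiVol_269

/-!
# Row 330, S8-PSI: product states over several blocks, norms, derivatives, moments (helper269)

`pr h M e univ.toList f w` is helper161's ordered product of block operators.  `E p` are the
configuration spaces of the blocks, `φ p : E p → Ff p`.

* `inner_univ`, `norm_univ`, `normSq_univ`, `normSq_update` : pointwise norms, `w ∈ vacA`;
* `contDiff_univ`, `fderiv_univ` (Leibniz), `fderiv_univ_single`, `normSq_fderiv_single`,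
  `normSq_fderiv_le`;
* `integral_inner_univ`, `integral_normSq`, `integral_normSq_update`, `integral_moment2`,
  `integral_moment4_le`, `integral_grad_le`, `integral_moment_grad_le`.
-/

set_option autoImplicit false
set_option linter.unusedSectionVars false

open MeasureTheory WithLp
open scoped InnerProductSpace ContDiff

noncomputable section

namespace Crest.Agent.R330.PsiMom269

open Crest.Agent.R330.Cliff442 Crest.Agent.R330.Cliff442.CRep Crest.Agent.R330.Fact161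
  Crest.Agent.R330.PiVol269

variable {V F : Type*} [NormedAddCommGroup V] [InnerProductSpace ℝ V]
  [NormedAddCommGroup F] [InnerProductSpace ℂ F] [FiniteDimensional ℂ F]
  {κ : Type*} [Fintype κ] {Vf Ff ιf : κ → Type*}
  [∀ p, NormedAddCommGroup (Vf p)] [∀ p, InnerProductSpace ℝ (Vf p)]
  [∀ p, NormedAddCommGroup (Ff p)] [∀ p, InnerProductSpace ℂ (Ff p)]
  {M₁ : ∀ p, CRep (Vf p) (Ff p)} {u v : ∀ p, ιf p → Vf p} {s : ∀ p, Finset (ιf p)}
  {Ω : ∀ p, Ff p} (h : ∀ p, Pol (M₁ p) (u p) (v p) (s p) (Ω p)) (M : CRep V F)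
  {e : ∀ p, Vf p →ₗᵢ[ℝ] V}

/-! ## pointwise -/

section pointwise

theorem norm_univ_le (f : ∀ p, Ff p) (w : F) :
    ‖pr h M e Finset.univ.toList f w‖ ≤ (∏ p, ‖f p‖) * ‖w‖ := by
  have h1 := norm_pr_le h M (e := e) Finset.univ.toList f w
  rwa [Finset.prod_map_toList] at h1

section orth

variable (ho : ∀ p q, p ≠ q → ∀ x y, ⟪e p x, e q y⟫_ℝ = 0)
include ho

theorem inner_univ (f g : ∀ p, Ff p) {w : F} (w' : F) (hw : w ∈ vacA M e u v s) :
    ⟪pr h M e Finset.univ.toList f w, pr h M e Finset.univ.toList g w'⟫_ℂ =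
      (∏ p, ⟪f p, g p⟫_ℂ) * ⟪w, w'⟫_ℂ := by
  have h1 := inner_pr h M ho (Finset.nodup_toList Finset.univ) f g (w' := w') hw
  rwa [Finset.prod_map_toList] at h1

theorem norm_univ (f : ∀ p, Ff p) {w : F} (hw : w ∈ vacA M e u v s) :
    ‖pr h M e Finset.univ.toList f w‖ = (∏ p, ‖f p‖) * ‖w‖ := by
  have h1 := norm_pr h M ho (Finset.nodup_toList Finset.univ) f hw
  rwa [Finset.prod_map_toList] at h1

theorem normSq_univ (f : ∀ p, Ff p) {w : F} (hw : w ∈ vacA M e u v s) :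
    ‖pr h M e Finset.univ.toList f w‖ ^ 2 = (∏ p, ‖f p‖ ^ 2) * ‖w‖ ^ 2 := by
  rw [norm_univ h M ho f hw, mul_pow, Finset.prod_pow]

theorem normSq_update [DecidableEq κ] (f : ∀ p, Ff p) (q : κ) (c : Ff q) {w : F}
    (hw : w ∈ vacA M e u v s) :
    ‖pr h M e Finset.univ.toList (Function.update f q c) w‖ ^ 2 =
      ‖c‖ ^ 2 * (∏ p ∈ Finset.univ.erase q, ‖f p‖ ^ 2) * ‖w‖ ^ 2 := by
  rw [normSq_univ h M ho _ hw, ← Finset.mul_prod_erase Finset.univ _ (Finset.mem_univ q),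
    Function.update_self]
  congr 2
  refine Finset.prod_congr rfl fun p hp => ?_
  rw [Function.update_of_ne (Finset.ne_of_mem_erase hp)]

end orth

theorem norm_update_le [DecidableEq κ] (f : ∀ p, Ff p) (q : κ) (c : Ff q) (w : F) :
    ‖pr h M e Finset.univ.toList (Function.update f q c) w‖ ≤
      ‖c‖ * (∏ p ∈ Finset.univ.erase q, ‖f p‖) * ‖w‖ := by
  refine (norm_univ_le h M _ w).trans_eq ?_
  rw [← Finset.mul_prod_erase Finset.univ _ (Finset.mem_univ q), Function.update_self]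
  congr 2
  refine Finset.prod_congr rfl fun p hp => ?_
  rw [Function.update_of_ne (Finset.ne_of_mem_erase hp)]

end pointwise

/-! ## derivatives -/

section deriv

variable {X : Type*} [NormedAddCommGroup X] [NormedSpace ℝ X]

/-- **Leibniz rule** for ordered products. -/
theorem hasFDerivAt_pr [DecidableEq κ] {l : List κ} (hl : l.Nodup) {f : X → ∀ p, Ff p} {x : X}
    (hf : ∀ p, DifferentiableAt ℝ (fun x => f x p) x) (w : F) :
    DifferentiableAt ℝ (fun x => pr h M e l (f x) w) x ∧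
    ∀ y, fderiv ℝ (fun x => pr h M e l (f x) w) x y =
      (l.map fun q => pr h M e l
        (Function.update (f x) q (fderiv ℝ (fun x => f x q) x y)) w).sum := by
  induction l with
  | nil =>
    refine ⟨differentiableAt_const w, fun y => ?_⟩
    have h1 : (fun x => pr h M e [] (f x) w) = fun _ => w := rfl
    rw [h1]
    simp
  | cons p l ih =>
    obtain ⟨h1, h2⟩ := List.nodup_cons.1 hl
    obtain ⟨i1, i2⟩ := ih h2
    have h3 : (fun x => pr h M e (p :: l) (f x) w) =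
        fun x => wop (h p) M (e p) (f x p) (pr h M e l (f x) w) := rfl
    refine ⟨?_, fun y => ?_⟩
    · rw [h3]
      exact ((bilin_wop (h p) M (e p)).differentiableAt _).comp x ((hf p).prodMk i1)
    · rw [h3, fderiv_wop (h p) M (e p) (hf p) i1 y, i2 y, map_list_sum, List.map_cons,
        List.sum_cons, add_comm, List.map_map]
      congr 1
      · rw [pr_cons, Function.update_self]
        congr 1
        refine pr_congr h M (fun q hq => ?_) w
        rw [Function.update_of_ne]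
        exact fun e => h1 (e ▸ hq)
      · congr 1
        refine List.map_congr_left fun q hq => ?_
        have h4 : p ≠ q := fun e => h1 (e ▸ hq)
        rw [Function.comp_apply, pr_cons, Function.update_of_ne h4]

end deriv

variable {E : κ → Type*} [∀ p, NormedAddCommGroup (E p)]
  [∀ p, InnerProductSpace ℝ (E p)]

/-- The product state. -/
def ps (M : CRep V F) (e : ∀ p, Vf p →ₗᵢ[ℝ] V) (φ : ∀ p, E p → Ff p) (w : F)
    (Y : PiLp 2 E) : F :=
  pr h M e Finset.univ.toList (fun p => φ p (Y p)) w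

theorem ps_apply (e : ∀ p, Vf p →ₗᵢ[ℝ] V) (φ : ∀ p, E p → Ff p) (w : F) (Y : PiLp 2 E) :
    ps h M e φ w Y = pr h M e Finset.univ.toList (fun p => φ p (Y p)) w := rfl

section smooth

variable {φ : ∀ p, E p → Ff p}

theorem contDiff_ps {n : WithTop ℕ∞} (hφ : ∀ p, ContDiff ℝ n (φ p)) (w : F) :
    ContDiff ℝ n (ps h M e φ w) :=
  contDiff_pr h M Finset.univ.toList
    (fun p => (hφ p).comp (PiLp.proj 2 E p : PiLp 2 E →L[ℝ] E p).contDiff) contDiff_const

theorem continuous_ps (hφ : ∀ p, Continuous (φ p)) (w : F) :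
    Continuous (ps h M e φ w) := by
  have h1 : ∀ l : List κ, Continuous fun Y : PiLp 2 E =>
      pr h M e l (fun p => φ p (Y p)) w := by
    intro l
    induction l with
    | nil => exact continuous_const
    | cons p l ih =>
      exact (bilin_wop (h p) M (e p)).continuous.comp
        (((hφ p).comp (PiLp.continuous_apply 2 E p)).prodMk ih)
  exact h1 _

theorem fderiv_ps [DecidableEq κ] (hφ : ∀ p, Differentiable ℝ (φ p)) (w : F) (Y v : PiLp 2 E) :
    fderiv ℝ (ps h M e φ w) Y v =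
      ∑ q, pr h M e Finset.univ.toList
        (Function.update (fun p => φ p (Y p)) q (fderiv ℝ (φ q) (Y q) (v q))) w := by
  have h0 : ∀ q, fderiv ℝ (fun Y : PiLp 2 E => φ q (Y q)) Y v =
      fderiv ℝ (φ q) (Y q) (v q) := by
    intro q
    have h1 : HasFDerivAt (fun Y : PiLp 2 E => φ q (Y q))
        ((fderiv ℝ (φ q) (Y q)).comp (PiLp.proj 2 E q : PiLp 2 E →L[ℝ] E q)) Y :=
      ((hφ q) (Y q)).hasFDerivAt.comp Y (PiLp.proj 2 E q : PiLp 2 E →L[ℝ] E q).hasFDerivAt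
    rw [h1.fderiv]
    rfl
  have h2 := (hasFDerivAt_pr h M (e := e) (Finset.nodup_toList Finset.univ)
    (f := fun (Y : PiLp 2 E) p => φ p (Y p)) (x := Y)
    (fun p => ((hφ p) (Y p)).comp Y
      (PiLp.proj 2 E p : PiLp 2 E →L[ℝ] E p).differentiableAt) w).2 v
  rw [Finset.sum_map_toList] at h2
  have h3 : fderiv ℝ (ps h M e φ w) Y v =
    fderiv ℝ (fun Y : PiLp 2 E => pr h M e Finset.univ.toList (fun p => φ p (Y p)) w) Y v := rfl
  rw [h3, h2]
  exact Finset.sum_congr rfl fun q _ => by rw [h0 q]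

theorem pr_update_zero [DecidableEq κ] {l : List κ} (f : ∀ p, Ff p) {q : κ} (hq : q ∈ l)
    (w : F) : pr h M e l (Function.update f q 0) w = 0 := by
  induction l with
  | nil => exact absurd hq List.not_mem_nil
  | cons p l ih =>
    rw [pr_cons]
    by_cases hpq : p = q
    · subst hpq
      rw [Function.update_self, map_zero, LinearMap.zero_apply]
    · rw [ih ((List.mem_cons.1 hq).resolve_left (Ne.symm hpq)), map_zero]

theorem fderiv_ps_single [DecidableEq κ] (hφ : ∀ p, Differentiable ℝ (φ p)) (w : F)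
    (Y : PiLp 2 E) (q : κ) (y : E q) :
    fderiv ℝ (ps h M e φ w) Y (PiLp.single 2 q y) =
      pr h M e Finset.univ.toList
        (Function.update (fun p => φ p (Y p)) q (fderiv ℝ (φ q) (Y q) y)) w := by
  rw [fderiv_ps h M hφ, Finset.sum_eq_single q]
  · congr 3
    simp
  · intro p _ hp
    have h1 : (PiLp.single 2 q y : PiLp 2 E) p = 0 := by
      simp [hp]
    rw [h1, map_zero, pr_update_zero h M _ (Finset.mem_toList.2 (Finset.mem_univ p))]
  · exact fun h => absurd (Finset.mem_univ q) h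

/-- The norm of the derivative, any `w`. -/
theorem normSq_fderiv_le [DecidableEq κ] (hφ : ∀ p, Differentiable ℝ (φ p)) (w : F)
    (Y : PiLp 2 E) :
    ‖fderiv ℝ (ps h M e φ w) Y‖ ^ 2 ≤
      (∑ q, ‖fderiv ℝ (φ q) (Y q)‖ ^ 2 * ∏ p ∈ Finset.univ.erase q, ‖φ p (Y p)‖ ^ 2) *
        ‖w‖ ^ 2 := by
  set S := ∑ q, ‖fderiv ℝ (φ q) (Y q)‖ ^ 2 * ∏ p ∈ Finset.univ.erase q, ‖φ p (Y p)‖ ^ 2 with hS
  have hS0 : 0 ≤ S := Finset.sum_nonneg fun q _ =>
    mul_nonneg (sq_nonneg _) (Finset.prod_nonneg fun p _ => sq_nonneg _)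
  have h1 : ‖fderiv ℝ (ps h M e φ w) Y‖ ≤ Real.sqrt S * ‖w‖ := by
    refine ContinuousLinearMap.opNorm_le_bound _ (by positivity) fun v => ?_
    rw [fderiv_ps h M hφ]
    have h2 : ∀ q, ‖pr h M e Finset.univ.toList
        (Function.update (fun p => φ p (Y p)) q (fderiv ℝ (φ q) (Y q) (v q))) w‖ ≤
        (‖fderiv ℝ (φ q) (Y q)‖ * ∏ p ∈ Finset.univ.erase q, ‖φ p (Y p)‖) * ‖v q‖ * ‖w‖ := by
      intro q
      refine (norm_update_le h M _ q _ w).trans ?_
      have h3 := (fderiv ℝ (φ q) (Y q)).le_opNorm (v q)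
      have h4 : 0 ≤ ∏ p ∈ Finset.univ.erase q, ‖φ p (Y p)‖ :=
        Finset.prod_nonneg fun p _ => norm_nonneg _
      calc ‖fderiv ℝ (φ q) (Y q) (v q)‖ * (∏ p ∈ Finset.univ.erase q, ‖φ p (Y p)‖) * ‖w‖
          ≤ (‖fderiv ℝ (φ q) (Y q)‖ * ‖v q‖) * (∏ p ∈ Finset.univ.erase q, ‖φ p (Y p)‖) *
            ‖w‖ := by gcongr
        _ = _ := by ring
    refine (norm_sum_le_of_le _ fun q _ => h2 q).trans ?_
    rw [← Finset.sum_mul, mul_right_comm]
    refine mul_le_mul_of_nonneg_right ?_ (norm_nonneg w)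
    have h5 := Finset.sum_mul_sq_le_sq_mul_sq Finset.univ
      (fun q => ‖fderiv ℝ (φ q) (Y q)‖ * ∏ p ∈ Finset.univ.erase q, ‖φ p (Y p)‖)
      (fun q => ‖v q‖)
    have h6 : (∑ q, (‖fderiv ℝ (φ q) (Y q)‖ *
        ∏ p ∈ Finset.univ.erase q, ‖φ p (Y p)‖) ^ 2) = S := by
      rw [hS]
      exact Finset.sum_congr rfl fun q _ => by rw [mul_pow, Finset.prod_pow]
    rw [h6, ← PiLp.norm_sq_eq_of_L2 E v] at h5
    have h7 : (Real.sqrt S * ‖v‖) ^ 2 = S * ‖v‖ ^ 2 := by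
      rw [mul_pow, Real.sq_sqrt hS0]
    rw [← h7] at h5
    exact (abs_le_of_sq_le_sq' h5 (by positivity)).2
  calc ‖fderiv ℝ (ps h M e φ w) Y‖ ^ 2 ≤ (Real.sqrt S * ‖w‖) ^ 2 :=
        pow_le_pow_left₀ (norm_nonneg (fderiv ℝ (ps h M e φ w) Y)) h1 2
    _ = S * ‖w‖ ^ 2 := by rw [mul_pow, Real.sq_sqrt hS0]

end smooth

/-! ## support -/

section supp

variable {φ : ∀ p, E p → Ff p}

theorem pr_eq_zero {l : List κ} {f : ∀ p, Ff p} {q : κ} (hq : q ∈ l) (h0 : f q = 0) (w : F) :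
    pr h M e l f w = 0 := by
  classical
  have h1 := pr_update_zero h M (e := e) f hq w
  rwa [← h0, Function.update_eq_self] at h1

theorem ps_eq_zero {Y : PiLp 2 E} {q : κ} (h0 : φ q (Y q) = 0) (w : F) :
    ps h M e φ w Y = 0 :=
  pr_eq_zero h M (Finset.mem_toList.2 (Finset.mem_univ q)) h0 w

theorem hasCompactSupport_ps (hc : ∀ p, HasCompactSupport (φ p)) (w : F) :
    HasCompactSupport (ps h M e φ w) := by
  have h1 : IsCompact ((WithLp.ofLp : PiLp 2 E → ∀ p, E p) ⁻¹'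
      (Set.univ.pi fun p => tsupport (φ p))) :=
    (PiLp.homeomorph 2 E).isCompact_preimage.2 (isCompact_univ_pi fun p => hc p)
  refine HasCompactSupport.intro h1 fun Y hY => ?_
  simp only [Set.mem_preimage, Set.mem_pi, Set.mem_univ, true_implies, not_forall] at hY
  obtain ⟨q, hq⟩ := hY
  exact ps_eq_zero h M (image_eq_zero_of_notMem_tsupport hq) w

theorem ps_update [DecidableEq κ] (q : κ) (χ : E q → Ff q) (w : F) (Y : PiLp 2 E) :
    ps h M e (Function.update φ q χ) w Y =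
      pr h M e Finset.univ.toList (Function.update (fun p => φ p (Y p)) q (χ (Y q))) w := by
  unfold ps
  congr 1
  funext p
  by_cases hp : p = q
  · subst hp
    simp
  · simp [Function.update_of_ne hp]

end supp

/-! ## integrals -/

section aux

variable {X G : Type*} [NormedAddCommGroup X] [MeasurableSpace X] [BorelSpace X]
  [NormedAddCommGroup G] {μ : Measure X} [IsFiniteMeasureOnCompacts μ] {f : X → G}

theorem integrable_wn (hf : Continuous f) (hc : HasCompactSupport f) (k : ℕ) :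
    Integrable (fun y => ‖y‖ ^ k * ‖f y‖ ^ 2) μ := by
  refine Continuous.integrable_of_hasCompactSupport (by fun_prop) ?_
  refine hc.mono fun y hy h0 => hy ?_
  simp [h0]

theorem integrable_n (hf : Continuous f) (hc : HasCompactSupport f) :
    Integrable (fun y => ‖f y‖ ^ 2) μ := by
  refine Continuous.integrable_of_hasCompactSupport (by fun_prop) ?_
  refine hc.mono fun y hy h0 => hy ?_
  simp [h0]

end aux

section integrals

variable [∀ p, FiniteDimensional ℝ (E p)] [∀ p, MeasurableSpace (E p)] [∀ p, BorelSpace (E p)]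
  {φ φ' : ∀ p, E p → Ff p}

section orth

variable (ho : ∀ p q, p ≠ q → ∀ x y, ⟪e p x, e q y⟫_ℝ = 0)
include ho

theorem integral_inner_ps {w : F} (w' : F) (hw : w ∈ vacA M e u v s) :
    ∫ Y, ⟪ps h M e φ w Y, ps h M e φ' w' Y⟫_ℂ =
      (∏ p, ∫ y, ⟪φ p y, φ' p y⟫_ℂ) * ⟪w, w'⟫_ℂ := by
  rw [← PiVol269.integral_prod, ← integral_mul_const]
  exact integral_congr_ae (Filter.Eventually.of_forall fun Y => inner_univ h M ho _ _ w' hw)

theorem normSq_ps {w : F} (hw : w ∈ vacA M e u v s) (Y : PiLp 2 E) :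
    ‖ps h M e φ w Y‖ ^ 2 = (∏ p, ‖φ p (Y p)‖ ^ 2) * ‖w‖ ^ 2 := normSq_univ h M ho _ hw

theorem integral_normSq_ps {w : F} (hw : w ∈ vacA M e u v s) :
    ∫ Y, ‖ps h M e φ w Y‖ ^ 2 = (∏ p, ∫ y, ‖φ p y‖ ^ 2) * ‖w‖ ^ 2 := by
  rw [← PiVol269.integral_prod, ← integral_mul_const]
  exact integral_congr_ae (Filter.Eventually.of_forall fun Y => normSq_ps h M ho hw Y)

theorem integral_normSq_update [DecidableEq κ] (q : κ) (χ : E q → Ff q) {w : F}
    (hw : w ∈ vacA M e u v s) :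
    ∫ Y : PiLp 2 E, ‖pr h M e Finset.univ.toList
        (Function.update (fun p => φ p (Y p)) q (χ (Y q))) w‖ ^ 2 =
      (∫ y, ‖χ y‖ ^ 2) * (∏ p ∈ Finset.univ.erase q, ∫ y, ‖φ p y‖ ^ 2) * ‖w‖ ^ 2 := by
  rw [← integral_slot (fun p y => ‖φ p y‖ ^ 2) q (fun y => ‖χ y‖ ^ 2), ← integral_mul_const]
  exact integral_congr_ae (Filter.Eventually.of_forall fun Y =>
    normSq_update h M ho _ q (χ (Y q)) hw)

theorem integral_moment2 [DecidableEq κ] (hi : ∀ p, Integrable fun y => ‖φ p y‖ ^ 2)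
    (hm : ∀ p, Integrable fun y => ‖y‖ ^ 2 * ‖φ p y‖ ^ 2) {w : F} (hw : w ∈ vacA M e u v s) :
    ∫ Y, ‖Y‖ ^ 2 * ‖ps h M e φ w Y‖ ^ 2 =
      (∑ q, (∫ y, ‖y‖ ^ 2 * ‖φ q y‖ ^ 2) *
        ∏ p ∈ Finset.univ.erase q, ∫ y, ‖φ p y‖ ^ 2) * ‖w‖ ^ 2 := by
  rw [← integral_normSq_gen (f := fun p y => ‖φ p y‖ ^ 2) hi hm, ← integral_mul_const]
  refine integral_congr_ae (Filter.Eventually.of_forall fun Y => ?_)
  simp only
  rw [normSq_ps h M ho hw, mul_assoc]

/-- Second moment, normalised blocks. -/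
theorem integral_moment2_one (hi : ∀ p, Integrable fun y => ‖φ p y‖ ^ 2)
    (hm : ∀ p, Integrable fun y => ‖y‖ ^ 2 * ‖φ p y‖ ^ 2) (h1 : ∀ p, ∫ y, ‖φ p y‖ ^ 2 = 1)
    {w : F} (hw : w ∈ vacA M e u v s) :
    ∫ Y, ‖Y‖ ^ 2 * ‖ps h M e φ w Y‖ ^ 2 = (∑ q, ∫ y, ‖y‖ ^ 2 * ‖φ q y‖ ^ 2) * ‖w‖ ^ 2 := by
  classical
  rw [integral_moment2 h M ho hi hm hw]
  congr 1
  exact Finset.sum_congr rfl fun q _ => by rw [Finset.prod_eq_one fun p _ => h1 p, mul_one]

/-- Fourth moment, normalised blocks. -/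
theorem integral_moment4_le (hi : ∀ p, Integrable fun y => ‖φ p y‖ ^ 2)
    (hm : ∀ p, Integrable fun y => ‖y‖ ^ 4 * ‖φ p y‖ ^ 2) (h1 : ∀ p, ∫ y, ‖φ p y‖ ^ 2 = 1)
    {w : F} (hw : w ∈ vacA M e u v s) :
    ∫ Y, ‖Y‖ ^ 4 * ‖ps h M e φ w Y‖ ^ 2 ≤
      (Fintype.card κ * ∑ q, ∫ y, ‖y‖ ^ 4 * ‖φ q y‖ ^ 2) * ‖w‖ ^ 2 := by
  have h2 := integral_normFour_le (f := fun p y => ‖φ p y‖ ^ 2) hi (fun _ _ => sq_nonneg _) hm h1
  have h3 : ∫ Y, ‖Y‖ ^ 4 * ‖ps h M e φ w Y‖ ^ 2 =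
      (∫ Y : PiLp 2 E, ‖Y‖ ^ 4 * ∏ p, ‖φ p (Y p)‖ ^ 2) * ‖w‖ ^ 2 := by
    rw [← integral_mul_const]
    refine integral_congr_ae (Filter.Eventually.of_forall fun Y => ?_)
    simp only
    rw [normSq_ps h M ho hw, mul_assoc]
  rw [h3]
  exact mul_le_mul_of_nonneg_right h2 (sq_nonneg _)

end orth

section compact

variable (hφ : ∀ p, ContDiff ℝ 1 (φ p)) (hc : ∀ p, HasCompactSupport (φ p))
include hφ hc

theorem integrable_nsq (p : κ) : Integrable fun y => ‖φ p y‖ ^ 2 :=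
  integrable_n (hφ p).continuous (hc p)

theorem integrable_nsq_weight (p : κ) (k : ℕ) : Integrable fun y => ‖y‖ ^ k * ‖φ p y‖ ^ 2 :=
  integrable_wn (hφ p).continuous (hc p) k

theorem integrable_dsq (p : κ) : Integrable fun y => ‖fderiv ℝ (φ p) y‖ ^ 2 :=
  integrable_n ((hφ p).continuous_fderiv one_ne_zero) ((hc p).fderiv (𝕜 := ℝ))

theorem integrable_dsq_weight (p : κ) (k : ℕ) :
    Integrable fun y => ‖y‖ ^ k * ‖fderiv ℝ (φ p) y‖ ^ 2 :=
  integrable_wn ((hφ p).continuous_fderiv one_ne_zero) ((hc p).fderiv (𝕜 := ℝ)) k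

theorem integrable_fderiv_ps (w : F) : Integrable fun Y => ‖fderiv ℝ (ps h M e φ w) Y‖ ^ 2 :=
  integrable_n ((contDiff_ps h M hφ w).continuous_fderiv one_ne_zero)
    ((hasCompactSupport_ps h M hc w).fderiv (𝕜 := ℝ))

theorem integrable_fderiv_ps_weight (w : F) (k : ℕ) :
    Integrable fun Y => ‖Y‖ ^ k * ‖fderiv ℝ (ps h M e φ w) Y‖ ^ 2 :=
  integrable_wn ((contDiff_ps h M hφ w).continuous_fderiv one_ne_zero)
    ((hasCompactSupport_ps h M hc w).fderiv (𝕜 := ℝ)) k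

theorem integrable_ps_weight (w : F) (k : ℕ) :
    Integrable fun Y => ‖Y‖ ^ k * ‖ps h M e φ w Y‖ ^ 2 :=
  integrable_wn (contDiff_ps h M hφ w).continuous (hasCompactSupport_ps h M hc w) k

theorem integrable_ps (w : F) : Integrable fun Y => ‖ps h M e φ w Y‖ ^ 2 :=
  integrable_n (contDiff_ps h M hφ w).continuous (hasCompactSupport_ps h M hc w)

/-- The gradient of the product state, normalised blocks, any `w`. -/
theorem integral_grad_le (h1 : ∀ p, ∫ y, ‖φ p y‖ ^ 2 = 1) (w : F) :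
    ∫ Y, ‖fderiv ℝ (ps h M e φ w) Y‖ ^ 2 ≤
      (∑ q, ∫ y, ‖fderiv ℝ (φ q) y‖ ^ 2) * ‖w‖ ^ 2 := by
  classical
  have hd : ∀ p, Differentiable ℝ (φ p) := fun p => (hφ p).differentiable one_ne_zero
  have hi : ∀ q ∈ Finset.univ, Integrable fun Y : PiLp 2 E =>
      ‖fderiv ℝ (φ q) (Y q)‖ ^ 2 * ∏ p ∈ Finset.univ.erase q, ‖φ p (Y p)‖ ^ 2 := fun q _ =>
    integrable_slot (f := fun p y => ‖φ p y‖ ^ 2) (h := fun y => ‖fderiv ℝ (φ q) y‖ ^ 2)
      (integrable_dsq hφ hc q) fun p _ => integrable_nsq hφ hc p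
  refine (integral_mono (integrable_fderiv_ps h M hφ hc w)
    ((integrable_finsetSum _ hi).mul_const _) fun Y => normSq_fderiv_le h M hd w Y).trans_eq ?_
  rw [integral_mul_const, integral_finsetSum _ hi]
  congr 1
  refine Finset.sum_congr rfl fun q _ => ?_
  rw [integral_slot (fun p y => ‖φ p y‖ ^ 2) q (fun y => ‖fderiv ℝ (φ q) y‖ ^ 2),
    Finset.prod_eq_one fun p _ => h1 p, mul_one]

/-- The weighted gradient of the product state, normalised blocks, any `w`. -/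
theorem integral_moment_grad_le (h1 : ∀ p, ∫ y, ‖φ p y‖ ^ 2 = 1) (w : F) :
    ∫ Y, ‖Y‖ ^ 2 * ‖fderiv ℝ (ps h M e φ w) Y‖ ^ 2 ≤
      ((∑ q, ∫ y, ‖y‖ ^ 2 * ‖fderiv ℝ (φ q) y‖ ^ 2) +
        (∑ q, ∫ y, ‖fderiv ℝ (φ q) y‖ ^ 2) * ∑ q, ∫ y, ‖y‖ ^ 2 * ‖φ q y‖ ^ 2) * ‖w‖ ^ 2 := by
  classical
  have hd : ∀ p, Differentiable ℝ (φ p) := fun p => (hφ p).differentiable one_ne_zero
  set dn : ∀ q : κ, ∀ p, E p → ℝ := fun q =>
    Function.update (fun p y => ‖φ p y‖ ^ 2) q (fun y => ‖fderiv ℝ (φ q) y‖ ^ 2) with hdn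
  have hdp : ∀ q (Y : PiLp 2 E), ∏ p, dn q p (Y p) =
      ‖fderiv ℝ (φ q) (Y q)‖ ^ 2 * ∏ p ∈ Finset.univ.erase q, ‖φ p (Y p)‖ ^ 2 := fun q Y =>
    prod_update (fun p y => ‖φ p y‖ ^ 2) q (fun y => ‖fderiv ℝ (φ q) y‖ ^ 2) (ofLp Y)
  have hdi : ∀ q p, Integrable (dn q p) := fun q p => by
    by_cases hp : p = q
    · subst hp
      simp only [hdn, Function.update_self]
      exact integrable_dsq hφ hc p
    · simp only [hdn, Function.update_of_ne hp]
      exact integrable_nsq hφ hc p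
  have hdm : ∀ q p, Integrable fun y => ‖y‖ ^ 2 * dn q p y := fun q p => by
    by_cases hp : p = q
    · subst hp
      simp only [hdn, Function.update_self]
      exact integrable_dsq_weight hφ hc p 2
    · simp only [hdn, Function.update_of_ne hp]
      exact integrable_nsq_weight hφ hc p 2
  have hi : ∀ q ∈ Finset.univ, Integrable fun Y : PiLp 2 E => ‖Y‖ ^ 2 * ∏ p, dn q p (Y p) :=
    fun q _ => integrable_normSq (hdi q) (hdm q)
  refine (integral_mono (integrable_fderiv_ps_weight h M hφ hc w 2)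
    ((integrable_finsetSum _ hi).mul_const (‖w‖ ^ 2)) fun Y => ?_).trans ?_
  · have h2 := normSq_fderiv_le h M (e := e) hd w Y
    simp only
    rw [← Finset.mul_sum, mul_assoc]
    refine mul_le_mul_of_nonneg_left ?_ (sq_nonneg _)
    refine h2.trans_eq ?_
    congr 1
    exact Finset.sum_congr rfl fun q _ => (hdp q Y).symm
  · rw [integral_mul_const, integral_finsetSum _ hi]
    refine mul_le_mul_of_nonneg_right ?_ (sq_nonneg _)
    have h3 : ∀ q, ∫ Y : PiLp 2 E, ‖Y‖ ^ 2 * ∏ p, dn q p (Y p) ≤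
        (∫ y, ‖y‖ ^ 2 * ‖fderiv ℝ (φ q) y‖ ^ 2) +
          (∫ y, ‖fderiv ℝ (φ q) y‖ ^ 2) * ∑ r, ∫ y, ‖y‖ ^ 2 * ‖φ r y‖ ^ 2 := by
      intro q
      rw [integral_normSq_gen (hdi q) (hdm q), ← Finset.add_sum_erase _ _ (Finset.mem_univ q)]
      have e1 : ∀ p, p ≠ q → ∫ y, dn q p y = 1 := fun p hp => by
        simp only [hdn, Function.update_of_ne hp]
        exact h1 p
      have e2 : ∫ y, dn q q y = ∫ y, ‖fderiv ℝ (φ q) y‖ ^ 2 := by
        simp only [hdn, Function.update_self]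
      have e3 : (∫ y, ‖y‖ ^ 2 * dn q q y) = ∫ y, ‖y‖ ^ 2 * ‖fderiv ℝ (φ q) y‖ ^ 2 := by
        simp only [hdn, Function.update_self]
      refine add_le_add ?_ ?_
      · rw [Finset.prod_eq_one fun p hp => e1 p (Finset.ne_of_mem_erase hp), mul_one, e3]
      · rw [Finset.mul_sum]
        refine (Finset.sum_le_sum fun r hr => ?_).trans
          (Finset.sum_le_sum_of_subset_of_nonneg (Finset.erase_subset q _) fun r _ _ => ?_)
          (b := ∑ r ∈ Finset.univ.erase q, (∫ y, ‖fderiv ℝ (φ q) y‖ ^ 2) *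
            ∫ y, ‖y‖ ^ 2 * ‖φ r y‖ ^ 2)
        · have hr' : r ≠ q := Finset.ne_of_mem_erase hr
          have e4 : ∏ p ∈ Finset.univ.erase r, ∫ y, dn q p y =
              ∫ y, ‖fderiv ℝ (φ q) y‖ ^ 2 := by
            rw [← Finset.mul_prod_erase _ _
              (Finset.mem_erase.2 ⟨Ne.symm hr', Finset.mem_univ q⟩), e2,
              Finset.prod_eq_one fun p hp => e1 p (Finset.ne_of_mem_erase hp), mul_one]
          have e5 : (∫ y, ‖y‖ ^ 2 * dn q r y) = ∫ y, ‖y‖ ^ 2 * ‖φ r y‖ ^ 2 := by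
            simp only [hdn, Function.update_of_ne hr']
          rw [e4, e5, mul_comm]
        · exact mul_nonneg (integral_nonneg fun _ => sq_nonneg _)
            (integral_nonneg fun _ => mul_nonneg (sq_nonneg _) (sq_nonneg _))
    refine (Finset.sum_le_sum fun q _ => h3 q).trans_eq ?_
    rw [Finset.sum_add_distrib, ← Finset.sum_mul]

end compact

end integrals

end Crest.Agent.R330.PsiMom269
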