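import Crest.Agent.R330.Psi8_477
import Crest.Agent.R330.PsiMom_269

/-!
# Row 330, S8-PSI: integrals of the block state `D.psi φ` (helper269)

`φ p : Cfg (k p) → Fb p` smooth with compact support and `∫ ‖φ p‖² = 1`, `w ∈ D.W`.

* `psi_eq_ps` : the block state is the product state of `PsiMom_269`.
* `integral_inner_psi` : `∫ ⟪psi w, psi w'⟫ = ⟪w, w'⟫`.
* `integral_mom2`, `integral_mom4_le`.
* `integral_slot_sq`, `integral_bch`, `sum_integral_bch` : block charges.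
* `dY` : the sum of the squares of the partial derivatives; `normSq_fderiv_le_dY`, `dY_psi`,
  `integral_dY`, `integral_mom_dY_le`.
-/

set_option autoImplicit false
set_option linter.unusedSectionVars false

open MeasureTheory Filter Topology Crest.MathPhysics.MatrixQM
open scoped ContDiff InnerProductSpace ENNReal

noncomputable section

namespace Crest.Agent.R330.PsiInt269

open Crest.Agent.R330.Cliff442 Crest.Agent.R330.Fact161 Crest.Agent.R330.FactI161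
open Crest.Agent.R330.Bind6839 Crest.Agent.R330.Defs478 Crest.Agent.R330.SInd478
open Crest.Agent.R330.Pkg915 Crest.Agent.R330.LS839 Crest.Agent.R330.Psi477
open Crest.Agent.R330.Psi477.BD (val sg sum_sg)

variable {N : ℕ} {F : Type*} [NormedAddCommGroup F] [InnerProductSpace ℂ F]
  [FiniteDimensional ℂ F] {κ : Type*} [Fintype κ] [DecidableEq κ] {k : κ → ℕ}
  {Fb : κ → Type*} [∀ p, NormedAddCommGroup (Fb p)] [∀ p, InnerProductSpace ℂ (Fb p)]
  [∀ p, FiniteDimensional ℂ (Fb p)]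
  {M : FermionRep N F} {G : GammaNine} (D : BD M G k Fb) {φ : ∀ p, Cfg (k p) → Fb p}

theorem psi_eq_ps (w : F) (Y : EY k) :
    D.psi φ Y w = PsiMom269.ps D.pol (cr M) (fun p => te (D.ε p)) φ w Y := rfl

theorem psi_fun_eq (w : F) :
    (fun Y => D.psi φ Y w) = PsiMom269.ps D.pol (cr M) (fun p => te (D.ε p)) φ w := rfl

/-! ## integrability -/

section int

variable (hφ : ∀ p, ContDiff ℝ 1 (φ p)) (hc : ∀ p, HasCompactSupport (φ p))
include hφ hc

theorem hasCompactSupport_psi (w : F) : HasCompactSupport fun Y => D.psi φ Y w :=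
  PsiMom269.hasCompactSupport_ps D.pol (cr M) (e := fun p => te (D.ε p)) hc w

theorem contDiff_one_psi (w : F) : ContDiff ℝ 1 fun Y => D.psi φ Y w :=
  D.contDiff_psi hφ contDiff_id contDiff_const

theorem integrable_psi (w : F) : Integrable fun Y => ‖D.psi φ Y w‖ ^ 2 :=
  PsiMom269.integrable_n (contDiff_one_psi D hφ hc w).continuous (hasCompactSupport_psi D hφ hc w)

theorem integrable_psi_weight (w : F) (n : ℕ) : Integrable fun Y => ‖Y‖ ^ n * ‖D.psi φ Y w‖ ^ 2 :=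
  PsiMom269.integrable_wn (contDiff_one_psi D hφ hc w).continuous
    (hasCompactSupport_psi D hφ hc w) n

theorem integrable_dpsi (w : F) : Integrable fun Y => ‖fderiv ℝ (fun Y => D.psi φ Y w) Y‖ ^ 2 :=
  PsiMom269.integrable_n ((contDiff_one_psi D hφ hc w).continuous_fderiv one_ne_zero)
    ((hasCompactSupport_psi D hφ hc w).fderiv (𝕜 := ℝ))

theorem integrable_dpsi_weight (w : F) (n : ℕ) :
    Integrable fun Y => ‖Y‖ ^ n * ‖fderiv ℝ (fun Y => D.psi φ Y w) Y‖ ^ 2 :=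
  PsiMom269.integrable_wn ((contDiff_one_psi D hφ hc w).continuous_fderiv one_ne_zero)
    ((hasCompactSupport_psi D hφ hc w).fderiv (𝕜 := ℝ)) n

end int

/-! ## norms and moments -/

theorem integral_inner_psi (h1 : ∀ p, ∫ y, ‖φ p y‖ ^ 2 = 1) {w : F} (hw : w ∈ D.W) (w' : F) :
    ∫ Y, ⟪D.psi φ Y w, D.psi φ Y w'⟫_ℂ = ⟪w, w'⟫_ℂ := by
  have h2 := PsiMom269.integral_inner_ps D.pol (cr M) (e := fun p => te (D.ε p)) (φ := φ)
    (φ' := φ) D.orth w' hw
  have h3 : ∏ p, ∫ y, ⟪φ p y, φ p y⟫_ℂ = 1 := by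
    refine Finset.prod_eq_one fun p _ => ?_
    have h4 : ∀ y, ⟪φ p y, φ p y⟫_ℂ = ((‖φ p y‖ ^ 2 : ℝ) : ℂ) := fun y => by
      rw [inner_self_eq_norm_sq_to_K]
      simp
    rw [integral_congr_ae (Eventually.of_forall h4), integral_complex_ofReal, h1 p,
      Complex.ofReal_one]
  rw [h3, one_mul] at h2
  exact h2

theorem integral_normSq_psi (h1 : ∀ p, ∫ y, ‖φ p y‖ ^ 2 = 1) {w : F} (hw : w ∈ D.W) :
    ∫ Y, ‖D.psi φ Y w‖ ^ 2 = ‖w‖ ^ 2 := by
  have h2 := PsiMom269.integral_normSq_ps D.pol (cr M) (e := fun p => te (D.ε p)) (φ := φ)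
    D.orth hw
  rw [Finset.prod_eq_one fun p _ => h1 p, one_mul] at h2
  exact h2

section mom

variable (hφ : ∀ p, ContDiff ℝ 1 (φ p)) (hc : ∀ p, HasCompactSupport (φ p))
  (h1 : ∀ p, ∫ y, ‖φ p y‖ ^ 2 = 1)
include hφ hc h1

theorem integral_mom2 {w : F} (hw : w ∈ D.W) :
    ∫ Y, ‖Y‖ ^ 2 * ‖D.psi φ Y w‖ ^ 2 = (∑ q, ∫ y, ‖y‖ ^ 2 * ‖φ q y‖ ^ 2) * ‖w‖ ^ 2 :=
  PsiMom269.integral_moment2_one D.pol (cr M) (e := fun p => te (D.ε p)) D.orth
    (fun p => PsiMom269.integrable_nsq hφ hc p) (fun p => PsiMom269.integrable_nsq_weight hφ hc p 2)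
    h1 hw

theorem integral_mom4_le {w : F} (hw : w ∈ D.W) :
    ∫ Y, ‖Y‖ ^ 4 * ‖D.psi φ Y w‖ ^ 2 ≤
      (Fintype.card κ * ∑ q, ∫ y, ‖y‖ ^ 4 * ‖φ q y‖ ^ 2) * ‖w‖ ^ 2 :=
  PsiMom269.integral_moment4_le D.pol (cr M) (e := fun p => te (D.ε p)) D.orth
    (fun p => PsiMom269.integrable_nsq hφ hc p) (fun p => PsiMom269.integrable_nsq_weight hφ hc p 4)
    h1 hw

end mom

/-! ## one variable factor, the charges of the blocks -/

section slot

variable (h1 : ∀ p, ∫ y, ‖φ p y‖ ^ 2 = 1)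
include h1

theorem integral_slot_sq (q : κ) (χ : Cfg (k q) → Fb q) {w : F} (hw : w ∈ D.W) :
    ∫ Y : EY k, ‖D.slot (val φ Y) q w (χ (Y q))‖ ^ 2 = (∫ y, ‖χ y‖ ^ 2) * ‖w‖ ^ 2 := by
  have h2 := PsiMom269.integral_normSq_update D.pol (cr M) (e := fun p => te (D.ε p)) (φ := φ)
    D.orth q χ hw
  rw [Finset.prod_eq_one fun p _ => h1 p, mul_one] at h2
  exact h2

theorem integral_bch (b : ∀ p, ColorBasis (k p)) (hφ : ∀ p, ContDiff ℝ 1 (φ p))
    (he : ∀ p y, D.Even p (φ p y)) (p : κ) (α : Fin 16) (g m : ℝ) {w : F} (hw : w ∈ D.W) :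
    ∫ Y, ‖D.bch b p α g m (fun Y => D.psi φ Y w) Y‖ ^ 2 =
      (∫ y, ‖dcharge (b p) (D.Mb p) G g m α (φ p) y‖ ^ 2) * ‖w‖ ^ 2 := by
  rw [← integral_slot_sq D h1 p _ hw]
  exact integral_congr_ae (Eventually.of_forall fun Y => by
    simp only
    rw [D.bch_psi b hφ he])

theorem sum_integral_bch (b : ∀ p, ColorBasis (k p)) (hφ : ∀ p, ContDiff ℝ 1 (φ p))
    (he : ∀ p y, D.Even p (φ p y)) (p : κ) (g m : ℝ) {w : F} (hw : w ∈ D.W) :
    ∑ α, ∫ Y, ‖D.bch b p α g m (fun Y => D.psi φ Y w) Y‖ ^ 2 =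
      16 * qf (b p) (D.Mb p) G g m (φ p) * ‖w‖ ^ 2 := by
  unfold qf
  rw [Finset.sum_congr rfl fun α _ => integral_bch D h1 b hφ he p α g m hw, ← Finset.sum_mul]
  ring

end slot

section bchint

variable (hφ : ∀ p, ContDiff ℝ 1 (φ p)) (hc : ∀ p, HasCompactSupport (φ p))
include hφ hc

theorem continuous_bch (b : ∀ p, ColorBasis (k p)) (p : κ) (α : Fin 16) (g m : ℝ)
    {Φ : EY k → F} (hΦ : ContDiff ℝ 1 Φ) : Continuous (D.bch b p α g m Φ) := by
  unfold BD.bch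
  refine Continuous.add (continuous_finsetSum _ fun i _ => continuous_finsetSum _ fun A _ =>
    continuous_finsetSum _ fun β _ => ?_) (continuous_finsetSum _ fun A _ =>
      continuous_finsetSum _ fun β _ => ?_)
  · exact ((LinearMap.continuous_of_finiteDimensional _).comp
      ((hΦ.continuous_fderiv one_ne_zero).clm_apply continuous_const)).const_smul _
  · exact (Complex.continuous_ofReal.comp ((continuous_wpot (b p) G g m α β A).comp
      (PiLp.continuous_apply 2 (fun p => Cfg (k p)) p))).smul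
        ((LinearMap.continuous_of_finiteDimensional _).comp hΦ.continuous)

theorem integrable_bch (b : ∀ p, ColorBasis (k p)) (p : κ) (α : Fin 16) (g m : ℝ) (w : F) :
    Integrable fun Y => ‖D.bch b p α g m (fun Y => D.psi φ Y w) Y‖ ^ 2 := by
  refine PsiMom269.integrable_n (continuous_bch D hφ hc b p α g m (contDiff_one_psi D hφ hc w))
    (HasCompactSupport.intro (hasCompactSupport_psi D hφ hc w) fun Y hY => ?_)
  have h1 : D.psi φ Y w = 0 :=
    image_eq_zero_of_notMem_tsupport (f := fun Y => D.psi φ Y w) hY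
  have h2 : fderiv ℝ (fun Y => D.psi φ Y w) Y = 0 := by
    by_contra h3
    exact hY (tsupport_fderiv_subset ℝ (subset_tsupport _ h3))
  unfold BD.bch
  simp only
  rw [h1, h2]
  simp

end bchint

/-! ## gradients -/

section grad

/-- The sum of the squares of the partial derivatives. -/
def dY (Φ : EY k → F) (Y : EY k) : ℝ :=
  ∑ p, ∑ j : Fin 9 × Fin (k p ^ 2 - 1),
    ‖fderiv ℝ Φ Y (sg p (EuclideanSpace.single j 1))‖ ^ 2

theorem dY_nonneg (Φ : EY k → F) (Y : EY k) : 0 ≤ dY Φ Y :=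
  Finset.sum_nonneg fun _ _ => Finset.sum_nonneg fun _ _ => sq_nonneg _

theorem dY_eq (Φ : EY k → F) (Y : EY k) : dY Φ Y =
    ∑ q : (p : κ) × (Fin 9 × Fin (k p ^ 2 - 1)),
      ‖fderiv ℝ Φ Y (sg q.1 (EuclideanSpace.single q.2 1))‖ ^ 2 := by
  rw [Fintype.sum_sigma]
  rfl

theorem normSq_fderiv_le_dY (Φ : EY k → F) (Y v : EY k) :
    ‖fderiv ℝ Φ Y v‖ ^ 2 ≤ ‖v‖ ^ 2 * dY Φ Y := by
  have h1 : v = ∑ q : (p : κ) × (Fin 9 × Fin (k p ^ 2 - 1)),
      v q.1 q.2 • sg q.1 (EuclideanSpace.single q.2 (1 : ℝ)) := by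
    rw [Fintype.sum_sigma]
    conv_lhs => rw [← sum_sg v]
    refine Finset.sum_congr rfl fun p _ => ?_
    have h2 : v p = ∑ j, v p j • EuclideanSpace.single j (1 : ℝ) := by
      ext i
      simp [Finset.sum_apply, Pi.single_apply]
    conv_lhs => rw [h2]
    ext r : 1
    by_cases hr : r = p
    · subst hr
      simp [sg]
    · simp [sg, hr]
  have h3 : ‖v‖ ^ 2 = ∑ q : (p : κ) × (Fin 9 × Fin (k p ^ 2 - 1)), |v q.1 q.2| ^ 2 := by
    rw [PiLp.norm_sq_eq_of_L2, Fintype.sum_sigma]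
    refine Finset.sum_congr rfl fun p _ => ?_
    rw [EuclideanSpace.norm_sq_eq]
    rfl
  have h4 : ‖fderiv ℝ Φ Y v‖ ≤ ∑ q : (p : κ) × (Fin 9 × Fin (k p ^ 2 - 1)),
      |v q.1 q.2| * ‖fderiv ℝ Φ Y (sg q.1 (EuclideanSpace.single q.2 1))‖ := by
    conv_lhs => rw [h1]
    rw [map_sum]
    refine (norm_sum_le _ _).trans_eq (Finset.sum_congr rfl fun q _ => ?_)
    rw [map_smul, norm_smul, Real.norm_eq_abs]
  rw [h3, dY_eq]
  refine (pow_le_pow_left₀ (norm_nonneg (fderiv ℝ Φ Y v)) h4 2).trans ?_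
  exact Finset.sum_mul_sq_le_sq_mul_sq _ _ _

theorem opNorm_sq_le_dY (Φ : EY k → F) (Y : EY k) : ‖fderiv ℝ Φ Y‖ ^ 2 ≤ dY Φ Y := by
  have h1 : ‖fderiv ℝ Φ Y‖ ≤ Real.sqrt (dY Φ Y) := by
    refine ContinuousLinearMap.opNorm_le_bound _ (Real.sqrt_nonneg _) fun v => ?_
    refine (sq_le_sq₀ (norm_nonneg _) (by positivity)).1 ?_
    rw [mul_pow, Real.sq_sqrt (dY_nonneg Φ Y), mul_comm]
    exact normSq_fderiv_le_dY Φ Y v
  calc ‖fderiv ℝ Φ Y‖ ^ 2 ≤ Real.sqrt (dY Φ Y) ^ 2 :=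
        pow_le_pow_left₀ (norm_nonneg (fderiv ℝ Φ Y)) h1 2
    _ = dY Φ Y := Real.sq_sqrt (dY_nonneg Φ Y)

theorem dY_psi (hφ : ∀ p, ContDiff ℝ 1 (φ p)) {w : F} (hw : w ∈ D.W) (Y : EY k) :
    dY (fun Y => D.psi φ Y w) Y =
      ∑ p, dsq (φ p) (Y p) * (∏ q ∈ Finset.univ.erase p, ‖φ q (Y q)‖ ^ 2) * ‖w‖ ^ 2 := by
  unfold dY dsq
  refine Finset.sum_congr rfl fun p _ => ?_
  rw [Finset.sum_mul, Finset.sum_mul]
  refine Finset.sum_congr rfl fun j _ => ?_
  rw [D.fderiv_sg hφ, D.norm_slot _ _ hw, mul_pow, mul_pow, Finset.prod_pow]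
  rfl

variable (hφ : ∀ p, ContDiff ℝ 1 (φ p)) (hc : ∀ p, HasCompactSupport (φ p))
include hφ hc

theorem integrable_dY (w : F) : Integrable (dY fun Y => D.psi φ Y w) := by
  unfold dY
  refine integrable_finsetSum _ fun p _ => integrable_finsetSum _ fun j _ => ?_
  refine PsiMom269.integrable_n (((contDiff_one_psi D hφ hc w).continuous_fderiv
    one_ne_zero).clm_apply continuous_const) ?_
  exact HasCompactSupport.intro ((hasCompactSupport_psi D hφ hc w).fderiv (𝕜 := ℝ))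
    fun Y hY => by rw [image_eq_zero_of_notMem_tsupport hY]; rfl

theorem integrable_dY_weight (w : F) (n : ℕ) :
    Integrable fun Y => ‖Y‖ ^ n * dY (fun Y => D.psi φ Y w) Y := by
  unfold dY
  simp only [Finset.mul_sum]
  refine integrable_finsetSum _ fun p _ => integrable_finsetSum _ fun j _ => ?_
  refine PsiMom269.integrable_wn (((contDiff_one_psi D hφ hc w).continuous_fderiv
    one_ne_zero).clm_apply continuous_const) ?_ n
  exact HasCompactSupport.intro ((hasCompactSupport_psi D hφ hc w).fderiv (𝕜 := ℝ))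
    fun Y hY => by rw [image_eq_zero_of_notMem_tsupport hY]; rfl

theorem integrable_dsq_wn (p : κ) (n : ℕ) : Integrable fun y => ‖y‖ ^ n * dsq (φ p) y := by
  unfold dsq
  simp only [Finset.mul_sum]
  refine integrable_finsetSum _ fun j _ => ?_
  refine PsiMom269.integrable_wn (((hφ p).continuous_fderiv one_ne_zero).clm_apply
    continuous_const) ?_ n
  exact HasCompactSupport.intro ((hc p).fderiv (𝕜 := ℝ))
    fun Y hY => by rw [image_eq_zero_of_notMem_tsupport hY]; rfl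

variable (h1 : ∀ p, ∫ y, ‖φ p y‖ ^ 2 = 1)
include h1

theorem integral_dY {w : F} (hw : w ∈ D.W) :
    ∫ Y, dY (fun Y => D.psi φ Y w) Y = (∑ p, ∫ y, dsq (φ p) y) * ‖w‖ ^ 2 := by
  have hd : ∀ p, Integrable (dsq (φ p)) := fun p => by
    simpa using integrable_dsq_wn hφ hc p 0
  have hi : ∀ p ∈ Finset.univ, Integrable fun Y : EY k =>
      dsq (φ p) (Y p) * (∏ q ∈ Finset.univ.erase p, ‖φ q (Y q)‖ ^ 2) * ‖w‖ ^ 2 := fun p _ =>
    (PiVol269.integrable_slot (f := fun p y => ‖φ p y‖ ^ 2) (h := dsq (φ p)) (hd p)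
      fun q _ => PsiMom269.integrable_nsq hφ hc q).mul_const _
  rw [integral_congr_ae (Eventually.of_forall fun Y => dY_psi D hφ hw Y),
    integral_finsetSum _ hi, Finset.sum_mul]
  refine Finset.sum_congr rfl fun p _ => ?_
  rw [integral_mul_const, PiVol269.integral_slot (fun p y => ‖φ p y‖ ^ 2) p (dsq (φ p)),
    Finset.prod_eq_one fun q _ => h1 q, mul_one]

theorem integral_mom_dY_le {w : F} (hw : w ∈ D.W) :
    ∫ Y, ‖Y‖ ^ 2 * dY (fun Y => D.psi φ Y w) Y ≤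
      ((∑ p, ∫ y, ‖y‖ ^ 2 * dsq (φ p) y) +
        (∑ p, ∫ y, dsq (φ p) y) * ∑ p, ∫ y, ‖y‖ ^ 2 * ‖φ p y‖ ^ 2) * ‖w‖ ^ 2 := by
  have hd : ∀ p, Integrable (dsq (φ p)) := fun p => by
    simpa using integrable_dsq_wn hφ hc p 0
  set dn : ∀ q : κ, ∀ p, Cfg (k p) → ℝ := fun q =>
    Function.update (fun p y => ‖φ p y‖ ^ 2) q (dsq (φ q)) with hdn
  have hdp : ∀ q (Y : EY k), ∏ p, dn q p (Y p) =
      dsq (φ q) (Y q) * ∏ p ∈ Finset.univ.erase q, ‖φ p (Y p)‖ ^ 2 := fun q Y =>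
    PiVol269.prod_update (fun p y => ‖φ p y‖ ^ 2) q (dsq (φ q)) (WithLp.ofLp Y)
  have hdi : ∀ q p, Integrable (dn q p) := fun q p => by
    by_cases hp : p = q
    · subst hp
      simp only [hdn, Function.update_self]
      exact hd p
    · simp only [hdn, Function.update_of_ne hp]
      exact PsiMom269.integrable_nsq hφ hc p
  have hdm : ∀ q p, Integrable fun y => ‖y‖ ^ 2 * dn q p y := fun q p => by
    by_cases hp : p = q
    · subst hp
      simp only [hdn, Function.update_self]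
      exact integrable_dsq_wn hφ hc p 2
    · simp only [hdn, Function.update_of_ne hp]
      exact PsiMom269.integrable_nsq_weight hφ hc p 2
  have hi : ∀ q ∈ Finset.univ, Integrable fun Y : EY k => ‖Y‖ ^ 2 * ∏ p, dn q p (Y p) :=
    fun q _ => PiVol269.integrable_normSq (hdi q) (hdm q)
  have h2 : ∀ Y : EY k, ‖Y‖ ^ 2 * dY (fun Y => D.psi φ Y w) Y =
      (∑ q, ‖Y‖ ^ 2 * ∏ p, dn q p (Y p)) * ‖w‖ ^ 2 := fun Y => by
    rw [dY_psi D hφ hw, ← Finset.sum_mul, ← Finset.mul_sum, mul_assoc]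
    congr 2
    exact Finset.sum_congr rfl fun q _ => (hdp q Y).symm
  rw [integral_congr_ae (Eventually.of_forall h2), integral_mul_const, integral_finsetSum _ hi]
  refine mul_le_mul_of_nonneg_right ?_ (sq_nonneg _)
  have hds : ∀ p y, 0 ≤ dsq (φ p) y := fun p y => dsq_nonneg (φ p) y
  have h3 : ∀ q, ∫ Y : EY k, ‖Y‖ ^ 2 * ∏ p, dn q p (Y p) ≤
      (∫ y, ‖y‖ ^ 2 * dsq (φ q) y) +
        (∫ y, dsq (φ q) y) * ∑ r, ∫ y, ‖y‖ ^ 2 * ‖φ r y‖ ^ 2 := by
    intro q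
    rw [PiVol269.integral_normSq_gen (hdi q) (hdm q),
      ← Finset.add_sum_erase _ _ (Finset.mem_univ q)]
    have e1 : ∀ p, p ≠ q → ∫ y, dn q p y = 1 := fun p hp => by
      simp only [hdn, Function.update_of_ne hp]
      exact h1 p
    have e2 : ∫ y, dn q q y = ∫ y, dsq (φ q) y := by
      simp only [hdn, Function.update_self]
    have e3 : (∫ y, ‖y‖ ^ 2 * dn q q y) = ∫ y, ‖y‖ ^ 2 * dsq (φ q) y := by
      simp only [hdn, Function.update_self]
    refine add_le_add ?_ ?_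
    · rw [Finset.prod_eq_one fun p hp => e1 p (Finset.ne_of_mem_erase hp), mul_one, e3]
    · rw [Finset.mul_sum]
      refine (Finset.sum_le_sum fun r hr => ?_).trans
        (Finset.sum_le_sum_of_subset_of_nonneg (Finset.erase_subset q _) fun r _ _ => ?_)
        (b := ∑ r ∈ Finset.univ.erase q, (∫ y, dsq (φ q) y) *
          ∫ y, ‖y‖ ^ 2 * ‖φ r y‖ ^ 2)
      · have hr' : r ≠ q := Finset.ne_of_mem_erase hr
        have e4 : ∏ p ∈ Finset.univ.erase r, ∫ y, dn q p y = ∫ y, dsq (φ q) y := by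
          rw [← Finset.mul_prod_erase _ _
            (Finset.mem_erase.2 ⟨Ne.symm hr', Finset.mem_univ q⟩), e2,
            Finset.prod_eq_one fun p hp => e1 p (Finset.ne_of_mem_erase hp), mul_one]
        have e5 : (∫ y, ‖y‖ ^ 2 * dn q r y) = ∫ y, ‖y‖ ^ 2 * ‖φ r y‖ ^ 2 := by
          simp only [hdn, Function.update_of_ne hr']
        rw [e4, e5, mul_comm]
      · exact mul_nonneg (integral_nonneg fun _ => hds q _)
          (integral_nonneg fun _ => mul_nonneg (sq_nonneg _) (sq_nonneg _))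
  refine (Finset.sum_le_sum fun q _ => h3 q).trans_eq ?_
  rw [Finset.sum_add_distrib, ← Finset.sum_mul]

end grad

end Crest.Agent.R330.PsiInt269

end
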