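import Crest.Agent.R330.PsiDef_477
import Crest.Agent.R330.PsiInt_269
import Crest.Agent.R330.Prod3_494

/-!
# Row 330, S8-PSI (helper693): the field `Psi_scale`

* `norm_one_sub_prod_le` : `‖1 - ∏ z‖ ≤ Σ ‖1 - z‖` for `‖z‖ ≤ 1`.
* `int_psi_sub_le` : two families of normalised factors close in `L²` give close block states.
* `pr_smul_all`, `psi_Us` : scaling of the factors scales the block state.
* `psi_scale_le` : `∫ ‖ψ_g Y w - (g/g₀)^{d/6} ψ_{g₀} ((g/g₀)^{1/3} Y) w‖² ≤ K' g₀^{-1/3} ‖w‖²`.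
* `Psi_scale` : **the field of `TPack`**.
-/

set_option autoImplicit false
set_option linter.unusedSectionVars false

open MeasureTheory Filter Topology Crest.MathPhysics.MatrixQM
open scoped ContDiff InnerProductSpace ENNReal

noncomputable section

namespace Crest.Agent.R330.PsiScale693

open Crest.Agent.R330.Cliff442 Crest.Agent.R330.Fact161 Crest.Agent.R330.FactI161
open Crest.Agent.R330.Bind6839 Crest.Agent.R330.Defs478 Crest.Agent.R330.SInd478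
open Crest.Agent.R330.Pkg915 Crest.Agent.R330.LS839 Crest.Agent.R330.TDef414
open Crest.Agent.R330.Psi477 Crest.Agent.R330.PsiMom269 Crest.Agent.R330.Scale423
open Crest.Agent.R330.Prod494 (cs_int)

/-! ### complex products -/

theorem norm_one_sub_prod_le {ι : Type*} (s : Finset ι) (z : ι → ℂ) (h : ∀ i, ‖z i‖ ≤ 1) :
    ‖1 - ∏ i ∈ s, z i‖ ≤ ∑ i ∈ s, ‖1 - z i‖ := by
  classical
  induction s using Finset.induction_on with
  | empty => simp
  | insert a s ha ih =>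
    rw [Finset.prod_insert ha, Finset.sum_insert ha]
    have e : 1 - z a * ∏ i ∈ s, z i = (1 - z a) + z a * (1 - ∏ i ∈ s, z i) := by ring
    rw [e]
    refine (norm_add_le _ _).trans (add_le_add le_rfl ?_)
    rw [norm_mul]
    calc ‖z a‖ * ‖1 - ∏ i ∈ s, z i‖ ≤ 1 * ‖1 - ∏ i ∈ s, z i‖ :=
          mul_le_mul_of_nonneg_right (h a) (norm_nonneg _)
      _ ≤ _ := by rw [one_mul]; exact ih

/-! ### `L²` distances -/

section l2

variable {X V : Type*} [MeasurableSpace X] {μ : Measure X} [NormedAddCommGroup V]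
  [InnerProductSpace ℂ V]

theorem int_inner_self (f : X → V) :
    ∫ x, ⟪f x, f x⟫_ℂ ∂μ = ((∫ x, ‖f x‖ ^ 2 ∂μ : ℝ) : ℂ) := by
  rw [← integral_complex_ofReal]
  refine integral_congr_ae (Eventually.of_forall fun x => ?_)
  simp only
  rw [inner_self_eq_norm_sq_to_K]
  push_cast
  rfl

theorem integrable_inner_l2 {f h : X → V} (hf : MemLp f 2 μ) (hh : MemLp h 2 μ) :
    Integrable (fun x => ⟪f x, h x⟫_ℂ) μ := by
  refine (hf.norm.integrable_mul hh.norm).mono' (hf.1.inner hh.1)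
    (Eventually.of_forall fun x => ?_)
  exact norm_inner_le_norm _ _

theorem norm_z_le {f h : X → V} (hf : MemLp f 2 μ) (hh : MemLp h 2 μ)
    (h1 : ∫ x, ‖f x‖ ^ 2 ∂μ = 1) (h2 : ∫ x, ‖h x‖ ^ 2 ∂μ = 1) :
    ‖∫ x, ⟪f x, h x⟫_ℂ ∂μ‖ ≤ 1 := by
  have h3 := cs_int hf hh
  rw [h1, h2, mul_one] at h3
  have h4 := norm_nonneg (∫ x, ⟪f x, h x⟫_ℂ ∂μ)
  nlinarith

theorem norm_one_sub_z_le {f h : X → V} (hf : MemLp f 2 μ) (hh : MemLp h 2 μ)
    (h1 : ∫ x, ‖f x‖ ^ 2 ∂μ = 1) :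
    ‖1 - ∫ x, ⟪f x, h x⟫_ℂ ∂μ‖ ≤ Real.sqrt (∫ x, ‖f x - h x‖ ^ 2 ∂μ) := by
  have h3 : 1 - ∫ x, ⟪f x, h x⟫_ℂ ∂μ = ∫ x, ⟪f x, f x - h x⟫_ℂ ∂μ := by
    have h4 : ∫ x, ⟪f x, f x⟫_ℂ ∂μ = 1 := by rw [int_inner_self, h1]; simp
    rw [← h4, ← integral_sub (integrable_inner_l2 hf hf) (integrable_inner_l2 hf hh)]
    exact integral_congr_ae (Eventually.of_forall fun x => (inner_sub_right _ _ _).symm)
  rw [h3]
  have h5 := cs_int hf (hf.sub hh)
  rw [h1, one_mul] at h5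
  exact Real.le_sqrt_of_sq_le h5

theorem int_sub_sq {f h : X → V} (hf : MemLp f 2 μ) (hh : MemLp h 2 μ) :
    ∫ x, ‖f x - h x‖ ^ 2 ∂μ =
      (∫ x, ‖f x‖ ^ 2 ∂μ) + (∫ x, ‖h x‖ ^ 2 ∂μ) - 2 * (∫ x, ⟪f x, h x⟫_ℂ ∂μ).re := by
  have e1 : Integrable (fun x => ‖f x‖ ^ 2) μ := hf.integrable_norm_pow (by norm_num)
  have e2 : Integrable (fun x => ‖h x‖ ^ 2) μ := hh.integrable_norm_pow (by norm_num)
  have e3 := integrable_inner_l2 hf hh
  have e4 : (∫ x, ⟪f x, h x⟫_ℂ ∂μ).re = ∫ x, (⟪f x, h x⟫_ℂ).re ∂μ := (integral_re e3).symm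
  have e5 : Integrable (fun x => 2 * (⟪f x, h x⟫_ℂ).re) μ := e3.re.const_mul 2
  have e6 : Integrable (fun x => ‖f x‖ ^ 2 + ‖h x‖ ^ 2) μ := e1.add e2
  rw [e4, ← integral_add e1 e2, ← integral_const_mul, ← integral_sub e6 e5]
  refine integral_congr_ae (Eventually.of_forall fun x => ?_)
  simp only
  rw [@norm_sub_sq ℂ]
  simp only [RCLike.re_to_complex]
  ring

end l2

/-! ### block states -/

variable {N : ℕ} {F : Type*} [NormedAddCommGroup F] [InnerProductSpace ℂ F]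
  [FiniteDimensional ℂ F] {κ : Type*} [Fintype κ] [DecidableEq κ] {k : κ → ℕ}
  {Fb : κ → Type*} [∀ p, NormedAddCommGroup (Fb p)] [∀ p, InnerProductSpace ℂ (Fb p)]
  [∀ p, FiniteDimensional ℂ (Fb p)] {M : FermionRep N F} {G : GammaNine}

theorem memLp_cpt {E V : Type*} [NormedAddCommGroup E] [InnerProductSpace ℝ E]
    [FiniteDimensional ℝ E] [MeasurableSpace E] [BorelSpace E] [NormedAddCommGroup V]
    {f : E → V} (hf : Continuous f) (hc : HasCompactSupport f) : MemLp f 2 (volume : Measure E) :=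
  hf.memLp_of_hasCompactSupport hc

theorem psi_eq_ps (D : BD M G k Fb) (φ : ∀ p, Cfg (k p) → Fb p) (Y : EY k) (w : F) :
    D.psi φ Y w = ps D.pol (cr M) (fun p => te (D.ε p)) φ w Y := rfl

/-- **Block states with close factors are close.** -/
theorem int_psi_sub_le (D : BD M G k Fb) {φ φ' : ∀ p, Cfg (k p) → Fb p}
    (hφ : ∀ p, Continuous (φ p)) (hc : ∀ p, HasCompactSupport (φ p))
    (hφ' : ∀ p, Continuous (φ' p)) (hc' : ∀ p, HasCompactSupport (φ' p))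
    (h1 : ∀ p, ∫ y, ‖φ p y‖ ^ 2 = 1) (h1' : ∀ p, ∫ y, ‖φ' p y‖ ^ 2 = 1) {w : F} (hw : w ∈ D.W) :
    ∫ Y : EY k, ‖D.psi φ Y w - D.psi φ' Y w‖ ^ 2 ≤
      2 * (∑ p, Real.sqrt (∫ y, ‖φ p y - φ' p y‖ ^ 2)) * ‖w‖ ^ 2 := by
  simp only [psi_eq_ps]
  have m1 : MemLp (ps D.pol (cr M) (fun p => te (D.ε p)) φ w) 2 volume :=
    memLp_cpt (continuous_ps D.pol (cr M) hφ w) (hasCompactSupport_ps D.pol (cr M) hc w)
  have m2 : MemLp (ps D.pol (cr M) (fun p => te (D.ε p)) φ' w) 2 volume :=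
    memLp_cpt (continuous_ps D.pol (cr M) hφ' w) (hasCompactSupport_ps D.pol (cr M) hc' w)
  rw [int_sub_sq m1 m2, integral_normSq_ps D.pol (cr M) D.orth hw,
    integral_normSq_ps D.pol (cr M) D.orth hw, integral_inner_ps D.pol (cr M) D.orth w hw,
    Finset.prod_eq_one fun p _ => h1 p, Finset.prod_eq_one fun p _ => h1' p]
  set z : κ → ℂ := fun p => ∫ y, ⟪φ p y, φ' p y⟫_ℂ with hz
  have n1 : ∀ p, MemLp (φ p) 2 volume := fun p => memLp_cpt (hφ p) (hc p)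
  have n2 : ∀ p, MemLp (φ' p) 2 volume := fun p => memLp_cpt (hφ' p) (hc' p)
  have h3 : ‖1 - ∏ p, z p‖ ≤ ∑ p, Real.sqrt (∫ y, ‖φ p y - φ' p y‖ ^ 2) :=
    (norm_one_sub_prod_le _ z fun p => norm_z_le (n1 p) (n2 p) (h1 p) (h1' p)).trans
      (Finset.sum_le_sum fun p _ => norm_one_sub_z_le (n1 p) (n2 p) (h1 p))
  have h4 : ((∏ p, z p) * ⟪w, w⟫_ℂ).re = (∏ p, z p).re * ‖w‖ ^ 2 := by
    rw [inner_self_eq_norm_sq_to_K]
    have : ((‖w‖ : ℂ) ^ 2) = ((‖w‖ ^ 2 : ℝ) : ℂ) := by push_cast; rfl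
    change ((∏ p, z p) * ((‖w‖ : ℂ) ^ 2)).re = _
    rw [this, Complex.re_mul_ofReal]
  rw [h4]
  have h5 : 1 - (∏ p, z p).re ≤ ‖1 - ∏ p, z p‖ := by
    have := Complex.re_le_norm (1 - ∏ p, z p)
    rwa [Complex.sub_re, Complex.one_re] at this
  have h6 : 0 ≤ ‖w‖ ^ 2 := sq_nonneg _
  nlinarith

theorem pr_smul_all (D : BD M G k Fb) (l : List κ) (c : κ → ℂ) (f : ∀ p, Fb p) (w : F) :
    pr D.pol (cr M) (fun p => te (D.ε p)) l (fun p => c p • f p) w =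
      (l.map c).prod • pr D.pol (cr M) (fun p => te (D.ε p)) l f w := by
  induction l with
  | nil => simp [pr]
  | cons p l ih =>
    rw [pr_cons, pr_cons, ih, List.map_cons, List.prod_cons, map_smul, map_smul,
      LinearMap.smul_apply, smul_smul, mul_comm]

/-- **Scaling.** -/
theorem psi_Us (D : BD M G k Fb) (l : ℝ) (φ : ∀ p, Cfg (k p) → Fb p) (Y : EY k) (w : F) :
    D.psi (fun p => Us l (φ p)) Y w =
      ((∏ p, Scale423.nrm (k p) l : ℝ) : ℂ) • D.psi φ (l • Y) w := by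
  have h := pr_smul_all D Finset.univ.toList (fun p => ((Scale423.nrm (k p) l : ℝ) : ℂ))
    (fun p => φ p ((l • Y) p)) w
  rw [Finset.prod_map_toList, ← Complex.ofReal_prod] at h
  exact h

theorem prod_nrm {r : ℝ} (hr : 0 < r) : ∏ p, Scale423.nrm (k p) (r ^ (1 / 3 : ℝ)) =
    r ^ (((∑ p, Module.finrank ℝ (Cfg (k p)) : ℕ) : ℝ) / 6) := by
  have h1 : ∀ p, Scale423.nrm (k p) (r ^ (1 / 3 : ℝ)) = r ^ ((Module.finrank ℝ (Cfg (k p)) : ℝ) / 6) := by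
    intro p
    unfold Scale423.nrm
    rw [← Real.rpow_mul hr.le]
    congr 1
    ring
  simp only [h1]
  rw [← Real.rpow_sum_of_pos hr]
  congr 1
  rw [Nat.cast_sum, Finset.sum_div]

theorem finrank_EY : Module.finrank ℝ (EY k) = ∑ p, Module.finrank ℝ (Cfg (k p)) := by
  have h : Module.finrank ℝ (EY k) = Module.finrank ℝ (∀ q, Cfg (k q)) :=
    (WithLp.linearEquiv 2 ℝ (∀ q, Cfg (k q))).finrank_eq
  rw [h, Module.finrank_pi_fintype]

/-- Two members of the family are close after scaling. -/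
theorem fam_close {n : ℕ} {V : Type*} [NormedAddCommGroup V] [InnerProductSpace ℂ V]
    [FiniteDimensional ℂ V] {b : ColorBasis n} {Mn : FermionRep n V} {R : GaugeAction b Mn}
    {ψ φ φ' : Cfg n → V} {K g g' : ℝ} (hK : 0 ≤ K) (hg' : 1 ≤ g') (hg : g' ≤ g)
    (hψ : Ground b Mn R G ψ) (h : Fam b R G ψ K g φ) (h' : Fam b R G ψ K g' φ') :
    Real.sqrt (∫ y, ‖φ y - Us ((g / g') ^ (1 / 3 : ℝ)) φ' y‖ ^ 2) ≤
      2 * Real.sqrt (K * g' ^ (-(2 / 3) : ℝ)) := by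
  have p' : 0 < g' := by linarith
  have p0 : 0 < g := by linarith
  set l := (g / g') ^ (1 / 3 : ℝ) with hl
  have hl0 : 0 < l := Real.rpow_pos_of_pos (div_pos p0 p') _
  have pl : 0 < g ^ (1 / 3 : ℝ) := Real.rpow_pos_of_pos p0 _
  have pl' : 0 < g' ^ (1 / 3 : ℝ) := Real.rpow_pos_of_pos p' _
  have e0 : Us (g ^ (1 / 3 : ℝ)) ψ = Us l (Us (g' ^ (1 / 3 : ℝ)) ψ) := by
    rw [Us_Us hl0 pl', hl, ← Real.mul_rpow p'.le (div_pos p0 p').le, mul_div_cancel₀ _ p'.ne']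
  have m1 : MemLp φ 2 volume := memLp_cpt h.core.1.continuous h.core.2.1
  have m1' : MemLp φ' 2 volume := memLp_cpt h'.core.1.continuous h'.core.2.1
  have m2 : MemLp (Us (g ^ (1 / 3 : ℝ)) ψ) 2 volume := Us_memLp pl hψ.memLp
  have m3 : MemLp (Us l φ') 2 volume := Us_memLp hl0 m1'
  have h1 := rt_add_le (m1.sub m2) (m2.sub m3)
  simp only [Pi.sub_apply, sub_add_sub_cancel] at h1
  refine h1.trans ?_
  have h2 : Real.sqrt (∫ y, ‖φ y - Us (g ^ (1 / 3 : ℝ)) ψ y‖ ^ 2) ≤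
      Real.sqrt (K * g' ^ (-(2 / 3) : ℝ)) := by
    refine Real.sqrt_le_sqrt (h.err.trans (mul_le_mul_of_nonneg_left ?_ hK))
    exact Real.rpow_le_rpow_of_nonpos p' hg (by norm_num)
  have h3 : Real.sqrt (∫ y, ‖Us (g ^ (1 / 3 : ℝ)) ψ y - Us l φ' y‖ ^ 2) ≤
      Real.sqrt (K * g' ^ (-(2 / 3) : ℝ)) := by
    rw [e0, int_Us_sub hl0]
    refine Real.sqrt_le_sqrt (le_trans (le_of_eq ?_) h'.err)
    exact integral_congr_ae (Eventually.of_forall fun y => by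
      simp only
      rw [norm_sub_rev])
  linarith

section field

variable {p : ℕ} {b : ColorBasis N} {S : Type} [Group S] [Fintype S] {C : Chn b p S}
  {Fn : ℕ → Type} [∀ n, NormedAddCommGroup (Fn n)] [∀ n, InnerProductSpace ℂ (Fn n)]
  [∀ n, FiniteDimensional ℂ (Fn n)]
  {bn : ∀ n, ColorBasis n} {Mn : ∀ n, FermionRep n (Fn n)}
  {Rn : ∀ n, GaugeAction (bn n) (Mn n)} (T : Fml bn Mn Rn G k)
  {bb : ∀ q, ColorBasis (k q)} {ε : ∀ q, Colg (k q) →ₗᵢ[ℝ] Colg N}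

/-- **Self-similarity of the block state, in block coordinates.** -/
theorem psi_scale_le (ho : ∀ q q', q ≠ q' → ∀ u v, ⟪ε q u, ε q' v⟫_ℝ = 0) {g g' : ℝ}
    (hg' : T.g0 ≤ g') (hg : g' ≤ g) {w : F} (hw : w ∈ (T.D M ε ho).W) :
    ∫ Y : EY k, ‖(T.D M ε ho).psi (T.fac g) Y w -
      (((g / g') ^ ((Module.finrank ℝ (EY k) : ℝ) / 6) : ℝ) : ℂ) •
        (T.D M ε ho).psi (T.fac g') (((g / g') ^ ((1 : ℝ) / 3)) • Y) w‖ ^ 2 ≤
      4 * Fintype.card κ * Real.sqrt (T.K * g' ^ (-(2 / 3) : ℝ)) * ‖w‖ ^ 2 := by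
  have p1 : 1 ≤ g' := T.hg0.trans hg'
  have p' : 0 < g' := by linarith
  have p0 : 0 < g := by linarith
  have hr : 0 < g / g' := div_pos p0 p'
  have hl0 : 0 < (g / g') ^ (1 / 3 : ℝ) := Real.rpow_pos_of_pos hr _
  have hF : ∀ q, Fam (bn (k q)) (Rn (k q)) G (T.ψ (k q)) T.K g (T.φ g (k q)) :=
    T.fam g (hg'.trans hg)
  have hF' : ∀ q, Fam (bn (k q)) (Rn (k q)) G (T.ψ (k q)) T.K g' (T.φ g' (k q)) := T.fam g' hg'
  have h1 := int_psi_sub_le (T.D M ε ho) (φ := T.fac g)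
    (φ' := fun q => Us ((g / g') ^ (1 / 3 : ℝ)) (T.fac g' q))
    (fun q => (hF q).core.1.continuous) (fun q => (hF q).core.2.1)
    (fun q => (Us_contDiff (hF' q).core.1).continuous)
    (fun q => Us_hasCompactSupport hl0 (hF' q).core.2.1) (fun q => (hF q).norm)
    (fun q => by
      have h2 := int_Us hl0 (fun _ => 1) (T.fac g' q)
      simp only [one_mul] at h2
      rw [h2]
      exact (hF' q).norm) hw
  have h3 : ∀ Y : EY k, (T.D M ε ho).psi (fun q => Us ((g / g') ^ (1 / 3 : ℝ)) (T.fac g' q)) Y w =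
      (((g / g') ^ ((Module.finrank ℝ (EY k) : ℝ) / 6) : ℝ) : ℂ) •
        (T.D M ε ho).psi (T.fac g') (((g / g') ^ ((1 : ℝ) / 3)) • Y) w := by
    intro Y
    rw [psi_Us, prod_nrm hr, finrank_EY]
  simp only [h3] at h1
  refine h1.trans (mul_le_mul_of_nonneg_right ?_ (sq_nonneg _))
  have h4 : ∑ q, Real.sqrt (∫ y, ‖T.fac g q y - Us ((g / g') ^ (1 / 3 : ℝ)) (T.fac g' q) y‖ ^ 2) ≤
      ∑ _q : κ, 2 * Real.sqrt (T.K * g' ^ (-(2 / 3) : ℝ)) :=
    Finset.sum_le_sum fun q _ => fam_close T.hK.le p1 hg (T.ground q) (hF q) (hF' q)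
  rw [Finset.sum_const, Finset.card_univ, nsmul_eq_mul] at h4
  nlinarith

/-- Amplitudes are in the common vacuum space of the blocks. -/
theorem Fx_le_W (h : Link C k bb ε) {f : F} (hf : f ∈ C.Fx M G) : f ∈ (T.D M ε h.ho).W := by
  rw [BD.mem_W]
  intro q
  rw [mem_vacB_iff]
  intro β c
  have h1 : ε q c ∈ (LinearMap.range C.cen.toLinearMap)ᗮ := by
    rw [Submodule.mem_orthogonal]
    rintro _ ⟨t, rfl⟩
    exact h.cen0 q t c
  have h2 := mem_vacOf.1 hf β _ h1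
  unfold gan at h2
  simp only [LinearMap.sub_apply, LinearMap.smul_apply, LinearMap.sum_apply] at h2
  exact sub_eq_zero.1 h2

/-- **The field `Psi_scale` of `TPack`.** -/
theorem Psi_scale (h : Link C k bb ε) (δ : ℝ) (hδ : 0 < δ) :
    ∀ᶠ g0 in atTop, ∀ᶠ g in atTop, ∀ f ∈ C.Fx M G,
      ∫ Y : C.Blk, ‖T.Psi M ε h.ho g Y f -
        (((g / g0) ^ ((Module.finrank ℝ C.Blk : ℝ) / 6) : ℝ) : ℂ) •
          T.Psi M ε h.ho g0 (((g / g0) ^ ((1 : ℝ) / 3)) • (Y : Cfg N)) f‖ ^ 2 ≤ δ * ‖f‖ ^ 2 := by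
  have e1 : Tendsto (fun g : ℝ => 4 * Fintype.card κ * Real.sqrt (T.K * g ^ (-(2 / 3) : ℝ)))
      atTop (𝓝 (4 * Fintype.card κ * Real.sqrt (T.K * 0))) :=
    ((Real.continuous_sqrt.tendsto _).comp
      ((tendsto_rpow_neg_atTop (by norm_num : (0 : ℝ) < 2 / 3)).const_mul T.K)).const_mul _
  rw [mul_zero, Real.sqrt_zero, mul_zero] at e1
  filter_upwards [e1.eventually_le_const hδ, eventually_ge_atTop T.g0] with g' h1 hg'
  filter_upwards [eventually_ge_atTop g'] with g hg f hf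
  rw [h.integral_blk']
  have h2 : ∀ Y : EY k, (((g / g') ^ ((1 : ℝ) / 3)) • ((h.iBe Y : C.Blk) : Cfg N)) =
      ((h.iBe (((g / g') ^ ((1 : ℝ) / 3)) • Y) : C.Blk) : Cfg N) := fun Y => by
    rw [map_smul]
    rfl
  have h3 : Module.finrank ℝ C.Blk = Module.finrank ℝ (EY k) :=
    (h.iBe.toLinearEquiv.finrank_eq).symm
  simp only [h2, h3, T.Psi_iBe h (hg'.trans hg), T.Psi_iBe h hg']
  refine (psi_scale_le T h.ho hg' hg (Fx_le_W T h hf)).trans ?_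
  exact mul_le_mul_of_nonneg_right h1 (sq_nonneg _)

end field

end Crest.Agent.R330.PsiScale693

end
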