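import Crest.Agent.R330.PsiB_726
import Crest.Agent.R330.PsiCov_477
import Crest.Agent.R330.PsiScale_693
import Crest.Agent.R330.LinkCov_973
import Crest.Agent.R330.Close_478

/-!
# Row 330, S8-PSI (helper726): `PsiData` for 477's literal block state

* `Psi_eq`, `s_eq` : `Fml.Psi`, `Fml.s` are `PsiB`, `sB`.
* `psiData T h hc : PsiData C M R G (T.Psi M ε h.ho) T.s`.
* `exists_small` : small data for all sizes.
* `exists_fml_below`, `psiData_chn` : the channels `Geo692.chn b P`.
-/

set_option autoImplicit false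
set_option linter.unusedSectionVars false

open MeasureTheory Filter Topology Crest.MathPhysics.MatrixQM
open scoped ContDiff InnerProductSpace ENNReal

noncomputable section

namespace Crest.Agent.R330.PsiB726

open Crest.Agent.R330.Bind6839 Crest.Agent.R330.Defs478 Crest.Agent.R330.SInd478
  Crest.Agent.R330.Pkg915 Crest.Agent.R330.LS839 Crest.Agent.R330.TDef414
  Crest.Agent.R330.Frame839 Crest.Agent.R330.Psi477 Crest.Agent.R330.TPk776
  Crest.Agent.R330.Parts879 Crest.Agent.R330.Geo692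

section lit

variable {N p : ℕ} {b : ColorBasis N} {S : Type} [Group S] [Fintype S] {C : Chn b p S}
  {κ : Type*} [Fintype κ] [DecidableEq κ] {k : κ → ℕ} {bb : ∀ q, ColorBasis (k q)}
  {ε : ∀ q, Colg (k q) →ₗᵢ[ℝ] Colg N}
  {F : Type*} [NormedAddCommGroup F] [InnerProductSpace ℂ F] [FiniteDimensional ℂ F]
  {M : FermionRep N F} {R : GaugeAction b M} {G : GammaNine}
  {Fn : ℕ → Type} [∀ n, NormedAddCommGroup (Fn n)] [∀ n, InnerProductSpace ℂ (Fn n)]
  [∀ n, FiniteDimensional ℂ (Fn n)] {bn : ∀ n, ColorBasis n} {Mn : ∀ n, FermionRep n (Fn n)}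
  {Rn : ∀ n, GaugeAction (bn n) (Mn n)}

theorem Psi_eq (T : Fml bn Mn Rn G k) (h : Link C k bb ε) :
    T.Psi M ε h.ho = PsiB h (T.D M ε h.ho) T.fac T.g0 := by
  funext g u
  by_cases hg : T.g0 ≤ g
  · ext f
    rw [T.Psi_of_le hg, PsiB_of_le h _ hg]
  · rw [T.Psi_of_lt hg, PsiB_of_lt h _ hg]

theorem s_eq (T : Fml bn Mn Rn G k) : T.s = sB κ T.g0 := by
  funext g
  unfold sB
  by_cases hg : T.g0 ≤ g
  · rw [T.s_of_le hg, if_pos hg]
  · rw [T.s_of_lt hg, if_neg hg]

/-- **All properties of the block state.** -/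
theorem psiData (T : Fml bn Mn Rn G k) (h : Link C k (fun q => bn (k q)) ε)
    (hc : LinkCov C k bn ε) : PsiData C M R G (T.Psi M ε h.ho) T.s := by
  have hcov := fun h' X X' hX hX' he g Y hY f hf =>
    Fml.Psi_cov (M := M) R T h hc h' X X' hX hX' he g Y hY f hf
  have hsc := PsiScale693.Psi_scale (M := M) T h
  rw [Psi_eq T h] at hcov hsc ⊢
  rw [s_eq]
  exact psiData_of (Rb := fun q => Rn (k q)) (ψ := fun q => T.ψ (k q)) rfl T.hg0 T.fam hcov
    (fun h' X hX he f hf => stab_fix R h' X hX he f hf) hsc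

end lit

/-! ## the small data -/

theorem exists_small : ∃ (Fn : ℕ → Type) (_ : ∀ n, NormedAddCommGroup (Fn n))
    (_ : ∀ n, InnerProductSpace ℂ (Fn n)) (_ : ∀ n, FiniteDimensional ℂ (Fn n))
    (_ : ∀ n, Nontrivial (Fn n)) (bn : ∀ n, ColorBasis n) (Mn : ∀ n, FermionRep n (Fn n)),
    Nonempty (∀ n, GaugeAction (bn n) (Mn n)) := by
  have h0 : ∀ n, Nonempty (ColorBasis n) := by
    intro n
    rcases Nat.eq_zero_or_pos n with rfl | hn
    · exact ⟨{ T := fun A => absurd A.2 (by simp)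
               herm := fun A => absurd A.2 (by simp)
               traceless := fun A => absurd A.2 (by simp)
               orthonormal := fun A => absurd A.2 (by simp) }⟩
    · exact Exist973.nonempty_colorBasis hn
  let bn : ∀ n, ColorBasis n := fun n => (h0 n).some
  have h1 := fun n => Exist973.exists_data (bn n)
  choose Fn i1 i2 i3 i4 Mn Rn using h1
  exact ⟨Fn, i1, i2, i3, i4, bn, Mn, ⟨fun n => (Rn n).some⟩⟩

variable {N : ℕ} {F : Type*} [NormedAddCommGroup F] [InnerProductSpace ℂ F]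
  [FiniteDimensional ℂ F]
  {Fn : ℕ → Type} [∀ n, NormedAddCommGroup (Fn n)] [∀ n, InnerProductSpace ℂ (Fn n)]
  [∀ n, FiniteDimensional ℂ (Fn n)]

theorem sInd_k (hB : Close478.Below N) (P : Lam N) (q : Fin P.m) : SInd (P.k q) :=
  hB _ (P.k_pos q) (P.k_lt q)

/-- The small data of a partition, from the induction hypothesis. -/
theorem exists_fml_below [∀ n, Nontrivial (Fn n)] (bn : ∀ n, ColorBasis n)
    (Mn : ∀ n, FermionRep n (Fn n)) (Rn : ∀ n, GaugeAction (bn n) (Mn n)) (G : GammaNine)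
    (hB : Close478.Below N) (P : Lam N) : Nonempty (Fml bn Mn Rn G P.k) :=
  exists_fml bn Mn Rn G P.k (sInd_k hB P)

variable {bn : ∀ n, ColorBasis n} {Mn : ∀ n, FermionRep n (Fn n)}
  {Rn : ∀ n, GaugeAction (bn n) (Mn n)} {G : GammaNine}

/-- **The block state of the channel of a partition.** -/
theorem psiData_chn (b : ColorBasis N) (M : FermionRep N F) (R : GaugeAction b M) (P : Lam N)
    (T : Fml bn Mn Rn G P.k) : PsiData (chn b P) M R G
      (T.Psi M (Link973.eps b P bn) (Link973.link b P bn).ho) T.s :=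
  psiData T (Link973.link b P bn) (Link973.linkCov b P bn)

end Crest.Agent.R330.PsiB726

end
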