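import Crest.Agent.R330.TDef_414

/-!
# Row 330, S8 (T7): the three parts of `TPack` (helper776)

`AData`, `UData`, `PsiData` are the fields of `TDef414.TPack`, copied literally and grouped by owner
(Gaussian exponent; heavy vacuum; state of the blocks); `tpackOf` assembles them.
-/

set_option autoImplicit false
set_option linter.unusedSectionVars false

open MeasureTheory Filter Topology Crest.MathPhysics.MatrixQM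
open scoped ContDiff InnerProductSpace ENNReal

noncomputable section

namespace Crest.Agent.R330.TPk776

open Crest.Agent.R330.Defs478 Crest.Agent.R330.LS839 Crest.Agent.R330.Frame839
  Crest.Agent.R330.Clus839 Crest.Agent.R330.Bind6839 Crest.Agent.R330.SlG944
  Crest.Agent.R330.SlF944 Crest.Agent.R330.IBP837 Crest.Agent.R330.FreeC122
  Crest.Agent.R330.TDef414
open Crest.Agent.R330.SlB314 (Nor Tan br)
open Crest.Agent.R330.SlD314 (tube)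

variable {N p : ℕ} {b : ColorBasis N} {S : Type} [Group S] [Fintype S] (C : Chn b p S)
  {F : Type*} [NormedAddCommGroup F] [InnerProductSpace ℂ F] [FiniteDimensional ℂ F]

/-- The fields of `TPack` on the Gaussian exponent. -/
structure AData (A : Pos p → Cfg N →L[ℝ] Cfg N) : Prop where
  A_smooth : ∀ X, C.Reg X → ContDiffAt ℝ ∞ A X
  A_symm : ∀ X z z', ⟪A X z, z'⟫_ℝ = ⟪z, A X z'⟫_ℝ
  A_nonneg : ∀ X z, 0 ≤ ⟪A X z, z⟫_ℝ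
  A_off : ∀ X, C.Reg X → ∀ z, A X z ∈ Tup C.kkᗮ
  A_gauge : ∀ X, C.Reg X → ∀ om : Colg N, A X (actB b om (C.cf X)) = 0
  A_low : ∀ X0, C.Reg X0 → ∃ c ε : ℝ, 0 < c ∧ 0 < ε ∧ ∀ X, ‖X - X0‖ < ε →
    ∀ z ∈ C.Zt X0, c * ‖z‖ ^ 2 ≤ ⟪A X z, z⟫_ℝ
  A_cov : ∀ (h : Matrix.specialUnitaryGroup (Fin N) ℂ) (X X' : Pos p), C.Reg X → C.Reg X' →
    b.act h (C.cf X) = C.cf X' → ∀ z, A X' (b.act h z) = b.act h (A X z)

/-- The fields of `TPack` on the heavy vacuum. -/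
structure UData (M : FermionRep N F) (R : GaugeAction b M) (G : GammaNine)
    (A : Pos p → Cfg N →L[ℝ] Cfg N) (U : Pos p → F →L[ℂ] F) : Prop where
  U_smooth : ∀ X, C.BReg X → ContDiffAt ℝ ∞ U X
  U_inner : ∀ X, C.BReg X → ∀ f ∈ C.Fl M G, ∀ f' ∈ C.Fl M G, ⟪U X f, U X f'⟫_ℂ = ⟪f, f'⟫_ℂ
  U_comm : ∀ X, C.BReg X → ∀ β, ∀ u ∈ C.kk, ∀ f ∈ C.Fl M G,
    U X (thv M β u f) = thv M β u (U X f)
  U_kill : ∀ X, C.BReg X → ∀ f ∈ C.Fl M G, ∀ z ∈ Tup C.kkᗮ, ∀ α,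
    Complex.I • Theta M G α (A X z) (U X f) + wB b M G 1 α (C.cf X) z (U X f) = 0
  U_full : ∀ X, C.BReg X → ∀ f : F, (∀ z ∈ Tup C.kkᗮ, ∀ α,
    Complex.I • Theta M G α (A X z) f + wB b M G 1 α (C.cf X) z f = 0) →
    ∃ f' ∈ C.Fl M G, U X f' = f
  U_cov : ∀ (h : Matrix.specialUnitaryGroup (Fin N) ℂ) (X X' : Pos p), C.BReg X → C.BReg X' →
    b.act h (C.cf X) = C.cf X' → ∀ f ∈ C.Fl M G,
      R.ρ h f ∈ C.Fl M G ∧ R.ρ h (U X f) = U X' (R.ρ h f)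
  U_berry : ∀ X, C.BReg X → ∀ e : Pos p, ∀ f ∈ C.Fl M G, ∀ f' ∈ C.Fl M G,
    ⟪U X f, fderiv ℝ (fun X' => U X' f') X e⟫_ℂ = 0
  U_par : ∀ X, C.BReg X → ∀ P : F →ₗ[ℂ] F,
    (∀ β, ∀ u ∈ C.kkᗮ, ∀ f, P (thv M β u f) = -thv M β u (P f)) →
    (∀ β, ∀ u ∈ C.kk, ∀ f, P (thv M β u f) = thv M β u (P f)) →
    ∀ f ∈ C.Fl M G, P (U X f) = U X (P f)

/-- The fields of `TPack` on the state of the blocks. -/
structure PsiData (M : FermionRep N F) (R : GaugeAction b M) (G : GammaNine)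
    (Psi : ℝ → Cfg N → F →L[ℂ] F) (s : ℝ → ℝ) : Prop where
  Psi_smooth : ∀ᶠ g in atTop, ContDiff ℝ ∞ (Psi g)
  s_pos : ∀ g, 0 < s g
  s_lim : Tendsto s atTop (𝓝 0)
  Psi_supp : ∀ g, ∀ Y ∈ C.Blk, s g ≤ ‖Y‖ → Psi g Y = 0
  Psi_mem : ∀ g, ∀ Y ∈ C.Blk, ∀ f ∈ C.Fx M G, Psi g Y f ∈ C.Fl M G
  Psi_thx : ∀ g, ∀ Y ∈ C.Blk, ∀ β t, ∀ f ∈ C.Fx M G,
    Psi g Y (thv M β (C.cen t) f) = thv M β (C.cen t) (Psi g Y f)
  Psi_cov : ∀ (h : Matrix.specialUnitaryGroup (Fin N) ℂ) (X X' : Pos p), C.Reg X → C.Reg X' →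
    b.act h (C.cf X) = C.cf X' → ∀ g, ∀ Y ∈ C.Blk, ∀ f ∈ C.Fx M G,
      R.ρ h f ∈ C.Fx M G ∧ R.ρ h (Psi g Y f) = Psi g (b.act h Y) (R.ρ h f)
  stab_fix : ∀ (h : Matrix.specialUnitaryGroup (Fin N) ℂ) (X : Pos p), C.Reg X →
    b.act h (C.cf X) = C.cf X → ∀ f ∈ C.Fx M G, R.ρ h f = f
  Psi_iso : ∀ f ∈ C.Fx M G, ∀ f' ∈ C.Fx M G,
    Tendsto (fun g => ∫ Y : C.Blk, ⟪Psi g Y f, Psi g Y f'⟫_ℂ) atTop (𝓝 ⟪f, f'⟫_ℂ)
  Psi_mom : ∃ K : ℝ, ∀ᶠ g in atTop, ∀ f ∈ C.Fx M G,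
    g ^ ((2 : ℝ) / 3) * ∫ Y : C.Blk, ‖(Y : Cfg N)‖ ^ 2 * ‖Psi g Y f‖ ^ 2 ≤ K * ‖f‖ ^ 2
  Psi_grad : ∃ K : ℝ, ∀ᶠ g in atTop, ∀ f ∈ C.Fx M G,
    ∫ Y : C.Blk, ‖fderiv ℝ (fun Y : C.Blk => Psi g Y f) Y‖ ^ 2 ≤
      K * g ^ ((2 : ℝ) / 3) * ‖f‖ ^ 2
  Psi_charge : ∀ f ∈ C.Fx M G, ∀ α, Tendsto (fun g => ∫ Y : C.Blk,
    ‖qblk C M G g α (fun Y => Psi g Y f) Y‖ ^ 2) atTop (𝓝 0)
  Psi_scale : ∀ ε : ℝ, 0 < ε → ∀ᶠ g0 in atTop, ∀ᶠ g in atTop, ∀ f ∈ C.Fx M G,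
    ∫ Y : C.Blk, ‖Psi g Y f - (((g / g0) ^ ((Module.finrank ℝ C.Blk : ℝ) / 6) : ℝ) : ℂ) •
      Psi g0 (((g / g0) ^ ((1 : ℝ) / 3)) • (Y : Cfg N)) f‖ ^ 2 ≤ ε * ‖f‖ ^ 2

variable {C} {M : FermionRep N F} {R : GaugeAction b M} {G : GammaNine}

/-- **Assembly of `TPack`.** -/
def tpackOf {A : Pos p → Cfg N →L[ℝ] Cfg N} {U : Pos p → F →L[ℂ] F}
    {Psi : ℝ → Cfg N → F →L[ℂ] F} {s : ℝ → ℝ} (hA : AData C A) (hU : UData C M R G A U)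
    (hPsi : PsiData C M R G Psi s) : TPack C M R G :=
  { A := A
    U := U
    Psi := Psi
    s := s
    A_smooth := hA.A_smooth
    A_symm := hA.A_symm
    A_nonneg := hA.A_nonneg
    A_off := hA.A_off
    A_gauge := hA.A_gauge
    A_low := hA.A_low
    A_cov := hA.A_cov
    U_smooth := hU.U_smooth
    U_inner := hU.U_inner
    U_comm := hU.U_comm
    U_kill := hU.U_kill
    U_full := hU.U_full
    U_cov := hU.U_cov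
    U_berry := hU.U_berry
    U_par := hU.U_par
    Psi_smooth := hPsi.Psi_smooth
    s_pos := hPsi.s_pos
    s_lim := hPsi.s_lim
    Psi_supp := hPsi.Psi_supp
    Psi_mem := hPsi.Psi_mem
    Psi_thx := hPsi.Psi_thx
    Psi_cov := hPsi.Psi_cov
    stab_fix := hPsi.stab_fix
    Psi_iso := hPsi.Psi_iso
    Psi_mom := hPsi.Psi_mom
    Psi_grad := hPsi.Psi_grad
    Psi_charge := hPsi.Psi_charge
    Psi_scale := hPsi.Psi_scale }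

end Crest.Agent.R330.TPk776

end
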