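import Crest.Agent.R330.VacSec6_255
import Crest.Agent.R330.TPk_776
import Crest.Agent.R330.Chn_692
import Crest.Agent.R330.AFld_984


/-!
# Row 330, S8-UX (helper311): the U-fields of `TPack` for the channel of a partition

* `evs w` : the complex vector of a family of colour vectors; `cm_Op` : pair operators act on
  colour matrices entrywise.
* `rX b P X : Fin N → E9` : positions with multiplicity; `UX b P M G X := Wop b G M (rX b P X)`.
* `mem_vacOf_iff` : `vacOf M G (kk)ᗮ` is the space of reference vacua.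
* `lr_eq`, `hm_li` : `|ad X|`, its inverse, entrywise; `evs_wP` : the potential vector is `-J` of
  the kinetic vector; `UX_kill`, `UX_full`.
* `uData` : the structure `TPk776.UData` for `chn b P`.
-/

set_option autoImplicit false
set_option linter.unusedSectionVars false

open MeasureTheory Filter Topology Crest.MathPhysics.MatrixQM
open scoped ContDiff InnerProductSpace ENNReal Matrix

noncomputable section

namespace Crest.Agent.R330.UPack311

open Crest.Agent.R330.Parts879 Crest.Agent.R330.LS839 Crest.Agent.R330.Bind6839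
open Crest.Agent.R330.IBP837
open Crest.Agent.R330.Blk304 (hm cf)
open Crest.Agent.R330.VacSec255 (IX PA Op DC th thC lc Wop Jref Jop pa PVac E9 M16 rhoC adI)
open Crest.Agent.R330.TDef414 (Pos pcomp Chn vacOf gan)

variable {N : ℕ} (b : ColorBasis N)

/-! ## Vectors and colour matrices -/

/-- The vector of a family of colour vectors. -/
def evs (w : Fin 16 → Colg N) : IX N → ℂ := fun q => ((w q.1 q.2 : ℝ) : ℂ)

theorem cm_evs (w : Fin 16 → Colg N) (β : Fin 16) :
    VacSec255.cm b (evs w) β = hm b (w β).ofLp := rfl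

theorem cm_inj {u v : IX N → ℂ} (h : ∀ β, VacSec255.cm b u β = VacSec255.cm b v β) : u = v := by
  funext ⟨β, A⟩
  exact congrFun (Col962.T_ext b (h β)) A

theorem cm_trace (u : IX N → ℂ) (β : Fin 16) : (VacSec255.cm b u β).trace = 0 := by
  unfold VacSec255.cm
  rw [Matrix.trace_sum]
  refine Finset.sum_eq_zero fun A _ => ?_
  rw [Matrix.trace_smul, b.traceless, smul_zero]

/-- **Pair operators act entrywise.** -/
theorem cm_Op {c : PA N} (hc : DC c) (u : IX N → ℂ) (β : Fin 16) (a d : Fin N) :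
    VacSec255.cm b (Op b c *ᵥ u) β a d = ∑ γ, c a d β γ * VacSec255.cm b u γ a d := by
  set Y : Matrix (Fin N) (Fin N) ℂ := Matrix.of fun e f =>
    ∑ γ, c e f β γ * VacSec255.cm b u γ e f with hY
  have hYt : Y.trace = 0 := by
    rw [Matrix.trace]
    simp only [Matrix.diag_apply, hY, Matrix.of_apply]
    rw [Finset.sum_comm]
    refine Finset.sum_eq_zero fun γ _ => ?_
    have h1 : ∀ e, c e e β γ * VacSec255.cm b u γ e e = c a a β γ * VacSec255.cm b u γ e e :=
      fun e => by rw [hc e a]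
    rw [Finset.sum_congr rfl fun e _ => h1 e, ← Finset.mul_sum]
    have h2 := cm_trace b u γ
    rw [Matrix.trace] at h2
    simp only [Matrix.diag_apply] at h2
    rw [h2, mul_zero]
  have h1 : ∀ A, (Op b c *ᵥ u) (β, A) = ∑ e, ∑ f, b.T A f e * Y e f := by
    intro A
    rw [Matrix.mulVec, dotProduct, Fintype.sum_prod_type]
    simp only [VacSec255.Op_apply, hY, Matrix.of_apply, Finset.sum_mul, VacSec255.cm,
      Matrix.sum_apply, Matrix.smul_apply, smul_eq_mul, Finset.mul_sum]
    calc ∑ γ, ∑ B, ∑ e, ∑ f, b.T A f e * c e f β γ * b.T B e f * u (γ, B)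
        = ∑ γ, ∑ e, ∑ f, ∑ B, b.T A f e * (c e f β γ * (u (γ, B) * b.T B e f)) := by
          refine Finset.sum_congr rfl fun γ _ => ?_
          rw [Finset.sum_comm]
          refine Finset.sum_congr rfl fun e _ => ?_
          rw [Finset.sum_comm]
          refine Finset.sum_congr rfl fun f _ => Finset.sum_congr rfl fun B _ => ?_
          ring
      _ = ∑ e, ∑ f, ∑ γ, ∑ B, b.T A f e * (c e f β γ * (u (γ, B) * b.T B e f)) := by
          rw [Finset.sum_comm]
          refine Finset.sum_congr rfl fun e _ => Finset.sum_comm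
  have h2 : VacSec255.cm b (Op b c *ᵥ u) β a d = ∑ B, b.T B a d * ∑ e, ∑ f, b.T B f e * Y e f := by
    unfold VacSec255.cm
    rw [Matrix.sum_apply]
    refine Finset.sum_congr rfl fun B _ => ?_
    rw [Matrix.smul_apply, smul_eq_mul, h1, mul_comm]
  rw [h2, VacSec255.sum_T b hYt]
  rfl

section rep

variable {F : Type*} [NormedAddCommGroup F] [InnerProductSpace ℂ F] [FiniteDimensional ℂ F]
  (M : FermionRep N F)

theorem th_evs (w : Fin 16 → Colg N) (f : F) :
    th (thC M) (evs w) f = ∑ β, thv M β (w β) f := by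
  rw [th, _root_.sum_apply, Fintype.sum_prod_type]
  refine Finset.sum_congr rfl fun β _ => ?_
  rw [thv, LinearMap.sum_apply]
  rfl

theorem vco_eq_th (c : Fin 16 → Fin (N ^ 2 - 1) → ℝ) (f : F) :
    vco M c f = th (thC M) (evs fun β => WithLp.toLp 2 (c β)) f := by
  rw [th_evs]
  unfold vco thv
  simp only [LinearMap.sum_apply]
  rw [Finset.sum_comm]

/-- Vacua through all vectors. -/
theorem pvac_iff (J : Matrix (IX N) (IX N) ℂ) (f : F) : PVac (thC M) J f ↔
    ∀ u, th (thC M) (J *ᵥ (J *ᵥ u)) f = Complex.I • th (thC M) (J *ᵥ u) f := by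
  constructor
  · intro h u
    rw [Matrix.mulVec_mulVec, VacSec255.th_mulVec, VacSec255.th_mulVec, _root_.sum_apply,
      _root_.sum_apply, Finset.smul_sum]
    refine Finset.sum_congr rfl fun q _ => ?_
    rw [_root_.smul_apply, _root_.smul_apply, h q, smul_comm]
  · intro h q
    have h1 := h (Pi.single q 1)
    rw [Matrix.mulVec_mulVec, VacSec255.th_mulVec, VacSec255.th_mulVec, _root_.sum_apply,
      _root_.sum_apply] at h1
    have h2 : ∀ A : Matrix (IX N) (IX N) ℂ,
        ∑ p, ((Pi.single q 1 : IX N → ℂ) p • lc (thC M) A p) f = lc (thC M) A q f := by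
      intro A
      rw [Finset.sum_eq_single q]
      · simp
      · intro p _ hp
        simp [hp]
      · intro h'; exact absurd (Finset.mem_univ q) h'
    rwa [h2, h2] at h1

end rep

/-! ## Masks -/

/-- Hermitian mask with constant diagonal. -/
structure Msk (s : Fin N → Fin N → ℂ) : Prop where
  herm : ∀ a d, (starRingEnd ℂ) (s a d) = s d a
  diag : ∀ a d, s a a = s d d

/-- The masked colour vector: the entries are multiplied by `s`. -/
def mu (s : Fin N → Fin N → ℂ) : Colg N →ₗ[ℝ] Colg N where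
  toFun v := WithLp.toLp 2 (cf b (Matrix.of fun a d => s a d * hm b v.ofLp a d))
  map_add' v w := by
    refine congrArg (WithLp.toLp 2) (Eq.trans (congrArg (cf b) ?_) (Blk304.cf_add b _ _))
    ext a d
    simp only [Matrix.of_apply, Matrix.add_apply, WithLp.ofLp_add, Blk304.hm_add]
    ring
  map_smul' t v := by
    refine congrArg (WithLp.toLp 2) (Eq.trans (congrArg (cf b) ?_) (Blk304.cf_smul b _ _))
    ext a d
    simp only [Matrix.of_apply, Matrix.smul_apply, WithLp.ofLp_smul, Blk304.hm_smul, smul_eq_mul,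
      RingHom.id_apply]
    ring

theorem hm_conj' (v : Colg N) (a d : Fin N) :
    (starRingEnd ℂ) (hm b v.ofLp a d) = hm b v.ofLp d a := by
  have h := congrFun (congrFun (Blk304.hm_herm b v.ofLp) d) a
  rw [Matrix.conjTranspose_apply] at h
  exact h

theorem hm_mu {s : Fin N → Fin N → ℂ} (hs : Msk s) (v : Colg N) (a d : Fin N) :
    hm b (mu b s v).ofLp a d = s a d * hm b v.ofLp a d := by
  have h1 : (Matrix.of fun a d => s a d * hm b v.ofLp a d : Matrix (Fin N) (Fin N) ℂ).IsHermitian := by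
    ext x y
    rw [Matrix.conjTranspose_apply, Matrix.of_apply, Matrix.of_apply, ← starRingEnd_apply,
      map_mul, hs.herm, hm_conj']
  have h2 : (Matrix.of fun a d => s a d * hm b v.ofLp a d : Matrix (Fin N) (Fin N) ℂ).trace = 0 := by
    have h3 := Blk304.hm_trace b v.ofLp
    rw [Matrix.trace] at h3 ⊢
    simp only [Matrix.diag_apply, Matrix.of_apply] at h3 ⊢
    have h4 : ∀ e, s e e * hm b v.ofLp e e = s a a * hm b v.ofLp e e := fun e => by
      rw [hs.diag e a]
    rw [Finset.sum_congr rfl fun e _ => h4 e, ← Finset.mul_sum, h3, mul_zero]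
  have h3 : hm b (mu b s v).ofLp = Matrix.of fun a d => s a d * hm b v.ofLp a d :=
    Blk304.hm_cf b h1 h2
  rw [h3]
  rfl

theorem colg_ext {u v : Colg N} (h : ∀ a d, hm b u.ofLp a d = hm b v.ofLp a d) : u = v := by
  apply WithLp.ofLp_injective 2
  apply Blk304.hm_inj b
  ext a d
  exact h a d

theorem inner_hm (u v : Colg N) : ⟪u, v⟫_ℝ =
    ∑ a, ∑ d, (hm b u.ofLp a d * (starRingEnd ℂ) (hm b v.ofLp a d)).re := by
  rw [← Blk304.sum_mul_eq b u.ofLp v.ofLp, PiLp.inner_apply]
  refine Finset.sum_congr rfl fun A _ => ?_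
  simp [mul_comm]

/-- A real mask is symmetric. -/
theorem mu_symm {s : Fin N → Fin N → ℝ} (hs : Msk fun a d => (s a d : ℂ)) (u v : Colg N) :
    ⟪mu b (fun a d => (s a d : ℂ)) u, v⟫_ℝ = ⟪u, mu b (fun a d => (s a d : ℂ)) v⟫_ℝ := by
  rw [inner_hm b, inner_hm b]
  refine Finset.sum_congr rfl fun a _ => Finset.sum_congr rfl fun d _ => ?_
  rw [hm_mu b hs, hm_mu b hs, map_mul, Complex.conj_ofReal]
  congr 1
  ring

theorem mu_quad {s : Fin N → Fin N → ℝ} (hs : Msk fun a d => (s a d : ℂ)) (v : Colg N) :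
    ⟪mu b (fun a d => (s a d : ℂ)) v, v⟫_ℝ = ∑ a, ∑ d, s a d * ‖hm b v.ofLp a d‖ ^ 2 := by
  rw [inner_hm b]
  refine Finset.sum_congr rfl fun a _ => Finset.sum_congr rfl fun d _ => ?_
  rw [hm_mu b hs, mul_assoc, Complex.mul_conj, Complex.normSq_eq_norm_sq, ← Complex.ofReal_mul,
    Complex.ofReal_re]

/-- A positive real mask is positive definite. -/
theorem mu_pd {s : Fin N → Fin N → ℝ} (hs : Msk fun a d => (s a d : ℂ)) (hp : ∀ a d, 0 < s a d) :
    SqrtPD984.PD (LinearMap.toContinuousLinearMap (mu b fun a d => (s a d : ℂ))) := by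
  refine ⟨fun v w => mu_symm b hs v w, fun v hv => ?_⟩
  change 0 < ⟪mu b (fun a d => (s a d : ℂ)) v, v⟫_ℝ
  rw [mu_quad b hs]
  have h0 : ∀ a d, 0 ≤ s a d * ‖hm b v.ofLp a d‖ ^ 2 := fun a d =>
    mul_nonneg (hp a d).le (sq_nonneg _)
  rw [Finset.sum_pos_iff_of_nonneg fun a _ => Finset.sum_nonneg fun d _ => h0 a d]
  by_contra hne
  push Not at hne
  apply hv
  refine colg_ext b fun a d => ?_
  have h1 := le_antisymm (hne a (Finset.mem_univ _)) (Finset.sum_nonneg fun d _ => h0 a d)
  have h2 := (Finset.sum_eq_zero_iff_of_nonneg fun d _ => h0 a d).1 h1 d (Finset.mem_univ _)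
  rcases mul_eq_zero.1 h2 with h3 | h3
  · exact absurd h3 (hp a d).ne'
  · have h4 : hm b v.ofLp a d = 0 := norm_eq_zero.1 (pow_eq_zero_iff two_ne_zero |>.1 h3)
    rw [h4]
    exact (congrFun (congrFun (Blk304.hm_zero b) a) d).symm

/-! ## Light and heavy colour vectors -/

variable (P : Lam N)

open Classical in
/-- the mask of the blocks -/
def sk (a d : Fin N) : ℝ := if P.cl a = P.cl d then 1 else 0

theorem msk_sk : Msk fun a d => (sk P a d : ℂ) where
  herm a d := by
    rw [Complex.conj_ofReal]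
    unfold sk
    by_cases h : P.cl a = P.cl d
    · rw [if_pos h, if_pos h.symm]
    · rw [if_neg h, if_neg (Ne.symm h)]
  diag a d := by
    unfold sk
    rw [if_pos rfl, if_pos rfl]

/-- **Heavy colour vectors.** -/
theorem mem_perp {u : Colg N} : u ∈ (Geo692.kk b P)ᗮ ↔
    ∀ a d, P.cl a = P.cl d → hm b u.ofLp a d = 0 := by
  rw [Submodule.mem_orthogonal]
  constructor
  · intro h
    have h1 : mu b (fun a d => (sk P a d : ℂ)) u ∈ Geo692.kk b P := by
      intro a d had
      rw [hm_mu b (msk_sk P)]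
      unfold sk
      rw [if_neg had, Complex.ofReal_zero, zero_mul]
    have h2 := h _ h1
    rw [mu_quad b (msk_sk P)] at h2
    have h0 : ∀ a d, 0 ≤ sk P a d * ‖hm b u.ofLp a d‖ ^ 2 := fun a d => by
      unfold sk
      split_ifs <;> positivity
    intro a d had
    have h3 := (Finset.sum_eq_zero_iff_of_nonneg
      fun a _ => Finset.sum_nonneg fun d _ => h0 a d).1 h2 a (Finset.mem_univ _)
    have h4 := (Finset.sum_eq_zero_iff_of_nonneg fun d _ => h0 a d).1 h3 d (Finset.mem_univ _)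
    unfold sk at h4
    rw [if_pos had, one_mul] at h4
    exact norm_eq_zero.1 (pow_eq_zero_iff two_ne_zero |>.1 h4)
  · intro h v hv
    rw [inner_hm b]
    refine Finset.sum_eq_zero fun a _ => Finset.sum_eq_zero fun d _ => ?_
    by_cases had : P.cl a = P.cl d
    · rw [h a d had, map_zero, mul_zero, Complex.zero_re]
    · rw [hv a d had, zero_mul, Complex.zero_re]

/-- The projection onto the block algebra. -/
theorem proj_kk (v : Colg N) :
    (Geo692.kk b P).starProjection v = mu b (fun a d => (sk P a d : ℂ)) v := by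
  refine Submodule.eq_starProjection_of_mem_orthogonal (K := Geo692.kk b P) ?_ ?_
  · intro a d had
    rw [hm_mu b (msk_sk P)]
    unfold sk
    rw [if_neg had, Complex.ofReal_zero, zero_mul]
  · rw [mem_perp]
    intro a d had
    rw [WithLp.ofLp_sub, Blk304.hm_sub, Matrix.sub_apply, hm_mu b (msk_sk P)]
    unfold sk
    rw [if_pos had, Complex.ofReal_one, one_mul, sub_self]

/-! ## Positions -/

/-- The entries as linear functionals. -/
def hl (a d : Fin N) : Colg N →ₗ[ℝ] ℂ where
  toFun v := hm b v.ofLp a d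
  map_add' u v := by rw [WithLp.ofLp_add, Blk304.hm_add, Matrix.add_apply]
  map_smul' t v := by
    rw [WithLp.ofLp_smul, Blk304.hm_smul, Matrix.smul_apply, smul_eq_mul, RingHom.id_apply,
      Complex.real_smul]

theorem hl_apply (a d : Fin N) (v : Colg N) : hl b a d v = hm b v.ofLp a d := rfl

theorem hm_lin {κ : Type*} (s : Finset κ) (t : κ → ℝ) (w : κ → Colg N) (a d : Fin N) :
    hm b (∑ k ∈ s, t k • w k).ofLp a d = ∑ k ∈ s, (t k : ℂ) * hm b (w k).ofLp a d := by
  rw [← hl_apply, map_sum]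
  refine Finset.sum_congr rfl fun k _ => ?_
  rw [map_smul, Complex.real_smul, hl_apply]

theorem hm_neg' (w : Colg N) (a d : Fin N) : hm b (-w).ofLp a d = -hm b w.ofLp a d := by
  rw [← hl_apply, map_neg, hl_apply]

/-- Positions with multiplicity. -/
def rX (X : Geo692.XS P) : Fin N → E9 := fun a => Geo692.pos b P X (P.cl a)

theorem rX_eq_iff {X : Geo692.XS P} (hX : X ∈ Geo692.Reg b P) (a d : Fin N) :
    rX b P X a = rX b P X d ↔ P.cl a = P.cl d :=
  ⟨fun h => hX h, fun h => by unfold rX; rw [h]⟩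

theorem UU_rX {X : Geo692.XS P} (hX : X ∈ Geo692.UU b P) : VacSec255.UU (rX b P X) := by
  intro a d h h0
  have h1 : P.cl a ≠ P.cl d := fun h' => h (by unfold rX; rw [h'])
  obtain ⟨j, hj, hne⟩ := hX _ _ h1
  have h2 := congrArg (fun v : E9 => v j) h0
  simp only [VacSec255.bp_apply, if_neg (not_lt.2 hj)] at h2
  exact hne (sub_eq_zero.1 h2)

/-! ## The reference vacua -/

variable (G : GammaNine)

theorem Gam_sq : Defs478.Gam G * Defs478.Gam G = -1 := by
  have h := VacSec255.Gc_sq G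
  ext α β
  have h1 := congrFun (congrFun h α) β
  unfold VacSec255.Gc at h1
  rw [← map_mul, VacSec255.cM_apply, Matrix.neg_apply, Matrix.one_apply] at h1
  rw [Matrix.neg_apply, Matrix.one_apply]
  apply Complex.ofReal_injective
  rw [h1]
  split_ifs <;> simp

/-- The reference structure on heavy vectors. -/
theorem Jref_heavy {X : Geo692.XS P} (hX : X ∈ Geo692.Reg b P) {w : Fin 16 → Colg N}
    (hw : ∀ β, w β ∈ (Geo692.kk b P)ᗮ) :
    Jref b G (rX b P X) *ᵥ evs w = evs fun β => -∑ γ, Defs478.Gam G β γ • w γ := by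
  refine cm_inj b fun β => ?_
  ext a d
  rw [Jref, cm_Op b (VacSec255.dc_pa _)]
  simp only [cm_evs]
  rw [hm_neg', hm_lin]
  by_cases h : P.cl a = P.cl d
  · have h1 : ∀ γ, hm b (w γ).ofLp a d = 0 := fun γ => (mem_perp b P).1 (hw γ) a d h
    simp only [h1, mul_zero, Finset.sum_const_zero, neg_zero]
  · rw [← Finset.sum_neg_distrib]
    refine Finset.sum_congr rfl fun γ _ => ?_
    have h1 : rX b P X a - rX b P X d ≠ 0 := fun h' =>
      h ((rX_eq_iff b P hX a d).1 (sub_eq_zero.1 h'))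
    have h2 : pa (VacSec255.K0 G) (rX b P X) a d β γ = -(Defs478.Gam G β γ : ℂ) := by
      change VacSec255.K0 G (rX b P X a - rX b P X d) β γ = _
      unfold VacSec255.K0
      rw [if_neg h1, Matrix.neg_apply]
      rfl
    rw [h2, neg_mul]

theorem perp_lin {w : Fin 16 → Colg N} (hw : ∀ β, w β ∈ (Geo692.kk b P)ᗮ)
    (c : Fin 16 → Fin 16 → ℝ) (β : Fin 16) :
    -∑ γ, c β γ • w γ ∈ (Geo692.kk b P)ᗮ :=
  Submodule.neg_mem _ (Submodule.sum_mem _ fun γ _ => Submodule.smul_mem _ _ (hw γ))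

/-- The reference structure kills light vectors. -/
theorem Jref_light {X : Geo692.XS P} (hX : X ∈ Geo692.Reg b P) {w : Fin 16 → Colg N}
    (hw : ∀ β, w β ∈ Geo692.kk b P) : Jref b G (rX b P X) *ᵥ evs w = 0 := by
  refine VacSec255.Op_mulVec_light b fun a d => ?_
  by_cases h : P.cl a = P.cl d
  · left
    change VacSec255.K0 G (rX b P X a - rX b P X d) = 0
    rw [(rX_eq_iff b P hX a d).2 h, sub_self]
    unfold VacSec255.K0
    rw [if_pos rfl]
  · exact Or.inr fun β => hw β a d h

theorem evs_add (w w' : Fin 16 → Colg N) : evs (fun β => w β + w' β) = evs w + evs w' := by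
  funext q
  simp only [evs, Pi.add_apply, PiLp.add_apply, Complex.ofReal_add]

section rep2

variable {F : Type*} [NormedAddCommGroup F] [InnerProductSpace ℂ F] [FiniteDimensional ℂ F]
  (M : FermionRep N F)

theorem thv_smul' (β : Fin 16) (t : ℝ) (u : Colg N) (f : F) :
    thv M β (t • u) f = (t : ℂ) • thv M β u f := by
  unfold thv
  simp only [LinearMap.sum_apply, LinearMap.smul_apply, Finset.smul_sum, smul_smul,
    PiLp.smul_apply, smul_eq_mul, Complex.ofReal_mul]

theorem thv_add' (β : Fin 16) (u v : Colg N) (f : F) :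
    thv M β (u + v) f = thv M β u f + thv M β v f := by
  unfold thv
  simp only [LinearMap.sum_apply, LinearMap.smul_apply]
  rw [← Finset.sum_add_distrib]
  refine Finset.sum_congr rfl fun A _ => ?_
  rw [PiLp.add_apply, Complex.ofReal_add, add_smul]

theorem thv_neg' (β : Fin 16) (u : Colg N) (f : F) : thv M β (-u) f = -thv M β u f := by
  rw [← neg_one_smul ℝ u, thv_smul', Complex.ofReal_neg, Complex.ofReal_one, neg_one_smul]

theorem thv_zero' (β : Fin 16) (f : F) : thv M β (0 : Colg N) f = 0 := by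
  rw [← zero_smul ℝ (0 : Colg N), thv_smul', Complex.ofReal_zero, zero_smul]

theorem th_single (α : Fin 16) (u : Colg N) (f : F) :
    th (thC M) (evs (Pi.single α u)) f = thv M α u f := by
  rw [th_evs, Finset.sum_eq_single α]
  · rw [Pi.single_eq_same]
  · intro β _ hβ
    rw [Pi.single_eq_of_ne hβ, thv_zero']
  · intro h; exact absurd (Finset.mem_univ α) h

theorem single_perp {K : Submodule ℝ (Colg N)} {u : Colg N} (hu : u ∈ K) (α β : Fin 16) :
    (Pi.single α u : Fin 16 → Colg N) β ∈ K := by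
  by_cases h : β = α
  · rw [h, Pi.single_eq_same]
    exact hu
  · rw [Pi.single_eq_of_ne h]
    exact Submodule.zero_mem _

theorem Jref_single {X : Geo692.XS P} (hX : X ∈ Geo692.Reg b P) {u : Colg N}
    (hu : u ∈ (Geo692.kk b P)ᗮ) (α : Fin 16) :
    Jref b G (rX b P X) *ᵥ evs (Pi.single α u) = evs fun β => -(Defs478.Gam G β α • u) := by
  rw [Jref_heavy b P G hX fun β => single_perp hu α β]
  congr 1
  funext β
  rw [Finset.sum_eq_single α]
  · rw [Pi.single_eq_same]
  · intro γ _ hγ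
    rw [Pi.single_eq_of_ne hγ, smul_zero]
  · intro h; exact absurd (Finset.mem_univ α) h

theorem Jref_sq_single {X : Geo692.XS P} (hX : X ∈ Geo692.Reg b P) {u : Colg N}
    (hu : u ∈ (Geo692.kk b P)ᗮ) (α : Fin 16) :
    Jref b G (rX b P X) *ᵥ (Jref b G (rX b P X) *ᵥ evs (Pi.single α u)) =
      -evs (Pi.single α u) := by
  rw [Jref_single b P G hX hu,
    Jref_heavy b P G hX fun β => Submodule.neg_mem _ (Submodule.smul_mem _ _ hu)]
  funext ⟨β, A⟩
  have h1 : -∑ γ, Defs478.Gam G β γ • -(Defs478.Gam G γ α • u) =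
      (Defs478.Gam G * Defs478.Gam G) β α • u := by
    simp only [smul_neg, Finset.sum_neg_distrib, neg_neg, smul_smul, Matrix.mul_apply,
      Finset.sum_smul]
  have h2 : Defs478.Gam G * Defs478.Gam G = -1 := Gam_sq G
  rw [Pi.neg_apply]
  unfold evs
  simp only [h1, h2]
  rw [Matrix.neg_apply, Matrix.one_apply]
  by_cases h : β = α
  · rw [if_pos h, h, Pi.single_eq_same, neg_one_smul, PiLp.neg_apply, Complex.ofReal_neg]
  · rw [if_neg h, neg_zero, zero_smul, Pi.single_eq_of_ne h, PiLp.zero_apply, Complex.ofReal_zero,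
      neg_zero]

/-- **The reference vacua.** -/
theorem mem_vacOf_iff {X : Geo692.XS P} (hX : X ∈ Geo692.Reg b P) (f : F) :
    f ∈ vacOf M G (Geo692.kk b P)ᗮ ↔ PVac (thC M) (Jref b G (rX b P X)) f := by
  rw [TDef414.mem_vacOf, pvac_iff]
  have key : ∀ α, ∀ u ∈ (Geo692.kk b P)ᗮ, (gan M G α u f = 0 ↔
      th (thC M) (Jref b G (rX b P X) *ᵥ (Jref b G (rX b P X) *ᵥ evs (Pi.single α u))) f =
        Complex.I • th (thC M) (Jref b G (rX b P X) *ᵥ evs (Pi.single α u)) f) := by
    intro α u hu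
    rw [Jref_sq_single b P G hX hu, Jref_single b P G hX hu, th_evs]
    have h1 : th (thC M) (-evs (Pi.single α u)) f = -thv M α u f := by
      rw [← th_single, th, th, _root_.sum_apply, _root_.sum_apply, ← Finset.sum_neg_distrib]
      refine Finset.sum_congr rfl fun p _ => ?_
      rw [Pi.neg_apply, neg_smul, _root_.neg_apply]
    have h2 : ∑ β, thv M β (-(Defs478.Gam G β α • u)) f =
        -∑ β, ((Defs478.Gam G β α : ℝ) : ℂ) • thv M β u f := by
      rw [← Finset.sum_neg_distrib]
      refine Finset.sum_congr rfl fun β _ => ?_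
      rw [thv_neg', thv_smul']
    rw [h1, h2, smul_neg, neg_inj]
    unfold gan
    simp only [LinearMap.sub_apply, LinearMap.smul_apply, LinearMap.sum_apply]
    exact sub_eq_zero
  constructor
  · intro h v
    -- linearity: basis vectors
    have hb : ∀ α A, th (thC M) (Jref b G (rX b P X) *ᵥ (Jref b G (rX b P X) *ᵥ
        evs (Pi.single α (EuclideanSpace.single A (1 : ℝ))))) f =
        Complex.I • th (thC M) (Jref b G (rX b P X) *ᵥ
          evs (Pi.single α (EuclideanSpace.single A (1 : ℝ)))) f := by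
      intro α A
      set u : Colg N := EuclideanSpace.single A (1 : ℝ) with hu
      set u1 := (Geo692.kk b P).starProjection u with hu1
      have h1 : u1 ∈ Geo692.kk b P := Submodule.starProjection_apply_mem _ _
      have h2 : u - u1 ∈ (Geo692.kk b P)ᗮ := Submodule.sub_starProjection_mem_orthogonal _
      have h3 : evs (Pi.single α u) = evs (Pi.single α (u - u1)) + evs (Pi.single α u1) := by
        rw [← evs_add]
        congr 1
        funext β
        by_cases hβ : β = α
        · rw [hβ, Pi.single_eq_same, Pi.single_eq_same, Pi.single_eq_same, sub_add_cancel]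
        · rw [Pi.single_eq_of_ne hβ, Pi.single_eq_of_ne hβ, Pi.single_eq_of_ne hβ, add_zero]
      have h4 : Jref b G (rX b P X) *ᵥ evs (Pi.single α u) =
          Jref b G (rX b P X) *ᵥ evs (Pi.single α (u - u1)) := by
        rw [h3, Matrix.mulVec_add, Jref_light b P G hX fun β => single_perp h1 α β, add_zero]
      rw [h4]
      exact (key α _ h2).1 (h α _ h2)
    have h5 : PVac (thC M) (Jref b G (rX b P X)) f := by
      intro q
      have h6 := hb q.1 q.2
      have h7 : evs (Pi.single q.1 (EuclideanSpace.single q.2 (1 : ℝ))) =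
          (Pi.single q 1 : IX N → ℂ) := by
        funext p
        unfold evs
        by_cases hp : p = q
        · rw [hp, Pi.single_eq_same, Pi.single_eq_same]
          simp
        · rw [Pi.single_eq_of_ne hp]
          by_cases hp1 : p.1 = q.1
          · rw [hp1, Pi.single_eq_same]
            have hp2 : p.2 ≠ q.2 := fun h => hp (Prod.ext hp1 h)
            simp [hp2]
          · rw [Pi.single_eq_of_ne hp1]
            simp
      rw [h7, Matrix.mulVec_mulVec, VacSec255.th_mulVec, VacSec255.th_mulVec, _root_.sum_apply,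
        _root_.sum_apply] at h6
      have h8 : ∀ A : Matrix (IX N) (IX N) ℂ,
          ∑ p, ((Pi.single q 1 : IX N → ℂ) p • lc (thC M) A p) f = lc (thC M) A q f := by
        intro A
        rw [Finset.sum_eq_single q]
        · simp
        · intro p _ hp
          simp [hp]
        · intro h'; exact absurd (Finset.mem_univ q) h'
      rwa [h8, h8] at h6
    exact (pvac_iff M _ f).1 h5 v
  · intro h α u hu
    exact (key α u hu).2 (h _)

/-! ## The section -/

/-- **The section of heavy vacua of the channel.** -/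
def UX (X : Pos (P.m - 1)) : F →L[ℂ] F := Wop b G M (rX b P X)

variable {M}

theorem contDiff_pos (p : Fin P.m) {n : WithTop ℕ∞} :
    ContDiff ℝ n fun X : Geo692.XS P => Geo692.pos b P X p := by
  let L : Geo692.XS P →ₗ[ℝ] E9 :=
    { toFun := fun X => Geo692.pos b P X p
      map_add' := fun X Y => Geo692.pos_add b P X Y p
      map_smul' := fun t X => Geo692.pos_smul b P t X p }
  exact (LinearMap.toContinuousLinearMap L).contDiff

theorem contDiffAt_rX (X : Geo692.XS P) {n : WithTop ℕ∞} (a : Fin N) :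
    ContDiffAt ℝ n (fun x => rX b P x a) X := (contDiff_pos b P _).contDiffAt

theorem eventually_rX {X : Geo692.XS P} (hX : X ∈ Geo692.UU b P) :
    ∀ᶠ x in 𝓝 X, ∀ a d, rX b P X a = rX b P X d → rX b P x a = rX b P x d := by
  refine Eventually.of_forall fun x a d h => ?_
  have h1 := (rX_eq_iff b P (Geo692.UU_subset_Reg b P hX) a d).1 h
  unfold rX
  rw [h1]

theorem UX_smooth {X : Geo692.XS P} (hX : X ∈ Geo692.UU b P) :
    ContDiffAt ℝ ∞ (UX b P G M) X :=
  VacSec255.contDiffAt_Wop b G (contDiffAt_rX b P X) (eventually_rX b P hX) (UU_rX b P hX)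

theorem UX_inner (X : Geo692.XS P) (f f' : F) :
    ⟪UX b P G M X f, UX b P G M X f'⟫_ℂ = ⟪f, f'⟫_ℂ := VacSec255.Wop_inner b G _ _ _

theorem UX_comm {X : Geo692.XS P} (hX : X ∈ Geo692.UU b P) (β : Fin 16) {u : Colg N}
    (hu : u ∈ Geo692.kk b P) (f : F) :
    UX b P G M X (thv M β u f) = thv M β u (UX b P G M X f) := by
  have h := VacSec255.Wop_light b G (M := M) (UU_rX b P hX) (u := evs (Pi.single β u))
    (fun a d had γ => by
      rw [cm_evs]
      exact single_perp hu β γ a d fun h' =>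
        had ((rX_eq_iff b P (Geo692.UU_subset_Reg b P hX) a d).2 h'))
  have h2 := congrArg (fun T : F →L[ℂ] F => T f) h
  change Wop b G M (rX b P X) (th (thC M) (evs (Pi.single β u)) f) =
    th (thC M) (evs (Pi.single β u)) (Wop b G M (rX b P X) f) at h2
  rwa [th_single, th_single] at h2

theorem rX_of_act {X X' : Geo692.XS P} (hX' : X' ∈ Geo692.Reg b P)
    {g : Matrix.specialUnitaryGroup (Fin N) ℂ}
    (h : b.act g (Geo692.cfX b P X) = Geo692.cfX b P X') (a e : Fin N)
    (hg : (g : Matrix (Fin N) (Fin N) ℂ) e a ≠ 0) : rX b P X a = rX b P X' e := by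
  obtain ⟨σ, hσ, h1, rfl⟩ := Geo692.exists_sw b P hX' h
  have h2 : P.cl e = σ (P.cl a) := by
    by_contra h'
    exact hg (h1 e a h')
  unfold rX
  rw [Geo692.pos_Osw, h2, Geo692.ias]

theorem UX_cov (R : GaugeAction b M) {X X' : Geo692.XS P} (hX : X ∈ Geo692.UU b P)
    (hX' : X' ∈ Geo692.UU b P) {g : Matrix.specialUnitaryGroup (Fin N) ℂ}
    (h : b.act g (Geo692.cfX b P X) = Geo692.cfX b P X') {f : F}
    (hf : f ∈ vacOf M G (Geo692.kk b P)ᗮ) :
    R.ρ g f ∈ vacOf M G (Geo692.kk b P)ᗮ ∧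
      R.ρ g (UX b P G M X f) = UX b P G M X' (R.ρ g f) := by
  have hr := Geo692.UU_subset_Reg b P hX
  have hr' := Geo692.UU_subset_Reg b P hX'
  have h1 := rX_of_act b P hr' h
  refine ⟨?_, VacSec255.rho_Wop_apply G R g h1 f⟩
  rw [mem_vacOf_iff b P G M hr]  at hf
  rw [mem_vacOf_iff b P G M hr']
  have h2 := hf.map (VacSec255.rhoC_thC R g) (VacSec255.adI_transpose_mul b g)
  have h3 : adI b g * Jref b G (rX b P X) * (adI b g)ᵀ = Jref b G (rX b P X') :=
    VacSec255.adI_Op_conj b g fun a d e f' ha hd => by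
      change VacSec255.K0 G (rX b P X a - rX b P X d) = VacSec255.K0 G (rX b P X' e - rX b P X' f')
      rw [h1 a e ha, h1 d f' hd]
  rw [h3] at h2
  exact h2

theorem UX_berry {X : Geo692.XS P} (hX : X ∈ Geo692.UU b P) (e : Geo692.XS P) {f f' : F}
    (hf : f ∈ vacOf M G (Geo692.kk b P)ᗮ) (hf' : f' ∈ vacOf M G (Geo692.kk b P)ᗮ) :
    ⟪UX b P G M X f, fderiv ℝ (fun X' => UX b P G M X' f') X e⟫_ℂ = 0 := by
  have hr := Geo692.UU_subset_Reg b P hX
  rw [mem_vacOf_iff b P G M hr] at hf hf'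
  have h1 := VacSec255.berry b G (M := M) (contDiffAt_rX b P X (n := 1)) (eventually_rX b P hX)
    (UU_rX b P hX) e hf' hf
  have h2 : DifferentiableAt ℝ (UX b P G M) X :=
    (UX_smooth b P G hX).differentiableAt (by simp)
  have h3 : HasFDerivAt (fun X' => UX b P G M X' f')
      (((ContinuousLinearMap.apply ℂ F f').restrictScalars ℝ).comp
        (fderiv ℝ (UX b P G M) X)) X :=
    (((ContinuousLinearMap.apply ℂ F f').restrictScalars ℝ).hasFDerivAt).comp X h2.hasFDerivAt
  rw [h3.fderiv]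
  exact h1

/-! ## Parity of the heavy fermions -/

/-- The reflection of the heavy vectors. -/
def cR (a d : Fin N) : Matrix (Fin 16) (Fin 16) ℂ := ((2 * sk P a d - 1 : ℝ) : ℂ) • (1 : M16)

theorem dc_cR : DC (cR P) := fun a d => by
  unfold cR sk
  rw [if_pos rfl, if_pos rfl]

theorem sk_sq (a d : Fin N) : (2 * sk P a d - 1) * (2 * sk P a d - 1) = 1 := by
  unfold sk
  split_ifs <;> norm_num

theorem sk_symm (a d : Fin N) : sk P a d = sk P d a := by
  unfold sk
  by_cases h : P.cl a = P.cl d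
  · rw [if_pos h, if_pos h.symm]
  · rw [if_neg h, if_neg (Ne.symm h)]

theorem cR_transpose : (Op b (cR P))ᵀ = Op b (cR P) := by
  rw [VacSec255.Op_transpose]
  congr 1
  funext a d
  unfold cR
  rw [Matrix.transpose_smul, Matrix.transpose_one, sk_symm]

theorem cR_conj (K : E9 → M16) (r : Fin N → E9) :
    Op b (cR P) * Op b (pa K r) * (Op b (cR P))ᵀ = Op b (pa K r) := by
  rw [cR_transpose, ← VacSec255.Op_mul b _ _ (VacSec255.dc_pa r),
    ← VacSec255.Op_mul b _ _ (dc_cR P)]
  congr 1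
  funext a d
  change cR P a d * pa K r a d * cR P a d = pa K r a d
  unfold cR
  rw [smul_mul_assoc, one_mul, mul_smul_comm, mul_one, smul_smul, ← Complex.ofReal_mul, sk_sq,
    Complex.ofReal_one, one_smul]

/-- The reflection on vectors. -/
theorem cR_mulVec (v : IX N → ℂ) (β : Fin 16) (a d : Fin N) :
    VacSec255.cm b (Op b (cR P) *ᵥ v) β a d =
      ((2 * sk P a d - 1 : ℝ) : ℂ) * VacSec255.cm b v β a d := by
  rw [cm_Op b (dc_cR P), Finset.sum_eq_single β]
  · unfold cR
    rw [Matrix.smul_apply, Matrix.one_apply_eq, smul_eq_mul, mul_one]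
  · intro γ _ hγ
    unfold cR
    rw [Matrix.smul_apply, Matrix.one_apply_ne (Ne.symm hγ), smul_zero, zero_mul]
  · intro h; exact absurd (Finset.mem_univ β) h

theorem UX_par (X : Geo692.XS P) (Q : F →ₗ[ℂ] F)
    (h1 : ∀ β, ∀ u ∈ (Geo692.kk b P)ᗮ, ∀ f, Q (thv M β u f) = -thv M β u (Q f))
    (h2 : ∀ β, ∀ u ∈ Geo692.kk b P, ∀ f, Q (thv M β u f) = thv M β u (Q f)) (f : F) :
    Q (UX b P G M X f) = UX b P G M X (Q f) := by
  have : CompleteSpace F := FiniteDimensional.complete ℂ F
  set E : F →L[ℂ] F := LinearMap.toContinuousLinearMap Q with hE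
  have hEq : ∀ q, E * thC M q = lc (thC M) (Op b (cR P)) q * E := by
    intro q
    ext v
    set u : Colg N := EuclideanSpace.single q.2 (1 : ℝ) with hu
    set u1 := (Geo692.kk b P).starProjection u with hu1
    have e1 : u1 ∈ Geo692.kk b P := Submodule.starProjection_apply_mem _ _
    have e2 : u - u1 ∈ (Geo692.kk b P)ᗮ := Submodule.sub_starProjection_mem_orthogonal _
    have e3 : thC M q v = thv M q.1 u v := by
      rw [← th_single, th, _root_.sum_apply, Finset.sum_eq_single q]
      · unfold evs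
        rw [Pi.single_eq_same, hu]
        simp
      · intro p _ hp
        unfold evs
        by_cases hp1 : p.1 = q.1
        · rw [hp1, Pi.single_eq_same, hu]
          have hp2 : p.2 ≠ q.2 := fun h => hp (Prod.ext hp1 h)
          simp [hp2]
        · rw [Pi.single_eq_of_ne hp1]
          simp
      · intro h'; exact absurd (Finset.mem_univ q) h'
    have e4 : lc (thC M) (Op b (cR P)) q = th (thC M) (Op b (cR P) *ᵥ Pi.single q 1) := by
      rw [VacSec255.th_mulVec, Finset.sum_eq_single q]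
      · simp
      · intro p _ hp
        simp [hp]
      · intro h'; exact absurd (Finset.mem_univ q) h'
    have e5 : Op b (cR P) *ᵥ (Pi.single q 1 : IX N → ℂ) =
        evs (Pi.single q.1 (u1 + (-1 : ℝ) • (u - u1))) := by
      refine cm_inj b fun β => ?_
      ext a d
      rw [cR_mulVec, cm_evs]
      have e6 : (Pi.single q 1 : IX N → ℂ) = evs (Pi.single q.1 u) := by
        funext p
        unfold evs
        by_cases hp : p = q
        · rw [hp, Pi.single_eq_same, Pi.single_eq_same, hu]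
          simp
        · rw [Pi.single_eq_of_ne hp]
          by_cases hp1 : p.1 = q.1
          · rw [hp1, Pi.single_eq_same, hu]
            have hp2 : p.2 ≠ q.2 := fun h => hp (Prod.ext hp1 h)
            simp [hp2]
          · rw [Pi.single_eq_of_ne hp1]
            simp
      rw [e6, cm_evs]
      by_cases hβ : β = q.1
      · rw [hβ, Pi.single_eq_same, Pi.single_eq_same, ← hl_apply, ← hl_apply, map_add, map_smul,
          map_sub]
        have e7 : hl b a d u1 = (sk P a d : ℂ) * hl b a d u := by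
          rw [hl_apply, hl_apply, hu1, proj_kk, hm_mu b (msk_sk P)]
        rw [e7, Complex.real_smul]
        push_cast
        ring
      · rw [Pi.single_eq_of_ne hβ, Pi.single_eq_of_ne hβ, ← hl_apply, map_zero, mul_zero]
    have e8 : thv M q.1 u v = thv M q.1 u1 v + thv M q.1 (u - u1) v := by
      rw [← thv_add', add_sub_cancel]
    change Q (thC M q v) = lc (thC M) (Op b (cR P)) q (Q v)
    rw [e3, e8, map_add, h1 _ _ e2, h2 _ _ e1, e4, e5, th_single, thv_add', thv_smul',
      Complex.ofReal_neg, Complex.ofReal_one, neg_one_smul]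
  have k1 : E * VacSec255.W1 b G M (rX b P X) = VacSec255.W1 b G M (rX b P X) * E := by
    have := VacSec255.W_through hEq (Op b (pa (VacSec255.K1 G) (rX b P X)))
    rwa [cR_conj] at this
  have k2 : E * VacSec255.W2 b G M (rX b P X) = VacSec255.W2 b G M (rX b P X) * E := by
    have := VacSec255.W_through hEq (Op b (pa (VacSec255.K2 G) (rX b P X)))
    rwa [cR_conj] at this
  have k3 : E * Wop b G M (rX b P X) = Wop b G M (rX b P X) * E := by
    rw [Wop, ← mul_assoc, k2, mul_assoc, k1, ← mul_assoc]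
  exact congrArg (fun T : F →L[ℂ] F => T f) k3

/-! ## The adjoint action and its modulus, entrywise -/

theorem hm_adX (X : Geo692.XS P) (i : Fin 9) (v : Colg N) (a d : Fin N) :
    hm b (GBind984.adX b (Geo692.cfX b P X) i v).ofLp a d =
      (-Complex.I * ((rX b P X a i - rX b P X d i : ℝ) : ℂ)) * hm b v.ofLp a d := by
  rw [GBind984.adX_apply, Geo692.comp_cfX, Geo692.hm_colbr, Geo692.hm_cen]
  unfold Geo692.bsc
  rw [Matrix.smul_apply, Matrix.sub_apply, Matrix.diagonal_mul, Matrix.mul_diagonal, smul_eq_mul]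
  change -Complex.I * (((rX b P X a i : ℝ) : ℂ) * hm b v.ofLp a d -
    hm b v.ofLp a d * ((rX b P X d i : ℝ) : ℂ)) = _
  push_cast
  ring

theorem exists_famX {X : Geo692.XS P} (hX : X ∈ Geo692.Reg b P) : ∃ s : ℝ, 0 < s ∧
    AX984.Fam (Geo692.kk b P) s (GBind984.adX b (Geo692.cfX b P X)) := by
  have h := GBind984.exists_fam b (Geo692.comc_cfX b P X)
  rwa [Geo692.kc_cfX b P hX] at h

open Classical in
/-- the modulus of the adjoint action on a pair -/
def sr (X : Geo692.XS P) (a d : Fin N) : ℝ :=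
  if P.cl a = P.cl d then 1 else ‖rX b P X a - rX b P X d‖

theorem sr_pos {X : Geo692.XS P} (hX : X ∈ Geo692.Reg b P) (a d : Fin N) : 0 < sr b P X a d := by
  unfold sr
  split_ifs with h
  · exact one_pos
  · exact norm_pos_iff.2 fun h' => h ((rX_eq_iff b P hX a d).1 (sub_eq_zero.1 h'))

theorem msk_sr (X : Geo692.XS P) : Msk fun a d => (sr b P X a d : ℂ) where
  herm a d := by
    rw [Complex.conj_ofReal]
    unfold sr
    by_cases h : P.cl a = P.cl d
    · rw [if_pos h, if_pos h.symm]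
    · rw [if_neg h, if_neg (Ne.symm h), norm_sub_rev]
  diag a d := by
    unfold sr
    rw [if_pos rfl, if_pos rfl]

theorem lr_eq {X : Geo692.XS P} (hX : X ∈ Geo692.Reg b P) :
    AX984.lr (Geo692.kk b P) (GBind984.adX b (Geo692.cfX b P X)) =
      LinearMap.toContinuousLinearMap (mu b fun a d => (sr b P X a d : ℂ)) := by
  obtain ⟨s, hs, h⟩ := exists_famX b P hX
  refine SqrtPD984.psq_eq (mu_pd b (msk_sr b P X) (sr_pos b P hX)) ?_ (h.ll_pd hs).ps
  ext1 v
  refine colg_ext b fun a d => ?_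
  change hm b (mu b (fun a d => (sr b P X a d : ℂ)) (mu b (fun a d => (sr b P X a d : ℂ)) v)).ofLp
    a d = _
  rw [hm_mu b (msk_sr b P X), hm_mu b (msk_sr b P X), AX984.ll_apply, ← hl_apply b a d (_ - _),
    map_sub, map_sum, proj_kk, hl_apply, hm_mu b (msk_sk P)]
  simp only [hl_apply, hm_adX]
  rw [← mul_assoc, ← Finset.sum_congr rfl fun i _ => mul_assoc _ _ _, ← Finset.sum_mul,
    ← sub_mul]
  congr 1
  have h1 : ∀ i : Fin 9, (-Complex.I * ((rX b P X a i - rX b P X d i : ℝ) : ℂ)) *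
      (-Complex.I * ((rX b P X a i - rX b P X d i : ℝ) : ℂ)) =
      -(((rX b P X a i - rX b P X d i) ^ 2 : ℝ) : ℂ) := by
    intro i
    have : (-Complex.I * ((rX b P X a i - rX b P X d i : ℝ) : ℂ)) *
      (-Complex.I * ((rX b P X a i - rX b P X d i : ℝ) : ℂ)) = (Complex.I * Complex.I) *
      (((rX b P X a i - rX b P X d i : ℝ) : ℂ)) ^ 2 := by ring
    rw [this, Complex.I_mul_I, neg_one_mul, Complex.ofReal_pow]
  rw [Finset.sum_congr rfl fun i _ => h1 i, Finset.sum_neg_distrib, sub_neg_eq_add,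
    ← Complex.ofReal_sum, ← Complex.ofReal_mul, ← Complex.ofReal_add]
  congr 1
  unfold sr sk
  by_cases hc : P.cl a = P.cl d
  · rw [if_pos hc, if_pos hc]
    have h2 : rX b P X a = rX b P X d := (rX_eq_iff b P hX a d).2 hc
    simp [h2]
  · rw [if_neg hc, if_neg hc, zero_add, ← sq, EuclideanSpace.norm_sq_eq]
    refine Finset.sum_congr rfl fun i _ => ?_
    rw [Real.norm_eq_abs, sq_abs, PiLp.sub_apply]

theorem hm_lr {X : Geo692.XS P} (hX : X ∈ Geo692.Reg b P) (v : Colg N) (a d : Fin N) :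
    hm b (AX984.lr (Geo692.kk b P) (GBind984.adX b (Geo692.cfX b P X)) v).ofLp a d =
      (sr b P X a d : ℂ) * hm b v.ofLp a d := by
  rw [lr_eq b P hX]
  exact hm_mu b (msk_sr b P X) v a d

theorem hm_li {X : Geo692.XS P} (hX : X ∈ Geo692.Reg b P) (v : Colg N) (a d : Fin N) :
    hm b (AX984.li (Geo692.kk b P) (GBind984.adX b (Geo692.cfX b P X)) v).ofLp a d =
      ((sr b P X a d : ℂ))⁻¹ * hm b v.ofLp a d := by
  obtain ⟨s, hs, h⟩ := exists_famX b P hX
  have h1 := h.lr_li hs v
  have h2 := hm_lr b P hX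
    (AX984.li (Geo692.kk b P) (GBind984.adX b (Geo692.cfX b P X)) v) a d
  rw [h1] at h2
  have h3 : (sr b P X a d : ℂ) ≠ 0 := Complex.ofReal_ne_zero.2 (sr_pos b P hX a d).ne'
  rw [h2, inv_mul_cancel_left₀ h3]

/-! ## Charges as vectors -/

/-- The vector of `Theta α y`. -/
def wT (α : Fin 16) (y : Cfg N) : Fin 16 → Colg N := fun β => ∑ j, G.γ j α β • comp y j

theorem Theta_th (M : FermionRep N F) (α : Fin 16) (y : Cfg N) (f : F) :
    Theta M G α y f = th (thC M) (evs (wT G α y)) f := by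
  rw [Theta_eq, vco_eq_th]
  congr 2

/-- The vector of the linear potential. -/
def wP (α : Fin 16) (c z : Cfg N) : Fin 16 → Colg N := fun β =>
  ∑ i, ∑ j, G.γ2 i j α β • (colAlg b).br (comp c i) (comp z j)

theorem wB_th (M : FermionRep N F) (α : Fin 16) (c z : Cfg N) (f : F) :
    wB b M G 1 α c z f = th (thC M) (evs (wP b G α c z)) f := by
  unfold wB
  rw [vco_eq_th]
  congr 2
  congr 1
  funext β
  have h1 : (WithLp.toLp 2 (fun A => 2 * 1 * wb b G α β A c z) : Colg N) =
      (2 : ℝ) • (WithLp.toLp 2 (fun A => wb b G α β A c z) : Colg N) := by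
    ext A
    simp
  rw [h1, wbv_eq, Finset.smul_sum]
  refine Finset.sum_congr rfl fun i _ => ?_
  rw [Finset.smul_sum]
  refine Finset.sum_congr rfl fun j _ => ?_
  rw [smul_smul]
  congr 1
  ring

theorem g2_sub (i j : Fin 9) (α β : Fin 16) : G.γ2 i j α β =
    (G.γ i * G.γ j) α β - if i = j then (1 : Matrix (Fin 16) (Fin 16) ℝ) α β else 0 := by
  by_cases h : i = j
  · rw [if_pos h, h, Gam962.g2_self, Gam962.sq_one, sub_self, Matrix.zero_apply]
  · rw [if_neg h, Gam962.g2_ne G h, sub_zero]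

/-- The vector of the potential through the exponent. -/
theorem wP_eq {X : Geo692.XS P} (hX : X ∈ Geo692.Reg b P) (α β : Fin 16) (z : Cfg N) :
    wP b G α (Geo692.cfX b P X) z β = ∑ i, ∑ j, (G.γ i * G.γ j) α β •
      GBind984.adX b (Geo692.cfX b P X) i
        (AX984.li (Geo692.kk b P) (GBind984.adX b (Geo692.cfX b P X))
          (comp (GBind984.AXc b (Geo692.kk b P) (Geo692.cfX b P X) z) j)) := by
  obtain ⟨s, hs, h⟩ := exists_famX b P hX
  have h1 := h.charge GBind984.tenC hs (κ := (1 : Matrix (Fin 16) (Fin 16) ℝ) α β)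
    (c := fun i j => (G.γ i * G.γ j) α β)
    (fun i j hij => by
      rw [← Matrix.add_apply, G.clifford, if_neg hij, Matrix.zero_apply])
    (fun i => by rw [Gam962.sq_one]) z
  refine Eq.trans ?_ h1.symm
  unfold wP
  simp only [g2_sub, sub_smul, Finset.sum_sub_distrib]
  rw [GBind984.dv_adX, Finset.smul_sum]
  refine congrArg₂ (· - ·) rfl ?_
  refine Finset.sum_congr rfl fun i _ => ?_
  rw [Finset.sum_eq_single i]
  · rw [if_pos rfl]
  · intro j _ hj
    rw [if_neg (Ne.symm hj), zero_smul]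
  · intro h'; exact absurd (Finset.mem_univ i) h'

/-- **The potential is the complex structure applied to the kinetic vector.** -/
theorem evs_wP {X : Geo692.XS P} (hX : X ∈ Geo692.Reg b P) (α : Fin 16) (z : Cfg N) :
    evs (wP b G α (Geo692.cfX b P X) z) = -(Jop b G (rX b P X) *ᵥ
      evs (wT G α (GBind984.AXc b (Geo692.kk b P) (Geo692.cfX b P X) z))) := by
  obtain ⟨s, hs, h⟩ := exists_famX b P hX
  set y := GBind984.AXc b (Geo692.kk b P) (Geo692.cfX b P X) z with hy
  have hyK : ∀ j, comp y j ∈ (Geo692.kk b P)ᗮ := fun j => h.pr_AX_mem GBind984.tenC hs z j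
  have hdv : ∑ i, GBind984.adX b (Geo692.cfX b P X) i (comp y i) = 0 := by
    have h1 := h.dv_AX GBind984.tenC hs z
    rwa [AX984.Ten.dv_apply] at h1
  refine cm_inj b fun β => ?_
  ext a d
  have hneg : VacSec255.cm b (-(Jop b G (rX b P X) *ᵥ evs (wT G α y))) β a d =
      -VacSec255.cm b (Jop b G (rX b P X) *ᵥ evs (wT G α y)) β a d := by
    unfold VacSec255.cm
    rw [Matrix.sum_apply, Matrix.sum_apply, ← Finset.sum_neg_distrib]
    refine Finset.sum_congr rfl fun A _ => ?_
    rw [Matrix.smul_apply, Matrix.smul_apply, Pi.neg_apply, neg_smul]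
  rw [hneg, cm_evs, wP_eq b P G hX, ← hy, Jop, cm_Op b (VacSec255.dc_pa _)]
  simp only [cm_evs]
  have hT : ∀ γ, hm b (wT G α y γ).ofLp a d =
      ∑ j, ((G.γ j α γ : ℝ) : ℂ) * hm b (comp y j).ofLp a d := fun γ => hm_lin b _ _ _ a d
  have hL : hm b (∑ i, ∑ j, (G.γ i * G.γ j) α β • GBind984.adX b (Geo692.cfX b P X) i
      (AX984.li (Geo692.kk b P) (GBind984.adX b (Geo692.cfX b P X)) (comp y j))).ofLp a d =
      ∑ i, ∑ j, (((G.γ i * G.γ j) α β : ℝ) : ℂ) *
        ((-Complex.I * ((rX b P X a i - rX b P X d i : ℝ) : ℂ)) *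
          (((sr b P X a d : ℂ))⁻¹ * hm b (comp y j).ofLp a d)) := by
    rw [← hl_apply, map_sum]
    refine Finset.sum_congr rfl fun i _ => ?_
    rw [map_sum]
    refine Finset.sum_congr rfl fun j _ => ?_
    rw [map_smul, Complex.real_smul, hl_apply, hm_adX, hm_li b P hX]
  rw [hL]
  simp only [hT]
  by_cases hc : P.cl a = P.cl d
  · have h0 : ∀ j, hm b (comp y j).ofLp a d = 0 := fun j => (mem_perp b P).1 (hyK j) a d hc
    simp only [h0, mul_zero, Finset.sum_const_zero, neg_zero]
  · set v : E9 := rX b P X a - rX b P X d with hv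
    have hv0 : v ≠ 0 := fun h' => hc ((rX_eq_iff b P hX a d).1 (sub_eq_zero.1 h'))
    have hvi : ∀ i, rX b P X a i - rX b P X d i = v i := fun i => by rw [hv, PiLp.sub_apply]
    have hsr : sr b P X a d = ‖v‖ := by
      unfold sr
      rw [if_neg hc]
    set Y : Fin 9 → ℂ := fun j => hm b (comp y j).ofLp a d with hY
    have hdv2 : ∑ i, (v i : ℂ) * Y i = 0 := by
      have h1 := congrArg (hl b a d) hdv
      rw [map_sum, map_zero] at h1
      simp only [hl_apply, hm_adX, hvi] at h1
      have h2 : ∑ i, -Complex.I * (v i : ℂ) * hm b (comp y i).ofLp a d =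
          -Complex.I * ∑ i, (v i : ℂ) * Y i := by
        rw [Finset.mul_sum]
        exact Finset.sum_congr rfl fun i _ => by rw [hY]; ring
      rw [h2] at h1
      rcases mul_eq_zero.1 h1 with h3 | h3
      · exact absurd h3 (neg_ne_zero.2 Complex.I_ne_zero)
      · exact h3
    have hK : ∀ γ, pa (VacSec255.Kn G) (rX b P X) a d β γ =
        -Complex.I * (((‖v‖⁻¹ : ℝ) : ℂ) * ∑ i, (v i : ℂ) * ((G.γ i β γ : ℝ) : ℂ)) := by
      intro γ
      change VacSec255.Kn G v β γ = _
      unfold VacSec255.Kn VacSec255.Kv VacSec255.un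
      rw [VacSec255.gv_smul, Matrix.smul_apply, Matrix.smul_apply, smul_eq_mul, smul_eq_mul,
        VacSec255.gv_apply]
      rfl
    simp only [hK, hvi, hsr]
    have e1 : ∑ i, ∑ j, (((G.γ i * G.γ j) α β : ℝ) : ℂ) *
        ((-Complex.I * (v i : ℂ)) * (((‖v‖ : ℝ) : ℂ)⁻¹ * Y j)) =
        (-Complex.I * ((‖v‖⁻¹ : ℝ) : ℂ)) *
          ∑ i, ∑ j, (((G.γ i * G.γ j) α β : ℝ) : ℂ) * ((v i : ℂ) * Y j) := by
      rw [Finset.mul_sum]
      refine Finset.sum_congr rfl fun i _ => ?_
      rw [Finset.mul_sum]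
      refine Finset.sum_congr rfl fun j _ => ?_
      rw [Complex.ofReal_inv]
      ring
    have e2 : ∑ γ, -Complex.I * (((‖v‖⁻¹ : ℝ) : ℂ) * ∑ i, (v i : ℂ) * ((G.γ i β γ : ℝ) : ℂ)) *
        ∑ j, ((G.γ j α γ : ℝ) : ℂ) * Y j =
        (-Complex.I * ((‖v‖⁻¹ : ℝ) : ℂ)) *
          ∑ i, ∑ j, (((G.γ j * G.γ i) α β : ℝ) : ℂ) * ((v i : ℂ) * Y j) := by
      calc ∑ γ, -Complex.I * (((‖v‖⁻¹ : ℝ) : ℂ) * ∑ i, (v i : ℂ) * ((G.γ i β γ : ℝ) : ℂ)) *
            ∑ j, ((G.γ j α γ : ℝ) : ℂ) * Y j
          = (-Complex.I * ((‖v‖⁻¹ : ℝ) : ℂ)) * ∑ γ, (∑ i, (v i : ℂ) * ((G.γ i β γ : ℝ) : ℂ)) *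
            ∑ j, ((G.γ j α γ : ℝ) : ℂ) * Y j := by
            rw [Finset.mul_sum]
            exact Finset.sum_congr rfl fun γ _ => by ring
        _ = _ := by
            congr 1
            simp only [Finset.sum_mul_sum]
            rw [Finset.sum_comm]
            refine Finset.sum_congr rfl fun i _ => ?_
            rw [Finset.sum_comm]
            refine Finset.sum_congr rfl fun j _ => ?_
            rw [Matrix.mul_apply, Complex.ofReal_sum, Finset.sum_mul]
            refine Finset.sum_congr rfl fun γ _ => ?_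
            have h2 : G.γ i β γ = G.γ i γ β := by
              conv_lhs => rw [← G.symm i]
              rfl
            rw [h2, Complex.ofReal_mul]
            ring
    rw [e2, e1, ← sub_eq_zero, sub_neg_eq_add, ← mul_add, ← Finset.sum_add_distrib]
    have e3 : ∀ i, (∑ j, (((G.γ i * G.γ j) α β : ℝ) : ℂ) * ((v i : ℂ) * Y j)) +
        ∑ j, (((G.γ j * G.γ i) α β : ℝ) : ℂ) * ((v i : ℂ) * Y j) =
        (((2 : Matrix (Fin 16) (Fin 16) ℝ) α β : ℝ) : ℂ) * ((v i : ℂ) * Y i) := by
      intro i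
      rw [← Finset.sum_add_distrib, Finset.sum_eq_single i]
      · rw [← add_mul, ← Complex.ofReal_add, ← Matrix.add_apply, G.clifford, if_pos rfl]
      · intro j _ hj
        rw [← add_mul, ← Complex.ofReal_add, ← Matrix.add_apply, G.clifford,
          if_neg (Ne.symm hj), Matrix.zero_apply, Complex.ofReal_zero, zero_mul]
      · intro h'; exact absurd (Finset.mem_univ i) h'
    rw [Finset.sum_congr rfl fun i _ => e3 i, ← Finset.mul_sum, hdv2, mul_zero, mul_zero]

/-! ## The charges kill exactly the heavy vacua -/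

theorem th_neg (v : IX N → ℂ) (f : F) : th (thC M) (-v) f = -th (thC M) v f := by
  rw [th, th, _root_.sum_apply, _root_.sum_apply, ← Finset.sum_neg_distrib]
  refine Finset.sum_congr rfl fun p _ => ?_
  rw [Pi.neg_apply, neg_smul, _root_.neg_apply]

theorem th_sum {κ : Type*} (s : Finset κ) (v : κ → IX N → ℂ) (f : F) :
    th (thC M) (∑ k ∈ s, v k) f = ∑ k ∈ s, th (thC M) (v k) f := by
  simp only [th, _root_.sum_apply, _root_.smul_apply, Finset.sum_apply, Finset.sum_smul]
  rw [Finset.sum_comm]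

/-- The structure of the configuration squares to `-1` on heavy vectors. -/
theorem Jop_sq {X : Geo692.XS P} (hX : X ∈ Geo692.UU b P) {w : Fin 16 → Colg N}
    (hw : ∀ β, w β ∈ (Geo692.kk b P)ᗮ) :
    Jop b G (rX b P X) *ᵥ (Jop b G (rX b P X) *ᵥ evs w) = -evs w := by
  have hr := Geo692.UU_subset_Reg b P hX
  rw [Matrix.mulVec_mulVec, Jop, ← VacSec255.Op_mul b _ _ (VacSec255.dc_pa _)]
  refine cm_inj b fun β => ?_
  ext a d
  have hneg : VacSec255.cm b (-evs w) β a d = -hm b (w β).ofLp a d := by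
    rw [← cm_evs]
    unfold VacSec255.cm
    rw [Matrix.sum_apply, Matrix.sum_apply, ← Finset.sum_neg_distrib]
    refine Finset.sum_congr rfl fun A _ => ?_
    rw [Matrix.smul_apply, Matrix.smul_apply, Pi.neg_apply, neg_smul]
  rw [hneg, cm_Op b ((VacSec255.dc_pa _).mul (VacSec255.dc_pa _))]
  simp only [cm_evs]
  by_cases hc : P.cl a = P.cl d
  · have h0 : ∀ γ, hm b (w γ).ofLp a d = 0 := fun γ => (mem_perp b P).1 (hw γ) a d hc
    simp only [h0, mul_zero, Finset.sum_const_zero, neg_zero]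
  · have h1 : VacSec255.bp (rX b P X a - rX b P X d) ≠ 0 :=
      UU_rX b P hX a d fun h' => hc ((rX_eq_iff b P hr a d).1 h')
    have h2 : (pa (VacSec255.Kn G) (rX b P X) * pa (VacSec255.Kn G) (rX b P X)) a d = -1 :=
      VacSec255.Kn_sq G h1
    rw [h2, Finset.sum_eq_single β]
    · rw [Matrix.neg_apply, Matrix.one_apply_eq, neg_one_mul]
    · intro γ _ hγ
      rw [Matrix.neg_apply, Matrix.one_apply_ne (Ne.symm hγ), neg_zero, zero_mul]
    · intro h'; exact absurd (Finset.mem_univ β) h'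

theorem wT_perp (α : Fin 16) {y : Cfg N} (hy : ∀ j, comp y j ∈ (Geo692.kk b P)ᗮ) (β : Fin 16) :
    wT G α y β ∈ (Geo692.kk b P)ᗮ :=
  Submodule.sum_mem _ fun j _ => Submodule.smul_mem _ _ (hy j)

/-- The linearised charge of a mode. -/
theorem charge_eq {X : Geo692.XS P} (hX : X ∈ Geo692.Reg b P) (α : Fin 16) (z : Cfg N) (f : F) :
    Complex.I • Theta M G α (GBind984.AXc b (Geo692.kk b P) (Geo692.cfX b P X) z) f +
        wB b M G 1 α (Geo692.cfX b P X) z f =
      Complex.I • th (thC M)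
        (evs (wT G α (GBind984.AXc b (Geo692.kk b P) (Geo692.cfX b P X) z))) f -
      th (thC M) (Jop b G (rX b P X) *ᵥ
        evs (wT G α (GBind984.AXc b (Geo692.kk b P) (Geo692.cfX b P X) z))) f := by
  rw [Theta_th, wB_th, evs_wP b P G hX, th_neg, ← sub_eq_add_neg]

theorem pvac_heavy {X : Geo692.XS P} (hX : X ∈ Geo692.UU b P) {f : F}
    (hf : PVac (thC M) (Jop b G (rX b P X)) f) {w : Fin 16 → Colg N}
    (hw : ∀ β, w β ∈ (Geo692.kk b P)ᗮ) :
    th (thC M) (Jop b G (rX b P X) *ᵥ evs w) f = Complex.I • th (thC M) (evs w) f := by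
  have h1 := (pvac_iff M _ f).1 hf (Jop b G (rX b P X) *ᵥ evs w)
  rw [Jop_sq b P G hX hw, Matrix.mulVec_neg, th_neg, th_neg, smul_neg, neg_inj] at h1
  exact h1

theorem UX_kill {X : Geo692.XS P} (hX : X ∈ Geo692.UU b P) {f : F}
    (hf : f ∈ vacOf M G (Geo692.kk b P)ᗮ) (α : Fin 16) (z : Cfg N) :
    Complex.I • Theta M G α (GBind984.AXc b (Geo692.kk b P) (Geo692.cfX b P X) z)
        (UX b P G M X f) +
      wB b M G 1 α (Geo692.cfX b P X) z (UX b P G M X f) = 0 := by
  have hr := Geo692.UU_subset_Reg b P hX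
  obtain ⟨s, hs, h⟩ := exists_famX b P hr
  rw [mem_vacOf_iff b P G M hr, VacSec255.pvac_Wop_iff b G (UU_rX b P hX)] at hf
  rw [charge_eq b P G hr]
  have hyK : ∀ j, comp (GBind984.AXc b (Geo692.kk b P) (Geo692.cfX b P X) z) j ∈
      (Geo692.kk b P)ᗮ := fun j => h.pr_AX_mem GBind984.tenC hs z j
  have h1 := pvac_heavy b P G hX hf (wT_perp b P G α hyK)
  exact sub_eq_zero.2 h1.symm

/-! ### Conversely -/

theorem exists_unit (n : E9) : ∃ v : E9, ‖v‖ = 1 ∧ ⟪v, n⟫_ℝ = 0 := by
  have h1 : 0 < Module.finrank ℝ (ℝ ∙ n)ᗮ := by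
    have h2 := Submodule.finrank_add_finrank_orthogonal (ℝ ∙ n)
    have h3 : Module.finrank ℝ (ℝ ∙ n) ≤ 1 := by
      refine (finrank_span_le_card ({n} : Set E9)).trans ?_
      simp
    have h4 : Module.finrank ℝ E9 = 9 := by simp
    omega
  have h5 : Nontrivial (ℝ ∙ n)ᗮ := Module.finrank_pos_iff.1 h1
  obtain ⟨⟨v, hv⟩, hv0⟩ := exists_ne (0 : (ℝ ∙ n)ᗮ)
  have hv1 : v ≠ 0 := fun h => hv0 (Subtype.ext h)
  have hn : ‖v‖ ≠ 0 := norm_ne_zero_iff.2 hv1
  refine ⟨‖v‖⁻¹ • v, ?_, ?_⟩
  · rw [norm_smul, norm_inv, norm_norm, inv_mul_cancel₀ hn]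
  · rw [real_inner_smul_left, real_inner_comm,
      (Submodule.mem_orthogonal_singleton_iff_inner_right).1 hv, mul_zero]

/-- a unit vector orthogonal to `n` -/
def ch (n : E9) : E9 := Classical.choose (exists_unit n)

theorem norm_ch (n : E9) : ‖ch n‖ = 1 := (Classical.choose_spec (exists_unit n)).1

theorem inner_ch (n : E9) : ⟪ch n, n⟫_ℝ = 0 := (Classical.choose_spec (exists_unit n)).2

open Classical in
/-- symmetric choice on the pairs -/
def VV (X : Geo692.XS P) (a d : Fin N) : E9 :=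
  if a ≤ d then ch (rX b P X a - rX b P X d) else ch (rX b P X d - rX b P X a)

theorem VV_symm (X : Geo692.XS P) (a d : Fin N) : VV b P X a d = VV b P X d a := by
  unfold VV
  rcases lt_trichotomy a d with h | h | h
  · rw [if_pos h.le, if_neg (not_le.2 h)]
  · rw [h]
  · rw [if_neg (not_le.2 h), if_pos h.le]

theorem VV_diag (X : Geo692.XS P) (a d : Fin N) : VV b P X a a = VV b P X d d := by
  unfold VV
  rw [if_pos le_rfl, if_pos le_rfl, sub_self, sub_self]

theorem norm_VV (X : Geo692.XS P) (a d : Fin N) : ‖VV b P X a d‖ = 1 := by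
  unfold VV
  split_ifs
  · exact norm_ch _
  · exact norm_ch _

theorem inner_VV (X : Geo692.XS P) (a d : Fin N) :
    ⟪VV b P X a d, rX b P X a - rX b P X d⟫_ℝ = 0 := by
  unfold VV
  split_ifs
  · exact inner_ch _
  · have h := inner_ch (rX b P X d - rX b P X a)
    rw [← neg_sub (rX b P X a) (rX b P X d), inner_neg_right] at h
    rw [← neg_sub (rX b P X a) (rX b P X d)]
    exact neg_eq_zero.1 h

/-- mask of two components -/
def sV (X : Geo692.XS P) (i j : Fin 9) (a d : Fin N) : ℝ := VV b P X a d i * VV b P X a d j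

theorem msk_sV (X : Geo692.XS P) (i j : Fin 9) : Msk fun a d => (sV b P X i j a d : ℂ) where
  herm a d := by
    rw [Complex.conj_ofReal]
    unfold sV
    rw [VV_symm]
  diag a d := by
    unfold sV
    rw [VV_diag b P X a d]

/-- The heavy tuple with prescribed kinetic vector. -/
def yV (X : Geo692.XS P) (α : Fin 16) (w : Fin 16 → Colg N) (j : Fin 9) : Colg N :=
  ∑ β, ∑ i, G.γ i α β • mu b (fun a d => (sV b P X i j a d : ℂ)) (w β)

theorem hm_yV (X : Geo692.XS P) (α : Fin 16) (w : Fin 16 → Colg N) (j : Fin 9) (a d : Fin N) :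
    hm b (yV b P G X α w j).ofLp a d = (VV b P X a d j : ℂ) *
      ∑ β, (∑ i, (VV b P X a d i : ℂ) * ((G.γ i α β : ℝ) : ℂ)) * hm b (w β).ofLp a d := by
  unfold yV
  rw [← hl_apply, map_sum, Finset.mul_sum]
  refine Finset.sum_congr rfl fun β _ => ?_
  rw [map_sum, Finset.sum_mul, Finset.mul_sum]
  refine Finset.sum_congr rfl fun i _ => ?_
  rw [map_smul, Complex.real_smul, hl_apply, hm_mu b (msk_sV b P X i j)]
  unfold sV
  rw [Complex.ofReal_mul]
  ring

theorem yV_perp (X : Geo692.XS P) (α : Fin 16) {w : Fin 16 → Colg N}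
    (hw : ∀ β, w β ∈ (Geo692.kk b P)ᗮ) (j : Fin 9) : yV b P G X α w j ∈ (Geo692.kk b P)ᗮ := by
  rw [mem_perp]
  intro a d hc
  have h0 : ∀ γ, hm b (w γ).ofLp a d = 0 := fun γ => (mem_perp b P).1 (hw γ) a d hc
  rw [hm_yV]
  simp only [h0, mul_zero, Finset.sum_const_zero]

/-- The preimage under the exponent. -/
theorem AX_yV {X : Geo692.XS P} (hX : X ∈ Geo692.Reg b P) (α : Fin 16) {w : Fin 16 → Colg N}
    (hw : ∀ β, w β ∈ (Geo692.kk b P)ᗮ) : ∃ z ∈ Tup (Geo692.kk b P)ᗮ,
    ∀ j, comp (GBind984.AXc b (Geo692.kk b P) (Geo692.cfX b P X) z) j = yV b P G X α w j := by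
  obtain ⟨s, hs, h⟩ := exists_famX b P hX
  set D := GBind984.adX b (Geo692.cfX b P X) with hD
  set z : Cfg N := mkc fun j => AX984.li (Geo692.kk b P) D (yV b P G X α w j) with hz
  have hzj : ∀ j, comp z j = AX984.li (Geo692.kk b P) D (yV b P G X α w j) := fun j => rfl
  have hzK : ∀ j, comp z j ∈ (Geo692.kk b P)ᗮ := fun j => by
    rw [hzj]
    exact h.li_mem hs (yV_perp b P G X α hw j)
  refine ⟨z, hzK, fun j => ?_⟩
  have hdv : GBind984.tenC.dv D z = 0 := by
    rw [AX984.Ten.dv_apply]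
    refine colg_ext b fun a d => ?_
    rw [← hl_apply, ← hl_apply, map_sum, map_zero]
    have h1 : ∀ i, hl b a d (D i (GBind984.tenC.pr i z)) =
        (-Complex.I * ((sr b P X a d : ℂ))⁻¹ *
          ∑ β, (∑ i, (VV b P X a d i : ℂ) * ((G.γ i α β : ℝ) : ℂ)) * hm b (w β).ofLp a d) *
          (((rX b P X a i - rX b P X d i) * VV b P X a d i : ℝ) : ℂ) := by
      intro i
      change hm b (GBind984.adX b (Geo692.cfX b P X) i (comp z i)).ofLp a d = _
      rw [hm_adX, hzj, hm_li b P hX, hm_yV, Complex.ofReal_mul]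
      ring
    rw [Finset.sum_congr rfl fun i _ => h1 i, ← Finset.mul_sum, ← Complex.ofReal_sum]
    have h2 : ∑ i, (rX b P X a i - rX b P X d i) * VV b P X a d i = 0 := by
      have h3 := inner_VV b P X a d
      rw [PiLp.inner_apply] at h3
      rw [← h3]
      refine Finset.sum_congr rfl fun i _ => ?_
      simp [mul_comm]
    rw [h2, Complex.ofReal_zero, mul_zero]
  have h4 := GBind984.tenC.pr_AX (Geo692.kk b P) D z j
  change comp (GBind984.AXc b (Geo692.kk b P) (Geo692.cfX b P X) z) j =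
    AX984.lr (Geo692.kk b P) D (comp z j) - (Geo692.kk b P).starProjection (comp z j) +
      D j (AX984.li (Geo692.kk b P) D (GBind984.tenC.dv D z)) at h4
  rw [h4, hdv, map_zero, map_zero, add_zero, AX984.proj_zero (hzK j), sub_zero, hzj, h.lr_li hs]

/-- The kinetic vectors span. -/
theorem sum_wT (X : Geo692.XS P) (w : Fin 16 → Colg N) {y : Fin 16 → Cfg N}
    (hy : ∀ α j, comp (y α) j = yV b P G X α w j) : ∑ α, evs (wT G α (y α)) = evs w := by
  refine cm_inj b fun β => ?_
  ext a d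
  have h1 : VacSec255.cm b (∑ α, evs (wT G α (y α))) β a d =
      ∑ α, hm b (wT G α (y α) β).ofLp a d := by
    simp only [← cm_evs]
    unfold VacSec255.cm
    simp only [Matrix.sum_apply, Matrix.smul_apply, Finset.sum_apply, Finset.sum_smul]
    rw [Finset.sum_comm]
  have h2 : ∀ α, hm b (wT G α (y α) β).ofLp a d =
      ∑ j, ((G.γ j α β : ℝ) : ℂ) * hm b (comp (y α) j).ofLp a d := fun α => hm_lin b _ _ _ a d
  rw [h1, cm_evs]
  simp only [h2, hy, hm_yV]
  set v := VV b P X a d with hv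
  have hK : ∀ α γ, ∑ i, (v i : ℂ) * ((G.γ i α γ : ℝ) : ℂ) = VacSec255.gv G v α γ := by
    intro α γ
    rw [VacSec255.gv_apply]
    rfl
  have h3 : ∀ α, ∑ j, ((G.γ j α β : ℝ) : ℂ) * ((v j : ℂ) *
      ∑ γ, (∑ i, (v i : ℂ) * ((G.γ i α γ : ℝ) : ℂ)) * hm b (w γ).ofLp a d) =
      ∑ γ, VacSec255.gv G v β α * VacSec255.gv G v α γ * hm b (w γ).ofLp a d := by
    intro α
    have h4 : ∑ j, ((G.γ j α β : ℝ) : ℂ) * (v j : ℂ) = VacSec255.gv G v β α := by
      rw [VacSec255.gv_apply]
      refine Finset.sum_congr rfl fun j _ => ?_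
      have h5 : G.γ j α β = G.γ j β α := by
        conv_lhs => rw [← G.symm j]
        rfl
      rw [h5, mul_comm]
      rfl
    simp only [← mul_assoc]
    rw [← Finset.sum_mul, h4, Finset.mul_sum]
    refine Finset.sum_congr rfl fun γ _ => ?_
    rw [hK, mul_assoc]
  rw [Finset.sum_congr rfl fun α _ => h3 α, Finset.sum_comm]
  have h6 : ∀ γ, ∑ α, VacSec255.gv G v β α * VacSec255.gv G v α γ * hm b (w γ).ofLp a d =
      (1 : M16) β γ * hm b (w γ).ofLp a d := by
    intro γ
    rw [← Finset.sum_mul, ← Matrix.mul_apply, VacSec255.gv_sq, hv, norm_VV, one_pow,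
      Complex.ofReal_one, one_smul]
  rw [Finset.sum_congr rfl fun γ _ => h6 γ, Finset.sum_eq_single β]
  · rw [Matrix.one_apply_eq, one_mul]
  · intro γ _ hγ
    rw [Matrix.one_apply_ne (Ne.symm hγ), zero_mul]
  · intro h'; exact absurd (Finset.mem_univ β) h'

theorem UX_full {X : Geo692.XS P} (hX : X ∈ Geo692.UU b P) {f : F}
    (hf : ∀ z ∈ Tup (Geo692.kk b P)ᗮ, ∀ α,
      Complex.I • Theta M G α (GBind984.AXc b (Geo692.kk b P) (Geo692.cfX b P X) z) f +
        wB b M G 1 α (Geo692.cfX b P X) z f = 0) :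
    ∃ f' ∈ vacOf M G (Geo692.kk b P)ᗮ, UX b P G M X f' = f := by
  have hr := Geo692.UU_subset_Reg b P hX
  have key : ∀ w : Fin 16 → Colg N, (∀ β, w β ∈ (Geo692.kk b P)ᗮ) →
      th (thC M) (Jop b G (rX b P X) *ᵥ evs w) f = Complex.I • th (thC M) (evs w) f := by
    intro w hw
    choose z hz hzy using fun α => AX_yV b P G hr α hw
    have h1 := sum_wT b P G X w (y := fun α =>
      GBind984.AXc b (Geo692.kk b P) (Geo692.cfX b P X) (z α)) hzy
    have h2 : ∀ α, th (thC M) (Jop b G (rX b P X) *ᵥ evs (wT G α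
        (GBind984.AXc b (Geo692.kk b P) (Geo692.cfX b P X) (z α)))) f =
        Complex.I • th (thC M) (evs (wT G α
          (GBind984.AXc b (Geo692.kk b P) (Geo692.cfX b P X) (z α)))) f := by
      intro α
      have h3 := hf (z α) (hz α) α
      rw [charge_eq b P G hr] at h3
      exact (sub_eq_zero.1 h3).symm
    rw [← h1, Matrix.mulVec_sum, th_sum, th_sum, Finset.smul_sum]
    exact Finset.sum_congr rfl fun α _ => h2 α
  have h4 : PVac (thC M) (Jop b G (rX b P X)) f := by
    intro q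
    -- the column of `Jop` is heavy and real
    have hre := VacSec255.pa_real b (VacSec255.good_Kn G) (rX b P X)
    set w : Fin 16 → Colg N := fun β => WithLp.toLp 2 fun A => (Jop b G (rX b P X) (β, A) q).re
      with hw
    have h5 : evs w = Jop b G (rX b P X) *ᵥ Pi.single q 1 := by
      funext p
      rw [Matrix.mulVec_single_one]
      exact VacSec255.IsReal.re hre p q
    have h6 : ∀ β, w β ∈ (Geo692.kk b P)ᗮ := by
      intro β
      rw [mem_perp]
      intro a d hc
      rw [← cm_evs, h5, Jop, cm_Op b (VacSec255.dc_pa _)]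
      refine Finset.sum_eq_zero fun γ _ => ?_
      have h7 : pa (VacSec255.Kn G) (rX b P X) a d = 0 := by
        change VacSec255.Kn G (rX b P X a - rX b P X d) = 0
        rw [(rX_eq_iff b P hr a d).2 hc, sub_self]
        exact (VacSec255.good_Kn G).zero
      rw [h7, Matrix.zero_apply, zero_mul]
    have h8 := key w h6
    rw [h5, Matrix.mulVec_mulVec, VacSec255.th_mulVec, VacSec255.th_mulVec, _root_.sum_apply,
      _root_.sum_apply] at h8
    have h9 : ∀ A : Matrix (IX N) (IX N) ℂ,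
        ∑ p, ((Pi.single q 1 : IX N → ℂ) p • lc (thC M) A p) f = lc (thC M) A q f := by
      intro A
      rw [Finset.sum_eq_single q]
      · simp
      · intro p _ hp
        simp [hp]
      · intro h'; exact absurd (Finset.mem_univ q) h'
    rwa [h9, h9] at h8
  obtain ⟨f', h10, h11⟩ := VacSec255.exists_of_pvac b G (UU_rX b P hX) h4
  exact ⟨f', (mem_vacOf_iff b P G M hr f').2 h10, h11⟩

/-- **The U-fields of `TPack` for the channel of a partition.** -/
theorem uData (R : GaugeAction b M) :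
    TPk776.UData (Geo692.chn b P) M R G (AFld984.Afld (Geo692.chn b P)) (UX b P G M) where
  U_smooth X hX := UX_smooth b P G ((Geo692.chn_BReg b P X).1 hX)
  U_inner X _ f _ f' _ := UX_inner b P G X f f'
  U_comm X hX β u hu f _ := UX_comm b P G ((Geo692.chn_BReg b P X).1 hX) β hu f
  U_kill X hX f hf z _ α := by
    rw [AFld984.Afld_reg _ hX.reg]
    exact UX_kill b P G ((Geo692.chn_BReg b P X).1 hX) hf α z
  U_full X hX f hf := by
    rw [AFld984.Afld_reg _ hX.reg] at hf
    exact UX_full b P G ((Geo692.chn_BReg b P X).1 hX) hf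
  U_cov _ X X' hX hX' h _ hf :=
    UX_cov b P G R ((Geo692.chn_BReg b P X).1 hX) ((Geo692.chn_BReg b P X').1 hX') h hf
  U_berry X hX e _ hf _ hf' := UX_berry b P G ((Geo692.chn_BReg b P X).1 hX) e hf hf'
  U_par X _ Q h1 h2 f _ := UX_par b P G X Q h1 h2 f

end rep2

end Crest.Agent.R330.UPack311

end
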