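import Crest.Agent.R330.T7b_776
import Crest.Agent.R330.UPack_311
import Crest.Agent.R330.PsiB2_726
import Crest.Agent.R330.HBind_450
import Crest.Agent.R330.Dual_478
import Crest.Agent.R330.LocG_8
import Crest.Agent.R330.XCutB_924
import Crest.Agent.R330.I3Fin_478
import Crest.Agent.R330.HQFin_478
import Crest.Agent.R330.ChanTop_478

/-!
# Row 330: S0512 (helper478)

* `locAt` : the inputs of the local capture estimate (342, 924, 879, 406/596, 186/815, 424/245).
* `packAll` : the trial data of all channels, from `Below N`.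
* `s0512` : **the statement of S0512**.
-/

set_option autoImplicit false
set_option linter.unusedSectionVars false

open MeasureTheory Filter Topology Crest.MathPhysics.MatrixQM
open scoped ContDiff InnerProductSpace ENNReal

noncomputable section

namespace Crest.Agent.R330.Fin478

open Crest.Agent.R330.TDef414 Crest.Agent.R330.Chan441 Crest.Agent.R330.Parts879
  Crest.Agent.R330.Geo692 Crest.Agent.R330.ChanTop478 Crest.Agent.R330.T7776
  Crest.Agent.R330.Psi477 Crest.Agent.R330.Close478 Crest.Agent.R330.LocF8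
  Crest.Agent.R330.LocD8

/-- The inputs of the local capture estimate. -/
theorem locAt {N p : ℕ} {b : ColorBasis N} {S : Type} [Group S] [Fintype S] {C : Chn b p S}
    {F : Type} [NormedAddCommGroup F] [InnerProductSpace ℂ F] [FiniteDimensional ℂ F]
    [Nontrivial F] {M : FermionRep N F} {R : GaugeAction b M} {G : GammaNine}
    (P : TPack C M R G) (σ : Sl C) {m : ℝ} (h0 : 0 ≤ m) (h1 : m ≤ 1) : LocAt P σ m where
  i1 := LocG8.i1 P σ m h0 h1
  tail := XCut924.tail M R G σ h0 h1
  mass := LocG8.mass P σ m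
  hq := HQFin478.hq P σ h0 h1
  i3 := I3Fin478.i3 P σ h0 h1
  i4 := LocG8.i4 P σ m

/-- The trial data of all channels. -/
theorem packAll {N : ℕ} (hB : Below N) : PackAll N := by
  intro F _ _ _ _ b M R G L
  obtain ⟨P, hP⟩ := exists_tpack_of (R := R) (M := M) (b := b) (G := G) hB L
    ⟨_, UPack311.uData b L G R⟩ (fun D T => PsiB726.psiData_chn b M R L T)
    (fun D T P hP => HBind450.psiHardy T (Link973.link b L D.bn) (Link973.linkCov b L D.bn) P hP)
  have hC := Gram6372.cross P
  exact ⟨P, ⟨GramX167.hiso P hC, GramX167.hchart P hC, Dual478.dualT P,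
    capT_of_forall hP (fun σ => locAt P σ le_rfl zero_le_one),
    capT_of_forall hP (fun σ => locAt P σ zero_le_one le_rfl)⟩⟩

/-- The induction. -/
theorem dim1_all : ∀ N, 2 ≤ N → Top478.Dim1 N ∧ SInd478.SInd N :=
  Last478.dim1_all fun _ hN hB => chanAll_of (by omega) (packAll hB)

/-- **The statement of S0512.** -/
theorem s0512 {N : ℕ} (hN : 2 ≤ N)
    (F : Type) [NormedAddCommGroup F] [InnerProductSpace ℂ F] [FiniteDimensional ℂ F]
    [Nontrivial F] (b : ColorBasis N) (M : FermionRep N F) (R : GaugeAction b M)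
    (G : GammaNine) :
    ∃ Ψ₀ ∈ zeroEnergyStates b M R G, ¬ (Ψ₀ =ᵐ[volume] 0) ∧
      ∀ Ψ ∈ zeroEnergyStates b M R G, ∃ c : ℂ, Ψ =ᵐ[volume] c • Ψ₀ :=
  ChanTop478.s0512_of (fun _ _ hB => packAll hB) hN F b M R G

end Crest.Agent.R330.Fin478

end
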