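import Crest.Agent.R330.Hardy_151

/-!
# Row 330, S9 capture: the tail near a flat (helper924)

* `flat_tail` : `∫_{‖L u - c‖ ≤ δ} ‖Φ‖² ≤ C δ² Σ_k ∫ ‖∂_{v k} Φ‖²` for a flat of codimension at least
  three of the base (Hardy inequality).
-/

set_option autoImplicit false
set_option linter.unusedSectionVars false

noncomputable section

namespace Crest.Agent.R330.CapSl924

open MeasureTheory Filter Topology Set
open scoped ContDiff InnerProductSpace ENNReal

/-! ### the tail near a flat -/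

section flat

open Crest.Agent.R330.Hardy151

variable {F : Type*} [NormedAddCommGroup F] [InnerProductSpace ℝ F]
  {U Z V : Type*} [NormedAddCommGroup U] [InnerProductSpace ℝ U] [FiniteDimensional ℝ U]
  [MeasurableSpace U] [BorelSpace U]
  [NormedAddCommGroup Z] [NormedSpace ℝ Z] [FiniteDimensional ℝ Z] [MeasurableSpace Z]
  [BorelSpace Z] [NormedAddCommGroup V] [NormedSpace ℝ V] [FiniteDimensional ℝ V]
  {μ : Measure U} [μ.IsAddHaarMeasure] {ν : Measure Z} [ν.IsAddHaarMeasure]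

/-- a linear map controls the distance to its kernel -/
theorem exists_ker_bound (L : U →L[ℝ] V) : ∃ C : ℝ, 0 < C ∧
    ∀ x ∈ (LinearMap.ker L.toLinearMap)ᗮ, ‖x‖ ≤ C * ‖L x‖ := by
  set W : Submodule ℝ U := (LinearMap.ker L.toLinearMap)ᗮ with hW
  let T : W →ₗ[ℝ] V := L.toLinearMap.domRestrict W
  have hT : LinearMap.ker T = ⊥ := by
    rw [LinearMap.ker_eq_bot']
    intro x hx
    have h1 : (x : U) ∈ LinearMap.ker L.toLinearMap := hx
    have h2 : ⟪(x : U), (x : U)⟫_ℝ = 0 := (Submodule.mem_orthogonal _ _).1 x.2 _ h1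
    exact Subtype.ext (inner_self_eq_zero.1 h2)
  obtain ⟨K, hK, hAL⟩ := T.exists_antilipschitzWith hT
  refine ⟨K, by exact_mod_cast hK, fun x hx => ?_⟩
  have := hAL.le_mul_dist ⟨x, hx⟩ 0
  rw [map_zero, dist_zero_right, dist_zero_right] at this
  exact this

/-- **Tail near a flat**, no parameters. -/
theorem flat_tail_fib (L : U →L[ℝ] V) (hL : Function.Surjective L) (h3 : 3 ≤ Module.finrank ℝ V)
    (W : Submodule ℝ U) (hW : (LinearMap.ker L.toLinearMap)ᗮ ≤ W) :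
    ∃ C : ℝ, 0 ≤ C ∧ ∀ {κ : Type} [Fintype κ] (v : OrthonormalBasis κ ℝ W) (c : V) (δ : ℝ),
      0 < δ → ∀ f : U → F, ContDiff ℝ 1 f → HasCompactSupport f →
      ∫ u in {u : U | ‖L u - c‖ ≤ δ}, ‖f u‖ ^ 2 ∂μ ≤
        C * δ ^ 2 * ∑ k, ∫ u, ‖fderiv ℝ f u (v k : U)‖ ^ 2 ∂μ := by
  classical
  obtain ⟨C, hC, hker⟩ := exists_ker_bound L
  set M : Submodule ℝ U := (LinearMap.ker L.toLinearMap)ᗮ with hM
  have hMo : Mᗮ = LinearMap.ker L.toLinearMap := by
    rw [hM, Submodule.orthogonal_orthogonal]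
  set n := Module.finrank ℝ M with hn
  have hn3 : 3 ≤ n := by
    have h1 : Module.finrank ℝ (LinearMap.ker L.toLinearMap) + Module.finrank ℝ M =
        Module.finrank ℝ U := Submodule.finrank_add_finrank_orthogonal _
    have h2 : Module.finrank ℝ (LinearMap.range L.toLinearMap) +
        Module.finrank ℝ (LinearMap.ker L.toLinearMap) = Module.finrank ℝ U :=
      LinearMap.finrank_range_add_finrank_ker _
    have h3' : Module.finrank ℝ (LinearMap.range L.toLinearMap) = Module.finrank ℝ V := by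
      rw [LinearMap.range_eq_top.2 hL, finrank_top]
    omega
  let e : OrthonormalBasis (Fin n) ℝ M := stdOrthonormalBasis ℝ M
  let e' : Fin n → U := fun k => (e k : U)
  have he : Orthonormal ℝ e' := e.orthonormal.comp_linearIsometry M.subtypeₗᵢ
  refine ⟨4 * (C ^ 2 + 1) * n, by positivity, fun {κ} _ v c δ hδ f hf hcf => ?_⟩
  obtain ⟨x0, hx0⟩ := hL c
  set cc : Fin n → ℝ := fun k => ⟪e' k, x0⟫_ℝ with hcc
  -- the distance
  have hr2 : ∀ u, r2 e' cc u = ‖M.starProjection (u - x0)‖ ^ 2 := by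
    intro u
    have h1 : ∀ k, yc e' cc k u = ⟪e k, (⟨M.starProjection (u - x0),
        Submodule.starProjection_apply_mem _ _⟩ : M)⟫_ℝ := by
      intro k
      show ⟪e' k, u⟫_ℝ - ⟪e' k, x0⟫_ℝ = ⟪(e k : U), M.starProjection (u - x0)⟫_ℝ
      rw [← inner_sub_right, ← Submodule.inner_starProjection_left_eq_right,
        Submodule.starProjection_eq_self_iff.2 (e k).2]
    unfold r2
    simp only [h1]
    rw [e.sum_sq_inner_right]
    rfl
  have hdist : ∀ u, ‖L u - c‖ ≤ δ → r2 e' cc u ≤ C ^ 2 * δ ^ 2 := by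
    intro u hu
    rw [hr2, ← mul_pow]
    refine pow_le_pow_left₀ (norm_nonneg _) ?_ 2
    have h1 := hker (M.starProjection (u - x0)) (Submodule.starProjection_apply_mem _ _)
    have h2 : L (M.starProjection (u - x0)) = L u - c := by
      have h3 : (u - x0) - M.starProjection (u - x0) ∈ LinearMap.ker L.toLinearMap :=
        hMo.le (Submodule.sub_starProjection_mem_orthogonal _)
      have h4 : L ((u - x0) - M.starProjection (u - x0)) = 0 := h3
      rw [map_sub, sub_eq_zero] at h4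
      rw [← h4, map_sub, hx0]
    rw [h2] at h1
    exact h1.trans (mul_le_mul_of_nonneg_left hu hC.le)
  -- Hardy
  have hH := hardy_reg (μ := μ) (v := e') (c := cc) hf hcf he (δ := δ ^ 2)
    (by rw [Fintype.card_fin]; omega) (by positivity)
  rw [Fintype.card_fin] at hH
  have hnr : (3 : ℝ) ≤ n := by exact_mod_cast hn3
  have hI0 : 0 ≤ ∫ x, ‖f x‖ ^ 2 / (r2 e' cc x + δ ^ 2) ∂μ :=
    integral_nonneg fun x => div_nonneg (by positivity)
      (add_nonneg (r2_nonneg x) (by positivity))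
  have hH2 : ∫ x, ‖f x‖ ^ 2 / (r2 e' cc x + δ ^ 2) ∂μ ≤
      4 * ∫ x, ∑ k, ‖fderiv ℝ f x (e' k)‖ ^ 2 ∂μ := by
    have h1 : (1 / 4 : ℝ) ≤ (((n : ℝ) - 2) / 2) ^ 2 := by nlinarith
    have h2 := mul_le_mul_of_nonneg_right h1 hI0
    linarith
  have c1 : Continuous fun x => ‖f x‖ ^ 2 / (r2 e' cc x + δ ^ 2) := by
    refine (hf.continuous.norm.pow 2).div ?_ fun x => ?_
    · exact ((contDiff_r2 (n := 1)).continuous).add continuous_const
    · have := r2_nonneg (v := e') (c := cc) x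
      positivity
  have s1 : HasCompactSupport fun x => ‖f x‖ ^ 2 / (r2 e' cc x + δ ^ 2) :=
    hcf.mono' fun x hx => subset_tsupport _ (by intro h0; apply hx; simp [h0])
  have i1 : Integrable (fun x => ‖f x‖ ^ 2 / (r2 e' cc x + δ ^ 2)) μ :=
    c1.integrable_of_hasCompactSupport s1
  have i2 : Integrable (fun x => ‖f x‖ ^ 2) μ := by
    have c0 : Continuous fun x => ‖f x‖ ^ 2 := hf.continuous.norm.pow 2
    exact c0.integrable_of_hasCompactSupport
      (hcf.norm.comp_left (g := fun t : ℝ => t ^ 2) (by norm_num))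
  have hmeas : MeasurableSet {u : U | ‖L u - c‖ ≤ δ} :=
    (isClosed_le (L.continuous.sub continuous_const).norm continuous_const).measurableSet
  have st1 : ∫ u in {u : U | ‖L u - c‖ ≤ δ}, ‖f u‖ ^ 2 ∂μ ≤
      ((C ^ 2 + 1) * δ ^ 2) * ∫ x, ‖f x‖ ^ 2 / (r2 e' cc x + δ ^ 2) ∂μ := by
    calc ∫ u in {u : U | ‖L u - c‖ ≤ δ}, ‖f u‖ ^ 2 ∂μ
        ≤ ∫ u in {u : U | ‖L u - c‖ ≤ δ},
            ((C ^ 2 + 1) * δ ^ 2) * (‖f u‖ ^ 2 / (r2 e' cc u + δ ^ 2)) ∂μ := by
          refine setIntegral_mono_on i2.integrableOn (i1.const_mul _).integrableOn hmeas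
            fun u hu => ?_
          have h1 : r2 e' cc u + δ ^ 2 ≤ (C ^ 2 + 1) * δ ^ 2 := by
            have := hdist u hu
            linarith
          have h2 : 0 < r2 e' cc u + δ ^ 2 := by
            have := r2_nonneg (v := e') (c := cc) u
            positivity
          rw [mul_div_assoc', le_div_iff₀ h2, mul_comm]
          exact mul_le_mul_of_nonneg_right h1 (by positivity)
      _ ≤ ∫ u, ((C ^ 2 + 1) * δ ^ 2) * (‖f u‖ ^ 2 / (r2 e' cc u + δ ^ 2)) ∂μ :=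
          setIntegral_le_integral (i1.const_mul _) (Eventually.of_forall fun u =>
            mul_nonneg (by positivity) (div_nonneg (by positivity)
              (add_nonneg (r2_nonneg u) (by positivity))))
      _ = _ := integral_const_mul _ _
  -- the gradient
  have cd : ∀ w : U, Continuous fun u => ‖fderiv ℝ f u w‖ ^ 2 := fun w =>
    (((hf.continuous_fderiv one_ne_zero).clm_apply continuous_const).norm).pow 2
  have sd : ∀ w : U, HasCompactSupport fun u => ‖fderiv ℝ f u w‖ ^ 2 := fun w =>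
    (hcf.fderiv (𝕜 := ℝ)).mono' fun x hx => subset_tsupport _ (by
      intro h0; apply hx; simp [h0])
  have id : ∀ w : U, Integrable (fun u => ‖fderiv ℝ f u w‖ ^ 2) μ := fun w =>
    (cd w).integrable_of_hasCompactSupport (sd w)
  have hgr : ∀ u k, ‖fderiv ℝ f u (e' k)‖ ^ 2 ≤ ∑ i, ‖fderiv ℝ f u (v i : U)‖ ^ 2 := by
    intro u k
    set ek : W := ⟨e' k, hW (e k).2⟩ with hek
    have h1 : e' k = ∑ i, ⟪v i, ek⟫_ℝ • (v i : U) := by
      have := congrArg (fun w : W => (w : U)) (v.sum_repr' ek)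
      simp only [Submodule.coe_sum, Submodule.coe_smul] at this
      exact this.symm
    have h2 : ∑ i, ⟪v i, ek⟫_ℝ ^ 2 = 1 := by
      rw [v.sum_sq_inner_right]
      have : ‖ek‖ = 1 := he.1 k
      rw [this]; norm_num
    conv_lhs => rw [h1]
    rw [map_sum]
    have h3 : ‖∑ i, fderiv ℝ f u (⟪v i, ek⟫_ℝ • (v i : U))‖ ≤
        ∑ i, |⟪v i, ek⟫_ℝ| * ‖fderiv ℝ f u (v i : U)‖ := by
      refine (norm_sum_le _ _).trans (le_of_eq (Finset.sum_congr rfl fun i _ => ?_))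
      rw [map_smul, norm_smul, Real.norm_eq_abs]
    calc ‖∑ i, fderiv ℝ f u (⟪v i, ek⟫_ℝ • (v i : U))‖ ^ 2
        ≤ (∑ i, |⟪v i, ek⟫_ℝ| * ‖fderiv ℝ f u (v i : U)‖) ^ 2 :=
          pow_le_pow_left₀ (norm_nonneg _) h3 2
      _ ≤ (∑ i, |⟪v i, ek⟫_ℝ| ^ 2) * ∑ i, ‖fderiv ℝ f u (v i : U)‖ ^ 2 :=
          Finset.sum_mul_sq_le_sq_mul_sq _ _ _
      _ = _ := by simp only [sq_abs]; rw [h2, one_mul]
  have st2 : ∫ x, ∑ k, ‖fderiv ℝ f x (e' k)‖ ^ 2 ∂μ ≤
      n * ∑ i, ∫ u, ‖fderiv ℝ f u (v i : U)‖ ^ 2 ∂μ := by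
    rw [← integral_finsetSum _ fun i _ => id _, ← integral_const_mul]
    refine integral_mono (integrable_finsetSum _ fun k _ => id _)
      ((integrable_finsetSum _ fun i _ => id _).const_mul _) fun u => ?_
    calc ∑ k, ‖fderiv ℝ f u (e' k)‖ ^ 2 ≤ ∑ _k : Fin n, ∑ i, ‖fderiv ℝ f u (v i : U)‖ ^ 2 :=
          Finset.sum_le_sum fun k _ => hgr u k
      _ = _ := by simp
  calc ∫ u in {u : U | ‖L u - c‖ ≤ δ}, ‖f u‖ ^ 2 ∂μ
      ≤ ((C ^ 2 + 1) * δ ^ 2) * ∫ x, ‖f x‖ ^ 2 / (r2 e' cc x + δ ^ 2) ∂μ := st1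
    _ ≤ ((C ^ 2 + 1) * δ ^ 2) * (4 * (n * ∑ i, ∫ u, ‖fderiv ℝ f u (v i : U)‖ ^ 2 ∂μ)) := by
        refine mul_le_mul_of_nonneg_left (hH2.trans ?_) (by positivity)
        exact mul_le_mul_of_nonneg_left st2 (by norm_num)
    _ = _ := by ring

/-- **Tail near a flat.** `W` any subspace containing the normal directions of the flat, `v` an
orthonormal basis of `W`. -/
theorem flat_tail (L : U →L[ℝ] V) (hL : Function.Surjective L) (h3 : 3 ≤ Module.finrank ℝ V)
    (W : Submodule ℝ U) (hW : (LinearMap.ker L.toLinearMap)ᗮ ≤ W) :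
    ∃ C : ℝ, 0 ≤ C ∧ ∀ {κ : Type} [Fintype κ] (v : OrthonormalBasis κ ℝ W) (c : V) (δ : ℝ),
      0 < δ → ∀ Φ : U × Z → F, ContDiff ℝ 1 Φ → HasCompactSupport Φ →
      ∫ q in {q : U × Z | ‖L q.1 - c‖ ≤ δ}, ‖Φ q‖ ^ 2 ∂(μ.prod ν) ≤
        C * δ ^ 2 * ∑ k, ∫ q, ‖fderiv ℝ Φ q ((v k : U), 0)‖ ^ 2 ∂(μ.prod ν) := by
  obtain ⟨C, hC, h⟩ := flat_tail_fib (F := F) (μ := μ) L hL h3 W hW
  refine ⟨C, hC, fun {κ} _ v c δ hδ Φ hΦ hc => ?_⟩
  have hmeas : MeasurableSet {u : U | ‖L u - c‖ ≤ δ} :=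
    (isClosed_le (L.continuous.sub continuous_const).norm continuous_const).measurableSet
  have e0 : {q : U × Z | ‖L q.1 - c‖ ≤ δ} = {u : U | ‖L u - c‖ ≤ δ} ×ˢ univ := by
    ext q; simp
  have c2 : Continuous fun q => ‖Φ q‖ ^ 2 := hΦ.continuous.norm.pow 2
  have s2 : HasCompactSupport fun q => ‖Φ q‖ ^ 2 :=
    hc.norm.comp_left (g := fun t : ℝ => t ^ 2) (by norm_num)
  have i2 : Integrable (fun q => ‖Φ q‖ ^ 2) (μ.prod ν) := c2.integrable_of_hasCompactSupport s2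
  have e1 : ∫ q in {q : U × Z | ‖L q.1 - c‖ ≤ δ}, ‖Φ q‖ ^ 2 ∂(μ.prod ν) =
      ∫ z, ∫ u in {u : U | ‖L u - c‖ ≤ δ}, ‖Φ (u, z)‖ ^ 2 ∂μ ∂ν := by
    have h1 : (μ.prod ν).restrict ({u : U | ‖L u - c‖ ≤ δ} ×ˢ (univ : Set Z)) =
        (μ.restrict {u : U | ‖L u - c‖ ≤ δ}).prod ν := by
      rw [← Measure.prod_restrict, Measure.restrict_univ]
    rw [e0, h1]
    refine integral_prod_symm _ ?_
    rw [← h1]
    exact i2.integrableOn
  have hsl : ∀ z, ContDiff ℝ 1 fun u => Φ (u, z) := fun z =>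
    hΦ.comp (contDiff_id.prodMk contDiff_const)
  have hslc : ∀ z, HasCompactSupport fun u => Φ (u, z) := fun z =>
    HasCompactSupport.of_support_subset_isCompact (hc.image continuous_fst) fun u hu =>
      ⟨(u, z), subset_tsupport _ hu, rfl⟩
  have hfd : ∀ z u (w : U), fderiv ℝ (fun u => Φ (u, z)) u w = fderiv ℝ Φ (u, z) (w, 0) := by
    intro z u w
    have h1 : HasFDerivAt (fun u : U => (u, z)) (ContinuousLinearMap.inl ℝ U Z) u := by
      exact (hasFDerivAt_id (𝕜 := ℝ) u).prodMk (hasFDerivAt_const z u)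
    have h2 := ((hΦ.differentiable one_ne_zero) (u, z)).hasFDerivAt.comp u h1
    have h3 : fderiv ℝ (fun u => Φ (u, z)) u =
        (fderiv ℝ Φ (u, z)).comp (ContinuousLinearMap.inl ℝ U Z) := h2.fderiv
    rw [h3]
    simp
  have cd : ∀ w : U, Continuous fun q => ‖fderiv ℝ Φ q (w, 0)‖ ^ 2 := fun w =>
    (((hΦ.continuous_fderiv one_ne_zero).clm_apply continuous_const).norm).pow 2
  have sd : ∀ w : U, HasCompactSupport fun q => ‖fderiv ℝ Φ q (w, 0)‖ ^ 2 := fun w =>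
    (hc.fderiv (𝕜 := ℝ)).mono' fun x hx => subset_tsupport _ (by
      intro h0; apply hx; simp [h0])
  have id : ∀ w : U, Integrable (fun q => ‖fderiv ℝ Φ q (w, 0)‖ ^ 2) (μ.prod ν) := fun w =>
    (cd w).integrable_of_hasCompactSupport (sd w)
  have e2 : ∀ w : U, ∫ q, ‖fderiv ℝ Φ q (w, 0)‖ ^ 2 ∂(μ.prod ν) =
      ∫ z, ∫ u, ‖fderiv ℝ (fun u => Φ (u, z)) u w‖ ^ 2 ∂μ ∂ν := by
    intro w
    rw [integral_prod_symm _ (id w)]
    simp only [hfd]
  have i3 : ∀ w : U, Integrable (fun z => ∫ u, ‖fderiv ℝ (fun u => Φ (u, z)) u w‖ ^ 2 ∂μ) ν := by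
    intro w
    have := (id w).integral_prod_right
    simpa only [hfd] using this
  rw [e1]
  simp only [e2]
  rw [← integral_finsetSum _ fun k _ => i3 _, ← integral_const_mul]
  refine integral_mono_of_nonneg (Eventually.of_forall fun z => integral_nonneg fun u => by
    positivity) ((integrable_finsetSum _ fun k _ => i3 _).const_mul _)
    (Eventually.of_forall fun z => ?_)
  exact h v c δ hδ (fun u => Φ (u, z)) (hsl z) (hslc z)

end flat

end Crest.Agent.R330.CapSl924
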