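import Crest.Agent.R330.LinAbs_674
import Crest.Agent.R330.Cliff5_442
import Crest.Agent.R330.Fib_151

/-!
# Row 330, S5c/S8-FIB: the gap of an abstract linear supersymmetric model (helper674)

`S : LinSys ι κ E V`, `M : CRep V F`, vacuum space `W = M.vacJ S.I`, projection `P = M.proj S.I`.

* `mem_vacJ_iff_b` : `f ∈ W ↔ ∀ v, b(v) f = 0`.
* `num_eq_b` : `⟨f, num f⟩ = ¼ Σ_p ‖b(e_p) f‖²`.
* `frame` : a frame bound of the vectors `γ_α B e_k` gives `2 s ‖f - P f‖² ≤ Σ_{α,k} ‖b(γ_α B e_k) f‖²`.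
* `gap` : `n₀ a₀ ∫ ‖P φ - H amp (P φ)‖² + s ∫ ‖φ - P φ‖² ≤ Σ_α ∫ ‖Q_α φ‖²`.
-/

set_option autoImplicit false
set_option linter.unusedSectionVars false

open MeasureTheory Filter Topology
open scoped ContDiff InnerProductSpace ENNReal
open Crest.Agent.R330.IBP837 Crest.Agent.R330.Cliff442

noncomputable section

namespace Crest.Agent.R330.LinAbs674

variable {ι κ E V F : Type*} [NormedAddCommGroup E] [InnerProductSpace ℝ E] [FiniteDimensional ℝ E]
  [MeasurableSpace E] [BorelSpace E]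
  [NormedAddCommGroup V] [InnerProductSpace ℝ V]
  [NormedAddCommGroup F] [InnerProductSpace ℂ F] [FiniteDimensional ℂ F]

namespace LinSys

variable [Fintype ι] [Fintype κ] (S : LinSys ι κ E V) (M : CRep V F)

theorem pcs : PCS S.I := ⟨fun x y => S.I_skew x y, fun x => by rw [S.hI2]⟩

theorem mem_vacJ_iff_b (f : F) : f ∈ M.vacJ S.I ↔ ∀ v, S.b M v f = 0 := by
  rw [CRep.mem_vacJ]
  constructor
  · intro h v
    have h1 := h v
    rw [S.hI2, M.neg, LinearMap.neg_apply, smul_neg] at h1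
    rw [S.b_apply, h1, smul_neg, smul_smul, Complex.I_mul_I]
    simp
  · intro h v
    have h1 := h (S.I v)
    rw [S.b_apply, sub_eq_zero] at h1
    exact h1

variable [FiniteDimensional ℝ V]

/-- The number operator through the annihilation operators. -/
theorem num_eq_b (f : F) :
    (⟪f, M.num S.I f⟫_ℂ).re = 1 / 4 * ∑ p, ‖S.b M (stdOrthonormalBasis ℝ V p) f‖ ^ 2 := by
  have h1 : ∀ v : V, (⟪f, (Complex.I / 2) • M.θ (S.I v) (M.θ v f)⟫_ℂ).re =
      1 / 4 * (‖S.b M v f‖ ^ 2 - ‖v‖ ^ 2 * ‖f‖ ^ 2) := by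
    intro v
    have e := S.norm_sq_b M v f
    have hc : M.θ (S.I v) (M.θ v f) = -M.θ v (M.θ (S.I v) f) :=
      M.comm_apply (by rw [real_inner_comm]; exact S.inner_I_self v) f
    have e2 : (Complex.I / 2) • M.θ (S.I v) (M.θ v f) =
        (1 / 2 : ℂ) • ((-Complex.I) • M.θ v (M.θ (S.I v) f)) := by
      rw [hc, smul_smul, smul_neg, ← neg_smul]
      congr 1
      ring
    have e3 : (⟪f, (1 / 2 : ℂ) • ((-Complex.I) • M.θ v (M.θ (S.I v) f))⟫_ℂ).re =
        1 / 2 * (⟪f, (-Complex.I) • M.θ v (M.θ (S.I v) f)⟫_ℂ).re := by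
      rw [inner_smul_right, show (1 / 2 : ℂ) = ((1 / 2 : ℝ) : ℂ) by push_cast; rfl,
        Complex.re_ofReal_mul]
    rw [e2, e3]
    linarith
  have h2 : M.num S.I f = (∑ p, (Complex.I / 2) • M.θ (S.I (stdOrthonormalBasis ℝ V p))
      (M.θ (stdOrthonormalBasis ℝ V p) f)) +
      ((1 / 4 * ∑ p, ‖S.I (stdOrthonormalBasis ℝ V p)‖ ^ 2 : ℝ) : ℂ) • f := by
    rw [CRep.num, LinearMap.add_apply, M.quad_apply, Finset.smul_sum]
    rfl
  have h4 : ∀ v, ‖S.I v‖ ^ 2 = ‖v‖ ^ 2 := fun v => by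
    rw [← real_inner_self_eq_norm_sq, ← real_inner_self_eq_norm_sq, S.hI]
  rw [h2, inner_add_right, Complex.add_re, inner_sum, Complex.re_sum]
  simp only [h1, h4]
  rw [inner_smul_right, inner_self_c, ← Complex.ofReal_mul, Complex.ofReal_re,
    ← Finset.mul_sum, Finset.sum_sub_distrib, ← Finset.sum_mul]
  ring

/-- `b` as a real linear map into `F`. -/
def bL (f : F) : V →ₗ[ℝ] F where
  toFun v := S.b M v f
  map_add' u v := by rw [b_add, LinearMap.add_apply]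
  map_smul' c v := by
    rw [b_smul, LinearMap.smul_apply, Complex.coe_smul]
    rfl

theorem bL_apply (f : F) (v : V) : S.bL M f v = S.b M v f := rfl

/-- Frame bounds of vectors in the argument of a real linear map. -/
theorem frame_gen {H : Type*} [NormedAddCommGroup H] [InnerProductSpace ℝ H]
    [FiniteDimensional ℝ H] {τ π : Type*} [Fintype τ] [Fintype π] (β : V →ₗ[ℝ] H)
    (b : OrthonormalBasis π ℝ V) (v : τ → V) {s : ℝ}
    (hs : ∀ w, s * ‖w‖ ^ 2 ≤ ∑ i, ⟪v i, w⟫_ℝ ^ 2) :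
    s * ∑ p, ‖β (b p)‖ ^ 2 ≤ ∑ i, ‖β (v i)‖ ^ 2 := by
  set g := stdOrthonormalBasis ℝ H
  have hn : ∀ x : H, ‖x‖ ^ 2 = ∑ m, ⟪g m, x⟫_ℝ ^ 2 := fun x => by
    have := g.sum_sq_norm_inner_right x
    rw [← this]
    exact Finset.sum_congr rfl fun m _ => by rw [Real.norm_eq_abs, sq_abs]
  let a : Fin (Module.finrank ℝ H) → V := fun m => ∑ p, ⟪g m, β (b p)⟫_ℝ • b p
  have ha : ∀ m (w : V), ⟪g m, β w⟫_ℝ = ⟪w, a m⟫_ℝ := by
    intro m w
    conv_lhs => rw [← b.sum_repr' w]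
    rw [map_sum, inner_sum, inner_sum]
    refine Finset.sum_congr rfl fun p _ => ?_
    rw [map_smul, inner_smul_right, inner_smul_right, real_inner_comm w (b p)]
    ring
  have hb : ∀ m, ‖a m‖ ^ 2 = ∑ p, ⟪g m, β (b p)⟫_ℝ ^ 2 := by
    intro m
    have := b.sum_sq_norm_inner_right (a m)
    rw [← this]
    refine Finset.sum_congr rfl fun p _ => ?_
    rw [Real.norm_eq_abs, sq_abs, ha]
  calc s * ∑ p, ‖β (b p)‖ ^ 2 = ∑ m, s * ‖a m‖ ^ 2 := by
        simp only [hn, hb, Finset.mul_sum]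
        exact Finset.sum_comm
    _ ≤ ∑ m, ∑ i, ⟪v i, a m⟫_ℝ ^ 2 := Finset.sum_le_sum fun m _ => hs (a m)
    _ = ∑ i, ‖β (v i)‖ ^ 2 := by
        rw [Finset.sum_comm]
        refine Finset.sum_congr rfl fun i _ => ?_
        rw [hn]
        exact Finset.sum_congr rfl fun m _ => by rw [ha]

/-- **The gap of the fermionic part** from a frame bound. -/
theorem frame {s : ℝ} (hs0 : 0 ≤ s)
    (hs : ∀ w, s * ‖w‖ ^ 2 ≤ ∑ α, ∑ k, (⟪S.γ α (S.B (S.e k)), w⟫_ℝ ^ 2 +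
      ⟪S.γ α (S.B (S.e k)), S.I w⟫_ℝ ^ 2)) (f : F) :
    2 * s * ‖f - M.proj S.I f‖ ^ 2 ≤ S.ns M f := by
  let _ : InnerProductSpace ℝ F := InnerProductSpace.complexToReal
  have : FiniteDimensional ℝ F := FiniteDimensional.complexToReal F
  -- the family `γ_α B e_k`, `I γ_α B e_k`
  let v : (ι × κ) ⊕ (ι × κ) → V := Sum.elim (fun i => S.γ i.1 (S.B (S.e i.2)))
    (fun i => S.I (S.γ i.1 (S.B (S.e i.2))))
  have h1 := frame_gen (S.bL M f) (stdOrthonormalBasis ℝ V) v (s := s) (by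
    intro w
    rw [Fintype.sum_sum_type, Fintype.sum_prod_type, Fintype.sum_prod_type]
    refine (hs w).trans (le_of_eq ?_)
    simp only [v, Sum.elim_inl, Sum.elim_inr, Finset.sum_add_distrib]
    congr 1
    refine Finset.sum_congr rfl fun α _ => Finset.sum_congr rfl fun k _ => ?_
    rw [S.I_skew, neg_sq])
  rw [Fintype.sum_sum_type, Fintype.sum_prod_type, Fintype.sum_prod_type] at h1
  simp only [v, Sum.elim_inl, Sum.elim_inr, bL_apply] at h1
  have h2 : ∀ u : V, ‖S.b M (S.I u) f‖ ^ 2 = ‖S.b M u f‖ ^ 2 := fun u => by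
    rw [S.b_I, LinearMap.smul_apply, norm_smul]
    simp
  simp only [h2] at h1
  have h3 := M.num_gap S.pcs f
  rw [S.num_eq_b M f] at h3
  have h4 : ∑ α, ∑ k, ‖S.b M (S.γ α (S.B (S.e k))) f‖ ^ 2 = S.ns M f := rfl
  rw [h4] at h1
  nlinarith

/-- The projected function. -/
theorem contDiff_proj {n : WithTop ℕ∞} {φ : E → F} (hφ : ContDiff ℝ n φ) :
    ContDiff ℝ n fun x => M.proj S.I (φ x) := contDiff_lin _ hφ

theorem norm_proj_sum (φ : E → F) (hφ : Differentiable ℝ φ) (x : E) :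
    ∑ k, ‖fderiv ℝ (fun y => M.proj S.I (φ y)) x (S.e k) +
      ⟪S.A x, S.e k⟫_ℝ • M.proj S.I (φ x)‖ ^ 2 ≤
    ∑ k, ‖fderiv ℝ φ x (S.e k) + ⟪S.e k, S.A x⟫_ℝ • φ x‖ ^ 2 := by
  refine Finset.sum_le_sum fun k _ => ?_
  have h1 : fderiv ℝ (fun y => M.proj S.I (φ y)) x (S.e k) +
      ⟪S.A x, S.e k⟫_ℝ • M.proj S.I (φ x) =
      M.proj S.I (fderiv ℝ φ x (S.e k) + ⟪S.e k, S.A x⟫_ℝ • φ x) := by
    rw [fderiv_lin _ hφ, map_add, real_inner_comm, ← Complex.coe_smul, ← Complex.coe_smul, map_smul]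
  rw [h1]
  exact pow_le_pow_left₀ (norm_nonneg _) (M.norm_proj_le S.pcs _) 2

/-- Fibrewise amplitude along `Kᗮ` (`Fib151.ampS` for a complex target). -/
def ampC (K : Submodule ℝ E) (H : E → ℝ) (f : E → F) (x : E) : F :=
  ∫ y : Kᗮ, H ((K.orthogonalProjectionOnto x : K) + (y : E)) •
    f ((K.orthogonalProjectionOnto x : K) + (y : E))

omit [MeasurableSpace E] [BorelSpace E] in
theorem integrable_c {G : Type*} [NormedAddCommGroup G] [MeasurableSpace E] [BorelSpace E]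
    {φ : E → F} (hc : HasCompactSupport φ) {u : E → G} (hu : Continuous u)
    (h0 : ∀ x, x ∉ tsupport φ → u x = 0) : Integrable u :=
  hu.integrable_of_hasCompactSupport (HasCompactSupport.of_support_subset_isCompact hc
    fun x hx => by
      by_contra h'
      exact hx (h0 x h'))

/-- **The gap of the linear model.** `K` = flat directions. -/
theorem gap [DecidableEq κ] (K : Submodule ℝ E) (hA : S.A.IsSymmetric) (hK : ∀ x ∈ K, S.A x = 0)
    {a₀ s : ℝ} (ha : 0 < a₀) (hn0 : 0 ≤ S.n₀) (hs0 : 0 ≤ s)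
    (h : ∀ y ∈ Kᗮ, a₀ * ‖y‖ ^ 2 ≤ ⟪S.A y, y⟫_ℝ)
    (hs : ∀ w, s * ‖w‖ ^ 2 ≤ ∑ α, ∑ k, (⟪S.γ α (S.B (S.e k)), w⟫_ℝ ^ 2 +
      ⟪S.γ α (S.B (S.e k)), S.I w⟫_ℝ ^ 2))
    {φ : E → F} (hφ : ContDiff ℝ 2 φ) (hc : HasCompactSupport φ) :
    S.n₀ * a₀ * (∫ x, ‖M.proj S.I (φ x) -
        Fib151.gsK K hA x • ampC K (Fib151.gsK K hA) (fun y => M.proj S.I (φ y)) x‖ ^ 2) +
      s * (∫ x, ‖φ x - M.proj S.I (φ x)‖ ^ 2) ≤ ∑ α, ∫ x, ‖S.q M α φ x‖ ^ 2 := by
  have h1 : ContDiff ℝ 1 φ := hφ.of_le (by norm_num)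
  have hz : ∀ x, x ∉ tsupport φ → φ x = 0 := fun x hx => image_eq_zero_of_notMem_tsupport hx
  have hdz : ∀ x, x ∉ tsupport φ → fderiv ℝ φ x = 0 := fun x hx => by
    by_contra h'
    exact hx (support_fderiv_subset ℝ h')
  let _ : InnerProductSpace ℝ F := InnerProductSpace.complexToReal
  have : FiniteDimensional ℝ F := FiniteDimensional.complexToReal F
  have h2 := Fib151.gap_ker K hA S.e (f := fun y => M.proj S.I (φ y)) hK ha h
    (contDiff_proj S M h1) (cs_lin _ hc)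
  have cA : Continuous S.A := LinearMap.continuous_of_finiteDimensional _
  have cAk : ∀ k, Continuous fun x => ⟪S.e k, S.A x⟫_ℝ := fun k => continuous_const.inner cA
  have cAk' : ∀ k, Continuous fun x => ⟪S.A x, S.e k⟫_ℝ := fun k => cA.inner continuous_const
  have cP : Continuous fun x => M.proj S.I (φ x) := (cont_lin _).comp h1.continuous
  have h3 : ∫ p, ∑ k, ‖fderiv ℝ (fun y => M.proj S.I (φ y)) p (S.e k) +
      ⟪S.A p, S.e k⟫_ℝ • M.proj S.I (φ p)‖ ^ 2 ≤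
      ∫ x, ∑ k, ‖fderiv ℝ φ x (S.e k) + ⟪S.e k, S.A x⟫_ℝ • φ x‖ ^ 2 := by
    refine integral_mono ?_ ?_ fun x => S.norm_proj_sum M φ (h1.differentiable one_ne_zero) x
    · refine integrable_c hc (continuous_finsetSum _ fun k _ =>
        (((fderiv_apply_continuous (contDiff_proj S M h1) (S.e k)).add
          ((cAk' k).smul cP)).norm.pow 2)) fun x hx => ?_
      simp only [fderiv_lin _ (h1.differentiable one_ne_zero), hz x hx, hdz x hx]
      simp
    · refine integrable_c hc (continuous_finsetSum _ fun k _ =>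
        (((fderiv_apply_continuous h1 (S.e k)).add
          ((cAk k).smul h1.continuous)).norm.pow 2)) fun x hx => ?_
      simp only [hz x hx, hdz x hx]
      simp
  have h4 : 2 * s * ∫ x, ‖φ x - M.proj S.I (φ x)‖ ^ 2 ≤ ∫ x, S.ns M (φ x) := by
    rw [← integral_const_mul]
    refine integral_mono ?_ ?_ fun x => S.frame M hs0 hs (φ x)
    · refine integrable_c hc (continuous_const.mul ((h1.continuous.sub cP).norm.pow 2))
        fun x hx => ?_
      simp [hz x hx]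
    · refine integrable_c hc ((S.continuous_ns M).comp h1.continuous) fun x hx => ?_
      simp [hz x hx, ns_zero]
  rw [S.exact M hφ hc]
  have h5 := h2.trans h3
  have h6 : (∫ p, ‖M.proj S.I (φ p) -
      Fib151.gsK K hA p • Fib151.ampS K (Fib151.gsK K hA) (fun y => M.proj S.I (φ y)) p‖ ^ 2) =
      ∫ x, ‖M.proj S.I (φ x) -
        Fib151.gsK K hA x • ampC K (Fib151.gsK K hA) (fun y => M.proj S.I (φ y)) x‖ ^ 2 := rfl
  rw [← h6]
  have h7 := mul_le_mul_of_nonneg_left h5 (half_pos (show (0:ℝ) < 1 by norm_num)).le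
  have h8 := mul_le_mul_of_nonneg_left h5 (by linarith : 0 ≤ S.n₀ / 2)
  nlinarith

/-- integrability of the distance to the fibrewise line -/
theorem integrable_distS {F' : Type*} [NormedAddCommGroup F'] [InnerProductSpace ℝ F']
    [CompleteSpace F'] (K : Submodule ℝ E) {H : E → ℝ} {f : E → F'} (hf : Continuous f)
    (hc : HasCompactSupport f) (hH : Continuous H)
    (i : ∀ x : K, Integrable (fun y : Kᗮ => H ((x : E) + y) ^ 2))
    (n : ∀ x : K, ∫ y : Kᗮ, H ((x : E) + y) ^ 2 = 1) :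
    Integrable fun p => ‖f p - H p • Fib151.ampS K H f p‖ ^ 2 := by
  set e := Fib151.splitE K with he
  have hemb : MeasurableEmbedding e := e.toHomeomorph.measurableEmbedding
  have hmp := Fib151.measurePreserving_splitE K
  have h1 := (Fib151.dist_amp (μ₁ := (volume : Measure K)) (μ₂ := (volume : Measure Kᗮ))
    (H := fun q => H (e.symm q)) (f := fun q => f (e.symm q)) (hf.comp e.symm.continuous)
    (hc.comp_homeomorph e.symm.toHomeomorph) (hH.comp e.symm.continuous) i n).1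
  rw [← hmp.integrable_comp_emb hemb] at h1
  refine h1.congr (Eventually.of_forall fun p => ?_)
  have e4 : ∀ p : E, e.symm (Fib151.splitE K p) = p := fun p => e.symm_apply_apply p
  have e6 : Fib151.amp (volume : Measure Kᗮ) (fun q => H (e.symm q)) (fun q => f (e.symm q))
      (Fib151.splitE K p).1 = Fib151.ampS K H f p := by
    rw [Fib151.splitE_apply]
    rfl
  simp only [Function.comp_apply, e4]
  rw [e6]

theorem integrable_dist (K : Submodule ℝ E) (hA : S.A.IsSymmetric)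
    (hK : ∀ x ∈ K, S.A x = 0) {a₀ : ℝ} (ha : 0 < a₀)
    (h : ∀ y ∈ Kᗮ, a₀ * ‖y‖ ^ 2 ≤ ⟪S.A y, y⟫_ℝ)
    {φ : E → F} (hφ : ContDiff ℝ 1 φ) (hc : HasCompactSupport φ) :
    Integrable fun x => ‖M.proj S.I (φ x) -
        Fib151.gsK K hA x • ampC K (Fib151.gsK K hA) (fun y => M.proj S.I (φ y)) x‖ ^ 2 := by
  let _ : InnerProductSpace ℝ F := InnerProductSpace.complexToReal
  have : FiniteDimensional ℝ F := FiniteDimensional.complexToReal F
  exact integrable_distS K (f := fun y => M.proj S.I (φ y)) ((cont_lin _).comp hφ.continuous)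
    (cs_lin _ hc) (Fib151.continuous_gsK K hA)
    (fun x => (Fib151.normSq_gsK K hA hK ha h x).1)
    (fun x => (Fib151.normSq_gsK K hA hK ha h x).2)

/-- The gap with the complete projection `Π φ = H amp (P φ)`. -/
theorem gap' [DecidableEq κ] (K : Submodule ℝ E) (hA : S.A.IsSymmetric)
    (hK : ∀ x ∈ K, S.A x = 0) {a₀ s c₀ : ℝ} (ha : 0 < a₀) (hn0 : 0 ≤ S.n₀) (hs0 : 0 ≤ s)
    (h : ∀ y ∈ Kᗮ, a₀ * ‖y‖ ^ 2 ≤ ⟪S.A y, y⟫_ℝ)
    (hs : ∀ w, s * ‖w‖ ^ 2 ≤ ∑ α, ∑ k, (⟪S.γ α (S.B (S.e k)), w⟫_ℝ ^ 2 +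
      ⟪S.γ α (S.B (S.e k)), S.I w⟫_ℝ ^ 2))
    (hc0 : 0 ≤ c₀) (hc1 : 2 * c₀ ≤ S.n₀ * a₀) (hc2 : 2 * c₀ ≤ s)
    {φ : E → F} (hφ : ContDiff ℝ 2 φ) (hc : HasCompactSupport φ) :
    c₀ * (∫ x, ‖φ x -
        Fib151.gsK K hA x • ampC K (Fib151.gsK K hA) (fun y => M.proj S.I (φ y)) x‖ ^ 2) ≤
      ∑ α, ∫ x, ‖S.q M α φ x‖ ^ 2 := by
  have h1 : ContDiff ℝ 1 φ := hφ.of_le (by norm_num)
  have cP : Continuous fun x => M.proj S.I (φ x) := (cont_lin _).comp h1.continuous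
  refine le_trans ?_ (S.gap M K hA hK ha hn0 hs0 h hs hφ hc)
  have i1 := S.integrable_dist M K hA hK ha h h1 hc
  have i2 : Integrable fun x => ‖φ x - M.proj S.I (φ x)‖ ^ 2 := by
    refine integrable_c hc ((h1.continuous.sub cP).norm.pow 2) fun x hx => ?_
    simp [image_eq_zero_of_notMem_tsupport hx]
  have h2 : c₀ * (∫ x, ‖φ x -
        Fib151.gsK K hA x • ampC K (Fib151.gsK K hA) (fun y => M.proj S.I (φ y)) x‖ ^ 2) ≤
      c₀ * (∫ x, (2 * ‖M.proj S.I (φ x) -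
        Fib151.gsK K hA x • ampC K (Fib151.gsK K hA) (fun y => M.proj S.I (φ y)) x‖ ^ 2 +
        2 * ‖φ x - M.proj S.I (φ x)‖ ^ 2)) := by
    refine mul_le_mul_of_nonneg_left (integral_mono_of_nonneg
      (Eventually.of_forall fun x => sq_nonneg _) ((i1.const_mul 2).add (i2.const_mul 2))
      (Eventually.of_forall fun x => ?_)) hc0
    have e : φ x - Fib151.gsK K hA x •
        ampC K (Fib151.gsK K hA) (fun y => M.proj S.I (φ y)) x =
        (M.proj S.I (φ x) - Fib151.gsK K hA x •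
          ampC K (Fib151.gsK K hA) (fun y => M.proj S.I (φ y)) x) +
        (φ x - M.proj S.I (φ x)) := by abel
    simp only
    rw [e]
    have := norm_add_le (M.proj S.I (φ x) - Fib151.gsK K hA x •
          ampC K (Fib151.gsK K hA) (fun y => M.proj S.I (φ y)) x) (φ x - M.proj S.I (φ x))
    have hn := norm_nonneg (M.proj S.I (φ x) - Fib151.gsK K hA x •
          ampC K (Fib151.gsK K hA) (fun y => M.proj S.I (φ y)) x + (φ x - M.proj S.I (φ x)))
    nlinarith [sq_nonneg (‖M.proj S.I (φ x) - Fib151.gsK K hA x •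
          ampC K (Fib151.gsK K hA) (fun y => M.proj S.I (φ y)) x‖ - ‖φ x - M.proj S.I (φ x)‖)]
  refine h2.trans ?_
  rw [integral_add (i1.const_mul 2) (i2.const_mul 2), integral_const_mul, integral_const_mul]
  have n1 : 0 ≤ ∫ x, ‖M.proj S.I (φ x) - Fib151.gsK K hA x •
      ampC K (Fib151.gsK K hA) (fun y => M.proj S.I (φ y)) x‖ ^ 2 :=
    integral_nonneg fun x => sq_nonneg _
  have n2 : 0 ≤ ∫ x, ‖φ x - M.proj S.I (φ x)‖ ^ 2 := integral_nonneg fun x => sq_nonneg _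
  nlinarith

end LinSys

end Crest.Agent.R330.LinAbs674

end
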