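import Mathlib

/-!
# Row 330, section 3: abstract closed forms (helper868)

A closed nonnegative form is given by the closed graph `Γ ⊆ H ⊕ K` of a closed operator
(`q(u) = ‖k‖²` for `(u, k) ∈ Γ`).

* `Frm` : closed graph, `Frm.ofCore` : closure of a closable pair `(ι, Q)` on a core
* `Frm.B` : the resolvent `(1 + A)⁻¹`, `Frm.L` : `Q̄ (1 + A)⁻¹`
* `Frm.ker` : the kernel, `Frm.P` : its projection
* `Frm.gap` : `‖A u‖² ≥ δ ⟨u, A u⟩` on `D(A)` implies `q(u) ≥ δ ‖u - P u‖²` on the form domain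
* `Frm.counting` : counting lemma
-/

set_option autoImplicit false
set_option linter.unusedSectionVars false

noncomputable section

open scoped InnerProductSpace Topology
open Filter

namespace Crest.Agent.R330.Form868

variable (H K : Type*) [NormedAddCommGroup H] [InnerProductSpace ℂ H] [CompleteSpace H]
  [NormedAddCommGroup K] [InnerProductSpace ℂ K] [CompleteSpace K]

lemma inner_self_real {H : Type*} [NormedAddCommGroup H] [InnerProductSpace ℂ H] (x : H) :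
    ⟪x, x⟫_ℂ = ((‖x‖ ^ 2 : ℝ) : ℂ) := by
  rw [inner_self_eq_norm_sq_to_K]
  norm_cast

/-- a closed densely or non-densely defined operator `H → K`, given by its graph -/
structure Frm where
  Γ : Submodule ℂ (WithLp 2 (H × K))
  closed : IsClosed (Γ : Set (WithLp 2 (H × K)))
  cl : ∀ k : K, WithLp.toLp 2 ((0 : H), k) ∈ Γ → k = 0

variable {H K}

namespace Frm

variable (S : Frm H K)

/-- `(u, k)` is in the graph -/
def mem (u : H) (k : K) : Prop := WithLp.toLp 2 (u, k) ∈ S.Γ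

variable {S}

lemma mem.add {u v : H} {k l : K} (h : S.mem u k) (h' : S.mem v l) : S.mem (u + v) (k + l) :=
  S.Γ.add_mem h h'

lemma mem.sub {u v : H} {k l : K} (h : S.mem u k) (h' : S.mem v l) : S.mem (u - v) (k - l) :=
  S.Γ.sub_mem h h'

lemma mem.smul {u : H} {k : K} (h : S.mem u k) (c : ℂ) : S.mem (c • u) (c • k) :=
  S.Γ.smul_mem c h

variable (S) in
lemma mem_zero : S.mem 0 0 := S.Γ.zero_mem

lemma mem.uniq {u : H} {k l : K} (h : S.mem u k) (h' : S.mem u l) : k = l := by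
  have h1 := h.sub h'
  rw [sub_self] at h1
  exact sub_eq_zero.mp (S.cl _ h1)

lemma inner_toLp (u v : H) (k l : K) :
    ⟪(WithLp.toLp 2 (u, k) : WithLp 2 (H × K)), WithLp.toLp 2 (v, l)⟫_ℂ =
      ⟪u, v⟫_ℂ + ⟪k, l⟫_ℂ := WithLp.prod_inner_apply _ _

lemma norm_toLp_sq (u : H) (k : K) :
    ‖(WithLp.toLp 2 (u, k) : WithLp 2 (H × K))‖ ^ 2 = ‖u‖ ^ 2 + ‖k‖ ^ 2 :=
  WithLp.prod_norm_sq_eq_of_L2 _

lemma norm_fst_le (x : WithLp 2 (H × K)) : ‖x.fst‖ ≤ ‖x‖ := by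
  have h := WithLp.prod_norm_sq_eq_of_L2 x
  nlinarith [norm_nonneg x, norm_nonneg x.fst, norm_nonneg x.snd, sq_nonneg ‖x.snd‖]

lemma norm_snd_le (x : WithLp 2 (H × K)) : ‖x.snd‖ ≤ ‖x‖ := by
  have h := WithLp.prod_norm_sq_eq_of_L2 x
  nlinarith [norm_nonneg x, norm_nonneg x.fst, norm_nonneg x.snd, sq_nonneg ‖x.fst‖]

variable (S)

instance : CompleteSpace S.Γ := S.closed.completeSpace_coe

/-- the projection onto the graph -/
def PG : WithLp 2 (H × K) →L[ℂ] WithLp 2 (H × K) := S.Γ.starProjection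

/-- `u ↦ (u, 0)` -/
def inl : H →L[ℂ] WithLp 2 (H × K) :=
  ((WithLp.prodContinuousLinearEquiv 2 ℂ H K).symm : (H × K) →L[ℂ] WithLp 2 (H × K)).comp
    (ContinuousLinearMap.inl ℂ H K)

omit [CompleteSpace H] [CompleteSpace K] in
lemma inl_apply (u : H) : (inl u : WithLp 2 (H × K)) = WithLp.toLp 2 (u, 0) := rfl

/-- the resolvent `(1 + A)⁻¹` -/
def B : H →L[ℂ] H := (WithLp.fstL 2 ℂ H K).comp (S.PG.comp inl)

/-- `Q̄ (1 + A)⁻¹` -/
def L : H →L[ℂ] K := (WithLp.sndL 2 ℂ H K).comp (S.PG.comp inl)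

lemma PG_inl (f : H) : S.PG (inl f) = WithLp.toLp 2 (S.B f, S.L f) := rfl

lemma mem_B (f : H) : S.mem (S.B f) (S.L f) := by
  unfold mem
  rw [← PG_inl]
  exact S.Γ.starProjection_apply_mem _

/-- the defining relation of the resolvent -/
lemma rel {u : H} {k : K} (h : S.mem u k) (f : H) :
    ⟪S.B f, u⟫_ℂ + ⟪S.L f, k⟫_ℂ = ⟪f, u⟫_ℂ := by
  have h1 := S.Γ.starProjection_inner_eq_zero (inl f) _ h
  have h2 : S.Γ.starProjection (inl f) = WithLp.toLp 2 (S.B f, S.L f) := rfl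
  rw [h2, inl_apply, inner_sub_left, inner_toLp, inner_toLp, inner_zero_left, add_zero,
    sub_eq_zero] at h1
  exact h1.symm

lemma rel' {u : H} {k : K} (h : S.mem u k) (f : H) :
    ⟪u, S.B f⟫_ℂ + ⟪k, S.L f⟫_ℂ = ⟪u, f⟫_ℂ := by
  have h1 := congrArg (starRingEnd ℂ) (S.rel h f)
  rw [map_add, inner_conj_symm, inner_conj_symm, inner_conj_symm] at h1
  exact h1

lemma B_symm (f g : H) : ⟪S.B f, g⟫_ℂ = ⟪f, S.B g⟫_ℂ := by
  have h1 := S.rel (S.mem_B g) f
  have h2 := S.rel' (S.mem_B f) g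
  rw [← h2, h1]

lemma inner_B_self (f : H) : ⟪S.B f, f⟫_ℂ = ((‖S.B f‖ ^ 2 + ‖S.L f‖ ^ 2 : ℝ) : ℂ) := by
  rw [← S.rel' (S.mem_B f) f, inner_self_real, inner_self_real]
  push_cast
  ring

lemma norm_B_le (f : H) : ‖S.B f‖ ≤ ‖f‖ := by
  have h1 : ‖(⟪S.B f, f⟫_ℂ : ℂ)‖ ≤ ‖S.B f‖ * ‖f‖ := norm_inner_le_norm _ _
  rw [inner_B_self, Complex.norm_real, Real.norm_of_nonneg (by positivity)] at h1
  by_contra hlt
  push Not at hlt
  have h2 : 0 ≤ ‖f‖ := norm_nonneg f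
  nlinarith [sq_nonneg ‖S.L f‖, norm_nonneg (S.B f)]

/-- `⟨B f, f - B f⟩ = q(B f)` -/
lemma inner_B_sub (f : H) : ⟪S.B f, f - S.B f⟫_ℂ = ((‖S.L f‖ ^ 2 : ℝ) : ℂ) := by
  rw [inner_sub_right, inner_B_self, inner_self_real]
  push_cast
  ring

lemma B_pos : S.B.IsPositive := by
  rw [ContinuousLinearMap.isPositive_iff_complex]
  intro f
  rw [inner_B_self, RCLike.re_to_complex, Complex.ofReal_re]
  exact ⟨rfl, by positivity⟩

/-! ### the kernel -/

/-- the kernel of the form -/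
def ker : Submodule ℂ H where
  carrier := {u | S.mem u 0}
  add_mem' {u v} hu hv := by
    have := mem.add hu hv
    rwa [add_zero] at this
  zero_mem' := S.mem_zero
  smul_mem' c u hu := by
    have := mem.smul hu c
    rwa [smul_zero] at this

variable {S} in
lemma mem_ker {u : H} : u ∈ S.ker ↔ S.mem u 0 := Iff.rfl

lemma isClosed_ker : IsClosed (S.ker : Set H) := by
  have : (S.ker : Set H) = (inl : H →L[ℂ] WithLp 2 (H × K)) ⁻¹' (S.Γ : Set _) := rfl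
  rw [this]
  exact S.closed.preimage (inl : H →L[ℂ] WithLp 2 (H × K)).continuous

instance : CompleteSpace S.ker := S.isClosed_ker.completeSpace_coe

/-- projection onto the kernel -/
def P : H →L[ℂ] H := S.ker.starProjection

lemma P_mem (u : H) : S.P u ∈ S.ker := S.ker.starProjection_apply_mem u

lemma sub_P_mem (u : H) : u - S.P u ∈ S.kerᗮ := S.ker.sub_starProjection_mem_orthogonal u

lemma P_of_mem {u : H} (h : u ∈ S.ker) : S.P u = u :=
  S.ker.starProjection_eq_self_iff.mpr h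

lemma B_of_ker {u : H} (h : u ∈ S.ker) : S.B u = u := by
  have h1 : S.PG (inl u) = inl u := S.Γ.starProjection_eq_self_iff.mpr h
  rw [PG_inl] at h1
  exact congrArg WithLp.fst h1

lemma L_of_ker {u : H} (h : u ∈ S.ker) : S.L u = 0 := by
  have h1 : S.PG (inl u) = inl u := S.Γ.starProjection_eq_self_iff.mpr h
  rw [PG_inl] at h1
  exact congrArg WithLp.snd h1

lemma ker_of_B {u : H} (h : S.B u = u) : u ∈ S.ker := by
  have h1 := S.inner_B_sub u
  rw [h, sub_self, inner_zero_right] at h1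
  have h2 : ‖S.L u‖ ^ 2 = 0 := by exact_mod_cast h1.symm
  have h3 : S.L u = 0 := by simpa using h2
  have h4 := S.mem_B u
  rw [h, h3] at h4
  exact h4

/-- `B` preserves the orthogonal complement of the kernel -/
lemma B_orth {g : H} (hg : g ∈ S.kerᗮ) : S.B g ∈ S.kerᗮ := by
  rw [Submodule.mem_orthogonal] at hg ⊢
  intro n hn
  rw [← B_symm, S.B_of_ker hn]
  exact hg n hn

/-- the resolvents are dense in the graph -/
theorem dense_B {u : H} {k : K} (h : S.mem u k) {ε : ℝ} (hε : 0 < ε) :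
    ∃ f : H, ‖S.B f - u‖ < ε ∧ ‖S.L f - k‖ < ε := by
  set R : Submodule ℂ (WithLp 2 (H × K)) := LinearMap.range (S.PG.comp inl : H →L[ℂ] _).toLinearMap
    with hR
  have hRΓ : R ≤ S.Γ := by
    rintro _ ⟨f, rfl⟩
    exact S.Γ.starProjection_apply_mem _
  have hRc : R.topologicalClosure ≤ S.Γ := R.topologicalClosure_minimal hRΓ S.closed
  set x : WithLp 2 (H × K) := WithLp.toLp 2 (u, k) with hx
  have hxΓ : x ∈ S.Γ := h
  have : CompleteSpace R.topologicalClosure :=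
    R.isClosed_topologicalClosure.completeSpace_coe
  set y := x - R.topologicalClosure.starProjection x with hy
  have hy1 : y ∈ R.topologicalClosureᗮ := Submodule.sub_starProjection_mem_orthogonal x
  have hy2 : y ∈ S.Γ := S.Γ.sub_mem hxΓ (hRc (Submodule.starProjection_apply_mem _ x))
  obtain ⟨v, w, hvw⟩ : ∃ (v : H) (w : K), y = WithLp.toLp 2 (v, w) := ⟨y.fst, y.snd, rfl⟩
  have hy0 : v = 0 := by
    have h1 : ⟪S.PG (inl v), y⟫_ℂ = 0 := by
      refine (Submodule.mem_orthogonal _ _).mp hy1 _ (R.le_topologicalClosure ?_)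
      exact ⟨v, rfl⟩
    rw [hvw, PG_inl, inner_toLp] at h1
    have hm : S.mem v w := by rw [hvw] at hy2; exact hy2
    have h2 := S.rel (u := v) (k := w) hm v
    rw [h2] at h1
    exact inner_self_eq_zero.mp h1
  have hy4 : y = 0 := by
    have hm : S.mem v w := by rw [hvw] at hy2; exact hy2
    rw [hy0] at hm
    have h1 : w = 0 := S.cl _ hm
    rw [hvw, h1, hy0]
    rfl
  have hxR : x ∈ R.topologicalClosure := by
    have : x = R.topologicalClosure.starProjection x := sub_eq_zero.mp hy4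
    rw [this]
    exact Submodule.starProjection_apply_mem _ x
  have hxc : x ∈ closure (R : Set (WithLp 2 (H × K))) := by
    rw [← Submodule.topologicalClosure_coe]; exact hxR
  obtain ⟨z, hz, hd⟩ := Metric.mem_closure_iff.mp hxc ε hε
  obtain ⟨f, rfl⟩ := hz
  have e : (S.PG.comp inl : H →L[ℂ] _).toLinearMap f = WithLp.toLp 2 (S.B f, S.L f) := rfl
  rw [e, dist_comm, dist_eq_norm] at hd
  have e2 : (WithLp.toLp 2 (S.B f, S.L f) : WithLp 2 (H × K)) - x =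
      WithLp.toLp 2 (S.B f - u, S.L f - k) := rfl
  rw [e2] at hd
  refine ⟨f, ?_, ?_⟩
  · exact lt_of_le_of_lt (norm_fst_le (WithLp.toLp 2 (S.B f - u, S.L f - k))) hd
  · exact lt_of_le_of_lt (norm_snd_le (WithLp.toLp 2 (S.B f - u, S.L f - k))) hd

/-! ### gap transfer -/

/-- `1 - B` -/
def T : H →L[ℂ] H := 1 - S.B

lemma T_apply (f : H) : S.T f = f - S.B f := rfl

lemma T_symm (f g : H) : ⟪S.T f, g⟫_ℂ = ⟪f, S.T g⟫_ℂ := by
  rw [T_apply, T_apply, inner_sub_left, inner_sub_right, B_symm]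

lemma inner_T_self (f : H) : ⟪S.T f, f⟫_ℂ = ((‖S.T f‖ ^ 2 + ‖S.L f‖ ^ 2 : ℝ) : ℂ) := by
  have h1 : (f : H) = S.T f + S.B f := by rw [T_apply]; abel
  have h2 : ⟪S.T f, f⟫_ℂ = ⟪S.T f, S.T f⟫_ℂ + ⟪S.T f, S.B f⟫_ℂ := by
    rw [← inner_add_right, ← h1]
  have h3 : ⟪S.T f, S.B f⟫_ℂ = ((‖S.L f‖ ^ 2 : ℝ) : ℂ) := by
    rw [← inner_conj_symm, T_apply, inner_B_sub, Complex.conj_ofReal]
  rw [h2, h3, inner_self_real]
  push_cast
  ring

lemma T_pos : S.T.IsPositive := by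
  rw [ContinuousLinearMap.isPositive_iff_complex]
  intro f
  rw [inner_T_self, RCLike.re_to_complex, Complex.ofReal_re]
  exact ⟨rfl, by positivity⟩

lemma B_comm_T : Commute S.B S.T := by
  unfold T
  exact (Commute.one_right _).sub_right (Commute.refl _)

lemma norm_L_sq (f : H) : ((‖S.L f‖ ^ 2 : ℝ) : ℂ) = ⟪S.B f, S.T f⟫_ℂ := (S.inner_B_sub f).symm

/-- the kernel of `T` -/
lemma ker_T : (LinearMap.ker (S.T : H →ₗ[ℂ] H)) = S.ker := by
  ext u
  rw [LinearMap.mem_ker]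
  constructor
  · intro h
    exact S.ker_of_B (sub_eq_zero.mp h).symm
  · intro h
    show u - S.B u = 0
    rw [S.B_of_ker h, sub_self]

/-- the range of `T` is dense in the complement of the kernel -/
lemma range_T : (LinearMap.range (S.T : H →ₗ[ℂ] H)).topologicalClosure = S.kerᗮ := by
  have h1 : ContinuousLinearMap.adjoint S.T = S.T := S.T_pos.isSelfAdjoint
  have h2 := ContinuousLinearMap.orthogonal_ker S.T
  rw [h1] at h2
  rw [← h2]
  congr 1
  exact S.ker_T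

variable {S} in
/-- the gap inequality on resolvents, from the operator inequality -/
lemma gap_T {δ : ℝ} (hG : ∀ f, δ * ‖S.L f‖ ^ 2 ≤ ‖S.T f‖ ^ 2) (h : H) :
    δ * ‖S.B (S.T h)‖ ^ 2 ≤ ‖S.L (S.T h)‖ ^ 2 := by
  set C : H →L[ℂ] H := S.T * S.T - (δ : ℂ) • (S.B * S.T) with hC
  have hCin : ∀ f, ⟪C f, f⟫_ℂ = ((‖S.T f‖ ^ 2 - δ * ‖S.L f‖ ^ 2 : ℝ) : ℂ) := by
    intro f
    have e1 : C f = S.T (S.T f) - (δ : ℂ) • S.B (S.T f) := rfl
    rw [e1, inner_sub_left, inner_smul_left, T_symm, B_symm, inner_self_real,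
      Complex.conj_ofReal]
    have e2 : ⟪S.T f, S.B f⟫_ℂ = ((‖S.L f‖ ^ 2 : ℝ) : ℂ) := by
      rw [← inner_conj_symm, T_apply, inner_B_sub, Complex.conj_ofReal]
    rw [e2]
    push_cast
    ring
  have hCpos : C.IsPositive := by
    rw [ContinuousLinearMap.isPositive_iff_complex]
    intro f
    rw [hCin, RCLike.re_to_complex, Complex.ofReal_re]
    exact ⟨rfl, by linarith [hG f]⟩
  have hBT := S.B_comm_T
  have hCB : Commute C S.B :=
    ((hBT.symm.mul_left hBT.symm)).sub_left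
      (((Commute.refl S.B).mul_left hBT.symm).smul_left _)
  have hCT : Commute C S.T :=
    (((Commute.refl S.T).mul_left (Commute.refl S.T))).sub_left
      ((hBT.mul_left (Commute.refl S.T)).smul_left _)
  have hpos1 : 0 ≤ C * S.B := Commute.mul_nonneg
    ((ContinuousLinearMap.nonneg_iff_isPositive _).mpr hCpos)
    ((ContinuousLinearMap.nonneg_iff_isPositive _).mpr S.B_pos) hCB
  have hpos2 : 0 ≤ (C * S.B) * S.T := Commute.mul_nonneg hpos1
    ((ContinuousLinearMap.nonneg_iff_isPositive _).mpr S.T_pos) (hCT.mul_left hBT)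
  have hpos3 := (ContinuousLinearMap.nonneg_iff_isPositive _).mp hpos2
  have h1 := ((ContinuousLinearMap.isPositive_iff_complex _).mp hpos3 h).2
  have key : ⟪((C * S.B) * S.T) h, h⟫_ℂ =
      ((‖S.L (S.T h)‖ ^ 2 - δ * ‖S.B (S.T h)‖ ^ 2 : ℝ) : ℂ) := by
    have e1 : (C * S.B) * S.T = S.T * (S.B * S.T) * S.T - (δ : ℂ) • (S.T * (S.B * S.B) * S.T) := by
      rw [hC, sub_mul, sub_mul, smul_mul_assoc, smul_mul_assoc]
      have a1 : S.T * S.T * S.B * S.T = S.T * (S.B * S.T) * S.T := by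
        rw [mul_assoc S.T S.T S.B, ← hBT.eq]
      have a2 : S.B * S.T * S.B * S.T = S.T * (S.B * S.B) * S.T := by
        rw [hBT.eq, mul_assoc S.T S.B S.B]
      rw [a1, a2]
    rw [e1]
    have e2 : (S.T * (S.B * S.T) * S.T - (δ : ℂ) • (S.T * (S.B * S.B) * S.T)) h =
      S.T (S.B (S.T (S.T h))) - (δ : ℂ) • S.T (S.B (S.B (S.T h))) := rfl
    rw [e2, inner_sub_left, inner_smul_left, T_symm, T_symm, Complex.conj_ofReal]
    have e3 : ⟪S.B (S.T (S.T h)), S.T h⟫_ℂ = ((‖S.L (S.T h)‖ ^ 2 : ℝ) : ℂ) := by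
      rw [B_symm, ← inner_conj_symm, norm_L_sq, inner_conj_symm, ← inner_conj_symm, ← norm_L_sq,
        Complex.conj_ofReal]
    have e4 : ⟪S.B (S.B (S.T h)), S.T h⟫_ℂ = ((‖S.B (S.T h)‖ ^ 2 : ℝ) : ℂ) := by
      rw [B_symm, inner_self_real]
    rw [e3, e4]
    push_cast
    ring
  rw [key, RCLike.re_to_complex, Complex.ofReal_re] at h1
  linarith

variable {S} in
/-- the gap inequality on resolvents of vectors orthogonal to the kernel -/
lemma gap_B {δ : ℝ} (hG : ∀ f, δ * ‖S.L f‖ ^ 2 ≤ ‖S.T f‖ ^ 2) {g : H} (hg : g ∈ S.kerᗮ) :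
    δ * ‖S.B g‖ ^ 2 ≤ ‖S.L g‖ ^ 2 := by
  rw [← range_T] at hg
  have hcl : IsClosed {g : H | δ * ‖S.B g‖ ^ 2 ≤ ‖S.L g‖ ^ 2} :=
    isClosed_le (by fun_prop) (by fun_prop)
  have hg' : g ∈ closure (LinearMap.range (S.T : H →ₗ[ℂ] H) : Set H) := by
    rw [← Submodule.topologicalClosure_coe]; exact hg
  refine closure_minimal ?_ hcl hg'
  rintro _ ⟨h, rfl⟩
  exact gap_T hG h

variable {S} in
lemma gap_Bf {δ : ℝ} (hG : ∀ f, δ * ‖S.L f‖ ^ 2 ≤ ‖S.T f‖ ^ 2) (f : H) :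
    δ * ‖S.B f - S.P (S.B f)‖ ^ 2 ≤ ‖S.L f‖ ^ 2 := by
  set g := f - S.P f with hg
  have hgk : g ∈ S.kerᗮ := S.sub_P_mem f
  have hf : f = S.P f + g := by rw [hg]; abel
  have hB : S.B f = S.P f + S.B g := by
    conv_lhs => rw [hf]
    rw [map_add, S.B_of_ker (S.P_mem f)]
  have hL : S.L f = S.L g := by
    conv_lhs => rw [hf]
    rw [map_add, S.L_of_ker (S.P_mem f), zero_add]
  have hP : S.P (S.B g) = 0 :=
    (Submodule.starProjection_apply_eq_zero_iff S.ker).mpr (S.B_orth hgk)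
  have h1 : S.B f - S.P (S.B f) = S.B g := by
    rw [hB, map_add, hP, S.P_of_mem (S.P_mem f)]
    abel
  rw [h1, hL]
  exact gap_B hG hgk

variable {S} in
/-- sequences of resolvents approximating a vector of the graph -/
lemma exists_seq_B {u : H} {k : K} (h : S.mem u k) :
    ∃ f : ℕ → H, Tendsto (fun n => S.B (f n)) atTop (𝓝 u) ∧
      Tendsto (fun n => S.L (f n)) atTop (𝓝 k) := by
  choose f hf1 hf2 using fun n : ℕ =>
    S.dense_B h (ε := 1 / ((n : ℝ) + 1)) Nat.one_div_pos_of_nat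
  refine ⟨f, ?_, ?_⟩
  · rw [tendsto_iff_norm_sub_tendsto_zero]
    exact squeeze_zero (fun _ => norm_nonneg _) (fun n => (hf1 n).le)
      tendsto_one_div_add_atTop_nhds_zero_nat
  · rw [tendsto_iff_norm_sub_tendsto_zero]
    exact squeeze_zero (fun _ => norm_nonneg _) (fun n => (hf2 n).le)
      tendsto_one_div_add_atTop_nhds_zero_nat

variable {S} in
/-- **gap transfer**: `‖A u‖² ≥ δ q(u)` on the operator domain implies
`q(u) ≥ δ ‖u - P u‖²` on the form domain -/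
theorem gap {δ : ℝ} (hG : ∀ f, δ * ‖S.L f‖ ^ 2 ≤ ‖f - S.B f‖ ^ 2) {u : H} {k : K}
    (h : S.mem u k) : δ * ‖u - S.P u‖ ^ 2 ≤ ‖k‖ ^ 2 := by
  obtain ⟨f, hf1, hf2⟩ := exists_seq_B h
  refine le_of_tendsto_of_tendsto' (b := (atTop : Filter ℕ))
    (f := fun n => δ * ‖S.B (f n) - S.P (S.B (f n))‖ ^ 2)
    (g := fun n => ‖S.L (f n)‖ ^ 2) ?_ ?_ fun n => gap_Bf hG (f n)
  · have h1 := (S.P.continuous.tendsto u).comp hf1
    exact ((hf1.sub h1).norm.pow 2).const_mul δ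
  · exact hf2.norm.pow 2

variable {S} in
/-- the resolvent is characterised by its weak equation -/
lemma B_eq {f u : H} {k : K} (h : S.mem u k)
    (h' : ∀ (v : H) (l : K), S.mem v l → ⟪u, v⟫_ℂ + ⟪k, l⟫_ℂ = ⟪f, v⟫_ℂ) :
    S.B f = u ∧ S.L f = k := by
  have h1 := (S.mem_B f).sub h
  have h2 := S.rel h1 f
  have h3 := h' _ _ h1
  rw [← h3] at h2
  have h4 : ⟪S.B f - u, S.B f - u⟫_ℂ + ⟪S.L f - k, S.L f - k⟫_ℂ = 0 := by
    rw [inner_sub_left (S.B f) u (S.B f - u), inner_sub_left (S.L f) k (S.L f - k)]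
    linear_combination h2
  rw [inner_self_real, inner_self_real] at h4
  have h5 : ‖S.B f - u‖ ^ 2 + ‖S.L f - k‖ ^ 2 = 0 := by exact_mod_cast h4
  have h6 : ‖S.B f - u‖ = 0 := by nlinarith [sq_nonneg ‖S.B f - u‖, sq_nonneg ‖S.L f - k‖]
  have h7 : ‖S.L f - k‖ = 0 := by nlinarith [sq_nonneg ‖S.B f - u‖, sq_nonneg ‖S.L f - k‖]
  exact ⟨sub_eq_zero.mp (norm_eq_zero.mp h6), sub_eq_zero.mp (norm_eq_zero.mp h7)⟩

end Frm

/-! ### the closure of a closable pair on a core -/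

section core

variable {E : Type*} [AddCommGroup E] [Module ℂ E] (ι : E →ₗ[ℂ] H) (Q : E →ₗ[ℂ] K)

/-- sequential closability of `Q` with respect to `ι` -/
def Closable : Prop := ∀ (φ : ℕ → E) (k : K), Tendsto (fun n => ι (φ n)) atTop (𝓝 0) →
  Tendsto (fun n => Q (φ n)) atTop (𝓝 k) → k = 0

/-- the graph map -/
def gmap : E →ₗ[ℂ] WithLp 2 (H × K) :=
  (WithLp.linearEquiv 2 ℂ (H × K)).symm.toLinearMap ∘ₗ (ι.prod Q)

omit [CompleteSpace H] [CompleteSpace K] in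
lemma gmap_apply (φ : E) : gmap ι Q φ = WithLp.toLp 2 (ι φ, Q φ) := rfl

omit [CompleteSpace H] [CompleteSpace K] in
lemma mem_closure_gmap {u : H} {k : K} :
    WithLp.toLp 2 (u, k) ∈ (LinearMap.range (gmap ι Q)).topologicalClosure ↔
      ∃ φ : ℕ → E, Tendsto (fun n => ι (φ n)) atTop (𝓝 u) ∧
        Tendsto (fun n => Q (φ n)) atTop (𝓝 k) := by
  rw [← SetLike.mem_coe, Submodule.topologicalClosure_coe, mem_closure_iff_seq_limit]
  constructor
  · rintro ⟨x, hx, hlim⟩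
    choose φ hφ using hx
    refine ⟨φ, ?_, ?_⟩
    · have h1 := ((WithLp.fstL 2 ℂ H K).continuous.tendsto _).comp hlim
      refine h1.congr fun n => ?_
      show (x n).fst = ι (φ n)
      rw [← hφ n]
      rfl
    · have h1 := ((WithLp.sndL 2 ℂ H K).continuous.tendsto _).comp hlim
      refine h1.congr fun n => ?_
      show (x n).snd = Q (φ n)
      rw [← hφ n]
      rfl
  · rintro ⟨φ, h1, h2⟩
    refine ⟨fun n => gmap ι Q (φ n), fun n => ⟨φ n, rfl⟩, ?_⟩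
    have h3 : Tendsto (fun n => (ι (φ n), Q (φ n))) atTop (𝓝 (u, k)) := h1.prodMk_nhds h2
    exact (((WithLp.prodContinuousLinearEquiv 2 ℂ H K).symm.continuous).tendsto (u, k)).comp h3

/-- the closure of a closable pair -/
def Frm.ofCore (hc : Closable ι Q) : Frm H K where
  Γ := (LinearMap.range (gmap ι Q)).topologicalClosure
  closed := Submodule.isClosed_topologicalClosure _
  cl := by
    intro k hk
    obtain ⟨φ, h1, h2⟩ := (mem_closure_gmap ι Q).mp hk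
    exact hc φ k h1 h2

variable {ι Q} (hc : Closable ι Q)

lemma Frm.mem_ofCore {u : H} {k : K} : (Frm.ofCore ι Q hc).mem u k ↔
    ∃ φ : ℕ → E, Tendsto (fun n => ι (φ n)) atTop (𝓝 u) ∧
      Tendsto (fun n => Q (φ n)) atTop (𝓝 k) := mem_closure_gmap ι Q

lemma Frm.mem_core (φ : E) : (Frm.ofCore ι Q hc).mem (ι φ) (Q φ) :=
  Submodule.le_topologicalClosure _ ⟨φ, rfl⟩

lemma Frm.mem_ker_ofCore {u : H} : u ∈ (Frm.ofCore ι Q hc).ker ↔
    ∃ φ : ℕ → E, Tendsto (fun n => ι (φ n)) atTop (𝓝 u) ∧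
      Tendsto (fun n => Q (φ n)) atTop (𝓝 0) := mem_closure_gmap ι Q

/-- the resolvent on `(1 + A) φ` -/
lemma Frm.B_core (A : E → H) (hA : ∀ φ ψ, ⟪Q φ, Q ψ⟫_ℂ = ⟪A φ, ι ψ⟫_ℂ) (φ : E) :
    (Frm.ofCore ι Q hc).B (ι φ + A φ) = ι φ ∧ (Frm.ofCore ι Q hc).L (ι φ + A φ) = Q φ := by
  refine Frm.B_eq (Frm.mem_core hc φ) fun v l hvl => ?_
  obtain ⟨ψ, h1, h2⟩ := (Frm.mem_ofCore hc).mp hvl
  have e1 : Tendsto (fun n => ⟪ι φ, ι (ψ n)⟫_ℂ + ⟪Q φ, Q (ψ n)⟫_ℂ) atTop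
      (𝓝 (⟪ι φ, v⟫_ℂ + ⟪Q φ, l⟫_ℂ)) :=
    (tendsto_const_nhds.inner h1).add (tendsto_const_nhds.inner h2)
  have e2 : Tendsto (fun n => ⟪ι φ + A φ, ι (ψ n)⟫_ℂ) atTop (𝓝 ⟪ι φ + A φ, v⟫_ℂ) :=
    tendsto_const_nhds.inner h1
  refine tendsto_nhds_unique e1 (e2.congr fun n => ?_)
  rw [inner_add_left, hA]

/-- **gap transfer, core version**: `A` is the operator of the form on the core, the vectors
`(1 + A) φ` approximate every core vector (graph core) -/
theorem Frm.gap_core (A : E → H) (hA : ∀ φ ψ, ⟪Q φ, Q ψ⟫_ℂ = ⟪A φ, ι ψ⟫_ℂ)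
    (hD : ∀ φ : E, ∀ ε > 0, ∃ ψ : E, ‖ι φ - (ι ψ + A ψ)‖ < ε)
    {δ : ℝ} (hG : ∀ φ, δ * ‖Q φ‖ ^ 2 ≤ ‖A φ‖ ^ 2) {u : H} {k : K}
    (h : (Frm.ofCore ι Q hc).mem u k) :
    δ * ‖u - (Frm.ofCore ι Q hc).P u‖ ^ 2 ≤ ‖k‖ ^ 2 := by
  set S := Frm.ofCore ι Q hc with hS
  refine Frm.gap (S := S) ?_ h
  -- the closed set of good `f`
  set G : Set H := {f | δ * ‖S.L f‖ ^ 2 ≤ ‖f - S.B f‖ ^ 2} with hGdef
  have hGcl : IsClosed G := isClosed_le (by fun_prop) (by fun_prop)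
  have h1 : ∀ φ, ι φ + A φ ∈ G := by
    intro φ
    obtain ⟨e1, e2⟩ := Frm.B_core hc A hA φ
    show δ * ‖S.L (ι φ + A φ)‖ ^ 2 ≤ ‖ι φ + A φ - S.B (ι φ + A φ)‖ ^ 2
    rw [e1, e2, add_sub_cancel_left]
    exact hG φ
  have h2 : ∀ φ, ι φ ∈ G := by
    intro φ
    refine hGcl.closure_subset (Metric.mem_closure_iff.mpr fun ε hε => ?_)
    obtain ⟨ψ, hψ⟩ := hD φ ε hε
    exact ⟨ι ψ + A ψ, h1 ψ, by rwa [dist_eq_norm]⟩
  set H0 : Submodule ℂ H := (LinearMap.range ι).topologicalClosure with hH0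
  have : CompleteSpace H0 := (Submodule.isClosed_topologicalClosure _).completeSpace_coe
  have h3 : ∀ f ∈ H0, f ∈ G := by
    intro f hf
    have hf' : f ∈ closure (LinearMap.range ι : Set H) := by
      rw [← Submodule.topologicalClosure_coe]; exact hf
    refine closure_minimal ?_ hGcl hf'
    rintro _ ⟨φ, rfl⟩
    exact h2 φ
  have hmemH0 : ∀ (v : H) (l : K), S.mem v l → v ∈ H0 := by
    intro v l hvl
    obtain ⟨ψ, e1, -⟩ := (Frm.mem_ofCore hc).mp hvl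
    have : v ∈ closure (LinearMap.range ι : Set H) :=
      mem_closure_of_tendsto e1 (Eventually.of_forall fun n => ⟨ψ n, rfl⟩)
    rw [hH0, ← SetLike.mem_coe, Submodule.topologicalClosure_coe]
    exact this
  have h4 : ∀ f ∈ H0ᗮ, S.B f = 0 ∧ S.L f = 0 := by
    intro f hf
    refine Frm.B_eq S.mem_zero fun v l hvl => ?_
    rw [inner_zero_left, inner_zero_left, add_zero]
    exact ((Submodule.mem_orthogonal' _ _).mp hf v (hmemH0 v l hvl)).symm
  intro f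
  set f0 := H0.starProjection f with hf0
  have hf0m : f0 ∈ H0 := Submodule.starProjection_apply_mem _ _
  have hf1m : f - f0 ∈ H0ᗮ := Submodule.sub_starProjection_mem_orthogonal _
  obtain ⟨b1, b2⟩ := h4 _ hf1m
  have eB : S.B f = S.B f0 := by
    rw [map_sub] at b1
    exact sub_eq_zero.mp b1
  have eL : S.L f = S.L f0 := by
    rw [map_sub] at b2
    exact sub_eq_zero.mp b2
  have hg0 : δ * ‖S.L f0‖ ^ 2 ≤ ‖f0 - S.B f0‖ ^ 2 := h3 f0 hf0m
  have hm0 : f0 - S.B f0 ∈ H0 := H0.sub_mem hf0m (hmemH0 _ _ (S.mem_B f0))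
  have hpyth : ‖f - S.B f‖ ^ 2 = ‖f0 - S.B f0‖ ^ 2 + ‖f - f0‖ ^ 2 := by
    have e : f - S.B f = (f0 - S.B f0) + (f - f0) := by rw [eB]; abel
    rw [e]
    have ho : ⟪f0 - S.B f0, f - f0⟫_ℂ = 0 := (Submodule.mem_orthogonal _ _).mp hf1m _ hm0
    have := norm_add_sq_eq_norm_sq_add_norm_sq_of_inner_eq_zero _ _ ho
    nlinarith [this]
  rw [eL, hpyth]
  nlinarith [sq_nonneg ‖f - f0‖]

end core

end Crest.Agent.R330.Form868
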