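import Mathlib

/-!
# Row 330, section 6b (helper839): gauge frames

Abstract setting: a bilinear map `A : V →L E →L E` (`A ω x = [ω, x]`), a base point `c`,
`k = ker (A · c)`, `T = range (A · c)`, `N = Tᗮ`, a gap `r ‖ω‖ ≤ ‖A ω c‖` on `kᗮ`.

* `S A c x : kᗮ → T`, `ω ↦ Π_T [ω, x]`.
* `om A c x : T → kᗮ`, its inverse for `‖x - c‖ ≤ r / (2B)`; `S_om`, `om_S`, `om_bound`,
  `om_sub_bound`, `contDiffAt_om`.
* `nn A c x t = [om t, x] - t ∈ N`; `nn_bound`, `nn_add` (at `x = b + z`).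
* `vert` : `dφ(x) t = B(om t) φ(x) - dφ(x)(nn t)` for infinitesimally equivariant `φ`.
* `contraction_basis` : the kinetic term is independent of the orthonormal basis.
-/

set_option autoImplicit false
set_option linter.unusedSectionVars false

open scoped InnerProductSpace ContDiff

noncomputable section

namespace Crest.Agent.R330.Frame839

variable {V E : Type*} [NormedAddCommGroup V] [InnerProductSpace ℝ V] [FiniteDimensional ℝ V]
  [NormedAddCommGroup E] [InnerProductSpace ℝ E] [FiniteDimensional ℝ E]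
  (A : V →L[ℝ] E →L[ℝ] E) (c : E)

/-- infinitesimal stabiliser -/
def kc : Submodule ℝ V := LinearMap.ker (A.flip c).toLinearMap

/-- tangent space of the orbit -/
def Tn : Submodule ℝ E := LinearMap.range (A.flip c).toLinearMap

theorem mem_kc {w : V} : w ∈ kc A c ↔ A w c = 0 := Iff.rfl

theorem mem_Tn (w : V) : A w c ∈ Tn A c := ⟨w, rfl⟩

/-- The frame operator. -/
def S (x : E) : (kc A c)ᗮ →L[ℝ] Tn A c :=
  (Tn A c).orthogonalProjectionOnto ∘L (A.flip x) ∘L ((kc A c)ᗮ).subtypeL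

theorem S_apply (x : E) (w : (kc A c)ᗮ) :
    S A c x w = (Tn A c).orthogonalProjectionOnto (A w x) := rfl

theorem S_self (w : (kc A c)ᗮ) : ((S A c c w : Tn A c) : E) = A w c := by
  rw [S_apply]
  exact Submodule.starProjection_eq_self_iff.2 (mem_Tn A c w)

theorem S_sub (x y : E) (w : (kc A c)ᗮ) :
    S A c x w - S A c y w = (Tn A c).orthogonalProjectionOnto (A w (x - y)) := by
  rw [S_apply, S_apply, ← map_sub, ← map_sub]

/-- The gap. -/
def GapAt (r : ℝ) : Prop := ∀ w ∈ (kc A c)ᗮ, r * ‖w‖ ≤ ‖A w c‖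

/-- Bound of the action. -/
def ActBound (B : ℝ) : Prop := ∀ w x, ‖A w x‖ ≤ B * ‖w‖ * ‖x‖

variable {A c} {r B : ℝ}

theorem proj_norm_le (K : Submodule ℝ E) (v : E) :
    ‖K.orthogonalProjectionOnto v‖ ≤ ‖v‖ := K.norm_orthogonalProjectionOnto_apply_le v

theorem S_sub_bound (hB : ActBound A B) (x y : E) (w : (kc A c)ᗮ) :
    ‖S A c x w - S A c y w‖ ≤ B * ‖w‖ * ‖x - y‖ := by
  rw [S_sub]
  exact (proj_norm_le _ _).trans (hB _ _)

theorem S_low (hr : GapAt A c r) (hB : ActBound A B) {x : E} (hx : B * ‖x - c‖ ≤ r / 2)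
    (w : (kc A c)ᗮ) : r / 2 * ‖w‖ ≤ ‖S A c x w‖ := by
  have h1 := hr w w.2
  have h2 := S_sub_bound hB x c w
  have h3 : ‖S A c c w‖ = ‖A w c‖ := by
    rw [← S_self]
    rfl
  have h4 : ‖S A c c w‖ ≤ ‖S A c x w‖ + ‖S A c x w - S A c c w‖ := by
    have := norm_sub_norm_le (S A c c w) (S A c x w)
    rw [norm_sub_rev] at this
    linarith
  have h5 : (‖(w : V)‖ : ℝ) = ‖w‖ := rfl
  rw [h5] at h1
  have h6 : B * ‖w‖ * ‖x - c‖ ≤ r / 2 * ‖w‖ := by
    have := mul_le_mul_of_nonneg_right hx (norm_nonneg w)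
    nlinarith
  linarith

theorem finrank_eq : Module.finrank ℝ (kc A c)ᗮ = Module.finrank ℝ (Tn A c) := by
  have h1 := Submodule.finrank_add_finrank_orthogonal (kc A c)
  have h2 := LinearMap.finrank_range_add_finrank_ker (A.flip c).toLinearMap
  have h3 : Module.finrank ℝ (kc A c) =
    Module.finrank ℝ (LinearMap.ker (A.flip c).toLinearMap) := rfl
  have h4 : Module.finrank ℝ (Tn A c) =
    Module.finrank ℝ (LinearMap.range (A.flip c).toLinearMap) := rfl
  omega

theorem S_inj (hr0 : 0 < r) (hr : GapAt A c r) (hB : ActBound A B) {x : E}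
    (hx : B * ‖x - c‖ ≤ r / 2) : Function.Injective (S A c x) := by
  rw [injective_iff_map_eq_zero]
  intro w hw
  have h := S_low hr hB hx w
  rw [hw, norm_zero] at h
  have : ‖w‖ ≤ 0 := by
    by_contra hne
    push Not at hne
    have := mul_pos (half_pos hr0) hne
    linarith
  simpa using this

/-- The frame operator as an equivalence. -/
def Se (hr0 : 0 < r) (hr : GapAt A c r) (hB : ActBound A B) {x : E}
    (hx : B * ‖x - c‖ ≤ r / 2) : (kc A c)ᗮ ≃L[ℝ] Tn A c :=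
  (LinearEquiv.ofInjectiveOfFinrankEq (S A c x).toLinearMap (S_inj hr0 hr hB hx)
    finrank_eq).toContinuousLinearEquiv

theorem Se_coe (hr0 : 0 < r) (hr : GapAt A c r) (hB : ActBound A B) {x : E}
    (hx : B * ‖x - c‖ ≤ r / 2) : ((Se hr0 hr hB hx : (kc A c)ᗮ ≃L[ℝ] Tn A c) :
      (kc A c)ᗮ →L[ℝ] Tn A c) = S A c x := by
  ext w
  rfl

variable (A c) in
/-- The gauge frame: `t ↦ ω` with `Π_T [ω, x] = t`. -/
def om (x : E) : Tn A c →L[ℝ] (kc A c)ᗮ := ContinuousLinearMap.inverse (S A c x)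

theorem om_eq (hr0 : 0 < r) (hr : GapAt A c r) (hB : ActBound A B) {x : E}
    (hx : B * ‖x - c‖ ≤ r / 2) :
    om A c x = ((Se hr0 hr hB hx).symm : Tn A c →L[ℝ] (kc A c)ᗮ) := by
  unfold om
  rw [← Se_coe hr0 hr hB hx, ContinuousLinearMap.inverse_equiv]

theorem S_om (hr0 : 0 < r) (hr : GapAt A c r) (hB : ActBound A B) {x : E}
    (hx : B * ‖x - c‖ ≤ r / 2) (t : Tn A c) : S A c x (om A c x t) = t := by
  rw [om_eq hr0 hr hB hx, ← Se_coe hr0 hr hB hx]
  exact (Se hr0 hr hB hx).apply_symm_apply t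

theorem om_S (hr0 : 0 < r) (hr : GapAt A c r) (hB : ActBound A B) {x : E}
    (hx : B * ‖x - c‖ ≤ r / 2) (w : (kc A c)ᗮ) : om A c x (S A c x w) = w := by
  rw [om_eq hr0 hr hB hx, ← Se_coe hr0 hr hB hx]
  exact (Se hr0 hr hB hx).symm_apply_apply w

theorem om_bound (hr0 : 0 < r) (hr : GapAt A c r) (hB : ActBound A B) {x : E}
    (hx : B * ‖x - c‖ ≤ r / 2) (t : Tn A c) : ‖om A c x t‖ ≤ 2 / r * ‖t‖ := by
  have h := S_low hr hB hx (om A c x t)
  rw [S_om hr0 hr hB hx] at h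
  rw [div_mul_eq_mul_div, le_div_iff₀ hr0]
  linarith

theorem om_sub_bound (hr0 : 0 < r) (hr : GapAt A c r) (hB : ActBound A B) {x y : E}
    (hx : B * ‖x - c‖ ≤ r / 2) (hy : B * ‖y - c‖ ≤ r / 2) (hB0 : 0 ≤ B) (t : Tn A c) :
    ‖om A c x t - om A c y t‖ ≤ 4 * B / r ^ 2 * ‖x - y‖ * ‖t‖ := by
  have h1 : om A c x t - om A c y t =
      om A c x (S A c y (om A c y t) - S A c x (om A c y t)) := by
    rw [map_sub, om_S hr0 hr hB hx, S_om hr0 hr hB hy]
  rw [h1]
  refine (om_bound hr0 hr hB hx _).trans ?_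
  have h2 := S_sub_bound hB y x (om A c y t)
  have h3 := om_bound hr0 hr hB hy t
  calc 2 / r * ‖S A c y (om A c y t) - S A c x (om A c y t)‖
      ≤ 2 / r * (B * (2 / r * ‖t‖) * ‖y - x‖) := by
        gcongr
        exact h2.trans (by gcongr)
    _ = 4 * B / r ^ 2 * ‖x - y‖ * ‖t‖ := by
        rw [norm_sub_rev y x]
        field_simp
        ring

theorem contDiff_S : ContDiff ℝ ∞ (fun x => S A c x) := by
  unfold S
  fun_prop

theorem contDiffAt_om (hr0 : 0 < r) (hr : GapAt A c r) (hB : ActBound A B) {x : E}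
    (hx : B * ‖x - c‖ ≤ r / 2) : ContDiffAt ℝ ∞ (fun x => om A c x) x := by
  unfold om
  have h := contDiffAt_map_inverse (𝕜 := ℝ) (n := ∞) (Se hr0 hr hB hx)
  rw [Se_coe] at h
  exact h.comp x (contDiff_S (A := A) (c := c)).contDiffAt

/-! ## The horizontal remainder -/

variable (A c) in
/-- `[om t, x] - t`. -/
def nn (x : E) (t : Tn A c) : E := A (om A c x t) x - t

theorem nn_eq (hr0 : 0 < r) (hr : GapAt A c r) (hB : ActBound A B) {x : E}
    (hx : B * ‖x - c‖ ≤ r / 2) (t : Tn A c) :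
    nn A c x t = (Tn A c)ᗮ.starProjection (A (om A c x t) x) := by
  unfold nn
  have h := S_om hr0 hr hB hx t
  rw [S_apply] at h
  have h2 := Submodule.starProjection_add_starProjection_orthogonal (K := Tn A c)
    (A (om A c x t) x)
  have h3 : (Tn A c).starProjection (A (om A c x t) x) = t := by
    rw [Submodule.starProjection_apply, h]
  rw [h3] at h2
  rw [sub_eq_iff_eq_add, add_comm]
  exact h2.symm

theorem nn_mem (hr0 : 0 < r) (hr : GapAt A c r) (hB : ActBound A B) {x : E}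
    (hx : B * ‖x - c‖ ≤ r / 2) (t : Tn A c) : nn A c x t ∈ (Tn A c)ᗮ := by
  rw [nn_eq hr0 hr hB hx]
  exact Submodule.starProjection_apply_mem _ _

theorem projN_self (w : V) : (Tn A c)ᗮ.starProjection (A w c) = 0 := by
  rw [Submodule.starProjection_orthogonal_val]
  rw [Submodule.starProjection_eq_self_iff.2 (mem_Tn A c w), sub_self]

theorem nn_eq' (hr0 : 0 < r) (hr : GapAt A c r) (hB : ActBound A B) {x : E}
    (hx : B * ‖x - c‖ ≤ r / 2) (t : Tn A c) :
    nn A c x t = (Tn A c)ᗮ.starProjection (A (om A c x t) (x - c)) := by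
  rw [nn_eq hr0 hr hB hx]
  have h : A (om A c x t : V) x = A (om A c x t : V) (x - c) + A (om A c x t : V) c := by
    rw [← map_add, sub_add_cancel]
  rw [h, map_add, projN_self, add_zero]

theorem nn_bound (hr0 : 0 < r) (hr : GapAt A c r) (hB : ActBound A B) (hB0 : 0 ≤ B) {x : E}
    (hx : B * ‖x - c‖ ≤ r / 2) (t : Tn A c) :
    ‖nn A c x t‖ ≤ 2 * B / r * ‖x - c‖ * ‖t‖ := by
  rw [nn_eq' hr0 hr hB hx]
  refine ((Tn A c)ᗮ.norm_starProjection_apply_le _).trans ((hB _ _).trans ?_)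
  have h := om_bound hr0 hr hB hx t
  calc B * ‖((om A c x t : (kc A c)ᗮ) : V)‖ * ‖x - c‖ ≤ B * (2 / r * ‖t‖) * ‖x - c‖ := by
        gcongr
        exact h
    _ = _ := by ring

/-- Dependence of the horizontal remainder on the base point. -/
theorem nn_sub_bound (hr0 : 0 < r) (hr : GapAt A c r) (hB : ActBound A B) (hB0 : 0 ≤ B)
    {x y : E} (hx : B * ‖x - c‖ ≤ r / 2) (hy : B * ‖y - c‖ ≤ r / 2) (t : Tn A c) :
    ‖nn A c x t - nn A c y t‖ ≤ 4 * B / r * ‖x - y‖ * ‖t‖ := by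
  rw [nn_eq' hr0 hr hB hx, nn_eq' hr0 hr hB hy, ← map_sub]
  refine ((Tn A c)ᗮ.norm_starProjection_apply_le _).trans ?_
  have h1 : A (om A c x t : V) (x - c) - A (om A c y t : V) (y - c) =
      A (om A c x t : V) (x - y) + A ((om A c x t - om A c y t : (kc A c)ᗮ) : V) (y - c) := by
    have e1 : A (om A c x t : V) (x - y) =
        A (om A c x t : V) (x - c) - A (om A c x t : V) (y - c) := by
      rw [← map_sub]
      congr 1
      abel
    have e2 : A ((om A c x t - om A c y t : (kc A c)ᗮ) : V) (y - c) =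
        A (om A c x t : V) (y - c) - A (om A c y t : V) (y - c) := by
      have e3 : A ((om A c x t - om A c y t : (kc A c)ᗮ) : V) =
          A (om A c x t : V) - A (om A c y t : V) := by
        rw [Submodule.coe_sub, map_sub]
      rw [e3]
      rfl
    rw [e1, e2]
    abel
  rw [h1]
  have h2 := om_bound hr0 hr hB hx t
  have h3 := om_sub_bound hr0 hr hB hx hy hB0 t
  have h4 : ‖A (om A c x t : V) (x - y)‖ ≤ B * (2 / r * ‖t‖) * ‖x - y‖ :=
    (hB _ _).trans (by gcongr; exact h2)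
  have h5 : ‖A ((om A c x t - om A c y t : (kc A c)ᗮ) : V) (y - c)‖ ≤
      (4 * B / r ^ 2 * ‖x - y‖ * ‖t‖) * (r / 2) := by
    refine (hB _ _).trans ?_
    calc B * ‖((om A c x t - om A c y t : (kc A c)ᗮ) : V)‖ * ‖y - c‖
        = ‖((om A c x t - om A c y t : (kc A c)ᗮ) : V)‖ * (B * ‖y - c‖) := by ring
      _ ≤ _ := by
          gcongr
          exact h3
  refine (norm_add_le _ _).trans ((add_le_add h4 h5).trans (le_of_eq ?_))
  field_simp
  ring

/-! ## Vertical derivatives -/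

section vert

variable {F : Type*} [NormedAddCommGroup F] [NormedSpace ℝ F]

/-- Infinitesimal equivariance at a point. -/
def InfEq (A : V →L[ℝ] E →L[ℝ] E) (Bf : V →ₗ[ℝ] (F →ₗ[ℝ] F)) (φ : E → F) (x : E) : Prop :=
  ∀ w, fderiv ℝ φ x (A w x) = Bf w (φ x)

/-- **Vertical derivative.** -/
theorem vert {Bf : V →ₗ[ℝ] (F →ₗ[ℝ] F)} {φ : E → F} {x : E} (h : InfEq A Bf φ x)
    (t : Tn A c) :
    fderiv ℝ φ x t = Bf (om A c x t) (φ x) - fderiv ℝ φ x (nn A c x t) := by
  unfold nn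
  rw [map_sub, h]
  abel

end vert

/-! ## Independence of the orthonormal basis -/

section contr

variable {F : Type*} [AddCommGroup F] [Module ℝ F] {ι κ : Type*} [Fintype ι] [Fintype κ]

/-- A contraction `Σ_s f(e_s, e_s)` of a bilinear map does not depend on the orthonormal basis. -/
theorem contraction_basis (f : E →ₗ[ℝ] E →ₗ[ℝ] F) (e : OrthonormalBasis ι ℝ E)
    (e' : OrthonormalBasis κ ℝ E) : ∑ s, f (e s) (e s) = ∑ s, f (e' s) (e' s) := by
  have h1 : ∀ s, f (e s) (e s) = ∑ p, ∑ q, (⟪e' p, e s⟫_ℝ * ⟪e' q, e s⟫_ℝ) • f (e' p) (e' q) := by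
    intro s
    conv_lhs => rw [← e'.sum_repr' (e s)]
    simp only [map_sum, map_smul, LinearMap.sum_apply, LinearMap.smul_apply, Finset.smul_sum,
      smul_smul]
    rw [Finset.sum_comm]
    exact Finset.sum_congr rfl fun p _ => Finset.sum_congr rfl fun q _ => by rw [mul_comm]
  simp only [h1]
  rw [Finset.sum_comm]
  refine Finset.sum_congr rfl fun p _ => ?_
  rw [Finset.sum_comm]
  have h2 : ∀ q, ∑ s, (⟪e' p, e s⟫_ℝ * ⟪e' q, e s⟫_ℝ) • f (e' p) (e' q) =
      (⟪e' p, e' q⟫_ℝ) • f (e' p) (e' q) := by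
    intro q
    rw [← Finset.sum_smul]
    congr 1
    rw [← e.sum_inner_mul_inner (e' p) (e' q)]
    exact Finset.sum_congr rfl fun s _ => by rw [real_inner_comm (e s) (e' q)]
  simp only [h2]
  classical
  rw [Finset.sum_eq_single p]
  · simp
  · intro q _ hq
    rw [e'.inner_eq_ite, if_neg (fun h => hq h.symm), zero_smul]
  · simp

end contr

end Crest.Agent.R330.Frame839

end
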