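import Crest.Agent.R330.FreeY_399
import Crest.Agent.R330.Chan_566

/-!
# Row 330: generators of one symmetric channel (helper399)

Over `C : Chan566.Chan S E F` (positions `E`, light fermions `F`, finite group `S`):

* `Gen C reg r` : generators `(c, χ)`, `c ∈ reg`, `χ` a test function with support in `B(c, r c)`.
* `op`, `wm` : the limit charges and radial multiplication on generators.
* `e₀` : `√|S|` times the symmetrisation in `L²`; `inner_e₀` : Gram matrix of generators.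
* `proj` : the intertwiner of the free module onto the symmetric test space `C.X`;
  `proj_e`, `proj_D`, `proj_W`, `sq_gen`.
* `isLim_free` : `IsLim` of the free module from `IsLim` of `C.X`, if `proj` is surjective.
-/

set_option autoImplicit false
set_option linter.unusedSectionVars false

open MeasureTheory Filter Topology
open scoped ContDiff InnerProductSpace ENNReal

noncomputable section

namespace Crest.Agent.R330.FreeC399

open Crest.Agent.R330.FreeX399 Crest.Agent.R330.FreeY399 Crest.Agent.R330.Chan441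
  Crest.Agent.R330.WS596

variable {S : Type*} [Group S] [Fintype S]
variable {E : Type*} [NormedAddCommGroup E] [InnerProductSpace ℝ E] [FiniteDimensional ℝ E]
  [MeasurableSpace E] [BorelSpace E]
variable {F : Type*} [NormedAddCommGroup F] [InnerProductSpace ℂ F] [FiniteDimensional ℂ F]

/-- A generator: a chart centre and a test function supported in the chart. -/
structure Gen (C : Chan566.Chan S E F) (reg : Set E) (r : E → ℝ) where
  /-- the centre -/
  c : E
  /-- the test function -/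
  χ : E → F
  hc : c ∈ reg
  test : C.Test χ
  supp : tsupport χ ⊆ Metric.ball c (r c)

namespace Gen

variable {C : Chan566.Chan S E F} {reg : Set E} {r : E → ℝ}

/-- the limit charge of a generator -/
def op (m : ℝ) (α : Fin 16) (γ : Gen C reg r) : Gen C reg r where
  c := γ.c
  χ := (C.Q m α).op γ.χ
  hc := γ.hc
  test := γ.test.op m α
  supp := (C.op_tsupport m α γ.χ).trans γ.supp

theorem tsupport_wm (w : ℝ → ℝ) (χ : E → F) :
    tsupport (fun x => w (‖x‖ ^ 2) • χ x) ⊆ tsupport χ := by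
  refine closure_minimal ?_ (isClosed_tsupport χ)
  intro x hx
  apply subset_tsupport
  intro h0
  apply hx
  simp only [h0, smul_zero]

/-- radial multiplication of a test function -/
theorem test_wm {w : ℝ → ℝ} (hw : ContDiff ℝ ∞ w) {χ : E → F} (h : C.Test χ) :
    C.Test (fun x => w (‖x‖ ^ 2) • χ x) := by
  have hs : ContDiff ℝ ∞ fun x : E => w (‖x‖ ^ 2) := hw.comp (contDiff_norm_sq ℝ)
  exact ⟨hs.smul h.smooth, h.cpt.of_isClosed_subset (isClosed_tsupport _) (tsupport_wm w χ),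
    fun x hx => h.off x (tsupport_wm w χ hx)⟩

/-- radial multiplication of a generator -/
def wm' (w : ℝ → ℝ) (hw : ContDiff ℝ ∞ w) (γ : Gen C reg r) : Gen C reg r where
  c := γ.c
  χ := fun x => w (‖x‖ ^ 2) • γ.χ x
  hc := γ.hc
  test := test_wm hw γ.test
  supp := (tsupport_wm w γ.χ).trans γ.supp

open Classical in
/-- radial multiplication of a generator, total in `w` -/
def wm (w : ℝ → ℝ) (γ : Gen C reg r) : Gen C reg r :=
  if hw : ContDiff ℝ ∞ w then wm' w hw γ else γ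

theorem wm_of {w : ℝ → ℝ} (hw : ContDiff ℝ ∞ w) (γ : Gen C reg r) : wm w γ = wm' w hw γ := by
  unfold wm
  rw [dif_pos hw]

theorem wm_c {w : ℝ → ℝ} (γ : Gen C reg r) : (wm w γ).c = γ.c := by
  unfold wm
  split_ifs <;> rfl

theorem wm_χ {w : ℝ → ℝ} (hw : ContDiff ℝ ∞ w) (γ : Gen C reg r) (x : E) :
    (wm w γ).χ x = w (‖x‖ ^ 2) • γ.χ x := by
  rw [wm_of hw]
  rfl

end Gen

variable (C : Chan566.Chan S E F) (reg : Set E) (r : E → ℝ)

/-- the normalisation `√|S|` -/
def kap (S : Type*) [Fintype S] : ℂ := ((Real.sqrt (Fintype.card S) : ℝ) : ℂ)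

theorem kap_sq : (starRingEnd ℂ) (kap S) * kap S = (Fintype.card S : ℂ) := by
  have h1 : (0 : ℝ) ≤ (Fintype.card S : ℝ) := by positivity
  unfold kap
  rw [Complex.conj_ofReal, ← Complex.ofReal_mul, Real.mul_self_sqrt h1]
  simp

theorem kap_ne : kap S ≠ 0 := by
  have h1 : (0 : ℝ) < (Fintype.card S : ℝ) := by
    exact_mod_cast Fintype.card_pos (α := S)
  unfold kap
  exact Complex.ofReal_ne_zero.2 (Real.sqrt_pos.2 h1).ne'

/-- the limit vector of a generator -/
def e₀ (γ : Gen C reg r) : C.L := kap S • C.e (C.sym γ.test)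

/-- the intertwiner onto the symmetric test space -/
def proj : (Gen C reg r →₀ ℂ) →ₗ[ℂ] C.X :=
  Finsupp.linearCombination ℂ fun γ : Gen C reg r => kap S • C.sym γ.test

theorem proj_single (γ : Gen C reg r) (a : ℂ) :
    proj C reg r (Finsupp.single γ a) = a • kap S • C.sym γ.test := by
  simp [proj]

theorem proj_e (χ : Gen C reg r →₀ ℂ) : eF (e₀ C reg r) χ = C.e (proj C reg r χ) := by
  rw [eF_eq, proj, Finsupp.linearCombination_apply, Finsupp.sum, map_sum]
  refine Finset.sum_congr rfl fun γ _ => ?_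
  rw [map_smul, map_smul]
  rfl

/-- two linear maps on the free module agree if they agree on generators -/
theorem ext_gen {X : Type*} [AddCommGroup X] [Module ℂ X] {f g : (Gen C reg r →₀ ℂ) →ₗ[ℂ] X}
    (h : ∀ γ, f (Finsupp.single γ 1) = g (Finsupp.single γ 1)) : f = g :=
  Finsupp.lhom_ext' fun γ => LinearMap.ext_ring (by simpa using h γ)

theorem proj_D (m : ℝ) (α : Fin 16) (χ : Gen C reg r →₀ ℂ) :
    proj C reg r (MF (Gen.op m α) χ) = C.D m α (proj C reg r χ) := by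
  have h1 : (proj C reg r) ∘ₗ (MF (Gen.op m α)) = (C.D m α) ∘ₗ (proj C reg r) := by
    refine ext_gen C reg r fun γ => ?_
    rw [LinearMap.comp_apply, LinearMap.comp_apply, MF_single, proj_single, proj_single, map_smul,
      map_smul, C.D_sym]
    rfl
  exact LinearMap.congr_fun h1 χ

theorem avg_wm {w : ℝ → ℝ} (χ : E → F) (x : E) :
    C.avg (fun y => w (‖y‖ ^ 2) • χ y) x = w (‖x‖ ^ 2) • C.avg χ x := by
  simp only [Chan566.Chan.avg, Chan566.Chan.tr]
  rw [smul_comm (w (‖x‖ ^ 2))]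
  congr 1
  rw [Finset.smul_sum]
  refine Finset.sum_congr rfl fun s _ => ?_
  rw [LinearIsometryEquiv.norm_map]
  have h1 := map_smul (Chan566.ul (C.U s⁻¹)) (w (‖x‖ ^ 2)) (χ (C.O s x))
  simpa only [Chan566.ul_apply] using h1

theorem W_sym {w : ℝ → ℝ} (hw : ContDiff ℝ ∞ w) {χ : E → F} (h : C.Test χ) :
    C.W w hw (C.sym h) = C.sym (Gen.test_wm hw h) := by
  apply Subtype.ext
  funext x
  rw [Chan566.Chan.W_apply]
  exact (avg_wm C χ x).symm

theorem proj_W {w : ℝ → ℝ} (hw : ContDiff ℝ ∞ w) (χ : Gen C reg r →₀ ℂ) :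
    proj C reg r (MF (Gen.wm w) χ) = C.W w hw (proj C reg r χ) := by
  have h1 : (proj C reg r) ∘ₗ (MF (Gen.wm w)) = (C.W w hw) ∘ₗ (proj C reg r) := by
    refine ext_gen C reg r fun γ => ?_
    rw [LinearMap.comp_apply, LinearMap.comp_apply, MF_single, proj_single, proj_single, map_smul,
      map_smul, W_sym C hw]
    have e1 : ∀ γ' : Gen C reg r, γ' = Gen.wm' w hw γ → (1 : ℂ) • kap S • C.sym γ'.test =
        (1 : ℂ) • kap S • C.sym (Gen.test_wm hw γ.test) := by
      rintro γ' rfl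
      rfl
    exact e1 _ (Gen.wm_of hw γ)
  exact LinearMap.congr_fun h1 χ

theorem sq_gen (hsq : ∀ (α β : Fin 16) (ψ : E → F), ContDiff ℝ ∞ ψ →
      (C.Q 0 α).op ((C.Q 0 α).op ψ) = (C.Q 0 β).op ((C.Q 0 β).op ψ))
    (α β : Fin 16) (χ : Gen C reg r →₀ ℂ) :
    MF (Gen.op 0 α) (MF (Gen.op 0 α) χ) = MF (Gen.op 0 β) (MF (Gen.op (C := C) 0 β) χ) := by
  have h0 : ∀ γ : Gen C reg r, Gen.op 0 α (Gen.op 0 α γ) = Gen.op 0 β (Gen.op 0 β γ) := by
    intro γ
    have h1 := hsq α β γ.χ γ.test.smooth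
    simp only [Gen.op, Gen.mk.injEq, true_and]
    exact h1
  have h1 : (MF (Gen.op 0 α)) ∘ₗ (MF (Gen.op 0 α)) =
      (MF (Gen.op 0 β)) ∘ₗ (MF (Gen.op (C := C) (reg := reg) (r := r) 0 β)) := by
    refine ext_gen C reg r fun γ => ?_
    rw [LinearMap.comp_apply, LinearMap.comp_apply, MF_single, MF_single, MF_single, MF_single, h0]
  exact LinearMap.congr_fun h1 χ

/-- **Gram matrix of the generators**: `Σ_s ∫ ⟪χ, U_s⁻¹ χ'(O_s ·)⟫`. -/
theorem inner_e₀ (γ γ' : Gen C reg r) :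
    ⟪e₀ C reg r γ, e₀ C reg r γ'⟫_ℂ = ∑ s, ∫ x, ⟪γ.χ x, C.tr s γ'.χ x⟫_ℂ := by
  have h0 : ⟪e₀ C reg r γ, e₀ C reg r γ'⟫_ℂ =
      (Fintype.card S : ℂ) * ⟪C.e (C.sym γ.test), C.e (C.sym γ'.test)⟫_ℂ := by
    have h1 := inner_smul_left (𝕜 := ℂ) (E := C.L) (C.e (C.sym γ.test))
      (kap S • C.e (C.sym γ'.test)) (kap S)
    have h2 := inner_smul_right (𝕜 := ℂ) (E := C.L) (C.e (C.sym γ.test))
      (C.e (C.sym γ'.test)) (kap S)
    refine h1.trans ?_
    rw [h2, ← mul_assoc, kap_sq]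
  have h1 : ⟪C.e (C.sym γ.test), C.e (C.sym γ'.test)⟫_ℂ =
      ∫ x, ⟪γ.χ x, (C.sym γ'.test).1 x⟫_ℂ := by
    have h2 := C.inner_avg (C.e (C.sym γ'.test)) γ.test.memLp
    have h3 : ⟪C.e (C.sym γ'.test), C.e (C.sym γ.test)⟫_ℂ =
        ∫ x, ⟪((C.e (C.sym γ'.test) : C.L) : Lp F 2 (volume : Measure E)) x, γ.χ x⟫_ℂ := by
      rw [C.inner_e, ← h2]
      rfl
    have h4 : ⟪C.e (C.sym γ'.test), C.e (C.sym γ.test)⟫_ℂ =
        ∫ x, ⟪(C.sym γ'.test).1 x, γ.χ x⟫_ℂ := by
      rw [h3]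
      refine integral_congr_ae ?_
      filter_upwards [C.e_ae (C.sym γ'.test)] with x hx
      rw [hx]
    have h6 := inner_conj_symm (𝕜 := ℂ) (E := C.L) (C.e (C.sym γ.test)) (C.e (C.sym γ'.test))
    rw [← h6, h4, ← integral_conj]
    refine integral_congr_ae (Eventually.of_forall fun x => ?_)
    exact inner_conj_symm _ _
  have hc : (Fintype.card S : ℂ) ≠ 0 := by
    exact_mod_cast (Fintype.card_pos (α := S)).ne'
  rw [h0, h1]
  have h5 : ∀ x, ⟪γ.χ x, (C.sym γ'.test).1 x⟫_ℂ =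
      (Fintype.card S : ℂ)⁻¹ * ∑ s, ⟪γ.χ x, C.tr s γ'.χ x⟫_ℂ := by
    intro x
    have h6 : (C.sym γ'.test).1 x = C.avg γ'.χ x := rfl
    rw [h6, Chan566.Chan.avg, inner_rsmul_right, inner_sum]
    push_cast
    rfl
  simp only [h5]
  rw [integral_const_mul, integral_finsetSum _ fun s _ =>
    Chan566.Chan.integrable_inner γ.test.memLp (γ'.test.tr s).memLp, ← mul_assoc, mul_inv_cancel₀ hc, one_mul]

/-- if no group element except those of `T` brings the supports together, the sum runs over `T` -/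
theorem inner_e₀_of_disjoint (γ γ' : Gen C reg r) (T : Finset S)
    (h : ∀ s ∉ T, ∀ x, γ.χ x ≠ 0 → γ'.χ (C.O s x) = 0) :
    ⟪e₀ C reg r γ, e₀ C reg r γ'⟫_ℂ = ∑ s ∈ T, ∫ x, ⟪γ.χ x, C.tr s γ'.χ x⟫_ℂ := by
  rw [inner_e₀]
  refine (Finset.sum_subset (Finset.subset_univ T) fun s _ hs => ?_).symm
  have h1 : ∀ x, ⟪γ.χ x, C.tr s γ'.χ x⟫_ℂ = 0 := by
    intro x
    by_cases hx : γ.χ x = 0
    · rw [hx, inner_zero_left]
    · rw [Chan566.Chan.tr, h s hs x hx, map_zero, inner_zero_right]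
  simp [h1]

/-- **`IsLim` for the free module.** -/
theorem isLim_free {W : (ℝ → ℝ) → C.X →ₗ[ℂ] C.X} {K0 : Submodule ℂ C.L} {d : ℕ}
    (hW : ∀ (w : ℝ → ℝ) (hw : ContDiff ℝ ∞ w), W w = C.W w hw)
    (hsq : ∀ (α β : Fin 16) (ψ : E → F), ContDiff ℝ ∞ ψ →
      (C.Q 0 α).op ((C.Q 0 α).op ψ) = (C.Q 0 β).op ((C.Q 0 β).op ψ))
    (hs : Function.Surjective (proj C reg r)) (h : IsLim C.e C.D W K0 d) :
    IsLim (eF (e₀ C reg r)) (fun m α => MF (Gen.op m α)) (fun w => MF (Gen.wm w)) K0 d :=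
  isLim_pull (proj C reg r) hs (proj_e C reg r) (proj_D C reg r)
    (fun w hw χ => by rw [hW w hw]; exact proj_W C reg r hw χ) (sq_gen C reg r hsq) h

/-- surjectivity of `proj` from finite decompositions of symmetric test functions -/
theorem proj_surj_of (h : ∀ χ : C.X, ∃ (κ : Type) (_ : Fintype κ) (γ : κ → Gen C reg r),
    ∀ x, χ.1 x = ∑ i, (γ i).χ x) : Function.Surjective (proj C reg r) := by
  intro χ
  obtain ⟨κ, _, γ, h1⟩ := h χ
  refine ⟨∑ i, Finsupp.single (γ i) (kap S)⁻¹, ?_⟩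
  rw [map_sum]
  have h2 : ∀ i, proj C reg r (Finsupp.single (γ i) (kap S)⁻¹) = C.sym (γ i).test := fun i => by
    rw [proj_single, smul_smul, inv_mul_cancel₀ kap_ne, one_smul]
  simp only [h2]
  apply Subtype.ext
  have h3 : ((∑ i, C.sym (γ i).test : C.X) : E → F) = ∑ i, C.avg (γ i).χ := by
    rw [AddSubmonoidClass.coe_finsetSum]
    rfl
  rw [h3]
  funext x
  rw [Finset.sum_apply]
  have h4 : C.avg χ.1 x = χ.1 x := by
    have hc : ((Fintype.card S : ℝ)) ≠ 0 := by
      exact_mod_cast (Fintype.card_pos (α := S)).ne'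
    rw [Chan566.Chan.avg]
    simp only [C.tr_of_eqv χ.2.2]
    rw [Finset.sum_const, Finset.card_univ, ← Nat.cast_smul_eq_nsmul ℝ, smul_smul,
      inv_mul_cancel₀ hc, one_smul]
  rw [← h4]
  simp only [Chan566.Chan.avg, Chan566.Chan.tr]
  rw [← Finset.smul_sum, Finset.sum_comm]
  congr 1
  refine Finset.sum_congr rfl fun s _ => ?_
  rw [h1, map_sum]

end Crest.Agent.R330.FreeC399
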