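import Crest.Agent.R330.TrialSys_796
import Crest.Agent.R330.ChSum_718

/-!
# Row 330: trial systems on a free module of generators (helper399)

A trial system may be given on generators `γ : Γ` only (`X = Γ →₀ ℂ`, decision (D2) of #17594).

* `eF`, `DF`, `TF` : the linear extensions.
* `IsGen` : the fields of `IsTrial` on generators.
* `isTrial_free` : `IsTrial` for the free module.
* `dense_eF` : density from a total set of generators.
* `cap_gen` : testing against all of `X` = testing against generators.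
-/

set_option autoImplicit false
set_option linter.unusedSectionVars false

open MeasureTheory Filter Topology Crest.MathPhysics.MatrixQM
open scoped ContDiff InnerProductSpace ENNReal

noncomputable section

namespace Crest.Agent.R330.FreeX399

open Crest.Agent.R330.Defs478 Crest.Agent.R330.Sec478 Crest.Agent.R330.TrialSys796

variable {N : ℕ} {F : Type*} [NormedAddCommGroup F] [InnerProductSpace ℂ F]
  [FiniteDimensional ℂ F] {Γ : Type*}
  {L : Type*} [NormedAddCommGroup L] [InnerProductSpace ℂ L]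

/-- linear extension of the amplitudes -/
def eF (e₀ : Γ → L) : (Γ →₀ ℂ) →ₗ[ℂ] L := Finsupp.linearCombination ℂ e₀

/-- linear extension of the limit charges -/
def DF (D₀ : Fin 16 → Γ → (Γ →₀ ℂ)) (α : Fin 16) : (Γ →₀ ℂ) →ₗ[ℂ] (Γ →₀ ℂ) :=
  Finsupp.linearCombination ℂ (D₀ α)

/-- linear extension of the trial states -/
def TF (T₀ : ℝ → Γ → Cfg N → F) (g : ℝ) : (Γ →₀ ℂ) → Cfg N → F := fun χ =>
  Finsupp.linearCombination ℂ (T₀ g) χ

theorem TF_eq (T₀ : ℝ → Γ → Cfg N → F) (g : ℝ) (χ : Γ →₀ ℂ) :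
    TF T₀ g χ = fun x => ∑ γ ∈ χ.support, χ γ • T₀ g γ x := by
  funext x
  simp [TF, Finsupp.linearCombination_apply, Finsupp.sum, Finset.sum_apply]

theorem TF_single (T₀ : ℝ → Γ → Cfg N → F) (g : ℝ) (γ : Γ) :
    TF T₀ g (Finsupp.single γ 1) = T₀ g γ := by
  simp [TF]

theorem eF_single (e₀ : Γ → L) (γ : Γ) : eF e₀ (Finsupp.single γ 1) = e₀ γ := by
  simp [eF]

theorem eF_eq (e₀ : Γ → L) (χ : Γ →₀ ℂ) : eF e₀ χ = ∑ γ ∈ χ.support, χ γ • e₀ γ := by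
  simp [eF, Finsupp.linearCombination_apply, Finsupp.sum]

theorem DF_eq (D₀ : Fin 16 → Γ → (Γ →₀ ℂ)) (α : Fin 16) (χ : Γ →₀ ℂ) :
    DF D₀ α χ = ∑ γ ∈ χ.support, χ γ • D₀ α γ := by
  simp [DF, Finsupp.linearCombination_apply, Finsupp.sum]

theorem DF_single (D₀ : Fin 16 → Γ → (Γ →₀ ℂ)) (α : Fin 16) (γ : Γ) :
    DF D₀ α (Finsupp.single γ 1) = D₀ α γ := by
  simp [DF]

/-- The fields of `IsTrial` on generators. -/
structure IsGen (b : ColorBasis N) (M : FermionRep N F) (R : GaugeAction b M) (G : GammaNine)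
    (e₀ : Γ → L) (D₀ : Fin 16 → Γ → (Γ →₀ ℂ)) (T₀ : ℝ → Γ → Cfg N → F) : Prop where
  core : ∀ γ, ∀ᶠ g in atTop, IsCoreVec b R (T₀ g γ)
  iso : ∀ γ γ', Tendsto (fun g => ∫ x, ⟪T₀ g γ x, T₀ g γ' x⟫_ℂ) atTop (𝓝 ⟪e₀ γ, e₀ γ'⟫_ℂ)
  dual : ∀ γ α, ∀ ε : ℝ, 0 < ε → ∀ᶠ g in atTop, ∀ φ : Cfg N → F, IsCoreVec b R φ →
    ‖∫ x, ⟪φ x, dcharge b M G g 1 α (T₀ g γ) x - TF T₀ g (D₀ α γ) x⟫_ℂ‖ ≤
      ε * Real.sqrt (En b M G g 1 φ)
  far : ∀ γ, ∃ δ : ℝ, 0 < δ ∧ ∀ᶠ g in atTop, ∀ x, ‖x‖ < δ → T₀ g γ x = 0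

section

variable {b : ColorBasis N} {M : FermionRep N F} {R : GaugeAction b M} {G : GammaNine}
  {e₀ : Γ → L} {D₀ : Fin 16 → Γ → (Γ →₀ ℂ)} {T₀ : ℝ → Γ → Cfg N → F}

theorem smul_core {φ : Cfg N → F} (h : IsCoreVec b R φ) (a : ℂ) :
    IsCoreVec b R (fun x => a • φ x) :=
  Submodule.smul_mem (core b R) a h

theorem sum_core {κ : Type*} (s : Finset κ) {f : κ → Cfg N → F}
    (h : ∀ i ∈ s, IsCoreVec b R (f i)) : IsCoreVec b R (fun x => ∑ i ∈ s, f i x) := by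
  have h1 : (fun x => ∑ i ∈ s, f i x) = ∑ i ∈ s, f i := by
    funext x
    simp
  rw [h1]
  exact Submodule.sum_mem (core b R) h

theorem core_TF (h : ∀ γ, ∀ᶠ g in atTop, IsCoreVec b R (T₀ g γ)) (χ : Γ →₀ ℂ) :
    ∀ᶠ g in atTop, IsCoreVec b R (TF T₀ g χ) := by
  have h1 : ∀ᶠ g in atTop, ∀ γ ∈ χ.support, IsCoreVec b R (T₀ g γ) :=
    (eventually_all_finset χ.support).2 fun γ _ => h γ
  filter_upwards [h1] with g hg
  rw [TF_eq]
  exact sum_core _ fun γ hγ => smul_core (hg γ hγ) _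

theorem core_inner_int {φ ψ : Cfg N → F} (hφ : IsCoreVec b R φ) (hψ : Continuous ψ) :
    Integrable (fun x => ⟪φ x, ψ x⟫_ℂ) := by
  refine (hφ.1.continuous.inner hψ).integrable_of_hasCompactSupport ?_
  refine hφ.2.1.mono fun x hx => ?_
  rw [Function.mem_support] at hx ⊢
  intro h
  exact hx (by simp [h])

theorem iso_TF (h : ∀ γ, ∀ᶠ g in atTop, IsCoreVec b R (T₀ g γ))
    (hi : ∀ γ γ', Tendsto (fun g => ∫ x, ⟪T₀ g γ x, T₀ g γ' x⟫_ℂ) atTop (𝓝 ⟪e₀ γ, e₀ γ'⟫_ℂ))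
    (χ χ' : Γ →₀ ℂ) :
    Tendsto (fun g => ∫ x, ⟪TF T₀ g χ x, TF T₀ g χ' x⟫_ℂ) atTop (𝓝 ⟪eF e₀ χ, eF e₀ χ'⟫_ℂ) := by
  have e1 : ⟪eF e₀ χ, eF e₀ χ'⟫_ℂ = ∑ γ ∈ χ.support, ∑ γ' ∈ χ'.support,
      (starRingEnd ℂ) (χ γ) * (χ' γ' * ⟪e₀ γ, e₀ γ'⟫_ℂ) := by
    rw [eF_eq, eF_eq, sum_inner]
    refine Finset.sum_congr rfl fun γ _ => ?_
    rw [inner_sum]
    refine Finset.sum_congr rfl fun γ' _ => ?_
    rw [inner_smul_left, inner_smul_right]
  have h1 : ∀ᶠ g in atTop, ∀ γ ∈ χ.support, IsCoreVec b R (T₀ g γ) :=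
    (eventually_all_finset χ.support).2 fun γ _ => h γ
  have h2 : ∀ᶠ g in atTop, ∀ γ ∈ χ'.support, IsCoreVec b R (T₀ g γ) :=
    (eventually_all_finset χ'.support).2 fun γ _ => h γ
  have h3 : Tendsto (fun g => ∑ γ ∈ χ.support, ∑ γ' ∈ χ'.support,
      (starRingEnd ℂ) (χ γ) * (χ' γ' * ∫ x, ⟪T₀ g γ x, T₀ g γ' x⟫_ℂ)) atTop
      (𝓝 ⟪eF e₀ χ, eF e₀ χ'⟫_ℂ) := by
    rw [e1]
    exact tendsto_finsetSum _ fun γ _ => tendsto_finsetSum _ fun γ' _ =>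
      ((hi γ γ').const_mul _).const_mul _
  refine h3.congr' ?_
  filter_upwards [h1, h2] with g hg hg'
  have e2 : ∀ x, ⟪TF T₀ g χ x, TF T₀ g χ' x⟫_ℂ = ∑ γ ∈ χ.support, ∑ γ' ∈ χ'.support,
      (starRingEnd ℂ) (χ γ) * (χ' γ' * ⟪T₀ g γ x, T₀ g γ' x⟫_ℂ) := by
    intro x
    rw [TF_eq, TF_eq, sum_inner]
    refine Finset.sum_congr rfl fun γ _ => ?_
    rw [inner_sum]
    refine Finset.sum_congr rfl fun γ' _ => ?_
    rw [inner_smul_left, inner_smul_right]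
  have hI : ∀ γ ∈ χ.support, ∀ γ' ∈ χ'.support, Integrable fun x =>
      (starRingEnd ℂ) (χ γ) * (χ' γ' * ⟪T₀ g γ x, T₀ g γ' x⟫_ℂ) := fun γ hγ γ' hγ' =>
    ((core_inner_int (hg γ hγ) (hg' γ' hγ').1.continuous).const_mul _).const_mul _
  simp only [e2]
  rw [integral_finsetSum _ fun γ hγ => integrable_finsetSum _ fun γ' hγ' => hI γ hγ γ' hγ']
  refine Finset.sum_congr rfl fun γ hγ => ?_
  rw [integral_finsetSum _ fun γ' hγ' => hI γ hγ γ' hγ']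
  refine Finset.sum_congr rfl fun γ' _ => ?_
  rw [integral_const_mul, integral_const_mul]

theorem far_TF (hf : ∀ γ, ∃ δ : ℝ, 0 < δ ∧ ∀ᶠ g in atTop, ∀ x : Cfg N, ‖x‖ < δ → T₀ g γ x = 0)
    (χ : Γ →₀ ℂ) : ∃ δ : ℝ, 0 < δ ∧ ∀ᶠ g in atTop, ∀ x, ‖x‖ < δ → TF T₀ g χ x = 0 := by
  choose δ h0 h1 using hf
  have h2 : ∀ γ ∈ χ.support, ∀ᶠ d : ℝ in 𝓝[>] 0, d < δ γ := fun γ _ => by
    filter_upwards [Ioo_mem_nhdsGT (h0 γ)] with d hd
    exact hd.2
  obtain ⟨d, h3, h4⟩ := (((eventually_all_finset χ.support).2 h2).and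
    self_mem_nhdsWithin).exists
  refine ⟨d, h4, ?_⟩
  filter_upwards [(eventually_all_finset χ.support).2 fun γ _ => h1 γ] with g hg x hx
  rw [TF_eq]
  refine Finset.sum_eq_zero fun γ hγ => ?_
  rw [hg γ hγ x (hx.trans (h3 γ hγ)), smul_zero]

theorem dcharge_sum {κ : Type*} (s : Finset κ) {f : κ → Cfg N → F} (a : κ → ℂ)
    (h : ∀ i ∈ s, Differentiable ℝ (f i)) (g m : ℝ) (α : Fin 16) (x : Cfg N) :
    dcharge b M G g m α (fun x => ∑ i ∈ s, a i • f i x) x =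
      ∑ i ∈ s, a i • dcharge b M G g m α (f i) x := by
  classical
  induction s using Finset.induction_on with
  | empty =>
    have h0 := dcharge_smul b M G g m α (0 : ℂ) (φ := (0 : Cfg N → F)) (by fun_prop)
    have h1 := congrFun h0 x
    have h2 : (fun x => ∑ i ∈ (∅ : Finset κ), a i • f i x) = (0 : Cfg N → F) := by
      funext y
      simp
    rw [h2, Finset.sum_empty]
    simpa using h1
  | insert i s hi ih =>
    have h1 : (fun x => ∑ j ∈ insert i s, a j • f j x) =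
        a i • f i + fun x => ∑ j ∈ s, a j • f j x := by
      funext y
      simp [Finset.sum_insert hi]
    have hd : ∀ j ∈ insert i s, Differentiable ℝ (a j • f j) := fun j hj =>
      (h j hj).const_smul (a j)
    have hd' : ∀ j ∈ insert i s, Differentiable ℝ (fun x => a j • f j x) := hd
    rw [h1, dcharge_add b M G g m α (hd i (Finset.mem_insert_self i s))
      (Differentiable.fun_sum fun j hj => hd' j (Finset.mem_insert_of_mem hj)),
      Finset.sum_insert hi]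
    rw [← ih fun j hj => h j (Finset.mem_insert_of_mem hj)]
    rw [dcharge_smul b M G g m α (a i) (h i (Finset.mem_insert_self i s))]
    rfl

theorem TF_linear (g : ℝ) (s : Finset Γ) (a : Γ → ℂ) (f : Γ → (Γ →₀ ℂ)) (x : Cfg N) :
    TF T₀ g (∑ γ ∈ s, a γ • f γ) x = ∑ γ ∈ s, a γ • TF T₀ g (f γ) x := by
  simp [TF, map_sum, Finset.sum_apply]

theorem dual_TF (h : ∀ γ, ∀ᶠ g in atTop, IsCoreVec b R (T₀ g γ))
    (hd : ∀ γ α, ∀ ε : ℝ, 0 < ε → ∀ᶠ g in atTop, ∀ φ : Cfg N → F, IsCoreVec b R φ →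
      ‖∫ x, ⟪φ x, dcharge b M G g 1 α (T₀ g γ) x - TF T₀ g (D₀ α γ) x⟫_ℂ‖ ≤
        ε * Real.sqrt (En b M G g 1 φ)) (χ : Γ →₀ ℂ) (α : Fin 16) (ε : ℝ) (hε : 0 < ε) :
    ∀ᶠ g in atTop, ∀ φ : Cfg N → F, IsCoreVec b R φ →
      ‖∫ x, ⟪φ x, dcharge b M G g 1 α (TF T₀ g χ) x - TF T₀ g (DF D₀ α χ) x⟫_ℂ‖ ≤
        ε * Real.sqrt (En b M G g 1 φ) := by
  set S : ℝ := ∑ γ ∈ χ.support, ‖χ γ‖ with hS
  have hS0 : 0 ≤ S := Finset.sum_nonneg fun _ _ => norm_nonneg _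
  have hc : 0 < ε / (S + 1) := by positivity
  have h1 : ∀ᶠ g in atTop, ∀ γ ∈ χ.support, IsCoreVec b R (T₀ g γ) :=
    (eventually_all_finset χ.support).2 fun γ _ => h γ
  have h2 : ∀ᶠ g in atTop, ∀ γ ∈ χ.support, ∀ φ : Cfg N → F, IsCoreVec b R φ →
      ‖∫ x, ⟪φ x, dcharge b M G g 1 α (T₀ g γ) x - TF T₀ g (D₀ α γ) x⟫_ℂ‖ ≤
        ε / (S + 1) * Real.sqrt (En b M G g 1 φ) :=
    (eventually_all_finset χ.support).2 fun γ _ => hd γ α _ hc
  have h3 : ∀ᶠ g in atTop, ∀ γ ∈ χ.support, IsCoreVec b R (TF T₀ g (D₀ α γ)) :=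
    (eventually_all_finset χ.support).2 fun γ _ => core_TF h _
  filter_upwards [h1, h2, h3] with g hg1 hg2 hg3 φ hφ
  have e1 : ∀ x, ⟪φ x, dcharge b M G g 1 α (TF T₀ g χ) x - TF T₀ g (DF D₀ α χ) x⟫_ℂ =
      ∑ γ ∈ χ.support, χ γ *
        ⟪φ x, dcharge b M G g 1 α (T₀ g γ) x - TF T₀ g (D₀ α γ) x⟫_ℂ := by
    intro x
    have e2 : dcharge b M G g 1 α (TF T₀ g χ) x =
        ∑ γ ∈ χ.support, χ γ • dcharge b M G g 1 α (T₀ g γ) x := by
      rw [TF_eq]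
      exact dcharge_sum _ _ (fun γ hγ => cv_diff (hg1 γ hγ)) g 1 α x
    rw [e2, DF_eq, TF_linear, ← Finset.sum_sub_distrib, inner_sum]
    refine Finset.sum_congr rfl fun γ _ => ?_
    rw [← smul_sub, inner_smul_right]
  have hI : ∀ γ ∈ χ.support, Integrable fun x => χ γ *
      ⟪φ x, dcharge b M G g 1 α (T₀ g γ) x - TF T₀ g (D₀ α γ) x⟫_ℂ := fun γ hγ =>
    (core_inner_int hφ ((continuous_dcharge b M G g 1 α (cv_c1 (hg1 γ hγ))).sub
      (hg3 γ hγ).1.continuous)).const_mul _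
  simp only [e1]
  rw [integral_finsetSum _ hI]
  have hs : 0 ≤ Real.sqrt (En b M G g 1 φ) := Real.sqrt_nonneg _
  calc ‖∑ γ ∈ χ.support, ∫ x, χ γ *
        ⟪φ x, dcharge b M G g 1 α (T₀ g γ) x - TF T₀ g (D₀ α γ) x⟫_ℂ‖
      ≤ ∑ γ ∈ χ.support, ‖χ γ‖ * (ε / (S + 1) * Real.sqrt (En b M G g 1 φ)) := by
        refine (norm_sum_le _ _).trans (Finset.sum_le_sum fun γ hγ => ?_)
        rw [integral_const_mul, norm_mul]
        exact mul_le_mul_of_nonneg_left (hg2 γ hγ φ hφ) (norm_nonneg _)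
    _ = S / (S + 1) * (ε * Real.sqrt (En b M G g 1 φ)) := by
        rw [← Finset.sum_mul, ← hS]
        ring
    _ ≤ 1 * (ε * Real.sqrt (En b M G g 1 φ)) := by
        refine mul_le_mul_of_nonneg_right ?_ (by positivity)
        rw [div_le_one (by positivity)]
        linarith
    _ = _ := one_mul _

/-- **`IsTrial` on the free module from the fields on generators.** -/
theorem isTrial_free (h : IsGen b M R G e₀ D₀ T₀) :
    IsTrial b M R G (eF e₀) (DF D₀) (TF T₀) where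
  core := core_TF h.core
  iso := iso_TF h.core h.iso
  dual χ α ε hε := dual_TF h.core h.dual χ α ε hε
  far := far_TF h.far

/-- density of the range from density of the span of the generators -/
theorem dense_eF (h : Dense ((Submodule.span ℂ (Set.range e₀) : Submodule ℂ L) : Set L)) :
    DenseRange (eF e₀) := by
  have h1 : Set.range (eF e₀) = ((Submodule.span ℂ (Set.range e₀) : Submodule ℂ L) : Set L) := by
    rw [← LinearMap.coe_range, eF, Finsupp.range_linearCombination]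
  rw [DenseRange, h1]
  exact h

/-- testing against generators is enough -/
theorem test_TF (h : ∀ γ, ∀ᶠ g in atTop, IsCoreVec b R (T₀ g γ)) {g : ℕ → ℝ}
    (hg : Tendsto g atTop atTop) {φ : ℕ → Cfg N → F} (hφ : ∀ j, Continuous (φ j))
    (ht : ∀ γ, Tendsto (fun j => ∫ x, ⟪T₀ (g j) γ x, φ j x⟫_ℂ) atTop (𝓝 0)) (χ : Γ →₀ ℂ) :
    Tendsto (fun j => ∫ x, ⟪TF T₀ (g j) χ x, φ j x⟫_ℂ) atTop (𝓝 0) := by
  have h1 : ∀ᶠ g in atTop, ∀ γ ∈ χ.support, IsCoreVec b R (T₀ g γ) :=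
    (eventually_all_finset χ.support).2 fun γ _ => h γ
  have h2 : Tendsto (fun j => ∑ γ ∈ χ.support,
      (starRingEnd ℂ) (χ γ) * ∫ x, ⟪T₀ (g j) γ x, φ j x⟫_ℂ) atTop (𝓝 0) := by
    have h3 := tendsto_finsetSum χ.support fun γ _ => (ht γ).const_mul ((starRingEnd ℂ) (χ γ))
    simpa using h3
  refine h2.congr' ?_
  filter_upwards [hg.eventually h1] with j hj
  have e2 : ∀ x, ⟪TF T₀ (g j) χ x, φ j x⟫_ℂ = ∑ γ ∈ χ.support,
      (starRingEnd ℂ) (χ γ) * ⟪T₀ (g j) γ x, φ j x⟫_ℂ := by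
    intro x
    rw [TF_eq, sum_inner]
    refine Finset.sum_congr rfl fun γ _ => ?_
    rw [inner_smul_left]
  simp only [e2]
  rw [integral_finsetSum _ fun γ hγ => (core_inner_int (hj γ hγ) (hφ j)).const_mul _]
  refine Finset.sum_congr rfl fun γ _ => ?_
  rw [integral_const_mul]

/-- testing against `X` tests the generators -/
theorem test_gen {g : ℕ → ℝ} {φ : ℕ → Cfg N → F}
    (ht : ∀ χ : Γ →₀ ℂ, Tendsto (fun j => ∫ x, ⟪TF T₀ (g j) χ x, φ j x⟫_ℂ) atTop (𝓝 0)) (γ : Γ) :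
    Tendsto (fun j => ∫ x, ⟪T₀ (g j) γ x, φ j x⟫_ℂ) atTop (𝓝 0) := by
  have h1 := ht (Finsupp.single γ 1)
  simpa only [TF_single] using h1

/-- `CapBall` for the free module from `CapBall` for the generators. -/
theorem capBall_free (h : CapBall b M R G T₀) : CapBall b M R G (TF T₀) :=
  fun g φ C hg hφ hE ht hz ρ => h g φ C hg hφ hE (fun γ => test_gen ht γ) hz ρ

end

end Crest.Agent.R330.FreeX399
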