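import Crest.Agent.R330.FreeX_399
import Crest.Agent.R330.Chan_441

/-!
# Row 330: 441's channel on a free module of generators (helper399)

* `IsGenCh` : the fields of `Chan441.IsChan` on generators `γ : Γ` (`D₀ m α : Γ → Γ`,
  `W₀ w : Γ → Γ`).
* `isChan_free` : `IsChan` for `X = Γ →₀ ℂ`.
* `isLim_pull` : transfer of `IsLim` along a surjective intertwiner `π : X' → X`.
* `orth_gen`, `capFam_gen` : orthogonality and capture on generators.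
-/

set_option autoImplicit false
set_option linter.unusedSectionVars false

open MeasureTheory Filter Topology Crest.MathPhysics.MatrixQM
open scoped ContDiff InnerProductSpace ENNReal

noncomputable section

namespace Crest.Agent.R330.FreeY399

open Crest.Agent.R330.Defs478 Crest.Agent.R330.Sec478 Crest.Agent.R330.TrialSys796
  Crest.Agent.R330.FreeX399 Crest.Agent.R330.Chan441

variable {N : ℕ} {F : Type*} [NormedAddCommGroup F] [InnerProductSpace ℂ F]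
  [FiniteDimensional ℂ F] {Γ : Type*}
  {L : Type*} [NormedAddCommGroup L] [InnerProductSpace ℂ L]

/-- linear extension of a map of generators -/
def MF (D₀ : Γ → Γ) : (Γ →₀ ℂ) →ₗ[ℂ] (Γ →₀ ℂ) := Finsupp.lmapDomain ℂ ℂ D₀

theorem MF_single (D₀ : Γ → Γ) (γ : Γ) (a : ℂ) :
    MF D₀ (Finsupp.single γ a) = Finsupp.single (D₀ γ) a := by
  simp [MF]

theorem MF_eq (D₀ : Γ → Γ) (χ : Γ →₀ ℂ) :
    MF D₀ χ = ∑ γ ∈ χ.support, χ γ • Finsupp.single (D₀ γ) (1 : ℂ) := by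
  rw [MF, Finsupp.lmapDomain_apply, Finsupp.mapDomain, Finsupp.sum]
  exact Finset.sum_congr rfl fun γ _ => by rw [Finsupp.smul_single, smul_eq_mul, mul_one]

theorem MF_eq_DF (D₀ : Fin 16 → Γ → Γ) (α : Fin 16) :
    MF (D₀ α) = DF (fun α γ => Finsupp.single (D₀ α γ) 1) α := by
  refine LinearMap.ext fun χ => ?_
  rw [MF_eq, DF_eq]

/-- The fields of `IsChan` on generators. -/
structure IsGenCh (b : ColorBasis N) (M : FermionRep N F) (R : GaugeAction b M) (G : GammaNine)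
    (e₀ : Γ → L) (D₀ : ℝ → Fin 16 → Γ → Γ) (W₀ : (ℝ → ℝ) → Γ → Γ)
    (T₀ : ℝ → Γ → Cfg N → F) : Prop where
  core : ∀ γ, ∀ᶠ g in atTop, IsCoreVec b R (T₀ g γ)
  supp : ∀ γ, ∃ r ρ : ℝ, 0 < r ∧ ∀ᶠ g in atTop, ∀ x, T₀ g γ x ≠ 0 → r ≤ ‖x‖ ∧ ‖x‖ ≤ ρ
  iso : ∀ γ γ', Tendsto (fun g => ∫ x, ⟪T₀ g γ x, T₀ g γ' x⟫_ℂ) atTop (𝓝 ⟪e₀ γ, e₀ γ'⟫_ℂ)
  dual : ∀ m : ℝ, m = 0 ∨ m = 1 → ∀ γ α, ∀ ε : ℝ, 0 < ε → ∀ᶠ g in atTop, ∀ φ : Cfg N → F,
    IsCoreVec b R φ →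
    ‖∫ x, ⟪φ x, dcharge b M G g m α (T₀ g γ) x - T₀ g (D₀ m α γ) x⟫_ℂ‖ ≤
      ε * Real.sqrt (En b M G g m φ)
  rad : ∀ w : ℝ → ℝ, ContDiff ℝ ∞ w → ∀ γ, Tendsto (fun g =>
    ∫ x, ‖T₀ g (W₀ w γ) x - ((w (‖x‖ ^ 2) : ℝ) : ℂ) • T₀ g γ x‖ ^ 2) atTop (𝓝 0)

section

variable {b : ColorBasis N} {M : FermionRep N F} {R : GaugeAction b M} {G : GammaNine}
  {e₀ : Γ → L} {D₀ : ℝ → Fin 16 → Γ → Γ} {W₀ : (ℝ → ℝ) → Γ → Γ} {T₀ : ℝ → Γ → Cfg N → F}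

/-- the dual estimate, any mass -/
theorem dual_TF' (m : ℝ) (D₀ : Fin 16 → Γ → Γ) (h : ∀ γ, ∀ᶠ g in atTop, IsCoreVec b R (T₀ g γ))
    (hd : ∀ γ α, ∀ ε : ℝ, 0 < ε → ∀ᶠ g in atTop, ∀ φ : Cfg N → F, IsCoreVec b R φ →
      ‖∫ x, ⟪φ x, dcharge b M G g m α (T₀ g γ) x - T₀ g (D₀ α γ) x⟫_ℂ‖ ≤
        ε * Real.sqrt (En b M G g m φ)) (χ : Γ →₀ ℂ) (α : Fin 16) (ε : ℝ) (hε : 0 < ε) :
    ∀ᶠ g in atTop, ∀ φ : Cfg N → F, IsCoreVec b R φ →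
      ‖∫ x, ⟪φ x, dcharge b M G g m α (TF T₀ g χ) x - TF T₀ g (MF (D₀ α) χ) x⟫_ℂ‖ ≤
        ε * Real.sqrt (En b M G g m φ) := by
  set S : ℝ := ∑ γ ∈ χ.support, ‖χ γ‖ with hS
  have hS0 : 0 ≤ S := Finset.sum_nonneg fun _ _ => norm_nonneg _
  have hc : 0 < ε / (S + 1) := by positivity
  have h1 : ∀ᶠ g in atTop, ∀ γ ∈ χ.support, IsCoreVec b R (T₀ g γ) :=
    (eventually_all_finset χ.support).2 fun γ _ => h γ
  have h2 : ∀ᶠ g in atTop, ∀ γ ∈ χ.support, ∀ φ : Cfg N → F, IsCoreVec b R φ →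
      ‖∫ x, ⟪φ x, dcharge b M G g m α (T₀ g γ) x - T₀ g (D₀ α γ) x⟫_ℂ‖ ≤
        ε / (S + 1) * Real.sqrt (En b M G g m φ) :=
    (eventually_all_finset χ.support).2 fun γ _ => hd γ α _ hc
  have h3 : ∀ᶠ g in atTop, ∀ γ ∈ χ.support, IsCoreVec b R (T₀ g (D₀ α γ)) :=
    (eventually_all_finset χ.support).2 fun γ _ => h _
  filter_upwards [h1, h2, h3] with g hg1 hg2 hg3 φ hφ
  have e1 : ∀ x, ⟪φ x, dcharge b M G g m α (TF T₀ g χ) x - TF T₀ g (MF (D₀ α) χ) x⟫_ℂ =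
      ∑ γ ∈ χ.support, χ γ *
        ⟪φ x, dcharge b M G g m α (T₀ g γ) x - T₀ g (D₀ α γ) x⟫_ℂ := by
    intro x
    have e2 : dcharge b M G g m α (TF T₀ g χ) x =
        ∑ γ ∈ χ.support, χ γ • dcharge b M G g m α (T₀ g γ) x := by
      rw [TF_eq]
      exact dcharge_sum _ _ (fun γ hγ => cv_diff (hg1 γ hγ)) g m α x
    rw [e2, MF_eq, TF_linear, ← Finset.sum_sub_distrib, inner_sum]
    refine Finset.sum_congr rfl fun γ _ => ?_
    rw [TF_single, ← smul_sub, inner_smul_right]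
  have hI : ∀ γ ∈ χ.support, Integrable fun x => χ γ *
      ⟪φ x, dcharge b M G g m α (T₀ g γ) x - T₀ g (D₀ α γ) x⟫_ℂ := fun γ hγ =>
    (core_inner_int hφ ((continuous_dcharge b M G g m α (cv_c1 (hg1 γ hγ))).sub
      (hg3 γ hγ).1.continuous)).const_mul _
  simp only [e1]
  rw [integral_finsetSum _ hI]
  have hs : 0 ≤ Real.sqrt (En b M G g m φ) := Real.sqrt_nonneg _
  calc ‖∑ γ ∈ χ.support, ∫ x, χ γ *
        ⟪φ x, dcharge b M G g m α (T₀ g γ) x - T₀ g (D₀ α γ) x⟫_ℂ‖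
      ≤ ∑ γ ∈ χ.support, ‖χ γ‖ * (ε / (S + 1) * Real.sqrt (En b M G g m φ)) := by
        refine (norm_sum_le _ _).trans (Finset.sum_le_sum fun γ hγ => ?_)
        rw [integral_const_mul, norm_mul]
        exact mul_le_mul_of_nonneg_left (hg2 γ hγ φ hφ) (norm_nonneg _)
    _ = S / (S + 1) * (ε * Real.sqrt (En b M G g m φ)) := by
        rw [← Finset.sum_mul, ← hS]
        ring
    _ ≤ 1 * (ε * Real.sqrt (En b M G g m φ)) := by
        refine mul_le_mul_of_nonneg_right ?_ (by positivity)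
        rw [div_le_one (by positivity)]
        linarith
    _ = _ := one_mul _

theorem supp_TF (hs : ∀ γ, ∃ r ρ : ℝ, 0 < r ∧ ∀ᶠ g in atTop, ∀ x : Cfg N, T₀ g γ x ≠ 0 →
    r ≤ ‖x‖ ∧ ‖x‖ ≤ ρ) (χ : Γ →₀ ℂ) : ∃ r ρ : ℝ, 0 < r ∧ ∀ᶠ g in atTop, ∀ x : Cfg N,
      TF T₀ g χ x ≠ 0 → r ≤ ‖x‖ ∧ ‖x‖ ≤ ρ := by
  choose r ρ h0 h1 using hs
  have h2 : ∀ γ ∈ χ.support, ∀ᶠ d : ℝ in 𝓝[>] 0, d < r γ := fun γ _ => by
    filter_upwards [Ioo_mem_nhdsGT (h0 γ)] with d hd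
    exact hd.2
  obtain ⟨d, h3, h4⟩ := (((eventually_all_finset χ.support).2 h2).and
    self_mem_nhdsWithin).exists
  have h5 : ∀ᶠ t : ℝ in atTop, ∀ γ ∈ χ.support, ρ γ ≤ t :=
    (eventually_all_finset χ.support).2 fun γ _ => eventually_ge_atTop _
  obtain ⟨t, ht⟩ := h5.exists
  refine ⟨d, t, h4, ?_⟩
  filter_upwards [(eventually_all_finset χ.support).2 fun γ _ => h1 γ] with g hg x hx
  rw [TF_eq] at hx
  obtain ⟨γ, hγ, hne⟩ := Finset.exists_ne_zero_of_sum_ne_zero hx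
  have h6 := hg γ hγ x fun h => hne (by rw [h, smul_zero])
  exact ⟨(h3 γ hγ).le.trans h6.1, h6.2.trans (ht γ hγ)⟩

theorem norm_sum_sq_le {κ : Type*} (s : Finset κ) (f : κ → F) :
    ‖∑ i ∈ s, f i‖ ^ 2 ≤ s.card * ∑ i ∈ s, ‖f i‖ ^ 2 := by
  calc ‖∑ i ∈ s, f i‖ ^ 2 ≤ (∑ i ∈ s, ‖f i‖) ^ 2 := by
        gcongr
        exact norm_sum_le _ _
    _ ≤ _ := sq_sum_le_card_mul_sum_sq

theorem integrable_diff_sq {φ ψ : Cfg N → F} (hφ : IsCoreVec b R φ) (hψ : IsCoreVec b R ψ)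
    {w : ℝ → ℝ} (hw : ContDiff ℝ ∞ w) :
    Integrable fun x => ‖φ x - ((w (‖x‖ ^ 2) : ℝ) : ℂ) • ψ x‖ ^ 2 := by
  have hc : Continuous fun x : Cfg N => ((w (‖x‖ ^ 2) : ℝ) : ℂ) :=
    Complex.continuous_ofReal.comp (hw.continuous.comp (by fun_prop))
  refine Continuous.integrable_of_hasCompactSupport
    ((hφ.1.continuous.sub (hc.smul hψ.1.continuous)).norm.pow 2) ?_
  refine (hφ.2.1.union hψ.2.1).of_isClosed_subset (isClosed_tsupport _)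
    (closure_minimal ?_ ((isClosed_tsupport φ).union (isClosed_tsupport ψ)))
  intro x hx
  by_contra h
  rw [Set.mem_union, not_or] at h
  apply hx
  show ‖φ x - ((w (‖x‖ ^ 2) : ℝ) : ℂ) • ψ x‖ ^ 2 = 0
  rw [image_eq_zero_of_notMem_tsupport h.1, image_eq_zero_of_notMem_tsupport h.2]
  simp

theorem rad_TF (h : ∀ γ, ∀ᶠ g in atTop, IsCoreVec b R (T₀ g γ)) {w : ℝ → ℝ}
    (hw : ContDiff ℝ ∞ w) (hr : ∀ γ, Tendsto (fun g =>
      ∫ x, ‖T₀ g (W₀ w γ) x - ((w (‖x‖ ^ 2) : ℝ) : ℂ) • T₀ g γ x‖ ^ 2) atTop (𝓝 0))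
    (χ : Γ →₀ ℂ) : Tendsto (fun g =>
      ∫ x, ‖TF T₀ g (MF (W₀ w) χ) x - ((w (‖x‖ ^ 2) : ℝ) : ℂ) • TF T₀ g χ x‖ ^ 2) atTop (𝓝 0) := by
  have h1 : ∀ᶠ g in atTop, ∀ γ ∈ χ.support, IsCoreVec b R (T₀ g γ) :=
    (eventually_all_finset χ.support).2 fun γ _ => h γ
  have h3 : ∀ᶠ g in atTop, ∀ γ ∈ χ.support, IsCoreVec b R (T₀ g (W₀ w γ)) :=
    (eventually_all_finset χ.support).2 fun γ _ => h _
  have h4 : Tendsto (fun g => (χ.support.card : ℝ) * ∑ γ ∈ χ.support, ‖χ γ‖ ^ 2 *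
      ∫ x, ‖T₀ g (W₀ w γ) x - ((w (‖x‖ ^ 2) : ℝ) : ℂ) • T₀ g γ x‖ ^ 2) atTop (𝓝 0) := by
    have h5 := (tendsto_finsetSum χ.support fun γ _ =>
      (hr γ).const_mul (‖χ γ‖ ^ 2)).const_mul (χ.support.card : ℝ)
    simpa using h5
  refine squeeze_zero' (Eventually.of_forall fun g => integral_nonneg fun x => sq_nonneg _) ?_ h4
  filter_upwards [h1, h3] with g hg1 hg3
  have e1 : ∀ x, TF T₀ g (MF (W₀ w) χ) x - ((w (‖x‖ ^ 2) : ℝ) : ℂ) • TF T₀ g χ x =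
      ∑ γ ∈ χ.support, χ γ • (T₀ g (W₀ w γ) x - ((w (‖x‖ ^ 2) : ℝ) : ℂ) • T₀ g γ x) := by
    intro x
    rw [MF_eq, TF_linear]
    have e2 : TF T₀ g χ x = ∑ γ ∈ χ.support, χ γ • T₀ g γ x := by rw [TF_eq]
    rw [e2, Finset.smul_sum, ← Finset.sum_sub_distrib]
    refine Finset.sum_congr rfl fun γ _ => ?_
    rw [TF_single, smul_sub, smul_comm]
  have hI : ∀ γ ∈ χ.support, Integrable fun x => ‖χ γ‖ ^ 2 *
      ‖T₀ g (W₀ w γ) x - ((w (‖x‖ ^ 2) : ℝ) : ℂ) • T₀ g γ x‖ ^ 2 := fun γ hγ =>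
    (integrable_diff_sq (hg3 γ hγ) (hg1 γ hγ) hw).const_mul _
  have hIs : Integrable fun x => (χ.support.card : ℝ) * ∑ γ ∈ χ.support, ‖χ γ‖ ^ 2 *
      ‖T₀ g (W₀ w γ) x - ((w (‖x‖ ^ 2) : ℝ) : ℂ) • T₀ g γ x‖ ^ 2 :=
    (integrable_finsetSum _ hI).const_mul _
  calc ∫ x, ‖TF T₀ g (MF (W₀ w) χ) x - ((w (‖x‖ ^ 2) : ℝ) : ℂ) • TF T₀ g χ x‖ ^ 2
      ≤ ∫ x, (χ.support.card : ℝ) * ∑ γ ∈ χ.support, ‖χ γ‖ ^ 2 *
          ‖T₀ g (W₀ w γ) x - ((w (‖x‖ ^ 2) : ℝ) : ℂ) • T₀ g γ x‖ ^ 2 := by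
        refine integral_mono_of_nonneg (Eventually.of_forall fun x => sq_nonneg _) hIs
          (Eventually.of_forall fun x => ?_)
        show ‖TF T₀ g (MF (W₀ w) χ) x - ((w (‖x‖ ^ 2) : ℝ) : ℂ) • TF T₀ g χ x‖ ^ 2 ≤ _
        rw [e1]
        refine (norm_sum_sq_le _ _).trans_eq ?_
        congr 1
        exact Finset.sum_congr rfl fun γ _ => by rw [norm_smul, mul_pow]
    _ = _ := by
        rw [integral_const_mul, integral_finsetSum _ hI]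
        congr 1
        exact Finset.sum_congr rfl fun γ _ => integral_const_mul _ _

/-- **`IsChan` on the free module from the fields on generators.** -/
theorem isChan_free (h : IsGenCh b M R G e₀ D₀ W₀ T₀) :
    IsChan b M R G (eF e₀) (fun m α => MF (D₀ m α)) (fun w => MF (W₀ w)) (TF T₀) where
  core := core_TF h.core
  add g χ χ' := map_add (Finsupp.linearCombination ℂ (T₀ g)) χ χ'
  smul g c χ := map_smul (Finsupp.linearCombination ℂ (T₀ g)) c χ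
  supp := supp_TF h.supp
  iso := iso_TF h.core h.iso
  dual m hm χ α ε hε := dual_TF' m (D₀ m) h.core (h.dual m hm) χ α ε hε
  rad w hw χ := rad_TF h.core hw (h.rad w hw) χ

end

/-! ## transfer of the limit system along a surjective intertwiner -/

section pull

variable {X X' : Type*} [AddCommGroup X] [Module ℂ X] [AddCommGroup X'] [Module ℂ X']
  {e : X →ₗ[ℂ] L} {D : ℝ → Fin 16 → X →ₗ[ℂ] X} {W : (ℝ → ℝ) → X →ₗ[ℂ] X}
  {e' : X' →ₗ[ℂ] L} {D' : ℝ → Fin 16 → X' →ₗ[ℂ] X'} {W' : (ℝ → ℝ) → X' →ₗ[ℂ] X'}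
  {K0 : Submodule ℂ L} {d : ℕ}

/-- transfer of `IsFree` -/
theorem isFree_pull {D : Fin 16 → X →ₗ[ℂ] X} {D' : Fin 16 → X' →ₗ[ℂ] X'} (π : X' →ₗ[ℂ] X)
    (hπ : Function.Surjective π) (he : ∀ χ, e' χ = e (π χ)) (hD : ∀ α χ, π (D' α χ) = D α (π χ))
    (h : IsFree e D K0 d) : IsFree e' D' K0 d where
  rank := h.rank
  uniq f hf := h.uniq f fun χ α => by
    obtain ⟨χ', rfl⟩ := hπ χ
    rw [← hD, ← he]
    exact hf χ' α
  approx f hf ε hε := by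
    obtain ⟨χ, h1, h2⟩ := h.approx f hf ε hε
    obtain ⟨χ', rfl⟩ := hπ χ
    exact ⟨χ', by rwa [he], fun α => by rw [he, hD]; exact h2 α⟩

/-- **transfer of `IsLim` along a surjective intertwiner.** -/
theorem isLim_pull (π : X' →ₗ[ℂ] X) (hπ : Function.Surjective π) (he : ∀ χ, e' χ = e (π χ))
    (hD : ∀ m α χ, π (D' m α χ) = D m α (π χ))
    (hW : ∀ w, ContDiff ℝ ∞ w → ∀ χ, π (W' w χ) = W w (π χ))
    (hsq : ∀ (α β : Fin 16) (χ : X'), D' 0 α (D' 0 α χ) = D' 0 β (D' 0 β χ))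
    (h : IsLim e D W K0 d) : IsLim e' D' W' K0 d where
  dense := by
    have h1 : Set.range e' = Set.range e := by
      ext f
      constructor
      · rintro ⟨χ, rfl⟩
        exact ⟨π χ, (he χ).symm⟩
      · rintro ⟨χ, rfl⟩
        obtain ⟨χ', rfl⟩ := hπ χ
        exact ⟨χ', he χ'⟩
    rw [DenseRange, h1]
    exact h.dense
  sep := h.sep
  symm m α χ χ' := by
    rw [he, he, he, he, hD, hD]
    exact h.symm m α _ _
  sq := hsq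
  ws f k hf ε hε := by
    obtain ⟨χ, h1, h2⟩ := h.ws f k (fun χ α => by
      obtain ⟨χ', rfl⟩ := hπ χ
      have := hf χ' α
      rwa [he, he, hD] at this) ε hε
    obtain ⟨χ', rfl⟩ := hπ χ
    exact ⟨χ', by rwa [he], fun α => by rw [he, hD]; exact h2 α⟩
  hardy w hw hw2 χ := by
    have h1 := h.hardy w hw hw2 (π χ)
    simp only [he, hD, hW w hw]
    exact h1
  free := isFree_pull π hπ he (hD 1) h.free

end pull

/-! ## families -/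

section fam

variable {b : ColorBasis N} {M : FermionRep N F} {R : GaugeAction b M} {G : GammaNine}
  {Γ' : Type*}

/-- orthogonality on generators -/
theorem orth_gen {T₀ : ℝ → Γ → Cfg N → F} {T₁ : ℝ → Γ' → Cfg N → F}
    (h : ∀ γ, ∀ᶠ g in atTop, IsCoreVec b R (T₀ g γ))
    (h' : ∀ γ, ∀ᶠ g in atTop, IsCoreVec b R (T₁ g γ))
    (ho : ∀ γ γ', Tendsto (fun g => ∫ x, ⟪T₀ g γ x, T₁ g γ' x⟫_ℂ) atTop (𝓝 0)) :
    Orth (TF T₀) (TF T₁) := by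
  intro χ χ'
  have h1 : ∀ᶠ g in atTop, ∀ γ ∈ χ.support, IsCoreVec b R (T₀ g γ) :=
    (eventually_all_finset χ.support).2 fun γ _ => h γ
  have h2 : ∀ᶠ g in atTop, ∀ γ ∈ χ'.support, IsCoreVec b R (T₁ g γ) :=
    (eventually_all_finset χ'.support).2 fun γ _ => h' γ
  have h3 : Tendsto (fun g => ∑ γ ∈ χ.support, ∑ γ' ∈ χ'.support,
      (starRingEnd ℂ) (χ γ) * (χ' γ' * ∫ x, ⟪T₀ g γ x, T₁ g γ' x⟫_ℂ)) atTop (𝓝 0) := by
    have h4 := tendsto_finsetSum χ.support fun γ _ => tendsto_finsetSum χ'.support fun γ' _ =>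
      ((ho γ γ').const_mul (χ' γ')).const_mul ((starRingEnd ℂ) (χ γ))
    simpa using h4
  refine h3.congr' ?_
  filter_upwards [h1, h2] with g hg hg'
  have e2 : ∀ x, ⟪TF T₀ g χ x, TF T₁ g χ' x⟫_ℂ = ∑ γ ∈ χ.support, ∑ γ' ∈ χ'.support,
      (starRingEnd ℂ) (χ γ) * (χ' γ' * ⟪T₀ g γ x, T₁ g γ' x⟫_ℂ) := by
    intro x
    rw [TF_eq, TF_eq, sum_inner]
    refine Finset.sum_congr rfl fun γ _ => ?_
    rw [inner_sum]
    refine Finset.sum_congr rfl fun γ' _ => ?_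
    rw [inner_smul_left, inner_smul_right]
  have hI : ∀ γ ∈ χ.support, ∀ γ' ∈ χ'.support, Integrable fun x =>
      (starRingEnd ℂ) (χ γ) * (χ' γ' * ⟪T₀ g γ x, T₁ g γ' x⟫_ℂ) := fun γ hγ γ' hγ' =>
    ((core_inner_int (hg γ hγ) (hg' γ' hγ').1.continuous).const_mul _).const_mul _
  simp only [e2]
  rw [integral_finsetSum _ fun γ hγ => integrable_finsetSum _ fun γ' hγ' => hI γ hγ γ' hγ']
  refine Finset.sum_congr rfl fun γ hγ => ?_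
  rw [integral_finsetSum _ fun γ' hγ' => hI γ hγ γ' hγ']
  refine Finset.sum_congr rfl fun γ' _ => ?_
  rw [integral_const_mul, integral_const_mul]

/-- capture tested by generators gives capture tested by the free modules -/
theorem capFam_gen (m : ℝ) {ι : Type*} {Γ : ι → Type*} {T₀ : ∀ i, ℝ → Γ i → Cfg N → F}
    (h : CapFam b M R G m T₀) :
    CapFam b M R G m (X := fun i => Γ i →₀ ℂ) (fun i => TF (T₀ i)) :=
  fun g φ C hg hφ hE ht r ρ hr => h g φ C hg hφ hE (fun i γ => test_gen (ht i) γ) r ρ hr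

end fam

end Crest.Agent.R330.FreeY399
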