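import Crest.Agent.R330.GBind_984
import Crest.Agent.R330.TCore_944

/-!
# Row 330, S8-GBIND (helper984): covariance and regularity of `Q_X`

* `adC_br`, `adE : Colg N ≃ₗᵢ Colg N`, `kc_act`, `proj_cov`.
* `AXc_cov`, `QX_cov` : `Q_{hX}(hz) = Q_X(z)`; `QX_stab`.
* `contDiffAt_QX` (jointly), `nI` : the fibre integral `∫_{Zs b c} exp(-Q_X)`, smooth and positive.
-/

set_option autoImplicit false
set_option linter.unusedSectionVars false

open MeasureTheory Filter Topology Crest.MathPhysics.MatrixQM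
open Crest.Agent.R330.Frame839 Crest.Agent.R330.LS839 Crest.Agent.R330.Clus839
open Crest.Agent.R330.Bind6839 Crest.Agent.R330.SqrtPD984 Crest.Agent.R330.GPar984
open Crest.Agent.R330.AX984 Crest.Agent.R330.E1984 Crest.Agent.R330.GBind984
open Crest.Agent.R330.SlA314 Crest.Agent.R330.SlB314 Crest.Agent.R330.TCore944
open scoped ContDiff InnerProductSpace

noncomputable section

namespace Crest.Agent.R330.GCov984

variable {N : ℕ} {b : ColorBasis N}

local notation "SU" => Matrix.specialUnitaryGroup (Fin N) ℂ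

/-- the adjoint action preserves the bracket -/
theorem adC_br (k : SU) (u v : Colg N) :
    adC b k ((colAlg b).br u v) = (colAlg b).br (adC b k u) (adC b k v) := by
  have h := congrArg (fun x : Cfg N => comp x 0) (act_actB (b := b) k u (insL 0 v))
  simp only [comp_actg, comp_act] at h
  have h1 : comp (insL (N := N) 0 v) 0 = v := by rw [comp_insL, if_pos rfl]
  rw [h1] at h
  exact h

/-- the adjoint action as an isometry -/
def adE (b : ColorBasis N) (k : SU) : Colg N ≃ₗᵢ[ℝ] Colg N where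
  toLinearEquiv := LinearEquiv.ofLinearMap (adC b k) (adC b k⁻¹)
    (by ext1 v; rw [LinearMap.comp_apply, ← adC_mul, mul_inv_cancel, adC_one, LinearMap.id_apply])
    (by ext1 v; rw [LinearMap.comp_apply, ← adC_mul, inv_mul_cancel, adC_one, LinearMap.id_apply])
  norm_map' v := by
    have h1 : ‖adC b k v‖ ^ 2 = ‖v‖ ^ 2 := by
      rw [← real_inner_self_eq_norm_sq, ← real_inner_self_eq_norm_sq, adC_inner]
    have h2 : ‖adC b k v‖ = ‖v‖ := by
      have := congrArg Real.sqrt h1
      rwa [Real.sqrt_sq (norm_nonneg _), Real.sqrt_sq (norm_nonneg _)] at this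
    exact h2

theorem adE_apply (k : SU) (v : Colg N) : adE b k v = adC b k v := rfl

theorem adE_adX (k : SU) (X : Cfg N) (i : Fin 9) (v : Colg N) :
    adE b k (adX b X i v) = adX b (b.act k X) i (adE b k v) := by
  rw [adE_apply, adE_apply, adX_apply, adX_apply, adC_br, comp_actg]

theorem mem_kc_act (k : SU) (X : Cfg N) (w : Colg N) :
    adE b k w ∈ kc (actB b) (b.act k X) ↔ w ∈ kc (actB b) X := by
  rw [mem_kc_iff', mem_kc_iff']
  constructor
  · intro h i
    have h1 := h i
    rw [← adE_adX] at h1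
    exact (adE b k).map_eq_zero_iff.mp h1
  · intro h i
    rw [← adE_adX, h i, map_zero]

/-- the orthogonal projection is covariant -/
theorem proj_cov (k : SU) (X : Cfg N) (v : Colg N) :
    adE b k ((kc (actB b) X).starProjection v) =
      (kc (actB b) (b.act k X)).starProjection (adE b k v) := by
  symm
  apply Submodule.eq_starProjection_of_mem_of_inner_eq_zero
  · exact (mem_kc_act k X _).mpr (Submodule.starProjection_apply_mem _ _)
  · intro w hw
    obtain ⟨w', rfl⟩ := (adE b k).surjective w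
    rw [mem_kc_act] at hw
    rw [← map_sub, (adE b k).inner_map_map]
    rw [real_inner_comm]
    exact Submodule.inner_right_of_mem_orthogonal hw
      (Submodule.sub_starProjection_mem_orthogonal v)

theorem comc_act (k : SU) {X : Cfg N} (hX : Comc b X) : Comc b (b.act k X) := by
  intro i j
  have h1 : comp (b.act k X) i = adC b k (comp X i) := comp_actg k X i
  have h2 : comp (b.act k X) j = adC b k (comp X j) := comp_actg k X j
  rw [h1, h2, ← adC_br, hX i j, map_zero]

theorem lr_act (k : SU) {X : Cfg N} (hX : Comc b X) (v : Colg N) :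
    adE b k (lr (kc (actB b) X) (adX b X) v) =
      lr (kc (actB b) (b.act k X)) (adX b (b.act k X)) (adE b k v) := by
  obtain ⟨s, hs, h⟩ := exists_fam b hX
  obtain ⟨s', hs', h'⟩ := exists_fam b (comc_act k hX)
  exact h.lr_cov h' hs hs' (adE b k) (fun i v => adE_adX k X i v) (fun v => proj_cov k X v) v

theorem li_act (k : SU) {X : Cfg N} (hX : Comc b X) (v : Colg N) :
    adE b k (li (kc (actB b) X) (adX b X) v) =
      li (kc (actB b) (b.act k X)) (adX b (b.act k X)) (adE b k v) := by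
  obtain ⟨s, hs, h⟩ := exists_fam b hX
  obtain ⟨s', hs', h'⟩ := exists_fam b (comc_act k hX)
  have h1 := lr_act k hX (li (kc (actB b) X) (adX b X) v)
  rw [h.lr_li hs] at h1
  rw [h1, h'.li_lr hs']

/-- covariance of `|r| P_{r^⊥}` -/
theorem AXc_cov (k : SU) {X : Cfg N} (hX : Comc b X) (z : Cfg N) :
    AXc b (kc (actB b) (b.act k X)) (b.act k X) (b.act k z) =
      b.act k (AXc b (kc (actB b) X) X z) := by
  have hdv : tenC.dv (adX b (b.act k X)) (b.act k z) = adE b k (tenC.dv (adX b X) z) := by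
    rw [dv_adX, dv_adX, map_sum]
    refine Finset.sum_congr rfl fun j _ => ?_
    rw [comp_actg, comp_actg, adE_apply, adC_br]
  refine ext_comp fun i => ?_
  rw [comp_actg, ← adE_apply]
  unfold AXc
  rw [← pr_tenC i, ← pr_tenC i, tenC.pr_AX, tenC.pr_AX, map_add, map_sub, lr_act k hX, proj_cov,
    adE_adX, li_act k hX, pr_tenC, pr_tenC, comp_actg, ← adE_apply, hdv]

/-- covariance of the quadratic form -/
theorem QX_cov (k : SU) {X : Cfg N} (hX : Comc b X) (z : Cfg N) :
    QX b (kc (actB b) (b.act k X)) (b.act k X) (b.act k z) = QX b (kc (actB b) X) X z := by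
  unfold QX
  rw [AXc_cov k hX, act_inner]

/-- invariance under the stabiliser -/
theorem QX_stab {k : SU} {X : Cfg N} (hX : Comc b X) (hk : b.act k X = X) (z : Cfg N) :
    QX b (kc (actB b) X) X (b.act k z) = QX b (kc (actB b) X) X z := by
  have h := QX_cov k hX z
  rwa [hk] at h

/-- form consumed by `isInv_two`: for `c`, a set of commuting centre points `X = c + x` with
`kc X = kc c` -/
theorem QX_stab' {k : SU} {c x : Cfg N} (hX : Comc b (c + x))
    (hK : kc (actB b) (c + x) = kc (actB b) c) (hk : b.act k c = c)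
    (hx : x ∈ Tup (cenk b c)) (z : Cfg N) :
    QX b (kc (actB b) c) (c + b.act k x) (b.act k z) = QX b (kc (actB b) c) (c + x) z := by
  have h1 : b.act k (c + x) = c + x := by rw [act_add, hk, cen_fixed hk hx]
  have h2 := QX_stab (k := k) hX h1 z
  rw [hK] at h2
  rw [cen_fixed hk hx]
  exact h2

/-! ## regularity -/

theorem contDiffAt_QX {K : Submodule ℝ (Colg N)} {X : Cfg N} (hX : PD (ll K (adX b X)))
    (z : Cfg N) : ContDiffAt ℝ ∞ (fun p : Cfg N × Cfg N => QX b K p.1 p.2) (X, z) := by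
  have h1 : ContDiffAt ℝ ∞ (fun p : Cfg N × Cfg N => AXc b K p.1) (X, z) :=
    ContDiffAt.comp (X, z) (g := fun Y => AXc b K Y) (f := Prod.fst) (contDiffAt_AXc b hX)
      contDiffAt_fst
  exact (h1.clm_apply contDiffAt_snd).inner ℝ contDiffAt_snd

theorem continuousAt_QX {K : Submodule ℝ (Colg N)} {X : Cfg N} (hX : PD (ll K (adX b X)))
    (z : Cfg N) : ContinuousAt (fun p : Cfg N × Cfg N => QX b K p.1 p.2) (X, z) :=
  (contDiffAt_QX hX z).continuousAt

/-- commuting `X` with `kc X = K` has `ll K (adX X)` positive definite -/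
theorem ll_pd_of_eq {K : Submodule ℝ (Colg N)} {X : Cfg N} (hX : Comc b X)
    (hK : kc (actB b) X = K) : PD (ll K (adX b X)) := by
  obtain ⟨s, hs, h⟩ := fam_of_eq hX hK
  exact h.ll_pd hs

/-- the fibre integral `∫_{Z_c} exp(-Q_X)` -/
def nI (b : ColorBasis N) (c X : Cfg N) : ℝ :=
  ∫ z : Zs b c, Real.exp (-QX b (kc (actB b) c) X z)

theorem nI_eq {c X : Cfg N} (hX : PD (AZ b c X)) :
    nI b c X = Real.pi ^ (Module.finrank ℝ (Zs b c) / 2 : ℝ) *
      (Real.sqrt |dt (psq (AZ b c X))| ^ 2)⁻¹ := by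
  have h1 := integral_exp_quad hX one_pos
  rw [Real.sq_sqrt (abs_nonneg _), ← div_eq_mul_inv, div_one] at *
  rw [← h1]
  unfold nI
  refine integral_congr_ae (ae_of_all _ fun z => ?_)
  simp only
  rw [inner_AZ_self, neg_one_mul]

theorem nI_pos {c X : Cfg N} (hX : PD (AZ b c X)) : 0 < nI b c X := by
  rw [nI_eq hX]
  have h1 : 0 < |dt (psq (AZ b c X))| := abs_pos.mpr (dt_ne_zero (psq_pd hX))
  have h2 : 0 < Real.sqrt |dt (psq (AZ b c X))| := Real.sqrt_pos.mpr h1
  have h3 := Real.pi_pos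
  positivity

theorem contDiffAt_nI {c : Cfg N} (hc : Comc b c) :
    ∀ᶠ X in 𝓝 c, ContDiffAt ℝ ∞ (nI b c) X := by
  obtain ⟨δ, a, K, M, l, hδ, h, hll⟩ := exists_chart b hc
  filter_upwards [Metric.ball_mem_nhds c hδ] with X hX
  have h1 : ∀ᶠ Y in 𝓝 X, Y ∈ Metric.ball c δ := Metric.isOpen_ball.mem_nhds hX
  have h2 := contDiffAt_nrm (m := ∞) (by simp) (contDiffAt_AZ b (hll X hX))
    (eventually_AZ_sy b (hll X hX)) (h.ub X hX).1
  have h3 : Real.sqrt |dt (psq (AZ b c X))| ^ 2 ≠ 0 := by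
    have := Real.sqrt_pos.mpr (abs_pos.mpr (dt_ne_zero (psq_pd (h.ub X hX).1)))
    positivity
  have h4 : ContDiffAt ℝ ∞ (fun Y => Real.pi ^ (Module.finrank ℝ (Zs b c) / 2 : ℝ) *
      (Real.sqrt |dt (psq (AZ b c Y))| ^ 2)⁻¹) X := contDiffAt_const.mul ((h2.pow 2).inv h3)
  refine h4.congr_of_eventuallyEq ?_
  filter_upwards [h1] with Y hY
  exact nI_eq (h.ub Y hY).1

/-- `∫_{Z_c} exp(-g Q_X) = g^{-d/2} nI` -/
theorem integral_exp_nI {g : ℝ} (hg : 0 < g) {c X : Cfg N} (hX : PD (AZ b c X)) :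
    ∫ z : Zs b c, Real.exp (-g * QX b (kc (actB b) c) X z) =
      g ^ (-(Module.finrank ℝ (Zs b c) / 2 : ℝ)) * nI b c X := integral_exp_QX_scale hg hX

/-- `ga = g^{d/4} nI^{-1/2} exp(-g Q_X/2)` -/
theorem ga_eq_nI {g : ℝ} (hg : 0 < g) {c X : Cfg N} (hX : PD (AZ b c X)) (z : Zs b c) :
    ga b c g X z = g ^ (Module.finrank ℝ (Zs b c) / 4 : ℝ) * (Real.sqrt (nI b c X))⁻¹ *
      Real.exp (-(g / 2) * QX b (kc (actB b) c) X z) := by
  rw [ga_eq_div hg hX, integral_exp_nI hg hX]
  congr 1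
  have h1 : (0 : ℝ) ≤ g ^ (-(Module.finrank ℝ (Zs b c) / 2 : ℝ)) := by positivity
  rw [Real.sqrt_mul h1, mul_inv]
  congr 1
  rw [← Real.sqrt_inv, ← Real.rpow_neg hg.le, neg_neg, Real.sqrt_eq_rpow, ← Real.rpow_mul hg.le]
  congr 1
  ring

end Crest.Agent.R330.GCov984
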