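import Crest.Agent.R330.GX_818
import Crest.Agent.R330.LemC_342
import Crest.Agent.R330.LemR2_302
import Crest.Agent.R330.FibQ_581
import Crest.Agent.R330.CapIntC_737
import Crest.Agent.R330.TrialSys_796
import Crest.Agent.R330.CapZA_818

/-!
# Row 330, S9 (helper818): energy bounds of the slice function

* `light_bound` : near a commuting `c`, for `Φ = half b c η φ`, `φ` a core vector:
  `Σ_α ∫ ‖Aop Φ‖² ≤ C (q(φ) + ∫‖φ‖²)`, uniformly in `g ≥ 1`, `0 ≤ m ≤ 1`.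
-/

set_option autoImplicit false
set_option linter.unusedSectionVars false

open MeasureTheory Filter Topology Crest.MathPhysics.MatrixQM
open Crest.Agent.R330.IBP837 Crest.Agent.R330.Defs478 Crest.Agent.R330.Frame839
open Crest.Agent.R330.LS839 Crest.Agent.R330.Clus839 Crest.Agent.R330.Bind6839
open Crest.Agent.R330.SlQE87 Crest.Agent.R330.LemA342 Crest.Agent.R330.LemB342
open Crest.Agent.R330.LemC342
open scoped ContDiff InnerProductSpace ENNReal

noncomputable section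

namespace Crest.Agent.R330.GXB818

variable {N : ℕ} {F : Type*} [NormedAddCommGroup F] [InnerProductSpace ℂ F]
  [FiniteDimensional ℂ F]

theorem contDiff_half {b : ColorBasis N} {c : Cfg N} {η : Sc b c → ℝ} (hη : ContDiff ℝ ∞ η)
    {φ : Cfg N → F} (hφ : ContDiff ℝ ∞ φ) : ContDiff ℝ ∞ (half b c η φ) := by
  have h1 : ContDiff ℝ ∞ fun x : Sc b c => c + (x.1 : Cfg N) + (x.2 : Cfg N) := by
    have h2 : (fun x : Sc b c => c + (x.1 : Cfg N) + (x.2 : Cfg N)) =
        fun x => c + slL b c x := by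
      funext x
      rw [slL_apply, add_assoc]
    rw [h2]
    exact contDiff_const.add (slL b c).contDiff
  exact hη.smul (hφ.comp h1)

theorem compact_half {b : ColorBasis N} {c : Cfg N} {η : Sc b c → ℝ} (hη : HasCompactSupport η)
    (φ : Cfg N → F) : HasCompactSupport (half b c η φ) :=
  hη.smul_right

/-- **The light energy of the slice function.** -/
theorem light_bound [Nontrivial F] {b : ColorBasis N} {M : FermionRep N F} (R : GaugeAction b M)
    (G : GammaNine) {c : Cfg N} (hc : Comc b c) {r B : ℝ} (hr0 : 0 < r)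
    (hr : GapAt (actB b) c r) (hB : ActBound (actB b) B) (hB0 : 0 < B) :
    ∃ s : ℝ, 0 < s ∧ ∀ η : Sc b c → ℝ, ContDiff ℝ ∞ η → HasCompactSupport η →
      (∀ x, s ^ 2 ≤ ‖x.1‖ ^ 2 + ‖x.2‖ ^ 2 → η x = 0) →
      ∀ (ι : Type) [Fintype ι] (e : OrthonormalBasis ι ℝ (Uk b c)), ∃ C : ℝ, 0 ≤ C ∧
        ∀ g m : ℝ, 1 ≤ g → 0 ≤ m → m ≤ 1 → ∀ φ : Cfg N → F, IsCoreVec b R φ →
          ∑ α, ∫ x, ‖Aop b c M G g m α e (half b c η φ) x‖ ^ 2 ≤
            C * (qf b M G g m φ + ∫ x, ‖φ x‖ ^ 2) ∧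
          ∫ x, ‖half b c η φ x‖ ^ 2 ≤ C * (qf b M G g m φ + ∫ x, ‖φ x‖ ^ 2) := by
  obtain ⟨r0, C0, H⟩ := SlM712.exists_SRad (b := b) c
  obtain ⟨s0, hs0, -, -, -, hR2⟩ := LemR2302.R2' R G hc hr0 hr hB hB0 H
  obtain ⟨Γ, hΓ, hv⟩ := FibP581.exists_par b G M hc
  obtain ⟨ρ, hρ, hBρ, K, hK, hFib⟩ := FibQ581.exists_fibPack M G hr0 hr hB hB0.le hc hΓ hv
  have hFib' := hFib.mono (ρ' := ρ / 2) (by linarith)
  refine ⟨min s0 (ρ / 2), lt_min hs0 (by positivity), fun η hη hηc hηs ι _ e => ?_⟩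
  have hs1 : min s0 (ρ / 2) ≤ s0 := min_le_left _ _
  have hs2 : min s0 (ρ / 2) ≤ ρ / 2 := min_le_right _ _
  have hs3 : 0 < min s0 (ρ / 2) := lt_min hs0 (by positivity)
  obtain ⟨C1, hC1, h1⟩ := hR2 η hη hηc fun x hx =>
    hηs x ((pow_le_pow_left₀ hs3.le hs1 2).trans hx)
  haveI i1 : ((volume : Measure (Uk b c)).prod (volume : Measure (Zs b c))).IsAddHaarMeasure :=
    Measure.prod.instIsAddHaarMeasure _ _
  obtain ⟨C2, hC2, h2⟩ := out_of ((volume : Measure (Uk b c)).prod (volume : Measure (Zs b c))) hr0 hr hB hB0.le hc M G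
    hΓ e (stdOrthonormalBasis ℝ (Zs b c)) (stdOrthonormalBasis ℝ (Tn (actB b) c))
    (ρ := ρ / 2) (ρ' := ρ) (by positivity) (by linarith) hBρ hK
  refine ⟨C2 * C1, by positivity, fun g m hg hm hm1 φ hφ => ?_⟩
  obtain ⟨h3, h4⟩ := h1 g m hg hm hm1 φ hφ
  have h5 := h3 ι _ _ e (stdOrthonormalBasis ℝ (Zs b c)) (stdOrthonormalBasis ℝ (Tn (actB b) c))
  have hq0 : 0 ≤ qf b M G g m φ := CapZA818.qf_nonneg' b M G _ _ _
  have hO := h2 g m (by linarith)
    (hFib'.odd _ _ (stdOrthonormalBasis ℝ (Zs b c)) (stdOrthonormalBasis ℝ (Tn (actB b) c)) g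
      (by linarith) volume)
    (half b c η φ) (C1 * (qf b M G g m φ + ∫ x, ‖φ x‖ ^ 2))
    ((contDiff_half hη hφ.1).of_le (by norm_cast)) (compact_half hηc φ)
    (fun x hx => by
      unfold half
      rw [hηs x, zero_smul]
      have h6 : min s0 (ρ / 2) ^ 2 ≤ ‖x.1‖ ^ 2 :=
        pow_le_pow_left₀ hs3.le (hs2.trans hx.le) 2
      nlinarith [sq_nonneg ‖x.2‖])
    h5 (h4.trans (mul_le_mul_of_nonneg_left (by linarith) hC1))
  refine ⟨?_, ?_⟩
  · have := hO.sA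
    rw [← mul_assoc] at this
    exact this
  · have := hO.s0
    rw [← mul_assoc] at this
    exact this

end Crest.Agent.R330.GXB818

end
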