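import Crest.Agent.R330.H6_596

/-!
# Row 330, S9 capture (H6) part (i), the bound (helper596)

* `cen_blk_le`, `cen_blk_sum_le` : the two parts are bounded by `Aop`, up to `m² ‖c + x.1‖² ‖Φ‖²`.
-/

set_option autoImplicit false
set_option linter.unusedSectionVars false

open MeasureTheory Filter Topology Crest.MathPhysics.MatrixQM
open scoped ContDiff InnerProductSpace ENNReal

noncomputable section

namespace Crest.Agent.R330.H6596

open Crest.Agent.R330.Defs478 Crest.Agent.R330.LS839 Crest.Agent.R330.Frame839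
  Crest.Agent.R330.Bind6839 Crest.Agent.R330.IBP837 Crest.Agent.R330.TDef414
  Crest.Agent.R330.PairT245 Crest.Agent.R330.LemA342 Crest.Agent.R330.Decoup924
  Crest.Agent.R330.BlkSplit837 Crest.Agent.R330.BlkSplit837.EmbFam

variable {N p : ℕ} {b : ColorBasis N} {S : Type} [Group S] [Fintype S] {C : Chn b p S}
  {X0 : Pos p}
  {F : Type*} [NormedAddCommGroup F] [InnerProductSpace ℂ F] [FiniteDimensional ℂ F]
  {M : FermionRep N F} {G : GammaNine} {g m : ℝ} {α : Fin 16}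

theorem norm_Wl_le (x : Cfg N) (v : F) : ‖Wl M G α x v‖ ≤ ‖Wl M G α‖ * ‖x‖ * ‖v‖ :=
  ContinuousLinearMap.le_opNorm₂ _ x v

variable (M G) in
/-- the constant of `cen_blk_sum_le` -/
def KW : ℝ := 2 * ∑ α, ‖Wl M G α‖ ^ 2

theorem KW_nonneg : 0 ≤ KW M G := by unfold KW; positivity

/-- abstract form of the bound -/
theorem bound_aux {E : Type*} [NormedAddCommGroup E] [NormedSpace ℝ E] [FiniteDimensional ℝ E]
    [MeasurableSpace E] [BorelSpace E] {μ : Measure E} [μ.IsAddHaarMeasure]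
    {A O W : E → F} {r : E → ℝ} {K : ℝ} (cO : Continuous O) (sO : HasCompactSupport O)
    (cA : Continuous A) (sA : HasCompactSupport A) (cr : Continuous r) (sr : HasCompactSupport r)
    (hA : ∀ x, A x = O x + W x) (hW : ∀ x, ‖W x‖ ^ 2 ≤ K * r x) :
    ∫ x, ‖A x‖ ^ 2 ∂μ ≤ 2 * ∫ x, ‖O x‖ ^ 2 ∂μ + 2 * K * ∫ x, r x ∂μ := by
  have iO : Integrable (fun x => ‖O x‖ ^ 2) μ :=
    (cO.norm.pow 2).integrable_of_hasCompactSupport
      (sO.mono' fun x hx => subset_tsupport _ (by intro h; apply hx; simp [h]))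
  have iS : Integrable (fun x => ‖A x‖ ^ 2) μ :=
    (cA.norm.pow 2).integrable_of_hasCompactSupport
      (sA.mono' fun x hx => subset_tsupport _ (by intro h; apply hx; simp [h]))
  have iR : Integrable r μ := cr.integrable_of_hasCompactSupport sr
  rw [← integral_const_mul, ← integral_const_mul, ← integral_add (iO.const_mul _)
    (iR.const_mul _)]
  refine integral_mono iS ((iO.const_mul _).add (iR.const_mul _)) fun x => ?_
  change ‖A x‖ ^ 2 ≤ 2 * ‖O x‖ ^ 2 + 2 * K * r x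
  have h1 : ‖A x‖ ≤ ‖O x‖ + ‖W x‖ := by rw [hA]; exact norm_add_le _ _
  have h2 := hW x
  have h3 : ‖A x‖ ^ 2 ≤ (‖O x‖ + ‖W x‖) ^ 2 := by gcongr
  nlinarith [sq_nonneg (‖O x‖ - ‖W x‖)]

section integrals

variable {μ : Measure (Sc b (C.cf X0))} [μ.IsAddHaarMeasure]

theorem cont_c : Continuous fun x : Sc b (C.cf X0) => C.cf X0 + (x.1 : Cfg N) :=
  continuous_const.add (continuous_subtype_val.comp continuous_fst)

theorem cont_W {Φ : Sc b (C.cf X0) → F} (hΦ : Continuous Φ) :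
    Continuous fun x : Sc b (C.cf X0) => Wl M G α (C.cf X0 + x.1) (Φ x) :=
  ((Wl M G α).continuous.comp cont_c).clm_apply hΦ

theorem hcs_W {Φ : Sc b (C.cf X0) → F} (hc : HasCompactSupport Φ) :
    HasCompactSupport fun x : Sc b (C.cf X0) => Wl M G α (C.cf X0 + x.1) (Φ x) :=
  hc.mono' fun x hx => subset_tsupport _ (by intro h; apply hx; simp [h])

theorem cont_Aop {ι : Type*} [Fintype ι] (h0 : C.Reg X0)
    (e : OrthonormalBasis ι ℝ (Uk b (C.cf X0))) {Φ : Sc b (C.cf X0) → F} (hΦ : ContDiff ℝ 2 Φ) :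
    Continuous (Aop b (C.cf X0) M G g m α e Φ) := by
  have h1 : Aop b (C.cf X0) M G g m α e Φ = fun x =>
      Acen M G h0 α Φ x + Ablk M G h0 g α Φ x - m • Wl M G α (C.cf X0 + x.1) (Φ x) :=
    funext fun x => Aop_eq h0 e Φ x
  rw [h1]
  exact ((contDiff_Acen (k := 1) h0 (by norm_num) hΦ).continuous.add
    (contDiff_Ablk (k := 1) h0 (by norm_num) hΦ).continuous).sub
      ((cont_W hΦ.continuous).const_smul m)

theorem hcs_Aop {ι : Type*} [Fintype ι] (e : OrthonormalBasis ι ℝ (Uk b (C.cf X0)))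
    {Φ : Sc b (C.cf X0) → F} (hc : HasCompactSupport Φ) :
    HasCompactSupport (Aop b (C.cf X0) M G g m α e Φ) := by
  refine hc.mono' fun x hx => ?_
  by_contra h0
  apply hx
  have h1 : Φ =ᶠ[𝓝 x] 0 := notMem_tsupport_iff_eventuallyEq.mp h0
  have h2 : fderiv ℝ Φ x = 0 := by
    rw [h1.fderiv_eq]; simp
  have h3 : Φ x = 0 := h1.eq_of_nhds
  simp [Aop, h2, h3]

theorem W_bound {Φ : Sc b (C.cf X0) → F} (x : Sc b (C.cf X0)) :
    ‖m • Wl M G α (C.cf X0 + x.1) (Φ x)‖ ^ 2 ≤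
      ‖Wl M G α‖ ^ 2 * m ^ 2 * (‖C.cf X0 + x.1‖ ^ 2 * ‖Φ x‖ ^ 2) := by
  have h1 : ‖m • Wl M G α (C.cf X0 + x.1) (Φ x)‖ ≤
      |m| * (‖Wl M G α‖ * ‖C.cf X0 + x.1‖ * ‖Φ x‖) := by
    rw [norm_smul, Real.norm_eq_abs]
    exact mul_le_mul_of_nonneg_left (norm_Wl_le _ _) (abs_nonneg _)
  calc ‖m • Wl M G α (C.cf X0 + x.1) (Φ x)‖ ^ 2
      ≤ (|m| * (‖Wl M G α‖ * ‖C.cf X0 + x.1‖ * ‖Φ x‖)) ^ 2 :=
        pow_le_pow_left₀ (norm_nonneg _) h1 2
    _ = _ := by rw [mul_pow, sq_abs]; ring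

theorem cen_blk_le {ι : Type*} [Fintype ι] (h0 : C.Reg X0)
    (e : OrthonormalBasis ι ℝ (Uk b (C.cf X0))) {Φ : Sc b (C.cf X0) → F} (hΦ : ContDiff ℝ 2 Φ)
    (hc : HasCompactSupport Φ) :
    ∫ x, ‖Acen M G h0 α Φ x‖ ^ 2 ∂μ + ∫ x, ‖Ablk M G h0 g α Φ x‖ ^ 2 ∂μ ≤
      2 * ∫ x, ‖Aop b (C.cf X0) M G g m α e Φ x‖ ^ 2 ∂μ +
        2 * (‖Wl M G α‖ ^ 2 * m ^ 2) * ∫ x, ‖C.cf X0 + x.1‖ ^ 2 * ‖Φ x‖ ^ 2 ∂μ := by
  rw [← cen_blk_eq h0 hΦ hc]
  refine bound_aux (μ := μ) (A := fun x => Acen M G h0 α Φ x + Ablk M G h0 g α Φ x)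
    (O := Aop b (C.cf X0) M G g m α e Φ)
    (W := fun x => m • Wl M G α (C.cf X0 + x.1) (Φ x))
    (r := fun x => ‖C.cf X0 + x.1‖ ^ 2 * ‖Φ x‖ ^ 2) (K := ‖Wl M G α‖ ^ 2 * m ^ 2)
    (cont_Aop h0 e hΦ) (hcs_Aop e hc)
    ((contDiff_Acen (k := 1) h0 (by norm_num) hΦ).continuous.add
      (contDiff_Ablk (k := 1) h0 (by norm_num) hΦ).continuous)
    ((hcs_Acen h0 hc).add (hcs_Ablk h0 hc))
    ((cont_c.norm.pow 2).mul (hΦ.continuous.norm.pow 2))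
    (hc.mono' fun x hx => subset_tsupport _ (by intro h; apply hx; simp [h]))
    (fun x => ?_) (fun x => W_bound x)
  rw [Aop_eq h0 e Φ x]
  abel

/-- **(H6)(i).** -/
theorem cen_blk_sum_le {ι : Type*} [Fintype ι] (h0 : C.Reg X0)
    (e : OrthonormalBasis ι ℝ (Uk b (C.cf X0))) {Φ : Sc b (C.cf X0) → F} (hΦ : ContDiff ℝ 2 Φ)
    (hc : HasCompactSupport Φ) :
    ∑ α, ∫ x, ‖Acen M G h0 α Φ x‖ ^ 2 ∂μ + ∑ α, ∫ x, ‖Ablk M G h0 g α Φ x‖ ^ 2 ∂μ ≤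
      2 * ∑ α, ∫ x, ‖Aop b (C.cf X0) M G g m α e Φ x‖ ^ 2 ∂μ +
        KW M G * m ^ 2 * ∫ x, ‖C.cf X0 + x.1‖ ^ 2 * ‖Φ x‖ ^ 2 ∂μ := by
  rw [← Finset.sum_add_distrib]
  refine (Finset.sum_le_sum fun α _ => cen_blk_le (g := g) (m := m) h0 e hΦ hc).trans
    (le_of_eq ?_)
  unfold KW
  rw [Finset.sum_add_distrib, ← Finset.mul_sum, ← Finset.sum_mul]
  congr 1
  rw [← Finset.mul_sum, ← Finset.sum_mul]
  ring

end integrals

end Crest.Agent.R330.H6596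

end
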