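import Crest.Agent.R330.GXB_818
import Crest.Agent.R330.H6B_596

/-!
# Row 330, S9 (helper818): GX, the centre gradient bound for core vectors

* `gx` : `8 Σ_q ∫‖∂_qΦ‖² ≤ 2 Σ_α∫‖Aop Φ‖² + K m² ∫‖c + x.1‖²‖Φ‖²`.
* `grad_bound` : for `Φ = half b c η φ`, `c = C.cf X0`, `X0` regular, `η` smooth with small support,
  `φ` a core vector: `Σ_q ∫‖∂_qΦ‖² + ∫‖Φ‖² ≤ K (q(φ) + ∫‖φ‖²)`, uniformly in `g ≥ 1`,
  `0 ≤ m ≤ 1`.
-/

set_option autoImplicit false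
set_option linter.unusedSectionVars false

open MeasureTheory Filter Topology Crest.MathPhysics.MatrixQM
open Crest.Agent.R330.IBP837 Crest.Agent.R330.Defs478 Crest.Agent.R330.Frame839
open Crest.Agent.R330.LS839 Crest.Agent.R330.Clus839 Crest.Agent.R330.Bind6839
open Crest.Agent.R330.SlQE87 Crest.Agent.R330.LemA342 Crest.Agent.R330.LemB342
open Crest.Agent.R330.LemC342 Crest.Agent.R330.TDef414 Crest.Agent.R330.H6596
open scoped ContDiff InnerProductSpace ENNReal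

noncomputable section

namespace Crest.Agent.R330.GXB818

variable {N p : ℕ} {b : ColorBasis N} {S : Type} [Group S] [Fintype S] {C : Chn b p S}
  {F : Type*} [NormedAddCommGroup F] [InnerProductSpace ℂ F] [FiniteDimensional ℂ F]
  {M : FermionRep N F} {G : GammaNine} {X0 : Pos p}

/-- **GX.** -/
theorem gx {μ : Measure (Sc b (C.cf X0))} [μ.IsAddHaarMeasure] {ι : Type*} [Fintype ι]
    (h0 : C.Reg X0) (g m : ℝ) (e : OrthonormalBasis ι ℝ (Uk b (C.cf X0)))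
    {Φ : Sc b (C.cf X0) → F} (hΦ : ContDiff ℝ 2 Φ) (hc : HasCompactSupport Φ) :
    8 * ∑ q, ∫ x, ‖fderiv ℝ Φ x (dC h0 q, 0)‖ ^ 2 ∂μ ≤
      2 * ∑ α, ∫ x, ‖Aop b (C.cf X0) M G g m α e Φ x‖ ^ 2 ∂μ +
        KW M G * m ^ 2 * ∫ x, ‖C.cf X0 + x.1‖ ^ 2 * ‖Φ x‖ ^ 2 ∂μ := by
  have h1 := cen_blk_sum_le (μ := μ) (M := M) (G := G) (g := g) (m := m) h0 e hΦ hc
  have h2 : ∑ α, ∫ x, ‖Acen M G h0 α Φ x‖ ^ 2 ∂μ =
      8 * ∫ x, ∑ q, ‖fderiv ℝ Φ x (dC h0 q, 0)‖ ^ 2 ∂μ :=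
    GX818.gx_cen C M G (fun q => (dC h0 q, 0)) hΦ hc
  have h3 : ∫ x, ∑ q, ‖fderiv ℝ Φ x (dC h0 q, 0)‖ ^ 2 ∂μ =
      ∑ q, ∫ x, ‖fderiv ℝ Φ x (dC h0 q, 0)‖ ^ 2 ∂μ := by
    refine integral_finsetSum _ fun q _ => ?_
    have h4 := (GX818.int_pair (μ := μ) hΦ hc (LinearMap.id : F →ₗ[ℂ] F) LinearMap.id
      (dC h0 q, 0) (dC h0 q, 0)).re
    refine h4.congr (ae_of_all _ fun x => ?_)
    simp only [LinearMap.id_coe, id_eq]
    exact inner_self_eq_norm_sq (𝕜 := ℂ) _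
  have h5 : 0 ≤ ∑ α, ∫ x, ‖Ablk M G h0 g α Φ x‖ ^ 2 ∂μ :=
    Finset.sum_nonneg fun α _ => integral_nonneg fun x => sq_nonneg _
  rw [← h3, ← h2]
  linarith

/-- **The centre gradient bound for core vectors.** -/
theorem grad_bound (R : GaugeAction b M) (G : GammaNine) (h0 : C.Reg X0) {r B : ℝ}
    (hr0 : 0 < r) (hr : GapAt (actB b) (C.cf X0) r) (hB : ActBound (actB b) B) (hB0 : 0 < B) :
    ∃ s : ℝ, 0 < s ∧ ∀ η : Sc b (C.cf X0) → ℝ, ContDiff ℝ ∞ η → HasCompactSupport η →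
      (∀ x, s ^ 2 ≤ ‖x.1‖ ^ 2 + ‖x.2‖ ^ 2 → η x = 0) →
      ∃ K : ℝ, 0 ≤ K ∧ ∀ g m : ℝ, 1 ≤ g → 0 ≤ m → m ≤ 1 → ∀ φ : Cfg N → F, IsCoreVec b R φ →
        ∑ q, ∫ x, ‖fderiv ℝ (half b (C.cf X0) η φ) x (dC h0 q, 0)‖ ^ 2 ≤
          K * (qf b M G g m φ + ∫ x, ‖φ x‖ ^ 2) ∧
        ∫ x, ‖half b (C.cf X0) η φ x‖ ^ 2 ≤ K * (qf b M G g m φ + ∫ x, ‖φ x‖ ^ 2) := by
  have hcm : Comc b (C.cf X0) := fun i j => by
    rw [C.comp_cf, C.comp_cf]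
    exact C.cen_comm _ _ (C.cen_mem _)
  rcases subsingleton_or_nontrivial F with hF | hF
  · refine ⟨1, one_pos, fun η _ _ _ => ⟨0, le_rfl, fun g m _ _ _ φ _ => ?_⟩⟩
    have hz : ∀ v : F, ‖v‖ = 0 := fun v => by rw [Subsingleton.elim v 0, norm_zero]
    simp [hz]
  obtain ⟨s, hs, H⟩ := light_bound R G hcm hr0 hr hB hB0
  refine ⟨s, hs, fun η hη hηc hηs => ?_⟩
  obtain ⟨K, hK, hKb⟩ := H η hη hηc hηs _ (stdOrthonormalBasis ℝ (Uk b (C.cf X0)))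
  set L : ℝ := ‖C.cf X0‖ + s with hL
  have hL0 : 0 ≤ L := by positivity
  have i1 : ((volume : Measure (Uk b (C.cf X0))).prod
      (volume : Measure (Zs b (C.cf X0)))).IsAddHaarMeasure :=
    Measure.prod.instIsAddHaarMeasure _ _
  have hKW : 0 ≤ KW M G := by
    unfold KW
    positivity
  refine ⟨(2 * K + KW M G * (L ^ 2 * K)) + K, by positivity,
    fun g m hg hm hm1 φ hφ => ?_⟩
  obtain ⟨h1, h2⟩ := hKb g m hg hm hm1 φ hφ
  have hq0 : 0 ≤ qf b M G g m φ := CapZA818.qf_nonneg' b M G _ _ _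
  have hn0 : 0 ≤ ∫ x, ‖φ x‖ ^ 2 := integral_nonneg fun _ => sq_nonneg _
  set E : ℝ := qf b M G g m φ + ∫ x, ‖φ x‖ ^ 2 with hE
  have hE0 : 0 ≤ E := by positivity
  have hΦ : ContDiff ℝ 2 (half b (C.cf X0) η φ) := (contDiff_half hη hφ.1).of_le (by norm_cast)
  have hΦc : HasCompactSupport (half b (C.cf X0) η φ) := compact_half hηc φ
  have h3 := gx (μ := (volume : Measure (Uk b (C.cf X0))).prod
    (volume : Measure (Zs b (C.cf X0)))) (M := M) (G := G) h0 g m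
    (stdOrthonormalBasis ℝ (Uk b (C.cf X0))) hΦ hΦc
  have h4 : ∫ x : Sc b (C.cf X0), ‖C.cf X0 + x.1‖ ^ 2 * ‖half b (C.cf X0) η φ x‖ ^ 2 ≤
      L ^ 2 * ∫ x, ‖half b (C.cf X0) η φ x‖ ^ 2 := by
    rw [← integral_const_mul]
    have hi : Integrable (fun x : Sc b (C.cf X0) => L ^ 2 * ‖half b (C.cf X0) η φ x‖ ^ 2)
        ((volume : Measure (Uk b (C.cf X0))).prod (volume : Measure (Zs b (C.cf X0)))) := by
      refine Integrable.const_mul ?_ _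
      refine (hΦ.continuous.norm.pow 2).integrable_of_hasCompactSupport ?_
      exact hΦc.norm.comp_left (g := fun t : ℝ => t ^ 2) (by norm_num)
    refine integral_mono_of_nonneg (ae_of_all _ fun x => by positivity) hi
      (ae_of_all _ fun x => ?_)
    simp only
    by_cases hx : s ^ 2 ≤ ‖x.1‖ ^ 2 + ‖x.2‖ ^ 2
    · have h5 : half b (C.cf X0) η φ x = 0 := by
        unfold half
        rw [hηs x hx, zero_smul]
      rw [h5]
      simp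
    · push Not at hx
      have h6 : ‖x.1‖ ^ 2 < s ^ 2 := by nlinarith [sq_nonneg ‖x.2‖]
      have h7 : ‖x.1‖ < s := lt_of_pow_lt_pow_left₀ 2 hs.le h6
      have h8 : ‖C.cf X0 + (x.1 : Cfg N)‖ ≤ L := (norm_add_le _ _).trans (by
        rw [hL]
        exact add_le_add le_rfl h7.le)
      exact mul_le_mul_of_nonneg_right (pow_le_pow_left₀ (norm_nonneg _) h8 2) (sq_nonneg _)
  have hm2 : m ^ 2 ≤ 1 := pow_le_one₀ hm hm1
  refine ⟨?_, ?_⟩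
  · have h9 : KW M G * m ^ 2 * ∫ x : Sc b (C.cf X0), ‖C.cf X0 + x.1‖ ^ 2 *
        ‖half b (C.cf X0) η φ x‖ ^ 2 ≤ KW M G * (L ^ 2 * (K * E)) := by
      have h10 : 0 ≤ ∫ x : Sc b (C.cf X0), ‖C.cf X0 + x.1‖ ^ 2 *
          ‖half b (C.cf X0) η φ x‖ ^ 2 := integral_nonneg fun x => by positivity
      calc KW M G * m ^ 2 * ∫ x : Sc b (C.cf X0), ‖C.cf X0 + x.1‖ ^ 2 *
            ‖half b (C.cf X0) η φ x‖ ^ 2
          ≤ KW M G * 1 * ∫ x : Sc b (C.cf X0), ‖C.cf X0 + x.1‖ ^ 2 *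
            ‖half b (C.cf X0) η φ x‖ ^ 2 := by gcongr
        _ ≤ KW M G * (L ^ 2 * (K * E)) := by
          rw [mul_one]
          refine mul_le_mul_of_nonneg_left (h4.trans ?_) hKW
          exact mul_le_mul_of_nonneg_left h2 (sq_nonneg _)
    have h11 : 0 ≤ ∑ q, ∫ x, ‖fderiv ℝ (half b (C.cf X0) η φ) x (dC h0 q, 0)‖ ^ 2 :=
      Finset.sum_nonneg fun q _ => integral_nonneg fun x => sq_nonneg _
    have h12 : 8 * ∑ q, ∫ x, ‖fderiv ℝ (half b (C.cf X0) η φ) x (dC h0 q, 0)‖ ^ 2 ≤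
        2 * (K * E) + KW M G * (L ^ 2 * (K * E)) := by
      refine h3.trans (add_le_add ?_ h9)
      exact mul_le_mul_of_nonneg_left h1 (by norm_num)
    have h13 : 0 ≤ K * E := mul_nonneg hK hE0
    nlinarith
  · have h13 : 0 ≤ K * E := mul_nonneg hK hE0
    have h14 : 0 ≤ KW M G * (L ^ 2 * K) * E := by positivity
    nlinarith

end Crest.Agent.R330.GXB818

end
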