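import Crest.Agent.R330.FA_416
import Mathlib.Analysis.Fourier.AddCircle

/-!
# Row 330 (helper967): the abstract assembly of the gap

`V` : core, `ι : V → H` (wave functions in `L²`), `T : V → V` (Hamiltonian on the core).

* `Circ ι T P` : the Fourier projections `P n`, `n ∈ ℤ`, of a circle action commuting with `T`.
* `circ_of_group` : `Circ` from a periodic one-parameter group of isometries of the core and the
  weak integral formula for `P n`.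
* `Circ.form_nonneg` : positivity of `⟨φ, T φ⟩ - δ ‖φ‖²` from the weight spaces.
* `gap_of_weight` : the gap from the weight zero sector, the complement, and density of
  `(1 + T) V`.
-/

set_option autoImplicit false
set_option linter.unusedSectionVars false

open Filter Topology Set MeasureTheory
open scoped InnerProductSpace

noncomputable section

namespace Crest.Agent.R330.GapAbs967

open Crest.Agent.R330.FA416

variable {V H H' : Type*} [AddCommGroup V] [Module ℂ V]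
  [NormedAddCommGroup H] [InnerProductSpace ℂ H]
  [NormedAddCommGroup H'] [InnerProductSpace ℂ H']

/-! ## 1. Fourier projections of a circle action -/

/-- The Fourier projections of a circle action on the core, commuting with `T`. -/
structure Circ (ι : V →ₗ[ℂ] H) (T : V →ₗ[ℂ] V) (P : ℤ → V →ₗ[ℂ] V) : Prop where
  symm : ∀ n φ ψ, ⟪ι (P n φ), ι ψ⟫_ℂ = ⟪ι φ, ι (P n ψ)⟫_ℂ
  idem : ∀ n φ, P n (P n φ) = P n φ
  comm : ∀ n φ, P n (T φ) = T (P n φ)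
  sum : ∀ φ, HasSum (fun n => ‖ι (P n φ)‖ ^ 2) (‖ι φ‖ ^ 2)

variable {ι : V →ₗ[ℂ] H} {T : V →ₗ[ℂ] V} {P : ℤ → V →ₗ[ℂ] V}

theorem re_inner_eq (x y : H) : (⟪x, y⟫_ℂ).re = (‖x + y‖ ^ 2 - ‖x - y‖ ^ 2) / 4 := by
  have h1 := norm_add_sq (𝕜 := ℂ) x y
  have h2 := norm_sub_sq (𝕜 := ℂ) x y
  simp only [RCLike.re_to_complex] at h1 h2
  rw [h1, h2]
  ring

/-- The polarised completeness relation. -/
theorem Circ.sum_re (h : Circ ι T P) (φ ψ : V) :
    HasSum (fun n => (⟪ι (P n φ), ι (P n ψ)⟫_ℂ).re) (⟪ι φ, ι ψ⟫_ℂ).re := by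
  have h1 := ((h.sum (φ + ψ)).sub (h.sum (φ - ψ))).div_const 4
  simp only [map_add, map_sub] at h1
  simp only [re_inner_eq]
  exact h1

/-- The form `⟨φ, T φ⟩ - δ ‖φ‖²`. -/
def K (ι : V →ₗ[ℂ] H) (T : V →ₗ[ℂ] V) (δ : ℝ) (φ : V) : ℝ :=
  (⟪ι φ, ι (T φ)⟫_ℂ).re - δ * ‖ι φ‖ ^ 2

theorem Circ.sum_K (h : Circ ι T P) (δ : ℝ) (φ : V) :
    HasSum (fun n => K ι T δ (P n φ)) (K ι T δ φ) := by
  have h1 := (h.sum_re φ (T φ)).sub ((h.sum φ).mul_left δ)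
  simp only [h.comm] at h1
  exact h1

theorem Circ.K_nonneg (h : Circ ι T P) {δ : ℝ} {φ : V} (h0 : ∀ n, 0 ≤ K ι T δ (P n φ)) :
    0 ≤ K ι T δ φ := (h.sum_K δ φ).nonneg h0

/-- Positivity of the form from the weight spaces of four commuting circles. -/
theorem K_nonneg_four {P1 P2 P3 P4 : ℤ → V →ₗ[ℂ] V} (h1 : Circ ι T P1) (h2 : Circ ι T P2)
    (h3 : Circ ι T P3) (h4 : Circ ι T P4) {δ : ℝ} {φ : V}
    (h0 : ∀ n1 n2 n3 n4 : ℤ, 0 ≤ K ι T δ (P4 n4 (P3 n3 (P2 n2 (P1 n1 φ))))) :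
    0 ≤ K ι T δ φ :=
  h1.K_nonneg fun n1 => h2.K_nonneg fun n2 => h3.K_nonneg fun n3 => h4.K_nonneg fun n4 =>
    h0 n1 n2 n3 n4

/-! ## 2. `Circ` from a periodic one-parameter group -/

section group

/-- A periodic continuous function as a continuous function on the circle. -/
def circ {p : ℝ} (f : ℝ → ℂ) (hf : Continuous f) (hp : Function.Periodic f p) :
    C(AddCircle p, ℂ) :=
  ⟨hp.lift, continuous_coinduced_dom.2 hf⟩

theorem circ_coe {p : ℝ} (f : ℝ → ℂ) (hf : Continuous f) (hp : Function.Periodic f p) (t : ℝ) :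
    circ f hf hp (t : AddCircle p) = f t := rfl

/-- the character `e^{2 π i n t / p}` -/
def ch (p : ℝ) (n : ℤ) (t : ℝ) : ℂ := Complex.exp (2 * Real.pi * Complex.I * n * t / p)

theorem ch_cont (p : ℝ) (n : ℤ) : Continuous (ch p n) := by
  unfold ch
  fun_prop

theorem ch_add (p : ℝ) (n : ℤ) (s t : ℝ) : ch p n (s + t) = ch p n s * ch p n t := by
  unfold ch
  rw [← Complex.exp_add]
  congr 1
  push_cast
  ring

theorem ch_neg (p : ℝ) (n : ℤ) (t : ℝ) : ch p n (-t) = ch p (-n) t := by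
  unfold ch
  congr 1
  push_cast
  ring

theorem ch_zero (p : ℝ) (n : ℤ) : ch p n 0 = 1 := by simp [ch]

theorem ch_zero' (p : ℝ) (t : ℝ) : ch p 0 t = 1 := by simp [ch]

theorem ch_add' (p : ℝ) (n m : ℤ) (t : ℝ) : ch p (n + m) t = ch p n t * ch p m t := by
  unfold ch
  rw [← Complex.exp_add]
  congr 1
  push_cast
  ring

theorem ch_conj (p : ℝ) (n : ℤ) (t : ℝ) : (starRingEnd ℂ) (ch p n t) = ch p (-n) t := by
  unfold ch
  rw [← Complex.exp_conj]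
  congr 1
  simp only [map_mul, map_div₀, Complex.conj_I, Complex.conj_ofReal, map_ofNat, map_intCast]
  push_cast
  ring

theorem ch_period {p : ℝ} (hp : p ≠ 0) (n : ℤ) : Function.Periodic (ch p n) p := by
  intro t
  rw [ch_add]
  have : ch p n p = 1 := by
    unfold ch
    rw [Complex.exp_eq_one_iff]
    refine ⟨n, ?_⟩
    have hp' : (p : ℂ) ≠ 0 := by exact_mod_cast hp
    field_simp
  rw [this, mul_one]

/-- The mean over a period. -/
def mean (p : ℝ) (f : ℝ → ℂ) : ℂ := (1 / (p : ℂ)) * ∫ t in (0 : ℝ)..p, f t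

theorem mean_shift {p : ℝ} {f : ℝ → ℂ} (hf : Function.Periodic f p) (s : ℝ) :
    mean p (fun t => f (t + s)) = mean p f := by
  unfold mean
  congr 1
  rw [intervalIntegral.integral_comp_add_right (fun t => f t) s, zero_add, add_comm p s]
  exact (hf.intervalIntegral_add_eq s 0).trans (by rw [zero_add])

theorem mean_neg {p : ℝ} {f : ℝ → ℂ} (hf : Function.Periodic f p) :
    mean p (fun t => f (-t)) = mean p f := by
  unfold mean
  congr 1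
  rw [intervalIntegral.integral_comp_neg (fun t => f t), neg_zero]
  have := hf.intervalIntegral_add_eq (-p) 0
  rw [neg_add_cancel, zero_add] at this
  exact this

theorem mean_conj (p : ℝ) (f : ℝ → ℂ) :
    (starRingEnd ℂ) (mean p f) = mean p (fun t => (starRingEnd ℂ) (f t)) := by
  unfold mean
  rw [map_mul, ← intervalIntegral.intervalIntegral_conj]
  simp

theorem mean_mul_left (p : ℝ) (c : ℂ) (f : ℝ → ℂ) : mean p (fun t => c * f t) = c * mean p f := by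
  unfold mean
  rw [intervalIntegral.integral_const_mul]
  ring

theorem mean_mul_right (p : ℝ) (c : ℂ) (f : ℝ → ℂ) : mean p (fun t => f t * c) = mean p f * c := by
  unfold mean
  rw [intervalIntegral.integral_mul_const]
  ring

theorem mean_one {p : ℝ} (hp : p ≠ 0) : mean p (fun _ => 1) = 1 := by
  unfold mean
  have hp' : (p : ℂ) ≠ 0 := by exact_mod_cast hp
  simp [hp']

theorem mean_ch {p : ℝ} (hp : p ≠ 0) {n : ℤ} (hn : n ≠ 0) : mean p (ch p n) = 0 := by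
  -- shift invariance
  have h1 : ∀ s : ℝ, mean p (ch p n) = ch p n s * mean p (ch p n) := fun s => by
    conv_lhs => rw [← mean_shift (ch_period hp n) s]
    rw [← mean_mul_left]
    congr 1
    funext t
    rw [ch_add, mul_comm]
  have h2 := h1 (p / (2 * n))
  have h3 : ch p n (p / (2 * n)) = -1 := by
    unfold ch
    have e : (2 * (Real.pi : ℂ) * Complex.I * n * ((p / (2 * n) : ℝ) : ℂ) / p) =
        Real.pi * Complex.I := by
      have hp' : (p : ℂ) ≠ 0 := by exact_mod_cast hp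
      have hn' : (n : ℂ) ≠ 0 := by exact_mod_cast hn
      push_cast
      field_simp
    rw [e, Complex.exp_pi_mul_I]
  rw [h3] at h2
  have h4 : (2 : ℂ) * mean p (ch p n) = 0 := by linear_combination h2
  exact (mul_eq_zero.1 h4).resolve_left two_ne_zero

/-- The scalar Fourier series at the origin. -/
theorem hasSum_fourier {p : ℝ} (hp : 0 < p) {f : ℝ → ℂ} (hf : Continuous f)
    (hper : Function.Periodic f p)
    (hs : Summable fun n : ℤ => mean p (fun t => ch p (-n) t * f t)) :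
    HasSum (fun n : ℤ => mean p (fun t => ch p (-n) t * f t)) (f 0) := by
  have : Fact (0 < p) := ⟨hp⟩
  have e : ∀ n : ℤ, fourierCoeff (circ f hf hper : AddCircle p → ℂ) n =
      mean p (fun t => ch p (-n) t * f t) := by
    intro n
    rw [fourierCoeff_eq_intervalIntegral _ n 0, zero_add]
    unfold mean
    rw [Complex.real_smul]
    congr 1
    · push_cast
      rfl
    · refine intervalIntegral.integral_congr fun t _ => ?_
      show (fourier (-n)) ((t : ℝ) : AddCircle p) • circ f hf hper ((t : ℝ) : AddCircle p) = _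
      rw [fourier_coe_apply, circ_coe, smul_eq_mul]
      rfl
  have h1 : Summable (fourierCoeff (circ f hf hper : AddCircle p → ℂ)) := by
    refine hs.congr fun n => ?_
    rw [e]
  have h2 := has_pointwise_sum_fourier_series_of_summable h1 (0 : AddCircle p)
  have h3 : ∀ n : ℤ, fourierCoeff (circ f hf hper : AddCircle p → ℂ) n • fourier n (0 : AddCircle p)
      = mean p (fun t => ch p (-n) t * f t) := fun n => by
    rw [fourier_eval_zero, smul_eq_mul, mul_one, e]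
  simp only [h3] at h2
  exact h2

variable {U : ℝ → V →ₗ[ℂ] V} {p : ℝ}

/-- A periodic group of isometries of the core, with its Fourier projections. -/
structure Grp (ι : V →ₗ[ℂ] H) (U : ℝ → V →ₗ[ℂ] V) (P : ℤ → V →ₗ[ℂ] V) (p : ℝ) : Prop where
  pos : 0 < p
  add : ∀ s t φ, U (s + t) φ = U s (U t φ)
  zero : ∀ φ, U 0 φ = φ
  per : ∀ φ, U p φ = φ
  iso : ∀ t φ ψ, ⟪ι (U t φ), ι (U t ψ)⟫_ℂ = ⟪ι φ, ι ψ⟫_ℂ
  cont : ∀ φ ψ, Continuous fun t => ⟪ι φ, ι (U t ψ)⟫_ℂ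
  proj : ∀ n φ ψ, ⟪ι φ, ι (P n ψ)⟫_ℂ = mean p (fun t => ch p (-n) t * ⟪ι φ, ι (U t ψ)⟫_ℂ)

theorem Grp.periodic (h : Grp ι U P p) (φ ψ : V) :
    Function.Periodic (fun t => ⟪ι φ, ι (U t ψ)⟫_ℂ) p := fun t => by
  show ⟪ι φ, ι (U (t + p) ψ)⟫_ℂ = _
  rw [h.add, h.per]

theorem Grp.per_ch (h : Grp ι U P p) (n : ℤ) (φ ψ : V) :
    Function.Periodic (fun t => ch p (-n) t * ⟪ι φ, ι (U t ψ)⟫_ℂ) p := fun t => by
  show ch p (-n) (t + p) * ⟪ι φ, ι (U (t + p) ψ)⟫_ℂ = _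
  rw [ch_period h.pos.ne' (-n) t, h.add, h.per]

theorem Grp.neg_left (h : Grp ι U P p) (t : ℝ) (φ ψ : V) :
    ⟪ι (U (-t) φ), ι ψ⟫_ℂ = ⟪ι φ, ι (U t ψ)⟫_ℂ := by
  rw [← h.iso t (U (-t) φ) ψ, ← h.add, add_neg_cancel, h.zero]

/-- `U t (P n ψ) = e^{2 π i n t / p} P n ψ` weakly -/
theorem Grp.U_P (h : Grp ι U P p) (n : ℤ) (t : ℝ) (φ ψ : V) :
    ⟪ι φ, ι (U t (P n ψ))⟫_ℂ = ch p n t * ⟪ι φ, ι (P n ψ)⟫_ℂ := by
  rw [← h.neg_left t φ (P n ψ), h.proj, h.proj, ← mean_mul_left]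
  have h1 : (fun s => ch p (-n) s * ⟪ι (U (-t) φ), ι (U s ψ)⟫_ℂ) =
      fun s => ch p n t * (fun r => ch p (-n) r * ⟪ι φ, ι (U r ψ)⟫_ℂ) (s + t) := by
    funext s
    show _ = ch p n t * (ch p (-n) (s + t) * ⟪ι φ, ι (U (s + t) ψ)⟫_ℂ)
    rw [h.neg_left t φ (U s ψ), ← h.add, add_comm t s, ch_add]
    have e : ch p n t * ch p (-n) t = 1 := by
      rw [← ch_add', add_neg_cancel, ch_zero']
    linear_combination (-(ch p (-n) s * ⟪ι φ, ι (U (s + t) ψ)⟫_ℂ)) * e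
  rw [h1, mean_mul_left, mean_mul_left]
  congr 1
  exact mean_shift (h.per_ch n φ ψ) t

theorem Grp.P_symm (h : Grp ι U P p) (n : ℤ) (φ ψ : V) :
    ⟪ι (P n φ), ι ψ⟫_ℂ = ⟪ι φ, ι (P n ψ)⟫_ℂ := by
  rw [← inner_conj_symm, h.proj, h.proj, mean_conj]
  have h1 : (fun t => (starRingEnd ℂ) (ch p (-n) t * ⟪ι ψ, ι (U t φ)⟫_ℂ)) =
      fun t => (fun s => ch p (-n) s * ⟪ι φ, ι (U s ψ)⟫_ℂ) (-t) := by
    funext t
    show _ = ch p (-n) (-t) * ⟪ι φ, ι (U (-t) ψ)⟫_ℂ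
    rw [map_mul, ch_conj, neg_neg, inner_conj_symm, ch_neg, neg_neg]
    congr 1
    rw [← h.neg_left (-t) φ ψ, neg_neg]
  rw [h1]
  exact mean_neg (h.per_ch n φ ψ)

theorem Grp.P_P (h : Grp ι U P p) (m n : ℤ) (φ ψ : V) :
    ⟪ι φ, ι (P m (P n ψ))⟫_ℂ = if m = n then ⟪ι φ, ι (P n ψ)⟫_ℂ else 0 := by
  rw [h.proj]
  simp only [h.U_P n]
  have h1 : (fun t => ch p (-m) t * (ch p n t * ⟪ι φ, ι (P n ψ)⟫_ℂ)) =
      fun t => ch p (n - m) t * ⟪ι φ, ι (P n ψ)⟫_ℂ := by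
    funext t
    rw [← mul_assoc, ← ch_add']
    congr 2
    ring
  rw [h1, mean_mul_right]
  split_ifs with hmn
  · subst hmn
    have h2 : ch p (m - m) = fun _ => 1 := by
      funext t
      rw [sub_self, ch_zero']
    have h3 : mean p (fun t => ch p (m - m) t) = 1 := by
      rw [h2]
      exact mean_one h.pos.ne'
    rw [h3, one_mul]
  · have h3 : mean p (fun t => ch p (n - m) t) = 0 :=
      mean_ch h.pos.ne' (sub_ne_zero.2 (Ne.symm hmn))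
    rw [h3, zero_mul]

theorem Grp.orth (h : Grp ι U P p) {m n : ℤ} (hmn : m ≠ n) (φ ψ : V) :
    ⟪ι (P m φ), ι (P n ψ)⟫_ℂ = 0 := by
  rw [h.P_symm, h.P_P, if_neg hmn]

theorem Grp.inner_P (h : Grp ι U P p) (n : ℤ) (φ : V) :
    ⟪ι φ, ι (P n φ)⟫_ℂ = ((‖ι (P n φ)‖ ^ 2 : ℝ) : ℂ) := by
  have h1 := h.P_P n n φ φ
  rw [if_pos rfl, ← h.P_symm] at h1
  rw [← h1, inner_self_eq_norm_sq_to_K]
  push_cast
  rfl

theorem Grp.inner_P' (h : Grp ι U P p) (n : ℤ) (φ : V) :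
    ⟪ι (P n φ), ι φ⟫_ℂ = ((‖ι (P n φ)‖ ^ 2 : ℝ) : ℂ) := by
  rw [← inner_conj_symm, h.inner_P, Complex.conj_ofReal]

/-- Bessel. -/
theorem Grp.bessel (h : Grp ι U P p) (s : Finset ℤ) (φ : V) :
    ∑ n ∈ s, ‖ι (P n φ)‖ ^ 2 ≤ ‖ι φ‖ ^ 2 := by
  have h1 : ⟪ι φ, ∑ n ∈ s, ι (P n φ)⟫_ℂ = ((∑ n ∈ s, ‖ι (P n φ)‖ ^ 2 : ℝ) : ℂ) := by
    rw [inner_sum, Complex.ofReal_sum]
    exact Finset.sum_congr rfl fun n _ => h.inner_P n φ
  have h2 : ⟪∑ m ∈ s, ι (P m φ), ∑ n ∈ s, ι (P n φ)⟫_ℂ =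
      ((∑ n ∈ s, ‖ι (P n φ)‖ ^ 2 : ℝ) : ℂ) := by
    rw [sum_inner, Complex.ofReal_sum]
    refine Finset.sum_congr rfl fun m hm => ?_
    rw [inner_sum, Finset.sum_eq_single m]
    · rw [inner_self_eq_norm_sq_to_K]
      push_cast
      rfl
    · intro n _ hn
      exact h.orth (Ne.symm hn) φ φ
    · intro hm'
      exact absurd hm hm'
  have h3 : 0 ≤ ‖ι φ - ∑ n ∈ s, ι (P n φ)‖ ^ 2 := sq_nonneg _
  rw [norm_sub_sq (𝕜 := ℂ), h1] at h3
  have h4 : ‖∑ n ∈ s, ι (P n φ)‖ ^ 2 = ∑ n ∈ s, ‖ι (P n φ)‖ ^ 2 := by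
    have h5 := h2
    rw [inner_self_eq_norm_sq_to_K] at h5
    refine Complex.ofReal_injective ?_
    rw [← h5]
    push_cast
    rfl
  rw [h4] at h3
  simp only [RCLike.re_to_complex, Complex.ofReal_re] at h3
  linarith

theorem Grp.hasSum (h : Grp ι U P p) (φ : V) :
    HasSum (fun n => ‖ι (P n φ)‖ ^ 2) (‖ι φ‖ ^ 2) := by
  have h0 : Summable fun n => ‖ι (P n φ)‖ ^ 2 :=
    summable_of_sum_le (fun n => sq_nonneg _) fun s => h.bessel s φ
  have e : ∀ n, mean p (fun t => ch p (-n) t * ⟪ι φ, ι (U t φ)⟫_ℂ) =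
      ((‖ι (P n φ)‖ ^ 2 : ℝ) : ℂ) := fun n => by
    rw [← h.proj, h.inner_P]
  have h1 : Summable fun n : ℤ => mean p (fun t => ch p (-n) t * ⟪ι φ, ι (U t φ)⟫_ℂ) := by
    simp only [e]
    exact Complex.ofRealCLM.summable h0
  have h2 := hasSum_fourier h.pos (h.cont φ φ) (h.periodic φ φ) h1
  simp only [e, h.zero] at h2
  have h3 : (⟪ι φ, ι φ⟫_ℂ) = ((‖ι φ‖ ^ 2 : ℝ) : ℂ) := by
    rw [inner_self_eq_norm_sq_to_K]
    push_cast
    rfl
  rw [h3] at h2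
  exact Complex.hasSum_ofReal.1 h2

/-- **The Fourier projections of a periodic group of isometries.** -/
theorem circ_of_group (h : Grp ι U P p) (hι : Function.Injective ι)
    (hT : ∀ n φ, P n (T φ) = T (P n φ)) : Circ ι T P where
  symm := h.P_symm
  idem := by
    intro n φ
    apply hι
    have h1 : ∀ χ, ⟪ι χ, ι (P n (P n φ)) - ι (P n φ)⟫_ℂ = 0 := fun χ => by
      rw [inner_sub_right, h.P_P, if_pos rfl, sub_self]
    have h2 : ⟪ι (P n (P n φ)) - ι (P n φ), ι (P n (P n φ)) - ι (P n φ)⟫_ℂ = 0 := by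
      have := h1 (P n (P n φ) - P n φ)
      rwa [map_sub] at this
    exact sub_eq_zero.1 (inner_self_eq_zero.1 h2)
  comm := hT
  sum := h.hasSum

end group

/-! ## 3. The gap from the weight zero sector -/

section gap

variable [CompleteSpace H] {Q : V →ₗ[ℂ] H'}

/-- `gap_of_core` without density of the core. -/
theorem gap_of_core' {W : Type*} [AddCommGroup W] [Module ℂ W] {j : W →ₗ[ℂ] H}
    {Q : W →ₗ[ℂ] H'} (A : W →ₗ[ℂ] W)
    (hA : ∀ φ ψ, ⟪Q φ, Q ψ⟫_ℂ = ⟪j (A φ), j ψ⟫_ℂ)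
    (hd : ∀ φ : W, j φ ∈ closure (Set.range fun ψ => j ψ + j (A ψ)))
    {δ : ℝ} (hδ : ∀ φ, δ * ‖Q φ‖ ^ 2 ≤ ‖j (A φ)‖ ^ 2) : Gap j Q δ := by
  set K : Submodule ℂ H := (LinearMap.range j).topologicalClosure with hK
  have : CompleteSpace K := (Submodule.isClosed_topologicalClosure _).completeSpace_coe
  have hj : ∀ φ, j φ ∈ K := fun φ => Submodule.le_topologicalClosure _ ⟨φ, rfl⟩
  let j' : W →ₗ[ℂ] K := j.codRestrict K hj
  have hj' : ∀ φ, ((j' φ : K) : H) = j φ := fun _ => rfl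
  have hran : (fun x : K => (x : H)) '' Set.range (j' + j' ∘ₗ A) =
      Set.range fun ψ => j ψ + j (A ψ) := by
    ext y
    constructor
    · rintro ⟨_, ⟨x, rfl⟩, rfl⟩
      exact ⟨x, rfl⟩
    · rintro ⟨x, rfl⟩
      exact ⟨_, ⟨x, rfl⟩, rfl⟩
  have hdense : DenseRange (j' + j' ∘ₗ A) := by
    intro y
    rw [Topology.IsInducing.subtypeVal.closure_eq_preimage_closure_image]
    show (y : H) ∈ closure ((fun x : K => (x : H)) '' Set.range (j' + j' ∘ₗ A))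
    rw [hran]
    have h2 : closure (LinearMap.range j : Set H) ⊆
        closure (Set.range fun ψ => j ψ + j (A ψ)) :=
      closure_minimal (by rintro _ ⟨φ, rfl⟩; exact hd φ) isClosed_closure
    have h3 : (y : H) ∈ closure (LinearMap.range j : Set H) := by
      have h4 : (y : H) ∈ (LinearMap.range j).topologicalClosure := y.2
      rwa [← SetLike.mem_coe, Submodule.topologicalClosure_coe] at h4
    exact h2 h3
  have hg : Gap j' Q δ := gap_of_core (j' ∘ₗ A) (fun φ ψ => hA φ ψ) hdense (fun φ => hδ φ)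
  intro φ
  obtain ⟨ψ, h1, h2⟩ := hg φ
  refine ⟨(ψ : H), ?_, h2⟩
  obtain ⟨χ, h3, h4⟩ := mem_kerF.1 h1
  exact mem_kerF.2 ⟨χ, (continuous_subtype_val.tendsto _).comp h3, h4⟩

/-- **THE GAP** from a projection `Π` of the core commuting with the Hamiltonian. -/
theorem gap_of_weight (T : V →ₗ[ℂ] V) (hT : ∀ φ ψ, ⟪Q φ, Q ψ⟫_ℂ = ⟪ι (T φ), ι ψ⟫_ℂ)
    (Z : V →ₗ[ℂ] V) (hZs : ∀ φ ψ, ⟪ι (Z φ), ι ψ⟫_ℂ = ⟪ι φ, ι (Z ψ)⟫_ℂ)
    (hZi : ∀ φ, Z (Z φ) = Z φ) (hZT : ∀ φ, Z (T φ) = T (Z φ))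
    (hd : ∀ φ : V, ι φ ∈ closure (Set.range fun ψ => ι ψ + ι (T ψ)))
    {δ : ℝ} (h0 : ∀ φ, Z φ = φ → δ * ‖Q φ‖ ^ 2 ≤ ‖ι (T φ)‖ ^ 2)
    (h1 : ∀ φ, Z φ = 0 → δ * ‖ι φ‖ ^ 2 ≤ ‖Q φ‖ ^ 2) : Gap ι Q δ := by
  -- the sector
  let W : Submodule ℂ V := LinearMap.range Z
  have hW : ∀ φ : W, Z φ = φ := by
    rintro ⟨_, ⟨x, rfl⟩⟩
    exact hZi x
  have hWT : ∀ φ : W, T φ ∈ W := fun φ => ⟨T φ, by rw [hZT, hW]⟩
  let A : W →ₗ[ℂ] W := (T ∘ₗ W.subtype).codRestrict W hWT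
  have hZn : ∀ φ, ‖ι (Z φ)‖ ≤ ‖ι φ‖ := fun φ => by
    have h2 : ⟪ι (Z φ), ι φ⟫_ℂ = ((‖ι (Z φ)‖ ^ 2 : ℝ) : ℂ) := by
      have h3 := hZs φ (Z φ)
      rw [hZi] at h3
      have h4 : ⟪ι (Z φ), ι φ⟫_ℂ = ⟪ι (Z φ), ι (Z φ)⟫_ℂ := by
        rw [h3, hZs]
      rw [h4, inner_self_eq_norm_sq_to_K]
      push_cast
      rfl
    have h3 : ‖ι (Z φ)‖ ^ 2 ≤ ‖ι (Z φ)‖ * ‖ι φ‖ := by
      have h4 := norm_inner_le_norm (𝕜 := ℂ) (ι (Z φ)) (ι φ)
      rw [h2, Complex.norm_real, Real.norm_of_nonneg (sq_nonneg _)] at h4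
      exact h4
    rcases (norm_nonneg (ι (Z φ))).eq_or_lt with h4 | h4
    · rw [← h4]
      exact norm_nonneg _
    · nlinarith
  have hgap : Gap (ι ∘ₗ W.subtype) (Q ∘ₗ W.subtype) δ := by
    refine gap_of_core' A (fun φ ψ => hT φ ψ) (fun φ => ?_) fun φ => h0 φ (hW φ)
    -- density in the sector
    obtain ⟨u, hu, hlim⟩ := mem_closure_iff_seq_limit.1 (hd (φ : V))
    choose ψ hψ using hu
    refine mem_closure_iff_seq_limit.2 ⟨fun n => ι (Z (ψ n)) + ι (T (Z (ψ n))), fun n => ?_, ?_⟩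
    · exact ⟨⟨Z (ψ n), ⟨ψ n, rfl⟩⟩, rfl⟩
    · show Tendsto _ atTop (𝓝 (ι (φ : V)))
      rw [tendsto_iff_norm_sub_tendsto_zero] at hlim ⊢
      refine squeeze_zero (fun _ => norm_nonneg _) (fun n => ?_) hlim
      have e1 : ι (Z (ψ n)) + ι (T (Z (ψ n))) - ι (φ : V) = ι (Z (ψ n + T (ψ n) - φ)) := by
        rw [map_sub, map_add, hZT, hW, map_sub, map_add]
      rw [e1]
      refine (hZn _).trans_eq ?_
      rw [map_sub, map_add, ← hψ n]
  -- assembly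
  intro φ
  obtain ⟨ψ, h2, h3⟩ := hgap ⟨Z φ, ⟨φ, rfl⟩⟩
  have hk : ψ ∈ kerF ι Q := by
    obtain ⟨χ, h4, h5⟩ := mem_kerF.1 h2
    exact mem_kerF.2 ⟨fun n => (χ n : V), h4, h5⟩
  refine ⟨ψ, hk, ?_⟩
  change δ * ‖ι (Z φ) - ψ‖ ^ 2 ≤ ‖Q (Z φ)‖ ^ 2 at h3
  have hZc : Z (φ - Z φ) = 0 := by rw [map_sub, hZi, sub_self]
  have h4 := h1 (φ - Z φ) hZc
  -- orthogonality of the sector and the complement
  have ho : ∀ χ : V, ⟪ι (Z χ), ι (φ - Z φ)⟫_ℂ = 0 := fun χ => by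
    rw [hZs, hZc, map_zero, inner_zero_right]
  have hψ : ⟪ψ, ι (φ - Z φ)⟫_ℂ = 0 := by
    obtain ⟨χ, h5, -⟩ := mem_kerF.1 h2
    have h6 : Tendsto (fun n => ⟪ι (χ n : V), ι (φ - Z φ)⟫_ℂ) atTop
        (𝓝 ⟪ψ, ι (φ - Z φ)⟫_ℂ) := h5.inner tendsto_const_nhds
    have h7 : ∀ n, ⟪ι (χ n : V), ι (φ - Z φ)⟫_ℂ = 0 := fun n => by
      rw [← hW (χ n)]
      exact ho _
    simp only [h7] at h6
    exact tendsto_nhds_unique h6 tendsto_const_nhds
  have hn : ‖ι φ - ψ‖ ^ 2 = ‖ι (Z φ) - ψ‖ ^ 2 + ‖ι (φ - Z φ)‖ ^ 2 := by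
    have e1 : ι φ - ψ = (ι (Z φ) - ψ) + ι (φ - Z φ) := by
      rw [map_sub]
      abel
    rw [e1, norm_add_sq (𝕜 := ℂ), inner_sub_left, ho, hψ]
    simp
  have hQ : ‖Q φ‖ ^ 2 = ‖Q (Z φ)‖ ^ 2 + ‖Q (φ - Z φ)‖ ^ 2 := by
    have e1 : Q φ = Q (Z φ) + Q (φ - Z φ) := by
      rw [map_sub]
      abel
    have e2 : ⟪Q (Z φ), Q (φ - Z φ)⟫_ℂ = 0 := by
      rw [hT, ← hZT, ho]
    rw [e1, norm_add_sq (𝕜 := ℂ), e2]
    simp
  rw [hn, hQ, mul_add]
  exact add_le_add h3 h4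

end gap

end Crest.Agent.R330.GapAbs967

end
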