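import Crest.Agent.R330.JQ_916
import Crest.Agent.R330.Master_288

/-!
# Row 330, S1.4: the literal `Susy` algebra on the core (helper916)

`susy R G g m : Susy G m (ιC R) (Qc R G g m) (Hc R G g m) (Jc R G)` and
`Hc_coe : (Hc R G g m φ : Cfg N → F) = Master288.Ham b M G g m φ`.
-/

set_option autoImplicit false

open Crest.MathPhysics.MatrixQM

noncomputable section

namespace Crest.Agent.R330.SusyL916

open Crest.Agent.R330.Defs478 Crest.Agent.R330.JQ916 Crest.Agent.R330.GapAlg916

variable {N : ℕ} {F : Type*} [NormedAddCommGroup F] [InnerProductSpace ℂ F]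
  [FiniteDimensional ℂ F] [Nontrivial F] {b : ColorBasis N} {M : FermionRep N F}

theorem susy_and (R : GaugeAction b M) (G : GammaNine) (g m : ℝ) :
    Susy G m (Dict416.ιC R) (Qc R G g m) (Hc R G g m) (Jc R G) ∧
      ∀ φ : core b R, (Hc R G g m φ : Cfg N → F) = Master288.Ham b M G g m φ.1 :=
  susy_of fun α β _ hφ x => Master288.master R G g m (cv_c2 hφ) hφ.2.2 α β x

/-- **the literal algebra** -/
theorem susy (R : GaugeAction b M) (G : GammaNine) (g m : ℝ) :
    Susy G m (Dict416.ιC R) (Qc R G g m) (Hc R G g m) (Jc R G) := (susy_and R G g m).1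

theorem Hc_coe (R : GaugeAction b M) (G : GammaNine) (g m : ℝ) (φ : core b R) :
    (Hc R G g m φ : Cfg N → F) = Master288.Ham b M G g m φ.1 := (susy_and R G g m).2 φ

end Crest.Agent.R330.SusyL916

end
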