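import Crest.Agent.R330.GapCl_967
import Crest.Agent.R330.SusyL_916

/-!
# Row 330 (helper967): (GAP), final form
-/

set_option autoImplicit false
set_option linter.unusedSectionVars false

open MeasureTheory Filter Topology Crest.MathPhysics.MatrixQM
open scoped ContDiff InnerProductSpace ENNReal

noncomputable section

namespace Crest.Agent.R330.GapAll967

open Crest.Agent.R330.Defs478 Crest.Agent.R330.SDefs726 Crest.Agent.R330.Dict416
  Crest.Agent.R330.GapAlg916 Crest.Agent.R330.Sec478 Crest.Agent.R330.JQ916

variable {N : ℕ} {F : Type} [NormedAddCommGroup F] [InnerProductSpace ℂ F]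
  [FiniteDimensional ℂ F] [Nontrivial F] {b : ColorBasis N} {M : FermionRep N F}
  {R : GaugeAction b M} {G : GammaNine}

/-- **(GAP)** from the density of `(1 + H) core` in the core. -/
theorem gapZ_of_dens {g m : ℝ} (hm : 0 ≤ m)
    (hd : ∀ φ : core b R, ιC R φ ∈
      closure (Set.range fun ψ => ιC R ψ + ιC R (Hc R G g m ψ))) :
    GapZ b M R G g m (m / 24) :=
  GapCl967.gapZ_core hm (Q := Qc R G g m) (fun _ _ => rfl) (Ham := Hc R G g m)
    (fun _ => rfl) (J := Jc R G) (fun q _ φ => rfl) (SusyL916.susy R G g m) hd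

end Crest.Agent.R330.GapAll967

end
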