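import Crest.Agent.R330.Lit_416

/-!
# Row 330 (helper416): the gap on the core from literal inequalities

* `gap_smul` : scaling of the charges.
* `clo_of_approx` : density from an `ε`-statement.
* `gapZ_of_sectors` : `GapZ b M R G g m δ` from a Hamiltonian `Ham` on the core (with `1 + Ham` of
  dense range), a symmetric idempotent `p` commuting with `Ham`, `δ q ≤ ‖Ham ·‖²` on the range of `p`
  and `δ ‖·‖² ≤ q` on the range of `1 - p`.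
* `gapZ_of_core` : the same without sectors.
-/

set_option autoImplicit false
set_option linter.unusedSectionVars false

open MeasureTheory Filter Topology Crest.MathPhysics.MatrixQM
open scoped ContDiff InnerProductSpace ENNReal

noncomputable section

namespace Crest.Agent.R330.GapLit416

open Crest.Agent.R330.Defs478 Crest.Agent.R330.FA416 Crest.Agent.R330.Dict416
  Crest.Agent.R330.Lit416

section abs

variable {V H H' : Type*} [AddCommGroup V] [Module ℂ V]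
  [NormedAddCommGroup H] [InnerProductSpace ℂ H]
  [NormedAddCommGroup H'] [InnerProductSpace ℂ H']
  {ι : V →ₗ[ℂ] H} {Q : V →ₗ[ℂ] H'}

theorem kerF_smul {c : ℂ} (hc : c ≠ 0) : kerF ι (c • Q) = kerF ι Q := by
  ext Ψ
  rw [mem_kerF, mem_kerF]
  constructor
  · rintro ⟨φ, h1, h2⟩
    refine ⟨φ, h1, ?_⟩
    have h3 := h2.const_smul c⁻¹
    rw [smul_zero] at h3
    refine h3.congr fun n => ?_
    rw [LinearMap.smul_apply, smul_smul, inv_mul_cancel₀ hc, one_smul]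
  · rintro ⟨φ, h1, h2⟩
    refine ⟨φ, h1, ?_⟩
    have h3 := h2.const_smul c
    rw [smul_zero] at h3
    exact h3

theorem gap_smul {c : ℂ} (hc : c ≠ 0) {δ : ℝ} (h : Gap ι (c • Q) δ) :
    Gap ι Q (δ / ‖c‖ ^ 2) := fun φ => by
  obtain ⟨ψ, h1, h2⟩ := h φ
  rw [kerF_smul hc] at h1
  refine ⟨ψ, h1, ?_⟩
  have hc' : 0 < ‖c‖ ^ 2 := by
    have := norm_pos_iff.2 hc
    positivity
  rw [LinearMap.smul_apply, norm_smul, mul_pow] at h2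
  rw [div_mul_eq_mul_div, div_le_iff₀ hc']
  linarith

theorem clo_of_approx {T : V →ₗ[ℂ] H} {x : H} (h : ∀ ε > 0, ∃ ψ : V, ‖x - T ψ‖ < ε) :
    x ∈ clo T := by
  unfold clo
  rw [← SetLike.mem_coe, Submodule.topologicalClosure_coe, Metric.mem_closure_iff]
  intro ε hε
  obtain ⟨ψ, hψ⟩ := h ε hε
  exact ⟨T ψ, ⟨ψ, rfl⟩, by rwa [dist_eq_norm]⟩

end abs

variable {N : ℕ} {F : Type*} [NormedAddCommGroup F] [InnerProductSpace ℂ F]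
  [FiniteDimensional ℂ F] {b : ColorBasis N} {M : FermionRep N F} {R : GaugeAction b M}
  {G : GammaNine} {g m δ : ℝ}

theorem inner_quarter (φ ψ : core b R) :
    ⟪((4 : ℂ)⁻¹ • QC R G g m) φ, ((4 : ℂ)⁻¹ • QC R G g m) ψ⟫_ℂ =
      (1 / 16 : ℂ) * ∑ α, ∫ x, ⟪dcharge b M G g m α φ.1 x, dcharge b M G g m α ψ.1 x⟫_ℂ := by
  rw [LinearMap.smul_apply, LinearMap.smul_apply, inner_smul_left, inner_smul_right, inner_QC]
  have : (starRingEnd ℂ) (4 : ℂ)⁻¹ = (4 : ℂ)⁻¹ := by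
    rw [map_inv₀]
    congr 1
    exact Complex.conj_ofNat 4
  rw [this, ← mul_assoc]
  norm_num

theorem norm_quarter_sq (φ : core b R) :
    ‖((4 : ℂ)⁻¹ • QC R G g m) φ‖ ^ 2 = qf b M G g m φ.1 := by
  rw [LinearMap.smul_apply, norm_smul, mul_pow, norm_QC_sq, norm_inv, Complex.norm_ofNat]
  ring

theorem gapZ_of_quarter (h : Gap (ιC R) ((4 : ℂ)⁻¹ • QC R G g m) δ) :
    Sec478.GapZ b M R G g m δ := by
  rw [gapZ_iff]
  have h1 := gap_smul (by norm_num) h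
  have h2 : δ / ‖(4 : ℂ)⁻¹‖ ^ 2 = 16 * δ := by
    rw [norm_inv, Complex.norm_ofNat]
    ring
  rwa [h2] at h1

theorem dense_lit (Ham : core b R →ₗ[ℂ] core b R)
    (hd : ∀ (φ : core b R) (ε : ℝ), 0 < ε → ∃ ψ : core b R,
      ∫ x, ‖φ.1 x - (ψ.1 x + (Ham ψ).1 x)‖ ^ 2 < ε) (φ : core b R) :
    ιC R φ ∈ clo (ιC R + ιC R ∘ₗ Ham) := by
  refine clo_of_approx fun ε hε => ?_
  obtain ⟨ψ, hψ⟩ := hd φ (ε ^ 2) (by positivity)
  refine ⟨ψ, ?_⟩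
  have h1 : ιC R φ - (ιC R + ιC R ∘ₗ Ham) ψ = ιC R (φ - (ψ + Ham ψ)) := by
    rw [map_sub, map_add]
    rfl
  have h2 : ‖ιC R (φ - (ψ + Ham ψ))‖ ^ 2 < ε ^ 2 := by
    rw [norm_ιC_sq]
    exact hψ
  rw [h1]
  exact (pow_lt_pow_iff_left₀ (norm_nonneg _) hε.le two_ne_zero).1 h2

/-- **The gap on the core with sectors**, literal. -/
theorem gapZ_of_sectors (Ham p : core b R →ₗ[ℂ] core b R)
    (hH : ∀ φ ψ : core b R,
      (1 / 16 : ℂ) * ∑ α, ∫ x, ⟪dcharge b M G g m α φ.1 x, dcharge b M G g m α ψ.1 x⟫_ℂ =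
        ∫ x, ⟪(Ham φ).1 x, ψ.1 x⟫_ℂ)
    (hd : ∀ (φ : core b R) (ε : ℝ), 0 < ε → ∃ ψ : core b R,
      ∫ x, ‖φ.1 x - (ψ.1 x + (Ham ψ).1 x)‖ ^ 2 < ε)
    (hpp : ∀ φ, p (p φ) = p φ) (hpH : ∀ φ, p (Ham φ) = Ham (p φ))
    (hps : ∀ φ ψ : core b R, ∫ x, ⟪(p φ).1 x, ψ.1 x⟫_ℂ = ∫ x, ⟪φ.1 x, (p ψ).1 x⟫_ℂ)
    (h1 : ∀ φ : core b R, δ * qf b M G g m (p φ).1 ≤ ∫ x, ‖(Ham (p φ)).1 x‖ ^ 2)
    (h2 : ∀ φ : core b R, δ * ∫ x, ‖(φ - p φ).1 x‖ ^ 2 ≤ qf b M G g m (φ - p φ).1) :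
    Sec478.GapZ b M R G g m δ := by
  have e1 : ∀ φ ψ : core b R, ⟪((4 : ℂ)⁻¹ • QC R G g m) φ, ((4 : ℂ)⁻¹ • QC R G g m) ψ⟫_ℂ =
      ⟪ιC R (Ham φ), ιC R ψ⟫_ℂ := fun φ ψ => by
    rw [inner_quarter, hH, inner_ιC]
  have e2 : ∀ φ ψ : core b R, ⟪ιC R (p φ), ιC R ψ⟫_ℂ = ⟪ιC R φ, ιC R (p ψ)⟫_ℂ := fun φ ψ => by
    rw [inner_ιC, inner_ιC, hps]
  have e3 : ∀ φ : core b R, δ * ‖((4 : ℂ)⁻¹ • QC R G g m) (p φ)‖ ^ 2 ≤
      ‖ιC R (Ham (p φ))‖ ^ 2 := fun φ => by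
    rw [norm_quarter_sq, norm_ιC_sq]
    exact h1 φ
  have e4 : ∀ φ : core b R, δ * ‖ιC R (φ - p φ)‖ ^ 2 ≤
      ‖((4 : ℂ)⁻¹ • QC R G g m) (φ - p φ)‖ ^ 2 := fun φ => by
    rw [norm_quarter_sq, norm_ιC_sq]
    exact h2 φ
  exact gapZ_of_quarter (gap_of_sectors (ι := ιC R) (Q := (4 : ℂ)⁻¹ • QC R G g m) Ham e1
    (dense_lit Ham hd) p hpp hpH e2 e3 e4)

/-- **The gap on the core**, literal, without sectors. -/
theorem gapZ_of_core (Ham : core b R →ₗ[ℂ] core b R)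
    (hH : ∀ φ ψ : core b R,
      (1 / 16 : ℂ) * ∑ α, ∫ x, ⟪dcharge b M G g m α φ.1 x, dcharge b M G g m α ψ.1 x⟫_ℂ =
        ∫ x, ⟪(Ham φ).1 x, ψ.1 x⟫_ℂ)
    (hd : ∀ (φ : core b R) (ε : ℝ), 0 < ε → ∃ ψ : core b R,
      ∫ x, ‖φ.1 x - (ψ.1 x + (Ham ψ).1 x)‖ ^ 2 < ε)
    (h1 : ∀ φ : core b R, δ * qf b M G g m φ.1 ≤ ∫ x, ‖(Ham φ).1 x‖ ^ 2) :
    Sec478.GapZ b M R G g m δ := by
  refine gapZ_of_sectors Ham LinearMap.id hH hd (fun _ => rfl) (fun _ => rfl) (fun _ _ => rfl)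
    h1 fun φ => ?_
  rw [LinearMap.id_apply, sub_self]
  simpa using qf_nonneg (b := b) (M := M) (G := G) (g := g) (m := m) (0 : Cfg N → F)

end Crest.Agent.R330.GapLit416

end
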