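import Crest.Agent.R330.GaugeEx_973
import Crest.Agent.R330.Char_973

/-!
# Row 330 (helper973): uniqueness of the gauge action

* `rho_vac` : `ρ(g) Ω = Ω` for every gauge action (the Fock vacuum is gauge invariant).
* `gaugeAction_unique`, `gaugeAction_eq` : the gauge action is unique.
* `rho_eq_of_adjMat` : `ρ(g)` depends only on the adjoint matrix of `g`.
-/

set_option autoImplicit false
set_option linter.unusedSectionVars false

noncomputable section

open scoped InnerProductSpace Matrix

namespace Crest.Agent.R330.GaugeUn973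

open Crest.MathPhysics.MatrixQM Crest.Agent.R330.Vac973 Crest.Agent.R330.GaugeEx973

variable {N : ℕ} {F : Type*} [NormedAddCommGroup F] [InnerProductSpace ℂ F]
  [FiniteDimensional ℂ F] {b : ColorBasis N} {M : FermionRep N F} {Ω : F}

theorem rho_theta (R : GaugeAction b M) (g : Matrix.specialUnitaryGroup (Fin N) ℂ) (α : Fin 16)
    (A : Fin (N ^ 2 - 1)) (v : F) :
    R.ρ g (M.θ α A v) = ∑ B, (b.adjMat g B A : ℂ) • M.θ α B (R.ρ g v) := by
  have h1 := LinearMap.congr_fun (R.intertwine g α A) v
  simpa only [LinearMap.comp_apply, LinearMap.sum_apply, LinearMap.smul_apply] using h1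

theorem rho_ann (R : GaugeAction b M) (g : Matrix.specialUnitaryGroup (Fin N) ℂ)
    (j : Fin 8 × Fin (N ^ 2 - 1)) (v : F) :
    R.ρ g (ann M j v) = ∑ B, (b.adjMat g B j.2 : ℂ) • ann M (j.1, B) (R.ρ g v) := by
  simp only [ann, LinearMap.add_apply, LinearMap.smul_apply, map_add, map_smul, rho_theta,
    smul_add, Finset.smul_sum, Finset.sum_add_distrib]
  congr 1
  exact Finset.sum_congr rfl fun B _ => smul_comm _ _ _

/-- A gauge transform of the vacuum is annihilated by the annihilators. -/
theorem ann_rho (h : IsVac M Ω) (R : GaugeAction b M)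
    (g : Matrix.specialUnitaryGroup (Fin N) ℂ) (j : Fin 8 × Fin (N ^ 2 - 1)) :
    ann M j (R.ρ g Ω) = 0 := by
  have h1 : ∀ A, ∑ B, (b.adjMat g B A : ℂ) • ann M (j.1, B) (R.ρ g Ω) = 0 := fun A => by
    rw [← rho_ann R g (j.1, A), h.ann, map_zero]
  have h2 : ∑ A, (b.adjMat g j.2 A : ℂ) • ∑ B, (b.adjMat g B A : ℂ) • ann M (j.1, B) (R.ρ g Ω) =
      ann M j (R.ρ g Ω) := by
    simp only [Finset.smul_sum, smul_smul]
    rw [Finset.sum_comm]
    simp only [← Finset.sum_smul]
    have h3 : ∀ B, ∑ A, ((b.adjMat g j.2 A : ℂ) * (b.adjMat g B A : ℂ)) =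
        if j.2 = B then 1 else 0 := fun B => orth_right (adjMat_orth b g) j.2 B
    simp only [h3]
    rw [Finset.sum_eq_single j.2]
    · rw [if_pos rfl, one_smul]
    · intro B _ hB
      rw [if_neg (Ne.symm hB), zero_smul]
    · intro h4
      exact absurd (Finset.mem_univ j.2) h4
  rw [← h2]
  exact Finset.sum_eq_zero fun A _ => by rw [h1, smul_zero]

theorem smul_vac_inj (h : IsVac M Ω) {a a' : ℂ} (h' : a • Ω = a' • Ω) : a = a' :=
  smul_left_injective ℂ h.ne h'

/-- The character of the vacuum line. -/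
def vacChar (h : IsVac M Ω) (R : GaugeAction b M) :
    Matrix.specialUnitaryGroup (Fin N) ℂ →* ℂ where
  toFun g := (h.line (ann_rho h R g)).choose
  map_one' := by
    refine smul_vac_inj h ?_
    rw [← (h.line (ann_rho h R 1)).choose_spec, map_one, one_smul]
    rfl
  map_mul' g g' := by
    refine smul_vac_inj h ?_
    rw [← (h.line (ann_rho h R (g * g'))).choose_spec, map_mul, mul_smul, smul_comm,
      ← (h.line (ann_rho h R g)).choose_spec]
    show R.ρ g (R.ρ g' Ω) = _
    nth_rewrite 1 [(h.line (ann_rho h R g')).choose_spec]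
    rw [map_smul]

theorem vacChar_spec (h : IsVac M Ω) (R : GaugeAction b M)
    (g : Matrix.specialUnitaryGroup (Fin N) ℂ) : R.ρ g Ω = vacChar h R g • Ω :=
  (h.line (ann_rho h R g)).choose_spec

/-- **The Fock vacuum is gauge invariant.** -/
theorem rho_vac (h : IsVac M Ω) (R : GaugeAction b M)
    (g : Matrix.specialUnitaryGroup (Fin N) ℂ) : R.ρ g Ω = Ω := by
  rw [vacChar_spec h R, Char973.char_trivial, one_smul]

/-- **Every gauge action is the spin lift of the adjoint action.** -/
theorem rho_eq_lift (h : IsVac M Ω) (R : GaugeAction b M)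
    (g : Matrix.specialUnitaryGroup (Fin N) ℂ) : R.ρ g = lift h (adjMat_orth b g) :=
  lift_unique h _ (rho_vac h R g) fun α A v => rho_theta R g α A v

theorem gaugeAction_eq (h : IsVac M Ω) (R : GaugeAction b M) : R = gaugeAction b h := by
  have h1 : R.ρ = (gaugeAction b h).ρ := MonoidHom.ext fun g => rho_eq_lift h R g
  cases R
  simp only at h1
  subst h1
  rfl

/-- **The gauge action is unique.** -/
theorem gaugeAction_unique [Nontrivial F] (R R' : GaugeAction b M) : R = R' := by
  obtain ⟨Ω, h⟩ := exists_vac M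
  rw [gaugeAction_eq h R, gaugeAction_eq h R']

instance [Nontrivial F] : Subsingleton (GaugeAction b M) := ⟨gaugeAction_unique⟩

/-- `ρ(g)` depends only on the adjoint matrix of `g`. -/
theorem rho_eq_of_adjMat [Nontrivial F] (R : GaugeAction b M)
    {g g' : Matrix.specialUnitaryGroup (Fin N) ℂ} (hg : ∀ A B, b.adjMat g A B = b.adjMat g' A B) :
    R.ρ g = R.ρ g' := by
  obtain ⟨Ω, h⟩ := exists_vac M
  rw [rho_eq_lift h R g]
  refine (lift_unique h _ (rho_vac h R g') fun α A v => ?_).symm
  rw [rho_theta]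
  exact Finset.sum_congr rfl fun B _ => by rw [← hg]

/-- The centre acts trivially. -/
theorem rho_eq_one [Nontrivial F] (R : GaugeAction b M)
    {g : Matrix.specialUnitaryGroup (Fin N) ℂ} (hg : ∀ A B, b.adjMat g A B = if A = B then 1 else 0) :
    R.ρ g = 1 := by
  rw [rho_eq_of_adjMat R (g' := 1) (fun A B => ?_), map_one]
  rw [hg]
  have h1 := congrFun (congrFun (adjMat_one b) A) B
  rw [Matrix.one_apply] at h1
  exact h1.symm

/-- An operator which intertwines the generators with their rotation by `g` is a multiple of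
`ρ(g)`. -/
theorem schur_rho [Nontrivial F] (R : GaugeAction b M)
    {g : Matrix.specialUnitaryGroup (Fin N) ℂ} {T : F →ₗ[ℂ] F}
    (hT : ∀ α A v, T (M.θ α A v) = ∑ B, (b.adjMat g B A : ℂ) • M.θ α B (T v)) :
    ∃ a : ℂ, T = a • R.ρ g := by
  obtain ⟨Ω, h⟩ := exists_vac M
  have h1 : ∀ j, ann M j (T Ω) = 0 := by
    intro j
    have h2 : ∀ (j : Fin 8 × Fin (N ^ 2 - 1)) (v : F), T (ann M j v) =
        ∑ B, (b.adjMat g B j.2 : ℂ) • ann M (j.1, B) (T v) := by
      intro j v
      simp only [ann, LinearMap.add_apply, LinearMap.smul_apply, map_add, map_smul, hT,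
        smul_add, Finset.smul_sum, Finset.sum_add_distrib]
      congr 1
      exact Finset.sum_congr rfl fun B _ => smul_comm _ _ _
    have h3 : ∀ A, ∑ B, (b.adjMat g B A : ℂ) • ann M (j.1, B) (T Ω) = 0 := fun A => by
      rw [← h2 (j.1, A), h.ann, map_zero]
    have h4 : ∑ A, (b.adjMat g j.2 A : ℂ) • ∑ B, (b.adjMat g B A : ℂ) • ann M (j.1, B) (T Ω) =
        ann M j (T Ω) := by
      simp only [Finset.smul_sum, smul_smul]
      rw [Finset.sum_comm]
      simp only [← Finset.sum_smul]
      have h5 : ∀ B, ∑ A, ((b.adjMat g j.2 A : ℂ) * (b.adjMat g B A : ℂ)) =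
          if j.2 = B then 1 else 0 := fun B => orth_right (adjMat_orth b g) j.2 B
      simp only [h5]
      rw [Finset.sum_eq_single j.2]
      · rw [if_pos rfl, one_smul]
      · intro B _ hB
        rw [if_neg (Ne.symm hB), zero_smul]
      · intro h6
        exact absurd (Finset.mem_univ j.2) h6
    rw [← h4]
    exact Finset.sum_eq_zero fun A _ => by rw [h3, smul_zero]
  obtain ⟨a, ha⟩ := h.line h1
  refine ⟨a, ?_⟩
  refine eq_of_intertwine h (θ' := (rot M (adjM b g) (adjMat_orth b g)).θ) (fun α A v => ?_)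
    (fun α A v => ?_) ?_
  · rw [hT]
    simp only [rot, LinearMap.sum_apply, LinearMap.smul_apply]
  · simp only [LinearMap.smul_apply, rho_theta, rot, LinearMap.sum_apply, map_smul,
      Finset.smul_sum]
  · rw [ha, LinearMap.smul_apply, rho_vac h R]

end Crest.Agent.R330.GaugeUn973

end
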