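import Mathlib

/-!
# Multiplicative maps `SU(N) → ℂ` are trivial

No continuity is used: `g = V diag(z) V*`, `diag(z)` is a product of elements
`diag(.., u, .., u⁻¹, ..)`, each of which is conjugate to its inverse and a square.
-/

set_option autoImplicit false
set_option linter.unusedSectionVars false

open Matrix

noncomputable section

namespace Crest.Agent.R330.SUChar406

variable {N : ℕ}

local notation "SU" N => Matrix.specialUnitaryGroup (Fin N) ℂ

/-- the diagonal matrix of a family of unit complex numbers -/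
def dM (z : Fin N → Circle) : Matrix (Fin N) (Fin N) ℂ := diagonal (fun i => (z i : ℂ))

theorem dM_mul (z w : Fin N → Circle) : dM (z * w) = dM z * dM w := by
  simp [dM, diagonal_mul_diagonal]

theorem dM_one : dM (1 : Fin N → Circle) = 1 := by
  ext i j; simp [dM, Matrix.one_apply, Matrix.diagonal_apply]

theorem dM_star (z : Fin N → Circle) : star (dM z) = dM (z⁻¹) := by
  ext i j
  by_cases h : i = j
  · subst h
    simp only [dM, Matrix.star_apply, Matrix.diagonal_apply_eq, Pi.inv_apply]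
    rw [Circle.coe_inv_eq_conj]; rfl
  · simp [dM, Matrix.star_apply, h, Ne.symm h]

theorem dM_unitary (z : Fin N → Circle) : dM z ∈ Matrix.unitaryGroup (Fin N) ℂ := by
  rw [Matrix.mem_unitaryGroup_iff, dM_star, ← dM_mul, mul_inv_cancel, dM_one]

theorem dM_det (z : Fin N → Circle) : (dM z).det = ((∏ i, z i : Circle) : ℂ) := by
  rw [dM, det_diagonal]
  exact (map_prod Circle.coeHom z Finset.univ).symm

theorem prod_mulSingle_mul (i0 : Fin N) (z : Fin N → Circle) :
    ∏ i, (z * (Pi.mulSingle i0 (∏ j, z j)⁻¹ : Fin N → Circle)) i = 1 := by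
  simp only [Pi.mul_apply, Finset.prod_mul_distrib]
  rw [Finset.prod_eq_single i0 (f := fun i => (Pi.mulSingle i0 (∏ j, z j)⁻¹ : Fin N → Circle) i)]
  · simp
  · intro j _ hj; simp [Pi.mulSingle_eq_of_ne hj]
  · simp

/-- the hom `z ↦ diag(z)` with determinant corrected at the entry `i0` -/
def dg (i0 : Fin N) : (Fin N → Circle) →* (SU N) where
  toFun z := ⟨dM (z * Pi.mulSingle i0 (∏ j, z j)⁻¹), by
    rw [Matrix.mem_specialUnitaryGroup_iff]
    refine ⟨dM_unitary _, ?_⟩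
    rw [dM_det, prod_mulSingle_mul]; simp⟩
  map_one' := by
    apply Subtype.ext
    have : ((1 : Fin N → Circle) * Pi.mulSingle i0 (∏ j, (1 : Fin N → Circle) j)⁻¹) = 1 := by
      simp
    simp only [this, dM_one]; rfl
  map_mul' z w := by
    apply Subtype.ext
    change dM _ = dM _ * dM _
    rw [← dM_mul]
    congr 1
    simp only [Pi.mul_apply, Finset.prod_mul_distrib, mul_inv, Pi.mulSingle_mul]
    exact mul_mul_mul_comm _ _ _ _

theorem dg_coe (i0 : Fin N) (z : Fin N → Circle) :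
    ((dg i0 z : SU N) : Matrix (Fin N) (Fin N) ℂ) = dM (z * Pi.mulSingle i0 (∏ j, z j)⁻¹) := rfl

/-- permutation matrix -/
def pM (σ : Equiv.Perm (Fin N)) : Matrix (Fin N) (Fin N) ℂ := fun i j => if σ i = j then 1 else 0

theorem pM_mul_dM (σ : Equiv.Perm (Fin N)) (z : Fin N → Circle) :
    pM σ * dM z = dM (fun i => z (σ i)) * pM σ := by
  ext i j
  simp only [pM, dM, Matrix.mul_diagonal, Matrix.diagonal_mul]
  by_cases h : σ i = j
  · simp [h]
  · simp [h]

theorem pM_det (σ : Equiv.Perm (Fin N)) : (pM σ).det = (Equiv.Perm.sign σ : ℤ) := by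
  have h : pM σ = σ.permMatrix ℂ := by
    ext i j
    simp [pM, Equiv.toPEquiv_apply, PEquiv.toMatrix_apply, eq_comm]
  rw [h, Matrix.det_permutation]

theorem pM_unitary (σ : Equiv.Perm (Fin N)) : pM σ ∈ Matrix.unitaryGroup (Fin N) ℂ := by
  rw [Matrix.mem_unitaryGroup_iff]
  ext i j
  simp only [Matrix.mul_apply, pM, Matrix.star_apply]
  rw [Finset.sum_eq_single (σ i)]
  · by_cases h : i = j
    · subst h; simp
    · have h' : ¬ σ j = σ i := fun e => h (σ.injective e).symm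
      simp [h, h']
  · intro k _ hk; simp [Ne.symm hk]
  · simp

/-- the signed swap -/
def wM (i0 k : Fin N) (h : k ≠ i0) : SU N :=
  ⟨dM (Pi.mulSingle i0 (-1)) * pM (Equiv.swap i0 k), by
    rw [Matrix.mem_specialUnitaryGroup_iff]
    refine ⟨mul_mem (dM_unitary _) (pM_unitary _), ?_⟩
    rw [Matrix.det_mul, dM_det, pM_det, Equiv.Perm.sign_swap (Ne.symm h)]
    rw [Finset.prod_eq_single i0]
    · simp
    · intro j _ hj; simp [Pi.mulSingle_eq_of_ne hj]
    · simp⟩

theorem prod_mulSingle (k : Fin N) (v : Circle) :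
    ∏ j, (Pi.mulSingle k v : Fin N → Circle) j = v := by
  rw [Finset.prod_eq_single k]
  · simp
  · intro j _ hj; simp [Pi.mulSingle_eq_of_ne hj]
  · simp

theorem wM_conj (i0 k : Fin N) (h : k ≠ i0) (v : Circle) :
    wM i0 k h * dg i0 (Pi.mulSingle k v) = dg i0 (Pi.mulSingle k v⁻¹) * wM i0 k h := by
  apply Subtype.ext
  change (dM (Pi.mulSingle i0 (-1)) * pM (Equiv.swap i0 k)) * dM _ =
    dM _ * (dM (Pi.mulSingle i0 (-1)) * pM (Equiv.swap i0 k))
  rw [mul_assoc, pM_mul_dM, ← mul_assoc, ← mul_assoc, ← dM_mul, ← dM_mul]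
  congr 2
  funext i
  simp only [prod_mulSingle, Pi.mul_apply]
  rcases eq_or_ne i i0 with rfl | hi
  · simp [Pi.mulSingle_eq_of_ne h, Pi.mulSingle_eq_of_ne (Ne.symm h)]
  · rcases eq_or_ne i k with rfl | hk
    · simp [Pi.mulSingle_eq_of_ne h, Pi.mulSingle_eq_of_ne (Ne.symm h)]
    · simp [Equiv.swap_apply_of_ne_of_ne hi hk, Pi.mulSingle_eq_of_ne hi, Pi.mulSingle_eq_of_ne hk]

variable {A : Type*} [CommMonoidWithZero A] [NoZeroDivisors A] [Nontrivial A]

theorem chi_ne_zero (χ : (SU N) →* A) (g : SU N) : χ g ≠ 0 := by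
  intro h
  have : χ (g * g⁻¹) = 0 := by rw [map_mul, h, zero_mul]
  rw [mul_inv_cancel, map_one] at this
  exact one_ne_zero this

theorem chi_single (χ : (SU N) →* ℂ) (i0 k : Fin N) (u : Circle) :
    χ (dg i0 (Pi.mulSingle k u)) = 1 := by
  rcases eq_or_ne k i0 with rfl | h
  · have : dg k (Pi.mulSingle k u) = 1 := by
      apply Subtype.ext
      rw [dg_coe, prod_mulSingle, ← Pi.mulSingle_mul, mul_inv_cancel, Pi.mulSingle_one, dM_one]
      rfl
    rw [this, map_one]
  · obtain ⟨v, hv⟩ : ∃ v : Circle, v * v = u := by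
      refine ⟨Circle.exp (Complex.arg u / 2), ?_⟩
      rw [← Circle.exp_add, add_halves, Circle.exp_arg]
    have h1 : χ (dg i0 (Pi.mulSingle k v)) = χ (dg i0 (Pi.mulSingle k v⁻¹)) := by
      have h2 := congrArg χ (wM_conj i0 k h v)
      rw [map_mul, map_mul, mul_comm] at h2
      exact mul_right_cancel₀ (chi_ne_zero χ _) h2
    rw [← hv, Pi.mulSingle_mul, map_mul, map_mul]
    nth_rewrite 2 [h1]
    rw [← map_mul, ← map_mul, ← Pi.mulSingle_mul, mul_inv_cancel, Pi.mulSingle_one, map_one,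
      map_one]

theorem chi_dg (χ : (SU N) →* ℂ) (i0 : Fin N) (z : Fin N → Circle) : χ (dg i0 z) = 1 := by
  have : z = ∏ k, Pi.mulSingle k (z k) := (Finset.univ_prod_mulSingle z).symm
  have h2 : χ (dg i0 z) = (χ.comp (dg i0)) z := rfl
  rw [h2, this, map_prod]
  exact Finset.prod_eq_one fun k _ => chi_single χ i0 k _

theorem norm_det_of_unitary (V : Matrix (Fin N) (Fin N) ℂ)
    (hV : V ∈ Matrix.unitaryGroup (Fin N) ℂ) : ‖V.det‖ = 1 := by
  have hdet : V.det ∈ unitary ℂ := Matrix.det_of_mem_unitary hV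
  have h2 : (starRingEnd ℂ) V.det * V.det = 1 := hdet.1
  rw [← Complex.normSq_eq_conj_mul_self] at h2
  have h3 : Complex.normSq V.det = 1 := by exact_mod_cast h2
  rw [Complex.normSq_eq_norm_sq] at h3
  nlinarith [norm_nonneg V.det]

theorem exists_circle_det (V : Matrix (Fin N) (Fin N) ℂ)
    (hV : V ∈ Matrix.unitaryGroup (Fin N) ℂ) : ∃ d : Circle, (d : ℂ) = V.det :=
  ⟨⟨V.det, by simpa [Submonoid.unitSphere] using norm_det_of_unitary V hV⟩, rfl⟩

theorem fix_mem (i0 : Fin N) (V : Matrix (Fin N) (Fin N) ℂ)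
    (hV : V ∈ Matrix.unitaryGroup (Fin N) ℂ) (d : Circle) (hd : (d : ℂ) = V.det) :
    V * dM (Pi.mulSingle i0 d⁻¹) ∈ Matrix.specialUnitaryGroup (Fin N) ℂ := by
  rw [Matrix.mem_specialUnitaryGroup_iff]
  refine ⟨mul_mem hV (dM_unitary _), ?_⟩
  rw [Matrix.det_mul, dM_det, prod_mulSingle, ← hd, Circle.coe_inv]
  exact mul_inv_cancel₀ (Circle.coe_ne_zero d)

theorem conj_fix (i0 : Fin N) (V : Matrix (Fin N) (Fin N) ℂ) (d : Circle) (z : Fin N → Circle)
    (hz : ∏ i, z i = 1) :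
    (V * dM (Pi.mulSingle i0 d⁻¹)) * dM (z * Pi.mulSingle i0 (∏ j, z j)⁻¹) *
      star (V * dM (Pi.mulSingle i0 d⁻¹)) = V * dM z * star V := by
  rw [hz, inv_one, Pi.mulSingle_one, mul_one, star_mul, dM_star]
  rw [show V * dM (Pi.mulSingle i0 d⁻¹) * dM z * (dM (Pi.mulSingle i0 d⁻¹)⁻¹ * star V) =
    V * (dM (Pi.mulSingle i0 d⁻¹) * dM z * dM (Pi.mulSingle i0 d⁻¹)⁻¹) * star V by
      simp only [mul_assoc]]
  rw [← dM_mul, ← dM_mul, mul_comm (Pi.mulSingle i0 d⁻¹) z, mul_inv_cancel_right]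

/-- a multiplicative map is trivial on all diagonalised elements -/
theorem chi_eq_one_of_diag (χ : (SU N) →* ℂ) (g : SU N) (V : Matrix (Fin N) (Fin N) ℂ)
    (hV : V ∈ Matrix.unitaryGroup (Fin N) ℂ) (z : Fin N → Circle)
    (hz : ∏ i, z i = 1)
    (hg : (g : Matrix (Fin N) (Fin N) ℂ) = V * dM z * star V) : χ g = 1 := by
  rcases Nat.eq_zero_or_pos N with h0 | hN
  · subst h0
    have : g = 1 := by
      apply Subtype.ext; ext i; exact i.elim0
    rw [this, map_one]
  · obtain ⟨d, hd⟩ := exists_circle_det V hV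
    have hgz : g = (⟨_, fix_mem ⟨0, hN⟩ V hV d hd⟩ : SU N) * dg ⟨0, hN⟩ z *
        (⟨_, fix_mem ⟨0, hN⟩ V hV d hd⟩ : SU N)⁻¹ := by
      apply Subtype.ext
      rw [hg]
      exact (conj_fix ⟨0, hN⟩ V d z hz).symm
    rw [hgz, map_mul, map_mul, chi_dg, mul_one, ← map_mul, mul_inv_cancel, map_one]

end Crest.Agent.R330.SUChar406
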