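import Crest.Agent.R330.Lift_406
import Crest.Agent.R330.SUChar_406

/-!
# (1.3): `ρ(exp(-i t Σ ω_A T_A)) = exp(t B(ω))` and infinitesimal equivariance
-/

set_option autoImplicit false
set_option linter.unusedSectionVars false
set_option linter.style.haveILetI false

open MeasureTheory Filter Topology Crest.MathPhysics.MatrixQM
open NormedSpace (exp)
open scoped InnerProductSpace ContDiff

noncomputable section

namespace Crest.Agent.R330.Lift406

variable {N : ℕ}

/-! ## colour algebra -/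

/-- `Σ_A v_A T_A` -/
def Tm (b : ColorBasis N) : (Fin (N ^ 2 - 1) → ℝ) →ₗ[ℝ] Matrix (Fin N) (Fin N) ℂ where
  toFun v := ∑ A, (v A : ℂ) • b.T A
  map_add' u v := by simp [add_smul, Finset.sum_add_distrib]
  map_smul' c v := by
    simp only [Pi.smul_apply, smul_eq_mul, Complex.ofReal_mul, mul_smul, RingHom.id_apply,
      Finset.smul_sum]
    refine Finset.sum_congr rfl fun A _ => ?_
    ext i j; simp

theorem Tm_apply (b : ColorBasis N) (v : Fin (N ^ 2 - 1) → ℝ) :
    Tm b v = ∑ A, (v A : ℂ) • b.T A := rfl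

theorem Tm_single (b : ColorBasis N) (A : Fin (N ^ 2 - 1)) :
    Tm b (Pi.single A 1) = b.T A := by
  rw [Tm_apply, Finset.sum_eq_single A]
  · simp
  · intro B _ hB; simp [Pi.single_eq_of_ne hB]
  · simp

theorem trace_T_Tm (b : ColorBasis N) (A : Fin (N ^ 2 - 1)) (v : Fin (N ^ 2 - 1) → ℝ) :
    (b.T A * Tm b v).trace = v A := by
  rw [Tm_apply, Finset.mul_sum, Matrix.trace_sum, Finset.sum_eq_single A]
  · rw [mul_smul_comm, Matrix.trace_smul, b.orthonormal]; simp
  · intro B _ hB
    rw [mul_smul_comm, Matrix.trace_smul, b.orthonormal, if_neg (Ne.symm hB)]; simp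
  · simp

theorem Tm_trace (b : ColorBasis N) (v : Fin (N ^ 2 - 1) → ℝ) : (Tm b v).trace = 0 := by
  rw [Tm_apply, Matrix.trace_sum]
  exact Finset.sum_eq_zero fun A _ => by rw [Matrix.trace_smul, b.traceless, smul_zero]

theorem Tm_herm (b : ColorBasis N) (v : Fin (N ^ 2 - 1) → ℝ) : (Tm b v).IsHermitian := by
  rw [Matrix.IsHermitian, Tm_apply, Matrix.conjTranspose_sum]
  refine Finset.sum_congr rfl fun A _ => ?_
  rw [Matrix.conjTranspose_smul, b.herm A]; simp

/-- completeness of the colour basis -/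
theorem complete (b : ColorBasis N) (X : Matrix (Fin N) (Fin N) ℂ) (hX : X.trace = 0) :
    X = ∑ A, (b.T A * X).trace • b.T A := by
  rcases Nat.eq_zero_or_pos N with h0 | hN
  · subst h0; ext i; exact i.elim0
  set Φ : (Option (Fin (N ^ 2 - 1)) → ℂ) →ₗ[ℂ] Matrix (Fin N) (Fin N) ℂ :=
    { toFun := fun c => c none • 1 + ∑ A, c (some A) • b.T A
      map_add' := by
        intro c d
        simp only [Pi.add_apply, add_smul, Finset.sum_add_distrib]; abel
      map_smul' := by
        intro r c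
        simp only [Pi.smul_apply, smul_eq_mul, mul_smul, RingHom.id_apply, smul_add,
          Finset.smul_sum] } with hΦ
  have hΦa : ∀ c, Φ c = c none • 1 + ∑ A, c (some A) • b.T A := fun c => rfl
  have htr0 : ∀ c, (Φ c).trace = c none * N := by
    intro c
    rw [hΦa, Matrix.trace_add, Matrix.trace_smul, Matrix.trace_one, Matrix.trace_sum,
      Finset.sum_eq_zero (fun A _ => by rw [Matrix.trace_smul, b.traceless, smul_zero])]
    simp
  have htrA : ∀ c A, (b.T A * Φ c).trace = c (some A) := by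
    intro c A
    rw [hΦa, mul_add, Matrix.trace_add, mul_smul_comm, mul_one, Matrix.trace_smul, b.traceless,
      smul_zero, zero_add, Finset.mul_sum, Matrix.trace_sum, Finset.sum_eq_single A]
    · rw [mul_smul_comm, Matrix.trace_smul, b.orthonormal]; simp
    · intro B _ hB
      rw [mul_smul_comm, Matrix.trace_smul, b.orthonormal, if_neg (Ne.symm hB)]; simp
    · simp
  have hinj : Function.Injective Φ := by
    rw [← LinearMap.ker_eq_bot, LinearMap.ker_eq_bot']
    intro c hc
    funext o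
    cases o with
    | none =>
      have := htr0 c
      rw [hc, Matrix.trace_zero] at this
      have hN' : (N : ℂ) ≠ 0 := by exact_mod_cast hN.ne'
      rcases mul_eq_zero.mp this.symm with h | h
      · simpa using h
      · exact absurd h hN'
    | some A =>
      have := htrA c A
      rw [hc, mul_zero, Matrix.trace_zero] at this
      simpa using this.symm
  have hdim : Module.finrank ℂ (Option (Fin (N ^ 2 - 1)) → ℂ) =
      Module.finrank ℂ (Matrix (Fin N) (Fin N) ℂ) := by
    rw [Module.finrank_fintype_fun_eq_card, Module.finrank_matrix, Fintype.card_option,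
      Fintype.card_fin, Fintype.card_fin, Module.finrank_self]
    have : 0 < N ^ 2 := by positivity
    rw [Nat.sub_add_cancel this]; ring
  have hsurj := (LinearMap.injective_iff_surjective_of_finrank_eq_finrank hdim).mp hinj
  obtain ⟨c, hc⟩ := hsurj X
  have h1 : c none = 0 := by
    have := htr0 c
    rw [hc, hX] at this
    have hN' : (N : ℂ) ≠ 0 := by exact_mod_cast hN.ne'
    rcases mul_eq_zero.mp this.symm with h | h
    · exact h
    · exact absurd h hN'
  have h2 : ∀ A, (b.T A * X).trace = c (some A) := fun A => by rw [← hc]; exact htrA c A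
  calc X = Φ c := hc.symm
    _ = ∑ A, (b.T A * X).trace • b.T A := by
      rw [hΦa, h1, zero_smul, zero_add]
      exact Finset.sum_congr rfl fun A _ => by rw [h2]

/-- `tr([T_A,T_B] T_C) = i f_ABC` -/
theorem trace_comm_eq (b : ColorBasis N) (A B C : Fin (N ^ 2 - 1)) :
    ((b.T A * b.T B - b.T B * b.T A) * b.T C).trace = Complex.I * (b.structConst A B C : ℂ) := by
  set τ := ((b.T A * b.T B - b.T B * b.T A) * b.T C).trace with hτ
  have hconj : (starRingEnd ℂ) τ = - τ := by
    have h1 : (starRingEnd ℂ) τ =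
        (((b.T A * b.T B - b.T B * b.T A) * b.T C).conjTranspose).trace := by
      rw [Matrix.trace_conjTranspose]; rfl
    rw [h1, Matrix.conjTranspose_mul, Matrix.conjTranspose_sub, Matrix.conjTranspose_mul,
      Matrix.conjTranspose_mul, b.herm A, b.herm B, b.herm C, Matrix.trace_mul_comm, hτ,
      ← Matrix.trace_neg, ← neg_mul, neg_sub]
  have him : τ.re = 0 := by
    have := congrArg Complex.re hconj
    simp only [Complex.conj_re, Complex.neg_re] at this
    linarith
  have hf : b.structConst A B C = τ.im := by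
    simp only [ColorBasis.structConst, ← hτ]
    simp
  rw [hf]
  apply Complex.ext <;> simp [him]

theorem structConst_swap (b : ColorBasis N) (A B C : Fin (N ^ 2 - 1)) :
    b.structConst B A C = - b.structConst A B C := by
  simp only [ColorBasis.structConst]
  have h : (b.T B * b.T A - b.T A * b.T B) * b.T C =
      -((b.T A * b.T B - b.T B * b.T A) * b.T C) := by noncomm_ring
  rw [h, Matrix.trace_neg]
  simp

theorem structConst_cyc (b : ColorBasis N) (A B C : Fin (N ^ 2 - 1)) :
    b.structConst A B C = b.structConst B C A := by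
  simp only [ColorBasis.structConst]
  congr 2
  rw [sub_mul, sub_mul, Matrix.trace_sub, Matrix.trace_sub]
  congr 1
  · rw [mul_assoc, Matrix.trace_mul_comm]
  · rw [Matrix.trace_mul_comm, ← mul_assoc]

theorem structConst_swap_right (b : ColorBasis N) (A B C : Fin (N ^ 2 - 1)) :
    b.structConst A C B = - b.structConst A B C := by
  rw [structConst_cyc b A C B, structConst_cyc b C B A, structConst_swap]

/-- the bracket `[u,v]^C = Σ f_ABC u_A v_B` on colour vectors, as a continuous linear map in `v` -/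
def adL (b : ColorBasis N) (u : Fin (N ^ 2 - 1) → ℝ) :
    (Fin (N ^ 2 - 1) → ℝ) →L[ℝ] (Fin (N ^ 2 - 1) → ℝ) :=
  LinearMap.toContinuousLinearMap
    { toFun := fun v C => ∑ A, ∑ B, b.structConst A B C * u A * v B
      map_add' := by
        intro v w; funext C
        simp [mul_add, Finset.sum_add_distrib]
      map_smul' := by
        intro r v; funext C
        simp only [Pi.smul_apply, smul_eq_mul, RingHom.id_apply, Finset.mul_sum]
        refine Finset.sum_congr rfl fun A _ => Finset.sum_congr rfl fun B _ => ?_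
        ring }

theorem adL_apply (b : ColorBasis N) (u v : Fin (N ^ 2 - 1) → ℝ) (C : Fin (N ^ 2 - 1)) :
    adL b u v C = ∑ A, ∑ B, b.structConst A B C * u A * v B := rfl

theorem T_comm (b : ColorBasis N) (A B : Fin (N ^ 2 - 1)) :
    b.T A * b.T B - b.T B * b.T A =
      Complex.I • ∑ C, (b.structConst A B C : ℂ) • b.T C := by
  have h0 : (b.T A * b.T B - b.T B * b.T A).trace = 0 := by
    rw [Matrix.trace_sub, Matrix.trace_mul_comm, sub_self]
  rw [complete b _ h0, Finset.smul_sum]
  refine Finset.sum_congr rfl fun C _ => ?_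
  rw [Matrix.trace_mul_comm, trace_comm_eq, smul_smul]

theorem Tm_mul (b : ColorBasis N) (u v : Fin (N ^ 2 - 1) → ℝ) :
    Tm b u * Tm b v = ∑ A, ∑ B, ((u A : ℂ) * (v B : ℂ)) • (b.T A * b.T B) := by
  rw [Tm_apply, Tm_apply, Finset.sum_mul]
  refine Finset.sum_congr rfl fun A _ => ?_
  rw [Finset.mul_sum]
  refine Finset.sum_congr rfl fun B _ => ?_
  rw [smul_mul_assoc, mul_smul_comm, smul_smul]

theorem Tm_comm (b : ColorBasis N) (u v : Fin (N ^ 2 - 1) → ℝ) :
    Tm b u * Tm b v - Tm b v * Tm b u = Complex.I • Tm b (adL b u v) := by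
  have h1 : Tm b u * Tm b v - Tm b v * Tm b u =
      ∑ A, ∑ B, ((u A : ℂ) * (v B : ℂ)) • (b.T A * b.T B - b.T B * b.T A) := by
    simp only [smul_sub, Finset.sum_sub_distrib]
    congr 1
    · exact Tm_mul b u v
    · rw [Finset.sum_comm, Tm_mul]
      refine Finset.sum_congr rfl fun B _ => Finset.sum_congr rfl fun A _ => ?_
      rw [mul_comm]
  rw [h1]
  simp only [T_comm, Tm_apply, adL_apply, Complex.ofReal_sum, Complex.ofReal_mul, Finset.smul_sum,
    Finset.sum_smul, smul_smul]
  have h2 : ∀ A : Fin (N ^ 2 - 1), ∑ B, ∑ C, ((u A : ℂ) * (v B : ℂ) * (Complex.I *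
      (b.structConst A B C : ℂ))) • b.T C =
      ∑ C, ∑ B, (Complex.I * ((b.structConst A B C : ℂ) * (u A : ℂ) * (v B : ℂ))) • b.T C := by
    intro A
    rw [Finset.sum_comm]
    refine Finset.sum_congr rfl fun C _ => Finset.sum_congr rfl fun B _ => ?_
    congr 1; ring
  simp only [h2]
  rw [Finset.sum_comm]

/-! ## one-parameter subgroups of SU(N) -/

/-- the skew-Hermitian generator `-i Σ ω_A T_A` -/
def Xm (b : ColorBasis N) (om : Fin (N ^ 2 - 1) → ℝ) : Matrix (Fin N) (Fin N) ℂ :=
  (-Complex.I) • Tm b om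

theorem Xm_comm (b : ColorBasis N) (u v : Fin (N ^ 2 - 1) → ℝ) :
    Xm b u * Tm b v - Tm b v * Xm b u = Tm b (adL b u v) := by
  rw [Xm, smul_mul_assoc, mul_smul_comm, ← smul_sub, Tm_comm, smul_smul]
  simp

/-- the eigenvalue angles of `exp(t X)` -/
def ang (b : ColorBasis N) (om : Fin (N ^ 2 - 1) → ℝ) (t : ℝ) (k : Fin N) : Circle :=
  Circle.exp (-(t * (Tm_herm b om).eigenvalues k))

theorem exp_diag (b : ColorBasis N) (om : Fin (N ^ 2 - 1) → ℝ) (t : ℝ) :
    exp (t • Xm b om) =
      ((Tm_herm b om).eigenvectorUnitary : Matrix (Fin N) (Fin N) ℂ) *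
        SUChar406.dM (ang b om t) *
        star ((Tm_herm b om).eigenvectorUnitary : Matrix (Fin N) (Fin N) ℂ) := by
  set U := (Tm_herm b om).eigenvectorUnitary with hU
  have h1 : Tm b om = (U : Matrix (Fin N) (Fin N) ℂ) *
      Matrix.diagonal (fun k => ((Tm_herm b om).eigenvalues k : ℂ)) *
      star (U : Matrix (Fin N) (Fin N) ℂ) := by
    have := (Tm_herm b om).spectral_theorem
    rw [Unitary.conjStarAlgAut_apply] at this
    exact this
  have hUu : (U : Matrix (Fin N) (Fin N) ℂ) * star (U : Matrix (Fin N) (Fin N) ℂ) = 1 :=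
    Matrix.mem_unitaryGroup_iff.mp U.2
  have hinv : star (U : Matrix (Fin N) (Fin N) ℂ) = (U : Matrix (Fin N) (Fin N) ℂ)⁻¹ :=
    (Matrix.inv_eq_right_inv hUu).symm
  have hunit : IsUnit (U : Matrix (Fin N) (Fin N) ℂ) :=
    IsUnit.of_mul_eq_one _ hUu
  have h2 : t • Xm b om = (U : Matrix (Fin N) (Fin N) ℂ) *
      Matrix.diagonal (fun k => -((t * (Tm_herm b om).eigenvalues k : ℝ) : ℂ) * Complex.I) *
      (U : Matrix (Fin N) (Fin N) ℂ)⁻¹ := by
    rw [Xm, ← hinv]
    conv_lhs => rw [h1]
    have h3 : Matrix.diagonal (fun k => -((t * (Tm_herm b om).eigenvalues k : ℝ) : ℂ) * Complex.I) =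
        (t • (-Complex.I)) • Matrix.diagonal (fun k => ((Tm_herm b om).eigenvalues k : ℂ)) := by
      rw [← Matrix.diagonal_smul]
      congr 1
      funext k
      simp only [Pi.smul_apply, smul_eq_mul, Complex.real_smul]
      push_cast; ring
    rw [h3, mul_smul_comm, smul_mul_assoc, smul_assoc]
  rw [h2, Matrix.exp_conj _ _ hunit, Matrix.exp_diagonal, ← hinv]
  congr 2
  rw [SUChar406.dM]
  congr 1
  funext k
  rw [Pi.coe_exp, ← Complex.exp_eq_exp_ℂ, ang, Circle.coe_exp]
  push_cast
  rfl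

theorem prod_ang (b : ColorBasis N) (om : Fin (N ^ 2 - 1) → ℝ) (t : ℝ) :
    ∏ k, ang b om t k = 1 := by
  have h1 : ∏ k, ang b om t k = Circle.exp (∑ k, -(t * (Tm_herm b om).eigenvalues k)) := by
    simp only [ang]
    exact (map_sum Circle.expHom (fun k => -(t * (Tm_herm b om).eigenvalues k)) Finset.univ).symm
  have h2 : ∑ k, (Tm_herm b om).eigenvalues k = 0 := by
    have := (Tm_herm b om).trace_eq_sum_eigenvalues
    rw [Tm_trace, ← RCLike.ofReal_sum] at this
    exact Complex.ofReal_injective (by rw [Complex.ofReal_zero]; exact this.symm)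
  rw [h1, Finset.sum_neg_distrib, ← Finset.mul_sum, h2]
  simp

/-- `g_t = exp(-i t Σ ω_A T_A) ∈ SU(N)` -/
def gSU (b : ColorBasis N) (om : Fin (N ^ 2 - 1) → ℝ) (t : ℝ) :
    Matrix.specialUnitaryGroup (Fin N) ℂ :=
  ⟨exp (t • Xm b om), by
    rw [exp_diag, Matrix.mem_specialUnitaryGroup_iff]
    have hU := (Tm_herm b om).eigenvectorUnitary.2
    refine ⟨mul_mem (mul_mem hU (SUChar406.dM_unitary _)) (Unitary.star_mem hU), ?_⟩
    rw [Matrix.det_mul, Matrix.det_mul, SUChar406.dM_det, prod_ang, Circle.coe_one, mul_one,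
      ← Matrix.det_mul, Matrix.mem_unitaryGroup_iff.mp hU, Matrix.det_one]⟩

theorem gSU_coe (b : ColorBasis N) (om : Fin (N ^ 2 - 1) → ℝ) (t : ℝ) :
    (gSU b om t : Matrix (Fin N) (Fin N) ℂ) = exp (t • Xm b om) := rfl

theorem chi_gSU (χ : Matrix.specialUnitaryGroup (Fin N) ℂ →* ℂ)
    (b : ColorBasis N) (om : Fin (N ^ 2 - 1) → ℝ) (t : ℝ) : χ (gSU b om t) = 1 :=
  SUChar406.chi_eq_one_of_diag χ _ _ (Tm_herm b om).eigenvectorUnitary.2 (ang b om t)
    (prod_ang b om t) (by rw [gSU_coe, exp_diag])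

theorem gSU_zero (b : ColorBasis N) (om : Fin (N ^ 2 - 1) → ℝ) : gSU b om 0 = 1 := by
  apply Subtype.ext
  rw [gSU_coe, zero_smul, NormedSpace.exp_zero]; rfl

theorem gSU_pow (b : ColorBasis N) (om : Fin (N ^ 2 - 1) → ℝ) (t : ℝ) (n : ℕ) :
    gSU b om t ^ n = gSU b om (n * t) := by
  apply Subtype.ext
  rw [SubmonoidClass.coe_pow, gSU_coe, gSU_coe, ← Matrix.exp_nsmul, mul_smul,
    Nat.cast_smul_eq_nsmul ℝ]

section

open scoped Matrix.Norms.Operator

set_option backward.isDefEq.respectTransparency false in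
/-- `g_t T(v) g_t* = T(e^{t ad ω} v)` -/
theorem gSU_conj (b : ColorBasis N) (om : Fin (N ^ 2 - 1) → ℝ) (t : ℝ)
    (v : Fin (N ^ 2 - 1) → ℝ) :
    Tm b (exp (t • adL b om) v) * exp (t • Xm b om) = exp (t • Xm b om) * Tm b v :=
  exp_intertwine (𝔸 := Matrix (Fin N) (Fin N) ℂ)
    (LinearMap.toContinuousLinearMap (Tm b)) (adL b om) (Xm b om)
    (fun v => Xm_comm b om v) t v

end

theorem gSU_star (b : ColorBasis N) (om : Fin (N ^ 2 - 1) → ℝ) (t : ℝ) :
    (gSU b om t : Matrix (Fin N) (Fin N) ℂ) * star (gSU b om t : Matrix (Fin N) (Fin N) ℂ) = 1 :=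
  Matrix.mem_unitaryGroup_iff.mp (Matrix.specialUnitaryGroup_le_unitaryGroup (gSU b om t).2)

/-- the adjoint matrix of `g_t` is `exp(t ad ω)` -/
theorem adjMat_gSU (b : ColorBasis N) (om : Fin (N ^ 2 - 1) → ℝ) (t : ℝ)
    (A B : Fin (N ^ 2 - 1)) :
    b.adjMat (gSU b om t) A B = exp (t • adL b om) (Pi.single B 1) A := by
  rw [ColorBasis.adjMat]
  have h1 : (gSU b om t : Matrix (Fin N) (Fin N) ℂ) * b.T B =
      Tm b (exp (t • adL b om) (Pi.single B 1)) * (gSU b om t : Matrix (Fin N) (Fin N) ℂ) := by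
    rw [gSU_coe, gSU_conj, Tm_single]
  rw [mul_assoc (b.T A), h1, mul_assoc, mul_assoc, gSU_star, mul_one, trace_T_Tm]
  simp

/-- the adjoint matrix acting on a colour vector -/
theorem adjMat_gSU_sum (b : ColorBasis N) (om : Fin (N ^ 2 - 1) → ℝ) (t : ℝ)
    (v : Fin (N ^ 2 - 1) → ℝ) (A : Fin (N ^ 2 - 1)) :
    ∑ B, b.adjMat (gSU b om t) A B * v B = exp (t • adL b om) v A := by
  have h1 : v = ∑ B, v B • (Pi.single B 1 : Fin (N ^ 2 - 1) → ℝ) := by
    funext C
    rw [Finset.sum_apply, Finset.sum_eq_single C]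
    · simp
    · intro B _ hB; simp [Pi.single_eq_of_ne (Ne.symm hB)]
    · simp
  conv_rhs => rw [h1]
  rw [map_sum, Finset.sum_apply]
  refine Finset.sum_congr rfl fun B _ => ?_
  rw [map_smul, Pi.smul_apply, adjMat_gSU, smul_eq_mul, mul_comm]

end Crest.Agent.R330.Lift406
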