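import Mathlib

/-!
# The sharp Gaussian Poincaré inequality in dimension one (helper151)

`gs l x = √(l/π) exp (-l x²)` (a probability density).  For `g : ℝ → F` of class `C¹` with compact
support, `F` a complete real inner product space,
`∫ gs ‖g‖² - ‖∫ gs g‖² ≤ (1/2l) ∫ gs ‖g'‖²` (`poincare1`).
-/

set_option autoImplicit false
set_option linter.unusedSectionVars false

open MeasureTheory Filter Topology Set Real
open scoped InnerProductSpace ENNReal

noncomputable section

namespace Crest.Agent.R330.Gauss151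

/-- Gaussian probability density of variance `1/(2l)`. -/
def gs (l x : ℝ) : ℝ := √(l / π) * exp (-l * x ^ 2)

variable {l : ℝ}

theorem gs_pos (hl : 0 < l) (x : ℝ) : 0 < gs l x :=
  mul_pos (Real.sqrt_pos.2 (div_pos hl pi_pos)) (exp_pos _)

theorem continuous_gs : Continuous (gs l) := by
  unfold gs
  fun_prop

theorem contDiff_gs {n : WithTop ℕ∞} : ContDiff ℝ n (gs l) := by
  unfold gs
  fun_prop

theorem integrable_gs (hl : 0 < l) : Integrable (gs l) :=
  (integrable_exp_neg_mul_sq hl).const_mul _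

theorem integral_gs (hl : 0 < l) : ∫ x, gs l x = 1 := by
  unfold gs
  rw [integral_const_mul, integral_gaussian, ← Real.sqrt_mul (div_pos hl pi_pos).le,
    div_mul_div_comm, mul_comm π l, div_self (mul_pos hl pi_pos).ne', Real.sqrt_one]

theorem integrable_mul_gs (hl : 0 < l) : Integrable fun x => x * gs l x := by
  have h1 := (integrable_mul_exp_neg_mul_sq hl).const_mul (√(l / π))
  refine h1.congr (ae_of_all _ fun x => ?_)
  unfold gs
  ring

theorem hasDerivAt_gs (x : ℝ) : HasDerivAt (gs l) (-(2 * l) * (x * gs l x)) x := by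
  unfold gs
  have h1 : HasDerivAt (fun x : ℝ => -l * x ^ 2) (-l * (2 * x)) x := by
    simpa using (hasDerivAt_pow 2 x).const_mul (-l)
  have h2 := (h1.exp).const_mul (√(l / π))
  refine h2.congr_deriv ?_
  ring

theorem tendsto_gs (hl : 0 < l) : Tendsto (gs l) (cocompact ℝ) (𝓝 0) := by
  unfold gs
  have h1 : Tendsto (fun x : ℝ => l * x ^ 2) (cocompact ℝ) atTop := by
    have h2 : Tendsto (fun x : ℝ => ‖x‖ ^ 2) (cocompact ℝ) atTop :=
      (tendsto_pow_atTop two_ne_zero).comp tendsto_norm_cocompact_atTop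
    refine (h2.const_mul_atTop hl).congr fun x => ?_
    rw [Real.norm_eq_abs, sq_abs]
  have h3 : Tendsto (fun x : ℝ => √(l / π) * exp (-(l * x ^ 2))) (cocompact ℝ)
      (𝓝 (√(l / π) * 0)) := (Real.tendsto_exp_neg_atTop_nhds_zero.comp h1).const_mul _
  rw [mul_zero] at h3
  refine h3.congr fun x => ?_
  rw [neg_mul]

theorem tail_right (hl : 0 < l) (t : ℝ) : ∫ x in Ioi t, x * gs l x = gs l t / (2 * l) := by
  have h1 : ∀ x ∈ Ici t, HasDerivAt (fun x => -(gs l x) / (2 * l)) (x * gs l x) x := by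
    intro x _
    refine ((hasDerivAt_gs x).neg.div_const (2 * l)).congr_deriv ?_
    field_simp
  have h2 : Tendsto (fun x => -(gs l x) / (2 * l)) atTop (𝓝 0) := by
    have h3 : Tendsto (gs l) atTop (𝓝 0) :=
      (tendsto_gs hl).mono_left atTop_le_cocompact
    have h4 := (h3.neg).div_const (2 * l)
    simpa using h4
  have h3 := integral_Ioi_of_hasDerivAt_of_tendsto' h1 (integrable_mul_gs hl).integrableOn h2
  rw [h3]
  ring

theorem tail_left (hl : 0 < l) (t : ℝ) : ∫ x in Iic t, x * gs l x = -(gs l t / (2 * l)) := by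
  have h1 : ∀ x ∈ Iic t, HasDerivAt (fun x => -(gs l x) / (2 * l)) (x * gs l x) x := by
    intro x _
    refine ((hasDerivAt_gs x).neg.div_const (2 * l)).congr_deriv ?_
    field_simp
  have h2 : Tendsto (fun x => -(gs l x) / (2 * l)) atBot (𝓝 0) := by
    have h3 : Tendsto (gs l) atBot (𝓝 0) :=
      (tendsto_gs hl).mono_left atBot_le_cocompact
    have h4 := (h3.neg).div_const (2 * l)
    simpa using h4
  have h3 := integral_Iic_of_hasDerivAt_of_tendsto' h1 (integrable_mul_gs hl).integrableOn h2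
  rw [h3]
  ring

/-- The kernel of the double integral. -/
def kf (l t x y : ℝ) : ℝ≥0∞ :=
  (Ioi t).indicator (fun x => (Iic t).indicator
    (fun y => ENNReal.ofReal (gs l x * gs l y * (x - y))) y) x

theorem kf_integral (hl : 0 < l) (t : ℝ) :
    ∫⁻ x, ∫⁻ y, kf l t x y = ENNReal.ofReal (gs l t / (2 * l)) := by
  set p : ℝ := ∫ x in Ioi t, gs l x with hp
  set n : ℝ := ∫ x in Iic t, gs l x with hn
  have hpn : n + p = 1 := by
    rw [hn, hp, ← integral_gs hl, ← intervalIntegral.integral_Iic_add_Ioi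
      (integrable_gs hl).integrableOn (integrable_gs hl).integrableOn]
  have hi1 : IntegrableOn (fun x => x * gs l x) (Ioi t) := (integrable_mul_gs hl).integrableOn
  have hi2 : IntegrableOn (fun x => x * gs l x) (Iic t) := (integrable_mul_gs hl).integrableOn
  have hg1 : IntegrableOn (gs l) (Ioi t) := (integrable_gs hl).integrableOn
  have hg2 : IntegrableOn (gs l) (Iic t) := (integrable_gs hl).integrableOn
  -- inner integral
  have e1 : ∀ x, t < x → ∫⁻ y, kf l t x y =
      ENNReal.ofReal (gs l x * (x * n + gs l t / (2 * l))) := by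
    intro x hx
    have h1 : ∀ y, kf l t x y = (Iic t).indicator
        (fun y => ENNReal.ofReal (gs l x * gs l y * (x - y))) y := fun y =>
      indicator_of_mem (s := Ioi t) hx _
    simp only [h1]
    rw [lintegral_indicator measurableSet_Iic, ← ofReal_integral_eq_lintegral_ofReal]
    · congr 1
      have h2 : ∀ y, gs l x * gs l y * (x - y) = gs l x * (x * gs l y - y * gs l y) := fun y => by
        ring
      simp only [h2]
      rw [integral_const_mul, integral_sub (hg2.const_mul x) hi2, integral_const_mul,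
        tail_left hl, ← hn]
      ring
    · have h3 : Integrable (fun y => gs l x * (x * gs l y - y * gs l y))
          (volume.restrict (Iic t)) := ((hg2.const_mul x).sub hi2).const_mul _
      refine h3.congr (ae_of_all _ fun y => ?_)
      ring
    · refine (ae_restrict_iff' measurableSet_Iic).2 (ae_of_all _ fun y hy => ?_)
      have : y ≤ t := hy
      exact mul_nonneg (mul_nonneg (gs_pos hl _).le (gs_pos hl _).le) (by linarith)
  have e2 : ∀ x, ∫⁻ y, kf l t x y = (Ioi t).indicator
      (fun x => ENNReal.ofReal (gs l x * (x * n + gs l t / (2 * l)))) x := by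
    intro x
    by_cases hx : x ∈ Ioi t
    · rw [indicator_of_mem hx]
      exact e1 x hx
    · rw [indicator_of_notMem hx]
      have h1 : ∀ y, kf l t x y = 0 := fun y => indicator_of_notMem (s := Ioi t) hx _
      simp only [h1, lintegral_zero]
  simp only [e2]
  have hnn : ∀ x, t < x → 0 ≤ gs l x * (x * n + gs l t / (2 * l)) := by
    intro x hx
    refine mul_nonneg (gs_pos hl _).le ?_
    have h4 : x * n + gs l t / (2 * l) = ∫ y in Iic t, (x - y) * gs l y := by
      have h2 : ∀ y, (x - y) * gs l y = x * gs l y - y * gs l y := fun y => by ring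
      simp only [h2]
      rw [integral_sub (hg2.const_mul x) hi2, integral_const_mul, tail_left hl, ← hn]
      ring
    rw [h4]
    refine setIntegral_nonneg measurableSet_Iic fun y hy => ?_
    have : y ≤ t := hy
    exact mul_nonneg (by linarith) (gs_pos hl _).le
  rw [lintegral_indicator measurableSet_Ioi, ← ofReal_integral_eq_lintegral_ofReal]
  · congr 1
    have h2 : ∀ x, gs l x * (x * n + gs l t / (2 * l)) =
        n * (x * gs l x) + gs l t / (2 * l) * gs l x := fun x => by ring
    simp only [h2]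
    rw [integral_add (hi1.const_mul n) (hg1.const_mul _), integral_const_mul, integral_const_mul,
      tail_right hl, ← hp]
    have : n * (gs l t / (2 * l)) + gs l t / (2 * l) * p = (n + p) * (gs l t / (2 * l)) := by ring
    rw [this, hpn, one_mul]
  · have h3 : Integrable (fun x => n * (x * gs l x) + gs l t / (2 * l) * gs l x)
        (volume.restrict (Ioi t)) := (hi1.const_mul n).add (hg1.const_mul _)
    refine h3.congr (ae_of_all _ fun x => ?_)
    ring
  · exact (ae_restrict_iff' measurableSet_Ioi).2 (ae_of_all _ fun x hx => hnn x hx)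

theorem measurable_kf : Measurable fun q : (ℝ × ℝ) × ℝ => kf l q.1.1 q.1.2 q.2 := by
  have h1 : (fun q : (ℝ × ℝ) × ℝ => kf l q.1.1 q.1.2 q.2) =
      fun q => {q : (ℝ × ℝ) × ℝ | q.1.1 < q.1.2}.indicator ({q : (ℝ × ℝ) × ℝ | q.2 ≤ q.1.1}.indicator
        (fun q => ENNReal.ofReal (gs l q.1.2 * gs l q.2 * (q.1.2 - q.2)))) q := by
    funext q
    unfold kf
    by_cases h : q.1.1 < q.1.2
    · rw [indicator_of_mem (s := Ioi q.1.1) h,
        indicator_of_mem (s := {q : (ℝ × ℝ) × ℝ | q.1.1 < q.1.2}) h]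
      by_cases h' : q.2 ≤ q.1.1
      · rw [indicator_of_mem (s := Iic q.1.1) h',
          indicator_of_mem (s := {q : (ℝ × ℝ) × ℝ | q.2 ≤ q.1.1}) h']
      · rw [indicator_of_notMem (s := Iic q.1.1) h',
          indicator_of_notMem (s := {q : (ℝ × ℝ) × ℝ | q.2 ≤ q.1.1}) h']
    · rw [indicator_of_notMem (s := Ioi q.1.1) h,
        indicator_of_notMem (s := {q : (ℝ × ℝ) × ℝ | q.1.1 < q.1.2}) h]
  rw [h1]
  have hgs : Measurable (gs l) := continuous_gs.measurable
  refine Measurable.indicator (Measurable.indicator ?_ ?_) ?_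
  · exact ENNReal.measurable_ofReal.comp (((hgs.comp measurable_fst.snd).mul
      (hgs.comp measurable_snd)).mul (measurable_fst.snd.sub measurable_snd))
  · exact measurableSet_le measurable_snd measurable_fst.fst
  · exact measurableSet_lt measurable_fst.fst measurable_fst.snd

section vector

variable {F : Type*} [NormedAddCommGroup F] [InnerProductSpace ℝ F] [CompleteSpace F]

/-- Increments. -/
theorem increment {g : ℝ → F} (hg : ContDiff ℝ 1 g) {x y : ℝ} (hxy : y ≤ x) :
    ‖g x - g y‖ ^ 2 ≤ (x - y) * ∫ t in y..x, ‖deriv g t‖ ^ 2 := by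
  have hd : Continuous (deriv g) := hg.continuous_deriv le_rfl
  have h1 : ∫ t in y..x, deriv g t = g x - g y :=
    intervalIntegral.integral_deriv_eq_sub (fun t _ => hg.differentiable one_ne_zero t)
      (hd.intervalIntegrable _ _)
  rcases hxy.eq_or_lt with rfl | hlt
  · simp
  have h2 : ‖g x - g y‖ ≤ ∫ t in y..x, ‖deriv g t‖ := by
    rw [← h1]
    exact intervalIntegral.norm_integral_le_integral_norm hxy
  have h3 : (∫ t in y..x, ‖deriv g t‖) ^ 2 ≤ (x - y) * ∫ t in y..x, ‖deriv g t‖ ^ 2 := by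
    set m : ℝ := (∫ t in y..x, ‖deriv g t‖) / (x - y) with hm
    have hba : 0 < x - y := sub_pos.2 hlt
    have h0 : 0 ≤ ∫ t in y..x, (‖deriv g t‖ - m) ^ 2 :=
      intervalIntegral.integral_nonneg hlt.le fun t _ => sq_nonneg _
    have h1 : ∫ t in y..x, (‖deriv g t‖ - m) ^ 2 =
        (∫ t in y..x, ‖deriv g t‖ ^ 2) - 2 * m * (∫ t in y..x, ‖deriv g t‖) + m ^ 2 * (x - y) := by
      have e : ∀ t, (‖deriv g t‖ - m) ^ 2 = (‖deriv g t‖ ^ 2 - 2 * m * ‖deriv g t‖) + m ^ 2 := by
        intro t; ring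
      simp_rw [e]
      rw [intervalIntegral.integral_add, intervalIntegral.integral_sub,
        intervalIntegral.integral_const_mul, intervalIntegral.integral_const]
      · simp only [smul_eq_mul]; ring
      all_goals apply Continuous.intervalIntegrable; fun_prop
    rw [h1] at h0
    have h2 : m * (x - y) = ∫ t in y..x, ‖deriv g t‖ := by rw [hm]; field_simp
    have h3 : 0 ≤ (x - y) * ((∫ t in y..x, ‖deriv g t‖ ^ 2) -
        2 * m * (∫ t in y..x, ‖deriv g t‖) + m ^ 2 * (x - y)) := mul_nonneg hba.le h0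
    rw [← h2] at h3 ⊢
    nlinarith
  exact (pow_le_pow_left₀ (norm_nonneg _) h2 2).trans h3

/-- The double integral. -/
theorem double_le {g : ℝ → F} (hg : ContDiff ℝ 1 g) (hl : 0 < l) :
    ∫⁻ x, ∫⁻ y, (Iio x).indicator (fun y => ENNReal.ofReal (gs l x * gs l y * ‖g x - g y‖ ^ 2)) y ≤
      ∫⁻ t, ENNReal.ofReal (gs l t / (2 * l)) * ENNReal.ofReal (‖deriv g t‖ ^ 2) := by
  have hd : Continuous (deriv g) := hg.continuous_deriv le_rfl
  have hmd : Measurable fun t => ENNReal.ofReal (‖deriv g t‖ ^ 2) :=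
    ENNReal.measurable_ofReal.comp (hd.norm.pow 2).measurable
  have h1 : ∀ x y, (Iio x).indicator
      (fun y => ENNReal.ofReal (gs l x * gs l y * ‖g x - g y‖ ^ 2)) y ≤
      ∫⁻ t, kf l t x y * ENNReal.ofReal (‖deriv g t‖ ^ 2) := by
    intro x y
    by_cases hy : y ∈ Iio x
    swap
    · rw [indicator_of_notMem hy]
      exact bot_le
    rw [indicator_of_mem hy]
    have hyx : y < x := hy
    have h2 : ∀ t, kf l t x y * ENNReal.ofReal (‖deriv g t‖ ^ 2) =
        (Ico y x).indicator (fun t => ENNReal.ofReal (gs l x * gs l y * (x - y)) *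
          ENNReal.ofReal (‖deriv g t‖ ^ 2)) t := by
      intro t
      unfold kf
      by_cases h : t < x
      · rw [indicator_of_mem (s := Ioi t) h]
        by_cases h' : y ≤ t
        · rw [indicator_of_mem (s := Iic t) h', indicator_of_mem (s := Ico y x) ⟨h', h⟩]
        · rw [indicator_of_notMem (s := Iic t) h', zero_mul,
            indicator_of_notMem (s := Ico y x) fun h'' => h' h''.1]
      · rw [indicator_of_notMem (s := Ioi t) h, zero_mul,
          indicator_of_notMem (s := Ico y x) fun h'' => h h''.2]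
    simp only [h2]
    rw [lintegral_indicator measurableSet_Ico, lintegral_const_mul _ hmd,
      ← ofReal_integral_eq_lintegral_ofReal, ← ENNReal.ofReal_mul]
    · refine ENNReal.ofReal_le_ofReal ?_
      rw [mul_assoc (gs l x * gs l y)]
      refine mul_le_mul_of_nonneg_left ?_ (mul_nonneg (gs_pos hl _).le (gs_pos hl _).le)
      have h3 := increment hg hyx.le
      rw [intervalIntegral.integral_of_le hyx.le, integral_Ioc_eq_integral_Ioo,
        ← integral_Ico_eq_integral_Ioo] at h3
      exact h3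
    · exact mul_nonneg (mul_nonneg (gs_pos hl _).le (gs_pos hl _).le) (by linarith)
    · exact ((hd.norm.pow 2).continuousOn.integrableOn_compact isCompact_Icc).mono_set
        Ico_subset_Icc_self
    · exact ae_of_all _ fun t => sq_nonneg _
  have hm1 : Measurable fun q : (ℝ × ℝ) × ℝ =>
      kf l q.1.1 q.1.2 q.2 * ENNReal.ofReal (‖deriv g q.1.1‖ ^ 2) :=
    measurable_kf.mul (hmd.comp measurable_fst.fst)
  calc ∫⁻ x, ∫⁻ y, (Iio x).indicator
        (fun y => ENNReal.ofReal (gs l x * gs l y * ‖g x - g y‖ ^ 2)) y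
      ≤ ∫⁻ x, ∫⁻ y, ∫⁻ t, kf l t x y * ENNReal.ofReal (‖deriv g t‖ ^ 2) :=
        lintegral_mono fun x => lintegral_mono fun y => h1 x y
    _ = ∫⁻ x, ∫⁻ t, ∫⁻ y, kf l t x y * ENNReal.ofReal (‖deriv g t‖ ^ 2) := by
        refine lintegral_congr fun x => ?_
        rw [lintegral_lintegral_swap]
        refine Measurable.aemeasurable ?_
        exact hm1.comp ((measurable_snd.prodMk measurable_const).prodMk measurable_fst)
    _ = ∫⁻ t, ∫⁻ x, ∫⁻ y, kf l t x y * ENNReal.ofReal (‖deriv g t‖ ^ 2) := by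
        rw [lintegral_lintegral_swap]
        refine Measurable.aemeasurable ?_
        have h3 : Measurable fun q : ℝ × ℝ =>
            ∫⁻ y, kf l q.1 q.2 y * ENNReal.ofReal (‖deriv g q.1‖ ^ 2) := hm1.lintegral_prod_right'
        exact h3.comp measurable_swap
    _ = ∫⁻ t, ENNReal.ofReal (gs l t / (2 * l)) * ENNReal.ofReal (‖deriv g t‖ ^ 2) := by
        refine lintegral_congr fun t => ?_
        have h4 : ∀ x, ∫⁻ y, kf l t x y * ENNReal.ofReal (‖deriv g t‖ ^ 2) =
            (∫⁻ y, kf l t x y) * ENNReal.ofReal (‖deriv g t‖ ^ 2) := fun x =>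
          lintegral_mul_const _ (measurable_kf.comp
            ((measurable_const.prodMk measurable_const).prodMk measurable_id))
        simp only [h4]
        rw [lintegral_mul_const, kf_integral hl]
        have h5 : Measurable fun q : ℝ × ℝ => ∫⁻ y, kf l q.1 q.2 y :=
          measurable_kf.lintegral_prod_right'
        exact h5.comp (measurable_const.prodMk measurable_id)

theorem sym_double {Φ : ℝ → ℝ → ℝ≥0∞} (hsym : ∀ x y, Φ x y = Φ y x)
    (hΦm : Measurable fun q : ℝ × ℝ => Φ q.1 q.2) :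
    ∫⁻ x, ∫⁻ y, Φ x y = 2 * ∫⁻ x, ∫⁻ y, (Iio x).indicator (fun y => Φ x y) y := by
  have m1 : Measurable fun q : ℝ × ℝ => (Iio q.1).indicator (fun y => Φ q.1 y) q.2 := by
    have h1 : (fun q : ℝ × ℝ => (Iio q.1).indicator (fun y => Φ q.1 y) q.2) =
        {q : ℝ × ℝ | q.2 < q.1}.indicator fun q => Φ q.1 q.2 := by
      funext q
      by_cases h : q.2 < q.1
      · rw [indicator_of_mem (s := Iio q.1) h, indicator_of_mem (s := {q : ℝ × ℝ | q.2 < q.1}) h]
      · rw [indicator_of_notMem (s := Iio q.1) h,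
          indicator_of_notMem (s := {q : ℝ × ℝ | q.2 < q.1}) h]
    rw [h1]
    exact hΦm.indicator (measurableSet_lt measurable_snd measurable_fst)
  have e4 : ∀ x, ∫⁻ y, Φ x y = (∫⁻ y, (Iio x).indicator (fun y => Φ x y) y) +
      ∫⁻ y, (Ioi x).indicator (fun y => Φ x y) y := by
    intro x
    rw [lintegral_indicator measurableSet_Iio, lintegral_indicator measurableSet_Ioi,
      setLIntegral_congr (Ioi_ae_eq_Ici (a := x)), ← compl_Iio]
    exact (lintegral_add_compl _ measurableSet_Iio).symm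
  have e5 : ∫⁻ x, ∫⁻ y, (Ioi x).indicator (fun y => Φ x y) y =
      ∫⁻ x, ∫⁻ y, (Iio x).indicator (fun y => Φ x y) y := by
    have h1 : ∀ x y, (Ioi x).indicator (fun y => Φ x y) y =
        (Iio y).indicator (fun z => Φ y z) x := by
      intro x y
      by_cases h : x < y
      · rw [indicator_of_mem (s := Ioi x) h, indicator_of_mem (s := Iio y) h, hsym]
      · rw [indicator_of_notMem (s := Ioi x) h, indicator_of_notMem (s := Iio y) h]
    simp only [h1]
    rw [lintegral_lintegral_swap]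
    exact (m1.comp measurable_swap).aemeasurable
  simp only [e4]
  have m2 : Measurable fun x => ∫⁻ y, (Iio x).indicator (fun y => Φ x y) y :=
    m1.lintegral_prod_right'
  rw [lintegral_add_left m2, e5, two_mul]

theorem var_lintegral {g : ℝ → F} (hgc : Continuous g) (hc : HasCompactSupport g) (hl : 0 < l) :
    ∫⁻ x, ∫⁻ y, ENNReal.ofReal (gs l x * gs l y * ‖g x - g y‖ ^ 2) =
      ENNReal.ofReal (2 * ((∫ x, gs l x * ‖g x‖ ^ 2) - ‖∫ x, gs l x • g x‖ ^ 2)) := by
  obtain ⟨m, hm⟩ : ∃ m : F, m = ∫ x, gs l x • g x := ⟨_, rfl⟩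
  obtain ⟨S, hS⟩ : ∃ S : ℝ, S = ∫ x, gs l x * ‖g x‖ ^ 2 := ⟨_, rfl⟩
  rw [← hm, ← hS]
  have i1 : Integrable (fun x => gs l x * ‖g x‖ ^ 2) :=
    (continuous_gs.mul (hgc.norm.pow 2)).integrable_of_hasCompactSupport
      (by
        refine hc.mono fun x hx h => hx ?_
        show gs l x * ‖g x‖ ^ 2 = 0
        rw [h]
        simp)
  have i2 : Integrable (fun x => gs l x • g x) :=
    (continuous_gs.smul hgc).integrable_of_hasCompactSupport
      (by
        refine hc.mono fun x hx h => hx ?_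
        show gs l x • g x = 0
        rw [h, smul_zero])
  have i4 : Integrable (gs l) := integrable_gs hl
  -- inner integral
  have e1 : ∀ x y, gs l x * gs l y * ‖g x - g y‖ ^ 2 =
      gs l x * (gs l y * ‖g x‖ ^ 2 - 2 * ⟪g x, gs l y • g y⟫_ℝ + gs l y * ‖g y‖ ^ 2) := by
    intro x y
    rw [norm_sub_sq_real, inner_smul_right]
    ring
  have j1 : ∀ x, Integrable (fun y => gs l y * ‖g x‖ ^ 2) := fun x => i4.mul_const _
  have j2 : ∀ x, Integrable (fun y => 2 * ⟪g x, gs l y • g y⟫_ℝ) := fun x =>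
    (i2.const_inner (g x)).const_mul 2
  have j12 : ∀ x, Integrable (fun y => gs l y * ‖g x‖ ^ 2 - 2 * ⟪g x, gs l y • g y⟫_ℝ) := fun x =>
    (j1 x).sub (j2 x)
  have j3 : ∀ x, Integrable
      (fun y => gs l y * ‖g x‖ ^ 2 - 2 * ⟪g x, gs l y • g y⟫_ℝ + gs l y * ‖g y‖ ^ 2) := fun x =>
    (j12 x).add i1
  have e2 : ∀ x, ∫ y, gs l x * gs l y * ‖g x - g y‖ ^ 2 =
      gs l x * ‖g x‖ ^ 2 - 2 * ⟪m, gs l x • g x⟫_ℝ + gs l x * S := by
    intro x
    simp only [e1]
    rw [integral_const_mul, integral_add (j12 x) i1, integral_sub (j1 x) (j2 x),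
      integral_mul_const, integral_gs hl, integral_const_mul, integral_inner i2, inner_smul_right,
      real_inner_comm, ← hm, ← hS]
    ring
  have hnn : ∀ x y, 0 ≤ gs l x * gs l y * ‖g x - g y‖ ^ 2 := fun x y =>
    mul_nonneg (mul_nonneg (gs_pos hl _).le (gs_pos hl _).le) (sq_nonneg _)
  have h1 : ∀ x, ∫⁻ y, ENNReal.ofReal (gs l x * gs l y * ‖g x - g y‖ ^ 2) =
      ENNReal.ofReal (∫ y, gs l x * gs l y * ‖g x - g y‖ ^ 2) := fun x =>
    (ofReal_integral_eq_lintegral_ofReal
      (((j3 x).const_mul (gs l x)).congr (ae_of_all _ fun y => (e1 x y).symm))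
      (ae_of_all _ fun y => hnn x y)).symm
  have h2 : Integrable (fun x => gs l x * ‖g x‖ ^ 2 - 2 * ⟪m, gs l x • g x⟫_ℝ) :=
    i1.sub ((i2.const_inner m).const_mul 2)
  have h3 : Integrable (fun x => gs l x * ‖g x‖ ^ 2 - 2 * ⟪m, gs l x • g x⟫_ℝ + gs l x * S) :=
    h2.add (i4.mul_const _)
  simp only [h1]
  rw [← ofReal_integral_eq_lintegral_ofReal]
  · congr 1
    simp only [e2]
    rw [integral_add h2 (i4.mul_const _),
      integral_sub i1 ((i2.const_inner m).const_mul 2), integral_mul_const, integral_gs hl,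
      integral_const_mul, integral_inner i2, ← hm, ← hS, real_inner_self_eq_norm_sq]
    ring
  · exact h3.congr (ae_of_all _ fun x => (e2 x).symm)
  · exact ae_of_all _ fun x => integral_nonneg fun y => hnn x y

/-- **Gaussian Poincaré inequality** (sharp, dimension one). -/
theorem poincare1 {g : ℝ → F} (hg : ContDiff ℝ 1 g) (hc : HasCompactSupport g) (hl : 0 < l) :
    2 * l * ((∫ x, gs l x * ‖g x‖ ^ 2) - ‖∫ x, gs l x • g x‖ ^ 2) ≤
      ∫ x, gs l x * ‖deriv g x‖ ^ 2 := by
  have hd : Continuous (deriv g) := hg.continuous_deriv le_rfl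
  have hgc : Continuous g := hg.continuous
  have i3 : Integrable (fun x => gs l x * ‖deriv g x‖ ^ 2) :=
    (continuous_gs.mul (hd.norm.pow 2)).integrable_of_hasCompactSupport
      (by
        refine hc.deriv.mono fun x hx h => hx ?_
        show gs l x * ‖deriv g x‖ ^ 2 = 0
        rw [h]
        simp)
  have e3 := var_lintegral hgc hc hl
  have hΦm : Measurable fun q : ℝ × ℝ =>
      ENNReal.ofReal (gs l q.1 * gs l q.2 * ‖g q.1 - g q.2‖ ^ 2) := by
    refine ENNReal.measurable_ofReal.comp (Continuous.measurable ?_)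
    exact ((continuous_gs.comp continuous_fst).mul (continuous_gs.comp continuous_snd)).mul
      (((hgc.comp continuous_fst).sub (hgc.comp continuous_snd)).norm.pow 2)
  have e6 := sym_double (Φ := fun x y => ENNReal.ofReal (gs l x * gs l y * ‖g x - g y‖ ^ 2))
    (fun x y => by rw [norm_sub_rev, mul_comm (gs l x)]) hΦm
  have h7 := double_le hg hl
  have h8 : ∫⁻ t, ENNReal.ofReal (gs l t / (2 * l)) * ENNReal.ofReal (‖deriv g t‖ ^ 2) =
      ENNReal.ofReal ((∫ x, gs l x * ‖deriv g x‖ ^ 2) / (2 * l)) := by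
    rw [← integral_div, ofReal_integral_eq_lintegral_ofReal (i3.div_const _)
      (ae_of_all _ fun x => div_nonneg (mul_nonneg (gs_pos hl _).le (sq_nonneg _)) (by positivity))]
    refine lintegral_congr fun t => ?_
    rw [← ENNReal.ofReal_mul (div_nonneg (gs_pos hl _).le (by positivity))]
    congr 1
    ring
  obtain ⟨V, hV⟩ : ∃ V : ℝ, V = (∫ x, gs l x * ‖g x‖ ^ 2) - ‖∫ x, gs l x • g x‖ ^ 2 := ⟨_, rfl⟩
  obtain ⟨D, hD⟩ : ∃ D : ℝ, D = ∫ x, gs l x * ‖deriv g x‖ ^ 2 := ⟨_, rfl⟩
  rw [← hV] at e3 ⊢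
  rw [← hD] at h8 ⊢
  have h9 : ENNReal.ofReal (2 * V) ≤ ENNReal.ofReal (2 * (D / (2 * l))) := by
    rw [← e3, e6, ENNReal.ofReal_mul (by norm_num : (0 : ℝ) ≤ 2), ← h8, ENNReal.ofReal_ofNat]
    exact mul_le_mul_right h7 _
  have hI : 0 ≤ D := by
    rw [hD]
    exact integral_nonneg fun x => mul_nonneg (gs_pos hl _).le (sq_nonneg _)
  have h10 := (ENNReal.ofReal_le_ofReal_iff (by positivity)).1 h9
  have h11 : V ≤ D / (2 * l) := by linarith
  rw [le_div_iff₀ (by positivity)] at h11
  linarith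

end vector

/-! ### The ground state form -/

/-- Square root of the density. -/
def hs (l x : ℝ) : ℝ := √√(l / π) * exp (-(l / 2) * x ^ 2)

theorem hs_pos (hl : 0 < l) (x : ℝ) : 0 < hs l x :=
  mul_pos (Real.sqrt_pos.2 (Real.sqrt_pos.2 (div_pos hl pi_pos))) (exp_pos _)

theorem hs_sq (x : ℝ) : hs l x ^ 2 = gs l x := by
  unfold hs gs
  rw [mul_pow, Real.sq_sqrt (Real.sqrt_nonneg _), ← Real.exp_nat_mul]
  congr 2
  push_cast
  ring

theorem contDiff_hs {n : WithTop ℕ∞} : ContDiff ℝ n (hs l) := by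
  unfold hs
  fun_prop

theorem continuous_hs : Continuous (hs l) := contDiff_hs (n := 0) |>.continuous

theorem hasDerivAt_hs (x : ℝ) : HasDerivAt (hs l) (-(l * x) * hs l x) x := by
  unfold hs
  have h1 : HasDerivAt (fun x : ℝ => -(l / 2) * x ^ 2) (-(l / 2) * (2 * x)) x := by
    simpa using (hasDerivAt_pow 2 x).const_mul (-(l / 2))
  have h2 := (h1.exp).const_mul (√√(l / π))
  refine h2.congr_deriv ?_
  ring

theorem integrable_hs_sq (hl : 0 < l) : Integrable fun x => hs l x ^ 2 := by
  simp only [hs_sq]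
  exact integrable_gs hl

theorem integral_hs_sq (hl : 0 < l) : ∫ x, hs l x ^ 2 = 1 := by
  simp only [hs_sq]
  exact integral_gs hl

variable {F : Type*} [NormedAddCommGroup F] [InnerProductSpace ℝ F] [CompleteSpace F]

/-- **Spectral gap of the oscillator**, dimension one. -/
theorem gap1 {f : ℝ → F} (hf : ContDiff ℝ 1 f) (hc : HasCompactSupport f) (hl : 0 < l) :
    2 * l * ((∫ x, ‖f x‖ ^ 2) - ‖∫ x, hs l x • f x‖ ^ 2) ≤
      ∫ x, ‖fderiv ℝ f x 1 + (l * x) • f x‖ ^ 2 := by
  have hne : ∀ x, hs l x ≠ 0 := fun x => (hs_pos hl x).ne'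
  set g : ℝ → F := fun x => (hs l x)⁻¹ • f x with hg
  have hgd : ContDiff ℝ 1 g := (contDiff_hs.inv hne).smul hf
  have hgc : HasCompactSupport g := by
    refine hc.mono fun x hx h => hx ?_
    simp only [hg, h, smul_zero]
  have hfg : ∀ x, f x = hs l x • g x := fun x => by
    simp only [hg]
    rw [smul_smul, mul_inv_cancel₀ (hne x), one_smul]
  clear_value g
  have h1 := poincare1 hgd hgc hl
  have e1 : ∀ x, gs l x * ‖g x‖ ^ 2 = ‖f x‖ ^ 2 := fun x => by
    rw [hfg x, norm_smul, mul_pow, Real.norm_eq_abs, sq_abs, hs_sq]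
  have e2 : ∀ x, gs l x • g x = hs l x • f x := fun x => by
    rw [hfg x, smul_smul, ← pow_two, hs_sq]
  have e3 : ∀ x, gs l x * ‖deriv g x‖ ^ 2 = ‖fderiv ℝ f x 1 + (l * x) • f x‖ ^ 2 := fun x => by
    have hgx : HasDerivAt g (deriv g x) x := (hgd.differentiable one_ne_zero x).hasDerivAt
    have h2 : HasDerivAt f (hs l x • deriv g x + (-(l * x) * hs l x) • g x) x := by
      have h3 := (hasDerivAt_hs (l := l) x).smul hgx
      refine h3.congr_of_eventuallyEq (Eventually.of_forall fun y => ?_)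
      exact hfg y
    have h4 : fderiv ℝ f x 1 = hs l x • deriv g x + (-(l * x) * hs l x) • g x := by
      rw [fderiv_apply_one_eq_deriv, h2.deriv]
    have h5 : fderiv ℝ f x 1 + (l * x) • f x = hs l x • deriv g x := by
      rw [h4, hfg x, smul_smul, add_assoc, ← add_smul]
      have : -(l * x) * hs l x + l * x * hs l x = 0 := by ring
      rw [this, zero_smul, add_zero]
    rw [h5, norm_smul, mul_pow, Real.norm_eq_abs, sq_abs, hs_sq]
  simp only [e1, e2, e3] at h1
  exact h1

end Crest.Agent.R330.Gauss151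

end
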