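import Crest.Agent.R330.Parts_879
import Crest.Agent.R330.DiagB_304
import Crest.Agent.R330.Bind6_839

/-!
# Row 330, S8-GEO (helper692): the geometry of one channel `P : Lam N`

* `Cen b P` : the centre of the block algebra, `finrank = m - 1`; `cen b P` : an isometric
  parametrisation by `EuclideanSpace ℝ (Fin (m - 1))`; `lab` : the diagonal values.
* `XS P` : positions; `cfX b P : XS P →ₗᵢ[ℝ] Cfg N`; `pos b P X p` : the position of cluster `p`;
  `cfX_eq_dg`, `sum_pos`, `norm_sq_pos`, `exists_pos`, `pos_inj`.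
* `Reg b P`, `UU b P` : distinct positions, distinct `b`-parts.
* `kk b P` : the block algebra; `kc_cfX` : the stabiliser algebra of `cfX b P X` for `X ∈ Reg`.
* `Kst P` : the block subgroup; `act_cfX_iff` : it is the stabiliser.
-/

set_option autoImplicit false
set_option linter.unusedSectionVars false

open MeasureTheory Filter Topology Crest.MathPhysics.MatrixQM
open scoped ContDiff InnerProductSpace ENNReal BigOperators

noncomputable section

namespace Crest.Agent.R330.Geo692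

open Crest.Agent.R330.Parts879 Crest.Agent.R330.LS839 Crest.Agent.R330.Bind6839
open Crest.Agent.R330.Frame839 (kc Tn)
open Crest.Agent.R330.Blk304 (hm cf hs)
open Crest.Agent.R330.Diag304 (dg)

variable {N : ℕ} (b : ColorBasis N) (P : Lam N)

/-! ## The centre -/

/-- The block scalar matrix with values `r`. -/
def bsc (r : Fin P.m → ℝ) : Matrix (Fin N) (Fin N) ℂ :=
  Matrix.diagonal fun a => ((r (P.cl a) : ℝ) : ℂ)

theorem bsc_add (r s : Fin P.m → ℝ) : bsc P (r + s) = bsc P r + bsc P s := by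
  unfold bsc
  rw [Matrix.diagonal_add]
  congr 1
  funext a
  simp

theorem bsc_smul (t : ℝ) (r : Fin P.m → ℝ) : bsc P (t • r) = (t : ℂ) • bsc P r := by
  unfold bsc
  rw [← Matrix.diagonal_smul]
  congr 1
  funext a
  simp

theorem bsc_zero : bsc P 0 = 0 := by
  unfold bsc
  simp

theorem bsc_herm (r : Fin P.m → ℝ) : (bsc P r).IsHermitian := by
  unfold bsc
  rw [Matrix.IsHermitian, Matrix.diagonal_conjTranspose]
  congr 1
  funext a
  simp

theorem sum_cl (f : Fin P.m → ℝ) : ∑ a : Fin N, f (P.cl a) = ∑ p, (P.k p : ℝ) * f p := by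
  classical
  rw [← P.eqv.sum_comp, Fintype.sum_sigma]
  refine Finset.sum_congr rfl fun p _ => ?_
  simp [Lam.cl_eqv]

theorem trace_bsc (r : Fin P.m → ℝ) :
    (bsc P r).trace = ((∑ p, (P.k p : ℝ) * r p : ℝ) : ℂ) := by
  unfold bsc
  rw [Matrix.trace_diagonal, ← sum_cl, Complex.ofReal_sum]

theorem bsc_inj {r s : Fin P.m → ℝ} (h : bsc P r = bsc P s) : r = s := by
  funext p
  obtain ⟨a, rfl⟩ := P.cl_surj p
  have h1 := congrFun (congrFun h a) a
  unfold bsc at h1
  rw [Matrix.diagonal_apply_eq, Matrix.diagonal_apply_eq] at h1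
  exact_mod_cast h1

theorem hs_bsc (r : Fin P.m → ℝ) : hs (bsc P r) = ∑ p, (P.k p : ℝ) * r p ^ 2 := by
  rw [← sum_cl P (fun p => r p ^ 2)]
  unfold Blk304.hs bsc
  refine Finset.sum_congr rfl fun a _ => ?_
  rw [Finset.sum_eq_single a]
  · rw [Matrix.diagonal_apply_eq, Complex.norm_real, Real.norm_eq_abs, sq_abs]
  · intro c _ hc
    rw [Matrix.diagonal_apply_ne _ (Ne.symm hc), norm_zero]
    ring
  · intro h
    exact absurd (Finset.mem_univ _) h

/-- The value vectors with vanishing trace. -/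
def Val : Submodule ℝ (Fin P.m → ℝ) :=
  LinearMap.ker (∑ p, (P.k p : ℝ) • LinearMap.proj (R := ℝ) (φ := fun _ : Fin P.m => ℝ) p)

theorem mem_Val {r : Fin P.m → ℝ} : r ∈ Val P ↔ ∑ p, (P.k p : ℝ) * r p = 0 := by
  unfold Val
  rw [LinearMap.mem_ker, LinearMap.sum_apply]
  simp

theorem finrank_Val : Module.finrank ℝ (Val P) = P.m - 1 := by
  set f : (Fin P.m → ℝ) →ₗ[ℝ] ℝ :=
    ∑ p, (P.k p : ℝ) • LinearMap.proj (R := ℝ) (φ := fun _ : Fin P.m => ℝ) p with hf
  have h1 : LinearMap.range f = ⊤ := by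
    rw [LinearMap.range_eq_top]
    refine LinearMap.surjective_of_ne_zero fun h0 => ?_
    have h2 := LinearMap.congr_fun h0 (fun _ => (1 : ℝ))
    rw [hf, LinearMap.sum_apply] at h2
    simp only [LinearMap.smul_apply, LinearMap.proj_apply, smul_eq_mul, mul_one,
      LinearMap.zero_apply] at h2
    have h3 : (∑ p, (P.k p : ℝ)) = N := by
      rw [← Nat.cast_sum, P.sum_k]
    rw [h3] at h2
    have h4 : N = 0 := by exact_mod_cast h2
    have := P.two_le
    omega
  have h5 := LinearMap.finrank_range_add_finrank_ker f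
  rw [h1, finrank_top, Module.finrank_self, Module.finrank_fintype_fun_eq_card,
    Fintype.card_fin] at h5
  change Module.finrank ℝ (LinearMap.ker f) = P.m - 1
  omega

/-- The colour vector of a block scalar matrix. -/
def cvec : (Fin P.m → ℝ) →ₗ[ℝ] Colg N where
  toFun r := WithLp.toLp 2 (cf b (bsc P r))
  map_add' r s := by rw [bsc_add, Blk304.cf_add, WithLp.toLp_add]
  map_smul' t r := by rw [bsc_smul, Blk304.cf_smul, WithLp.toLp_smul, RingHom.id_apply]

theorem hm_cvec {r : Fin P.m → ℝ} (h : r ∈ Val P) : hm b (cvec b P r).ofLp = bsc P r := by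
  change hm b (cf b (bsc P r)) = bsc P r
  refine Blk304.hm_cf b (bsc_herm P r) ?_
  rw [trace_bsc, (mem_Val P).1 h, Complex.ofReal_zero]

/-- The centre of the block algebra. -/
def Cen : Submodule ℝ (Colg N) := (Val P).map (cvec b P)

theorem mem_Cen {u : Colg N} : u ∈ Cen b P ↔ ∃ r ∈ Val P, hm b u.ofLp = bsc P r := by
  constructor
  · rintro ⟨r, hr, rfl⟩
    exact ⟨r, hr, hm_cvec b P hr⟩
  · rintro ⟨r, hr, h⟩
    refine ⟨r, hr, ?_⟩
    have h1 : (cvec b P r).ofLp = u.ofLp := by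
      apply Blk304.hm_inj b
      rw [hm_cvec b P hr, h]
    rw [← WithLp.toLp_ofLp 2 u, ← h1]

theorem cvec_injOn {r s : Fin P.m → ℝ} (hr : r ∈ Val P) (hs' : s ∈ Val P)
    (h : cvec b P r = cvec b P s) : r = s := by
  apply bsc_inj P
  rw [← hm_cvec b P hr, ← hm_cvec b P hs', h]

theorem finrank_Cen : Module.finrank ℝ (Cen b P) = P.m - 1 := by
  rw [← finrank_Val P]
  have hinj : Function.Injective ((cvec b P).domRestrict (Val P)) := by
    intro r s h
    exact Subtype.ext (cvec_injOn b P r.2 s.2 h)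
  have h1 : Cen b P = LinearMap.range ((cvec b P).domRestrict (Val P)) := by
    ext u
    constructor
    · rintro ⟨r, hr, rfl⟩
      exact ⟨⟨r, hr⟩, rfl⟩
    · rintro ⟨r, rfl⟩
      exact ⟨r, r.2, rfl⟩
  rw [h1]
  exact LinearMap.finrank_range_of_inj hinj

/-- An orthonormal basis of the centre. -/
def cenB : OrthonormalBasis (Fin (P.m - 1)) ℝ (Cen b P) :=
  (stdOrthonormalBasis ℝ (Cen b P)).reindex (finCongr (finrank_Cen b P))

/-- **The isometric parametrisation of the centre.** -/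
def cen : EuclideanSpace ℝ (Fin (P.m - 1)) →ₗᵢ[ℝ] Colg N :=
  (Cen b P).subtypeₗᵢ.comp (cenB b P).repr.symm.toLinearIsometry

theorem cen_mem (s : EuclideanSpace ℝ (Fin (P.m - 1))) : cen b P s ∈ Cen b P :=
  ((cenB b P).repr.symm s).2

theorem range_cen : LinearMap.range (cen b P).toLinearMap = Cen b P := by
  ext u
  constructor
  · rintro ⟨s, rfl⟩
    exact cen_mem b P s
  · intro hu
    refine ⟨(cenB b P).repr ⟨u, hu⟩, ?_⟩
    change (((cenB b P).repr.symm ((cenB b P).repr ⟨u, hu⟩) : Cen b P) : Colg N) = u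
    rw [LinearIsometryEquiv.symm_apply_apply]

/-- The diagonal values of the centre vector `cen s`. -/
def lab : EuclideanSpace ℝ (Fin (P.m - 1)) →ₗ[ℝ] (Fin P.m → ℝ) where
  toFun s p := (hm b (cen b P s).ofLp (P.eqv ⟨p, ⟨0, P.k_pos p⟩⟩)
    (P.eqv ⟨p, ⟨0, P.k_pos p⟩⟩)).re
  map_add' s t := by
    funext p
    rw [map_add, WithLp.ofLp_add, Blk304.hm_add, Matrix.add_apply, Complex.add_re]
    rfl
  map_smul' t s := by
    funext p
    rw [map_smul, WithLp.ofLp_smul, Blk304.hm_smul, Matrix.smul_apply, smul_eq_mul,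
      Complex.re_ofReal_mul]
    rfl

theorem hm_cen (s : EuclideanSpace ℝ (Fin (P.m - 1))) :
    hm b (cen b P s).ofLp = bsc P (lab b P s) := by
  obtain ⟨r, hr, h⟩ := (mem_Cen b P).1 (cen_mem b P s)
  have h1 : lab b P s = r := by
    funext p
    change (hm b (cen b P s).ofLp _ _).re = r p
    rw [h]
    unfold bsc
    rw [Matrix.diagonal_apply_eq, P.cl_eqv, Complex.ofReal_re]
  rw [h, h1]

theorem lab_mem (s : EuclideanSpace ℝ (Fin (P.m - 1))) : lab b P s ∈ Val P := by
  obtain ⟨r, hr, h⟩ := (mem_Cen b P).1 (cen_mem b P s)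
  rw [hm_cen] at h
  rw [bsc_inj P h]
  exact hr

theorem cvec_lab (s : EuclideanSpace ℝ (Fin (P.m - 1))) : cvec b P (lab b P s) = cen b P s := by
  have h1 : (cvec b P (lab b P s)).ofLp = (cen b P s).ofLp := by
    apply Blk304.hm_inj b
    rw [hm_cvec b P (lab_mem b P s), hm_cen]
  rw [← WithLp.toLp_ofLp 2 (cen b P s), ← h1]

theorem lab_inj {s t : EuclideanSpace ℝ (Fin (P.m - 1))} (h : lab b P s = lab b P t) : s = t := by
  apply (cen b P).injective
  rw [← cvec_lab, ← cvec_lab, h]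

theorem exists_lab {r : Fin P.m → ℝ} (hr : r ∈ Val P) : ∃ s, lab b P s = r := by
  have h1 : cvec b P r ∈ Cen b P := ⟨r, hr, rfl⟩
  rw [← range_cen] at h1
  obtain ⟨s, hs'⟩ := h1
  refine ⟨s, cvec_injOn b P (lab_mem b P s) hr ?_⟩
  rw [cvec_lab]
  exact hs'

theorem norm_sq_lab (s : EuclideanSpace ℝ (Fin (P.m - 1))) :
    ∑ p, (P.k p : ℝ) * lab b P s p ^ 2 = ‖s‖ ^ 2 := by
  rw [← hs_bsc, ← hm_cen, ← Diag304.norm_colg_sq, LinearIsometry.norm_map]

/-! ## Positions -/

/-- The space of positions of the channel. -/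
abbrev XS (P : Lam N) := EuclideanSpace ℝ (Fin 9 × Fin (P.m - 1))

/-- The `i`-th row of a position. -/
def xrow (X : XS P) (i : Fin 9) : EuclideanSpace ℝ (Fin (P.m - 1)) := WithLp.toLp 2 fun s => X (i, s)

theorem norm_sq_xrow (X : XS P) : ‖X‖ ^ 2 = ∑ i, ‖xrow P X i‖ ^ 2 := by
  rw [EuclideanSpace.norm_sq_eq, Fintype.sum_prod_type]
  refine Finset.sum_congr rfl fun i _ => ?_
  rw [EuclideanSpace.norm_sq_eq]
  rfl

/-- **The diagonal configuration of a position.** -/
def cfX : XS P →ₗᵢ[ℝ] Cfg N where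
  toFun X := mkc fun i => cen b P (xrow P X i)
  map_add' X Y := by
    refine ext_comp fun i => ?_
    rw [comp_add, comp_mkc, comp_mkc, comp_mkc, ← map_add]
    rfl
  map_smul' t X := by
    refine ext_comp fun i => ?_
    rw [comp_smul, comp_mkc, comp_mkc, RingHom.id_apply, ← map_smul]
    rfl
  norm_map' X := by
    have h : ‖(mkc fun i => cen b P (xrow P X i) : Cfg N)‖ ^ 2 = ‖X‖ ^ 2 := by
      rw [norm_sq_comp, norm_sq_xrow]
      refine Finset.sum_congr rfl fun i _ => ?_
      rw [comp_mkc, LinearIsometry.norm_map]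
    exact (pow_left_inj₀ (norm_nonneg _) (norm_nonneg _) two_ne_zero).1 h

theorem comp_cfX (X : XS P) (i : Fin 9) : comp (cfX b P X) i = cen b P (xrow P X i) := rfl

/-- The position of the cluster `p`. -/
def pos (X : XS P) (p : Fin P.m) : EuclideanSpace ℝ (Fin 9) :=
  WithLp.toLp 2 fun i => lab b P (xrow P X i) p

theorem pos_apply (X : XS P) (p : Fin P.m) (i : Fin 9) : pos b P X p i = lab b P (xrow P X i) p :=
  rfl

theorem pos_add (X Y : XS P) (p : Fin P.m) : pos b P (X + Y) p = pos b P X p + pos b P Y p := by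
  ext i
  change lab b P (xrow P X i + xrow P Y i) p = _
  rw [map_add]
  rfl

theorem pos_smul (t : ℝ) (X : XS P) (p : Fin P.m) : pos b P (t • X) p = t • pos b P X p := by
  ext i
  change lab b P (t • xrow P X i) p = _
  rw [map_smul]
  rfl

theorem sum_pos (X : XS P) : ∑ a : Fin N, pos b P X (P.cl a) = 0 := by
  ext i
  have h1 := (mem_Val P).1 (lab_mem b P (xrow P X i))
  rw [← sum_cl P (lab b P (xrow P X i))] at h1
  have h2 : (∑ a : Fin N, pos b P X (P.cl a)) i = ∑ a : Fin N, pos b P X (P.cl a) i := by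
    simp
  rw [h2]
  exact h1

theorem sum_k_pos (X : XS P) : ∑ p, (P.k p : ℝ) • pos b P X p = 0 := by
  ext i
  have h1 := (mem_Val P).1 (lab_mem b P (xrow P X i))
  have h2 : (∑ p, (P.k p : ℝ) • pos b P X p) i = ∑ p, (P.k p : ℝ) * pos b P X p i := by
    simp
  rw [h2]
  exact h1

theorem norm_sq_pos (X : XS P) : ∑ p, (P.k p : ℝ) * ‖pos b P X p‖ ^ 2 = ‖X‖ ^ 2 := by
  rw [norm_sq_xrow]
  simp only [EuclideanSpace.norm_sq_eq, Finset.mul_sum]
  rw [Finset.sum_comm]
  refine Finset.sum_congr rfl fun i _ => ?_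
  have h1 := norm_sq_lab b P (xrow P X i)
  rw [EuclideanSpace.norm_sq_eq] at h1
  rw [← h1]
  refine Finset.sum_congr rfl fun p _ => ?_
  rw [pos_apply, Real.norm_eq_abs, sq_abs]

theorem cfX_eq_dg (X : XS P) : cfX b P X = dg b fun a => pos b P X (P.cl a) := by
  apply Blk304.mat_inj b
  intro i
  rw [Diag304.mat_dg b (sum_pos b P X)]
  change hm b (comp (cfX b P X) i).ofLp = _
  rw [comp_cfX, hm_cen]
  rfl

theorem pos_inj {X Y : XS P} (h : ∀ p, pos b P X p = pos b P Y p) : X = Y := by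
  apply (cfX b P).injective
  rw [cfX_eq_dg, cfX_eq_dg]
  congr 1
  funext a
  exact h _

theorem exists_pos {r : Fin P.m → EuclideanSpace ℝ (Fin 9)}
    (hr : ∑ p, (P.k p : ℝ) • r p = 0) : ∃ X : XS P, ∀ p, pos b P X p = r p := by
  have h1 : ∀ i : Fin 9, ∃ s, lab b P s = fun p => r p i := fun i => by
    refine exists_lab b P ((mem_Val P).2 ?_)
    have h2 := congrArg (fun v : EuclideanSpace ℝ (Fin 9) => v i) hr
    simpa using h2
  choose s hs' using h1
  refine ⟨WithLp.toLp 2 fun q => s q.1 q.2, fun p => ?_⟩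
  ext i
  rw [pos_apply]
  have h3 : xrow P (WithLp.toLp 2 fun q : Fin 9 × Fin (P.m - 1) => s q.1 q.2) i = s i := by
    ext j
    rfl
  rw [h3, hs' i]

/-- The positions without collisions. -/
def Reg : Set (XS P) := {X | Function.Injective (pos b P X)}

/-- The positions with different `b`-parts (the last six coordinates). -/
def UU : Set (XS P) :=
  {X | ∀ p q, p ≠ q → ∃ j : Fin 9, 3 ≤ (j : ℕ) ∧ pos b P X p j ≠ pos b P X q j}

theorem UU_subset_Reg : UU b P ⊆ Reg b P := by
  intro X hX p q hpq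
  by_contra h
  obtain ⟨j, -, hj⟩ := hX p q h
  exact hj (by rw [hpq])

/-! ## The block algebra -/

/-- The block algebra. -/
def kk : Submodule ℝ (Colg N) where
  carrier := {u | ∀ a c, P.cl a ≠ P.cl c → hm b u.ofLp a c = 0}
  add_mem' h1 h2 a c h := by
    rw [WithLp.ofLp_add, Blk304.hm_add, Matrix.add_apply, h1 a c h, h2 a c h, add_zero]
  zero_mem' a c _ := by
    rw [WithLp.ofLp_zero, Blk304.hm_zero]
    rfl
  smul_mem' t u h1 a c h := by
    rw [WithLp.ofLp_smul, Blk304.hm_smul, Matrix.smul_apply, h1 a c h, smul_zero]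

theorem mem_kk {u : Colg N} : u ∈ kk b P ↔ ∀ a c, P.cl a ≠ P.cl c → hm b u.ofLp a c = 0 := Iff.rfl

theorem mem_kc_cfX (X : XS P) (u : Colg N) : u ∈ kc (actB b) (cfX b P X) ↔
    ∀ a c, pos b P X (P.cl a) ≠ pos b P X (P.cl c) → hm b u.ofLp a c = 0 := by
  rw [Frame839.mem_kc, actB_apply, cfX_eq_dg, Diag304.brx_dg_eq_zero b (sum_pos b P X)]

theorem kk_le_kc (X : XS P) : kk b P ≤ kc (actB b) (cfX b P X) := by
  intro u hu
  rw [mem_kc_cfX]
  intro a c h
  exact hu a c fun h' => h (by rw [h'])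

/-- **The stabiliser algebra of a regular position.** -/
theorem kc_cfX {X : XS P} (hX : X ∈ Reg b P) : kc (actB b) (cfX b P X) = kk b P := by
  refine le_antisymm (fun u hu => ?_) (kk_le_kc b P X)
  rw [mem_kc_cfX] at hu
  intro a c h
  exact hu a c fun h' => h (hX h')

theorem Cen_le_kk : Cen b P ≤ kk b P := by
  intro u hu
  obtain ⟨r, -, h⟩ := (mem_Cen b P).1 hu
  intro a c hac
  rw [h]
  unfold bsc
  exact Matrix.diagonal_apply_ne _ fun h' => hac (by rw [h'])

theorem comc_cfX (X : XS P) : Comc b (cfX b P X) := by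
  intro i j
  have h := Diag304.comm_dg b (sum_pos b P X) i j
  rw [← cfX_eq_dg] at h
  exact h

theorem cfX_mem_Tup (X : XS P) : cfX b P X ∈ Tup (Cen b P) := fun i => by
  rw [comp_cfX]
  exact cen_mem b P _

theorem Tup_Cen_eq : Tup (Cen b P) = LinearMap.range (cfX b P).toLinearMap := by
  ext x
  constructor
  · intro h
    have h1 : ∀ i, ∃ s, cen b P s = comp x i := fun i => by
      have h2 := h i
      rw [← range_cen] at h2
      exact h2
    choose s hs' using h1
    refine ⟨WithLp.toLp 2 fun q => s q.1 q.2, ?_⟩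
    refine ext_comp fun i => ?_
    rw [← hs' i]
    rfl
  · rintro ⟨X, rfl⟩
    exact cfX_mem_Tup b P X

/-! ## The block subgroup -/

/-- The block subgroup `S(∏ U(k_p))`. -/
def Kst : Subgroup (Matrix.specialUnitaryGroup (Fin N) ℂ) where
  carrier := {g | ∀ a c, P.cl a ≠ P.cl c → (g : Matrix (Fin N) (Fin N) ℂ) a c = 0}
  mul_mem' := by
    intro g h hg hh a c hac
    change ((g : Matrix (Fin N) (Fin N) ℂ) * (h : Matrix (Fin N) (Fin N) ℂ)) a c = 0
    rw [Matrix.mul_apply]
    refine Finset.sum_eq_zero fun d _ => ?_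
    by_cases h1 : P.cl a = P.cl d
    · rw [hh d c (fun h2 => hac (h1.trans h2)), mul_zero]
    · rw [hg a d h1, zero_mul]
  one_mem' := by
    intro a c hac
    exact Matrix.one_apply_ne fun h => hac (by rw [h])
  inv_mem' := by
    intro g hg a c hac
    change (star (g : Matrix (Fin N) (Fin N) ℂ)) a c = 0
    rw [Matrix.star_apply, hg c a (Ne.symm hac), star_zero]

theorem mem_Kst {g : Matrix.specialUnitaryGroup (Fin N) ℂ} :
    g ∈ Kst P ↔ ∀ a c, P.cl a ≠ P.cl c → (g : Matrix (Fin N) (Fin N) ℂ) a c = 0 := Iff.rfl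

theorem act_cfX {g : Matrix.specialUnitaryGroup (Fin N) ℂ} (hg : g ∈ Kst P) (X : XS P) :
    b.act g (cfX b P X) = cfX b P X := by
  rw [cfX_eq_dg, Diag304.act_dg b (sum_pos b P X)]
  intro a c h
  exact hg a c fun h' => h (by rw [h'])

/-- **The stabiliser of a regular position.** -/
theorem act_cfX_iff {X : XS P} (hX : X ∈ Reg b P) {g : Matrix.specialUnitaryGroup (Fin N) ℂ} :
    b.act g (cfX b P X) = cfX b P X ↔ g ∈ Kst P := by
  rw [cfX_eq_dg, Diag304.act_dg b (sum_pos b P X)]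
  constructor
  · intro h a c hac
    exact h a c fun h' => hac (hX h')
  · intro h a c hac
    exact h a c fun h' => hac (by rw [h'])

end Crest.Agent.R330.Geo692

end
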