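import Crest.Agent.R330.AcomV_302

/-!
# Row 330, S6-HW (helper815): Hoffman-Wielandt for commuting tuples

The joint eigenvalues of commuting (simultaneously diagonalisable) 9-tuples are matched by one
permutation, with the Hilbert-Schmidt distance:
`min_σ ‖diag(p ∘ σ) - diag(q)‖ ≤ ‖g • diag(p) - diag(q)‖` for all `g ∈ SU(N)`.
-/

set_option autoImplicit false
set_option linter.unusedSectionVars false
open scoped InnerProductSpace
open Matrix Crest.MathPhysics.MatrixQM

namespace Crest.Agent.R330.HW815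

open Crest.Agent.R330.Coerc383 Crest.Agent.R330.CoerCfg87 Crest.Agent.R330.AcomV302

noncomputable section

variable {N : ℕ}

/-- a linear function on doubly stochastic matrices is minimised at a permutation -/
theorem exists_perm_le {n : Type*} [Fintype n] [DecidableEq n] (S : Matrix n n ℝ)
    (hS : S ∈ doublyStochastic ℝ n) (c : n → n → ℝ) :
    ∃ σ : Equiv.Perm n, ∑ a, c a (σ a) ≤ ∑ a, ∑ b, S a b * c a b := by
  let f : Matrix n n ℝ →ₗ[ℝ] ℝ :=
    { toFun := fun M => ∑ a, ∑ b, M a b * c a b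
      map_add' := fun M M' => by
        simp only [Matrix.add_apply, add_mul, Finset.sum_add_distrib]
      map_smul' := fun t M => by
        simp only [Matrix.smul_apply, smul_eq_mul, RingHom.id_apply, Finset.mul_sum, mul_assoc] }
  have hS' : S ∈ convexHull ℝ {σ.permMatrix ℝ | σ : Equiv.Perm n} := by
    have := doublyStochastic_eq_convexHull_permMatrix (R := ℝ) (n := n)
    rw [← this]
    exact hS
  have hc : ConcaveOn ℝ Set.univ (fun M => f M) := f.concaveOn convex_univ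
  obtain ⟨M, ⟨σ, rfl⟩, hσ⟩ := hc.exists_le_of_mem_convexHull (Set.subset_univ _) hS'
  refine ⟨σ, ?_⟩
  refine le_trans (le_of_eq ?_) hσ
  change _ = ∑ a, ∑ b, (σ.permMatrix ℝ) a b * c a b
  refine Finset.sum_congr rfl fun a _ => ?_
  rw [Finset.sum_eq_single (σ a)]
  · simp [PEquiv.toMatrix_apply]
  · intro b _ hb
    have : ¬ σ a = b := fun h => hb h.symm
    simp [PEquiv.toMatrix_apply, this]
  · intro h
    exact absurd (Finset.mem_univ _) h

/-- the squared moduli of the entries of a unitary matrix form a doubly stochastic matrix -/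
theorem sq_mem (g : Matrix.specialUnitaryGroup (Fin N) ℂ) :
    (Matrix.of fun a b => ‖(g : Matrix (Fin N) (Fin N) ℂ) a b‖ ^ 2) ∈
      doublyStochastic ℝ (Fin N) := by
  have h1 : (g : Matrix (Fin N) (Fin N) ℂ) * star (g : Matrix (Fin N) (Fin N) ℂ) = 1 :=
    Col962.mul_star_self' g
  have h2 : star (g : Matrix (Fin N) (Fin N) ℂ) * (g : Matrix (Fin N) (Fin N) ℂ) = 1 :=
    Col962.star_mul_self' g
  rw [mem_doublyStochastic_iff_sum]
  refine ⟨fun a b => sq_nonneg _, fun a => ?_, fun b => ?_⟩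
  · have := congrFun (congrFun h1 a) a
    rw [Matrix.mul_apply, Matrix.one_apply_eq] at this
    have h3 : ∀ b, (g : Matrix (Fin N) (Fin N) ℂ) a b *
        star (g : Matrix (Fin N) (Fin N) ℂ) b a =
        ((‖(g : Matrix (Fin N) (Fin N) ℂ) a b‖ ^ 2 : ℝ) : ℂ) := by
      intro b
      rw [Matrix.star_apply, Complex.star_def, Complex.mul_conj, Complex.normSq_eq_norm_sq]
    simp only [h3] at this
    simp only [Matrix.of_apply]
    exact_mod_cast this
  · have := congrFun (congrFun h2 b) b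
    rw [Matrix.mul_apply, Matrix.one_apply_eq] at this
    have h3 : ∀ a, star (g : Matrix (Fin N) (Fin N) ℂ) b a *
        (g : Matrix (Fin N) (Fin N) ℂ) a b =
        ((‖(g : Matrix (Fin N) (Fin N) ℂ) a b‖ ^ 2 : ℝ) : ℂ) := by
      intro a
      rw [Matrix.star_apply, Complex.star_def, mul_comm, Complex.mul_conj,
        Complex.normSq_eq_norm_sq]
    simp only [h3] at this
    simp only [Matrix.of_apply]
    exact_mod_cast this

/-- right multiplication by a unitary preserves the Hilbert-Schmidt norm -/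
theorem hs_mul_unitary (g : Matrix.specialUnitaryGroup (Fin N) ℂ) (M : Matrix (Fin N) (Fin N) ℂ) :
    hs (M * (g : Matrix (Fin N) (Fin N) ℂ)) = hs M := by
  have h1 := hs_eq_trace (M * (g : Matrix (Fin N) (Fin N) ℂ))
  have h2 := hs_eq_trace M
  have h3 : (M * (g : Matrix (Fin N) (Fin N) ℂ)) * (M * (g : Matrix (Fin N) (Fin N) ℂ))ᴴ =
      M * Mᴴ := by
    rw [Matrix.conjTranspose_mul, ← Matrix.star_eq_conjTranspose (g : Matrix (Fin N) (Fin N) ℂ)]
    have := Col962.mul_star_self' g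
    calc _ = M * ((g : Matrix (Fin N) (Fin N) ℂ) * star (g : Matrix (Fin N) (Fin N) ℂ)) * Mᴴ := by
          simp only [mul_assoc]
      _ = _ := by rw [this, mul_one]
  rw [h3, ← h2] at h1
  exact_mod_cast h1

/-- **entrywise formula**: `‖g D_p g* - D_q‖² = Σ_{ab} |g_ab|² (p_b - q_a)²` -/
theorem hs_diag (g : Matrix.specialUnitaryGroup (Fin N) ℂ) (p q : Fin N → ℝ) :
    hs ((g : Matrix (Fin N) (Fin N) ℂ) * Matrix.diagonal (fun a => (p a : ℂ)) *
        star (g : Matrix (Fin N) (Fin N) ℂ) - Matrix.diagonal (fun a => (q a : ℂ))) =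
      ∑ a, ∑ b, ‖(g : Matrix (Fin N) (Fin N) ℂ) a b‖ ^ 2 * (p b - q a) ^ 2 := by
  rw [← hs_mul_unitary g]
  have h2 : star (g : Matrix (Fin N) (Fin N) ℂ) * (g : Matrix (Fin N) (Fin N) ℂ) = 1 :=
    Col962.star_mul_self' g
  rw [sub_mul, mul_assoc _ (star _), h2, mul_one]
  unfold hs
  refine Finset.sum_congr rfl fun a _ => Finset.sum_congr rfl fun b _ => ?_
  rw [Matrix.sub_apply, Matrix.mul_diagonal, Matrix.diagonal_mul]
  have : (g : Matrix (Fin N) (Fin N) ℂ) a b * (p b : ℂ) - (q a : ℂ) *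
      (g : Matrix (Fin N) (Fin N) ℂ) a b =
      (g : Matrix (Fin N) (Fin N) ℂ) a b * (((p b - q a : ℝ)) : ℂ) := by
    push_cast
    ring
  rw [this, norm_mul, mul_pow, Complex.norm_real, Real.norm_eq_abs, sq_abs]

/-- **the distance of two commuting tuples** -/
theorem norm_act_diag (b : ColorBasis N) (g : Matrix.specialUnitaryGroup (Fin N) ℂ)
    (p q : Fin 9 → Fin N → ℝ) (hp : ∀ i, ∑ a, p i a = 0) (hq : ∀ i, ∑ a, q i a = 0) :
    ‖b.act g (diagCfg b p) - diagCfg b q‖ ^ 2 =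
      ∑ a, ∑ c, ‖(g : Matrix (Fin N) (Fin N) ℂ) a c‖ ^ 2 * ∑ i, (p i c - q i a) ^ 2 := by
  rw [norm_sq_hs b]
  simp only [cmat_act, cmat_diagCfg b p hp, cmat_diagCfg b q hq, hs_diag]
  rw [Finset.sum_comm]
  refine Finset.sum_congr rfl fun a _ => ?_
  rw [Finset.sum_comm]
  refine Finset.sum_congr rfl fun c _ => ?_
  rw [Finset.mul_sum]

/-- the distance of two diagonal configurations -/
theorem norm_diag_sub (b : ColorBasis N) (p q : Fin 9 → Fin N → ℝ) (hp : ∀ i, ∑ a, p i a = 0)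
    (hq : ∀ i, ∑ a, q i a = 0) :
    ‖diagCfg b p - diagCfg b q‖ ^ 2 = ∑ a, ∑ i, (p i a - q i a) ^ 2 := by
  rw [norm_sq_hs b]
  simp only [cmat_diagCfg b p hp, cmat_diagCfg b q hq]
  rw [Finset.sum_comm]
  refine Finset.sum_congr rfl fun i _ => ?_
  rw [Matrix.diagonal_sub]
  unfold hs
  refine Finset.sum_congr rfl fun a _ => ?_
  rw [Finset.sum_eq_single a]
  · rw [Matrix.diagonal_apply_eq, ← Complex.ofReal_sub, Complex.norm_real, Real.norm_eq_abs,
      sq_abs]
  · intro c _ hc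
    rw [Matrix.diagonal_apply_ne _ hc.symm]
    simp
  · intro h
    exact absurd (Finset.mem_univ _) h

/-- **Hoffman-Wielandt for commuting tuples**, coordinates -/
theorem exists_perm (b : ColorBasis N) (g : Matrix.specialUnitaryGroup (Fin N) ℂ)
    (p q : Fin 9 → Fin N → ℝ) (hp : ∀ i, ∑ a, p i a = 0) (hq : ∀ i, ∑ a, q i a = 0) :
    ∃ σ : Equiv.Perm (Fin N), ∑ a, ∑ i, (p i (σ a) - q i a) ^ 2 ≤
      ‖b.act g (diagCfg b p) - diagCfg b q‖ ^ 2 := by
  obtain ⟨σ, hσ⟩ := exists_perm_le _ (sq_mem g) (fun a c => ∑ i, (p i c - q i a) ^ 2)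
  refine ⟨σ, ?_⟩
  rw [norm_act_diag b g p q hp hq]
  exact hσ

/-- **Hoffman-Wielandt for commuting tuples** -/
theorem hw (b : ColorBasis N) (g : Matrix.specialUnitaryGroup (Fin N) ℂ)
    (p q : Fin 9 → Fin N → ℝ) (hp : ∀ i, ∑ a, p i a = 0) (hq : ∀ i, ∑ a, q i a = 0) :
    ∃ σ : Equiv.Perm (Fin N), ‖diagCfg b (fun i => p i ∘ σ) - diagCfg b q‖ ≤
      ‖b.act g (diagCfg b p) - diagCfg b q‖ := by
  obtain ⟨σ, hσ⟩ := exists_perm b g p q hp hq
  refine ⟨σ, ?_⟩
  refine (sq_le_sq₀ (norm_nonneg _) (norm_nonneg _)).1 ?_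
  rw [norm_diag_sub b _ q (fun i => by
    rw [← hp i]
    exact Equiv.sum_comp σ (p i)) hq]
  exact hσ

/-- equal up to a rotation: the joint eigenvalues are permuted -/
theorem perm_of_eq (b : ColorBasis N) (g : Matrix.specialUnitaryGroup (Fin N) ℂ)
    (p q : Fin 9 → Fin N → ℝ) (hp : ∀ i, ∑ a, p i a = 0) (hq : ∀ i, ∑ a, q i a = 0)
    (h : b.act g (diagCfg b p) = diagCfg b q) :
    (∃ σ : Equiv.Perm (Fin N), ∀ i a, p i (σ a) = q i a) ∧
      ∀ a c, (g : Matrix (Fin N) (Fin N) ℂ) a c ≠ 0 → ∀ i, p i c = q i a := by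
  have h0 : ‖b.act g (diagCfg b p) - diagCfg b q‖ ^ 2 = 0 := by
    rw [h, sub_self, norm_zero]
    simp
  constructor
  · obtain ⟨σ, hσ⟩ := exists_perm b g p q hp hq
    rw [h0] at hσ
    refine ⟨σ, fun i a => ?_⟩
    have h1 : ∀ a, ∑ i, (p i (σ a) - q i a) ^ 2 = 0 := by
      have h2 := le_antisymm hσ (Finset.sum_nonneg fun a _ => Finset.sum_nonneg fun i _ =>
        sq_nonneg _)
      rw [Finset.sum_eq_zero_iff_of_nonneg (fun a _ => Finset.sum_nonneg fun i _ =>
        sq_nonneg _)] at h2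
      exact fun a => h2 a (Finset.mem_univ a)
    have h3 := h1 a
    rw [Finset.sum_eq_zero_iff_of_nonneg (fun i _ => sq_nonneg _)] at h3
    have h4 := h3 i (Finset.mem_univ i)
    have h5 := pow_eq_zero_iff (two_ne_zero) |>.1 h4
    linarith
  · intro a c hg i
    rw [norm_act_diag b g p q hp hq] at h0
    rw [Finset.sum_eq_zero_iff_of_nonneg (fun a _ => Finset.sum_nonneg fun c _ =>
      mul_nonneg (sq_nonneg _) (Finset.sum_nonneg fun i _ => sq_nonneg _))] at h0
    have h1 := h0 a (Finset.mem_univ a)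
    rw [Finset.sum_eq_zero_iff_of_nonneg (fun c _ =>
      mul_nonneg (sq_nonneg _) (Finset.sum_nonneg fun i _ => sq_nonneg _))] at h1
    have h2 := h1 c (Finset.mem_univ c)
    have h3 : ‖(g : Matrix (Fin N) (Fin N) ℂ) a c‖ ^ 2 ≠ 0 := by
      simpa using hg
    have h4 := (mul_eq_zero.1 h2).resolve_left h3
    rw [Finset.sum_eq_zero_iff_of_nonneg (fun i _ => sq_nonneg _)] at h4
    have h5 := pow_eq_zero_iff (two_ne_zero) |>.1 (h4 i (Finset.mem_univ i))
    linarith

/-- **blocks go to blocks**: if `q` is constant on the blocks of `κ` with separation `s` between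
different blocks, likewise `p`, and the distance is `< s / 2`, then the matching permutation maps
blocks to blocks. -/
theorem blocks {m : Type*} (κ : Fin N → m) {s : ℝ} (p q : Fin 9 → Fin N → ℝ)
    (hpc : ∀ a c, κ a = κ c → ∀ i, p i a = p i c) (hqc : ∀ a c, κ a = κ c → ∀ i, q i a = q i c)
    (hps : ∀ a c, κ a ≠ κ c → s ^ 2 ≤ ∑ i, (p i a - p i c) ^ 2)
    (hqs : ∀ a c, κ a ≠ κ c → s ^ 2 ≤ ∑ i, (q i a - q i c) ^ 2)
    (σ : Equiv.Perm (Fin N)) (hσ : ∀ a, ∑ i, (p i (σ a) - q i a) ^ 2 < (s / 2) ^ 2) (a c : Fin N) :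
    κ (σ a) = κ (σ c) ↔ κ a = κ c := by
  have hv : ∀ u v w : Fin 9 → ℝ, ∑ i, (u i - v i) ^ 2 < (s / 2) ^ 2 →
      ∑ i, (v i - w i) ^ 2 < (s / 2) ^ 2 → ∑ i, (u i - w i) ^ 2 < s ^ 2 := by
    intro u v w h1 h2
    have h3 : ∀ i, (u i - w i) ^ 2 ≤ 2 * (u i - v i) ^ 2 + 2 * (v i - w i) ^ 2 := fun i => by
      nlinarith [sq_nonneg ((u i - v i) - (v i - w i))]
    calc ∑ i, (u i - w i) ^ 2 ≤ ∑ i, (2 * (u i - v i) ^ 2 + 2 * (v i - w i) ^ 2) :=
          Finset.sum_le_sum fun i _ => h3 i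
      _ = 2 * ∑ i, (u i - v i) ^ 2 + 2 * ∑ i, (v i - w i) ^ 2 := by
          rw [Finset.sum_add_distrib, Finset.mul_sum, Finset.mul_sum]
      _ < 2 * (s / 2) ^ 2 + 2 * (s / 2) ^ 2 := by linarith
      _ = s ^ 2 := by ring
  have hsym : ∀ u v : Fin 9 → ℝ, ∑ i, (u i - v i) ^ 2 = ∑ i, (v i - u i) ^ 2 := fun u v =>
    Finset.sum_congr rfl fun i _ => by ring
  constructor
  · intro h
    by_contra hne
    have h1 : ∑ i, (q i a - q i c) ^ 2 < s ^ 2 := by
      refine hv (fun i => q i a) (fun i => p i (σ a)) (fun i => q i c) ?_ ?_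
      · rw [hsym]
        exact hσ a
      · have : ∀ i, p i (σ a) = p i (σ c) := hpc _ _ h
        simp only [this]
        exact hσ c
    exact absurd (hqs a c hne) (not_le.2 h1)
  · intro h
    by_contra hne
    have h1 : ∑ i, (p i (σ a) - p i (σ c)) ^ 2 < s ^ 2 := by
      refine hv (fun i => p i (σ a)) (fun i => q i a) (fun i => p i (σ c)) (hσ a) ?_
      have : ∀ i, q i a = q i c := hqc _ _ h
      simp only [this]
      rw [hsym]
      exact hσ c
    exact absurd (hps _ _ hne) (not_le.2 h1)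

end

end Crest.Agent.R330.HW815
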