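import Crest.Agent.R330.Geo8_692
import Crest.Agent.R330.HW_815

/-!
# Row 330, S8-GEO part 2 (helper692): permutations of clusters of equal size

* `Osw b P σ hσ : XS P ≃ₗᵢ[ℝ] XS P` for `σ ∈ Sw P`, `pos (O_σ X) p = pos X (σ⁻¹ p)`; `Osw_mul`,
  `Osw_one`, `Osw_mem_Reg`, `Osw_mem_UU`.
* `KS P σ` : the elements of `SU(N)` which map block `p` to block `σ p`; `KS P 1 = Kst P`; products,
  inverses; `act_KS : act g (cfX X) = cfX (O_σ X)`; `KS_nonempty` : for every `σ ∈ Sw P`.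
* `exists_sw` : `act g (cfX X) = cfX X'`, `X' ∈ Reg`, implies `g ∈ KS P σ`, `X' = O_σ X` for some
  `σ ∈ Sw P`.
-/

set_option autoImplicit false
set_option linter.unusedSectionVars false

open MeasureTheory Filter Topology Crest.MathPhysics.MatrixQM
open scoped ContDiff InnerProductSpace ENNReal BigOperators

noncomputable section

namespace Crest.Agent.R330.Geo692

open Crest.Agent.R330.Parts879 Crest.Agent.R330.LS839 Crest.Agent.R330.Bind6839
open Crest.Agent.R330.Frame839 (kc Tn)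
open Crest.Agent.R330.Blk304 (hm cf hs)
open Crest.Agent.R330.Diag304 (dg)

variable {N : ℕ} (b : ColorBasis N) (P : Lam N)

/-! ## The action on positions -/

theorem ias {α : Type*} (σ : Equiv.Perm α) (x : α) : σ⁻¹ (σ x) = x := σ.symm_apply_apply x

theorem sia {α : Type*} (σ : Equiv.Perm α) (x : α) : σ (σ⁻¹ x) = x := σ.apply_symm_apply x

theorem sum_k_perm {σ : Equiv.Perm (Fin P.m)} (hσ : σ ∈ Sw P) {V : Type*} [AddCommGroup V]
    [Module ℝ V] (f : Fin P.m → V) :
    ∑ p, (P.k p : ℝ) • f (σ⁻¹ p) = ∑ p, (P.k p : ℝ) • f p := by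
  rw [← Equiv.sum_comp σ]
  refine Finset.sum_congr rfl fun p _ => ?_
  rw [mem_Sw.1 hσ p, ias]

theorem exists_Osw {σ : Equiv.Perm (Fin P.m)} (hσ : σ ∈ Sw P) (X : XS P) :
    ∃ Y : XS P, ∀ p, pos b P Y p = pos b P X (σ⁻¹ p) := by
  refine exists_pos b P ?_
  rw [sum_k_perm P hσ fun p => pos b P X p]
  exact sum_k_pos b P X

/-- The action of a permutation on positions, as a map. -/
def oswf {σ : Equiv.Perm (Fin P.m)} (hσ : σ ∈ Sw P) (X : XS P) : XS P :=
  Classical.choose (exists_Osw b P hσ X)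

theorem pos_oswf {σ : Equiv.Perm (Fin P.m)} (hσ : σ ∈ Sw P) (X : XS P) (p : Fin P.m) :
    pos b P (oswf b P hσ X) p = pos b P X (σ⁻¹ p) := Classical.choose_spec (exists_Osw b P hσ X) p

/-- The action of a permutation on positions, as a linear isometry. -/
def oswl {σ : Equiv.Perm (Fin P.m)} (hσ : σ ∈ Sw P) : XS P →ₗᵢ[ℝ] XS P where
  toFun := oswf b P hσ
  map_add' X Y := by
    apply pos_inj b P
    intro p
    rw [pos_oswf, pos_add, pos_add, pos_oswf, pos_oswf]
  map_smul' t X := by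
    apply pos_inj b P
    intro p
    rw [pos_oswf, pos_smul, RingHom.id_apply, pos_smul, pos_oswf]
  norm_map' X := by
    have h : ‖oswf b P hσ X‖ ^ 2 = ‖X‖ ^ 2 := by
      rw [← norm_sq_pos b P, ← norm_sq_pos b P]
      simp only [pos_oswf]
      exact sum_k_perm P hσ fun p => ‖pos b P X p‖ ^ 2
    exact (pow_left_inj₀ (norm_nonneg _) (norm_nonneg _) two_ne_zero).1 h

theorem inv_mem_Sw {σ : Equiv.Perm (Fin P.m)} (hσ : σ ∈ Sw P) : σ⁻¹ ∈ Sw P := (Sw P).inv_mem hσ

/-- **The action of a permutation on positions.** -/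
def Osw {σ : Equiv.Perm (Fin P.m)} (hσ : σ ∈ Sw P) : XS P ≃ₗᵢ[ℝ] XS P where
  toFun := oswf b P hσ
  map_add' := (oswl b P hσ).map_add
  map_smul' := (oswl b P hσ).map_smul
  invFun := oswf b P (inv_mem_Sw P hσ)
  left_inv X := by
    apply pos_inj b P
    intro p
    rw [pos_oswf, pos_oswf]
    exact congrArg _ (ias σ p)
  right_inv X := by
    apply pos_inj b P
    intro p
    rw [pos_oswf, pos_oswf, inv_inv, sia]
  norm_map' X := (oswl b P hσ).norm_map X

variable {P} in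
@[simp] theorem pos_Osw {σ : Equiv.Perm (Fin P.m)} (hσ : σ ∈ Sw P) (X : XS P) (p : Fin P.m) :
    pos b P (Osw b P hσ X) p = pos b P X (σ⁻¹ p) := pos_oswf b P hσ X p

theorem Osw_one (X : XS P) : Osw b P (Sw P).one_mem X = X := by
  apply pos_inj b P
  intro p
  rw [pos_Osw, inv_one]
  rfl

theorem Osw_mul {σ τ : Equiv.Perm (Fin P.m)} (hσ : σ ∈ Sw P) (hτ : τ ∈ Sw P) (X : XS P) :
    Osw b P ((Sw P).mul_mem hσ hτ) X = Osw b P hσ (Osw b P hτ X) := by
  apply pos_inj b P
  intro p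
  rw [pos_Osw, pos_Osw, pos_Osw, mul_inv_rev]
  rfl

theorem Osw_inv_apply {σ : Equiv.Perm (Fin P.m)} (hσ : σ ∈ Sw P) (X : XS P) :
    Osw b P (inv_mem_Sw P hσ) (Osw b P hσ X) = X := by
  apply pos_inj b P
  intro p
  rw [pos_Osw, pos_Osw, inv_inv, ias]

theorem Osw_symm {σ : Equiv.Perm (Fin P.m)} (hσ : σ ∈ Sw P) (X : XS P) :
    (Osw b P hσ).symm X = Osw b P (inv_mem_Sw P hσ) X := rfl

theorem Osw_mem_Reg {σ : Equiv.Perm (Fin P.m)} (hσ : σ ∈ Sw P) {X : XS P} :
    Osw b P hσ X ∈ Reg b P ↔ X ∈ Reg b P := by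
  have key : ∀ {σ : Equiv.Perm (Fin P.m)} (hσ : σ ∈ Sw P) {X : XS P}, X ∈ Reg b P →
      Osw b P hσ X ∈ Reg b P := by
    intro σ hσ X hX p q h
    rw [pos_Osw, pos_Osw] at h
    exact σ⁻¹.injective (hX h)
  refine ⟨fun h => ?_, key hσ⟩
  have h1 := key (inv_mem_Sw P hσ) h
  rwa [Osw_inv_apply] at h1

theorem Osw_mem_UU {σ : Equiv.Perm (Fin P.m)} (hσ : σ ∈ Sw P) {X : XS P} :
    Osw b P hσ X ∈ UU b P ↔ X ∈ UU b P := by
  have key : ∀ {σ : Equiv.Perm (Fin P.m)} (hσ : σ ∈ Sw P) {X : XS P}, X ∈ UU b P →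
      Osw b P hσ X ∈ UU b P := by
    intro σ hσ X hX p q h
    rw [pos_Osw, pos_Osw]
    exact hX _ _ fun h' => h (σ⁻¹.injective h')
  refine ⟨fun h => ?_, key hσ⟩
  have h1 := key (inv_mem_Sw P hσ) h
  rwa [Osw_inv_apply] at h1

/-! ## The group elements which permute the blocks -/

/-- `g` maps the block `p` to the block `σ p`. -/
def KS (σ : Equiv.Perm (Fin P.m)) : Set (Matrix.specialUnitaryGroup (Fin N) ℂ) :=
  {g | ∀ a c, P.cl a ≠ σ (P.cl c) → (g : Matrix (Fin N) (Fin N) ℂ) a c = 0}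

theorem KS_one : KS P 1 = (Kst P : Set (Matrix.specialUnitaryGroup (Fin N) ℂ)) := rfl

theorem KS_mul {σ τ : Equiv.Perm (Fin P.m)} {g h : Matrix.specialUnitaryGroup (Fin N) ℂ}
    (hg : g ∈ KS P σ) (hh : h ∈ KS P τ) : g * h ∈ KS P (σ * τ) := by
  intro a c hac
  change ((g : Matrix (Fin N) (Fin N) ℂ) * (h : Matrix (Fin N) (Fin N) ℂ)) a c = 0
  rw [Matrix.mul_apply]
  refine Finset.sum_eq_zero fun d _ => ?_
  by_cases h1 : P.cl d = τ (P.cl c)
  · rw [hg a d (fun h2 => hac (by rw [h2, h1]; rfl)), zero_mul]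
  · rw [hh d c h1, mul_zero]

theorem KS_inv {σ : Equiv.Perm (Fin P.m)} {g : Matrix.specialUnitaryGroup (Fin N) ℂ}
    (hg : g ∈ KS P σ) : g⁻¹ ∈ KS P σ⁻¹ := by
  intro a c hac
  change (star (g : Matrix (Fin N) (Fin N) ℂ)) a c = 0
  rw [Matrix.star_apply, hg c a (fun h => hac (by rw [h, ias])), star_zero]

/-- the key identity: `g (diag f) = (diag f') g` -/
theorem mul_diag {σ : Equiv.Perm (Fin P.m)} {g : Matrix.specialUnitaryGroup (Fin N) ℂ}
    (hg : g ∈ KS P σ) (f : Fin P.m → ℂ) :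
    (g : Matrix (Fin N) (Fin N) ℂ) * (Matrix.diagonal fun a => f (P.cl a)) =
      (Matrix.diagonal fun a => f (σ⁻¹ (P.cl a))) * (g : Matrix (Fin N) (Fin N) ℂ) := by
  ext a c
  rw [Matrix.mul_diagonal, Matrix.diagonal_mul]
  by_cases h : P.cl a = σ (P.cl c)
  · rw [h, ias, mul_comm]
  · rw [hg a c h]
    ring

theorem act_KS {σ : Equiv.Perm (Fin P.m)} (hσ : σ ∈ Sw P)
    {g : Matrix.specialUnitaryGroup (Fin N) ℂ} (hg : g ∈ KS P σ) (X : XS P) :
    b.act g (cfX b P X) = cfX b P (Osw b P hσ X) := by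
  apply Blk304.mat_inj b
  intro i
  rw [Blk304.mat_act, cfX_eq_dg, cfX_eq_dg, Diag304.mat_dg b (sum_pos b P X),
    Diag304.mat_dg b (sum_pos b P _)]
  have h1 := mul_diag P hg fun p => ((pos b P X p i : ℝ) : ℂ)
  rw [h1, Matrix.mul_assoc, Blk304.su_mul_star, Matrix.mul_one]
  congr 1
  funext a
  rw [pos_Osw]

/-- the permutation matrix of `lift σ` -/
theorem exists_mem_KS {σ : Equiv.Perm (Fin P.m)} (hσ : σ ∈ Sw P) : (KS P σ).Nonempty := by
  classical
  set τ : Equiv.Perm (Fin N) := lift σ hσ with hτ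
  set e : ℂ := (((Equiv.Perm.sign τ : ℤˣ) : ℤ) : ℂ) with he
  have hee : e * e = 1 := by
    rw [he]
    rcases Int.units_eq_one_or (Equiv.Perm.sign τ) with h | h <;> rw [h] <;> norm_num
  have hN : 0 < N := lt_of_lt_of_le two_pos P.two_le
  set d : Fin N → ℂ := fun a => if a = ⟨0, hN⟩ then e else 1 with hd
  have hdd : ∀ a, d a * star (d a) = 1 := by
    intro a
    simp only [hd]
    split_ifs
    · have : star e = e := by
        rw [he]
        simp
      rw [this, hee]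
    · simp
  set W : Matrix (Fin N) (Fin N) ℂ := Matrix.diagonal d * (Equiv.Perm.permMatrix ℂ τ⁻¹) with hW
  have hWapp : ∀ a c, W a c = if a = τ c then d a else 0 := by
    intro a c
    rw [hW, Matrix.diagonal_mul]
    have h1 : (Equiv.Perm.permMatrix ℂ τ⁻¹ : Matrix (Fin N) (Fin N) ℂ) a c =
        if τ⁻¹ a = c then 1 else 0 := by
      rw [Equiv.Perm.permMatrix, PEquiv.toMatrix_apply]
      simp [Equiv.toPEquiv_apply, eq_comm]
    rw [h1]
    by_cases h : a = τ c
    · subst h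
      simp
    · have h2 : ¬ (τ⁻¹ a = c) := fun h3 => h (by rw [← h3, sia])
      rw [if_neg h, if_neg h2, mul_zero]
  have hWW : W * star W = 1 := by
    ext a c
    rw [Matrix.mul_apply]
    simp only [Matrix.star_apply, hWapp]
    by_cases hac : a = c
    · subst hac
      rw [Matrix.one_apply_eq, Finset.sum_eq_single (τ⁻¹ a)]
      · simp only [sia, if_true]
        exact hdd a
      · intro x _ hx
        have : ¬ (a = τ x) := fun h => hx (by rw [h, ias])
        simp [this]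
      · intro h
        exact absurd (Finset.mem_univ _) h
    · rw [Matrix.one_apply_ne hac]
      refine Finset.sum_eq_zero fun x _ => ?_
      by_cases h : a = τ x
      · have h2 : ¬ (c = τ x) := fun h' => hac (h.trans h'.symm)
        simp [h2]
      · simp [h]
  have hdet : W.det = 1 := by
    rw [hW, Matrix.det_mul, Matrix.det_diagonal, Matrix.det_permutation]
    have h1 : ∏ a, d a = e := by
      rw [Finset.prod_eq_single (⟨0, hN⟩ : Fin N)]
      · simp [hd]
      · intro x _ hx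
        simp [hd, hx]
      · intro h
        exact absurd (Finset.mem_univ _) h
    rw [h1, Equiv.Perm.sign_inv]
    exact hee
  have hU : W ∈ Matrix.unitaryGroup (Fin N) ℂ := Matrix.mem_unitaryGroup_iff.2 hWW
  refine ⟨⟨W, Matrix.mem_specialUnitaryGroup_iff.2 ⟨hU, hdet⟩⟩, fun a c hac => ?_⟩
  change W a c = 0
  rw [hWapp, if_neg]
  intro h
  apply hac
  rw [h, hτ, cl_lift]

/-- **Diagonal configurations on one orbit differ by a permutation of the clusters.** -/
theorem exists_sw {X X' : XS P} (hX' : X' ∈ Reg b P)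
    {g : Matrix.specialUnitaryGroup (Fin N) ℂ} (h : b.act g (cfX b P X) = cfX b P X') :
    ∃ (σ : Equiv.Perm (Fin P.m)) (hσ : σ ∈ Sw P), g ∈ KS P σ ∧ X' = Osw b P hσ X := by
  classical
  rw [cfX_eq_dg, cfX_eq_dg, Diag304.dg_eq_diagCfg, Diag304.dg_eq_diagCfg] at h
  have hz : ∀ (Y : XS P) (i : Fin 9), ∑ a : Fin N, pos b P Y (P.cl a) i = 0 := fun Y i => by
    have h1 := congrArg (fun v : EuclideanSpace ℝ (Fin 9) => v i) (sum_pos b P Y)
    simpa using h1
  obtain ⟨⟨τ, hτ⟩, h2⟩ := HW815.perm_of_eq b g (fun i a => pos b P X (P.cl a) i)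
    (fun i a => pos b P X' (P.cl a) i) (hz X) (hz X') h
  have h3 : ∀ a c, (g : Matrix (Fin N) (Fin N) ℂ) a c ≠ 0 →
      pos b P X (P.cl c) = pos b P X' (P.cl a) := fun a c hac => by
    ext i
    exact h2 a c hac i
  have h4 : ∀ a, pos b P X (P.cl (τ a)) = pos b P X' (P.cl a) := fun a => by
    ext i
    exact hτ i a
  -- the permutation
  have h5 : ∀ p : Fin P.m, ∃ q : Fin P.m, pos b P X' q = pos b P X p := fun p => by
    obtain ⟨c, rfl⟩ := P.cl_surj p
    refine ⟨P.cl (τ⁻¹ c), ?_⟩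
    rw [← h4, sia]
  choose f hf using h5
  have hfs : Function.Surjective f := fun q => by
    obtain ⟨a, rfl⟩ := P.cl_surj q
    refine ⟨P.cl (τ a), hX' ?_⟩
    rw [hf, h4]
  let σ : Equiv.Perm (Fin P.m) := Equiv.ofBijective f (Finite.surjective_iff_bijective.1 hfs)
  have hσf : ∀ p, pos b P X' (σ p) = pos b P X p := hf
  have h6 : ∀ a, σ (P.cl (τ a)) = P.cl a := fun a => hX' (by rw [hσf, h4])
  have hσ : σ ∈ Sw P := by
    intro p
    rw [← P.card_cl, ← P.card_cl]
    refine Fintype.card_congr (Equiv.subtypeEquiv τ fun a => ?_)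
    constructor
    · intro ha
      exact σ.injective (by rw [h6, ha])
    · intro ha
      rw [← h6, ha]
  refine ⟨σ, hσ, fun a c hac => ?_, ?_⟩
  · by_contra hg
    apply hac
    apply hX'
    rw [hσf, h3 a c hg]
  · apply pos_inj b P
    intro p
    rw [pos_Osw, ← hσf, sia]

end Crest.Agent.R330.Geo692

end
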