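import Crest.Agent.R330.Geo8_692
import Crest.Agent.R330.MCut_365

/-!
# Row 330, S8-GEO (2') (helper613): the regular positions and the flats

For one channel `P : Lam N` (names of `Geo8_692`), in the format of `MCut_365`
(`A : Finset α`, `L : α → XS P →L[ℝ] V` surjective, centres `0`):

* `pairs P` : the pairs of different clusters; `dif b P q : XS P →L[ℝ] V9` (differences of
  positions), `difB b P q : XS P →L[ℝ] V6` (their `b`-parts); both surjective on `pairs P`
  (`dif_surj`, `difB_surj`), targets of dimension `9` and `6`;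
* `Reg_eq`, `UU_eq` : `Reg`, `UU` are the complements of the unions of the flats;
* `Reg`, `UU` open, dense, conull; `tubes_zero_Reg`, `tubes_zero_UU`;
* `mcut_perm`, `mcutB_perm` : the cut-offs are invariant under every map which permutes the
  positions.
-/

set_option autoImplicit false
set_option linter.unusedSectionVars false

open MeasureTheory Filter Topology Crest.MathPhysics.MatrixQM
open scoped ContDiff InnerProductSpace ENNReal BigOperators

noncomputable section

namespace Crest.Agent.R330.GeoC613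

open Crest.Agent.R330.Parts879 Crest.Agent.R330.Geo692 Crest.Agent.R330.MCut365

variable {N : ℕ} (b : ColorBasis N) (P : Lam N)

/-- Space of positions of one particle. -/
abbrev V9 := EuclideanSpace ℝ (Fin 9)

/-- Space of `b`-parts. -/
abbrev V6 := EuclideanSpace ℝ (Fin 6)

/-- The pairs of different clusters. -/
def pairs : Finset (Fin P.m × Fin P.m) := Finset.univ.filter fun q => q.1 ≠ q.2

theorem mem_pairs {q : Fin P.m × Fin P.m} : q ∈ pairs P ↔ q.1 ≠ q.2 := by
  simp [pairs]

/-- The position of the cluster `p` as a linear map. -/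
def posL (p : Fin P.m) : XS P →ₗ[ℝ] V9 where
  toFun X := pos b P X p
  map_add' X Y := pos_add b P X Y p
  map_smul' t X := pos_smul b P t X p

/-- The difference of two positions. -/
def dif (q : Fin P.m × Fin P.m) : XS P →L[ℝ] V9 :=
  LinearMap.toContinuousLinearMap (posL b P q.1 - posL b P q.2)

theorem dif_apply (q : Fin P.m × Fin P.m) (X : XS P) :
    dif b P q X = pos b P X q.1 - pos b P X q.2 := rfl

/-- The `b`-part (the last six coordinates) of a vector. -/
def bpt : V9 →ₗ[ℝ] V6 where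
  toFun v := WithLp.toLp 2 fun j => v (Fin.natAdd 3 j)
  map_add' _ _ := rfl
  map_smul' _ _ := rfl

theorem bpt_apply (v : V9) (j : Fin 6) : bpt v j = v (Fin.natAdd 3 j) := rfl

theorem bpt_surj : Function.Surjective bpt := by
  intro w
  let u : Fin 9 → ℝ := fun i => if h : (i : ℕ) - 3 < 6 then w ⟨(i : ℕ) - 3, h⟩ else 0
  refine ⟨WithLp.toLp 2 u, ?_⟩
  ext j
  rw [bpt_apply]
  change u (Fin.natAdd 3 j) = w j
  have h : ((Fin.natAdd 3 j : Fin 9) : ℕ) - 3 < 6 := by simp
  simp only [u]
  rw [dif_pos h]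
  refine congrArg w.ofLp (Fin.ext ?_)
  simp

theorem bpt_eq_zero {v : V9} : bpt v = 0 ↔ ∀ j : Fin 9, 3 ≤ (j : ℕ) → v j = 0 := by
  constructor
  · intro h j hj
    have hj6 : (j : ℕ) - 3 < 6 := by have := j.2; omega
    have h1 := congrArg (fun w : V6 => w ⟨(j : ℕ) - 3, hj6⟩) h
    have h2 : (Fin.natAdd 3 (⟨(j : ℕ) - 3, hj6⟩ : Fin 6) : Fin 9) = j := by
      apply Fin.ext
      simp only [Fin.natAdd_mk]
      omega
    simp only [bpt_apply] at h1
    rw [h2] at h1
    simpa using h1
  · intro h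
    ext j
    rw [bpt_apply, h _ (by simp)]
    rfl

/-- The `b`-part of the difference of two positions. -/
def difB (q : Fin P.m × Fin P.m) : XS P →L[ℝ] V6 :=
  LinearMap.toContinuousLinearMap (bpt ∘ₗ (posL b P q.1 - posL b P q.2))

theorem difB_apply (q : Fin P.m × Fin P.m) (X : XS P) :
    difB b P q X = bpt (pos b P X q.1 - pos b P X q.2) := rfl

theorem dif_surj {q : Fin P.m × Fin P.m} (hq : q.1 ≠ q.2) : Function.Surjective (dif b P q) := by
  classical
  intro v
  have h1 : (0 : ℝ) < P.k q.1 := by exact_mod_cast P.k_pos q.1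
  have h2 : (0 : ℝ) < P.k q.2 := by exact_mod_cast P.k_pos q.2
  set s : ℝ := P.k q.1 + P.k q.2 with hs
  have hs0 : s ≠ 0 := by positivity
  let r : Fin P.m → V9 := fun p =>
    if p = q.1 then ((P.k q.2 : ℝ) / s) • v else if p = q.2 then (-((P.k q.1 : ℝ) / s)) • v else 0
  have hr : ∑ p, (P.k p : ℝ) • r p = 0 := by
    have h3 : ∀ p, (P.k p : ℝ) • r p =
        (if p = q.1 then ((P.k q.1 : ℝ) * ((P.k q.2 : ℝ) / s)) • v else 0) +
          (if p = q.2 then ((P.k q.2 : ℝ) * (-((P.k q.1 : ℝ) / s))) • v else 0) := by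
      intro p
      by_cases e1 : p = q.1
      · subst e1
        simp only [r, if_true, if_neg hq, add_zero, smul_smul]
      · by_cases e2 : p = q.2
        · subst e2
          simp only [r, if_neg e1, if_true, zero_add, smul_smul]
        · simp only [r, if_neg e1, if_neg e2, smul_zero, add_zero]
    rw [Finset.sum_congr rfl fun p _ => h3 p, Finset.sum_add_distrib, Finset.sum_ite_eq',
      Finset.sum_ite_eq', if_pos (Finset.mem_univ _), if_pos (Finset.mem_univ _), ← add_smul]
    have h4 : (P.k q.1 : ℝ) * ((P.k q.2 : ℝ) / s) + (P.k q.2 : ℝ) * (-((P.k q.1 : ℝ) / s)) = 0 := by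
      ring
    rw [h4, zero_smul]
  obtain ⟨X, hX⟩ := exists_pos b P hr
  refine ⟨X, ?_⟩
  rw [dif_apply, hX, hX]
  simp only [r, if_true, if_neg (Ne.symm hq)]
  rw [neg_smul, sub_neg_eq_add, ← add_smul, ← add_div, add_comm (P.k q.2 : ℝ), ← hs,
    div_self hs0, one_smul]

theorem difB_surj {q : Fin P.m × Fin P.m} (hq : q.1 ≠ q.2) : Function.Surjective (difB b P q) := by
  intro w
  obtain ⟨v, rfl⟩ := bpt_surj w
  obtain ⟨X, rfl⟩ := dif_surj b P hq v
  exact ⟨X, rfl⟩

theorem dif_surj' : ∀ q ∈ pairs P, Function.Surjective (dif b P q) := fun _ hq =>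
  dif_surj b P ((mem_pairs P).1 hq)

theorem difB_surj' : ∀ q ∈ pairs P, Function.Surjective (difB b P q) := fun _ hq =>
  difB_surj b P ((mem_pairs P).1 hq)

theorem finrank_V9 : Module.finrank ℝ V9 = 9 := finrank_euclideanSpace_fin
theorem finrank_V6 : Module.finrank ℝ V6 = 6 := finrank_euclideanSpace_fin
theorem three_le_V9 : 3 ≤ Module.finrank ℝ V9 := by rw [finrank_V9]; norm_num
theorem three_le_V6 : 3 ≤ Module.finrank ℝ V6 := by rw [finrank_V6]; norm_num

/-! ## The complements are unions of flats -/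

theorem mem_Reg {X : XS P} : X ∈ Reg b P ↔ ∀ q ∈ pairs P, dif b P q X ≠ 0 := by
  constructor
  · intro h q hq h0
    rw [dif_apply, sub_eq_zero] at h0
    exact (mem_pairs P).1 hq (h h0)
  · intro h p p' hpp
    by_contra hne
    refine h (p, p') ((mem_pairs P).2 hne) ?_
    rw [dif_apply, sub_eq_zero]
    exact hpp

theorem mem_UU {X : XS P} : X ∈ UU b P ↔ ∀ q ∈ pairs P, difB b P q X ≠ 0 := by
  constructor
  · intro h q hq h0
    obtain ⟨j, hj, hne⟩ := h q.1 q.2 ((mem_pairs P).1 hq)
    rw [difB_apply, bpt_eq_zero] at h0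
    have := h0 j hj
    rw [PiLp.sub_apply, sub_eq_zero] at this
    exact hne this
  · intro h p p' hne
    have h0 := h (p, p') ((mem_pairs P).2 hne)
    rw [difB_apply, Ne, bpt_eq_zero] at h0
    push Not at h0
    obtain ⟨j, hj, h1⟩ := h0
    refine ⟨j, hj, fun h2 => h1 ?_⟩
    rw [PiLp.sub_apply, h2, sub_self]

theorem Reg_eq : Reg b P = (tubes (pairs P) (dif b P) 0 0)ᶜ := by
  ext X
  rw [mem_Reg, Set.mem_compl_iff]
  simp only [tubes, Set.mem_ofPred_eq, Pi.zero_apply, sub_zero, norm_le_zero_iff, not_exists,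
    not_and]

theorem UU_eq : UU b P = (tubes (pairs P) (difB b P) 0 0)ᶜ := by
  ext X
  rw [mem_UU, Set.mem_compl_iff]
  simp only [tubes, Set.mem_ofPred_eq, Pi.zero_apply, sub_zero, norm_le_zero_iff, not_exists,
    not_and]

theorem compl_Reg : (Reg b P)ᶜ = ⋃ q ∈ pairs P, {X | dif b P q X = 0} := by
  ext X
  rw [Set.mem_compl_iff, mem_Reg]
  simp

theorem compl_UU : (UU b P)ᶜ = ⋃ q ∈ pairs P, {X | difB b P q X = 0} := by
  ext X
  rw [Set.mem_compl_iff, mem_UU]
  simp

theorem isOpen_Reg : IsOpen (Reg b P) := by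
  rw [Reg_eq]
  exact (isClosed_tubes _ _ _ _).isOpen_compl

theorem isOpen_UU : IsOpen (UU b P) := by
  rw [UU_eq]
  exact (isClosed_tubes _ _ _ _).isOpen_compl

/-- A proper flat is a null set. -/
theorem flat_null {V : Type*} [NormedAddCommGroup V] [NormedSpace ℝ V] [Nontrivial V]
    {L : XS P →L[ℝ] V} (hL : Function.Surjective L) : volume {X | L X = 0} = 0 := by
  have h1 : {X | L X = 0} = (LinearMap.ker (L : XS P →ₗ[ℝ] V) : Set (XS P)) := by
    ext X
    simp
  rw [h1]
  refine Measure.addHaar_submodule _ _ ?_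
  intro h
  rw [LinearMap.ker_eq_top] at h
  obtain ⟨v, hv⟩ := exists_ne (0 : V)
  obtain ⟨X, hX⟩ := hL v
  apply hv
  rw [← hX]
  exact LinearMap.congr_fun h X

theorem null_Reg : volume (Reg b P)ᶜ = 0 := by
  rw [compl_Reg]
  refine (measure_biUnion_null_iff (pairs P).countable_toSet).2 fun q hq => ?_
  exact flat_null P (dif_surj' b P q hq)

theorem null_UU : volume (UU b P)ᶜ = 0 := by
  rw [compl_UU]
  refine (measure_biUnion_null_iff (pairs P).countable_toSet).2 fun q hq => ?_
  exact flat_null P (difB_surj' b P q hq)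

theorem ae_Reg : ∀ᵐ X : XS P, X ∈ Reg b P := null_Reg b P

theorem ae_UU : ∀ᵐ X : XS P, X ∈ UU b P := null_UU b P

theorem dense_Reg : Dense (Reg b P) := Measure.dense_of_ae (ae_Reg b P)

theorem dense_UU : Dense (UU b P) := Measure.dense_of_ae (ae_UU b P)

theorem Reg_nonempty : (Reg b P).Nonempty := (dense_Reg b P).nonempty

theorem UU_nonempty : (UU b P).Nonempty := (dense_UU b P).nonempty

/-! ## Homogeneity and permutations -/

theorem smul_Reg {t : ℝ} (ht : t ≠ 0) {X : XS P} : t • X ∈ Reg b P ↔ X ∈ Reg b P := by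
  simp only [mem_Reg, map_smul, ne_eq, smul_eq_zero, ht, false_or]

theorem smul_UU {t : ℝ} (ht : t ≠ 0) {X : XS P} : t • X ∈ UU b P ↔ X ∈ UU b P := by
  simp only [mem_UU, map_smul, ne_eq, smul_eq_zero, ht, false_or]

theorem zero_not_mem_Reg : (0 : XS P) ∉ Reg b P := by
  intro h
  have h2 := P.two_le_m
  let p : Fin P.m := ⟨0, by omega⟩
  let p' : Fin P.m := ⟨1, by omega⟩
  have hne : p ≠ p' := by
    intro h
    have := congrArg Fin.val h
    simp [p, p'] at this
  exact (mem_Reg b P).1 h (p, p') ((mem_pairs P).2 hne) (map_zero _)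

variable {b P}

/-- The permutation of the pairs. -/
def pp (σ : Equiv.Perm (Fin P.m)) (q : Fin P.m × Fin P.m) : Fin P.m × Fin P.m := (σ q.1, σ q.2)

theorem bijOn_pp (σ : Equiv.Perm (Fin P.m)) : Set.BijOn (pp σ) (pairs P) (pairs P) := by
  refine ⟨fun q hq => ?_, fun q _ q' _ h => ?_, fun q hq => ?_⟩
  · rw [Finset.mem_coe, mem_pairs] at hq ⊢
    exact fun h => hq (σ.injective h)
  · have h1 := congrArg Prod.fst h
    have h2 := congrArg Prod.snd h
    exact Prod.ext (σ.injective h1) (σ.injective h2)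
  · rw [Finset.mem_coe, mem_pairs] at hq
    refine ⟨(σ.symm q.1, σ.symm q.2), ?_, ?_⟩
    · rw [Finset.mem_coe, mem_pairs]
      exact fun h => hq (σ.symm.injective h)
    · simp [pp]

theorem dif_perm {g : XS P → XS P} {σ : Equiv.Perm (Fin P.m)}
    (hg : ∀ X p, pos b P (g X) p = pos b P X (σ p)) (q : Fin P.m × Fin P.m) (X : XS P) :
    dif b P q (g X) = dif b P (pp σ q) X := by
  rw [dif_apply, dif_apply, hg, hg]
  rfl

theorem difB_perm {g : XS P → XS P} {σ : Equiv.Perm (Fin P.m)}
    (hg : ∀ X p, pos b P (g X) p = pos b P X (σ p)) (q : Fin P.m × Fin P.m) (X : XS P) :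
    difB b P q (g X) = difB b P (pp σ q) X := by
  rw [difB_apply, difB_apply, hg, hg]
  rfl

/-- The cut-off off the collisions is invariant under permutations of the positions. -/
theorem mcut_perm {g : XS P → XS P} {σ : Equiv.Perm (Fin P.m)}
    (hg : ∀ X p, pos b P (g X) p = pos b P X (σ p)) (δ : ℝ) (X : XS P) :
    mcut (pairs P) (dif b P) 0 δ (g X) = mcut (pairs P) (dif b P) 0 δ X :=
  mcut_comp (bijOn_pp σ) (fun q _ X => by
    rw [dif_perm hg, Pi.zero_apply, Pi.zero_apply]) δ X

/-- The cut-off off the `b`-collisions is invariant under permutations of the positions. -/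
theorem mcutB_perm {g : XS P → XS P} {σ : Equiv.Perm (Fin P.m)}
    (hg : ∀ X p, pos b P (g X) p = pos b P X (σ p)) (δ : ℝ) (X : XS P) :
    mcut (pairs P) (difB b P) 0 δ (g X) = mcut (pairs P) (difB b P) 0 δ X :=
  mcut_comp (bijOn_pp σ) (fun q _ X => by
    rw [difB_perm hg, Pi.zero_apply, Pi.zero_apply]) δ X

theorem Reg_perm {g : XS P → XS P} {σ : Equiv.Perm (Fin P.m)}
    (hg : ∀ X p, pos b P (g X) p = pos b P X (σ p)) (X : XS P) :
    g X ∈ Reg b P ↔ X ∈ Reg b P := by
  rw [mem_Reg, mem_Reg]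
  constructor
  · intro h q hq
    obtain ⟨q', hq', rfl⟩ := (bijOn_pp σ).surjOn hq
    rw [← dif_perm hg]
    exact h q' hq'
  · intro h q hq
    rw [dif_perm hg]
    exact h _ ((bijOn_pp σ).mapsTo hq)

theorem UU_perm {g : XS P → XS P} {σ : Equiv.Perm (Fin P.m)}
    (hg : ∀ X p, pos b P (g X) p = pos b P X (σ p)) (X : XS P) :
    g X ∈ UU b P ↔ X ∈ UU b P := by
  rw [mem_UU, mem_UU]
  constructor
  · intro h q hq
    obtain ⟨q', hq', rfl⟩ := (bijOn_pp σ).surjOn hq
    rw [← difB_perm hg]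
    exact h q' hq'
  · intro h q hq
    rw [difB_perm hg]
    exact h _ ((bijOn_pp σ).mapsTo hq)

end Crest.Agent.R330.GeoC613

end
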