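import Crest.Agent.R330.SlC_314
import Crest.Agent.R330.SUgrp_596

/-!
Row 330, S5b (slice theorem), part D: the exponential elements of `SU(N)`, smoothness of the
action in exponential coordinates, derivative, tubes.
-/

set_option autoImplicit false
noncomputable section

open Matrix
open Crest.MathPhysics.MatrixQM
open Crest.Agent.R330.SlA314 Crest.Agent.R330.SlB314 Crest.Agent.R330.SlC314
open scoped ContDiff

namespace Crest.Agent.R330.SlD314

open scoped Matrix.Norms.Operator

variable {N : ℕ} (b : ColorBasis N)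

/-- the skew-Hermitian matrix `-i Ω` -/
def gen (om : Fin (N ^ 2 - 1) → ℝ) : Matrix (Fin N) (Fin N) ℂ := -Complex.I • cm b om

theorem gen_conjTranspose (om : Fin (N ^ 2 - 1) → ℝ) : (gen b om)ᴴ = -gen b om := by
  unfold gen
  rw [Matrix.conjTranspose_smul, (cm_herm b om).eq]
  simp

theorem gen_smul (t : ℝ) (om : Fin (N ^ 2 - 1) → ℝ) : gen b (t • om) = t • gen b om := by
  unfold gen
  rw [cm_smul, smul_comm]
  rfl

theorem gen_neg (om : Fin (N ^ 2 - 1) → ℝ) : gen b (-om) = -gen b om := by
  have := gen_smul b (-1) om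
  simpa using this

theorem det_exp_gen (om : Fin (N ^ 2 - 1) → ℝ) : (NormedSpace.exp (gen b om)).det = 1 := by
  classical
  have hH := cm_herm b om
  set V := hH.eigenvectorUnitary with hV
  have hsp := hH.spectral_theorem
  have hVV : (V : Matrix (Fin N) (Fin N) ℂ) * star (V : Matrix (Fin N) (Fin N) ℂ) = 1 :=
    Matrix.mem_unitaryGroup_iff.1 V.2
  have hVV' : star (V : Matrix (Fin N) (Fin N) ℂ) * (V : Matrix (Fin N) (Fin N) ℂ) = 1 :=
    Matrix.mem_unitaryGroup_iff'.1 V.2
  have hunit : IsUnit (V : Matrix (Fin N) (Fin N) ℂ) :=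
    ⟨⟨V, star (V : Matrix (Fin N) (Fin N) ℂ), hVV, hVV'⟩, rfl⟩
  have hinv : (V : Matrix (Fin N) (Fin N) ℂ)⁻¹ = star (V : Matrix (Fin N) (Fin N) ℂ) :=
    Matrix.inv_eq_right_inv hVV
  have hg : gen b om = (V : Matrix (Fin N) (Fin N) ℂ) *
      Matrix.diagonal (fun i => -Complex.I * (hH.eigenvalues i : ℂ)) *
        (V : Matrix (Fin N) (Fin N) ℂ)⁻¹ := by
    rw [hinv]
    unfold gen
    conv_lhs => rw [hsp]
    have : Matrix.diagonal (fun i => -Complex.I * (hH.eigenvalues i : ℂ)) =
        -Complex.I • Matrix.diagonal (fun i => (hH.eigenvalues i : ℂ)) := by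
      ext i j
      by_cases h : i = j
      · subst h; simp
      · simp [h]
    rw [this, mul_smul_comm, smul_mul_assoc]
    rfl
  rw [hg, Matrix.exp_conj _ _ hunit, Matrix.det_mul, Matrix.det_mul, Matrix.exp_diagonal,
    Matrix.det_diagonal, mul_right_comm, ← Matrix.det_mul,
    Matrix.mul_nonsing_inv _ ((Matrix.isUnit_iff_isUnit_det _).1 hunit), Matrix.det_one, one_mul]
  have h2 : ∀ i, (NormedSpace.exp (fun i => -Complex.I * (hH.eigenvalues i : ℂ))) i =
      Complex.exp (-Complex.I * (hH.eigenvalues i : ℂ)) := by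
    intro i
    rw [Pi.coe_exp, Complex.exp_eq_exp_ℂ]
  simp only [h2]
  rw [← Complex.exp_sum, ← Finset.mul_sum]
  have h3 : ∑ i, (hH.eigenvalues i : ℂ) = 0 := by
    have := hH.trace_eq_sum_eigenvalues
    rw [cm_trace] at this
    exact this.symm
  rw [h3, mul_zero, Complex.exp_zero]

theorem exp_gen_star_mul (om : Fin (N ^ 2 - 1) → ℝ) :
    star (NormedSpace.exp (gen b om)) * NormedSpace.exp (gen b om) = 1 := by
  rw [Matrix.star_eq_conjTranspose, ← Matrix.exp_conjTranspose, gen_conjTranspose,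
    ← Matrix.exp_add_of_commute _ _ (Commute.neg_left (Commute.refl (gen b om)))]
  simp

/-- `exp(-i Ω)` as an element of `SU(N)` -/
def gexp (om : Fin (N ^ 2 - 1) → ℝ) : Matrix.specialUnitaryGroup (Fin N) ℂ :=
  ⟨NormedSpace.exp (gen b om), Matrix.mem_specialUnitaryGroup_iff.2
    ⟨Matrix.mem_unitaryGroup_iff'.2 (exp_gen_star_mul b om), det_exp_gen b om⟩⟩

theorem gexp_val (om : Fin (N ^ 2 - 1) → ℝ) :
    ((gexp b om : Matrix.specialUnitaryGroup (Fin N) ℂ) : Matrix (Fin N) (Fin N) ℂ) =
      NormedSpace.exp (gen b om) := rfl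

theorem gexp_zero : gexp b 0 = 1 := by
  apply Subtype.ext
  rw [gexp_val]
  have : gen b (0 : Fin (N ^ 2 - 1) → ℝ) = 0 := by
    have := gen_smul b 0 (0 : Fin (N ^ 2 - 1) → ℝ)
    simpa using this
  rw [this, NormedSpace.exp_zero]
  rfl

theorem gexp_add_smul (s t : ℝ) (om : Fin (N ^ 2 - 1) → ℝ) :
    gexp b ((s + t) • om) = gexp b (s • om) * gexp b (t • om) := by
  apply Subtype.ext
  rw [Submonoid.coe_mul, gexp_val, gexp_val, gexp_val, gen_smul, gen_smul, gen_smul,
    ← Matrix.exp_add_of_commute, add_smul]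
  exact ((Commute.refl (gen b om)).smul_left s).smul_right t

theorem gexp_neg (om : Fin (N ^ 2 - 1) → ℝ) : gexp b (-om) = (gexp b om)⁻¹ := by
  rw [eq_inv_iff_mul_eq_one]
  have h := gexp_add_smul b (-1) 1 om
  simp only [neg_add_cancel, zero_smul, one_smul, neg_smul] at h
  rw [← h, gexp_zero]

theorem exp_gen_star (om : Fin (N ^ 2 - 1) → ℝ) :
    star (NormedSpace.exp (gen b om)) = NormedSpace.exp (gen b (-om)) := by
  rw [Matrix.star_eq_conjTranspose, ← Matrix.exp_conjTranspose, gen_conjTranspose, gen_neg]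

/-- reconstruction of a configuration from nine matrices (real parts of `Tr(T_A M_i)`) -/
def recon : (Fin 9 → Matrix (Fin N) (Fin N) ℂ) →ₗ[ℝ] Cfg N where
  toFun M := WithLp.toLp 2 fun iA => (b.T iA.2 * M iA.1).trace.re
  map_add' M M' := by
    ext iA
    simp [Matrix.mul_add, trace_add]
  map_smul' t M := by
    ext iA
    simp [trace_smul]

theorem recon_mat (x : Cfg N) : recon b (fun i => mat b x i) = x := by
  ext iA
  change (b.T iA.2 * mat b x iA.1).trace.re = _
  rw [mat_eq, T_mul_cm_trace]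
  simp

/-- `mat` as a real linear map in `x` -/
def matL (i : Fin 9) : Cfg N →ₗ[ℝ] Matrix (Fin N) (Fin N) ℂ where
  toFun x := mat b x i
  map_add' x y := mat_add b x y i
  map_smul' t x := by
    rw [mat_smul]
    rfl

/-- `gen` as a real linear map -/
def genL : (Fin (N ^ 2 - 1) → ℝ) →ₗ[ℝ] Matrix (Fin N) (Fin N) ℂ where
  toFun om := gen b om
  map_add' u v := by
    unfold gen
    rw [cm_add, smul_add]
  map_smul' t u := by
    rw [gen_smul]
    rfl

theorem act_gexp_eq (om : Fin (N ^ 2 - 1) → ℝ) (x : Cfg N) :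
    b.act (gexp b om) x = recon b (fun i =>
      NormedSpace.exp (gen b om) * mat b x i * NormedSpace.exp (gen b (-om))) := by
  rw [← recon_mat b (b.act (gexp b om) x)]
  congr 1
  funext i
  rw [mat_act, gexp_val, exp_gen_star]

theorem contDiff_exp_mat : ContDiff ℝ ∞
    (NormedSpace.exp : Matrix (Fin N) (Fin N) ℂ → Matrix (Fin N) (Fin N) ℂ) := by
  rw [contDiff_iff_contDiffAt]
  intro x
  exact (NormedSpace.exp_analytic (𝕂 := ℝ) x).contDiffAt

theorem contDiff_gen_exp : ContDiff ℝ ∞
    (fun om : Fin (N ^ 2 - 1) → ℝ => NormedSpace.exp (gen b om)) :=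
  contDiff_exp_mat.comp (LinearMap.toContinuousLinearMap (genL b)).contDiff

/-- the action is jointly smooth in exponential coordinates -/
theorem contDiff_act_gexp : ContDiff ℝ ∞
    (fun p : (Fin (N ^ 2 - 1) → ℝ) × Cfg N => b.act (gexp b p.1) p.2) := by
  have h : (fun p : (Fin (N ^ 2 - 1) → ℝ) × Cfg N => b.act (gexp b p.1) p.2) =
      fun p => (LinearMap.toContinuousLinearMap (recon b)) (fun i =>
        NormedSpace.exp (gen b p.1) * mat b p.2 i * NormedSpace.exp (gen b (-p.1))) := by
    funext p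
    exact act_gexp_eq b p.1 p.2
  rw [h]
  refine (ContinuousLinearMap.contDiff _).comp ?_
  rw [contDiff_pi]
  intro i
  refine ContDiff.mul (ContDiff.mul ?_ ?_) ?_
  · exact (contDiff_gen_exp b).comp contDiff_fst
  · exact (LinearMap.toContinuousLinearMap (matL b i)).contDiff.comp contDiff_snd
  · exact (contDiff_gen_exp b).comp contDiff_fst.neg

theorem hasDerivAt_act (om : Fin (N ^ 2 - 1) → ℝ) (x : Cfg N) (t : ℝ) :
    HasDerivAt (fun t : ℝ => b.act (gexp b (t • om)) x)
      (brx b om (b.act (gexp b (t • om)) x)) t := by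
  have h1 : HasDerivAt (fun u : ℝ => NormedSpace.exp (u • gen b om))
      (gen b om * NormedSpace.exp (t • gen b om)) t :=
    hasDerivAt_exp_smul_const' (𝕂 := ℝ) (gen b om) t
  have h2 : HasDerivAt (fun u : ℝ => NormedSpace.exp (u • gen b (-om)))
      (NormedSpace.exp (t • gen b (-om)) * gen b (-om)) t :=
    hasDerivAt_exp_smul_const (𝕂 := ℝ) (gen b (-om)) t
  have h3 : HasDerivAt (fun u : ℝ => (fun i : Fin 9 =>
      NormedSpace.exp (u • gen b om) * mat b x i * NormedSpace.exp (u • gen b (-om))))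
      (fun i => (gen b om * NormedSpace.exp (t • gen b om)) * mat b x i *
        NormedSpace.exp (t • gen b (-om)) +
        NormedSpace.exp (t • gen b om) * mat b x i *
          (NormedSpace.exp (t • gen b (-om)) * gen b (-om))) t := by
    refine hasDerivAt_pi.2 fun i => ?_
    exact (h1.mul_const (mat b x i)).mul h2
  have h4 := (LinearMap.toContinuousLinearMap (recon b)).hasFDerivAt.comp_hasDerivAt t h3
  have e1 : (fun t : ℝ => b.act (gexp b (t • om)) x) =
      (LinearMap.toContinuousLinearMap (recon b)) ∘ (fun u : ℝ => (fun i : Fin 9 =>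
      NormedSpace.exp (u • gen b om) * mat b x i * NormedSpace.exp (u • gen b (-om)))) := by
    funext u
    rw [act_gexp_eq, gen_smul, ← smul_neg, gen_smul]
    rfl
  have e0 : b.act (gexp b (t • om)) x = ((LinearMap.toContinuousLinearMap (recon b)) ∘
      (fun u : ℝ => (fun i : Fin 9 =>
      NormedSpace.exp (u • gen b om) * mat b x i * NormedSpace.exp (u • gen b (-om))))) t :=
    congrFun e1 t
  rw [e0, e1]
  refine h4.congr_deriv ?_
  symm
  rw [← recon_mat b (brx b om _)]
  change recon b _ = recon b _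
  congr 1
  funext i
  rw [mat_brx]
  have e2 : mat b (((LinearMap.toContinuousLinearMap (recon b)) ∘ (fun u : ℝ => (fun i : Fin 9 =>
      NormedSpace.exp (u • gen b om) * mat b x i * NormedSpace.exp (u • gen b (-om))))) t) i =
      NormedSpace.exp (t • gen b om) * mat b x i * NormedSpace.exp (t • gen b (-om)) := by
    rw [← congrFun e1 t, mat_act, gexp_val, exp_gen_star, gen_smul, ← smul_neg, gen_smul]
  rw [e2]
  rw [gen_neg]
  unfold gen
  simp only [smul_sub, smul_mul_assoc, mul_smul_comm, neg_smul, neg_mul, mul_neg, smul_neg,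
    Matrix.mul_assoc]
  abel

theorem hasDerivAt_act_zero (om : Fin (N ^ 2 - 1) → ℝ) (x : Cfg N) :
    HasDerivAt (fun t : ℝ => b.act (gexp b (t • om)) x) (brx b om x) 0 := by
  have h := hasDerivAt_act b om x 0
  rwa [zero_smul, gexp_zero, act_one] at h

/-! ### tubes -/

theorem continuous_act : Continuous
    (fun p : Matrix.specialUnitaryGroup (Fin N) ℂ × Cfg N => b.act p.1 p.2) := by
  have h : (fun p : Matrix.specialUnitaryGroup (Fin N) ℂ × Cfg N => b.act p.1 p.2) =
      fun p => (LinearMap.toContinuousLinearMap (recon b)) (fun i =>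
        (p.1 : Matrix (Fin N) (Fin N) ℂ) * mat b p.2 i *
          star (p.1 : Matrix (Fin N) (Fin N) ℂ)) := by
    funext p
    rw [← recon_mat b (b.act p.1 p.2)]
    change recon b _ = recon b _
    congr 1
    funext i
    rw [mat_act]
  rw [h]
  refine (ContinuousLinearMap.continuous _).comp ?_
  rw [continuous_pi_iff]
  intro i
  have h1 : Continuous fun p : Matrix.specialUnitaryGroup (Fin N) ℂ × Cfg N =>
      (p.1 : Matrix (Fin N) (Fin N) ℂ) := continuous_subtype_val.comp continuous_fst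
  have h2 : Continuous fun p : Matrix.specialUnitaryGroup (Fin N) ℂ × Cfg N => mat b p.2 i :=
    (LinearMap.toContinuousLinearMap (matL b i)).continuous.comp continuous_snd
  exact (h1.mul h2).mul h1.star

theorem continuous_act_left (x : Cfg N) :
    Continuous fun g : Matrix.specialUnitaryGroup (Fin N) ℂ => b.act g x := by
  have h2 : Continuous (fun g : Matrix.specialUnitaryGroup (Fin N) ℂ =>
      ((g, x) : Matrix.specialUnitaryGroup (Fin N) ℂ × Cfg N)) := by fun_prop
  change Continuous ((fun p : Matrix.specialUnitaryGroup (Fin N) ℂ × Cfg N => b.act p.1 p.2) ∘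
    (fun g : Matrix.specialUnitaryGroup (Fin N) ℂ =>
      ((g, x) : Matrix.specialUnitaryGroup (Fin N) ℂ × Cfg N)))
  exact Continuous.comp (continuous_act b) h2

/-- every point has a nearest point on the orbit, and the difference (moved back) is normal -/
theorem exists_slice (c x : Cfg N) : ∃ (g : Matrix.specialUnitaryGroup (Fin N) ℂ) (y : Cfg N),
    y ∈ Nor b c ∧ b.act g (c + y) = x ∧ ∀ h : Matrix.specialUnitaryGroup (Fin N) ℂ,
      ‖y‖ ≤ ‖x - b.act h c‖ := by
  have hcont : Continuous fun g : Matrix.specialUnitaryGroup (Fin N) ℂ => ‖x - b.act g c‖ :=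
    (continuous_const.sub (continuous_act_left b c)).norm
  obtain ⟨g, -, hg⟩ := (isCompact_univ : IsCompact (Set.univ :
    Set (Matrix.specialUnitaryGroup (Fin N) ℂ))).exists_isMinOn ⟨1, trivial⟩ hcont.continuousOn
  have hmin : ∀ h, ‖x - b.act g c‖ ≤ ‖x - b.act h c‖ := fun h => hg (Set.mem_univ h)
  set y : Cfg N := b.act g⁻¹ x - c with hy
  have hyn : ∀ h, ‖y‖ ≤ ‖c + y - b.act h c‖ := by
    intro h
    have e1 : ‖y‖ = ‖x - b.act g c‖ := by
      rw [hy, ← act_norm b g, act_sub, act_act_inv]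
    have e2 : ‖c + y - b.act h c‖ = ‖x - b.act (g * h) c‖ := by
      have : c + y = b.act g⁻¹ x := by rw [hy]; abel
      rw [this, ← act_norm b g, act_sub, act_act_inv, act_mul]
    rw [e1, e2]
    exact hmin _
  refine ⟨g, y, ?_, ?_, ?_⟩
  · rw [mem_Nor]
    intro om
    -- first order condition
    set f : ℝ → ℝ := fun t => ‖c + y - b.act (gexp b (t • om)) c‖ ^ 2 with hf
    have hd : HasDerivAt f (2 * inner ℝ (c + y - b.act (gexp b ((0 : ℝ) • om)) c)
        (-brx b om c)) 0 := by
      have h0 : HasDerivAt (fun t : ℝ => c + y - b.act (gexp b (t • om)) c) (-brx b om c) 0 :=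
        (hasDerivAt_act_zero b om c).const_sub (c + y)
      exact h0.norm_sq
    have hloc : IsLocalMin f 0 := by
      refine Filter.Eventually.of_forall fun t => ?_
      have h1 := hyn (gexp b (t • om))
      have h2 : f 0 = ‖y‖ ^ 2 := by
        simp only [hf, zero_smul, gexp_zero, act_one]
        congr 2
        abel
      rw [h2]
      exact pow_le_pow_left₀ (norm_nonneg _) h1 2
    have h0 := hloc.hasDerivAt_eq_zero hd
    rw [zero_smul, gexp_zero, act_one] at h0
    have e : c + y - c = y := by abel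
    rw [e, inner_neg_right] at h0
    rw [real_inner_comm]
    linarith
  · rw [hy]
    have : c + (b.act g⁻¹ x - c) = b.act g⁻¹ x := by abel
    rw [this, act_act_inv]
  · intro h
    have h1 := hyn (g⁻¹ * h)
    have e2 : ‖c + y - b.act (g⁻¹ * h) c‖ = ‖x - b.act h c‖ := by
      have : c + y = b.act g⁻¹ x := by rw [hy]; abel
      rw [this, act_mul, ← act_sub, act_norm]
    rwa [e2] at h1

/-- the tube of radius `r` around the orbit of `c` -/
def tube (c : Cfg N) (r : ℝ) : Set (Cfg N) := {x | ∃ g, ‖x - b.act g c‖ < r}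

theorem isOpen_tube (c : Cfg N) (r : ℝ) : IsOpen (tube b c r) := by
  have : tube b c r = ⋃ g, Metric.ball (b.act g c) r := by
    ext x
    simp [tube, dist_eq_norm]
  rw [this]
  exact isOpen_iUnion fun g => Metric.isOpen_ball

theorem mem_tube_iff (c : Cfg N) (r : ℝ) (x : Cfg N) :
    x ∈ tube b c r ↔ ∃ (g : Matrix.specialUnitaryGroup (Fin N) ℂ) (y : Cfg N),
      y ∈ Nor b c ∧ ‖y‖ < r ∧ b.act g (c + y) = x := by
  constructor
  · rintro ⟨h, hh⟩
    obtain ⟨g, y, hy, he, hn⟩ := exists_slice b c x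
    exact ⟨g, y, hy, (hn h).trans_lt hh, he⟩
  · rintro ⟨g, y, hy, hn, rfl⟩
    refine ⟨g, ?_⟩
    rw [← act_sub, act_norm]
    have e : c + y - c = y := by abel
    rwa [e]

theorem act_mem_tube {c : Cfg N} {r : ℝ} {x : Cfg N}
    (g : Matrix.specialUnitaryGroup (Fin N) ℂ) : b.act g x ∈ tube b c r ↔ x ∈ tube b c r := by
  constructor
  · rintro ⟨h, hh⟩
    refine ⟨g⁻¹ * h, ?_⟩
    rw [act_mul, ← act_norm b g, act_sub, act_act_inv]
    exact hh
  · rintro ⟨h, hh⟩
    refine ⟨g * h, ?_⟩
    rw [act_mul, ← act_sub, act_norm]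
    exact hh

end Crest.Agent.R330.SlD314
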