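import Crest.Agent.R330.Geo8_692
import Crest.Agent.R330.HW_815
import Crest.Agent.R330.SlD_314

/-!
# Row 330, S8-GEO (helper815): orbits of regular diagonal configurations

* `inj` : if `g . cfX X = cfX X'` with `X, X'` regular positions of the same channel, then `X'` is
  `X` with the clusters permuted by some `s ∈ Sw P` (`pos X' (s p) = pos X p`), and `g` is block
  monomial with permutation `s` (`g_ac ≠ 0 → cl a = s (cl c)`).
* `inj_part` : regular positions of different channels are never on the same orbit.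
* `mono_inv_mul` : two block monomial matrices with the same permutation differ by an element of
  the block subgroup.
* `orbK b P K` : the orbits of the positions in `K`: compact for compact `K`; `disjoint_orbK`,
  `disjoint_orbK'` : disjointness.
-/

set_option autoImplicit false
set_option linter.unusedSectionVars false

open MeasureTheory Filter Topology Crest.MathPhysics.MatrixQM
open scoped ContDiff InnerProductSpace ENNReal BigOperators

noncomputable section

namespace Crest.Agent.R330.GeoInj815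

open Crest.Agent.R330.Parts879 Crest.Agent.R330.Geo692
open Crest.Agent.R330.Diag304 (dg)

variable {N : ℕ} (b : ColorBasis N)

/-- Equal diagonal configurations up to a rotation, `dg` form. -/
theorem dg_inj {p q : Fin N → EuclideanSpace ℝ (Fin 9)} (hp : ∑ a, p a = 0) (hq : ∑ a, q a = 0)
    {g : Matrix.specialUnitaryGroup (Fin N) ℂ} (h : b.act g (dg b p) = dg b q) :
    (∃ σ : Equiv.Perm (Fin N), ∀ a, p (σ a) = q a) ∧
      ∀ a c, (g : Matrix (Fin N) (Fin N) ℂ) a c ≠ 0 → p c = q a := by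
  have hp' : ∀ i : Fin 9, ∑ a, (fun i a => p a i) i a = 0 := fun i => by
    have h1 := congrArg (fun v : EuclideanSpace ℝ (Fin 9) => v i) hp
    simpa using h1
  have hq' : ∀ i : Fin 9, ∑ a, (fun i a => q a i) i a = 0 := fun i => by
    have h1 := congrArg (fun v : EuclideanSpace ℝ (Fin 9) => v i) hq
    simpa using h1
  obtain ⟨⟨σ, hσ⟩, h2⟩ := HW815.perm_of_eq b g (fun i a => p a i) (fun i a => q a i) hp' hq' h
  refine ⟨⟨σ, fun a => ?_⟩, fun a c hg => ?_⟩
  · ext i
    exact hσ i a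
  · ext i
    exact h2 a c hg i

/-- Regular positions of different channels are never on the same orbit. -/
theorem inj_part {P Q : Lam N} {X : XS P} {Y : XS Q} (hX : X ∈ Reg b P) (hY : Y ∈ Reg b Q)
    {g : Matrix.specialUnitaryGroup (Fin N) ℂ} (h : b.act g (cfX b P X) = cfX b Q Y) : P = Q := by
  rw [cfX_eq_dg, cfX_eq_dg] at h
  obtain ⟨⟨σ, hσ⟩, -⟩ := dg_inj b (sum_pos b P X) (sum_pos b Q Y) h
  refine label_unique (r := pos b P X) (s := pos b Q Y) hX hY σ.symm fun a => ?_
  have h1 := hσ (σ.symm a)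
  rw [Equiv.apply_symm_apply] at h1
  exact h1

/-- **Injectivity modulo permutations of equal clusters.** -/
theorem inj {P : Lam N} {X X' : XS P} (hX : X ∈ Reg b P) (hX' : X' ∈ Reg b P)
    {g : Matrix.specialUnitaryGroup (Fin N) ℂ} (h : b.act g (cfX b P X) = cfX b P X') :
    ∃ s ∈ Sw P, (∀ p, pos b P X' (s p) = pos b P X p) ∧
      ∀ a c, (g : Matrix (Fin N) (Fin N) ℂ) a c ≠ 0 → P.cl a = s (P.cl c) := by
  classical
  rw [cfX_eq_dg, cfX_eq_dg] at h
  obtain ⟨⟨σ, hσ⟩, h2⟩ := dg_inj b (sum_pos b P X) (sum_pos b P X') h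
  -- the induced map of the labels
  have h1 : ∀ p : Fin P.m, ∃ q : Fin P.m, pos b P X' q = pos b P X p := fun p => by
    obtain ⟨a, ha⟩ := P.cl_surj p
    refine ⟨P.cl (σ.symm a), ?_⟩
    have h3 := hσ (σ.symm a)
    rw [Equiv.apply_symm_apply, ha] at h3
    exact h3.symm
  choose e he using h1
  have he_inj : Function.Injective e := fun p q hpq => hX (by rw [← he p, ← he q, hpq])
  have he_surj : Function.Surjective e := Finite.surjective_of_injective he_inj
  let s : Equiv.Perm (Fin P.m) := Equiv.ofBijective e ⟨he_inj, he_surj⟩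
  have hs : ∀ p, pos b P X' (s p) = pos b P X p := he
  refine ⟨s, ?_, hs, ?_⟩
  · intro p
    rw [← P.card_cl, ← P.card_cl]
    refine Fintype.card_congr (Equiv.subtypeEquiv σ fun a => ?_)
    have h3 := hσ a
    constructor
    · intro ha
      rw [ha, hs] at h3
      exact hX h3
    · intro ha
      rw [ha, ← hs] at h3
      exact (hX' h3).symm
  · intro a c hg
    have h3 := h2 a c hg
    rw [← hs] at h3
    exact (hX' h3).symm

/-- Two block monomial elements with the same permutation differ by the block subgroup. -/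
theorem mono_inv_mul {P : Lam N} {s : Equiv.Perm (Fin P.m)}
    {w g : Matrix.specialUnitaryGroup (Fin N) ℂ}
    (hw : ∀ a c, (w : Matrix (Fin N) (Fin N) ℂ) a c ≠ 0 → P.cl a = s (P.cl c))
    (hg : ∀ a c, (g : Matrix (Fin N) (Fin N) ℂ) a c ≠ 0 → P.cl a = s (P.cl c)) :
    w⁻¹ * g ∈ Kst P := by
  intro a c hac
  change (star (w : Matrix (Fin N) (Fin N) ℂ) * (g : Matrix (Fin N) (Fin N) ℂ)) a c = 0
  rw [Matrix.mul_apply]
  refine Finset.sum_eq_zero fun d _ => ?_
  rw [Matrix.star_apply]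
  by_cases h1 : (w : Matrix (Fin N) (Fin N) ℂ) d a = 0
  · rw [h1, star_zero, zero_mul]
  by_cases h2 : (g : Matrix (Fin N) (Fin N) ℂ) d c = 0
  · rw [h2, mul_zero]
  exact absurd (s.injective ((hw d a h1).symm.trans (hg d c h2))) hac

/-! ### Orbits of compact sets of positions -/

/-- The orbits of the positions in `K`. -/
def orbK (P : Lam N) (K : Set (XS P)) : Set (Cfg N) :=
  {x | ∃ (g : Matrix.specialUnitaryGroup (Fin N) ℂ) (X : XS P), X ∈ K ∧ b.act g (cfX b P X) = x}

theorem mem_orbK {P : Lam N} {K : Set (XS P)} {X : XS P} (hX : X ∈ K)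
    (g : Matrix.specialUnitaryGroup (Fin N) ℂ) : b.act g (cfX b P X) ∈ orbK b P K :=
  ⟨g, X, hX, rfl⟩

theorem cfX_mem_orbK {P : Lam N} {K : Set (XS P)} {X : XS P} (hX : X ∈ K) :
    cfX b P X ∈ orbK b P K := ⟨1, X, hX, SlA314.act_one b _⟩

theorem act_mem_orbK {P : Lam N} {K : Set (XS P)} {x : Cfg N} (hx : x ∈ orbK b P K)
    (g : Matrix.specialUnitaryGroup (Fin N) ℂ) : b.act g x ∈ orbK b P K := by
  obtain ⟨h, X, hX, rfl⟩ := hx
  exact ⟨g * h, X, hX, SlA314.act_mul b g h _⟩

theorem norm_of_mem_orbK {P : Lam N} {K : Set (XS P)} {x : Cfg N} (hx : x ∈ orbK b P K) :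
    ∃ X ∈ K, ‖x‖ = ‖X‖ := by
  obtain ⟨h, X, hX, rfl⟩ := hx
  exact ⟨X, hX, by rw [SlA314.act_norm, LinearIsometry.norm_map]⟩

theorem isCompact_orbK {P : Lam N} {K : Set (XS P)} (hK : IsCompact K) :
    IsCompact (orbK b P K) := by
  have h1 : orbK b P K = (fun q : Matrix.specialUnitaryGroup (Fin N) ℂ × Cfg N =>
      b.act q.1 q.2) '' (Set.univ ×ˢ (cfX b P '' K)) := by
    ext x
    constructor
    · rintro ⟨g, X, hX, rfl⟩
      exact ⟨(g, cfX b P X), ⟨trivial, X, hX, rfl⟩, rfl⟩
    · rintro ⟨⟨g, y⟩, ⟨-, X, hX, rfl⟩, rfl⟩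
      exact ⟨g, X, hX, rfl⟩
  rw [h1]
  exact (isCompact_univ.prod (hK.image (cfX b P).continuous)).image (SlD314.continuous_act b)

/-- Different channels. -/
theorem disjoint_orbK {P Q : Lam N} (hPQ : P ≠ Q) {K : Set (XS P)} {K' : Set (XS Q)}
    (hK : K ⊆ Reg b P) (hK' : K' ⊆ Reg b Q) : Disjoint (orbK b P K) (orbK b Q K') := by
  rw [Set.disjoint_left]
  rintro x ⟨g, X, hX, rfl⟩ ⟨h, Y, hY, he⟩
  refine hPQ (inj_part b (g := h⁻¹ * g) (hK hX) (hK' hY) ?_)
  rw [SlA314.act_mul, ← he, SlA314.act_inv_act]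

/-- Same channel, positions not related by permutations of equal clusters. -/
theorem disjoint_orbK' {P : Lam N} {K K' : Set (XS P)} (hK : K ⊆ Reg b P) (hK' : K' ⊆ Reg b P)
    (hs : ∀ s ∈ Sw P, ∀ X ∈ K, ∀ X' ∈ K', ¬ ∀ p, pos b P X' (s p) = pos b P X p) :
    Disjoint (orbK b P K) (orbK b P K') := by
  rw [Set.disjoint_left]
  rintro x ⟨g, X, hX, rfl⟩ ⟨h, Y, hY, he⟩
  have h1 : b.act (h⁻¹ * g) (cfX b P X) = cfX b P Y := by
    rw [SlA314.act_mul, ← he, SlA314.act_inv_act]
  obtain ⟨s, hs1, hs2, -⟩ := inj b (hK hX) (hK' hY) h1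
  exact hs s hs1 X hX Y hY hs2

end Crest.Agent.R330.GeoInj815

end
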