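import Crest.Agent.R330.Geo8_692
import Crest.Agent.R330.WSOff_365

/-!
# Row 330, S8-GEO add-on (helper304): collisions as flats, null sets, the normal space

On the names of `Geo8_692` (`XS P`, `cfX`, `pos`, `Reg`, `UU`, `kk`).

* `difL b P p q : XS P →L[ℝ] ℝ⁹`, `difBL b P p q : XS P →L[ℝ] ℝ⁶` (components `3..8`), surjective for
  `p ≠ q`; `Reg_compl`, `UU_compl` : the complements are 365's `flats`.
* `isOpen_Reg`, `isOpen_UU`, `null_Reg`, `null_UU`, `ae_Reg`, `ae_UU`, `dense_Reg`, `dense_UU`.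
* `BlkP`, `Blk0` : block configurations, traceless on every cluster; `exists_split`;
  `Uk_cfX`, `Zs_cfX`, `nor_split`.
-/

set_option autoImplicit false
set_option linter.unusedSectionVars false

open MeasureTheory Crest.MathPhysics.MatrixQM
open scoped BigOperators Matrix InnerProductSpace
open Crest.Agent.R330.SlB314 (br brx Tan Nor)
open Crest.Agent.R330.LS839 (Colg actB)
open Crest.Agent.R330.Frame839 (kc Tn)
open Crest.Agent.R330.Parts879 (Lam)
open Crest.Agent.R330.Diag304 (dg BlkC Zt row)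
open Crest.Agent.R330.Geo692
open Crest.Agent.R330.WSOff365 (flats)

noncomputable section

namespace Crest.Agent.R330.GeoM304

open Blk304 (hm cf hs)

variable {N : ℕ} (b : ColorBasis N) (P : Lam N)

/-- `ℝ⁹` -/
abbrev V9 := EuclideanSpace ℝ (Fin 9)

/-- `ℝ⁶` -/
abbrev V6 := EuclideanSpace ℝ (Fin 6)

/-! ## Differences of positions -/

/-- difference of the positions -/
def dif (p q : Fin P.m) : XS P →ₗ[ℝ] V9 where
  toFun X := pos b P X p - pos b P X q
  map_add' X Y := by rw [pos_add, pos_add]; abel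
  map_smul' t X := by rw [pos_smul, pos_smul, smul_sub]; rfl

/-- difference of the positions, continuous -/
def difL (p q : Fin P.m) : XS P →L[ℝ] V9 := LinearMap.toContinuousLinearMap (dif b P p q)

theorem difL_apply (p q : Fin P.m) (X : XS P) : difL b P p q X = pos b P X p - pos b P X q := rfl

/-- components `3..8` -/
def bpart : V9 →ₗ[ℝ] V6 where
  toFun v := WithLp.toLp 2 fun j => v (Fin.natAdd 3 j)
  map_add' _ _ := rfl
  map_smul' _ _ := rfl

theorem bpart_surj : Function.Surjective bpart := by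
  intro w
  refine ⟨WithLp.toLp 2 fun i : Fin (3 + 6) => Fin.addCases (fun _ => 0) (fun j => w j) i, ?_⟩
  ext j
  change Fin.addCases (fun _ => (0 : ℝ)) (fun j => w j) (Fin.natAdd 3 j) = w j
  rw [Fin.addCases_right]

/-- `b`-part of the difference of the positions -/
def difBL (p q : Fin P.m) : XS P →L[ℝ] V6 :=
  LinearMap.toContinuousLinearMap (bpart.comp (dif b P p q))

theorem difBL_apply (p q : Fin P.m) (X : XS P) (j : Fin 6) :
    difBL b P p q X j = pos b P X p (Fin.natAdd 3 j) - pos b P X q (Fin.natAdd 3 j) := rfl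

theorem dif_surj {p q : Fin P.m} (h : p ≠ q) : Function.Surjective (dif b P p q) := by
  classical
  intro v
  have hN : (N : ℝ) ≠ 0 := by
    have := P.two_le
    positivity
  set t : V9 := -(((P.k p : ℝ) / N) • v) with ht
  let r : Fin P.m → V9 := fun l => t + if l = p then v else 0
  have hr : ∑ l, (P.k l : ℝ) • r l = 0 := by
    simp only [r, smul_add, Finset.sum_add_distrib, smul_ite, smul_zero, Finset.sum_ite_eq',
      Finset.mem_univ, if_true]
    rw [← Finset.sum_smul]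
    have h1 : ∑ l, (P.k l : ℝ) = N := by exact_mod_cast congrArg (Nat.cast : ℕ → ℝ) P.sum_k
    rw [h1, ht, smul_neg, smul_smul, mul_div_cancel₀ _ hN, neg_add_cancel]
  obtain ⟨X, hX⟩ := exists_pos b P hr
  refine ⟨X, ?_⟩
  change pos b P X p - pos b P X q = v
  rw [hX, hX]
  simp only [r, if_true, if_neg (Ne.symm h), add_zero]
  abel

theorem difL_surj {p q : Fin P.m} (h : p ≠ q) : Function.Surjective (difL b P p q) :=
  dif_surj b P h

theorem difBL_surj {p q : Fin P.m} (h : p ≠ q) : Function.Surjective (difBL b P p q) :=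
  bpart_surj.comp (dif_surj b P h)

/-- the pairs of different clusters -/
def offd (P : Lam N) : Finset (Fin P.m × Fin P.m) := by
  classical exact Finset.univ.filter fun q => q.1 ≠ q.2

theorem mem_offd {q : Fin P.m × Fin P.m} : q ∈ offd P ↔ q.1 ≠ q.2 := by
  classical
  simp [offd]

theorem finrank_V9 : 3 ≤ Module.finrank ℝ V9 := by simp

theorem finrank_V6 : 3 ≤ Module.finrank ℝ V6 := by simp

theorem surj_offd {q : Fin P.m × Fin P.m} (h : q ∈ offd P) :
    Function.Surjective (difL b P q.1 q.2) := difL_surj b P ((mem_offd P).1 h)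

theorem surjB_offd {q : Fin P.m × Fin P.m} (h : q ∈ offd P) :
    Function.Surjective (difBL b P q.1 q.2) := difBL_surj b P ((mem_offd P).1 h)

theorem mem_flats {V : Type*} [NormedAddCommGroup V] [InnerProductSpace ℝ V]
    (L : Fin P.m × Fin P.m → XS P →L[ℝ] V) (X : XS P) :
    X ∈ flats (offd P) L 0 ↔ ∃ p q, p ≠ q ∧ L (p, q) X = 0 := by
  unfold flats
  simp only [Set.mem_iUnion, Pi.zero_apply]
  constructor
  · rintro ⟨q, hq, h⟩
    exact ⟨q.1, q.2, (mem_offd P).1 hq, h⟩
  · rintro ⟨p, q, hq, h⟩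
    exact ⟨(p, q), (mem_offd P).2 hq, h⟩

/-- **the collisions are flats** -/
theorem Reg_compl : (Reg b P)ᶜ = flats (offd P) (fun q => difL b P q.1 q.2) 0 := by
  ext X
  rw [mem_flats, Set.mem_compl_iff]
  change ¬ Function.Injective (pos b P X) ↔ _
  constructor
  · intro h
    unfold Function.Injective at h
    push Not at h
    obtain ⟨p, q, h1, h2⟩ := h
    exact ⟨p, q, h2, by rw [difL_apply, h1, sub_self]⟩
  · rintro ⟨p, q, h1, h2⟩ h
    exact h1 (h (sub_eq_zero.1 h2))

theorem difBL_eq_zero_iff (p q : Fin P.m) (X : XS P) :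
    difBL b P p q X = 0 ↔ ∀ j : Fin 9, 3 ≤ (j : ℕ) → pos b P X p j = pos b P X q j := by
  constructor
  · intro h j hj
    have h1 := congrArg (fun v : V6 => v ⟨(j : ℕ) - 3, by omega⟩) h
    simp only [difBL_apply, PiLp.zero_apply] at h1
    have h2 : (Fin.natAdd 3 (⟨(j : ℕ) - 3, by omega⟩ : Fin 6) : Fin (3 + 6)) = j := by
      apply Fin.ext
      simp only [Fin.natAdd_mk]
      omega
    rw [h2] at h1
    exact sub_eq_zero.1 h1
  · intro h
    ext j
    rw [difBL_apply, h _ (by simp), sub_self]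
    rfl

/-- **the bad set of the vacuum section is a union of flats of codimension six** -/
theorem UU_compl : (UU b P)ᶜ = flats (offd P) (fun q => difBL b P q.1 q.2) 0 := by
  ext X
  rw [mem_flats, Set.mem_compl_iff]
  change ¬ (∀ p q, p ≠ q → ∃ j : Fin 9, 3 ≤ (j : ℕ) ∧ pos b P X p j ≠ pos b P X q j) ↔ _
  push Not
  refine exists_congr fun p => exists_congr fun q => and_congr_right fun _ => ?_
  rw [difBL_eq_zero_iff]

theorem isClosed_flats {V : Type*} [NormedAddCommGroup V] [InnerProductSpace ℝ V]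
    (L : Fin P.m × Fin P.m → XS P →L[ℝ] V) : IsClosed (flats (offd P) L 0) := by
  unfold flats
  exact (offd P).finite_toSet.isClosed_biUnion fun q _ =>
    isClosed_eq (L q).continuous continuous_const

theorem null_flats {V : Type*} [NormedAddCommGroup V] [InnerProductSpace ℝ V] [Nontrivial V]
    (L : Fin P.m × Fin P.m → XS P →L[ℝ] V)
    (hL : ∀ q ∈ offd P, Function.Surjective (L q)) : volume (flats (offd P) L 0) = 0 := by
  unfold flats
  refine (measure_biUnion_null_iff (offd P).countable_toSet).2 ?_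
  intro q hq
  have h : {X : XS P | L q X = (0 : Fin P.m × Fin P.m → V) q} =
      (LinearMap.ker (L q).toLinearMap : Set (XS P)) := by
    ext X
    rfl
  rw [h]
  refine Measure.addHaar_submodule _ _ fun htop => ?_
  obtain ⟨v, hv⟩ := exists_ne (0 : V)
  obtain ⟨X, hX⟩ := hL q hq v
  have h1 : X ∈ LinearMap.ker (L q).toLinearMap := by rw [htop]; exact Submodule.mem_top
  exact hv (by rw [← hX]; exact h1)

theorem isOpen_Reg : IsOpen (Reg b P) := by
  rw [← isClosed_compl_iff, Reg_compl]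
  exact isClosed_flats P _

theorem isOpen_UU : IsOpen (UU b P) := by
  rw [← isClosed_compl_iff, UU_compl]
  exact isClosed_flats P _

theorem null_Reg : volume (Reg b P)ᶜ = 0 := by
  rw [Reg_compl]
  exact null_flats P _ fun q hq => surj_offd b P hq

theorem null_UU : volume (UU b P)ᶜ = 0 := by
  rw [UU_compl]
  exact null_flats P _ fun q hq => surjB_offd b P hq

theorem ae_Reg : ∀ᵐ X : XS P, X ∈ Reg b P := by
  rw [ae_iff]
  exact null_Reg b P

theorem ae_UU : ∀ᵐ X : XS P, X ∈ UU b P := by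
  rw [ae_iff]
  exact null_UU b P

theorem dense_UU : Dense (UU b P) := Measure.dense_of_ae (ae_UU b P)

theorem dense_Reg : Dense (Reg b P) := (dense_UU b P).mono (UU_subset_Reg b P)

theorem smul_mem_Reg {t : ℝ} (ht : t ≠ 0) {X : XS P} (hX : X ∈ Reg b P) : t • X ∈ Reg b P := by
  intro p q h
  rw [pos_smul, pos_smul] at h
  exact hX (smul_right_injective _ ht h)

theorem smul_mem_UU {t : ℝ} (ht : t ≠ 0) {X : XS P} (hX : X ∈ UU b P) : t • X ∈ UU b P := by
  intro p q h
  obtain ⟨j, hj, hne⟩ := hX p q h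
  refine ⟨j, hj, ?_⟩
  rw [pos_smul, pos_smul]
  intro h1
  have h2 : t * pos b P X p j = t * pos b P X q j := h1
  exact hne (mul_left_cancel₀ ht h2)

/-! ## The block configurations -/

/-- block-diagonal configurations `ℝ⁹ ⊗ kk` -/
def BlkP : Submodule ℝ (Cfg N) := Bind6839.Tup (kk b P)

theorem mem_BlkP {y : Cfg N} :
    y ∈ BlkP b P ↔ ∀ i a c, P.cl a ≠ P.cl c → Blk304.mat b y i a c = 0 := Iff.rfl

/-- block-diagonal configurations, traceless on every cluster -/
def Blk0 : Submodule ℝ (Cfg N) := BlkP b P ⊓ (LinearMap.range (cfX b P).toLinearMap)ᗮ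

theorem cfX_mem_BlkP (X : XS P) : cfX b P X ∈ BlkP b P := fun i =>
  Cen_le_kk b P (cfX_mem_Tup b P X i)

theorem Blk0_le : Blk0 b P ≤ BlkP b P := inf_le_left

theorem inner_cfX_Blk0 (X : XS P) {y : Cfg N} (hy : y ∈ Blk0 b P) : ⟪cfX b P X, y⟫_ℝ = 0 :=
  (Submodule.mem_orthogonal _ _).1 hy.2 _ ⟨X, rfl⟩

theorem exists_split {y : Cfg N} (hy : y ∈ BlkP b P) :
    ∃ X : XS P, ∃ y' ∈ Blk0 b P, y = cfX b P X + y' := by
  set K := LinearMap.range (cfX b P).toLinearMap with hK
  obtain ⟨X, hX⟩ : K.starProjection y ∈ K := K.starProjection_apply_mem y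
  refine ⟨X, y - K.starProjection y, ⟨?_, K.sub_starProjection_mem_orthogonal y⟩, ?_⟩
  · refine (BlkP b P).sub_mem hy ?_
    rw [← hX]
    exact cfX_mem_BlkP b P X
  · change y = (cfX b P).toLinearMap X + _
    rw [hX]
    abel

theorem mat_cfX (X : XS P) (i : Fin 9) :
    Blk304.mat b (cfX b P X) i = Matrix.diagonal fun a => ((pos b P X (P.cl a) i : ℝ) : ℂ) := by
  rw [cfX_eq_dg, Diag304.mat_dg b (sum_pos b P X)]

theorem inner_cfX (X : XS P) (y : Cfg N) : ⟪cfX b P X, y⟫_ℝ =
    ∑ i, ∑ a, pos b P X (P.cl a) i * (Blk304.mat b y i a a).re := by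
  rw [Blk304.inner_eq b]
  refine Finset.sum_congr rfl fun i _ => Finset.sum_congr rfl fun a _ => ?_
  rw [Finset.sum_eq_single a]
  · rw [mat_cfX, Matrix.diagonal_apply_eq]
    simp
  · intro c _ h
    rw [mat_cfX, Matrix.diagonal_apply_ne _ (Ne.symm h)]
    simp
  · intro h
    exact absurd (Finset.mem_univ _) h

/-- `Blk0` : the traces of the blocks vanish -/
theorem mem_Blk0 {y : Cfg N} : y ∈ Blk0 b P ↔ y ∈ BlkP b P ∧ ∀ i p,
    ∑ a : {a : Fin N // P.cl a = p}, (Blk304.mat b y i a a).re = 0 := by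
  classical
  have hsum : ∀ (f : Fin N → ℝ) (r : Fin P.m → ℝ), ∑ a, r (P.cl a) * f a =
      ∑ p, r p * ∑ a : {a : Fin N // P.cl a = p}, f a := by
    intro f r
    rw [← Equiv.sum_comp (Equiv.sigmaFiberEquiv P.cl), Fintype.sum_sigma]
    refine Finset.sum_congr rfl fun p _ => ?_
    rw [Finset.mul_sum]
    refine Finset.sum_congr rfl fun a _ => ?_
    change r (P.cl a.1) * f a.1 = _
    rw [a.2]
  constructor
  · intro hy
    refine ⟨hy.1, ?_⟩
    set s : Fin 9 → Fin P.m → ℝ := fun i p =>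
      ∑ a : {a : Fin N // P.cl a = p}, (Blk304.mat b y i a a).re with hs
    have hs0 : ∀ i, ∑ p, s i p = 0 := by
      intro i
      have h1 := hsum (fun a => (Blk304.mat b y i a a).re) (fun _ => 1)
      simp only [one_mul] at h1
      rw [hs]
      simp only
      rw [← h1]
      have h2 := congrArg Complex.re (Blk304.mat_trace b y i)
      rw [Matrix.trace, Complex.re_sum] at h2
      exact h2
    have hk : ∀ p, (P.k p : ℝ) ≠ 0 := fun p => by
      have := P.k_pos p
      positivity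
    obtain ⟨X, hX⟩ := exists_pos b P (r := fun p => WithLp.toLp 2 fun i => s i p / P.k p) (by
      ext i
      simp only [WithLp.ofLp_sum, Finset.sum_apply, PiLp.smul_apply, smul_eq_mul, PiLp.zero_apply]
      rw [← hs0 i]
      refine Finset.sum_congr rfl fun p _ => ?_
      rw [mul_div_cancel₀ _ (hk p)])
    have h3 := inner_cfX_Blk0 b P X hy
    rw [inner_cfX] at h3
    have h4 : ∀ i, ∑ a, pos b P X (P.cl a) i * (Blk304.mat b y i a a).re =
        ∑ p, s i p ^ 2 / P.k p := by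
      intro i
      rw [hsum (fun a => (Blk304.mat b y i a a).re) (fun p => pos b P X p i)]
      refine Finset.sum_congr rfl fun p _ => ?_
      rw [hX]
      change s i p / P.k p * s i p = _
      ring
    simp only [h4] at h3
    have h5 : ∀ i p, 0 ≤ s i p ^ 2 / P.k p := fun i p => by positivity
    intro i p
    have h6 := (Finset.sum_eq_zero_iff_of_nonneg (fun i _ => Finset.sum_nonneg fun p _ =>
      h5 i p)).1 h3 i (Finset.mem_univ _)
    have h7 := (Finset.sum_eq_zero_iff_of_nonneg (fun p _ => h5 i p)).1 h6 p (Finset.mem_univ _)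
    rcases div_eq_zero_iff.1 h7 with h8 | h8
    · exact pow_eq_zero_iff two_ne_zero |>.1 h8
    · exact absurd h8 (hk p)
  · rintro ⟨h1, h2⟩
    refine ⟨h1, (Submodule.mem_orthogonal _ _).2 ?_⟩
    rintro _ ⟨X, rfl⟩
    change ⟪cfX b P X, y⟫_ℝ = 0
    rw [inner_cfX]
    refine Finset.sum_eq_zero fun i _ => ?_
    rw [hsum (fun a => (Blk304.mat b y i a a).re) (fun p => pos b P X p i)]
    refine Finset.sum_eq_zero fun p _ => ?_
    rw [h2 i p, mul_zero]

/-! ## The normal space at a regular point -/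

theorem Uk_cfX {X : XS P} (hX : X ∈ Reg b P) : Bind6839.Uk b (cfX b P X) = BlkP b P := by
  unfold Bind6839.Uk BlkP
  rw [kc_cfX b P hX]

theorem BlkC_cfX {X : XS P} (hX : X ∈ Reg b P) :
    BlkC b (fun a => pos b P X (P.cl a)) = BlkP b P := by
  ext y
  rw [Diag304.mem_BlkC, mem_BlkP]
  refine forall_congr' fun i => forall_congr' fun a => forall_congr' fun c => ?_
  rw [Ne, hX.eq_iff]

theorem Tn_eq (c : Cfg N) : Tn (actB b) c = Tan b c := by
  ext x
  constructor
  · rintro ⟨w, rfl⟩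
    exact ⟨w.ofLp, rfl⟩
  · rintro ⟨w, rfl⟩
    exact ⟨WithLp.toLp 2 w, rfl⟩

theorem Nor_eq (c : Cfg N) : Nor b c = (Tn (actB b) c)ᗮ := by
  rw [Tn_eq]
  rfl

/-- `Zs` at a diagonal configuration -/
theorem Zs_dg {p : Fin N → EuclideanSpace ℝ (Fin 9)} (hp : ∑ a, p a = 0) :
    Bind6839.Zs b (dg b p) = Zt b p := by
  ext z
  unfold Bind6839.Zs
  rw [Submodule.mem_inf, ← Nor_eq, Diag304.mem_Nor_dg b hp, Diag304.mem_Zt]
  refine and_congr_left fun _ => ?_
  unfold Bind6839.Mm
  rw [Bind6839.mem_Tup]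
  refine forall_congr' fun i => ?_
  have h1 : Bind6839.comp z i = row z i := rfl
  have h2 : kc (actB b) (dg b p) = (Diag304.colAlg b).kk (row (dg b p)) := by
    ext w
    rw [Diag304.mem_kk_row b hp, Diag304.pk_eq_self_iff, Frame839.mem_kc, LS839.actB_apply,
      Diag304.brx_dg_eq_zero b hp]
  rw [h1, h2, Diag304.mem_perp_row b hp, Diag304.pk_eq_zero_iff]
  rfl

theorem Zs_cfX (X : XS P) :
    Bind6839.Zs b (cfX b P X) = Zt b (fun a => pos b P X (P.cl a)) := by
  rw [cfX_eq_dg, Zs_dg b (sum_pos b P X)]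

theorem cfX_mem_Nor {X : XS P} (hX : X ∈ Reg b P) (Y : XS P) : cfX b P Y ∈ Nor b (cfX b P X) := by
  rw [cfX_eq_dg b P X]
  refine Diag304.BlkC_le_Nor b (sum_pos b P X) ?_
  rw [BlkC_cfX b P hX]
  exact cfX_mem_BlkP b P Y

theorem Blk0_le_Nor {X : XS P} (hX : X ∈ Reg b P) : Blk0 b P ≤ Nor b (cfX b P X) := by
  intro y hy
  rw [cfX_eq_dg b P X]
  refine Diag304.BlkC_le_Nor b (sum_pos b P X) ?_
  rw [BlkC_cfX b P hX]
  exact hy.1

theorem Zs_le_Nor (X : XS P) : Bind6839.Zs b (cfX b P X) ≤ Nor b (cfX b P X) := by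
  rw [Nor_eq]
  exact inf_le_right

theorem inner_BlkP_Zs {X : XS P} (hX : X ∈ Reg b P) {y z : Cfg N} (hy : y ∈ BlkP b P)
    (hz : z ∈ Bind6839.Zs b (cfX b P X)) : ⟪y, z⟫_ℝ = 0 := by
  rw [Zs_cfX] at hz
  rw [← BlkC_cfX b P hX] at hy
  exact Diag304.inner_BlkC_Zt b hy hz

/-- **the slice at a regular point: positions, blocks, transverse directions** -/
theorem nor_split {X : XS P} (hX : X ∈ Reg b P) {u : Cfg N} (hu : u ∈ Nor b (cfX b P X)) :
    ∃ Y : XS P, ∃ y ∈ Blk0 b P, ∃ z ∈ Bind6839.Zs b (cfX b P X), u = cfX b P Y + y + z ∧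
      ‖u‖ ^ 2 = ‖Y‖ ^ 2 + ‖y‖ ^ 2 + ‖z‖ ^ 2 := by
  have hu' := hu
  rw [cfX_eq_dg b P X] at hu'
  set p : Fin N → EuclideanSpace ℝ (Fin 9) := fun a => pos b P X (P.cl a) with hp
  have hz := Diag304.sub_prB_mem b (sum_pos b P X) hu'
  have hb := Diag304.prB_mem b p u
  rw [BlkC_cfX b P hX] at hb
  obtain ⟨Y, y, hy, hsp⟩ := exists_split b P hb
  have hz' : u - Diag304.prB b p u ∈ Bind6839.Zs b (cfX b P X) := by
    rw [Zs_cfX]
    exact hz
  refine ⟨Y, y, hy, u - Diag304.prB b p u, hz', by rw [← hsp]; abel, ?_⟩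
  have h1 : u = cfX b P Y + y + (u - Diag304.prB b p u) := by rw [← hsp]; abel
  have h2 : ⟪cfX b P Y + y, u - Diag304.prB b p u⟫_ℝ = 0 :=
    inner_BlkP_Zs b P hX ((BlkP b P).add_mem (cfX_mem_BlkP b P Y) hy.1) hz'
  have h3 := norm_add_sq_eq_norm_sq_add_norm_sq_of_inner_eq_zero _ _ h2
  have h4 := norm_add_sq_eq_norm_sq_add_norm_sq_of_inner_eq_zero _ _ (inner_cfX_Blk0 b P Y hy)
  rw [← h1] at h3
  rw [(cfX b P).norm_map Y] at h4
  linarith [pow_two ‖u‖, pow_two ‖Y‖, pow_two ‖y‖, pow_two ‖u - Diag304.prB b p u‖, h3, h4]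

end Crest.Agent.R330.GeoM304

end
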