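import Crest.Agent.R330.Gram_372

/-!
Row 330, S8-ISO (helper372): the overlap limit with an abstract pointwise limit of the second
function, and the pointwise limit for a chart moved by a group element.
-/

set_option autoImplicit false
set_option linter.unusedSectionVars false
noncomputable section

open Matrix MeasureTheory Filter
open Crest.MathPhysics.MatrixQM
open Crest.Agent.R330.SlA314 Crest.Agent.R330.SlB314 Crest.Agent.R330.SlC314
open Crest.Agent.R330.SlD314 Crest.Agent.R330.SlP314 Crest.Agent.R330.Trans372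
open Crest.Agent.R330.Ovl372 Crest.Agent.R330.Gram372
open scoped ContDiff Topology InnerProductSpace

namespace Crest.Agent.R330.Gram2372

variable {N : ℕ} {F : Type*} [NormedAddCommGroup F] [InnerProductSpace ℂ F]
  [FiniteDimensional ℂ F] {M : FermionRep N F} {b : ColorBasis N}

/-- **limit of the overlap integral**, abstract second function -/
theorem gram_dct {ι : Type*} {l : Filter ι}
    [l.IsCountablyGenerated] (S : Split b) {c : Cfg N} (hc : S.PX c = c)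
    {δ ρ κ W B' C r : ℝ} (hρ : ρ < δ) (hκ : 0 < κ) (hC : 0 ≤ C) (hB' : 0 ≤ B') (hW : 0 ≤ W)
    {U : Set (Cfg N)} {s t a : ι → ℝ}
    (hs0 : ∀ i, 0 < s i) (ht0 : ∀ i, 0 < t i) (hs : Tendsto s l (𝓝 0)) (ht : Tendsto t l (𝓝 0))
    (ha0 : ∀ i, 0 < a i)
    (ha : ∀ i, a i ^ 2 * |LinearMap.det (S.dilN hc (s i) (t i))| = 1)
    {A : Cfg N → ℝ} {Q : Cfg N → Cfg N → ℝ} {w : Cfg N → Cfg N → F}
    (hQ1 : ∀ X ∈ U, S.PX X = X → ∀ z ∈ Nor b c, S.PM z = z → κ * ‖z‖ ^ 2 ≤ Q X z)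
    (hws : ∀ X Y, S.PX X = X → S.PY Y = Y → w X Y ≠ 0 → X ∈ U ∧ ‖X - c‖ ≤ ρ ∧ ‖Y‖ ≤ r)
    (hwb : ∀ X Y, S.PX X = X → S.PY Y = Y → ‖w X Y‖ ≤ W)
    (hA : ∀ u ∈ Nor b c, c + u ∈ U → S.PX u = u → ‖u‖ < δ → ContinuousWithinAt A (Nor b c) u)
    (hAb : ∀ u ∈ Nor b c, ‖u‖ < δ → (∃ Y, S.PY Y = Y ∧ w (c + S.PX u) Y ≠ 0) →
      |A u| ≤ C)
    {τ φ' : ι → Cfg N → F}
    (hτ : ∀ᶠ i in l, ∀ u ∈ Nor b c, ‖u‖ < δ → τ i u = bare S c (a i) (s i) (t i) A Q w u)
    (hτ0 : ∀ᶠ i in l, ∀ u ∈ Nor b c, δ ≤ ‖u‖ → τ i u = 0)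
    (hτm : ∀ᶠ i in l, Continuous fun u : Nor b c => τ i (u : Cfg N))
    (hφm : ∀ᶠ i in l, Continuous (φ' i))
    (hφb : ∀ᶠ i in l, ∀ x, ‖φ' i x‖ ≤ a i * B') {Λ : Cfg N → Cfg N → Cfg N → F}
    (hpt : ∀ X Y z, S.PX X = X → S.PY Y = Y → S.PM z = z → z ∈ Nor b c → w X Y ≠ 0 →
      Tendsto (fun i => (((a i)⁻¹ : ℝ) : ℂ) • φ' i (X + s i • Y + t i • z)) l (𝓝 (Λ X Y z))) :
    Tendsto (fun i => ∫ u : Nor b c, ⟪τ i (u : Cfg N), φ' i (c + (u : Cfg N))⟫_ℂ) l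
      (𝓝 (∫ v : Nor b c, ((A (S.PX (v : Cfg N)) *
        Real.exp (-(Q (c + S.PX (v : Cfg N)) (S.PM (v : Cfg N))) / 2) : ℝ) : ℂ) *
        ⟪w (c + S.PX (v : Cfg N)) (S.PY (v : Cfg N)),
          Λ (c + S.PX (v : Cfg N)) (S.PY (v : Cfg N)) (S.PM (v : Cfg N))⟫_ℂ)) := by
  classical
  have hdet : ∀ i, LinearMap.det (S.dilN hc (s i) (t i)) ≠ 0 := fun i =>
    S.det_dilN_ne hc (hs0 i).ne' (ht0 i).ne'
  -- change of variables
  have hcv : ∀ i, ∫ u : Nor b c, ⟪τ i (u : Cfg N), φ' i (c + (u : Cfg N))⟫_ℂ =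
      ∫ v : Nor b c, ((|LinearMap.det (S.dilN hc (s i) (t i))| : ℝ) : ℂ) *
        ⟪τ i (S.dil (s i) (t i) (v : Cfg N)), φ' i (c + S.dil (s i) (t i) (v : Cfg N))⟫_ℂ := by
    intro i
    rw [integral_lin (S.dilN hc (s i) (t i)) (hdet i), ← integral_smul]
    refine integral_congr_ae (Eventually.of_forall fun v => ?_)
    simp only [S.dilN_coe]
    rw [Complex.real_smul]
  simp only [hcv]
  have hb : Integrable (fun v : Nor b c => C * W * B' * Real.exp (κ * (ρ ^ 2 + r ^ 2) / 2) *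
      Real.exp (-(κ / 2) * ‖v‖ ^ 2)) :=
    (GPar984.integrable_gauss (Z := Nor b c) (c := κ / 2) (by positivity)).const_mul _
  refine tendsto_integral_filter_of_dominated_convergence _ ?_ ?_ hb ?_
  · filter_upwards [hτm, hφm] with i h1 h2
    refine Continuous.aestronglyMeasurable ?_
    have hd : Continuous fun v : Nor b c => S.dilN hc (s i) (t i) v :=
      LinearMap.continuous_of_finiteDimensional _
    refine continuous_const.mul ((h1.comp hd).inner ?_)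
    exact h2.comp (continuous_const.add ((S.dil (s i) (t i)).continuous.comp
      continuous_subtype_val))
  · filter_upwards [hτ, hτ0, hφb] with i h1 h2 h3
    refine Eventually.of_forall fun v => ?_
    rw [norm_mul, Complex.norm_real, Real.norm_eq_abs, abs_abs]
    have hmem : S.dil (s i) (t i) (v : Cfg N) ∈ Nor b c := S.dil_mem hc _ _ v.2
    have hpos : 0 ≤ C * W * B' * Real.exp (κ * (ρ ^ 2 + r ^ 2) / 2) *
      Real.exp (-(κ / 2) * ‖v‖ ^ 2) := by positivity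
    by_cases hn : ‖S.dil (s i) (t i) (v : Cfg N)‖ < δ
    · by_cases hw0 : w (c + S.PX (v : Cfg N)) (S.PY (v : Cfg N)) = 0
      · rw [h1 _ hmem hn, bare_dil S c _ (hs0 i).ne' (ht0 i).ne', hw0, smul_zero,
          inner_zero_left, norm_zero, mul_zero]
        exact hpos
      · have hX : S.PX (c + S.PX (v : Cfg N)) = c + S.PX (v : Cfg N) := by
          rw [map_add, hc, S.XX]
        obtain ⟨hU, hX1, hY1⟩ := hws _ _ hX (S.YY _) hw0
        rw [add_sub_cancel_left] at hX1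
        have hQv := hQ1 _ hU hX (S.PM (v : Cfg N)) (S.M_mem_Nor hc v.2) (S.MM _)
        have hAv : |A (S.dil (s i) (t i) (v : Cfg N))| ≤ C := by
          refine hAb _ hmem hn ⟨S.PY (v : Cfg N), S.YY _, ?_⟩
          rw [S.X_dil]; exact hw0
        have hτn : ‖τ i (S.dil (s i) (t i) (v : Cfg N))‖ ≤
            a i * C * Real.exp (-(κ * ‖S.PM (v : Cfg N)‖ ^ 2) / 2) * W := by
          rw [h1 _ hmem hn, bare_dil S c _ (hs0 i).ne' (ht0 i).ne', norm_smul, Complex.norm_real,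
            Real.norm_eq_abs, abs_mul, abs_mul, Real.abs_exp, abs_of_pos (ha0 i)]
          have h0 : 0 ≤ a i := (ha0 i).le
          refine mul_le_mul (mul_le_mul (mul_le_mul_of_nonneg_left hAv h0)
            (Real.exp_le_exp.2 (by linarith)) (Real.exp_pos _).le (by positivity)) (hwb _ _ hX (S.YY _))
            (norm_nonneg _) (by positivity)
        have hin : ‖⟪τ i (S.dil (s i) (t i) (v : Cfg N)),
            φ' i (c + S.dil (s i) (t i) (v : Cfg N))⟫_ℂ‖ ≤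
            (a i * C * Real.exp (-(κ * ‖S.PM (v : Cfg N)‖ ^ 2) / 2) * W) * (a i * B') :=
          (norm_inner_le_norm _ _).trans (mul_le_mul hτn (h3 _) (norm_nonneg _)
            (by have := ha0 i; positivity))
        have hv2 : ‖v‖ ^ 2 ≤ ρ ^ 2 + r ^ 2 + ‖S.PM (v : Cfg N)‖ ^ 2 := by
          have h4 := S.norm_sq (v : Cfg N)
          have h5 : ‖S.PX (v : Cfg N)‖ ^ 2 ≤ ρ ^ 2 := pow_le_pow_left₀ (norm_nonneg _) hX1 2
          have h6 : ‖S.PY (v : Cfg N)‖ ^ 2 ≤ r ^ 2 := pow_le_pow_left₀ (norm_nonneg _) hY1 2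
          have h7 : ‖v‖ = ‖(v : Cfg N)‖ := rfl
          rw [h7, h4]
          linarith
        calc |LinearMap.det (S.dilN hc (s i) (t i))| * ‖⟪τ i (S.dil (s i) (t i) (v : Cfg N)),
              φ' i (c + S.dil (s i) (t i) (v : Cfg N))⟫_ℂ‖
            ≤ |LinearMap.det (S.dilN hc (s i) (t i))| *
              ((a i * C * Real.exp (-(κ * ‖S.PM (v : Cfg N)‖ ^ 2) / 2) * W) * (a i * B')) :=
              mul_le_mul_of_nonneg_left hin (abs_nonneg _)
          _ = (a i ^ 2 * |LinearMap.det (S.dilN hc (s i) (t i))|) * (C * W * B' *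
              Real.exp (-(κ * ‖S.PM (v : Cfg N)‖ ^ 2) / 2)) := by ring
          _ = C * W * B' * Real.exp (-(κ * ‖S.PM (v : Cfg N)‖ ^ 2) / 2) := by
              rw [ha, one_mul]
          _ ≤ C * W * B' * Real.exp (κ * (ρ ^ 2 + r ^ 2) / 2 + -(κ / 2) * ‖v‖ ^ 2) := by
              refine mul_le_mul_of_nonneg_left (Real.exp_le_exp.2 ?_) (by positivity)
              nlinarith
          _ = _ := by rw [Real.exp_add]; ring
    · rw [h2 _ hmem (not_lt.1 hn), inner_zero_left, norm_zero, mul_zero]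
      exact hpos
  · refine Eventually.of_forall fun v => ?_
    have hX : S.PX (c + S.PX (v : Cfg N)) = c + S.PX (v : Cfg N) := by
      rw [map_add, hc, S.XX]
    by_cases hw0 : w (c + S.PX (v : Cfg N)) (S.PY (v : Cfg N)) = 0
    · rw [hw0, inner_zero_left, mul_zero]
      refine tendsto_const_nhds.congr' ?_
      filter_upwards [hτ, hτ0] with i h1 h2
      have hmem : S.dil (s i) (t i) (v : Cfg N) ∈ Nor b c := S.dil_mem hc _ _ v.2
      by_cases hn : ‖S.dil (s i) (t i) (v : Cfg N)‖ < δ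
      · rw [h1 _ hmem hn, bare_dil S c _ (hs0 i).ne' (ht0 i).ne', hw0, smul_zero,
          inner_zero_left, mul_zero]
      · rw [h2 _ hmem (not_lt.1 hn), inner_zero_left, mul_zero]
    · obtain ⟨hU, hX1, hY1⟩ := hws _ _ hX (S.YY _) hw0
      set X : Cfg N := c + S.PX (v : Cfg N) with hXd
      have hsec := hpt X (S.PY (v : Cfg N)) (S.PM (v : Cfg N)) hX (S.YY (v : Cfg N))
        (S.MM (v : Cfg N)) (S.M_mem_Nor hc v.2) hw0
      have hvX : ‖S.PX (v : Cfg N)‖ < δ := by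
        rw [hXd, add_sub_cancel_left] at hX1
        exact lt_of_le_of_lt hX1 hρ
      have hdl : Tendsto (fun i => S.dil (s i) (t i) (v : Cfg N)) l (𝓝 (S.PX (v : Cfg N))) := by
        have h1 := ((hs.smul_const (S.PY (v : Cfg N))).const_add (S.PX (v : Cfg N))).add
          (ht.smul_const (S.PM (v : Cfg N)))
        simpa [S.dil_apply] using h1
      have hA1 : Tendsto (fun i => A (S.dil (s i) (t i) (v : Cfg N))) l
          (𝓝 (A (S.PX (v : Cfg N)))) := by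
        have h1 := hA (S.PX (v : Cfg N)) (S.X_mem_Nor hc _) hU (S.XX _) hvX
        exact h1.tendsto.comp (tendsto_nhdsWithin_iff.2
          ⟨hdl, Eventually.of_forall fun i => S.dil_mem hc _ _ v.2⟩)
      have h3 : Tendsto (fun i => ((A (S.dil (s i) (t i) (v : Cfg N)) *
          Real.exp (-(Q X (S.PM (v : Cfg N))) / 2) : ℝ) : ℂ) *
          ⟪w X (S.PY (v : Cfg N)), (((a i)⁻¹ : ℝ) : ℂ) • φ' i (X + s i • S.PY (v : Cfg N) +
            t i • S.PM (v : Cfg N))⟫_ℂ) l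
          (𝓝 (((A (S.PX (v : Cfg N)) * Real.exp (-(Q X (S.PM (v : Cfg N))) / 2) : ℝ) : ℂ) *
            ⟪w X (S.PY (v : Cfg N)), Λ X (S.PY (v : Cfg N)) (S.PM (v : Cfg N))⟫_ℂ)) := by
        refine Tendsto.mul ?_ (tendsto_const_nhds.inner hsec)
        exact (Complex.continuous_ofReal.tendsto _).comp (hA1.mul_const _)
      refine h3.congr' ?_
      filter_upwards [hτ, hdl.norm.eventually_lt_const hvX] with i h1 hn
      have hmem : S.dil (s i) (t i) (v : Cfg N) ∈ Nor b c := S.dil_mem hc _ _ v.2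
      have hxe : c + S.dil (s i) (t i) (v : Cfg N) = X + s i • S.PY (v : Cfg N) +
          t i • S.PM (v : Cfg N) := by
        rw [S.dil_apply, hXd]; abel
      rw [h1 _ hmem hn, bare_dil S c _ (hs0 i).ne' (ht0 i).ne', ← hXd, hxe, inner_smul_left,
        inner_smul_right, Complex.conj_ofReal, ← mul_assoc, ← mul_assoc]
      congr 1
      have h4 : |LinearMap.det (S.dilN hc (s i) (t i))| = (a i)⁻¹ * (a i)⁻¹ := by
        have h5 := ha i
        have h6 : a i ≠ 0 := (ha0 i).ne'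
        field_simp
        linarith
      rw [h4]
      have h6 : (a i : ℂ) ≠ 0 := by exact_mod_cast (ha0 i).ne'
      push_cast
      field_simp


/-- the pointwise limit in a chart reached through a group element -/
theorem tendsto_perm [Nontrivial F] (R : GaugeAction b M) {ι : Type*} {l : Filter ι}
    (S : Split b) {c' : Cfg N} (hc' : S.PX c' = c') {δ' : ℝ} (hδ' : GoodRad b c' δ')
    {s t a : ι → ℝ} (hs0 : ∀ i, 0 < s i) (ht0 : ∀ i, 0 < t i) (hs : Tendsto s l (𝓝 0))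
    (ht : Tendsto t l (𝓝 0)) (hts : Tendsto (fun i => (s i)⁻¹ * t i) l (𝓝 0))
    (ha0 : ∀ i, 0 < a i) {A' : Cfg N → ℝ} {Q : Cfg N → Cfg N → ℝ} {w' : Cfg N → Cfg N → F}
    {φ' : ι → Cfg N → F}
    (hφ : ∀ᶠ i in l, ∀ u ∈ Nor b c', ‖u‖ < δ' →
      φ' i (c' + u) = bare S c' (a i) (s i) (t i) A' Q w' u)
    (hφe : ∀ᶠ i in l, ∀ g x, φ' i (b.act g x) = R.ρ g (φ' i x))
    (h : Matrix.specialUnitaryGroup (Fin N) ℂ) {X Y z : Cfg N}
    (hX : S.PX (b.act h X) = b.act h X) (hY : S.PY (b.act h Y) = b.act h Y)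
    (hz : S.PM (b.act h z) = b.act h z) (hXc : ‖b.act h X - c'‖ < δ')
    (hQ : ∀ z, ContinuousAt (fun p : Cfg N × Cfg N => Q p.1 p.2) (b.act h X, z))
    (hQ2 : ∀ z om, S.PM z = z → Q (b.act h X) (z + brx b om (b.act h X)) = Q (b.act h X) z)
    (hw' : ContinuousAt (fun p : Cfg N × Cfg N => w' p.1 p.2) (b.act h X, b.act h Y))
    (hA' : ContinuousWithinAt A' (Nor b c') (b.act h X - c')) :
    Tendsto (fun i => (((a i)⁻¹ : ℝ) : ℂ) • φ' i (X + s i • Y + t i • z)) l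
      (𝓝 (R.ρ h⁻¹ (((A' (b.act h X - c') *
        Real.exp (-(Q (b.act h X) (b.act h z)) / 2) : ℝ) : ℂ) • w' (b.act h X) (b.act h Y)))) := by
  have h1 := tendsto_second R S hc' hδ' hs0 ht0 hs ht hts ha0 hφ hφe hX hY hz hXc hQ hQ2 hw' hA'
  have h2 := ((LinearMap.toContinuousLinearMap (R.ρ h⁻¹)).continuous.tendsto _).comp h1
  refine h2.congr' ?_
  filter_upwards [hφe] with i hi
  have e : b.act h X + s i • b.act h Y + t i • b.act h z =
      b.act h (X + s i • Y + t i • z) := by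
    rw [act_add, act_add, act_smul, act_smul]
  simp only [Function.comp_def]
  rw [e, hi h, map_smul]
  congr 1
  change (R.ρ h⁻¹ * R.ρ h) _ = _
  rw [← map_mul, inv_mul_cancel, map_one]
  rfl

/-- **limit of the overlap integral** of two bare functions on two slices (weak hypotheses) -/
theorem gram_two [Nontrivial F] (R : GaugeAction b M) {ι : Type*} {l : Filter ι}
    [l.IsCountablyGenerated] (S : Split b) {c c' : Cfg N} (hc : S.PX c = c) (hc' : S.PX c' = c')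
    {δ δ' ρ ρ' κ W B' C r : ℝ} (hδ' : GoodRad b c' δ') (hρ : ρ < δ) (hρ' : ρ' < δ')
    (hκ : 0 < κ) (hC : 0 ≤ C) (hB' : 0 ≤ B') (hW : 0 ≤ W) {U : Set (Cfg N)} {s t a : ι → ℝ}
    (hs0 : ∀ i, 0 < s i) (ht0 : ∀ i, 0 < t i) (hs : Tendsto s l (𝓝 0)) (ht : Tendsto t l (𝓝 0))
    (hts : Tendsto (fun i => (s i)⁻¹ * t i) l (𝓝 0)) (ha0 : ∀ i, 0 < a i)
    (ha : ∀ i, a i ^ 2 * |LinearMap.det (S.dilN hc (s i) (t i))| = 1)
    {A A' : Cfg N → ℝ} {Q : Cfg N → Cfg N → ℝ} {w w' : Cfg N → Cfg N → F}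
    (hQ : ∀ X ∈ U, S.PX X = X → ∀ z, ContinuousAt (fun p : Cfg N × Cfg N => Q p.1 p.2) (X, z))
    (hQ1 : ∀ X ∈ U, S.PX X = X → ∀ z ∈ Nor b c, S.PM z = z → κ * ‖z‖ ^ 2 ≤ Q X z)
    (hQ2 : ∀ X ∈ U, S.PX X = X → ∀ z om, S.PM z = z → Q X (z + brx b om X) = Q X z)
    (hw' : ∀ X ∈ U, S.PX X = X → ∀ Y, ContinuousAt (fun p : Cfg N × Cfg N => w' p.1 p.2) (X, Y))
    (hws : ∀ X Y, S.PX X = X → S.PY Y = Y → w X Y ≠ 0 →
      X ∈ U ∧ ‖X - c‖ ≤ ρ ∧ ‖X - c'‖ ≤ ρ' ∧ ‖Y‖ ≤ r)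
    (hwb : ∀ X Y, S.PX X = X → S.PY Y = Y → ‖w X Y‖ ≤ W)
    (hA : ∀ u ∈ Nor b c, c + u ∈ U → S.PX u = u → ‖u‖ < δ → ContinuousWithinAt A (Nor b c) u)
    (hAb : ∀ u ∈ Nor b c, ‖u‖ < δ → (∃ Y, S.PY Y = Y ∧ w (c + S.PX u) Y ≠ 0) → |A u| ≤ C)
    (hA' : ∀ u ∈ Nor b c', c' + u ∈ U → S.PX u = u → ‖u‖ < δ' →
      ContinuousWithinAt A' (Nor b c') u)
    {τ φ' : ι → Cfg N → F}
    (hτ : ∀ᶠ i in l, ∀ u ∈ Nor b c, ‖u‖ < δ → τ i u = bare S c (a i) (s i) (t i) A Q w u)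
    (hτ0 : ∀ᶠ i in l, ∀ u ∈ Nor b c, δ ≤ ‖u‖ → τ i u = 0)
    (hτm : ∀ᶠ i in l, Continuous fun u : Nor b c => τ i (u : Cfg N))
    (hφ : ∀ᶠ i in l, ∀ u ∈ Nor b c', ‖u‖ < δ' →
      φ' i (c' + u) = bare S c' (a i) (s i) (t i) A' Q w' u)
    (hφe : ∀ᶠ i in l, ∀ g x, φ' i (b.act g x) = R.ρ g (φ' i x))
    (hφm : ∀ᶠ i in l, Continuous (φ' i))
    (hφb : ∀ᶠ i in l, ∀ x, ‖φ' i x‖ ≤ a i * B') :
    Tendsto (fun i => ∫ u : Nor b c, ⟪τ i (u : Cfg N), φ' i (c + (u : Cfg N))⟫_ℂ) l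
      (𝓝 (∫ v : Nor b c, ((A (S.PX (v : Cfg N)) * A' (c + S.PX (v : Cfg N) - c') *
        Real.exp (-(Q (c + S.PX (v : Cfg N)) (S.PM (v : Cfg N)))) : ℝ) : ℂ) *
        ⟪w (c + S.PX (v : Cfg N)) (S.PY (v : Cfg N)),
          w' (c + S.PX (v : Cfg N)) (S.PY (v : Cfg N))⟫_ℂ)) := by
  have h := gram_dct (F := F) (b := b) (l := l) S hc hρ hκ hC hB' hW (U := U) hs0 ht0 hs ht ha0 ha
    (A := A) (Q := Q) (w := w) hQ1
    (fun X Y hX hY h0 => ⟨(hws X Y hX hY h0).1, (hws X Y hX hY h0).2.1,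
      (hws X Y hX hY h0).2.2.2⟩) hwb hA hAb hτ hτ0 hτm hφm hφb
    (Λ := fun X Y z => ((A' (X - c') * Real.exp (-(Q X z) / 2) : ℝ) : ℂ) • w' X Y)
    (fun X Y z hX hY hz _ hw0 => by
      obtain ⟨hU, hX1, hX2, hY1⟩ := hws X Y hX hY hw0
      have hXP : S.PX (X - c') = X - c' := by rw [map_sub, hX, hc']
      have hXN : X - c' ∈ Nor b c' := by
        rw [← hXP]; exact S.X_mem_Nor hc' _
      have hXu : c' + (X - c') ∈ U := by
        have : c' + (X - c') = X := by abel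
        rw [this]; exact hU
      exact tendsto_second R S hc' hδ' hs0 ht0 hs ht hts ha0 hφ hφe hX hY hz
        (lt_of_le_of_lt hX2 hρ') (hQ X hU hX) (hQ2 X hU hX) (hw' X hU hX _)
        (hA' (X - c') hXN hXu hXP (lt_of_le_of_lt hX2 hρ')))
  have he : ∀ v : Nor b c, ((A (S.PX (v : Cfg N)) *
        Real.exp (-(Q (c + S.PX (v : Cfg N)) (S.PM (v : Cfg N))) / 2) : ℝ) : ℂ) *
        ⟪w (c + S.PX (v : Cfg N)) (S.PY (v : Cfg N)),
          ((A' (c + S.PX (v : Cfg N) - c') *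
            Real.exp (-(Q (c + S.PX (v : Cfg N)) (S.PM (v : Cfg N))) / 2) : ℝ) : ℂ) •
            w' (c + S.PX (v : Cfg N)) (S.PY (v : Cfg N))⟫_ℂ =
      ((A (S.PX (v : Cfg N)) * A' (c + S.PX (v : Cfg N) - c') *
        Real.exp (-(Q (c + S.PX (v : Cfg N)) (S.PM (v : Cfg N)))) : ℝ) : ℂ) *
        ⟪w (c + S.PX (v : Cfg N)) (S.PY (v : Cfg N)),
          w' (c + S.PX (v : Cfg N)) (S.PY (v : Cfg N))⟫_ℂ := by
    intro v
    rw [inner_smul_right, ← mul_assoc]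
    congr 1
    rw [← Complex.ofReal_mul]
    congr 1
    have he : Real.exp (-(Q (c + S.PX (v : Cfg N)) (S.PM (v : Cfg N)))) =
        Real.exp (-(Q (c + S.PX (v : Cfg N)) (S.PM (v : Cfg N))) / 2) *
          Real.exp (-(Q (c + S.PX (v : Cfg N)) (S.PM (v : Cfg N))) / 2) := by
      rw [← Real.exp_add]; congr 1; ring
    rw [he]; ring
  simp only [he] at h
  exact h

end Crest.Agent.R330.Gram2372
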