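import Crest.Agent.R330.TDef_414

/-!
# Row 330, S8 (T2) (helper969): radial multiplication of the trial states

`T (χ.W w) - w (‖x‖²) T χ → 0` in `L²`, from the slice covariance of `tau / j`, the bound of `‖tau‖`
in `L²` and the smallness of the moment `‖z‖² ‖tau‖²`.
-/

set_option autoImplicit false
set_option linter.unusedSectionVars false

open MeasureTheory Filter Topology Crest.MathPhysics.MatrixQM
open scoped ContDiff InnerProductSpace ENNReal NNReal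

noncomputable section

namespace Crest.Agent.R330.Rad969

open Crest.Agent.R330.Defs478 Crest.Agent.R330.LS839 Crest.Agent.R330.Frame839
  Crest.Agent.R330.Clus839
  Crest.Agent.R330.Bind6839 Crest.Agent.R330.SlG944 Crest.Agent.R330.SlF944
  Crest.Agent.R330.IBP837 Crest.Agent.R330.FreeC122 Crest.Agent.R330.TDef414
open Crest.Agent.R330.SlB314 (Nor Tan br)
open Crest.Agent.R330.SlD314 (tube mem_tube_iff)

variable {N p : ℕ} {b : ColorBasis N} {S : Type} [Group S] [Fintype S]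

/-! ## orthogonality of the three parts -/

section geo

variable (C : Chn b p S)

theorem cf_mem (X : Pos p) : C.cf X ∈ Tup C.kk := by
  rw [mem_Tup]
  intro i
  rw [C.comp_cf]
  exact C.cen_mem _

theorem inner_PM (u : Cfg N) {v : Cfg N} (hv : v ∈ Tup C.kk) : ⟪C.PM u, v⟫_ℝ = 0 :=
  (Submodule.mem_orthogonal' _ _).1
    (Submodule.sub_starProjection_mem_orthogonal (K := Tup C.kk) u) v hv

theorem PY_mem (u : Cfg N) : C.PY u ∈ Tup C.kk :=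
  Submodule.sub_mem _ (Submodule.starProjection_apply_mem _ _) (cf_mem C _)

theorem inner_cfT (u : Cfg N) (Z : Pos p) : ⟪C.cfT u, Z⟫_ℝ = ⟪u, C.cf Z⟫_ℝ := by
  unfold Chn.cfT
  rw [ContinuousLinearMap.adjoint_inner_left]
  rfl

theorem inner_PY_cf (u : Cfg N) (Z : Pos p) : ⟪C.PY u, C.cf Z⟫_ℝ = 0 := by
  have h1 : ⟪C.PK u, C.cf Z⟫_ℝ = ⟪u, C.cf Z⟫_ℝ := by
    have := inner_PM C u (cf_mem C Z)
    unfold Chn.PM at this
    rw [inner_sub_left] at this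
    linarith
  have h2 : ⟪C.cf (C.cfT u), C.cf Z⟫_ℝ = ⟪u, C.cf Z⟫_ℝ := by
    rw [LinearIsometry.inner_map_map, inner_cfT]
  unfold Chn.PY
  rw [inner_sub_left, h1, h2, sub_self]

theorem PY_mem_Blk (u : Cfg N) : C.PY u ∈ C.Blk := by
  refine Submodule.mem_inf.2 ⟨PY_mem C u, ?_⟩
  rw [Submodule.mem_orthogonal']
  rintro _ ⟨Z, rfl⟩
  exact inner_PY_cf C u Z

theorem norm_sq_slice (X0 : Pos p) (u : Cfg N) :
    ‖C.cf X0 + u‖ ^ 2 = ‖X0 + C.cfT u‖ ^ 2 + ‖C.PY u‖ ^ 2 + ‖C.PM u‖ ^ 2 := by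
  have h0 : C.cf X0 + u = C.cf (X0 + C.cfT u) + C.PY u + C.PM u := by
    conv_lhs => rw [C.decomp u]
    rw [map_add]
    abel
  have h1 : ⟪C.cf (X0 + C.cfT u) + C.PY u, C.PM u⟫_ℝ = 0 := by
    rw [real_inner_comm]
    exact inner_PM C u (Submodule.add_mem _ (cf_mem C _) (PY_mem C u))
  have h2 : ⟪C.cf (X0 + C.cfT u), C.PY u⟫_ℝ = 0 := by
    rw [real_inner_comm]
    exact inner_PY_cf C u _
  rw [h0, norm_add_sq_real, h1, norm_add_sq_real, h2, LinearIsometry.norm_map]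
  ring

theorem norm_sq_parts (u : Cfg N) :
    ‖u‖ ^ 2 = ‖C.cfT u‖ ^ 2 + ‖C.PY u‖ ^ 2 + ‖C.PM u‖ ^ 2 := by
  have := norm_sq_slice C 0 u
  rwa [map_zero, zero_add, zero_add] at this

end geo

/-! ## elementary estimates -/

theorem exists_lip {w : ℝ → ℝ} (hw : ContDiff ℝ ∞ w) (R2 : ℝ) :
    ∃ L : ℝ, 0 ≤ L ∧ ∀ s ∈ Set.Icc 0 R2, ∀ t ∈ Set.Icc 0 R2, |w s - w t| ≤ L * |s - t| := by
  have hc : Continuous (deriv w) := hw.continuous_deriv (by simp)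
  obtain ⟨L, hL⟩ := (isCompact_Icc (a := (0 : ℝ)) (b := R2)).bddAbove_image hc.norm.continuousOn
  refine ⟨max L 0, le_max_right _ _, fun s hs t ht => ?_⟩
  have h := (convex_Icc (0 : ℝ) R2).norm_image_sub_le_of_norm_deriv_le (f := w) (C := max L 0)
    (fun x _ => (hw.differentiable (by simp)).differentiableAt)
    (fun x hx => (hL ⟨x, hx, rfl⟩).trans (le_max_left _ _)) ht hs
  simpa only [Real.norm_eq_abs] using h

theorem sq_sum_le {s z R4 : ℝ} (_hs : 0 ≤ s) (hz : 0 ≤ z) (hzR : z ≤ R4) :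
    (s + z) ^ 2 ≤ 2 * s ^ 2 + 2 * R4 * z := by
  nlinarith [sq_nonneg (s - z)]

theorem enorm_sq {F : Type*} [NormedAddCommGroup F] (v : F) :
    ‖v‖ₑ ^ 2 = ENNReal.ofReal (‖v‖ ^ 2) := by
  rw [ENNReal.ofReal_pow (norm_nonneg _), ofReal_norm]

/-! ## the trial states -/

section main

variable {C : Chn b p S} {F : Type*} [NormedAddCommGroup F] [InnerProductSpace ℂ F]
  [FiniteDimensional ℂ F] {M : FermionRep N F} {R : GaugeAction b M} {G : GammaNine}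

theorem exists_jlow (σ : Sl C) : ∃ j0 : ℝ, 0 < j0 ∧
    ∀ y ∈ Nor b (C.cf σ.X0), ‖y‖ ≤ σ.r / 2 → j0 ≤ σ.j y := by
  set K : Set (Cfg N) := Metric.closedBall 0 (σ.r / 2) ∩ (Nor b (C.cf σ.X0) : Set (Cfg N)) with hK
  have hKc : IsCompact K := (isCompact_closedBall (0 : Cfg N) (σ.r / 2)).inter_right
    (Submodule.closed_of_finiteDimensional _)
  have hr := σ.pos
  have hcont : ContinuousOn σ.j K := fun y hy => by
    have h1 : ‖y‖ ≤ σ.r / 2 := by simpa using hy.1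
    exact (σ.smooth y hy.2 (by linarith)).continuousAt.continuousWithinAt
  have h0 : (0 : Cfg N) ∈ K := ⟨by simp; linarith, Submodule.zero_mem _⟩
  obtain ⟨y0, hy0, hmin⟩ := hKc.exists_isMinOn ⟨0, h0⟩ hcont
  have h1 : ‖y0‖ ≤ σ.r / 2 := by simpa using hy0.1
  refine ⟨σ.j y0, σ.jpos y0 hy0.2 (by linarith), fun y hy hn => ?_⟩
  exact hmin (⟨by simpa using hn, hy⟩ : y ∈ K)

theorem W_fn {σ : Sl C} (χ : Amp M G σ) {w : ℝ → ℝ} (hw : ContDiff ℝ ∞ w) (X : Pos p) :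
    (χ.W w).fn X = ((w (‖X‖ ^ 2) : ℝ) : ℂ) • χ.fn X := by
  change wfn w χ.fn X = _
  unfold wfn
  rw [if_pos hw]

theorem tau_W (P : TPack C M R G) (σ : Sl C) (g : ℝ) (χ : Amp M G σ) {w : ℝ → ℝ}
    (hw : ContDiff ℝ ∞ w) (u : Cfg N) :
    tau P σ g (χ.W w).fn u =
      ((w (‖σ.X0 + C.cfT u‖ ^ 2) : ℝ) : ℂ) • tau P σ g χ.fn u := by
  unfold tau
  rw [W_fn χ hw, Submodule.coe_smul, map_smul, map_smul, smul_comm]

theorem tau_supp (P : TPack C M R G) (σ : Sl C) (g : ℝ) (χ : Amp M G σ) {u : Cfg N}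
    (h : tau P σ g χ.fn u ≠ 0) :
    ‖C.cfT u‖ < σ.r / 4 ∧ ‖C.PM u‖ ^ 2 < σ.r ^ 2 / 16 ∧ ‖C.PY u‖ < P.s g := by
  refine ⟨?_, ?_, ?_⟩
  · by_contra hc
    apply h
    have h1 : χ.fn (σ.X0 + C.cfT u) = 0 := by
      apply image_eq_zero_of_notMem_tsupport
      intro h2
      have h3 := χ.supp h2
      rw [Metric.mem_ball, dist_eq_norm, add_sub_cancel_left] at h3
      exact hc h3
    unfold tau
    rw [h1, Submodule.coe_zero, map_zero, map_zero, smul_zero]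
  · by_contra hc
    apply h
    unfold tau
    rw [kap_zero σ.pos (not_lt.1 hc)]
    simp
  · by_contra hc
    apply h
    unfold tau
    rw [P.Psi_supp g _ (PY_mem_Blk C u) (not_lt.1 hc)]
    simp

/-- the difference -/
def Dif (P : TPack C M R G) (σ : Sl C) (χ : Amp M G σ) (w : ℝ → ℝ) (g : ℝ) (x : Cfg N) : F :=
  Tgen P σ g (χ.W w).fn x - ((w (‖x‖ ^ 2) : ℝ) : ℂ) • Tgen P σ g χ.fn x

/-- the slice covariance of `tau / j` -/
def SlOK (P : TPack C M R G) (σ : Sl C) (g : ℝ) (χ : Pos p → C.Fx M G) : Prop :=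
  IsSliceFun R (C.cf σ.X0) σ.r fun u => (((σ.j u)⁻¹ : ℝ) : ℂ) • tau P σ g χ u

theorem Dif_slice {P : TPack C M R G} {σ : Sl C} {χ : Amp M G σ} {w : ℝ → ℝ}
    (hw : ContDiff ℝ ∞ w) {g : ℝ} (h1 : SlOK P σ g χ.fn) (h2 : SlOK P σ g (χ.W w).fn)
    {y : Cfg N} (hy : y ∈ Nor b (C.cf σ.X0)) (hn : ‖y‖ < σ.r) :
    Dif P σ χ w g (C.cf σ.X0 + y) =
      (((σ.j y)⁻¹ * (w (‖σ.X0 + C.cfT y‖ ^ 2) - w (‖C.cf σ.X0 + y‖ ^ 2)) : ℝ) : ℂ) •
        tau P σ g χ.fn y := by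
  unfold Dif Tgen
  rw [ext_slice R σ.good h1 hy hn, ext_slice R σ.good h2 hy hn, tau_W P σ g χ hw, smul_smul,
    smul_smul, ← sub_smul]
  congr 1
  push_cast
  ring

theorem Dif_off {P : TPack C M R G} {σ : Sl C} {χ : Amp M G σ} {w : ℝ → ℝ} {g : ℝ}
    {x : Cfg N} (hx : x ∉ tube b (C.cf σ.X0) σ.r) : Dif P σ χ w g x = 0 := by
  unfold Dif Tgen
  rw [ext_off R _ hx, ext_off R _ hx, smul_zero, sub_zero]

theorem Dif_act {P : TPack C M R G} {σ : Sl C} {χ : Amp M G σ} {w : ℝ → ℝ} {g : ℝ}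
    (h1 : SlOK P σ g χ.fn) (h2 : SlOK P σ g (χ.W w).fn)
    (k : Matrix.specialUnitaryGroup (Fin N) ℂ) (x : Cfg N) :
    Dif P σ χ w g (b.act k x) = R.ρ k (Dif P σ χ w g x) := by
  unfold Dif Tgen
  rw [ext_equivariant R σ.good h1, ext_equivariant R σ.good h2, SlA314.act_norm, map_sub,
    map_smul]

/-- the pointwise estimate on the slice -/
theorem Dif_le {P : TPack C M R G} {σ : Sl C} {χ : Amp M G σ} {w : ℝ → ℝ}
    (hw : ContDiff ℝ ∞ w) {L : ℝ} (hL0 : 0 ≤ L)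
    (hL : ∀ s ∈ Set.Icc 0 ((‖σ.X0‖ + σ.r) ^ 2), ∀ t ∈ Set.Icc 0 ((‖σ.X0‖ + σ.r) ^ 2),
      |w s - w t| ≤ L * |s - t|) {j0 : ℝ} (hj0 : 0 < j0)
    (hj : ∀ y ∈ Nor b (C.cf σ.X0), ‖y‖ ≤ σ.r / 2 → j0 ≤ σ.j y) {g : ℝ}
    (hs : P.s g ≤ σ.r / 4) (h1 : SlOK P σ g χ.fn) (h2 : SlOK P σ g (χ.W w).fn)
    {y : Cfg N} (hy : y ∈ Nor b (C.cf σ.X0)) (hn : ‖y‖ < σ.r) :
    σ.j y * ‖Dif P σ χ w g (C.cf σ.X0 + y)‖ ^ 2 ≤
      (j0⁻¹ * L ^ 2 * 2) * (P.s g) ^ 4 * ‖tau P σ g χ.fn y‖ ^ 2 +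
      (j0⁻¹ * L ^ 2 * (2 * (σ.r ^ 2 / 16))) * (‖C.PM y‖ ^ 2 * ‖tau P σ g χ.fn y‖ ^ 2) := by
  have hr := σ.pos
  by_cases ht : tau P σ g χ.fn y = 0
  · rw [Dif_slice hw h1 h2 hy hn, ht]
    simp
  obtain ⟨ha, hb, hc⟩ := tau_supp P σ g χ ht
  have hs0 := P.s_pos g
  have hyn : ‖y‖ ≤ σ.r / 2 := by
    have h3 := norm_sq_parts C y
    have h4 : ‖y‖ ^ 2 ≤ (σ.r / 2) ^ 2 := by
      rw [h3]
      nlinarith [norm_nonneg (C.cfT y), norm_nonneg (C.PY y)]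
    exact (sq_le_sq₀ (norm_nonneg _) (by positivity)).1 h4
  have hjy := hj y hy hyn
  have hjp : 0 < σ.j y := hj0.trans_le hjy
  rw [Dif_slice hw h1 h2 hy hn, norm_smul, mul_pow]
  set T : ℝ := ‖tau P σ g χ.fn y‖ ^ 2 with hT
  have hT0 : 0 ≤ T := by positivity
  set d : ℝ := w (‖σ.X0 + C.cfT y‖ ^ 2) - w (‖C.cf σ.X0 + y‖ ^ 2) with hd
  have hdn : ‖(((σ.j y)⁻¹ * d : ℝ) : ℂ)‖ ^ 2 = (σ.j y)⁻¹ ^ 2 * d ^ 2 := by
    rw [Complex.norm_real, Real.norm_eq_abs, sq_abs, mul_pow]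
  have hdd : d ^ 2 ≤ L ^ 2 * (2 * P.s g ^ 4 + 2 * (σ.r ^ 2 / 16) * ‖C.PM y‖ ^ 2) := by
    have e1 : ‖C.cf σ.X0 + y‖ ^ 2 =
        ‖σ.X0 + C.cfT y‖ ^ 2 + (‖C.PY y‖ ^ 2 + ‖C.PM y‖ ^ 2) := by
      rw [norm_sq_slice]; ring
    have hcfy : ‖C.cfT y‖ ≤ ‖y‖ := by
      have h3 := norm_sq_parts C y
      have h4 : ‖C.cfT y‖ ^ 2 ≤ ‖y‖ ^ 2 := by
        rw [h3]; nlinarith [sq_nonneg ‖C.PY y‖, sq_nonneg ‖C.PM y‖]
      exact (sq_le_sq₀ (norm_nonneg _) (norm_nonneg _)).1 h4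
    have m1 : ‖σ.X0 + C.cfT y‖ ^ 2 ∈ Set.Icc 0 ((‖σ.X0‖ + σ.r) ^ 2) := by
      refine ⟨sq_nonneg _, ?_⟩
      have := norm_add_le σ.X0 (C.cfT y)
      exact pow_le_pow_left₀ (norm_nonneg _) (by linarith) 2
    have m2 : ‖C.cf σ.X0 + y‖ ^ 2 ∈ Set.Icc 0 ((‖σ.X0‖ + σ.r) ^ 2) := by
      refine ⟨sq_nonneg _, ?_⟩
      have h5 := norm_add_le (C.cf σ.X0) y
      rw [LinearIsometry.norm_map] at h5
      exact pow_le_pow_left₀ (norm_nonneg _) (by linarith) 2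
    have h6 := hL _ m1 _ m2
    have e2 : |‖σ.X0 + C.cfT y‖ ^ 2 - ‖C.cf σ.X0 + y‖ ^ 2| = ‖C.PY y‖ ^ 2 + ‖C.PM y‖ ^ 2 := by
      rw [e1, abs_of_nonpos (by nlinarith [sq_nonneg ‖C.PY y‖, sq_nonneg ‖C.PM y‖])]
      ring
    rw [e2] at h6
    have h7 : ‖C.PY y‖ ^ 2 ≤ P.s g ^ 2 := pow_le_pow_left₀ (norm_nonneg _) hc.le 2
    have h8 : |d| ≤ L * (P.s g ^ 2 + ‖C.PM y‖ ^ 2) :=
      h6.trans (mul_le_mul_of_nonneg_left (by linarith) hL0)
    have h9 : d ^ 2 ≤ (L * (P.s g ^ 2 + ‖C.PM y‖ ^ 2)) ^ 2 := by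
      rw [← sq_abs d]
      exact pow_le_pow_left₀ (abs_nonneg _) h8 2
    refine h9.trans ?_
    rw [mul_pow]
    refine mul_le_mul_of_nonneg_left ?_ (sq_nonneg L)
    have h10 := sq_sum_le (s := P.s g ^ 2) (z := ‖C.PM y‖ ^ 2) (R4 := σ.r ^ 2 / 16)
      (sq_nonneg _) (sq_nonneg _) hb.le
    have e3 : (P.s g ^ 2) ^ 2 = P.s g ^ 4 := by ring
    rw [e3] at h10
    exact h10
  rw [hdn]
  have h11 : σ.j y * ((σ.j y)⁻¹ ^ 2 * d ^ 2 * T) = (σ.j y)⁻¹ * (d ^ 2 * T) := by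
    field_simp
  rw [h11]
  have h12 : (σ.j y)⁻¹ ≤ j0⁻¹ := inv_anti₀ hj0 hjy
  have hz : 0 ≤ ‖C.PM y‖ ^ 2 := sq_nonneg _
  calc (σ.j y)⁻¹ * (d ^ 2 * T) ≤ j0⁻¹ * ((L ^ 2 * (2 * P.s g ^ 4 +
        2 * (σ.r ^ 2 / 16) * ‖C.PM y‖ ^ 2)) * T) := by
        refine mul_le_mul h12 (mul_le_mul_of_nonneg_right hdd hT0) (by positivity)
          (by positivity)
    _ = _ := by ring

/-- **(T2)** -/
theorem rad (P : TPack C M R G) (σ : Sl C) (χ : Amp M G σ) {w : ℝ → ℝ} (hw : ContDiff ℝ ∞ w)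
    (hcore : ∀ χ' : Amp M G σ, ∀ᶠ g in atTop, IsCoreVec b R (Tgen P σ g χ'.fn))
    (hsl : ∀ χ' : Amp M G σ, ∀ᶠ g in atTop, SlOK P σ g χ'.fn)
    (hL2 : ∃ K : ℝ≥0, ∀ᶠ g in atTop, ∫⁻ y in Metric.ball (0 : Nor b (C.cf σ.X0)) σ.r,
      ‖tau P σ g χ.fn y‖ₑ ^ 2 ≤ K)
    (hmom : Tendsto (fun g => ∫⁻ y in Metric.ball (0 : Nor b (C.cf σ.X0)) σ.r,
      ‖C.PM y‖ₑ ^ 2 * ‖tau P σ g χ.fn y‖ₑ ^ 2) atTop (𝓝 0)) :
    Tendsto (fun g => ∫ x, ‖Tgen P σ g (χ.W w).fn x -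
      ((w (‖x‖ ^ 2) : ℝ) : ℂ) • Tgen P σ g χ.fn x‖ ^ 2) atTop (𝓝 0) := by
  obtain ⟨K, hK⟩ := hL2
  obtain ⟨L, hL0, hL⟩ := exists_lip hw ((‖σ.X0‖ + σ.r) ^ 2)
  obtain ⟨j0, hj0, hj⟩ := exists_jlow σ
  set c1 : ℝ := j0⁻¹ * L ^ 2 * 2 with hc1
  set c2 : ℝ := j0⁻¹ * L ^ 2 * (2 * (σ.r ^ 2 / 16)) with hc2
  have hc10 : 0 ≤ c1 := by positivity
  have hc20 : 0 ≤ c2 := by positivity
  have hr := σ.pos
  have hs : ∀ᶠ g in atTop, P.s g ≤ σ.r / 4 :=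
    (P.s_lim.eventually (gt_mem_nhds (by positivity : (0 : ℝ) < σ.r / 4))).mono fun g hg => hg.le
  -- the bound of the lintegral
  have key : ∀ᶠ g in atTop, ∫⁻ x, ‖Dif P σ χ w g x‖ₑ ^ 2 ≤
      ENNReal.ofReal (c1 * P.s g ^ 4) * K +
        ENNReal.ofReal c2 * ∫⁻ y in Metric.ball (0 : Nor b (C.cf σ.X0)) σ.r,
          ‖C.PM y‖ₑ ^ 2 * ‖tau P σ g χ.fn y‖ₑ ^ 2 := by
    filter_upwards [hs, hK, hsl χ, hsl (χ.W w), hcore χ, hcore (χ.W w)] with g hg hKg h1 h2 h3 h4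
    have hcont : Continuous (Dif P σ χ w g) := by
      unfold Dif
      refine h4.1.continuous.sub (Continuous.smul ?_ h3.1.continuous)
      exact Complex.continuous_ofReal.comp (hw.continuous.comp (continuous_norm.pow 2))
    have hmeas : Measurable fun x => ‖Dif P σ χ w g x‖ₑ ^ 2 :=
      (hcont.enorm.measurable).pow_const 2
    have hinv : ∀ (k : Matrix.specialUnitaryGroup (Fin N) ℂ) x,
        ‖Dif P σ χ w g (b.act k x)‖ₑ ^ 2 = ‖Dif P σ χ w g x‖ₑ ^ 2 := by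
      intro k x
      rw [Dif_act h1 h2, enorm_sq, enorm_sq, Cov837.norm_rho]
    have hoff : ∫⁻ x, ‖Dif P σ χ w g x‖ₑ ^ 2 =
        ∫⁻ x in tube b (C.cf σ.X0) σ.r, ‖Dif P σ χ w g x‖ₑ ^ 2 := by
      rw [← lintegral_indicator (SlD314.isOpen_tube b _ _).measurableSet]
      refine lintegral_congr fun x => ?_
      by_cases hx : x ∈ tube b (C.cf σ.X0) σ.r
      · rw [Set.indicator_of_mem hx]
      · rw [Set.indicator_of_notMem hx, Dif_off hx]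
        simp
    rw [hoff, σ.int _ hmeas hinv]
    have hpt : ∀ y ∈ Metric.ball (0 : Nor b (C.cf σ.X0)) σ.r,
        ENNReal.ofReal (σ.j y) * ‖Dif P σ χ w g (C.cf σ.X0 + y)‖ₑ ^ 2 ≤
        ENNReal.ofReal (c1 * P.s g ^ 4) * ‖tau P σ g χ.fn y‖ₑ ^ 2 +
          ENNReal.ofReal c2 * (‖C.PM y‖ₑ ^ 2 * ‖tau P σ g χ.fn y‖ₑ ^ 2) := by
      intro y hy
      have hn : ‖(y : Cfg N)‖ < σ.r := by simpa using hy
      have h5 := Dif_le hw hL0 hL hj0 hj hg h1 h2 y.2 hn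
      rw [← hc1, ← hc2] at h5
      have hjy := σ.jpos y y.2 hn
      simp only [enorm_sq]
      rw [← ENNReal.ofReal_mul hjy.le, ← ENNReal.ofReal_mul (by positivity),
        ← ENNReal.ofReal_mul (by positivity), ← ENNReal.ofReal_mul hc20,
        ← ENNReal.ofReal_add (by positivity) (by positivity)]
      exact ENNReal.ofReal_le_ofReal h5
    refine (setLIntegral_mono' measurableSet_ball hpt).trans ?_
    have hm : AEMeasurable (fun y : Nor b (C.cf σ.X0) =>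
        ENNReal.ofReal (c1 * P.s g ^ 4) * ‖tau P σ g χ.fn y‖ₑ ^ 2)
        (volume.restrict (Metric.ball (0 : Nor b (C.cf σ.X0)) σ.r)) := by
      have h6 : Set.EqOn (fun y : Nor b (C.cf σ.X0) => tau P σ g χ.fn y)
          (fun y => ((σ.j y : ℝ) : ℂ) • Tgen P σ g χ.fn (C.cf σ.X0 + y))
          (Metric.ball (0 : Nor b (C.cf σ.X0)) σ.r) := by
        intro y hy
        have hn : ‖(y : Cfg N)‖ < σ.r := by simpa using hy
        have hjy := σ.jpos y y.2 hn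
        change tau P σ g χ.fn y = ((σ.j y : ℝ) : ℂ) • Tgen P σ g χ.fn (C.cf σ.X0 + y)
        unfold Tgen
        rw [ext_slice R σ.good h1 y.2 hn, smul_smul, ← Complex.ofReal_mul,
          mul_inv_cancel₀ hjy.ne', Complex.ofReal_one, one_smul]
      have h7 : ContinuousOn (fun y : Nor b (C.cf σ.X0) =>
          ((σ.j y : ℝ) : ℂ) • Tgen P σ g χ.fn (C.cf σ.X0 + y))
          (Metric.ball (0 : Nor b (C.cf σ.X0)) σ.r) := by
        intro y hy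
        have hn : ‖(y : Cfg N)‖ < σ.r := by simpa using hy
        have hjc : ContinuousAt (fun y : Nor b (C.cf σ.X0) => σ.j (y : Cfg N)) y :=
          ContinuousAt.comp (f := fun y : Nor b (C.cf σ.X0) => (y : Cfg N)) (g := σ.j)
            (σ.smooth y y.2 hn).continuousAt continuous_subtype_val.continuousAt
        refine (ContinuousAt.smul ?_ ?_).continuousWithinAt
        · exact Complex.continuous_ofReal.continuousAt.comp hjc
        · exact (h3.1.continuous.comp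
            (continuous_const.add continuous_subtype_val)).continuousAt
      have h8 : ContinuousOn (fun y : Nor b (C.cf σ.X0) => tau P σ g χ.fn y)
          (Metric.ball (0 : Nor b (C.cf σ.X0)) σ.r) := h7.congr h6
      exact ((h8.enorm.aemeasurable measurableSet_ball).pow_const 2).const_mul _
    rw [lintegral_add_left' hm, lintegral_const_mul' _ _ ENNReal.ofReal_ne_top,
      lintegral_const_mul' _ _ ENNReal.ofReal_ne_top]
    gcongr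
  -- the limit of the lintegral
  have hlim : Tendsto (fun g => ∫⁻ x, ‖Dif P σ χ w g x‖ₑ ^ 2) atTop (𝓝 0) := by
    have t1 : Tendsto (fun g => ENNReal.ofReal (c1 * P.s g ^ 4) * (K : ℝ≥0∞)) atTop (𝓝 0) := by
      have h5 : Tendsto (fun g => c1 * P.s g ^ 4) atTop (𝓝 0) := by
        have := (P.s_lim.pow 4).const_mul c1
        simpa using this
      have h6 := (ENNReal.continuous_ofReal.tendsto 0).comp h5
      rw [ENNReal.ofReal_zero] at h6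
      have h7 := ENNReal.Tendsto.mul_const (b := (K : ℝ≥0∞)) h6 (Or.inr ENNReal.coe_ne_top)
      rwa [zero_mul] at h7
    have t2 := ENNReal.Tendsto.const_mul (a := ENNReal.ofReal c2) hmom
      (Or.inr ENNReal.ofReal_ne_top)
    rw [mul_zero] at t2
    have t3 := t1.add t2
    rw [add_zero] at t3
    exact tendsto_of_tendsto_of_tendsto_of_le_of_le' tendsto_const_nhds t3
      (Eventually.of_forall fun _ => zero_le) key
  have h9 := (ENNReal.tendsto_toReal (ENNReal.zero_ne_top)).comp hlim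
  rw [ENNReal.toReal_zero] at h9
  refine h9.congr' ?_
  filter_upwards [hcore χ, hcore (χ.W w)] with g h3 h4
  have hcont : Continuous (Dif P σ χ w g) := by
    unfold Dif
    refine h4.1.continuous.sub (Continuous.smul ?_ h3.1.continuous)
    exact Complex.continuous_ofReal.comp (hw.continuous.comp (continuous_norm.pow 2))
  change (∫⁻ x, ‖Dif P σ χ w g x‖ₑ ^ 2).toReal = ∫ x, ‖Dif P σ χ w g x‖ ^ 2
  rw [integral_eq_lintegral_of_nonneg_ae (Eventually.of_forall fun x => sq_nonneg _)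
    (hcont.norm.pow 2).aestronglyMeasurable]
  simp only [enorm_sq]

end main

end Crest.Agent.R330.Rad969
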