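import Crest.Agent.R330.TGC_372
import Crest.Agent.R330.SlInt_658
import Crest.Agent.R330.ALow_302
import Crest.Agent.R330.Rad_969

/-!
# Row 330, S8-ISO (helper372): scaling of the trial functions with a fixed profile

`Psc P g0 g` = the block state `P.Psi g0` rescaled to the coupling `g`; `tauG P σ g (Psc P g0 g) χ`
and `TG P σ g (Psc P g0 g) χ` on the slice are `bare` functions.
-/

set_option autoImplicit false
set_option linter.unusedSectionVars false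

open MeasureTheory Filter Topology Crest.MathPhysics.MatrixQM
open scoped ContDiff InnerProductSpace ENNReal Real

noncomputable section

namespace Crest.Agent.R330.Gram4372

open Crest.Agent.R330.Defs478 Crest.Agent.R330.LS839 Crest.Agent.R330.Frame839
  Crest.Agent.R330.Clus839
  Crest.Agent.R330.Bind6839 Crest.Agent.R330.SlG944 Crest.Agent.R330.SlF944
  Crest.Agent.R330.TDef414 Crest.Agent.R330.TG372 Crest.Agent.R330.TGC372
open Crest.Agent.R330.TCore383 (aT cfT_act PK_act PY_act PM_act PY_mem act_cf contDiff_PY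
  contDiffAt_pos contDiffAt_aT aT_act cfT_ball norm_le_sum nI_eq nI_pos contDiffAt_nI nrm_pos
  contDiffAt_nrm dt_pos)
open Crest.Agent.R330.SlB314 (Nor Tan br brx)
open Crest.Agent.R330.SlD314 (tube)
open Crest.Agent.R330.SlA314 (act_inner act_norm act_add act_sub)

variable {N p : ℕ} {b : ColorBasis N} {S : Type} [Group S] [Fintype S] {C : Chn b p S}

local notation "SU" => Matrix.specialUnitaryGroup (Fin N) ℂ

variable {F : Type*} [NormedAddCommGroup F] [InnerProductSpace ℂ F] [FiniteDimensional ℂ F]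
  {M : FermionRep N F} {R : GaugeAction b M} {G : GammaNine}

/-- ratio of the densities of two charts -/
def rr (P : TPack C M R G) (σ σ' : Sl C) (X : Pos p) : ℝ :=
  Real.sqrt (σ.j (C.cf (X - σ.X0)) * nI P σ 1 X / (σ'.j (C.cf (X - σ'.X0)) * nI P σ' 1 X))

/-- the block state at coupling `g0` rescaled to the coupling `g` -/
def Psc (P : TPack C M R G) (g0 g : ℝ) (Y : Cfg N) : F →L[ℂ] F :=
  (((g / g0) ^ ((Module.finrank ℝ C.Blk : ℝ) / 6) : ℝ) : ℂ) •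
    P.Psi g0 (((g / g0) ^ ((1 : ℝ) / 3)) • Y)

theorem isBlk_Psc {P : TPack C M R G} {g0 g ρ : ℝ} (h0 : 0 < g0) (hg : 0 < g)
    (H : IsBlk P (P.Psi g0) ρ) : IsBlk P (Psc P g0 g) (ρ / ((g / g0) ^ ((1 : ℝ) / 3))) :=
  isBlk_scale H _ (Real.rpow_pos_of_pos (div_pos hg h0) _)

/-! ## scaling -/

theorem nI_scale (P : TPack C M R G) (σ : Sl C) {g : ℝ} (hg : 0 < g) {X : Pos p}
    (hr : ‖X - σ.X0‖ < σ.r) :
    nI P σ g X = g ^ (-((Module.finrank ℝ (C.Zt σ.X0) : ℝ) / 2)) * nI P σ 1 X := by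
  rw [nI_eq P σ hg hr, nI_eq P σ one_pos hr, div_one, Real.div_rpow Real.pi_pos.le hg.le,
    Real.rpow_neg hg.le]
  ring

theorem nrm_scale (P : TPack C M R G) (σ : Sl C) {g : ℝ} (hg : 0 < g) {X : Pos p}
    (hr : ‖X - σ.X0‖ < σ.r) :
    nrm P σ g X = g ^ ((Module.finrank ℝ (C.Zt σ.X0) : ℝ) / 4) * nrm P σ 1 X := by
  unfold nrm
  rw [nI_scale P σ hg hr]
  set d : ℝ := (Module.finrank ℝ (C.Zt σ.X0) : ℝ) with hd
  have h1 : σ.j (C.cf (X - σ.X0)) / (g ^ (-(d / 2)) * nI P σ 1 X) =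
      g ^ (d / 2) * (σ.j (C.cf (X - σ.X0)) / nI P σ 1 X) := by
    rw [Real.rpow_neg hg.le]
    have : g ^ (d / 2) ≠ 0 := (Real.rpow_pos_of_pos hg _).ne'
    have h2 := (nI_pos P σ one_pos hr).ne'
    field_simp
  have h3 : Real.sqrt (g ^ (d / 2)) = g ^ (d / 4) := by
    rw [Real.sqrt_eq_rpow, ← Real.rpow_mul hg.le]
    congr 1
    ring
  rw [h1, Real.sqrt_mul (Real.rpow_nonneg hg.le _), h3]

/-- coupling bounded below by one -/
def gp (g : ℝ) : ℝ := max g 1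

theorem gp_pos (g : ℝ) : 0 < gp g := lt_of_lt_of_le one_pos (le_max_right _ _)

theorem gp_eq {g : ℝ} (h : 1 ≤ g) : gp g = g := max_eq_left h

theorem tendsto_gp : Tendsto gp atTop atTop :=
  tendsto_atTop_mono (fun g => le_max_left g 1) tendsto_id

/-- amplitude -/
def aa (dY dZ : ℕ) (g0 g : ℝ) : ℝ := (gp g / g0) ^ ((dY : ℝ) / 6) * (gp g) ^ ((dZ : ℝ) / 4)

/-- scale of the blocks -/
def ss (g0 g : ℝ) : ℝ := (gp g / g0) ^ (-((1 : ℝ) / 3))

/-- scale of the transverse directions -/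
def tt (g : ℝ) : ℝ := (gp g) ^ (-((1 : ℝ) / 2))

theorem aa_pos (dY dZ : ℕ) {g0 : ℝ} (h0 : 0 < g0) (g : ℝ) : 0 < aa dY dZ g0 g :=
  mul_pos (Real.rpow_pos_of_pos (div_pos (gp_pos g) h0) _) (Real.rpow_pos_of_pos (gp_pos g) _)

theorem ss_pos {g0 : ℝ} (h0 : 0 < g0) (g : ℝ) : 0 < ss g0 g :=
  Real.rpow_pos_of_pos (div_pos (gp_pos g) h0) _

theorem tt_pos (g : ℝ) : 0 < tt g := Real.rpow_pos_of_pos (gp_pos g) _

theorem ss_inv {g0 : ℝ} (h0 : 0 < g0) (g : ℝ) : (ss g0 g)⁻¹ = (gp g / g0) ^ ((1 : ℝ) / 3) := by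
  unfold ss
  rw [Real.rpow_neg (div_pos (gp_pos g) h0).le, inv_inv]

theorem tt_inv_mul (g : ℝ) : (tt g)⁻¹ * (tt g)⁻¹ = gp g := by
  unfold tt
  rw [Real.rpow_neg (gp_pos g).le, inv_inv, ← Real.rpow_add (gp_pos g)]
  norm_num

theorem tendsto_ss {g0 : ℝ} (h0 : 0 < g0) : Tendsto (ss g0) atTop (𝓝 0) :=
  (tendsto_rpow_neg_atTop (by norm_num : (0 : ℝ) < 1 / 3)).comp (tendsto_gp.atTop_div_const h0)

theorem tendsto_tt : Tendsto tt atTop (𝓝 0) :=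
  (tendsto_rpow_neg_atTop (by norm_num : (0 : ℝ) < 1 / 2)).comp tendsto_gp

theorem tendsto_ratio {g0 : ℝ} (h0 : 0 < g0) :
    Tendsto (fun g => (ss g0 g)⁻¹ * tt g) atTop (𝓝 0) := by
  have h1 : ∀ g, (ss g0 g)⁻¹ * tt g = g0 ^ (-((1 : ℝ) / 3)) * (gp g) ^ (-((1 : ℝ) / 6)) := by
    intro g
    rw [ss_inv h0]
    unfold tt
    rw [Real.div_rpow (gp_pos g).le h0.le, Real.rpow_neg h0.le (1 / 3), div_mul_eq_mul_div,
      ← Real.rpow_add (gp_pos g), div_eq_mul_inv, mul_comm]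
    norm_num
  simp only [h1]
  have h2 := ((tendsto_rpow_neg_atTop (by norm_num : (0 : ℝ) < 1 / 6)).comp tendsto_gp).const_mul
    (g0 ^ (-((1 : ℝ) / 3)))
  rw [mul_zero] at h2
  exact h2

theorem aa_sq (dY dZ : ℕ) {g0 : ℝ} (h0 : 0 < g0) (g : ℝ) :
    aa dY dZ g0 g ^ 2 * (ss g0 g ^ dY * tt g ^ dZ) = 1 := by
  have hG := gp_pos g
  have hq := div_pos hG h0
  have e1 : ss g0 g ^ dY = (gp g / g0) ^ (-((dY : ℝ) / 3)) := by
    unfold ss
    rw [← Real.rpow_natCast, ← Real.rpow_mul hq.le]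
    congr 1
    ring
  have e2 : tt g ^ dZ = (gp g) ^ (-((dZ : ℝ) / 2)) := by
    unfold tt
    rw [← Real.rpow_natCast, ← Real.rpow_mul hG.le]
    congr 1
    ring
  have e3 : aa dY dZ g0 g ^ 2 = (gp g / g0) ^ ((dY : ℝ) / 3) * (gp g) ^ ((dZ : ℝ) / 2) := by
    unfold aa
    rw [mul_pow, ← Real.rpow_natCast, ← Real.rpow_natCast, ← Real.rpow_mul hq.le,
      ← Real.rpow_mul hG.le]
    congr 2 <;> push_cast <;> ring
  rw [e1, e2, e3, Real.rpow_neg hq.le, Real.rpow_neg hG.le]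
  have h1 : (gp g / g0) ^ ((dY : ℝ) / 3) ≠ 0 := (Real.rpow_pos_of_pos hq _).ne'
  have h2 : (gp g) ^ ((dZ : ℝ) / 2) ≠ 0 := (Real.rpow_pos_of_pos hG _).ne'
  field_simp

/-! ## the slice functions are bare functions -/

/-- scalar factor -/
def A0 (P : TPack C M R G) (σ : Sl C) (u : Cfg N) : ℝ :=
  nrm P σ 1 (σ.X0 + C.cfT u) * kap σ.r (‖C.PM u‖ ^ 2)

/-- scalar factor of the function itself -/
def A1 (P : TPack C M R G) (σ : Sl C) (u : Cfg N) : ℝ := (σ.j u)⁻¹ * A0 P σ u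

/-- exponent -/
def Qf (P : TPack C M R G) (x z : Cfg N) : ℝ := ⟪P.A (C.cfT x) z, z⟫_ℝ

/-- vector factor -/
def wf (P : TPack C M R G) (Ψ : Cfg N → F →L[ℂ] F) (χ : Pos p → C.Fx M G) (x Y : Cfg N) : F :=
  P.U (C.cfT x) (Ψ Y (χ (C.cfT x) : F))

theorem tauG_bare (P : TPack C M R G) (σ : Sl C) {g0 g : ℝ} (h0 : 0 < g0) (hg : 1 ≤ g)
    (χ : Pos p → C.Fx M G) {u : Cfg N} (hu : ‖u‖ < σ.r) :
    tauG P σ g (Psc P g0 g) χ u =
      Gram372.bare (splitC C) (C.cf σ.X0)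
        (aa (Module.finrank ℝ C.Blk) (Module.finrank ℝ (C.Zt σ.X0)) g0 g) (ss g0 g) (tt g)
        (A0 P σ) (Qf P) (wf P (P.Psi g0) χ) u := by
  have hX := cfT_ball (C := C) σ hu
  have hg' : 0 < g := by linarith
  unfold tauG Gram372.bare Psc wf Qf A0
  rw [splitC_PX, splitC_PM, splitC_PY, map_add, C.cfT_cf, C.cfT_cf, nrm_scale P σ hg' hX,
    ss_inv h0, gp_eq hg, map_smul, inner_smul_left, inner_smul_right]
  have h1 : ∀ q : ℝ, (starRingEnd ℝ) (tt g)⁻¹ * ((tt g)⁻¹ * q) = g * q := by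
    intro q
    have h3 := tt_inv_mul g
    rw [gp_eq hg] at h3
    rw [conj_trivial, ← mul_assoc, h3]
  rw [h1, smul_apply, map_smul, smul_smul]
  unfold aa
  rw [gp_eq hg]
  congr 1
  have h2 : -(g / 2 * ⟪P.A (σ.X0 + C.cfT u) (C.PM u), C.PM u⟫_ℝ) =
      -(g * ⟪P.A (σ.X0 + C.cfT u) (C.PM u), C.PM u⟫_ℝ) / 2 := by ring
  rw [h2]
  push_cast
  ring

theorem TG_bare (P : TPack C M R G) (σ : Sl C) {g0 g ρ : ℝ} (h0 : 0 < g0) (hg : 1 ≤ g)
    (H : IsBlk P (P.Psi g0) ρ) (χ : Amp M G σ) {u : Cfg N} (hu : u ∈ Nor b (C.cf σ.X0))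
    (hr : ‖u‖ < σ.r) :
    TG P σ g (Psc P g0 g) χ.fn (C.cf σ.X0 + u) =
      Gram372.bare (splitC C) (C.cf σ.X0)
        (aa (Module.finrank ℝ C.Blk) (Module.finrank ℝ (C.Zt σ.X0)) g0 g) (ss g0 g) (tt g)
        (A1 P σ) (Qf P) (wf P (P.Psi g0) χ.fn) u := by
  rw [TG_slice P σ g (isBlk_Psc h0 (by linarith) H) χ hu hr, tauG_bare P σ h0 hg χ.fn hr]
  unfold Gram372.bare A1
  rw [smul_smul]
  congr 1
  push_cast
  ring

end Crest.Agent.R330.Gram4372
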