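import Crest.Agent.R330.Gram4_372

/-!
# Row 330, S8-ISO (helper372): the Gram limit of two charts for a fixed profile
-/

set_option autoImplicit false
set_option linter.unusedSectionVars false

open MeasureTheory Filter Topology Crest.MathPhysics.MatrixQM
open scoped ContDiff InnerProductSpace ENNReal Real

noncomputable section

namespace Crest.Agent.R330.Gram5372

open Crest.Agent.R330.Defs478 Crest.Agent.R330.LS839 Crest.Agent.R330.Frame839
  Crest.Agent.R330.Clus839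
  Crest.Agent.R330.Bind6839 Crest.Agent.R330.SlG944 Crest.Agent.R330.SlF944
  Crest.Agent.R330.TDef414 Crest.Agent.R330.TG372 Crest.Agent.R330.TGC372
  Crest.Agent.R330.Gram4372 Crest.Agent.R330.LitA974
open Crest.Agent.R330.TCore383 (aT cfT_act PK_act PY_act PM_act act_cf contDiff_PY
  contDiffAt_pos contDiffAt_aT aT_act cfT_ball norm_le_sum nI_eq nI_pos contDiffAt_nI nrm_pos
  contDiffAt_nrm dt_pos)
open Crest.Agent.R330.SlB314 (Nor Tan br brx)
open Crest.Agent.R330.SlD314 (tube)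
open Crest.Agent.R330.SlA314 (act_inner act_norm act_add act_sub)

variable {N p : ℕ} {b : ColorBasis N} {S : Type} [Group S] [Fintype S] {C : Chn b p S}

local notation "SU" => Matrix.specialUnitaryGroup (Fin N) ℂ

variable {F : Type*} [NormedAddCommGroup F] [InnerProductSpace ℂ F] [FiniteDimensional ℂ F]
  {M : FermionRep N F} {R : GaugeAction b M} {G : GammaNine}

theorem reg0 (σ : Sl C) : C.Reg σ.X0 := σ.reg σ.X0 (by simpa using σ.pos)

/-! ## bounds -/

theorem U_norm (P : TPack C M R G) {X : Pos p} (hX : C.BReg X) {f : F} (hf : f ∈ C.Fl M G) :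
    ‖P.U X f‖ = ‖f‖ := by
  have h := P.U_inner X hX f hf f hf
  rw [inner_self_eq_norm_sq_to_K, inner_self_eq_norm_sq_to_K] at h
  have h1 : ‖P.U X f‖ ^ 2 = ‖f‖ ^ 2 := by exact_mod_cast h
  exact (sq_eq_sq₀ (norm_nonneg _) (norm_nonneg _)).1 h1

theorem exists_nrm_bound (P : TPack C M R G) (σ : Sl C) {K : Set (Pos p)} (hK : IsCompact K)
    (hKr : ∀ X ∈ K, ‖X - σ.X0‖ < σ.r) : ∃ n1 : ℝ, 0 ≤ n1 ∧ ∀ X ∈ K, |nrm P σ 1 X| ≤ n1 := by
  have hc : ContinuousOn (nrm P σ 1) K := fun X hX =>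
    (contDiffAt_nrm P σ one_pos (hKr X hX)).continuousAt.continuousWithinAt
  obtain ⟨n1, h⟩ := hK.exists_bound_of_continuousOn hc
  exact ⟨max n1 0, le_max_right _ _, fun X hX => (h X hX).trans (le_max_left _ _)⟩

theorem supp_ball {σ : Sl C} (χ : Amp M G σ) {X : Pos p} (hX : X ∈ tsupport χ.fn) :
    ‖X - σ.X0‖ < σ.r / 4 := by
  have h := χ.supp hX
  rwa [Metric.mem_ball, dist_eq_norm] at h

theorem exists_Psi_bound {P : TPack C M R G} {Φ : Cfg N → F →L[ℂ] F} {ρ : ℝ}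
    (H : IsBlk P Φ ρ) : ∃ P0 : ℝ, 0 ≤ P0 ∧ ∀ Y ∈ C.Blk, ‖Φ Y‖ ≤ P0 := by
  obtain ⟨P0, h⟩ := (isCompact_closedBall (0 : Cfg N) ρ).exists_bound_of_continuousOn
    H.smooth.continuous.continuousOn
  refine ⟨max P0 0, le_max_right _ _, fun Y hY => ?_⟩
  by_cases hn : ρ ≤ ‖Y‖
  · rw [H.supp Y hY hn, norm_zero]
    exact le_max_right _ _
  · exact (h Y (by rw [mem_closedBall_zero_iff]; linarith [not_le.1 hn])).trans (le_max_left _ _)

theorem exists_amp_bound {σ : Sl C} (χ : Amp M G σ) : ∃ c0 : ℝ, 0 ≤ c0 ∧ ∀ X, ‖χ.fn X‖ ≤ c0 := by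
  obtain ⟨c0, h⟩ := χ.compact.exists_bound_of_continuous χ.smooth.continuous
  exact ⟨max c0 0, le_max_right _ _, fun X => (h X).trans (le_max_left _ _)⟩

theorem wf_norm {P : TPack C M R G} {Φ : Cfg N → F →L[ℂ] F} {ρ P0 c0 : ℝ} (H : IsBlk P Φ ρ)
    (hP0 : 0 ≤ P0) (hP : ∀ Y ∈ C.Blk, ‖Φ Y‖ ≤ P0) {σ : Sl C} (χ : Amp M G σ)
    (hc : ∀ X, ‖χ.fn X‖ ≤ c0) (x : Cfg N) {Y : Cfg N} (hY : Y ∈ C.Blk) :
    ‖wf P Φ χ.fn x Y‖ ≤ P0 * c0 := by
  have hc0 : 0 ≤ c0 := (norm_nonneg _).trans (hc 0)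
  unfold wf
  by_cases h0 : χ.fn (C.cfT x) = 0
  · rw [h0]
    simp only [ZeroMemClass.coe_zero, map_zero, norm_zero]
    positivity
  · have hB : C.BReg (C.cfT x) := χ.off _ (subset_tsupport _ h0)
    rw [U_norm P hB (H.mem Y hY _ (χ.fn (C.cfT x)).2)]
    refine (ContinuousLinearMap.le_opNorm _ _).trans ?_
    exact mul_le_mul (hP Y hY) (hc _) (norm_nonneg _) hP0

/-! ## continuity on the slice -/

theorem continuous_tauG (P : TPack C M R G) (σ : Sl C) {g : ℝ} (hg : 0 < g)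
    {Φ : Cfg N → F →L[ℂ] F} (hΦ : ContDiff ℝ ∞ Φ) (χ : Amp M G σ) :
    Continuous (tauG P σ g Φ χ.fn) := by
  rw [continuous_iff_continuousAt]
  intro y
  by_cases h : ‖σ.X0 + C.cfT y - σ.X0‖ < σ.r
  · exact (contDiffAt_tauG P σ hg hΦ χ h).continuousAt
  · have h1 : σ.X0 + C.cfT y ∉ tsupport χ.fn := fun h2 => h (by
      have := supp_ball χ h2
      have := σ.pos
      linarith)
    have h2 := wG_eventually P σ Φ χ.fn h1
    have h3 : tauG P σ g Φ χ.fn =ᶠ[𝓝 y] fun _ => 0 := by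
      filter_upwards [h2] with u hu
      rw [tauG_eq, hu, smul_zero]
    exact continuousAt_const.congr h3.symm

/-! ## the transverse dimensions agree -/

theorem finrank_Zt {X0 X1 : Pos p} (h0 : C.Reg X0) (h1 : C.Reg X1) :
    Module.finrank ℝ (C.Zt X0) = Module.finrank ℝ (C.Zt X1) := by
  have key : ∀ X : Pos p, C.Reg X → Module.finrank ℝ (C.Zt X) + Module.finrank ℝ (Colg N) +
      Module.finrank ℝ (Tup C.kk) =
      Module.finrank ℝ (Cfg N) + Module.finrank ℝ C.kk := by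
    intro X hX
    have e1 : Module.finrank ℝ (Nor b (C.cf X)) =
        Module.finrank ℝ (Tup C.kk) + Module.finrank ℝ (C.Zt X) := by
      have hs := split_slice C hX
      have h2 : (Tup C.kk) ⊓ (C.Zt X) = ⊥ := by
        rw [eq_bot_iff]
        rintro x ⟨hx1, hx2⟩
        have := inner_Tup C hx1 hx2.1
        rw [Submodule.mem_bot]
        exact inner_self_eq_zero.1 this
      have h3 : (Tup C.kk) ⊔ (C.Zt X) = Nor b (C.cf X) := by
        apply le_antisymm
        · exact sup_le (Tup_le_Nor C hX) (fun x hx => hx.2)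
        · intro x hx
          have : x = C.PK x + C.PM x := by unfold Chn.PM; abel
          rw [this]
          exact Submodule.add_mem_sup (PK_mem C x) (PM_mem_Zt C hX hx)
      have h4 := Submodule.finrank_sup_add_finrank_inf_eq (Tup C.kk) (C.Zt X)
      rw [h2, h3, finrank_bot, add_zero] at h4
      exact h4
    have e2 : Module.finrank ℝ (Tn (actB b) (C.cf X)) + Module.finrank ℝ (Nor b (C.cf X)) =
        Module.finrank ℝ (Cfg N) := by
      rw [← Nor_eq]
      exact Submodule.finrank_add_finrank_orthogonal _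
    have e3 : Module.finrank ℝ (Tn (actB b) (C.cf X)) + Module.finrank ℝ C.kk =
        Module.finrank ℝ (Colg N) := by
      have h5 := LinearMap.finrank_range_add_finrank_ker (((actB b).flip (C.cf X)).toLinearMap)
      have h6 : LinearMap.ker ((actB b).flip (C.cf X)).toLinearMap = C.kk := hX
      rw [h6] at h5
      exact h5
    omega
  have := key X0 h0
  have := key X1 h1
  omega

/-! ## eventual smallness of the block radius -/

theorem tendsto_radius {g0 : ℝ} (h0 : 0 < g0) (ρ : ℝ) :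
    Tendsto (fun g => ρ / ((g / g0) ^ ((1 : ℝ) / 3))) atTop (𝓝 0) := by
  have h1 : Tendsto (fun g => (g / g0) ^ ((1 : ℝ) / 3)) atTop atTop :=
    (tendsto_rpow_atTop (by norm_num : (0 : ℝ) < 1 / 3)).comp (tendsto_id.atTop_div_const h0)
  exact tendsto_const_nhds.div_atTop h1

/-! ## the pairing on the slice -/

theorem pair_slice [Nontrivial F] (P : TPack C M R G) (σ : Sl C) {g ρ : ℝ} (hg : 0 < g)
    {Φ : Cfg N → F →L[ℂ] F} (H : IsBlk P Φ ρ) (hρ : ρ ≤ σ.r / 4) (χ : Amp M G σ)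
    {φ : Cfg N → F} (hφ : ∀ g x, φ (b.act g x) = R.ρ g (φ x)) (hφc : Continuous φ) :
    ∫ x, ⟪TG P σ g Φ χ.fn x, φ x⟫_ℂ =
      ∫ u : Nor b (C.cf σ.X0), ⟪tauG P σ g Φ χ.fn u, φ (C.cf σ.X0 + u)⟫_ℂ := by
  have ht : IsSliceFun R (C.cf σ.X0) σ.r (tauG P σ g Φ χ.fn) := fun k y hk hy hr =>
    tauG_act P σ g H χ hk (cfT_ball σ hr)
  have h1 := SlInt658.integral_pair σ R hφ hφc.stronglyMeasurable ht
    (coreG P σ hg H hρ χ).1.continuous.stronglyMeasurable
  have h2 : ∫ x, ⟪TG P σ g Φ χ.fn x, φ x⟫_ℂ =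
      (starRingEnd ℂ) (∫ x, ⟪φ x, TG P σ g Φ χ.fn x⟫_ℂ) := by
    rw [← integral_conj]
    exact integral_congr_ae (Eventually.of_forall fun x => (inner_conj_symm _ _).symm)
  have h3 : ∫ x, ⟪φ x, TG P σ g Φ χ.fn x⟫_ℂ = ∫ y in Metric.ball (0 : Nor b (C.cf σ.X0)) σ.r,
      ⟪φ (C.cf σ.X0 + y), tauG P σ g Φ χ.fn y⟫_ℂ := h1
  rw [h2, h3, ← integral_conj]
  have h4 : ∫ y in Metric.ball (0 : Nor b (C.cf σ.X0)) σ.r,
      (starRingEnd ℂ) ⟪φ (C.cf σ.X0 + y), tauG P σ g Φ χ.fn y⟫_ℂ =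
      ∫ y in Metric.ball (0 : Nor b (C.cf σ.X0)) σ.r,
      ⟪tauG P σ g Φ χ.fn y, φ (C.cf σ.X0 + y)⟫_ℂ := by
    refine integral_congr_ae (Eventually.of_forall fun x => inner_conj_symm _ _)
  rw [h4]
  refine setIntegral_eq_integral_of_forall_compl_eq_zero fun y hy => ?_
  have hn : σ.r ≤ ‖(y : Cfg N)‖ := by simpa using hy
  have h5 : tauG P σ g Φ χ.fn y = 0 := by
    by_contra h6
    obtain ⟨-, h7, h8, h9⟩ := tauG_ne P σ g H χ h6
    have h10 := norm_le_sum (C := C) (y : Cfg N)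
    have := σ.pos
    linarith
  rw [h5, inner_zero_left]

/-! ## the Gram limit -/

/-- the limit integrand -/
def Lim (P : TPack C M R G) (σ σ' : Sl C) (Ψ : Cfg N → F →L[ℂ] F) (χ χ' : Pos p → C.Fx M G)
    (v : Cfg N) : ℂ :=
  ((nrm P σ 1 (σ.X0 + C.cfT v) * ((σ'.j (C.cf (σ.X0 + C.cfT v - σ'.X0)))⁻¹ *
    nrm P σ' 1 (σ.X0 + C.cfT v)) *
    Real.exp (-⟪P.A (σ.X0 + C.cfT v) (C.PM v), C.PM v⟫_ℝ) : ℝ) : ℂ) *
    ⟪Ψ (C.PY v) (χ (σ.X0 + C.cfT v) : F), Ψ (C.PY v) (χ' (σ.X0 + C.cfT v) : F)⟫_ℂ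

theorem hcc (X : Pos p) : (splitC C).PX (C.cf X) = C.cf X := by
  rw [splitC_PX, C.cfT_cf]

theorem PM_cf (X : Pos p) : C.PM (C.cf X) = 0 := by
  unfold Chn.PM
  rw [PK_of_mem C (cf_mem_Tup C X), sub_self]

theorem A0_cf (P : TPack C M R G) (σ : Sl C) (X : Pos p) :
    A0 P σ (C.cf X) = nrm P σ 1 (σ.X0 + X) := by
  unfold A0
  rw [C.cfT_cf, PM_cf, norm_zero, kap_one σ.pos (by rw [zero_pow two_ne_zero]; positivity), mul_one]

theorem PY_fix {Y : Cfg N} (h : (splitC C).PY Y = Y) : Y ∈ C.Blk := by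
  rw [← h]
  exact LitA974.PY_mem C Y

theorem gram_TG [Nontrivial F] (P : TPack C M R G) (σ σ' : Sl C) (χ : Amp M G σ)
    (χ' : Amp M G σ') (hs : ∀ X ∈ tsupport χ.fn, ‖X - σ'.X0‖ ≤ σ'.r / 4) {g0 ρ : ℝ} (h0 : 0 < g0)
    (H : IsBlk P (P.Psi g0) ρ)
    (hdet : ∀ s t : ℝ, 0 < s → 0 < t → |LinearMap.det ((splitC C).dilN (hcc σ.X0) s t)| =
      s ^ Module.finrank ℝ C.Blk * t ^ Module.finrank ℝ (C.Zt σ.X0)) :
    Tendsto (fun g => ∫ x, ⟪TG P σ g (Psc P g0 g) χ.fn x, TG P σ' g (Psc P g0 g) χ'.fn x⟫_ℂ)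
      atTop (𝓝 (∫ v : Nor b (C.cf σ.X0), Lim P σ σ' (P.Psi g0) χ.fn χ'.fn v)) := by
  obtain ⟨κ, hκ, hlow⟩ := ALow302.a_low_chart P σ (r' := σ.r / 4) (by have := σ.pos; linarith)
  obtain ⟨n1, hn1, hnb⟩ := exists_nrm_bound P σ χ.compact (fun X hX => by
    have := supp_ball χ hX; have := σ.pos; linarith)
  obtain ⟨n2, hn2, hnb'⟩ := exists_nrm_bound P σ' χ'.compact (fun X hX => by
    have := supp_ball χ' hX; have := σ'.pos; linarith)
  obtain ⟨P0, hP0, hPb⟩ := exists_Psi_bound H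
  obtain ⟨c0, hc0, hcb⟩ := exists_amp_bound χ
  obtain ⟨c1, hc1, hcb'⟩ := exists_amp_bound χ'
  obtain ⟨j0, hj0, hjb⟩ := Rad969.exists_jlow σ'
  have hdZ : Module.finrank ℝ (C.Zt σ'.X0) = Module.finrank ℝ (C.Zt σ.X0) :=
    finrank_Zt (reg0 σ') (reg0 σ)
  set dY := Module.finrank ℝ C.Blk with hdY
  set dZ := Module.finrank ℝ (C.Zt σ.X0) with hdZ'
  have hrad := tendsto_radius h0 ρ
  have hr1 : ∀ᶠ g in atTop, ρ / ((g / g0) ^ ((1 : ℝ) / 3)) ≤ σ.r / 4 :=
    (hrad.eventually_lt_const (by have := σ.pos; linarith)).mono fun g h => h.le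
  have hr2 : ∀ᶠ g in atTop, ρ / ((g / g0) ^ ((1 : ℝ) / 3)) ≤ σ'.r / 4 :=
    (hrad.eventually_lt_const (by have := σ'.pos; linarith)).mono fun g h => h.le
  have hmain := Gram2372.gram_two (F := F) (b := b) R (l := (atTop : Filter ℝ)) (splitC C)
    (hcc σ.X0) (hcc σ'.X0) (δ := σ.r) (δ' := σ'.r) (ρ := σ.r / 4) (ρ' := σ'.r / 4) (κ := κ)
    (W := P0 * c0) (B' := j0⁻¹ * n2 * (P0 * c1)) (C := n1) (r := ρ) σ'.grad
    (by have := σ.pos; linarith) (by have := σ'.pos; linarith) hκ hn1 (by positivity)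
    (by positivity)
    (U := {x | ∃ X, x = C.cf X ∧ C.BReg X ∧ ‖X - σ.X0‖ ≤ σ.r / 4 ∧ ‖X - σ'.X0‖ ≤ σ'.r / 4})
    (s := ss g0) (t := tt) (a := aa dY dZ g0) (ss_pos h0) tt_pos (tendsto_ss h0) tendsto_tt
    (tendsto_ratio h0) (aa_pos dY dZ h0)
    (fun g => by rw [hdet _ _ (ss_pos h0 g) (tt_pos g)]; exact aa_sq dY dZ h0 g)
    (A := A0 P σ) (A' := A1 P σ') (Q := Qf P) (w := wf P (P.Psi g0) χ.fn)
    (w' := wf P (P.Psi g0) χ'.fn)
    ?hQ ?hQ1 ?hQ2 ?hw' ?hws ?hwb ?hA ?hAb ?hA'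
    (τ := fun g => tauG P σ g (Psc P g0 g) χ.fn) (φ' := fun g => TG P σ' g (Psc P g0 g) χ'.fn)
    ?hτ ?hτ0 ?hτm ?hφ ?hφe ?hφm ?hφb
  case hQ =>
    rintro _ ⟨X, rfl, hB, h1, h2⟩ - z
    unfold Qf
    have hA : ContinuousAt (fun q : Cfg N × Cfg N => P.A (C.cfT q.1)) (C.cf X, z) := by
      have h3 : ContinuousAt P.A (C.cfT (C.cf X, z).1) := by
        simp only [C.cfT_cf]
        exact (P.A_smooth X hB.reg).continuousAt
      exact ContinuousAt.comp (f := fun q : Cfg N × Cfg N => C.cfT q.1) h3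
        (C.cfT.continuous.comp continuous_fst).continuousAt
    exact (hA.clm_apply continuousAt_snd).inner continuousAt_snd
  case hQ1 =>
    rintro _ ⟨X, rfl, hB, h1, h2⟩ - z hz hzM
    unfold Qf
    rw [C.cfT_cf]
    refine hlow X h1 z ?_
    have : C.PM z = z := hzM
    rw [← this]
    exact PM_mem_Zt C (reg0 σ) hz
  case hQ2 =>
    rintro _ ⟨X, rfl, hB, h1, h2⟩ - z om hz
    unfold Qf
    have h3 : P.A X (brx b om (C.cf X)) = 0 := P.A_gauge X hB.reg (WithLp.toLp 2 om)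
    rw [C.cfT_cf, map_add, h3, add_zero, inner_add_right]
    have h4 : ⟪P.A X z, brx b om (C.cf X)⟫_ℝ = 0 := by
      rw [P.A_symm, h3, inner_zero_right]
    rw [h4, add_zero]
  case hw' =>
    rintro _ ⟨X, rfl, hB, h1, h2⟩ - Y
    unfold wf
    have hU : ContinuousAt (fun q : Cfg N × Cfg N => P.U (C.cfT q.1)) (C.cf X, Y) := by
      have h3 : ContinuousAt P.U (C.cfT (C.cf X, Y).1) := by
        simp only [C.cfT_cf]
        exact (P.U_smooth X hB).continuousAt
      exact ContinuousAt.comp (f := fun q : Cfg N × Cfg N => C.cfT q.1) h3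
        (C.cfT.continuous.comp continuous_fst).continuousAt
    have hΨ : ContinuousAt (fun q : Cfg N × Cfg N => P.Psi g0 q.2) (C.cf X, Y) :=
      (H.smooth.continuous.comp continuous_snd).continuousAt
    have hχ : ContinuousAt (fun q : Cfg N × Cfg N => ((χ'.fn (C.cfT q.1) : C.Fx M G) : F))
        (C.cf X, Y) :=
      (continuous_subtype_val.comp (χ'.smooth.continuous.comp
        (C.cfT.continuous.comp continuous_fst))).continuousAt
    exact hU.clm_apply (hΨ.clm_apply hχ)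
  case hws =>
    intro x Y hx hY hw
    have hxX : x = C.cf (C.cfT x) := hx.symm
    have h1 : χ.fn (C.cfT x) ≠ 0 := by
      intro h2
      apply hw
      unfold wf
      rw [h2]
      simp
    have h2 := subset_tsupport _ h1
    refine ⟨⟨C.cfT x, hxX, χ.off _ h2, (supp_ball χ h2).le, hs _ h2⟩, ?_, ?_, ?_⟩
    · rw [hxX, ← map_sub, C.cf.norm_map]
      exact (supp_ball χ h2).le
    · rw [hxX, ← map_sub, C.cf.norm_map]
      exact hs _ h2
    · by_contra h3
      apply hw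
      unfold wf
      rw [H.supp Y (PY_fix hY) (not_le.1 h3).le]
      simp
  case hwb =>
    intro x Y hx hY
    exact wf_norm H hP0 hPb χ hcb x (PY_fix hY)
  case hA =>
    intro u hu _ _ hr
    have h1 : ContinuousAt (A0 P σ) u := by
      unfold A0
      refine ContinuousAt.mul ?_ ?_
      · exact ContinuousAt.comp (f := fun u : Cfg N => σ.X0 + C.cfT u)
          (contDiffAt_nrm P σ one_pos (cfT_ball σ hr)).continuousAt
          (continuous_const.add C.cfT.continuous).continuousAt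
      · exact ((contDiff_kap σ.r).continuous.comp
          ((continuous_PM C).norm.pow 2)).continuousAt
    exact h1.continuousWithinAt
  case hAb =>
    rintro u hu hr ⟨Y, hY, hw⟩
    have h1 : χ.fn (σ.X0 + C.cfT u) ≠ 0 := by
      intro h2
      apply hw
      unfold wf
      rw [splitC_PX, map_add, C.cfT_cf, C.cfT_cf, h2]
      simp
    have h2 := hnb _ (subset_tsupport _ h1)
    unfold A0
    rw [abs_mul, abs_of_nonneg (kap_nonneg _ _)]
    calc |nrm P σ 1 (σ.X0 + C.cfT u)| * kap σ.r (‖C.PM u‖ ^ 2) ≤ n1 * 1 :=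
          mul_le_mul h2 (kap_le_one _ _) (kap_nonneg _ _) hn1
      _ = n1 := mul_one _
  case hA' =>
    intro u hu _ _ hr
    have h1 : ContinuousAt (A1 P σ') u := by
      unfold A1 A0
      refine ContinuousAt.mul ?_ (ContinuousAt.mul ?_ ?_)
      · exact (σ'.smooth u hu hr).continuousAt.inv₀ (σ'.jpos u hu hr).ne'
      · exact ContinuousAt.comp (f := fun u : Cfg N => σ'.X0 + C.cfT u)
          (contDiffAt_nrm P σ' one_pos (cfT_ball σ' hr)).continuousAt
          (continuous_const.add C.cfT.continuous).continuousAt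
      · exact ((contDiff_kap σ'.r).continuous.comp
          ((continuous_PM C).norm.pow 2)).continuousAt
    exact h1.continuousWithinAt
  case hτ =>
    filter_upwards [eventually_ge_atTop 1] with g hg u hu hr
    exact tauG_bare P σ h0 hg χ.fn hr
  case hτ0 =>
    filter_upwards [eventually_ge_atTop 1, hr1] with g hg hρ u hu hr
    by_contra h6
    obtain ⟨-, h7, h8, h9⟩ := tauG_ne P σ g (isBlk_Psc h0 (by linarith) H) χ h6
    have h10 := norm_le_sum (C := C) (u : Cfg N)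
    have := σ.pos
    linarith
  case hτm =>
    filter_upwards [eventually_ge_atTop 1] with g hg
    exact (continuous_tauG P σ (by linarith) (isBlk_Psc h0 (by linarith) H).smooth χ).comp
      continuous_subtype_val
  case hφ =>
    filter_upwards [eventually_ge_atTop 1] with g hg u hu hr
    rw [TG_bare P σ' h0 hg H χ' hu hr, hdZ]
  case hφe =>
    filter_upwards [eventually_ge_atTop 1] with g hg h x
    exact TG_act P σ' g (isBlk_Psc h0 (by linarith) H) χ' h x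
  case hφm =>
    filter_upwards [eventually_ge_atTop 1, hr2] with g hg hρ
    exact (coreG P σ' (by linarith) (isBlk_Psc h0 (by linarith) H) hρ χ').1.continuous
  case hφb =>
    filter_upwards [eventually_ge_atTop 1, hr2] with g hg hρ x
    have hI := isBlk_Psc h0 (show 0 < g by linarith) H
    have hpos : 0 ≤ aa dY dZ g0 g * (j0⁻¹ * n2 * (P0 * c1)) := by
      have := aa_pos dY dZ h0 g
      positivity
    by_cases hx : x ∈ tube b (C.cf σ'.X0) σ'.r
    · obtain ⟨h, y, hy, hr, rfl⟩ := (SlD314.mem_tube_iff b _ _ x).1 hx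
      rw [TG_act P σ' g hI χ' h, Cov837.norm_rho, TG_slice P σ' g hI χ' hy hr]
      by_cases ht : tauG P σ' g (Psc P g0 g) χ'.fn y = 0
      · rw [ht, smul_zero, norm_zero]
        exact hpos
      · obtain ⟨h6, h7, h8, h9⟩ := tauG_ne P σ' g hI χ' ht
        have hy2 : ‖y‖ ≤ σ'.r / 2 := norm_nor_lt C ⟨y, hy⟩ σ'.r h7.le (h8.le.trans hρ) h9.le
        have hj := hjb y hy hy2
        have hjp : 0 < σ'.j y := lt_of_lt_of_le hj0 hj
        rw [norm_smul, Complex.norm_real, Real.norm_eq_abs, abs_of_pos (inv_pos.2 hjp),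
          tauG_bare P σ' h0 hg χ'.fn hr, Gram372.bare, norm_smul, Complex.norm_real,
          Real.norm_eq_abs, abs_mul, abs_mul, Real.abs_exp, hdZ, abs_of_pos (aa_pos dY dZ h0 g)]
        have hA0 : |A0 P σ' y| ≤ n2 := by
          unfold A0
          rw [abs_mul, abs_of_nonneg (kap_nonneg _ _)]
          calc |nrm P σ' 1 (σ'.X0 + C.cfT y)| * kap σ'.r (‖C.PM y‖ ^ 2) ≤ n2 * 1 :=
                mul_le_mul (hnb' _ h6) (kap_le_one _ _) (kap_nonneg _ _) hn2
            _ = n2 := mul_one _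
        have hE : Real.exp (-(Qf P (C.cf σ'.X0 + (splitC C).PX y)
            ((tt g)⁻¹ • (splitC C).PM y)) / 2) ≤ 1 := by
          rw [Real.exp_le_one_iff]
          have := P.A_nonneg (C.cfT (C.cf σ'.X0 + (splitC C).PX y)) ((tt g)⁻¹ • (splitC C).PM y)
          unfold Qf
          linarith
        have hW := wf_norm H hP0 hPb χ' hcb' (C.cf σ'.X0 + (splitC C).PX y)
          (Y := (ss g0 g)⁻¹ • (splitC C).PY y)
          (Submodule.smul_mem _ _ (by rw [splitC_PY]; exact LitA974.PY_mem C y))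
        have ha := aa_pos dY dZ h0 g
        calc (σ'.j y)⁻¹ * (aa dY dZ g0 g * |A0 P σ' y| *
              Real.exp (-(Qf P (C.cf σ'.X0 + (splitC C).PX y)
                ((tt g)⁻¹ • (splitC C).PM y)) / 2) *
              ‖wf P (P.Psi g0) χ'.fn (C.cf σ'.X0 + (splitC C).PX y)
                ((ss g0 g)⁻¹ • (splitC C).PY y)‖)
            ≤ j0⁻¹ * (aa dY dZ g0 g * n2 * 1 * (P0 * c1)) := by
              gcongr
          _ = aa dY dZ g0 g * (j0⁻¹ * n2 * (P0 * c1)) := by ring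
    · rw [TG_off P σ' g _ _ hx, norm_zero]
      exact hpos
  -- conclusion
  have hlim : (∫ v : Nor b (C.cf σ.X0), ((A0 P σ ((splitC C).PX (v : Cfg N)) *
        A1 P σ' (C.cf σ.X0 + (splitC C).PX (v : Cfg N) - C.cf σ'.X0) *
        Real.exp (-(Qf P (C.cf σ.X0 + (splitC C).PX (v : Cfg N))
          ((splitC C).PM (v : Cfg N)))) : ℝ) : ℂ) *
        ⟪wf P (P.Psi g0) χ.fn (C.cf σ.X0 + (splitC C).PX (v : Cfg N))
          ((splitC C).PY (v : Cfg N)),
          wf P (P.Psi g0) χ'.fn (C.cf σ.X0 + (splitC C).PX (v : Cfg N))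
            ((splitC C).PY (v : Cfg N))⟫_ℂ) =
      ∫ v : Nor b (C.cf σ.X0), Lim P σ σ' (P.Psi g0) χ.fn χ'.fn v := by
    refine integral_congr_ae (Eventually.of_forall fun v => ?_)
    simp only
    have e1 : C.cf σ.X0 + (splitC C).PX (v : Cfg N) = C.cf (σ.X0 + C.cfT (v : Cfg N)) := by
      rw [splitC_PX, map_add]
    have e2 : C.cf σ.X0 + (splitC C).PX (v : Cfg N) - C.cf σ'.X0 =
        C.cf (σ.X0 + C.cfT (v : Cfg N) - σ'.X0) := by
      rw [e1, ← map_sub]
    rw [e2, e1, splitC_PX, A0_cf, splitC_PM, splitC_PY]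
    unfold Lim A1 Qf wf
    rw [A0_cf, C.cfT_cf, add_sub_cancel]
    congr 1
    by_cases h1 : χ.fn (σ.X0 + C.cfT (v : Cfg N)) = 0
    · rw [h1]
      simp
    · have hB := χ.off _ (subset_tsupport _ h1)
      exact P.U_inner _ hB _ (H.mem _ (LitA974.PY_mem C _) _ (χ.fn _).2) _
        (H.mem _ (LitA974.PY_mem C _) _ (χ'.fn _).2)
  rw [hlim] at hmain
  refine hmain.congr' ?_
  filter_upwards [eventually_ge_atTop 1, hr1, hr2] with g hg hρ1 hρ2
  have hI := isBlk_Psc h0 (show 0 < g by linarith) H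
  exact (pair_slice P σ (by linarith) hI hρ1 χ (fun h x => TG_act P σ' g hI χ' h x)
    (coreG P σ' (by linarith) hI hρ2 χ').1.continuous).symm

end Crest.Agent.R330.Gram5372
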