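import Crest.Agent.R330.Gram6_372
import Crest.Agent.R330.GramX_167

/-!
# Row 330, S8-ISO (helper372): (T3) and (T4) without hypotheses

`hIso`, `hChart`, `gramT`.
-/

set_option autoImplicit false

open MeasureTheory Filter Topology Crest.MathPhysics.MatrixQM
open scoped ContDiff InnerProductSpace ENNReal

noncomputable section

namespace Crest.Agent.R330.Gram7372

open Crest.Agent.R330.TDef414 Crest.Agent.R330.Gram167

variable {N p : ℕ} {b : ColorBasis N} {S : Type} [Group S] [Fintype S] {C : Chn b p S}
variable {F : Type} [NormedAddCommGroup F] [InnerProductSpace ℂ F] [FiniteDimensional ℂ F]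
  [Nontrivial F]
variable {M : FermionRep N F} {R : GaugeAction b M} {G : GammaNine}

/-- (G1) local isometry -/
theorem hIso (P : TPack C M R G) : HIso P := GramX167.hiso P (Gram6372.cross P)

/-- (G3) change of charts -/
theorem hChart (P : TPack C M R G) : HChart P := GramX167.hchart P (Gram6372.cross P)

/-- **(T3) + (T4)** -/
theorem gramT (P : TPack C M R G) : ChSys399.GramT P :=
  GramX167.gramT_of_cross P (Gram6372.cross P)

end Crest.Agent.R330.Gram7372

end
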