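import Crest.Agent.R330.TDef_414
import Crest.Agent.R330.Conc_815

/-!
# Row 330, T4 (helper815): the Gram limit for amplitudes with disjoint orbits

* `orbC C K` : the orbits of the positions in `K`; compact, disjoint for positions which are not
  related by a permutation.
* `inner_disj` : `∫ ⟪Tgen σ χ, Tgen σ' χ'⟫ → 0` for amplitudes with unrelated supports.
* `rhs_zero`, `rhs_single` : the limit side `Σ_s ∫ ⟪ρ(w_s) χ, χ' ∘ O_s⟫` for unrelated supports and
  for supports related by one permutation only.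
* `exists_nhds_disj`, `exists_nhds_single` : the neighbourhoods.
-/

set_option autoImplicit false
set_option linter.unusedSectionVars false

open MeasureTheory Filter Topology Crest.MathPhysics.MatrixQM
open scoped ContDiff InnerProductSpace ENNReal

noncomputable section

namespace Crest.Agent.R330.GramD815

open Crest.Agent.R330.TDef414 Crest.Agent.R330.Conc815

variable {N p : ℕ} {b : ColorBasis N} {S : Type} [Group S] [Fintype S] (C : Chn b p S)

/-- The orbits of the positions in `K`. -/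
def orbC (K : Set (Pos p)) : Set (Cfg N) :=
  {x | ∃ (h : Matrix.specialUnitaryGroup (Fin N) ℂ), ∃ X ∈ K, b.act h (C.cf X) = x}

theorem isCompact_orbC {K : Set (Pos p)} (hK : IsCompact K) : IsCompact (orbC C K) := by
  have h1 : orbC C K = (fun q : Matrix.specialUnitaryGroup (Fin N) ℂ × Cfg N =>
      b.act q.1 q.2) '' (Set.univ ×ˢ (C.cf '' K)) := by
    ext x
    constructor
    · rintro ⟨g, X, hX, rfl⟩
      exact ⟨(g, C.cf X), ⟨trivial, X, hX, rfl⟩, rfl⟩
    · rintro ⟨⟨g, y⟩, ⟨-, X, hX, rfl⟩, rfl⟩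
      exact ⟨g, X, hX, rfl⟩
  rw [h1]
  exact (isCompact_univ.prod (hK.image C.cf.continuous)).image (SlD314.continuous_act b)

theorem disjoint_orbC {K K' : Set (Pos p)} (hK : ∀ X ∈ K, C.Reg X) (hK' : ∀ X ∈ K', C.Reg X)
    (hs : ∀ s : S, ∀ X ∈ K, C.O s X ∉ K') : Disjoint (orbC C K) (orbC C K') := by
  rw [Set.disjoint_left]
  rintro x ⟨g, X, hX, rfl⟩ ⟨h, Y, hY, he⟩
  have h1 : b.act (h⁻¹ * g) (C.cf X) = C.cf Y := by
    rw [SlA314.act_mul, ← he, SlA314.act_inv_act]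
  obtain ⟨s, hs1⟩ := C.orbit X Y _ (hK X hX) (hK' Y hY) h1
  refine hs s X hX ?_
  have h2 : C.O s X = Y := hs1.symm
  rw [h2]
  exact hY

variable {C} {F : Type*} [NormedAddCommGroup F] [InnerProductSpace ℂ F] [FiniteDimensional ℂ F]
  {M : FermionRep N F} {R : GaugeAction b M} {G : GammaNine}

/-- **Unrelated supports: the pairing tends to zero.** -/
theorem inner_disj (P : TPack C M R G) {σ σ' : Sl C} {χ : Amp M G σ} {χ' : Amp M G σ'}
    (hb : Bdd atTop (fun g => Tgen P σ g χ.fn)) (hb' : Bdd atTop (fun g => Tgen P σ' g χ'.fn))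
    (hc : Conc atTop (fun g => Tgen P σ g χ.fn)
      {x | ∃ h, ∃ X ∈ tsupport χ.fn, b.act h (C.cf X) = x})
    (hc' : Conc atTop (fun g => Tgen P σ' g χ'.fn)
      {x | ∃ h, ∃ X ∈ tsupport χ'.fn, b.act h (C.cf X) = x})
    (hs : ∀ s : S, ∀ X ∈ tsupport χ.fn, C.O s X ∉ tsupport χ'.fn) :
    Tendsto (fun g => ∫ x, ⟪Tgen P σ g χ.fn x, Tgen P σ' g χ'.fn x⟫_ℂ) atTop (𝓝 0) := by
  have h1 : ∀ X ∈ tsupport χ.fn, C.Reg X := fun X hX => (χ.off X hX).reg
  have h2 : ∀ X ∈ tsupport χ'.fn, C.Reg X := fun X hX => (χ'.off X hX).reg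
  exact inner_tendsto_zero (isCompact_orbC C χ.compact) (isCompact_orbC C χ'.compact).isClosed
    (disjoint_orbC C h1 h2 hs) hc hc' hb hb'

/-- Unrelated supports: the term of one permutation vanishes. -/
theorem term_zero {σ σ' : Sl C} {χ : Amp M G σ} {χ' : Amp M G σ'} {s : S}
    (hs : ∀ X ∈ tsupport χ.fn, C.O s X ∉ tsupport χ'.fn) (X : Pos p) :
    ⟪R.ρ (C.w s) (χ.fn X : F), (χ'.fn (C.O s X) : F)⟫_ℂ = 0 := by
  by_cases hX : X ∈ tsupport χ.fn
  · rw [image_eq_zero_of_notMem_tsupport (hs X hX), Submodule.coe_zero, inner_zero_right]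
  · rw [image_eq_zero_of_notMem_tsupport hX, Submodule.coe_zero, map_zero, inner_zero_left]

theorem rhs_zero {σ σ' : Sl C} {χ : Amp M G σ} {χ' : Amp M G σ'}
    (hs : ∀ s : S, ∀ X ∈ tsupport χ.fn, C.O s X ∉ tsupport χ'.fn) :
    ∑ s : S, ∫ X, ⟪R.ρ (C.w s) (χ.fn X : F), (χ'.fn (C.O s X) : F)⟫_ℂ = 0 := by
  refine Finset.sum_eq_zero fun s _ => ?_
  simp only [term_zero (R := R) (hs s), integral_zero]

theorem rhs_single {σ σ' : Sl C} {χ : Amp M G σ} {χ' : Amp M G σ'} (s0 : S)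
    (hs : ∀ s : S, s ≠ s0 → ∀ X ∈ tsupport χ.fn, C.O s X ∉ tsupport χ'.fn) :
    ∑ s : S, ∫ X, ⟪R.ρ (C.w s) (χ.fn X : F), (χ'.fn (C.O s X) : F)⟫_ℂ =
      ∫ X, ⟪R.ρ (C.w s0) (χ.fn X : F), (χ'.fn (C.O s0 X) : F)⟫_ℂ := by
  refine Finset.sum_eq_single s0 (fun s _ h => ?_) (fun h => absurd (Finset.mem_univ s0) h)
  simp only [term_zero (R := R) (hs s h), integral_zero]

/-- Neighbourhoods of unrelated positions. -/
theorem exists_nhds_disj (T : Set S) (X X' : Pos p) (h : ∀ s ∈ T, C.O s X ≠ X') :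
    ∃ ε : ℝ, 0 < ε ∧ ∀ s ∈ T, ∀ Y ∈ Metric.ball X ε, C.O s Y ∉ Metric.ball X' ε := by
  classical
  have h2 : ∃ d : ℝ, 0 < d ∧ ∀ s ∈ T, d ≤ ‖C.O s X - X'‖ := by
    rcases (Finset.univ.filter fun s : S => s ∈ T).eq_empty_or_nonempty with he | hne
    · refine ⟨1, one_pos, fun s hs => ?_⟩
      have : s ∈ Finset.univ.filter fun s : S => s ∈ T := by simp [hs]
      rw [he] at this
      simp at this
    · obtain ⟨s0, hs0, hmin⟩ := Finset.exists_min_image _ (fun s : S => ‖C.O s X - X'‖) hne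
      refine ⟨‖C.O s0 X - X'‖, norm_pos_iff.2 (sub_ne_zero.2 (h s0 (by simpa using hs0))),
        fun s hs => hmin s (by simpa using hs)⟩
  obtain ⟨d, hd, h3⟩ := h2
  refine ⟨d / 2, by positivity, fun s hs Y hY hY' => ?_⟩
  rw [Metric.mem_ball, dist_eq_norm] at hY hY'
  have h4 : ‖C.O s Y - C.O s X‖ = ‖Y - X‖ := by
    rw [← map_sub, LinearIsometryEquiv.norm_map]
  have h5 : ‖C.O s X - X'‖ ≤ ‖C.O s Y - C.O s X‖ + ‖C.O s Y - X'‖ := by
    have : C.O s X - X' = -(C.O s Y - C.O s X) + (C.O s Y - X') := by abel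
    rw [this]
    refine (norm_add_le _ _).trans ?_
    rw [norm_neg]
  have h6 := h3 s hs
  linarith

/-- Neighbourhoods of positions related by one permutation: no other permutation relates them. -/
theorem exists_nhds_single (s0 : S) {X : Pos p} (hX : C.Reg X) :
    ∃ ε : ℝ, 0 < ε ∧ ∀ s : S, s ≠ s0 → ∀ Y ∈ Metric.ball X ε,
      C.O s Y ∉ Metric.ball (C.O s0 X) ε := by
  obtain ⟨ε, hε, h⟩ := exists_nhds_disj (C := C) {s | s ≠ s0} X (C.O s0 X) (fun s hs h1 => by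
    refine hs ?_
    have h2 : C.O (s0⁻¹ * s) X = X := by
      unfold Chn.O at h1 ⊢
      have h3 : lift9 (C.o s0⁻¹) (lift9 (C.o s) X) = lift9 (C.o s0⁻¹) (lift9 (C.o s0) X) := by
        rw [h1]
      have h4 : ∀ (t t' : S) (Y : Pos p), lift9 (C.o t) (lift9 (C.o t') Y) =
          lift9 (C.o (t * t')) Y := by
        intro t t' Y
        rw [map_mul]
        rfl
      rw [h4, h4, inv_mul_cancel, map_one] at h3
      exact h3
    have h3 := C.free _ X hX h2
    exact (inv_mul_eq_one.1 h3).symm)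
  exact ⟨ε, hε, fun s hs => h s hs⟩

end Crest.Agent.R330.GramD815

end
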