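import Crest.Agent.R330.Ovl_372
import Crest.Agent.R330.SlE_944

/-!
Row 330, S8-ISO (helper372): **the limit of the overlap integral** of two equivariant functions
given on two fixed slices `c + Nor c`, `c' + Nor c'` by the bare formula
`φ_i (c+u) = a_i A(u) exp(-Q(X, z/t_i)/2) w(X, Y/s_i)`, `u = (X - c) + Y + z`, with the same
quadratic form `Q`, `s_i, t_i → 0`, `t_i / s_i → 0`, `a_i^2 |det dilation| = 1`.
-/

set_option autoImplicit false
set_option linter.unusedSectionVars false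
noncomputable section

open Matrix MeasureTheory Filter
open Crest.MathPhysics.MatrixQM
open Crest.Agent.R330.SlA314 Crest.Agent.R330.SlB314 Crest.Agent.R330.SlC314
open Crest.Agent.R330.SlD314 Crest.Agent.R330.SlP314 Crest.Agent.R330.Trans372
open Crest.Agent.R330.Ovl372
open scoped ContDiff Topology InnerProductSpace

namespace Crest.Agent.R330.Gram372

variable {N : ℕ} {F : Type*} [NormedAddCommGroup F] [InnerProductSpace ℂ F]
  [FiniteDimensional ℂ F] {M : FermionRep N F} {b : ColorBasis N}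

/-- the bare trial function on the slice at `c` -/
def bare (S : Split b) (c : Cfg N) (a s t : ℝ) (A : Cfg N → ℝ) (Q : Cfg N → Cfg N → ℝ)
    (w : Cfg N → Cfg N → F) (u : Cfg N) : F :=
  ((a * A u * Real.exp (-(Q (c + S.PX u) (t⁻¹ • S.PM u)) / 2) : ℝ) : ℂ) •
    w (c + S.PX u) (s⁻¹ • S.PY u)

theorem bare_dil (S : Split b) (c : Cfg N) (a : ℝ) {s t : ℝ} (hs : s ≠ 0) (ht : t ≠ 0)
    (A : Cfg N → ℝ) (Q : Cfg N → Cfg N → ℝ) (w : Cfg N → Cfg N → F) (v : Cfg N) :
    bare S c a s t A Q w (S.dil s t v) =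
      ((a * A (S.dil s t v) * Real.exp (-(Q (c + S.PX v) (S.PM v)) / 2) : ℝ) : ℂ) •
        w (c + S.PX v) (S.PY v) := by
  unfold bare
  rw [S.X_dil, S.Y_dil, S.M_dil, smul_smul, smul_smul, inv_mul_cancel₀ hs, inv_mul_cancel₀ ht,
    one_smul, one_smul]

/-- the equivariant function of the second chart along the rescaled points of the first chart -/
theorem tendsto_second [Nontrivial F] (R : GaugeAction b M) {ι : Type*} {l : Filter ι}
    (S : Split b) {c' : Cfg N} (hc' : S.PX c' = c') {δ' : ℝ} (hδ' : GoodRad b c' δ')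
    {s t a : ι → ℝ} (hs0 : ∀ i, 0 < s i) (ht0 : ∀ i, 0 < t i) (hs : Tendsto s l (𝓝 0))
    (ht : Tendsto t l (𝓝 0)) (hts : Tendsto (fun i => (s i)⁻¹ * t i) l (𝓝 0))
    (ha0 : ∀ i, 0 < a i) {A' : Cfg N → ℝ} {Q : Cfg N → Cfg N → ℝ} {w' : Cfg N → Cfg N → F}
    {φ' : ι → Cfg N → F}
    (hφ : ∀ᶠ i in l, ∀ u ∈ Nor b c', ‖u‖ < δ' →
      φ' i (c' + u) = bare S c' (a i) (s i) (t i) A' Q w' u)
    (hφe : ∀ᶠ i in l, ∀ g x, φ' i (b.act g x) = R.ρ g (φ' i x))
    {X Y z : Cfg N} (hX : S.PX X = X) (hY : S.PY Y = Y) (hz : S.PM z = z)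
    (hXc : ‖X - c'‖ < δ')
    (hQ : ∀ z, ContinuousAt (fun p : Cfg N × Cfg N => Q p.1 p.2) (X, z))
    (hQ2 : ∀ z om, S.PM z = z → Q X (z + brx b om X) = Q X z)
    (hw' : ContinuousAt (fun p : Cfg N × Cfg N => w' p.1 p.2) (X, Y))
    (hA' : ContinuousWithinAt A' (Nor b c') (X - c')) :
    Tendsto (fun i => (((a i)⁻¹ : ℝ) : ℂ) • φ' i (X + s i • Y + t i • z)) l
      (𝓝 (((A' (X - c') * Real.exp (-(Q X z) / 2) : ℝ) : ℂ) • w' X Y)) := by
  have hXP : S.PX (X - c') = X - c' := by rw [map_sub, hX, hc']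
  have hXN : X - c' ∈ Nor b c' := by
    rw [← hXP]; exact S.X_mem_Nor hc' _
  have hYN : Y ∈ Nor b c' := by rw [← hY]; exact S.Y_mem_Nor hc' _
  have hcX : c' + (X - c') = X := by abel
  obtain ⟨L, hL, hL2⟩ := exists_strict hδ' hXN hXc
  rw [hcX] at hL
  obtain ⟨hLz, om0, hom0⟩ := hL2 z
  rw [hcX] at hom0
  set x : ι → Cfg N := fun i => X + s i • Y + t i • z with hx
  set y : ι → Cfg N := fun i => X + s i • Y with hy
  have hyt : Tendsto y l (𝓝 X) := by
    have := (hs.smul_const Y).const_add X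
    simpa using this
  have hxt : Tendsto x l (𝓝 X) := by
    have := hyt.add (ht.smul_const z)
    simpa using this
  have hyn : Tendsto (fun i => (X - c') + s i • Y) l (𝓝 (X - c')) := by
    have := (hs.smul_const Y).const_add (X - c')
    simpa using this
  have hyTh : ∀ᶠ i in l, Th b c' δ' (y i) = (X - c') + s i • Y := by
    filter_upwards [hyn.norm.eventually_lt_const hXc] with i hi
    have e : y i = c' + ((X - c') + s i • Y) := by simp only [hy]; abel
    rw [e, Th_nor hδ' ((Nor b c').add_mem hXN ((Nor b c').smul_mem _ hYN)) hi]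
  set n : ι → Cfg N := fun i => (t i)⁻¹ • (Th b c' δ' (x i) - Th b c' δ' (y i)) with hn
  have hnt : Tendsto n l (𝓝 (L z)) := by
    have h1 := (hL.isLittleO.comp_tendsto (hxt.prodMk_nhds hyt))
    have h2 : (fun i => Th b c' δ' (x i) - Th b c' δ' (y i) - L (t i • z)) =o[l] t := by
      have h3 : (fun i => t i • z) =O[l] t := by
        refine Asymptotics.IsBigO.of_bound ‖z‖ (Eventually.of_forall fun i => ?_)
        rw [norm_smul, mul_comm]
      have h4 : ∀ i, x i - y i = t i • z := fun i => by simp only [hx, hy]; abel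
      have h5 : (fun i => Th b c' δ' (x i) - Th b c' δ' (y i) - L (t i • z)) =o[l]
          fun i => t i • z := by
        refine h1.congr (fun i => ?_) (fun i => ?_)
        · simp only [Function.comp_def, h4]
        · simp only [Function.comp_def, h4]
      exact h5.trans_isBigO h3
    have h6 := h2.tendsto_inv_smul_nhds_zero
    have h7 := h6.add_const (L z)
    rw [zero_add] at h7
    refine h7.congr (fun i => ?_)
    simp only [hn]
    rw [map_smul, smul_sub _ _ (t i • L z), smul_smul, inv_mul_cancel₀ (ht0 i).ne', one_smul]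
    abel
  have hu : ∀ᶠ i in l, Th b c' δ' (x i) = (X - c') + s i • Y + t i • n i := by
    filter_upwards [hyTh] with i hi
    simp only [hn]
    rw [smul_smul, mul_inv_cancel₀ (ht0 i).ne', one_smul, hi]
    abel
  have hXY : S.PX Y = 0 := by rw [← hY, S.XY]
  have hYX : S.PY (X - c') = 0 := by rw [← hXP, S.YX]
  have hMX : S.PM (X - c') = 0 := by rw [← hXP, S.MX]
  have hMY : S.PM Y = 0 := by rw [← hY, S.MY]
  -- the three components
  have htn : Tendsto (fun i => t i • S.PX (n i)) l (𝓝 0) := by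
    have := ht.smul ((S.PX.continuous.tendsto _).comp hnt)
    simpa using this
  have hT : Tendsto (fun i => Th b c' δ' (x i)) l (𝓝 (X - c')) := by
    have h1 : Tendsto (fun i => (X - c') + s i • Y + t i • n i) l (𝓝 (X - c')) := by
      have := hyn.add (ht.smul hnt)
      simpa using this
    exact h1.congr' (by filter_upwards [hu] with i hi using hi.symm)
  have hc1 : Tendsto (fun i => c' + S.PX (Th b c' δ' (x i))) l (𝓝 X) := by
    have := ((S.PX.continuous.tendsto _).comp hT).const_add c'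
    rw [hXP, hcX] at this
    exact this
  have hc2 : Tendsto (fun i => (t i)⁻¹ • S.PM (Th b c' δ' (x i))) l (𝓝 (S.PM (L z))) := by
    refine ((S.PM.continuous.tendsto _).comp hnt).congr' ?_
    filter_upwards [hu] with i hi
    rw [hi, map_add, map_add, map_smul, map_smul, hMX, hMY, smul_zero, zero_add, zero_add,
      smul_smul, inv_mul_cancel₀ (ht0 i).ne', one_smul]
    rfl
  have hc3 : Tendsto (fun i => (s i)⁻¹ • S.PY (Th b c' δ' (x i))) l (𝓝 Y) := by
    have h1 : Tendsto (fun i => Y + ((s i)⁻¹ * t i) • S.PY (n i)) l (𝓝 Y) := by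
      have := (hts.smul ((S.PY.continuous.tendsto _).comp hnt)).const_add Y
      simpa using this
    refine h1.congr' ?_
    filter_upwards [hu] with i hi
    rw [hi, map_add, map_add, map_smul S.PY (s i) Y, map_smul S.PY (t i) (n i), hYX, hY, zero_add,
      smul_add, smul_smul, smul_smul, inv_mul_cancel₀ (hs0 i).ne', one_smul]
  have hQz : Q X (S.PM (L z)) = Q X z := by
    have h1 : L z = z - brx b om0 X := by rw [eq_sub_iff_add_eq, add_comm]; exact hom0.symm
    have h2 : S.PM (brx b om0 X) = brx b om0 X := by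
      have := S.br om0 X
      rwa [hX] at this
    have h3 : S.PM (L z) = z + brx b (-om0) X := by
      have h4 : brx b (-om0) X = -brx b om0 X := by
        rw [← SlE944.brB_apply, map_neg]
        rfl
      rw [h1, map_sub, hz, h2, h4, sub_eq_add_neg]
    rw [h3, hQ2 z _ hz]
  have hQt : Tendsto (fun i => Q (c' + S.PX (Th b c' δ' (x i)))
      ((t i)⁻¹ • S.PM (Th b c' δ' (x i)))) l (𝓝 (Q X z)) := by
    have := (hQ (S.PM (L z))).tendsto.comp (hc1.prodMk_nhds hc2)
    rw [hQz] at this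
    exact this
  have hAt : Tendsto (fun i => A' (Th b c' δ' (x i))) l (𝓝 (A' (X - c'))) :=
    hA'.tendsto.comp (tendsto_nhdsWithin_iff.2
      ⟨hT, Eventually.of_forall fun i => Th_mem (x i)⟩)
  have hwt : Tendsto (fun i => w' (c' + S.PX (Th b c' δ' (x i)))
      ((s i)⁻¹ • S.PY (Th b c' δ' (x i)))) l (𝓝 (w' X Y)) :=
    hw'.tendsto.comp (hc1.prodMk_nhds hc3)
  have him : ∀ᶠ i in l, x i ∈ Psi b c' '' box b c' δ' := by
    have h1 : X ∈ Psi b c' '' box b c' δ' := by
      have := mem_image_of_nor hXN hXc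
      rwa [hcX] at this
    exact hxt.eventually (hδ'.isOpen_image.mem_nhds h1)
  have hOm : Tendsto (fun i => Om b c' δ' (x i)) l (𝓝 0) := by
    have h1 : X ∈ Psi b c' '' box b c' δ' := by
      have := mem_image_of_nor hXN hXc
      rwa [hcX] at this
    have h2 := (continuousAt_Om hδ' h1).tendsto.comp hxt
    have h3 := Om_nor hδ' hXN hXc
    rw [hcX] at h3
    rw [h3] at h2
    exact h2
  have hmain : Tendsto (fun i => (((a i)⁻¹ : ℝ) : ℂ) • φ' i (c' + Th b c' δ' (x i))) l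
      (𝓝 (((A' (X - c') * Real.exp (-(Q X z) / 2) : ℝ) : ℂ) • w' X Y)) := by
    have h1 : Tendsto (fun i => ((A' (Th b c' δ' (x i)) *
        Real.exp (-(Q (c' + S.PX (Th b c' δ' (x i))) ((t i)⁻¹ • S.PM (Th b c' δ' (x i)))) / 2)
          : ℝ) : ℂ) • w' (c' + S.PX (Th b c' δ' (x i))) ((s i)⁻¹ • S.PY (Th b c' δ' (x i)))) l
        (𝓝 (((A' (X - c') * Real.exp (-(Q X z) / 2) : ℝ) : ℂ) • w' X Y)) := by
      refine Tendsto.smul ?_ hwt
      refine (Complex.continuous_ofReal.tendsto _).comp ?_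
      refine hAt.mul ?_
      exact (Real.continuous_exp.tendsto _).comp ((hQt.neg).div_const 2)
    refine h1.congr' ?_
    filter_upwards [hφ, him] with i hi hi2
    rw [hi _ (Th_mem _) (norm_Th_lt hi2), bare, smul_smul]
    congr 1
    push_cast
    have : (a i : ℂ) ≠ 0 := by exact_mod_cast (ha0 i).ne'
    field_simp
  have hfin := ((SlE944.contDiff_rho_gexp R).continuous.tendsto
    ((0 : Fin (N ^ 2 - 1) → ℝ), (((A' (X - c') * Real.exp (-(Q X z) / 2) : ℝ) : ℂ) •
      w' X Y))).comp (hOm.prodMk_nhds hmain)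
  have h0 : R.ρ (gexp b (0 : Fin (N ^ 2 - 1) → ℝ))
      (((A' (X - c') * Real.exp (-(Q X z) / 2) : ℝ) : ℂ) • w' X Y) =
      (((A' (X - c') * Real.exp (-(Q X z) / 2) : ℝ) : ℂ) • w' X Y) := by
    rw [gexp_zero, map_one]; rfl
  simp only [h0] at hfin
  refine hfin.congr' ?_
  filter_upwards [hφe, him] with i hi hi2
  simp only [Function.comp_def]
  rw [map_smul, ← hi, act_Th hi2]

/-- **limit of the overlap integral** of two bare functions on two slices -/
theorem gram_limit [Nontrivial F] (R : GaugeAction b M) {ι : Type*} {l : Filter ι}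
    [l.IsCountablyGenerated] (S : Split b) {c c' : Cfg N} (hc : S.PX c = c) (hc' : S.PX c' = c')
    {δ δ' ρ ρ' κ W B' C r : ℝ} (hδ' : GoodRad b c' δ') (hρ : ρ < δ) (hρ' : ρ' < δ')
    (hκ : 0 < κ) (hC : 0 ≤ C) (hB' : 0 ≤ B') (hW : 0 ≤ W) {U : Set (Cfg N)} {s t a : ι → ℝ}
    (hs0 : ∀ i, 0 < s i) (ht0 : ∀ i, 0 < t i) (hs : Tendsto s l (𝓝 0)) (ht : Tendsto t l (𝓝 0))
    (hts : Tendsto (fun i => (s i)⁻¹ * t i) l (𝓝 0)) (ha0 : ∀ i, 0 < a i)
    (ha : ∀ i, a i ^ 2 * |LinearMap.det (S.dilN hc (s i) (t i))| = 1)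
    {A A' : Cfg N → ℝ} {Q : Cfg N → Cfg N → ℝ} {w w' : Cfg N → Cfg N → F}
    (hQ : ∀ X ∈ U, S.PX X = X → ∀ z, ContinuousAt (fun p : Cfg N × Cfg N => Q p.1 p.2) (X, z))
    (hQ1 : ∀ X ∈ U, S.PX X = X → ∀ z ∈ Nor b c, S.PM z = z → κ * ‖z‖ ^ 2 ≤ Q X z)
    (hQ2 : ∀ X ∈ U, S.PX X = X → ∀ z om, S.PM z = z → Q X (z + brx b om X) = Q X z)
    (hw' : ∀ X ∈ U, S.PX X = X → ∀ Y, ContinuousAt (fun p : Cfg N × Cfg N => w' p.1 p.2) (X, Y))
    (hws : ∀ X Y, S.PX X = X → w X Y ≠ 0 → X ∈ U ∧ ‖X - c‖ ≤ ρ ∧ ‖X - c'‖ ≤ ρ' ∧ ‖Y‖ ≤ r)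
    (hwb : ∀ X Y, ‖w X Y‖ ≤ W)
    (hA : ∀ u ∈ Nor b c, c + u ∈ U → S.PX u = u → ‖u‖ < δ → ContinuousWithinAt A (Nor b c) u)
    (hAb : ∀ u ∈ Nor b c, ‖u‖ < δ → (∃ Y, w (c + S.PX u) Y ≠ 0) → |A u| ≤ C)
    (hA' : ∀ u ∈ Nor b c', c' + u ∈ U → S.PX u = u → ‖u‖ < δ' →
      ContinuousWithinAt A' (Nor b c') u)
    {τ φ' : ι → Cfg N → F}
    (hτ : ∀ᶠ i in l, ∀ u ∈ Nor b c, ‖u‖ < δ → τ i u = bare S c (a i) (s i) (t i) A Q w u)
    (hτ0 : ∀ᶠ i in l, ∀ u ∈ Nor b c, δ ≤ ‖u‖ → τ i u = 0)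
    (hτm : ∀ᶠ i in l, Continuous fun u : Nor b c => τ i (u : Cfg N))
    (hφ : ∀ᶠ i in l, ∀ u ∈ Nor b c', ‖u‖ < δ' →
      φ' i (c' + u) = bare S c' (a i) (s i) (t i) A' Q w' u)
    (hφe : ∀ᶠ i in l, ∀ g x, φ' i (b.act g x) = R.ρ g (φ' i x))
    (hφm : ∀ᶠ i in l, Continuous (φ' i))
    (hφb : ∀ᶠ i in l, ∀ x, ‖φ' i x‖ ≤ a i * B') :
    Tendsto (fun i => ∫ u : Nor b c, ⟪τ i (u : Cfg N), φ' i (c + (u : Cfg N))⟫_ℂ) l
      (𝓝 (∫ v : Nor b c, ((A (S.PX (v : Cfg N)) * A' (c + S.PX (v : Cfg N) - c') *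
        Real.exp (-(Q (c + S.PX (v : Cfg N)) (S.PM (v : Cfg N)))) : ℝ) : ℂ) *
        ⟪w (c + S.PX (v : Cfg N)) (S.PY (v : Cfg N)),
          w' (c + S.PX (v : Cfg N)) (S.PY (v : Cfg N))⟫_ℂ)) := by
  classical
  have hdet : ∀ i, LinearMap.det (S.dilN hc (s i) (t i)) ≠ 0 := fun i =>
    S.det_dilN_ne hc (hs0 i).ne' (ht0 i).ne'
  -- change of variables
  have hcv : ∀ i, ∫ u : Nor b c, ⟪τ i (u : Cfg N), φ' i (c + (u : Cfg N))⟫_ℂ =
      ∫ v : Nor b c, ((|LinearMap.det (S.dilN hc (s i) (t i))| : ℝ) : ℂ) *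
        ⟪τ i (S.dil (s i) (t i) (v : Cfg N)), φ' i (c + S.dil (s i) (t i) (v : Cfg N))⟫_ℂ := by
    intro i
    rw [integral_lin (S.dilN hc (s i) (t i)) (hdet i), ← integral_smul]
    refine integral_congr_ae (Eventually.of_forall fun v => ?_)
    simp only [S.dilN_coe]
    rw [Complex.real_smul]
  simp only [hcv]
  have hb : Integrable (fun v : Nor b c => C * W * B' * Real.exp (κ * (ρ ^ 2 + r ^ 2) / 2) *
      Real.exp (-(κ / 2) * ‖v‖ ^ 2)) :=
    (GPar984.integrable_gauss (Z := Nor b c) (c := κ / 2) (by positivity)).const_mul _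
  refine tendsto_integral_filter_of_dominated_convergence _ ?_ ?_ hb ?_
  · filter_upwards [hτm, hφm] with i h1 h2
    refine Continuous.aestronglyMeasurable ?_
    have hd : Continuous fun v : Nor b c => S.dilN hc (s i) (t i) v :=
      LinearMap.continuous_of_finiteDimensional _
    refine continuous_const.mul ((h1.comp hd).inner ?_)
    exact h2.comp (continuous_const.add ((S.dil (s i) (t i)).continuous.comp
      continuous_subtype_val))
  · filter_upwards [hτ, hτ0, hφb] with i h1 h2 h3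
    refine Eventually.of_forall fun v => ?_
    rw [norm_mul, Complex.norm_real, Real.norm_eq_abs, abs_abs]
    have hmem : S.dil (s i) (t i) (v : Cfg N) ∈ Nor b c := S.dil_mem hc _ _ v.2
    have hpos : 0 ≤ C * W * B' * Real.exp (κ * (ρ ^ 2 + r ^ 2) / 2) *
      Real.exp (-(κ / 2) * ‖v‖ ^ 2) := by positivity
    by_cases hn : ‖S.dil (s i) (t i) (v : Cfg N)‖ < δ
    · by_cases hw0 : w (c + S.PX (v : Cfg N)) (S.PY (v : Cfg N)) = 0
      · rw [h1 _ hmem hn, bare_dil S c _ (hs0 i).ne' (ht0 i).ne', hw0, smul_zero,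
          inner_zero_left, norm_zero, mul_zero]
        exact hpos
      · have hX : S.PX (c + S.PX (v : Cfg N)) = c + S.PX (v : Cfg N) := by
          rw [map_add, hc, S.XX]
        obtain ⟨hU, hX1, hX2, hY1⟩ := hws _ _ hX hw0
        rw [add_sub_cancel_left] at hX1
        have hQv := hQ1 _ hU hX (S.PM (v : Cfg N)) (S.M_mem_Nor hc v.2) (S.MM _)
        have hAv : |A (S.dil (s i) (t i) (v : Cfg N))| ≤ C := by
          refine hAb _ hmem hn ⟨S.PY (v : Cfg N), ?_⟩
          rw [S.X_dil]; exact hw0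
        have hτn : ‖τ i (S.dil (s i) (t i) (v : Cfg N))‖ ≤
            a i * C * Real.exp (-(κ * ‖S.PM (v : Cfg N)‖ ^ 2) / 2) * W := by
          rw [h1 _ hmem hn, bare_dil S c _ (hs0 i).ne' (ht0 i).ne', norm_smul, Complex.norm_real,
            Real.norm_eq_abs, abs_mul, abs_mul, Real.abs_exp, abs_of_pos (ha0 i)]
          have h0 : 0 ≤ a i := (ha0 i).le
          refine mul_le_mul (mul_le_mul (mul_le_mul_of_nonneg_left hAv h0)
            (Real.exp_le_exp.2 (by linarith)) (Real.exp_pos _).le (by positivity)) (hwb _ _)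
            (norm_nonneg _) (by positivity)
        have hin : ‖⟪τ i (S.dil (s i) (t i) (v : Cfg N)),
            φ' i (c + S.dil (s i) (t i) (v : Cfg N))⟫_ℂ‖ ≤
            (a i * C * Real.exp (-(κ * ‖S.PM (v : Cfg N)‖ ^ 2) / 2) * W) * (a i * B') :=
          (norm_inner_le_norm _ _).trans (mul_le_mul hτn (h3 _) (norm_nonneg _)
            (by have := ha0 i; positivity))
        have hv2 : ‖v‖ ^ 2 ≤ ρ ^ 2 + r ^ 2 + ‖S.PM (v : Cfg N)‖ ^ 2 := by
          have h4 := S.norm_sq (v : Cfg N)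
          have h5 : ‖S.PX (v : Cfg N)‖ ^ 2 ≤ ρ ^ 2 := pow_le_pow_left₀ (norm_nonneg _) hX1 2
          have h6 : ‖S.PY (v : Cfg N)‖ ^ 2 ≤ r ^ 2 := pow_le_pow_left₀ (norm_nonneg _) hY1 2
          have h7 : ‖v‖ = ‖(v : Cfg N)‖ := rfl
          rw [h7, h4]
          linarith
        calc |LinearMap.det (S.dilN hc (s i) (t i))| * ‖⟪τ i (S.dil (s i) (t i) (v : Cfg N)),
              φ' i (c + S.dil (s i) (t i) (v : Cfg N))⟫_ℂ‖
            ≤ |LinearMap.det (S.dilN hc (s i) (t i))| *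
              ((a i * C * Real.exp (-(κ * ‖S.PM (v : Cfg N)‖ ^ 2) / 2) * W) * (a i * B')) :=
              mul_le_mul_of_nonneg_left hin (abs_nonneg _)
          _ = (a i ^ 2 * |LinearMap.det (S.dilN hc (s i) (t i))|) * (C * W * B' *
              Real.exp (-(κ * ‖S.PM (v : Cfg N)‖ ^ 2) / 2)) := by ring
          _ = C * W * B' * Real.exp (-(κ * ‖S.PM (v : Cfg N)‖ ^ 2) / 2) := by
              rw [ha, one_mul]
          _ ≤ C * W * B' * Real.exp (κ * (ρ ^ 2 + r ^ 2) / 2 + -(κ / 2) * ‖v‖ ^ 2) := by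
              refine mul_le_mul_of_nonneg_left (Real.exp_le_exp.2 ?_) (by positivity)
              nlinarith
          _ = _ := by rw [Real.exp_add]; ring
    · rw [h2 _ hmem (not_lt.1 hn), inner_zero_left, norm_zero, mul_zero]
      exact hpos
  · refine Eventually.of_forall fun v => ?_
    have hX : S.PX (c + S.PX (v : Cfg N)) = c + S.PX (v : Cfg N) := by
      rw [map_add, hc, S.XX]
    by_cases hw0 : w (c + S.PX (v : Cfg N)) (S.PY (v : Cfg N)) = 0
    · rw [hw0, inner_zero_left, mul_zero]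
      refine tendsto_const_nhds.congr' ?_
      filter_upwards [hτ, hτ0] with i h1 h2
      have hmem : S.dil (s i) (t i) (v : Cfg N) ∈ Nor b c := S.dil_mem hc _ _ v.2
      by_cases hn : ‖S.dil (s i) (t i) (v : Cfg N)‖ < δ
      · rw [h1 _ hmem hn, bare_dil S c _ (hs0 i).ne' (ht0 i).ne', hw0, smul_zero,
          inner_zero_left, mul_zero]
      · rw [h2 _ hmem (not_lt.1 hn), inner_zero_left, mul_zero]
    · obtain ⟨hU, hX1, hX2, hY1⟩ := hws _ _ hX hw0
      set X : Cfg N := c + S.PX (v : Cfg N) with hXd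
      have hXP : S.PX (X - c') = X - c' := by rw [map_sub, hX, hc']
      have hXN : X - c' ∈ Nor b c' := by
        rw [← hXP]; exact S.X_mem_Nor hc' _
      have hcX : c' + (X - c') = X := by abel
      have hXu : c' + (X - c') ∈ U := by rw [hcX]; exact hU
      have hsec := tendsto_second R S hc' hδ' hs0 ht0 hs ht hts ha0 hφ hφe hX
        (S.YY (v : Cfg N)) (S.MM (v : Cfg N)) (lt_of_le_of_lt hX2 hρ') (hQ X hU hX)
        (hQ2 X hU hX) (hw' X hU hX _) (hA' (X - c') hXN hXu hXP (lt_of_le_of_lt hX2 hρ'))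
      have hvX : ‖S.PX (v : Cfg N)‖ < δ := by
        rw [hXd, add_sub_cancel_left] at hX1
        exact lt_of_le_of_lt hX1 hρ
      have hdl : Tendsto (fun i => S.dil (s i) (t i) (v : Cfg N)) l (𝓝 (S.PX (v : Cfg N))) := by
        have h1 := ((hs.smul_const (S.PY (v : Cfg N))).const_add (S.PX (v : Cfg N))).add
          (ht.smul_const (S.PM (v : Cfg N)))
        simpa [S.dil_apply] using h1
      have hA1 : Tendsto (fun i => A (S.dil (s i) (t i) (v : Cfg N))) l
          (𝓝 (A (S.PX (v : Cfg N)))) := by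
        have h1 := hA (S.PX (v : Cfg N)) (S.X_mem_Nor hc _) hU (S.XX _) hvX
        exact h1.tendsto.comp (tendsto_nhdsWithin_iff.2
          ⟨hdl, Eventually.of_forall fun i => S.dil_mem hc _ _ v.2⟩)
      have h3 : Tendsto (fun i => ((A (S.dil (s i) (t i) (v : Cfg N)) *
          Real.exp (-(Q X (S.PM (v : Cfg N))) / 2) : ℝ) : ℂ) *
          ⟪w X (S.PY (v : Cfg N)), (((a i)⁻¹ : ℝ) : ℂ) • φ' i (X + s i • S.PY (v : Cfg N) +
            t i • S.PM (v : Cfg N))⟫_ℂ) l
          (𝓝 (((A (S.PX (v : Cfg N)) * Real.exp (-(Q X (S.PM (v : Cfg N))) / 2) : ℝ) : ℂ) *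
            ⟪w X (S.PY (v : Cfg N)), ((A' (X - c') *
              Real.exp (-(Q X (S.PM (v : Cfg N))) / 2) : ℝ) : ℂ) •
                w' X (S.PY (v : Cfg N))⟫_ℂ)) := by
        refine Tendsto.mul ?_ (tendsto_const_nhds.inner hsec)
        exact (Complex.continuous_ofReal.tendsto _).comp (hA1.mul_const _)
      have hlim : ((A (S.PX (v : Cfg N)) * Real.exp (-(Q X (S.PM (v : Cfg N))) / 2) : ℝ) : ℂ) *
            ⟪w X (S.PY (v : Cfg N)), ((A' (X - c') *
              Real.exp (-(Q X (S.PM (v : Cfg N))) / 2) : ℝ) : ℂ) •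
                w' X (S.PY (v : Cfg N))⟫_ℂ =
          ((A (S.PX (v : Cfg N)) * A' (X - c') *
            Real.exp (-(Q X (S.PM (v : Cfg N)))) : ℝ) : ℂ) *
            ⟪w X (S.PY (v : Cfg N)), w' X (S.PY (v : Cfg N))⟫_ℂ := by
        rw [inner_smul_right, ← mul_assoc]
        congr 1
        rw [← Complex.ofReal_mul]
        congr 1
        have he : Real.exp (-(Q X (S.PM (v : Cfg N)))) =
            Real.exp (-(Q X (S.PM (v : Cfg N))) / 2) *
              Real.exp (-(Q X (S.PM (v : Cfg N))) / 2) := by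
          rw [← Real.exp_add]; congr 1; ring
        rw [he]; ring
      rw [hlim] at h3
      refine h3.congr' ?_
      filter_upwards [hτ, hdl.norm.eventually_lt_const hvX] with i h1 hn
      have hmem : S.dil (s i) (t i) (v : Cfg N) ∈ Nor b c := S.dil_mem hc _ _ v.2
      have hxe : c + S.dil (s i) (t i) (v : Cfg N) = X + s i • S.PY (v : Cfg N) +
          t i • S.PM (v : Cfg N) := by
        rw [S.dil_apply, hXd]; abel
      rw [h1 _ hmem hn, bare_dil S c _ (hs0 i).ne' (ht0 i).ne', ← hXd, hxe, inner_smul_left,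
        inner_smul_right, Complex.conj_ofReal, ← mul_assoc, ← mul_assoc]
      congr 1
      have h4 : |LinearMap.det (S.dilN hc (s i) (t i))| = (a i)⁻¹ * (a i)⁻¹ := by
        have h5 := ha i
        have h6 : a i ≠ 0 := (ha0 i).ne'
        field_simp
        linarith
      rw [h4]
      have h6 : (a i : ℂ) ≠ 0 := by exact_mod_cast (ha0 i).ne'
      push_cast
      field_simp

end Crest.Agent.R330.Gram372
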