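import Crest.Agent.R330.Dict_416
import Crest.Agent.R330.IBP_837
import Crest.Agent.R330.Defs_478

/-!
# Row 330, S0513: the graph space of the supercharges (helper726)

`HG N F = L² × (L²)^16` (Hilbert), `gmap R G φ = (φ, ¼ (Q_α φ)_α)`, `Dg` = closure of the graph,
`Jm`, `Wm` the two projections.
-/

set_option autoImplicit false
set_option linter.unusedSectionVars false

open MeasureTheory Filter Topology
open scoped ContDiff InnerProductSpace ENNReal
open Crest.MathPhysics.MatrixQM
open Crest.Agent.R330.Defs478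
open Crest.Agent.R330.Dict416

noncomputable section

namespace Crest.Agent.R330.Graph726

variable {N : ℕ} {F : Type*} [NormedAddCommGroup F] [InnerProductSpace ℂ F]
  [FiniteDimensional ℂ F]

/-- the ambient Hilbert space of the graph -/
abbrev HG (N : ℕ) (F : Type*) [NormedAddCommGroup F] [InnerProductSpace ℂ F] :=
  WithLp 2 (L2 N F × L2' N F)

/-- first projection -/
def Jm (N : ℕ) (F : Type*) [NormedAddCommGroup F] [InnerProductSpace ℂ F] :
    HG N F →L[ℂ] L2 N F := WithLp.fstL 2 ℂ (L2 N F) (L2' N F)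

/-- second projection -/
def Wm (N : ℕ) (F : Type*) [NormedAddCommGroup F] [InnerProductSpace ℂ F] :
    HG N F →L[ℂ] L2' N F := WithLp.sndL 2 ℂ (L2 N F) (L2' N F)

theorem norm_sq_HG (v : HG N F) : ‖v‖ ^ 2 = ‖Jm N F v‖ ^ 2 + ‖Wm N F v‖ ^ 2 := by
  rw [WithLp.prod_norm_sq_eq_of_L2]
  rfl

variable {b : ColorBasis N} {M : FermionRep N F}

/-- the graph map `φ ↦ (φ, ¼ Q φ)` -/
def gmap (R : GaugeAction b M) (G : GammaNine) : core b R →ₗ[ℂ] HG N F :=
  (WithLp.linearEquiv 2 ℂ (L2 N F × L2' N F)).symm.toLinearMap ∘ₗ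
    LinearMap.prod (ιC R) ((1 / 4 : ℂ) • QC R G 1 0)

theorem Jm_gmap (R : GaugeAction b M) (G : GammaNine) (φ : core b R) :
    Jm N F (gmap R G φ) = ιC R φ := rfl

theorem Wm_gmap (R : GaugeAction b M) (G : GammaNine) (φ : core b R) :
    Wm N F (gmap R G φ) = (1 / 4 : ℂ) • QC R G 1 0 φ := rfl

/-- the closed graph -/
def Dg (R : GaugeAction b M) (G : GammaNine) : Submodule ℂ (HG N F) :=
  (LinearMap.range (gmap R G)).topologicalClosure

theorem gmap_mem (R : GaugeAction b M) (G : GammaNine) (φ : core b R) : gmap R G φ ∈ Dg R G :=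
  Submodule.le_topologicalClosure _ (LinearMap.mem_range_self _ φ)

theorem isClosed_Dg (R : GaugeAction b M) (G : GammaNine) : IsClosed (Dg R G : Set (HG N F)) :=
  Submodule.isClosed_topologicalClosure _

theorem exists_seq {R : GaugeAction b M} {G : GammaNine} {v : HG N F} (hv : v ∈ Dg R G) :
    ∃ φ : ℕ → core b R, Tendsto (fun n => gmap R G (φ n)) atTop (𝓝 v) := by
  have h : v ∈ closure (LinearMap.range (gmap R G) : Set (HG N F)) := hv
  obtain ⟨y, hy, hlim⟩ := mem_closure_iff_seq_limit.1 h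
  choose φ hφ using hy
  exact ⟨φ, by simpa only [hφ] using hlim⟩

end Crest.Agent.R330.Graph726

end
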