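import Crest.Agent.R330.Gs_998
import Crest.Agent.R330.LocB_8

/-!
# Row 330, S9-LOC (helper998): the Gaussian `LocB8.gsl` on the fixed slice

* `exists_retr_bd` : smooth retraction to a small ball with bounded derivative.
* `gsl_eq`, `gsl_lit` : the literal formula.
* `gsl_pack` : second moment, derivative in the direction `(v, 0)`, orthogonality.
-/

set_option autoImplicit false
set_option linter.unusedSectionVars false

open MeasureTheory Filter Topology Crest.MathPhysics.MatrixQM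
open scoped ContDiff InnerProductSpace ENNReal

noncomputable section

namespace Crest.Agent.R330.Gs2998

open Crest.Agent.R330.Defs478 Crest.Agent.R330.LS839 Crest.Agent.R330.Frame839
  Crest.Agent.R330.Bind6839 Crest.Agent.R330.TDef414 Crest.Agent.R330.SqrtPD984
  Crest.Agent.R330.GPar984 Crest.Agent.R330.AX984 Crest.Agent.R330.E1984
  Crest.Agent.R330.Gs998 Crest.Agent.R330.LocB8 Crest.Agent.R330.LemA342
open Crest.Agent.R330.SlB314 (Nor Tan br)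

theorem exists_retr_bd {E : Type*} [NormedAddCommGroup E] [InnerProductSpace ℝ E]
    [FiniteDimensional ℝ E] (x0 : E) {ε : ℝ} (hε : 0 < ε) :
    ∃ (ρ : E → E) (B : ℝ), ContDiff ℝ ∞ ρ ∧ (∀ x, ‖x - x0‖ ≤ ε / 2 → ρ x = x) ∧
      (∀ x, ‖ρ x - x0‖ < ε) ∧ 0 ≤ B ∧ ∀ x, ‖fderiv ℝ ρ x‖ ≤ B := by
  let f : ContDiffBump (0 : E) := ⟨ε / 2, ε, by positivity, by linarith⟩
  have h1 : ContDiff ℝ ∞ fun x : E => x - x0 := contDiff_id.sub contDiff_const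
  have h2 : ContDiff ℝ ∞ fun x : E => f (x - x0) • (x - x0) := (f.contDiff.comp h1).smul h1
  have hcs : HasCompactSupport fun x : E => f (x - x0) • (x - x0) := by
    refine HasCompactSupport.of_support_subset_isCompact (isCompact_closedBall x0 ε)
      fun x hx => ?_
    rw [mem_closedBall_iff_norm]
    by_contra h3
    apply hx
    have h4 : f (x - x0) = 0 := by
      refine f.zero_of_le_dist ?_
      rw [dist_zero_right]
      exact (not_le.1 h3).le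
    show f (x - x0) • (x - x0) = 0
    rw [h4, zero_smul]
  obtain ⟨B, hB⟩ := (h2.continuous_fderiv (by simp)).bounded_above_of_compact_support
    (hcs.fderiv (𝕜 := ℝ))
  refine ⟨fun x => x0 + f (x - x0) • (x - x0), max B 0, contDiff_const.add h2,
    fun x hx => ?_, fun x => ?_, le_max_right _ _, fun x => ?_⟩
  · have h1 : f (x - x0) = 1 := by
      refine f.one_of_mem_closedBall ?_
      rw [mem_closedBall_zero_iff]
      exact hx
    simp only [h1, one_smul]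
    abel
  · simp only [add_sub_cancel_left]
    by_cases h : ‖x - x0‖ < ε
    · rw [norm_smul, Real.norm_of_nonneg (f.nonneg' _)]
      calc f (x - x0) * ‖x - x0‖ ≤ 1 * ‖x - x0‖ := by gcongr; exact f.le_one
        _ = ‖x - x0‖ := one_mul _
        _ < ε := h
    · have h1 : f (x - x0) = 0 := by
        refine f.zero_of_le_dist ?_
        rw [dist_zero_right]
        exact not_lt.1 h
      rw [h1, zero_smul, norm_zero]
      exact hε
  · rw [fderiv_const_add]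
    exact (hB x).trans (le_max_left _ _)

variable {N p : ℕ} {b : ColorBasis N} {S : Type} [Group S] [Fintype S] {C : Chn b p S}
  {F : Type*} [NormedAddCommGroup F] [InnerProductSpace ℂ F] [FiniteDimensional ℂ F]
  {M : FermionRep N F} {R : GaugeAction b M} {G' : GammaNine}
  {P : TPack C M R G'} {σ : Sl C} {ρ : Pos p → Pos p}

theorem Az_eq (P : TPack C M R G') (σ : Sl C) : Az P σ = AzX P σ.X0 := rfl

/-- the Gaussian of the slice is the one of the chart -/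
theorem gsl_eq {g : ℝ} (hg : 0 < g) (x : Sc b (C.cf σ.X0))
    (hr : ‖ρ (posu σ x.1) - σ.X0‖ < σ.r) :
    gsl P σ ρ g x = gsZ P σ.X0 g (ρ (posu σ x.1)) x.2 :=
  (gsZ_eq P hg (Az_pd P σ hr) x.2).symm

/-- the literal formula where `ρ` is the identity -/
theorem gsl_lit {g : ℝ} (hg : 0 < g) (x : Sc b (C.cf σ.X0))
    (hρ : ρ (posu σ x.1) = posu σ x.1) (hr : ‖posu σ x.1 - σ.X0‖ < σ.r) :
    gsl P σ ρ g x = Real.exp (-(g / 2 * ⟪P.A (posu σ x.1) x.2, (x.2 : Cfg N)⟫_ℝ)) /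
      Real.sqrt (∫ z' : Zs b (C.cf σ.X0), Real.exp (-(g * ⟪P.A (posu σ x.1) z',
        (z' : Cfg N)⟫_ℝ))) := by
  rw [gsl_eq hg x (by rw [hρ]; exact hr), hρ]
  rfl

/-- derivative of the Gaussian of the slice in a light direction -/
theorem fderiv_gsl {Ω : Set (Pos p)} {a K L : ℝ} {l : Pos p → (Pos p →L[ℝ] ℝ)}
    (h : PR (AzX P σ.X0) Ω a K L l) (hreg : ∀ X ∈ Ω, C.Reg X) (hρ : ContDiff ℝ ∞ ρ)
    (hr : ∀ X, ρ X ∈ Ω) (g : ℝ) (u v : Uk b (C.cf σ.X0)) (z : Zs b (C.cf σ.X0)) :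
    fderiv ℝ (gsl P σ ρ g) (u, z) (v, 0) =
      dG (AzX P σ.X0) l g (ρ (posu σ u)) (fderiv ℝ ρ (posu σ u) (C.cfT v)) z := by
  have hX : ρ (posu σ u) ∈ Ω := hr _
  rw [← fderiv_gG P h hX (hreg _ hX) g z]
  have h1 : DifferentiableAt ℝ (fun q : Pos p × Zs b (C.cf σ.X0) => G g (AzX P σ.X0 q.1) q.2)
      (ρ (posu σ u), z) :=
    (contDiffAt_gG P (hreg _ hX) (h.ub _ hX).1 g z).differentiableAt (by simp)
  have h2 : HasFDerivAt (fun x : Sc b (C.cf σ.X0) => posu σ (x.1 : Cfg N))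
      (C.cfT.comp ((Uk b (C.cf σ.X0)).subtypeL.comp (ContinuousLinearMap.fst ℝ _ _))) (u, z) := by
    have h3 := (C.cfT.comp ((Uk b (C.cf σ.X0)).subtypeL.comp
      (ContinuousLinearMap.fst ℝ (Uk b (C.cf σ.X0)) (Zs b (C.cf σ.X0))))).hasFDerivAt
      (x := ((u, z) : Sc b (C.cf σ.X0)))
    exact h3.const_add σ.X0
  have h4 : HasFDerivAt ρ (fderiv ℝ ρ (posu σ u)) (posu σ u) :=
    (hρ.differentiable (by simp)).differentiableAt.hasFDerivAt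
  have h5 := HasFDerivAt.comp (u, z) (g := ρ) (f := fun x : Sc b (C.cf σ.X0) =>
    posu σ (x.1 : Cfg N)) h4 h2
  have h6 : HasFDerivAt (fun x : Sc b (C.cf σ.X0) => x.2)
      (ContinuousLinearMap.snd ℝ (Uk b (C.cf σ.X0)) (Zs b (C.cf σ.X0))) (u, z) :=
    hasFDerivAt_snd
  have h7 := HasFDerivAt.comp (u, z)
    (g := fun q : Pos p × Zs b (C.cf σ.X0) => G g (AzX P σ.X0 q.1) q.2)
    (f := fun x : Sc b (C.cf σ.X0) => (ρ (posu σ (x.1 : Cfg N)), x.2))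
    h1.hasFDerivAt (h5.prodMk h6)
  have h8 : fderiv ℝ (gsl P σ ρ g) (u, z) = _ := h7.fderiv
  rw [h8]
  rfl

theorem dG_zero {Z P' : Type*} [NormedAddCommGroup Z] [InnerProductSpace ℝ Z]
    [FiniteDimensional ℝ Z] [MeasurableSpace Z] [BorelSpace Z]
    [NormedAddCommGroup P'] [NormedSpace ℝ P'] (A : P' → (Z →L[ℝ] Z)) (l : P' → (P' →L[ℝ] ℝ))
    (g : ℝ) (X : P') (z : Z) : dG A l g X 0 z = 0 := by
  unfold dG lf
  simp

/-- the properties of the Gaussian of the slice, uniform in `g`, `ρ` and the base point -/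
theorem gsl_pack (P : TPack C M R G') (σ : Sl C) : ∃ δ C₁ : ℝ, 0 < δ ∧ δ ≤ σ.r ∧ 0 ≤ C₁ ∧
    ∀ ρ : Pos p → Pos p, ContDiff ℝ ∞ ρ → (∀ X, ‖ρ X - σ.X0‖ < δ) → ∀ g : ℝ, 0 < g →
      ∀ u : Uk b (C.cf σ.X0),
        Integrable (fun z : Zs b (C.cf σ.X0) => ‖z‖ ^ 2 * gsl P σ ρ g (u, z) ^ 2) ∧
        ∫ z : Zs b (C.cf σ.X0), ‖z‖ ^ 2 * gsl P σ ρ g (u, z) ^ 2 ≤ C₁ / g ∧
        ∀ v : Uk b (C.cf σ.X0),
          (C.cfT v = 0 → ∀ z, fderiv ℝ (gsl P σ ρ g) (u, z) (v, 0) = 0) ∧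
          MemLp (fun z => fderiv ℝ (gsl P σ ρ g) (u, z) (v, 0)) 2 ∧
          ∫ z, gsl P σ ρ g (u, z) * fderiv ℝ (gsl P σ ρ g) (u, z) (v, 0) = 0 ∧
          ∫ z, (fderiv ℝ (gsl P σ ρ g) (u, z) (v, 0)) ^ 2 ≤
            C₁ * ‖fderiv ℝ ρ (posu σ u) (C.cfT v)‖ ^ 2 := by
  obtain ⟨δ, a, K, L, l, hδ, h, hreg⟩ := exists_reg P (BrT5658.reg0 σ)
  obtain ⟨c1, hc1, h1⟩ := moment_le (Z := Zs b (C.cf σ.X0)) a K h.pos 1
  obtain ⟨c2, hc2, h2⟩ := dG_mom (Z := Zs b (C.cf σ.X0)) (P := Pos p) a K L h.pos 0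
  refine ⟨min δ σ.r, max c1 c2, lt_min hδ σ.pos, min_le_right _ _, hc1.trans (le_max_left _ _),
    fun ρ hρ hr g hg u => ?_⟩
  have hΩ : ∀ X, ρ X ∈ Metric.ball σ.X0 δ := fun X => by
    rw [mem_ball_iff_norm]
    exact (hr X).trans_le (min_le_left _ _)
  have hI := integrable_mul_G_sq h.pos hg (h.ub _ (hΩ (posu σ u)))
  have hmo : ∀ z : Zs b (C.cf σ.X0), ‖z‖ ^ 2 * gsl P σ ρ g (u, z) ^ 2 =
      g⁻¹ * ((g * ‖z‖ ^ 2) ^ 1 * G g (AzX P σ.X0 (ρ (posu σ u))) z ^ 2) := by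
    intro z
    have h3 : gsl P σ ρ g (u, z) = G g (AzX P σ.X0 (ρ (posu σ u))) z := rfl
    rw [h3]
    field_simp
  refine ⟨?_, ?_, fun v => ?_⟩
  · simp only [hmo]
    exact (hI 1).const_mul _
  · simp only [hmo]
    rw [integral_const_mul, div_eq_inv_mul]
    have h5 := (h1 g hg _ (h.ub _ (hΩ (posu σ u)))).trans (le_max_left c1 c2)
    gcongr
  · have hd := fun z => fderiv_gsl h hreg hρ hΩ g u v z
    refine ⟨fun hv z => ?_, ?_, ?_, ?_⟩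
    · rw [hd, hv, map_zero, dG_zero]
    · simp only [hd]
      rw [memLp_two_iff_integrable_sq (continuous_dG _ _ _ _ _).aestronglyMeasurable]
      simpa using h.integrable_dG (hΩ (posu σ u)) hg (fderiv ℝ ρ (posu σ u) (C.cfT v)) 0
    · simp only [hd]
      exact h.dG_orth (hΩ (posu σ u)) hg _
    · simp only [hd]
      have h5 := h2 _ _ _ h _ (hΩ (posu σ u)) g hg (fderiv ℝ ρ (posu σ u) (C.cfT v))
      simp only [pow_zero, one_mul] at h5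
      refine h5.trans ?_
      have h6 : c2 ≤ max c1 c2 := le_max_right _ _
      gcongr

/-- retraction and Gaussian together: the derivative is bounded for all base points -/
theorem gsl_retr (P : TPack C M R G') (σ : Sl C) : ∃ (ρ : Pos p → Pos p) (δ C₁ : ℝ),
    0 < δ ∧ δ ≤ σ.r ∧ 0 ≤ C₁ ∧ ContDiff ℝ ∞ ρ ∧ (∀ X, ‖X - σ.X0‖ ≤ δ / 2 → ρ X = X) ∧
    (∀ X, ‖ρ X - σ.X0‖ < δ) ∧ ∀ g : ℝ, 0 < g → ∀ u : Uk b (C.cf σ.X0),
        Integrable (fun z : Zs b (C.cf σ.X0) => ‖z‖ ^ 2 * gsl P σ ρ g (u, z) ^ 2) ∧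
        ∫ z : Zs b (C.cf σ.X0), ‖z‖ ^ 2 * gsl P σ ρ g (u, z) ^ 2 ≤ C₁ / g ∧
        ∀ v : Uk b (C.cf σ.X0),
          (C.cfT v = 0 → ∀ z, fderiv ℝ (gsl P σ ρ g) (u, z) (v, 0) = 0) ∧
          MemLp (fun z => fderiv ℝ (gsl P σ ρ g) (u, z) (v, 0)) 2 ∧
          ∫ z, gsl P σ ρ g (u, z) * fderiv ℝ (gsl P σ ρ g) (u, z) (v, 0) = 0 ∧
          ∫ z, (fderiv ℝ (gsl P σ ρ g) (u, z) (v, 0)) ^ 2 ≤ C₁ * ‖v‖ ^ 2 := by
  obtain ⟨δ, C₁, hδ, hδr, hC, h⟩ := gsl_pack P σ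
  obtain ⟨ρ, B, hρ, h1, h2, hB, h3⟩ := exists_retr_bd σ.X0 hδ
  have hle : 0 ≤ B ^ 2 := by positivity
  refine ⟨ρ, δ, C₁ * (1 + B ^ 2), hδ, hδr, by positivity, hρ, h1, h2, fun g hg u => ?_⟩
  obtain ⟨e1, e2, e3⟩ := h ρ hρ h2 g hg u
  refine ⟨e1, e2.trans ?_, fun v => ?_⟩
  · have : C₁ ≤ C₁ * (1 + B ^ 2) := by nlinarith
    gcongr
  · obtain ⟨f1, f2, f3, f4⟩ := e3 v
    refine ⟨f1, f2, f3, f4.trans ?_⟩
    have h4 : ‖fderiv ℝ ρ (posu σ u) (C.cfT v)‖ ≤ B * ‖v‖ := by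
      refine ((fderiv ℝ ρ (posu σ u)).le_opNorm _).trans ?_
      have h5 : ‖C.cfT (v : Cfg N)‖ ≤ ‖(v : Cfg N)‖ := PairT245.cfT_norm_le _
      have h6 : ‖(v : Cfg N)‖ = ‖v‖ := rfl
      rw [h6] at h5
      exact mul_le_mul (h3 _) h5 (norm_nonneg _) hB
    calc C₁ * ‖fderiv ℝ ρ (posu σ u) (C.cfT v)‖ ^ 2 ≤ C₁ * (B * ‖v‖) ^ 2 := by gcongr
      _ = C₁ * B ^ 2 * ‖v‖ ^ 2 := by ring
      _ ≤ C₁ * (1 + B ^ 2) * ‖v‖ ^ 2 := by
        have : 0 ≤ C₁ * ‖v‖ ^ 2 := by positivity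
        nlinarith

end Crest.Agent.R330.Gs2998

end
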