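import Crest.Agent.R330.PairT_245
import Crest.Agent.R330.LemA_342
import Crest.Agent.R330.BlkSplit_837
import Crest.Agent.R330.FibProj_837

/-!
# Row 330, S9 capture (H6) part (i): the light charge is centre part plus block part (helper596)

Slice at `c = C.cf X0`, `h0 : C.Reg X0`, coordinates `Sc b c = Uk b c × Zs b c`.

* `dC h0 q`, `dB h0 n` : the centre and block directions, as vectors of `Uk b c`; `uB h0` : the
  orthonormal basis of `Uk b c` they form.
* `Acen`, `Ablk` : centre and block part of the light charge.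
* `Aop_eq` : `Aop = Acen + Ablk - m • Wl (c + x.1)`.
* `cen_blk_eq` : `∫ ‖Acen + Ablk‖² = ∫ ‖Acen‖² + ∫ ‖Ablk‖²`.
* `cen_blk_le`, `cen_blk_sum_le` : the bound by `Aop`.
-/

set_option autoImplicit false
set_option linter.unusedSectionVars false

open MeasureTheory Filter Topology Crest.MathPhysics.MatrixQM
open scoped ContDiff InnerProductSpace ENNReal

noncomputable section

namespace Crest.Agent.R330.H6596

open Crest.Agent.R330.Defs478 Crest.Agent.R330.LS839 Crest.Agent.R330.Frame839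
  Crest.Agent.R330.Bind6839 Crest.Agent.R330.IBP837 Crest.Agent.R330.TDef414
  Crest.Agent.R330.PairT245 Crest.Agent.R330.LemA342 Crest.Agent.R330.Decoup924
  Crest.Agent.R330.BlkSplit837 Crest.Agent.R330.BlkSplit837.EmbFam

variable {N p : ℕ} {b : ColorBasis N} {S : Type} [Group S] [Fintype S] {C : Chn b p S}
  {X0 : Pos p}
  {F : Type*} [NormedAddCommGroup F] [InnerProductSpace ℂ F] [FiniteDimensional ℂ F]
  {M : FermionRep N F} {G : GammaNine} {g m : ℝ} {α : Fin 16}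

/-! ## Directions -/

theorem cf_mem_Uk (h0 : C.Reg X0) (X : Pos p) : C.cf X ∈ Uk b (C.cf X0) := by
  rw [Uk_eq h0]; exact cf_mem_Tup X

theorem blk_mem_Uk (h0 : C.Reg X0) (Y : C.Blk) : (Y : Cfg N) ∈ Uk b (C.cf X0) := by
  rw [Uk_eq h0]; exact Y.2.1

/-- centre directions -/
def dC (h0 : C.Reg X0) (q : Fin 9 × Fin p) : Uk b (C.cf X0) :=
  ⟨C.cf (EuclideanSpace.single q 1), cf_mem_Uk h0 _⟩

/-- block directions -/
def dB (h0 : C.Reg X0) (n : Fin (Module.finrank ℝ C.Blk)) : Uk b (C.cf X0) :=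
  ⟨(stdOrthonormalBasis ℝ C.Blk n : C.Blk), blk_mem_Uk h0 _⟩

theorem coe_dC (h0 : C.Reg X0) (q : Fin 9 × Fin p) :
    ((dC h0 q : Uk b (C.cf X0)) : Cfg N) = C.cf (EuclideanSpace.single q 1) := rfl

theorem coe_dB (h0 : C.Reg X0) (n : Fin (Module.finrank ℝ C.Blk)) :
    ((dB h0 n : Uk b (C.cf X0)) : Cfg N) = (stdOrthonormalBasis ℝ C.Blk n : C.Blk) := rfl

/-- the orthonormal basis of `Uk b c` of centre and block directions -/
def uB (h0 : C.Reg X0) :
    OrthonormalBasis ((Fin 9 × Fin p) ⊕ Fin (Module.finrank ℝ C.Blk)) ℝ (Uk b (C.cf X0)) :=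
  ((EuclideanSpace.basisFun (Fin 9 × Fin p) ℝ).prod (stdOrthonormalBasis ℝ C.Blk)).map
    (osum_u h0).iso

theorem uB_inl (h0 : C.Reg X0) (q : Fin 9 × Fin p) : uB h0 (Sum.inl q) = dC h0 q := by
  apply Subtype.ext
  unfold uB
  rw [OrthonormalBasis.map_apply, OSum.coe_iso, OrthonormalBasis.prod_apply]
  simp [coe_dC]

theorem uB_inr (h0 : C.Reg X0) (n : Fin (Module.finrank ℝ C.Blk)) :
    uB h0 (Sum.inr n) = dB h0 n := by
  apply Subtype.ext
  unfold uB
  rw [OrthonormalBasis.map_apply, OSum.coe_iso, OrthonormalBasis.prod_apply]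
  simp [coe_dB]

/-! ## The two parts -/

variable (M G) in
/-- centre part of the light charge -/
def Acen (h0 : C.Reg X0) (α : Fin 16) (Φ : Sc b (C.cf X0) → F) (x : Sc b (C.cf X0)) : F :=
  ∑ q, aA M G α (dC h0 q : Cfg N) (fderiv ℝ Φ x (dC h0 q, 0))

variable (M G) in
/-- block part of the light charge -/
def Ablk (h0 : C.Reg X0) (g : ℝ) (α : Fin 16) (Φ : Sc b (C.cf X0) → F) (x : Sc b (C.cf X0)) : F :=
  (∑ n, aA M G α (dB h0 n : Cfg N) (fderiv ℝ Φ x (dB h0 n, 0))) +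
    wA b M G g 0 α (C.PY x.1) (Φ x)

theorem Acen_def (h0 : C.Reg X0) (Φ : Sc b (C.cf X0) → F) (x : Sc b (C.cf X0)) :
    Acen M G h0 α Φ x = ∑ q : Fin 9 × Fin p, aA M G α (C.cf (EuclideanSpace.single q 1))
      (fderiv ℝ Φ x (⟨C.cf (EuclideanSpace.single q 1), cf_mem_Uk h0 _⟩, 0)) := rfl

/-! ### the kinetic term -/

variable (M G) in
/-- the bilinear form `(e, e') ↦ aA e (L e')` -/
def kinB {c : Cfg N} (α : Fin 16) (L : Uk b c →ₗ[ℝ] F) : Uk b c →ₗ[ℝ] Uk b c →ₗ[ℝ] F :=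
  LinearMap.mk₂ ℝ (fun e e' => aA M G α (e : Cfg N) (L e'))
    (fun e₁ e₂ e' => by
      simp only [aA, Submodule.coe_add, Theta_add, LinearMap.smul_apply, LinearMap.add_apply,
        smul_add])
    (fun r e e' => by
      simp only [aA, Submodule.coe_smul, Theta_smul, LinearMap.smul_apply]
      rw [smul_comm, Complex.coe_smul])
    (fun e e₁ e₂ => by rw [map_add, map_add])
    (fun r e e' => by
      rw [map_smul, ← Complex.coe_smul, map_smul, Complex.coe_smul])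

theorem kinB_apply {c : Cfg N} (L : Uk b c →ₗ[ℝ] F) (e e' : Uk b c) :
    kinB M G α L e e' = aA M G α (e : Cfg N) (L e') := rfl

/-- **The kinetic term splits.** -/
theorem kin_split {ι : Type*} [Fintype ι] (h0 : C.Reg X0)
    (e : OrthonormalBasis ι ℝ (Uk b (C.cf X0))) (L : Uk b (C.cf X0) →ₗ[ℝ] F) :
    ∑ s, aA M G α (e s : Cfg N) (L (e s)) =
      (∑ q, aA M G α (dC h0 q : Cfg N) (L (dC h0 q))) +
      ∑ n, aA M G α (dB h0 n : Cfg N) (L (dB h0 n)) := by
  have h := contraction_basis (kinB M G α L) e (uB h0)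
  simp only [kinB_apply, Fintype.sum_sum_type, uB_inl, uB_inr] at h
  exact h

/-! ### the potential -/

theorem br_cf_add (X : Pos p) {Y : Cfg N} (hY : Y ∈ Tup C.kk) (i j : Fin 9) :
    (colAlg b).br (comp (C.cf X + Y) i) (comp (C.cf X + Y) j) =
      (colAlg b).br (comp Y i) (comp Y j) := by
  have h1 : ∀ (t : EuclideanSpace ℝ (Fin p)) (u : Colg N), u ∈ C.kk →
      (colAlg b).br u (C.cen t) = 0 := fun t u hu => by
    rw [(colAlg b).anti, C.cen_comm t u hu, neg_zero]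
  simp only [comp_add, C.comp_cf, map_add, LinearMap.add_apply]
  rw [C.cen_comm _ _ (C.cen_mem _), C.cen_comm _ _ (hY j), h1 _ _ (hY i)]
  abel

theorem Wq_cf_add (X : Pos p) {Y : Cfg N} (hY : Y ∈ Tup C.kk) :
    Wq b M G α (C.cf X + Y) (C.cf X + Y) = Wq b M G α Y Y := by
  rw [Wq_apply, Wq_apply]
  have h : (fun β A => wb b G α β A (C.cf X + Y) (C.cf X + Y)) =
      fun β A => wb b G α β A Y Y := by
    funext β A
    have h1 := wbv_eq b G α β (C.cf X + Y) (C.cf X + Y)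
    simp only [br_cf_add X hY] at h1
    rw [← wbv_eq] at h1
    exact congrArg (fun v : Colg N => v A) h1
  rw [h]

theorem toR_wA_cf_add (X : Pos p) {Y : Cfg N} (hY : Y ∈ Tup C.kk) :
    toR (wA b M G g m α (C.cf X + Y)) =
      toR (wA b M G g 0 α Y) - m • Wl M G α (C.cf X + Y) := by
  rw [toR_wA, toR_wA, Wq_cf_add X hY, zero_smul, sub_zero]

theorem uk_eq (h0 : C.Reg X0) (u : Uk b (C.cf X0)) :
    (u : Cfg N) = C.cf (C.cfT u) + C.PY u := by
  have hu : (u : Cfg N) ∈ Tup C.kk := (Uk_eq h0).le u.2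
  have h1 : C.PK (u : Cfg N) = u := by
    unfold Chn.PK
    exact Submodule.starProjection_eq_self_iff.2 hu
  unfold Chn.PY
  rw [h1]
  abel

theorem PY_mem_Blk (u : Cfg N) : C.PY u ∈ C.Blk := by
  have hk : C.PK u ∈ Tup C.kk := Submodule.starProjection_apply_mem _ _
  refine ⟨Submodule.sub_mem _ hk (cf_mem_Tup _), ?_⟩
  refine (Submodule.mem_orthogonal _ _).2 ?_
  rintro _ ⟨X, rfl⟩
  change ⟪C.cf X, C.PK u - C.cf (C.cfT u)⟫_ℝ = 0
  have h1 : ⟪C.cf X, C.PK u⟫_ℝ = ⟪C.cf X, u⟫_ℝ := by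
    unfold Chn.PK
    rw [← Submodule.inner_starProjection_left_eq_right,
      Submodule.starProjection_eq_self_iff.2 (cf_mem_Tup X)]
  rw [inner_sub_right, C.cf.inner_map_map, h1]
  unfold Chn.cfT
  rw [ContinuousLinearMap.adjoint_inner_right]
  exact sub_self _

/-- the potential on the slice -/
theorem toR_wA_slice (h0 : C.Reg X0) (u : Uk b (C.cf X0)) :
    toR (wA b M G g m α (C.cf X0 + u)) =
      toR (wA b M G g 0 α (C.PY u)) - m • Wl M G α (C.cf X0 + u) := by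
  have h1 : C.cf X0 + (u : Cfg N) = C.cf (X0 + C.cfT u) + C.PY u := by
    rw [map_add, add_assoc, ← uk_eq h0 u]
  rw [h1]
  exact toR_wA_cf_add _ (PY_mem_Blk _).1

/-- **The light charge.** -/
theorem Aop_eq {ι : Type*} [Fintype ι] (h0 : C.Reg X0)
    (e : OrthonormalBasis ι ℝ (Uk b (C.cf X0))) (Φ : Sc b (C.cf X0) → F) (x : Sc b (C.cf X0)) :
    Aop b (C.cf X0) M G g m α e Φ x =
      Acen M G h0 α Φ x + Ablk M G h0 g α Φ x - m • Wl M G α (C.cf X0 + x.1) (Φ x) := by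
  have h1 := kin_split (M := M) (G := G) (α := α) h0 e
    ((fderiv ℝ Φ x).comp (ContinuousLinearMap.inl ℝ (Uk b (C.cf X0)) (Zs b (C.cf X0)))).toLinearMap
  have h2 := congrArg (fun T : F →L[ℝ] F => T (Φ x))
    (toR_wA_slice (M := M) (G := G) (g := g) (m := m) (α := α) h0 x.1)
  simp only [_root_.sub_apply, _root_.smul_apply, toR_apply] at h2
  unfold Aop Acen Ablk
  rw [h2]
  have h3 : ∀ v : Uk b (C.cf X0),
      ((fderiv ℝ Φ x).comp (ContinuousLinearMap.inl ℝ (Uk b (C.cf X0))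
        (Zs b (C.cf X0)))).toLinearMap v = fderiv ℝ Φ x (v, 0) := fun v => rfl
  simp only [h3] at h1
  rw [h1]
  abel

/-! ## The cross term -/

/-- the centre as a set of colour tuples -/
theorem Cen_eq : C.Cen = Tup (LinearMap.range C.cen.toLinearMap) := by
  refine le_antisymm ?_ fun x hx => ?_
  · rintro _ ⟨X, rfl⟩ i
    exact ⟨pcomp X i, rfl⟩
  · choose t ht using hx
    refine ⟨mkp t, ?_⟩
    refine ext_comp fun i => ?_
    exact ht i

theorem cf_mem_TupCen (X : Pos p) : C.cf X ∈ Tup (LinearMap.range C.cen.toLinearMap) :=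
  fun i => ⟨pcomp X i, rfl⟩

theorem blk_mem_TupCen {Y : Cfg N} (hY : Y ∈ C.Blk) :
    Y ∈ Tup (LinearMap.range C.cen.toLinearMap)ᗮ := by
  rw [← Tup_orth, ← Cen_eq]
  exact hY.2

theorem br_mem_TupCen {u v : Colg N} (hu : u ∈ C.kk) :
    (colAlg b).br u v ∈ (LinearMap.range C.cen.toLinearMap)ᗮ := by
  refine (Submodule.mem_orthogonal _ _).2 ?_
  rintro _ ⟨t, rfl⟩
  change ⟪C.cen t, (colAlg b).br u v⟫_ℝ = 0
  rw [← (colAlg b).inv, C.cen_comm t u hu, inner_zero_left]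

/-- the block potential -/
theorem wA_blk_mem {Y : Cfg N} (hY : Y ∈ Tup C.kk) :
    wA b M G g 0 α Y ∈ Od M (LinearMap.range C.cen.toLinearMap)ᗮ := by
  refine vco_mem M fun β => ?_
  have h : (WithLp.toLp 2 (fun A => wpot b G g 0 α β A Y) : Colg N) =
      g • (WithLp.toLp 2 (fun A => wb b G α β A Y Y) : Colg N) := by
    ext A
    simp [wpot_wb]
  rw [h, wbv_eq]
  refine Submodule.smul_mem _ _ (Submodule.sum_mem _ fun i _ => Submodule.sum_mem _ fun j _ =>
    Submodule.smul_mem _ _ ?_)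
  exact br_mem_TupCen (hY i)

theorem aA_cen_mem (X : Pos p) :
    aA M G α (C.cf X) ∈ Od M (LinearMap.range C.cen.toLinearMap) :=
  Submodule.smul_mem _ _ (Theta_mem M G α (cf_mem_TupCen X))

theorem aA_blk_mem {Y : Cfg N} (hY : Y ∈ C.Blk) :
    aA M G α Y ∈ Od M (LinearMap.range C.cen.toLinearMap)ᗮ :=
  Submodule.smul_mem _ _ (Theta_mem M G α (blk_mem_TupCen hY))

theorem anti_cen {L L' : F →ₗ[ℂ] F} (hL : L ∈ Od M (LinearMap.range C.cen.toLinearMap))
    (hL' : L' ∈ Od M (LinearMap.range C.cen.toLinearMap)ᗮ) : Anti (toR L) (toR L') := by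
  intro v
  exact Od_anti M (fun u hu v hv => (Submodule.mem_orthogonal _ _).1 hv u hu) hL hL' v

theorem skew_aA (e : Cfg N) : Skew (toR (aA M G α e)) := fun v w => aA_skew M G α e v w

theorem symm_wA (Y : Cfg N) : Symm (toR (wA b M G g m α Y)) := fun v w => wA_symm M G g m α Y v w

/-- `C.PY` as a continuous linear map -/
def PYL (C : Chn b p S) : Cfg N →L[ℝ] Cfg N :=
  C.PK - C.cf.toContinuousLinearMap.comp C.cfT

theorem PYL_apply (u : Cfg N) : PYL C u = C.PY u := rfl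

theorem PY_cf (X : Pos p) : C.PY (C.cf X) = 0 := by
  have := PY_sum' (C := C) X (Submodule.zero_mem C.Blk)
  rwa [add_zero] at this

theorem contDiff_toR_wA : ContDiff ℝ ∞ (fun Y : Cfg N => toR (wA b M G g m α Y)) := by
  have e : (fun Y : Cfg N => toR (wA b M G g m α Y)) = fun Y : Cfg N =>
      g • Wq b M G α Y Y - m • Wl M G α Y := funext fun x => toR_wA _
  rw [e]
  exact ((contDiff_Wq.clm_apply contDiff_id).const_smul g).sub
    ((Wl M G α).contDiff.const_smul m)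

variable (M G) in
/-- the block potential on the slice -/
def wY (_h0 : C.Reg X0) (g : ℝ) (α : Fin 16) (x : Sc b (C.cf X0)) : F →L[ℝ] F :=
  toR (wA b M G g 0 α (C.PY x.1))

/-- `x ↦ C.PY x.1` -/
def PYs (X0 : Pos p) (C : Chn b p S) : Sc b (C.cf X0) →L[ℝ] Cfg N :=
  (PYL C).comp ((Uk b (C.cf X0)).subtypeL.comp
    (ContinuousLinearMap.fst ℝ (Uk b (C.cf X0)) (Zs b (C.cf X0))))

theorem contDiff_wY (h0 : C.Reg X0) : ContDiff ℝ ∞ (wY M G h0 g α) :=
  (contDiff_toR_wA (b := b) (M := M) (G := G) (g := g) (m := 0) (α := α)).comp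
    (PYs X0 C).contDiff

theorem fderiv_wY (h0 : C.Reg X0) (x v : Sc b (C.cf X0)) :
    fderiv ℝ (wY M G h0 g α) x v =
      fderiv ℝ (fun Y : Cfg N => toR (wA b M G g 0 α Y)) (C.PY x.1) (C.PY v.1) := by
  have h1 : HasFDerivAt (fun Y : Cfg N => toR (wA b M G g 0 α Y))
      (fderiv ℝ (fun Y : Cfg N => toR (wA b M G g 0 α Y)) (PYs X0 C x)) (PYs X0 C x) :=
    ((contDiff_toR_wA (b := b) (M := M) (G := G) (g := g) (m := 0) (α := α)).differentiable
      (by simp) _).hasFDerivAt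
  have h2 := h1.comp x (PYs X0 C).hasFDerivAt
  have h3 : wY M G h0 g α = (fun Y : Cfg N => toR (wA b M G g 0 α Y)) ∘ (PYs X0 C) := rfl
  rw [h3, h2.fderiv]
  rfl

theorem fderiv_wY_cen (h0 : C.Reg X0) (x : Sc b (C.cf X0)) (q : Fin 9 × Fin p) :
    fderiv ℝ (wY M G h0 g α) x (dC h0 q, 0) = 0 := by
  rw [fderiv_wY]
  have : C.PY (((dC h0 q, 0) : Sc b (C.cf X0)).1 : Cfg N) = 0 := PY_cf _
  rw [this, map_zero]

/-- `Acen` as a first order operator -/
theorem Acen_op (h0 : C.Reg X0) (Φ : Sc b (C.cf X0) → F) (x : Sc b (C.cf X0)) :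
    Acen M G h0 α Φ x = op (fun q => ((dC h0 q, 0) : Sc b (C.cf X0)))
      (fun q _ => toR (aA M G α (dC h0 q : Cfg N))) (fun _ => 0) Φ x := by
  unfold Acen op
  simp only [toR_apply, _root_.zero_apply, add_zero]

/-- `Ablk` as a first order operator -/
theorem Ablk_op (h0 : C.Reg X0) (Φ : Sc b (C.cf X0) → F) (x : Sc b (C.cf X0)) :
    Ablk M G h0 g α Φ x = op (fun n => ((dB h0 n, 0) : Sc b (C.cf X0)))
      (fun n _ => toR (aA M G α (dB h0 n : Cfg N))) (wY M G h0 g α) Φ x := rfl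

theorem contDiff_Acen (h0 : C.Reg X0) {Φ : Sc b (C.cf X0) → F} {n k : WithTop ℕ∞}
    (hnk : k + 1 ≤ n) (hΦ : ContDiff ℝ n Φ) : ContDiff ℝ k (Acen M G h0 α Φ) := by
  have e : Acen M G h0 α Φ = op (fun q => ((dC h0 q, 0) : Sc b (C.cf X0)))
      (fun q _ => toR (aA M G α (dC h0 q : Cfg N))) (fun _ => 0) Φ := funext fun x => Acen_op h0 Φ x
  rw [e]
  exact contDiff_op hnk (fun _ => contDiff_const) contDiff_const hΦ

theorem contDiff_Ablk (h0 : C.Reg X0) {Φ : Sc b (C.cf X0) → F} {n : WithTop ℕ∞} {k : ℕ∞}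
    (hnk : (k : WithTop ℕ∞) + 1 ≤ n) (hΦ : ContDiff ℝ n Φ) :
    ContDiff ℝ k (Ablk M G h0 g α Φ) := by
  have e : Ablk M G h0 g α Φ = op (fun n => ((dB h0 n, 0) : Sc b (C.cf X0)))
      (fun n _ => toR (aA M G α (dB h0 n : Cfg N))) (wY M G h0 g α) Φ :=
    funext fun x => Ablk_op h0 Φ x
  rw [e]
  exact contDiff_op hnk (fun _ => contDiff_const)
    ((contDiff_wY h0).of_le (by exact_mod_cast le_top)) hΦ

theorem hcs_Acen (h0 : C.Reg X0) {Φ : Sc b (C.cf X0) → F} (hc : HasCompactSupport Φ) :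
    HasCompactSupport (Acen M G h0 α Φ) := by
  have e : Acen M G h0 α Φ = op (fun q => ((dC h0 q, 0) : Sc b (C.cf X0)))
      (fun q _ => toR (aA M G α (dC h0 q : Cfg N))) (fun _ => 0) Φ := funext fun x => Acen_op h0 Φ x
  rw [e]
  exact hasCompactSupport_op hc

theorem hcs_Ablk (h0 : C.Reg X0) {Φ : Sc b (C.cf X0) → F} (hc : HasCompactSupport Φ) :
    HasCompactSupport (Ablk M G h0 g α Φ) := by
  have e : Ablk M G h0 g α Φ = op (fun n => ((dB h0 n, 0) : Sc b (C.cf X0)))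
      (fun n _ => toR (aA M G α (dB h0 n : Cfg N))) (wY M G h0 g α) Φ :=
    funext fun x => Ablk_op h0 Φ x
  rw [e]
  exact hasCompactSupport_op hc

section integrals

variable {μ : Measure (Sc b (C.cf X0))} [μ.IsAddHaarMeasure]

/-- **Orthogonality of the two parts.** -/
theorem cen_blk_eq (h0 : C.Reg X0) {Φ : Sc b (C.cf X0) → F} (hΦ : ContDiff ℝ 2 Φ)
    (hc : HasCompactSupport Φ) :
    ∫ x, ‖Acen M G h0 α Φ x + Ablk M G h0 g α Φ x‖ ^ 2 ∂μ =
      ∫ x, ‖Acen M G h0 α Φ x‖ ^ 2 ∂μ + ∫ x, ‖Ablk M G h0 g α Φ x‖ ^ 2 ∂μ := by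
  have h := cross_identity (μ := μ) (e := fun q => ((dC h0 q, 0) : Sc b (C.cf X0)))
    (a := fun q => toR (aA M G α (dC h0 q : Cfg N))) (w := fun _ => (0 : F →L[ℝ] F))
    (v := fun n => ((dB h0 n, 0) : Sc b (C.cf X0)))
    (β := fun n _ => toR (aA M G α (dB h0 n : Cfg N))) (p := wY M G h0 g α)
    contDiff_const (fun _ => contDiff_const) ((contDiff_wY h0).of_le (by simp))
    (fun q => skew_aA _) (fun _ v w => by simp) (fun _ _ => skew_aA _) (fun _ => symm_wA _)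
    (fun _ _ => by simp) (fun _ _ => by simp)
    (fun q n _ => anti_cen (aA_cen_mem _) (aA_blk_mem (stdOrthonormalBasis ℝ C.Blk n).2))
    (fun q x => anti_cen (aA_cen_mem _) (wA_blk_mem (PY_mem_Blk _).1))
    (fun _ _ v => by simp) (fun _ v => by simp) hΦ hΦ hc hc
  have h00 : ∀ (k : Fin 9 × Fin p) (x : Sc b (C.cf X0)),
      dop ((dC h0 k, 0) : Sc b (C.cf X0)) (fun n => ((dB h0 n, 0) : Sc b (C.cf X0)))
        (fun n _ => toR (aA M G α (dB h0 n : Cfg N))) (wY M G h0 g α) Φ x = 0 := by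
    intro k x
    unfold dop
    rw [fderiv_wY_cen]
    simp
  simp only [h00, map_zero, Finset.sum_const_zero, inner_zero_right, integral_zero,
    ← Acen_op, ← Ablk_op] at h
  set A := Acen M G h0 α Φ with hA
  set B := Ablk M G h0 g α Φ with hB
  have cA : Continuous A := (contDiff_Acen (k := 1) h0 (by norm_num) hΦ).continuous
  have cB : Continuous B := (contDiff_Ablk (k := 1) h0 (by norm_num) hΦ).continuous
  have sA : HasCompactSupport A := hcs_Acen h0 hc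
  have sB : HasCompactSupport B := hcs_Ablk h0 hc
  have iAA : Integrable (fun x => ⟪A x, A x⟫_ℂ) μ := integrable_inner_of_cont cA cA (Or.inl sA)
  have iAB : Integrable (fun x => ⟪A x, B x⟫_ℂ) μ := integrable_inner_of_cont cA cB (Or.inl sA)
  have iBA : Integrable (fun x => ⟪B x, A x⟫_ℂ) μ := integrable_inner_of_cont cB cA (Or.inl sB)
  have iBB : Integrable (fun x => ⟪B x, B x⟫_ℂ) μ := integrable_inner_of_cont cB cB (Or.inl sB)
  have e1 : ((∫ x, ‖A x + B x‖ ^ 2 ∂μ : ℝ) : ℂ) =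
      ((∫ x, ‖A x‖ ^ 2 ∂μ + ∫ x, ‖B x‖ ^ 2 ∂μ : ℝ) : ℂ) := by
    rw [Complex.ofReal_add, BlkSplit837.integral_norm_sq_eq (fun x => A x + B x),
      BlkSplit837.integral_norm_sq_eq A, BlkSplit837.integral_norm_sq_eq B]
    have e2 : ∀ x, ⟪A x + B x, A x + B x⟫_ℂ =
        (⟪A x, A x⟫_ℂ + ⟪B x, B x⟫_ℂ) + (⟪A x, B x⟫_ℂ + ⟪B x, A x⟫_ℂ) := by
      intro x
      rw [inner_add_left, inner_add_right, inner_add_right]
      ring
    simp only [e2]
    have i1 : Integrable (fun x => ⟪A x, A x⟫_ℂ + ⟪B x, B x⟫_ℂ) μ := iAA.add iBB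
    have i2 : Integrable (fun x => ⟪A x, B x⟫_ℂ + ⟪B x, A x⟫_ℂ) μ := iAB.add iBA
    rw [integral_add i1 i2, integral_add iAA iBB, integral_add iAB iBA, h, add_zero]
  exact_mod_cast e1

end integrals

end Crest.Agent.R330.H6596

end
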