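import Mathlib

/-!
# Row 330, T3 / HChart (helper815)

* `diff_of_gram` : three pairing limits with the same value give `∫ ‖T - T'‖² → 0`.
* `ratio_one` : a continuous positive `ρ` on an open set with `∫ β² ρ = ∫ β² ρ⁻¹` for every nonnegative
  smooth bump `β` is one.
-/

set_option autoImplicit false
set_option linter.unusedSectionVars false

open MeasureTheory Filter Topology
open scoped ContDiff InnerProductSpace ENNReal

noncomputable section

namespace Crest.Agent.R330.HChart815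

section diff

variable {E : Type*} [MeasurableSpace E] {μ : Measure E} {F : Type*} [NormedAddCommGroup F]
  [InnerProductSpace ℂ F] {ι : Type*} {l : Filter ι}

theorem int_inner {f f' : E → F} (h : MemLp f 2 μ) (h' : MemLp f' 2 μ) :
    Integrable (fun x => ⟪f x, f' x⟫_ℂ) μ := by
  have sq : ∀ {f : E → F}, MemLp f 2 μ → Integrable (fun x => ‖f x‖ ^ 2) μ := by
    intro f h
    have h' : MemLp f ((2 : ℕ) : ENNReal) μ := by simpa using h
    exact h'.integrable_norm_pow two_ne_zero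
  refine Integrable.mono' ((sq h).add (sq h')) (h.1.inner h'.1)
    (Eventually.of_forall fun x => ?_)
  refine (norm_inner_le_norm _ _).trans ?_
  show ‖f x‖ * ‖f' x‖ ≤ ‖f x‖ ^ 2 + ‖f' x‖ ^ 2
  nlinarith [sq_nonneg (‖f x‖ - ‖f' x‖), sq_nonneg (‖f x‖), sq_nonneg (‖f' x‖)]

theorem int_sub_sq {f f' : E → F} (h : MemLp f 2 μ) (h' : MemLp f' 2 μ) :
    ∫ x, ‖f x - f' x‖ ^ 2 ∂μ = (∫ x, ⟪f x, f x⟫_ℂ ∂μ).re - 2 * (∫ x, ⟪f x, f' x⟫_ℂ ∂μ).re +
      (∫ x, ⟪f' x, f' x⟫_ℂ ∂μ).re := by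
  have i1 : Integrable (fun x => ⟪f x, f x⟫_ℂ) μ := int_inner h h
  have i2 : Integrable (fun x => ⟪f x, f' x⟫_ℂ) μ := int_inner h h'
  have i3 : Integrable (fun x => ⟪f' x, f' x⟫_ℂ) μ := int_inner h' h'
  have e1 : (∫ x, ⟪f x, f x⟫_ℂ ∂μ).re = ∫ x, (⟪f x, f x⟫_ℂ).re ∂μ := (integral_re i1).symm
  have e2 : (∫ x, ⟪f x, f' x⟫_ℂ ∂μ).re = ∫ x, (⟪f x, f' x⟫_ℂ).re ∂μ := (integral_re i2).symm
  have e3 : (∫ x, ⟪f' x, f' x⟫_ℂ ∂μ).re = ∫ x, (⟪f' x, f' x⟫_ℂ).re ∂μ := (integral_re i3).symm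
  have k1 : Integrable (fun x => (⟪f x, f x⟫_ℂ).re) μ := i1.re
  have k2 : Integrable (fun x => 2 * (⟪f x, f' x⟫_ℂ).re) μ := i2.re.const_mul 2
  have k3 : Integrable (fun x => (⟪f' x, f' x⟫_ℂ).re) μ := i3.re
  have k4 : Integrable (fun x => (⟪f x, f x⟫_ℂ).re - 2 * (⟪f x, f' x⟫_ℂ).re) μ := k1.sub k2
  rw [e1, e2, e3, ← integral_const_mul, ← integral_sub k1 k2, ← integral_add k4 k3]
  refine integral_congr_ae (Eventually.of_forall fun x => ?_)
  have h1 := norm_sub_sq (𝕜 := ℂ) (f x) (f' x)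
  have h2 : (⟪f x, f x⟫_ℂ).re = ‖f x‖ ^ 2 := by
    rw [inner_self_eq_norm_sq_to_K]; norm_cast
  have h3 : (⟪f' x, f' x⟫_ℂ).re = ‖f' x‖ ^ 2 := by
    rw [inner_self_eq_norm_sq_to_K]; norm_cast
  show ‖f x - f' x‖ ^ 2 = (⟪f x, f x⟫_ℂ).re - 2 * (⟪f x, f' x⟫_ℂ).re + (⟪f' x, f' x⟫_ℂ).re
  rw [h1, h2, h3]
  rfl

/-- **Three pairing limits.** -/
theorem diff_of_gram {T T' : ι → E → F} {L : ℂ} (hm : ∀ᶠ g in l, MemLp (T g) 2 μ)
    (hm' : ∀ᶠ g in l, MemLp (T' g) 2 μ)
    (h1 : Tendsto (fun g => ∫ x, ⟪T g x, T g x⟫_ℂ ∂μ) l (𝓝 L))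
    (h2 : Tendsto (fun g => ∫ x, ⟪T g x, T' g x⟫_ℂ ∂μ) l (𝓝 L))
    (h3 : Tendsto (fun g => ∫ x, ⟪T' g x, T' g x⟫_ℂ ∂μ) l (𝓝 L)) :
    Tendsto (fun g => ∫ x, ‖T g x - T' g x‖ ^ 2 ∂μ) l (𝓝 0) := by
  have k1 := (Complex.continuous_re.tendsto L).comp h1
  have k2 := (Complex.continuous_re.tendsto L).comp h2
  have k3 := (Complex.continuous_re.tendsto L).comp h3
  have k4 := (k1.sub (k2.const_mul 2)).add k3
  have k5 : L.re - 2 * L.re + L.re = 0 := by ring
  rw [k5] at k4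
  refine k4.congr' ?_
  filter_upwards [hm, hm'] with g hg hg'
  exact (int_sub_sq hg hg').symm

end diff

section ratio

variable {E : Type*} [NormedAddCommGroup E] [InnerProductSpace ℝ E] [FiniteDimensional ℝ E]
  [MeasurableSpace E] [BorelSpace E] {μ : Measure E} [μ.IsOpenPosMeasure]
  [IsFiniteMeasureOnCompacts μ]

/-- **`ρ = 1`** from the two orders of the pairing. -/
theorem ratio_one {U : Set E} (hU : IsOpen U) {ρ : E → ℝ} (hρ : ContinuousOn ρ U)
    (hpos : ∀ x ∈ U, 0 < ρ x)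
    (h : ∀ β : E → ℝ, ContDiff ℝ ∞ β → HasCompactSupport β → tsupport β ⊆ U → (∀ x, 0 ≤ β x) →
      ∫ x, β x ^ 2 * ρ x ∂μ = ∫ x, β x ^ 2 * (ρ x)⁻¹ ∂μ) : ∀ x ∈ U, ρ x = 1 := by
  intro x0 hx0
  by_contra hne
  -- `δ x = ρ x - (ρ x)⁻¹` is continuous on `U` and nonzero at `x0`
  set δ : E → ℝ := fun x => ρ x - (ρ x)⁻¹ with hδ
  have hc : ContinuousOn δ U := hρ.sub (hρ.inv₀ fun x hx => (hpos x hx).ne')
  have hd0 : δ x0 ≠ 0 := by
    intro h0
    have h1 : ρ x0 * ρ x0 = 1 := by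
      have h2 : ρ x0 = (ρ x0)⁻¹ := sub_eq_zero.1 h0
      calc ρ x0 * ρ x0 = ρ x0 * (ρ x0)⁻¹ := by rw [← h2]
        _ = 1 := mul_inv_cancel₀ (hpos x0 hx0).ne'
    have h3 : (ρ x0 - 1) * (ρ x0 + 1) = 0 := by ring_nf; nlinarith
    rcases mul_eq_zero.1 h3 with h4 | h4
    · exact hne (sub_eq_zero.1 h4)
    · linarith [hpos x0 hx0]
  -- a ball where `δ` has a fixed sign
  have hat : ContinuousAt δ x0 := hc.continuousAt (hU.mem_nhds hx0)
  have hev : ∀ᶠ x in 𝓝 x0, |δ x - δ x0| < |δ x0| / 2 := by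
    have := Metric.continuousAt_iff.1 hat (|δ x0| / 2) (by positivity)
    obtain ⟨η, hη, h1⟩ := this
    filter_upwards [Metric.ball_mem_nhds x0 hη] with x hx
    have := h1 hx
    rwa [Real.dist_eq] at this
  obtain ⟨η, hη, hball⟩ := Metric.eventually_nhds_iff_ball.1 (hev.and (hU.mem_nhds hx0))
  let β : ContDiffBump x0 := ⟨η / 4, η / 2, by positivity, by linarith⟩
  have hsup : tsupport (β : E → ℝ) ⊆ Metric.ball x0 η := by
    rw [β.tsupport_eq]
    exact Metric.closedBall_subset_ball (by show η / 2 < η; linarith)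
  have hsupU : tsupport (β : E → ℝ) ⊆ U := fun x hx => (hball x (hsup hx)).2
  have heq := h β β.contDiff β.hasCompactSupport hsupU (fun x => β.nonneg)
  have hz : ∀ x, x ∉ tsupport (β : E → ℝ) → β x ^ 2 = 0 := fun x hx => by
    rw [image_eq_zero_of_notMem_tsupport hx]; norm_num
  have hcs0 : HasCompactSupport fun x => β x ^ 2 := by
    have : (fun x => β x ^ 2) = fun x => β x * β x := by funext x; ring
    rw [this]
    exact β.hasCompactSupport.mul_right
  -- continuity of the products with `β²`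
  have hcc : ∀ wt : E → ℝ, ContinuousOn wt U → Continuous fun x => β x ^ 2 * wt x := by
    intro wt hwt
    rw [continuous_iff_continuousAt]
    intro x
    by_cases hx : x ∈ tsupport (β : E → ℝ)
    · exact ((β.continuous.pow 2).continuousAt).mul (hwt.continuousAt (hU.mem_nhds (hsupU hx)))
    · have h1 : (fun x => β x ^ 2 * wt x) =ᶠ[𝓝 x] fun _ => 0 := by
        have : (tsupport (β : E → ℝ))ᶜ ∈ 𝓝 x := (isClosed_tsupport _).isOpen_compl.mem_nhds hx
        filter_upwards [this] with y hy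
        rw [hz y hy, zero_mul]
      exact continuousAt_const.congr h1.symm
  have hcont := hcc δ hc
  have hcs : HasCompactSupport fun x => β x ^ 2 * δ x := hcs0.mul_right
  have hi1 : Integrable (fun x => β x ^ 2 * ρ x) μ :=
    (hcc ρ hρ).integrable_of_hasCompactSupport hcs0.mul_right
  have hi2 : Integrable (fun x => β x ^ 2 * (ρ x)⁻¹) μ :=
    (hcc _ (hρ.inv₀ fun x hx => (hpos x hx).ne')).integrable_of_hasCompactSupport hcs0.mul_right
  have hzero : ∫ x, β x ^ 2 * δ x ∂μ = 0 := by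
    have : (fun x => β x ^ 2 * δ x) = fun x => β x ^ 2 * ρ x - β x ^ 2 * (ρ x)⁻¹ := by
      funext x
      simp only [hδ]
      ring
    rw [this, integral_sub hi1 hi2, heq, sub_self]
  have hβ0 : β x0 = 1 := β.one_of_mem_closedBall (Metric.mem_closedBall_self (by
    show 0 ≤ η / 4
    positivity))
  rcases lt_or_gt_of_ne hd0 with hneg | hpos'
  · have hnn : ∀ x, 0 ≤ -(β x ^ 2 * δ x) := by
      intro x
      by_cases hx : x ∈ tsupport (β : E → ℝ)
      · have h1 := (hball x (hsup hx)).1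
        rw [abs_of_neg hneg] at h1
        have h2 := abs_lt.1 h1
        have h3 : δ x ≤ 0 := by linarith
        nlinarith [sq_nonneg (β x)]
      · rw [hz x hx, zero_mul, neg_zero]
    have h1 : 0 < ∫ x, -(β x ^ 2 * δ x) ∂μ := by
      refine hcont.neg.integral_pos_of_hasCompactSupport_nonneg_nonzero ?_ hnn (x := x0) ?_
      · exact hcs.neg
      · rw [hβ0, one_pow, one_mul]
        exact neg_ne_zero.2 hd0
    rw [integral_neg, hzero, neg_zero] at h1
    exact lt_irrefl _ h1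
  · have hnn : ∀ x, 0 ≤ β x ^ 2 * δ x := by
      intro x
      by_cases hx : x ∈ tsupport (β : E → ℝ)
      · have h1 := (hball x (hsup hx)).1
        rw [abs_of_pos hpos'] at h1
        have h2 := abs_lt.1 h1
        have h3 : 0 ≤ δ x := by linarith
        exact mul_nonneg (sq_nonneg _) h3
      · rw [hz x hx, zero_mul]
    have h1 : 0 < ∫ x, β x ^ 2 * δ x ∂μ := by
      refine hcont.integral_pos_of_hasCompactSupport_nonneg_nonzero hcs hnn (x := x0) ?_
      rw [hβ0, one_pow, one_mul]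
      exact hd0
    rw [hzero] at h1
    exact lt_irrefl _ h1

end ratio

end Crest.Agent.R330.HChart815

end
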