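import Crest.Agent.R330.Psi8_477
import Crest.Agent.R330.PiVol_269
import Crest.Agent.R330.TDef_414
import Crest.Agent.R330.TCore_944

/-!
# Row 330, S8-PSI (helper477): the block coordinates of a channel

* `e9 ε : Cfg n →ₗᵢ Cfg N` : the isometry `1 ⊗ ε` on configurations.
* `iB ε ho : EY k →ₗᵢ Cfg N` : the block coordinates; `iBT` its adjoint.
* `Link C k bb ε` : the blocks of the stabiliser algebra of the channel `C`.
* `Link.blk_eq` : `C.Blk = range iB`; `Link.iBe : EY k ≃ₗᵢ C.Blk`; `integral_blk`.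
* `Theta_comp`, `wA_iB`, `qblk_iB` : the block charges of the channel are the sum of the charges
  `BD.bch` of the blocks.
-/

set_option autoImplicit false
set_option linter.unusedSectionVars false

open MeasureTheory Filter Topology Crest.MathPhysics.MatrixQM
open scoped ContDiff InnerProductSpace ENNReal

noncomputable section

namespace Crest.Agent.R330.Psi477

open Crest.Agent.R330.Cliff442 Crest.Agent.R330.Fact161 Crest.Agent.R330.FactI161
open Crest.Agent.R330.Bind6839 Crest.Agent.R330.Defs478 Crest.Agent.R330.SInd478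
open Crest.Agent.R330.Pkg915 Crest.Agent.R330.LS839 Crest.Agent.R330.TDef414
open Crest.Agent.R330.Frame839 Crest.Agent.R330.IBP837 Crest.Agent.R330.TCore944

variable {N n n' : ℕ}

/-! ## The embedding -/

/-- The isometry `1 ⊗ ε` on configurations. -/
def e9 (ε : Colg n →ₗᵢ[ℝ] Colg N) : Cfg n →ₗᵢ[ℝ] Cfg N where
  toFun x := mkc fun i => ε (comp x i)
  map_add' x y := by
    refine ext_comp fun i => ?_
    rw [comp_mkc, comp_add, comp_add, comp_mkc, comp_mkc, map_add]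
  map_smul' r x := by
    refine ext_comp fun i => ?_
    rw [comp_mkc, RingHom.id_apply, comp_smul, comp_smul, comp_mkc, map_smul]
  norm_map' x := by
    have h : ‖mkc (fun i => ε (comp x i))‖ ^ 2 = ‖x‖ ^ 2 := by
      rw [norm_sq_comp, norm_sq_comp]
      exact Finset.sum_congr rfl fun i _ => by rw [comp_mkc, ε.norm_map]
    exact (sq_eq_sq₀ (norm_nonneg _) (norm_nonneg _)).1 h

@[simp] theorem comp_e9 (ε : Colg n →ₗᵢ[ℝ] Colg N) (x : Cfg n) (i : Fin 9) :
    comp (e9 ε x) i = ε (comp x i) := rfl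

theorem inner_e9 {ε : Colg n →ₗᵢ[ℝ] Colg N} {ε' : Colg n' →ₗᵢ[ℝ] Colg N}
    (h : ∀ u v, ⟪ε u, ε' v⟫_ℝ = 0) (x : Cfg n) (y : Cfg n') : ⟪e9 ε x, e9 ε' y⟫_ℝ = 0 := by
  rw [inner_comp]
  exact Finset.sum_eq_zero fun i _ => by rw [comp_e9, comp_e9, h]

theorem comp_single (i j : Fin 9) (A : Fin (n ^ 2 - 1)) :
    comp (EuclideanSpace.single (i, A) (1 : ℝ) : Cfg n) j =
      if j = i then EuclideanSpace.single A 1 else 0 := by
  ext B
  change (EuclideanSpace.single (i, A) (1 : ℝ) : Cfg n) (j, B) = _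
  by_cases h : j = i
  · subst h
    rw [if_pos rfl]
    simp [Prod.ext_iff]
  · rw [if_neg h]
    simp [Prod.ext_iff, h]

variable {κ : Type*} [Fintype κ] [DecidableEq κ] {k : κ → ℕ}

theorem comp_sum {ι : Type*} (s : Finset ι) (f : ι → Cfg N) (i : Fin 9) :
    comp (∑ a ∈ s, f a) i = ∑ a ∈ s, comp (f a) i := by
  classical
  induction s using Finset.induction_on with
  | empty => simp [comp_zero]
  | insert a s ha ih => rw [Finset.sum_insert ha, Finset.sum_insert ha, comp_add, ih]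

/-- The block coordinates as a linear map. -/
def iBl (ε : ∀ q, Colg (k q) →ₗᵢ[ℝ] Colg N) : EY k →ₗ[ℝ] Cfg N where
  toFun Y := ∑ q, e9 (ε q) (Y q)
  map_add' Y Y' := by
    rw [← Finset.sum_add_distrib]
    exact Finset.sum_congr rfl fun q _ => by rw [PiLp.add_apply, map_add]
  map_smul' r Y := by
    rw [RingHom.id_apply, Finset.smul_sum]
    exact Finset.sum_congr rfl fun q _ => by rw [PiLp.smul_apply, map_smul]

/-- **The block coordinates.** -/
def iB (ε : ∀ q, Colg (k q) →ₗᵢ[ℝ] Colg N)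
    (ho : ∀ q q', q ≠ q' → ∀ u v, ⟪ε q u, ε q' v⟫_ℝ = 0) : EY k →ₗᵢ[ℝ] Cfg N :=
  (iBl ε).isometryOfInner fun Y Y' => by
    change ⟪∑ q, e9 (ε q) (Y q), ∑ q, e9 (ε q) (Y' q)⟫_ℝ = _
    have h0 : ⟪Y, Y'⟫_ℝ = ∑ q, ⟪Y q, Y' q⟫_ℝ := PiLp.inner_apply _ _
    rw [h0, sum_inner]
    refine Finset.sum_congr rfl fun q _ => ?_
    rw [inner_sum, Finset.sum_eq_single q]
    · exact (e9 (ε q)).inner_map_map _ _
    · intro q' _ hq'
      exact inner_e9 (ho q q' (Ne.symm hq')) _ _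
    · intro h
      exact absurd (Finset.mem_univ _) h

section iB

variable {ε : ∀ q, Colg (k q) →ₗᵢ[ℝ] Colg N}
  {ho : ∀ q q', q ≠ q' → ∀ u v, ⟪ε q u, ε q' v⟫_ℝ = 0}

theorem iB_apply (Y : EY k) : iB ε ho Y = ∑ q, e9 (ε q) (Y q) := rfl

theorem comp_iB (Y : EY k) (i : Fin 9) : comp (iB ε ho Y) i = ∑ q, ε q (comp (Y q) i) := by
  rw [iB_apply, comp_sum]
  rfl

theorem iB_sg (q : κ) (a : Cfg (k q)) : iB ε ho (BD.sg q a) = e9 (ε q) a := by
  rw [iB_apply, Finset.sum_eq_single q]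
  · simp [BD.sg]
  · intro q' _ hq'
    simp [BD.sg, hq']
  · intro h
    exact absurd (Finset.mem_univ _) h

variable (ε ho)

/-- The adjoint: the block coordinates of a configuration. -/
def iBT : Cfg N →L[ℝ] EY k := ContinuousLinearMap.adjoint (iB ε ho).toContinuousLinearMap

theorem iBT_iB (Y : EY k) : iBT ε ho (iB ε ho Y) = Y := by
  refine ext_inner_right ℝ fun Y' => ?_
  unfold iBT
  rw [ContinuousLinearMap.adjoint_inner_left]
  exact (iB ε ho).inner_map_map Y Y'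

end iB

/-! ## The blocks of a channel -/

variable {p : ℕ} {b : ColorBasis N} {S : Type} [Group S] [Fintype S]

/-- The blocks of the stabiliser algebra of the channel `C`. -/
structure Link (C : Chn b p S) (k : κ → ℕ) (bb : ∀ q, ColorBasis (k q))
    (ε : ∀ q, Colg (k q) →ₗᵢ[ℝ] Colg N) : Prop where
  ho : ∀ q q', q ≠ q' → ∀ u v, ⟪ε q u, ε q' v⟫_ℝ = 0
  br : ∀ q u v, (colAlg b).br (ε q u) (ε q v) = ε q ((colAlg (bb q)).br u v)
  br0 : ∀ q q', q ≠ q' → ∀ u v, (colAlg b).br (ε q u) (ε q' v) = 0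
  cen0 : ∀ q t u, ⟪C.cen t, ε q u⟫_ℝ = 0
  mem : ∀ q u, ε q u ∈ C.kk
  span : ∀ u ∈ C.kk, ∃ t, ∃ v : ∀ q, Colg (k q), u = C.cen t + ∑ q, ε q (v q)

variable {C : Chn b p S} {bb : ∀ q, ColorBasis (k q)} {ε : ∀ q, Colg (k q) →ₗᵢ[ℝ] Colg N}

theorem Link.iB_mem (h : Link C k bb ε) (Y : EY k) : iB ε h.ho Y ∈ C.Blk := by
  refine Submodule.mem_inf.2 ⟨fun i => ?_, ?_⟩
  · rw [comp_iB]
    exact Submodule.sum_mem _ fun q _ => h.mem q _
  · rw [Submodule.mem_orthogonal]
    rintro _ ⟨X, rfl⟩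
    change ⟪C.cf X, _⟫_ℝ = 0
    rw [inner_comp]
    refine Finset.sum_eq_zero fun i _ => ?_
    rw [comp_iB, inner_sum, C.comp_cf]
    exact Finset.sum_eq_zero fun q _ => h.cen0 q _ _

theorem Link.blk_eq (h : Link C k bb ε) :
    C.Blk = LinearMap.range (iB ε h.ho).toLinearMap := by
  refine le_antisymm (fun x hx => ?_) ?_
  · obtain ⟨h1, h2⟩ := Submodule.mem_inf.1 hx
    have h3 : ∀ i, ∃ t, ∃ v : ∀ q, Colg (k q), comp x i = C.cen t + ∑ q, ε q (v q) :=
      fun i => h.span _ (h1 i)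
    choose t v hv using h3
    have h4 : ∀ i, ⟪C.cen (t i), comp x i⟫_ℝ = ‖C.cen (t i)‖ ^ 2 := fun i => by
      rw [hv i, inner_add_right, real_inner_self_eq_norm_sq, inner_sum,
        Finset.sum_eq_zero fun q _ => h.cen0 q _ _, add_zero]
    have h5 : ∑ i, ‖C.cen (t i)‖ ^ 2 = 0 := by
      have h6 := (Submodule.mem_orthogonal _ _).1 h2 (C.cf (mkp t)) ⟨mkp t, rfl⟩
      rw [inner_comp] at h6
      simp only [C.comp_cf, pcomp_mkp, h4] at h6
      exact h6
    have h6 : ∀ i, C.cen (t i) = 0 := fun i => by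
      have := (Finset.sum_eq_zero_iff_of_nonneg fun i _ => sq_nonneg ‖C.cen (t i)‖).1 h5 i
        (Finset.mem_univ i)
      exact norm_eq_zero.1 (pow_eq_zero_iff two_ne_zero |>.1 this)
    refine ⟨WithLp.toLp 2 fun q => mkc fun i => v i q, ?_⟩
    change iB ε h.ho _ = x
    refine ext_comp fun i => ?_
    rw [comp_iB, hv i, h6 i, zero_add]
    rfl
  · rintro _ ⟨Y, rfl⟩
    exact h.iB_mem Y

/-- The block coordinates as an isometry onto `C.Blk`. -/
def Link.iBe (h : Link C k bb ε) : EY k ≃ₗᵢ[ℝ] C.Blk :=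
  (iB ε h.ho).equivRange.trans (LinearIsometryEquiv.ofEq _ _ h.blk_eq.symm)

theorem Link.coe_iBe (h : Link C k bb ε) (Y : EY k) : ((h.iBe Y : C.Blk) : Cfg N) = iB ε h.ho Y :=
  rfl

/-- Integrals over the block part. -/
theorem Link.integral_blk (h : Link C k bb ε) {E : Type*} [NormedAddCommGroup E]
    [NormedSpace ℝ E] (f : Cfg N → E) : ∫ Y : C.Blk, f Y = ∫ Y : EY k, f (iB ε h.ho Y) := by
  have h1 := (h.iBe.measurePreserving).integral_comp
    (h.iBe.toHomeomorph.measurableEmbedding) (fun Y : C.Blk => f Y)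
  exact h1.symm

theorem Link.integral_blk' (h : Link C k bb ε) {E : Type*} [NormedAddCommGroup E]
    [NormedSpace ℝ E] (f : C.Blk → E) : ∫ Y : C.Blk, f Y = ∫ Y : EY k, f (h.iBe Y) :=
  ((h.iBe.measurePreserving).integral_comp (h.iBe.toHomeomorph.measurableEmbedding) f).symm

/-! ## The charges -/

section charges

variable {F : Type*} [NormedAddCommGroup F] [InnerProductSpace ℂ F] [FiniteDimensional ℂ F]
  (M : FermionRep N F) (G : GammaNine)

theorem thv_sum (β : Fin 16) {ι : Type*} (s : Finset ι) (f : ι → Colg N) (v : F) :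
    thv M β (∑ a ∈ s, f a) v = ∑ a ∈ s, thv M β (f a) v := by
  rw [← cr_ins, map_sum, CRep.sum, LinearMap.sum_apply]
  exact Finset.sum_congr rfl fun a _ => by rw [cr_ins]

theorem thv_map (β : Fin 16) (ε : Colg n →ₗᵢ[ℝ] Colg N) (u : Colg n) (v : F) :
    thv M β (ε u) v = ∑ A, ((u A : ℝ) : ℂ) • thv M β (ε (EuclideanSpace.single A 1)) v := by
  have h : u = ∑ A, u A • (EuclideanSpace.single A (1 : ℝ) : Colg n) := by
    ext B
    simp [Finset.sum_apply, Pi.single_apply]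
  conv_lhs => rw [h]
  rw [map_sum, thv_sum]
  refine Finset.sum_congr rfl fun A _ => ?_
  rw [map_smul, thv_smul]

/-- The kinetic coefficients through the components. -/
theorem Theta_comp (α : Fin 16) (x : Cfg N) (v : F) :
    Theta M G α x v = ∑ i, ∑ β, (G.γ i α β : ℂ) • thv M β (comp x i) v := by
  rw [Theta_eq, vco_apply]
  unfold thv
  simp only [LinearMap.sum_apply, LinearMap.smul_apply, Finset.smul_sum, smul_smul]
  have h1 : ∀ (A : Fin (N ^ 2 - 1)) (β : Fin 16),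
      ((∑ i, G.γ i α β * x (i, A) : ℝ) : ℂ) • M.θ β A v =
        ∑ i, ((G.γ i α β : ℂ) * ((x (i, A) : ℝ) : ℂ)) • M.θ β A v := by
    intro A β
    push_cast
    rw [Finset.sum_smul]
  simp only [h1]
  rw [Finset.sum_comm]
  conv_lhs => enter [2, β]; rw [Finset.sum_comm]
  rw [Finset.sum_comm]
  rfl

/-- The potential vector. -/
def wpv (b : ColorBasis N) (g m : ℝ) (α β : Fin 16) (x : Cfg N) : Colg N :=
  WithLp.toLp 2 fun A => wpot b G g m α β A x

theorem wpv_eq (b : ColorBasis N) (g m : ℝ) (α β : Fin 16) (x : Cfg N) :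
    wpv G b g m α β x = g • (∑ i, ∑ j, (1 / 2 * G.γ2 i j α β) •
      (colAlg b).br (comp x i) (comp x j)) - m • ∑ j, (cc j * (Gam G * G.γ j) α β) • comp x j := by
  rw [← wbv_eq, ← wlv_eq]
  ext A
  rfl

theorem wA_eq (b : ColorBasis N) (g m : ℝ) (α : Fin 16) (x : Cfg N) (v : F) :
    wA b M G g m α x v = ∑ β, thv M β (wpv G b g m α β x) v := by
  unfold wA
  rw [vco_apply, Finset.sum_comm]
  refine Finset.sum_congr rfl fun β _ => ?_
  unfold thv
  rw [LinearMap.sum_apply]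
  rfl

variable {M G}

theorem Link.wpv_iB (h : Link C k bb ε) (g m : ℝ) (α β : Fin 16) (Y : EY k) :
    wpv G b g m α β (iB ε h.ho Y) = ∑ q, ε q (wpv G (bb q) g m α β (Y q)) := by
  have hb : ∀ i j, (colAlg b).br (comp (iB ε h.ho Y) i) (comp (iB ε h.ho Y) j) =
      ∑ q, ε q ((colAlg (bb q)).br (comp (Y q) i) (comp (Y q) j)) := by
    intro i j
    rw [comp_iB, comp_iB, map_sum]
    refine Finset.sum_congr rfl fun q _ => ?_
    rw [map_sum, LinearMap.sum_apply, Finset.sum_eq_single q]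
    · exact h.br q _ _
    · intro q' _ hq'
      exact h.br0 q' q hq' _ _
    · intro h0
      exact absurd (Finset.mem_univ _) h0
  simp only [wpv_eq, hb]
  simp only [comp_iB, map_sub, map_smul, map_sum, Finset.smul_sum]
  rw [Finset.sum_sub_distrib]
  congr 1
  · rw [Finset.sum_comm]
    conv_lhs => enter [2, j]; rw [Finset.sum_comm]
    rw [Finset.sum_comm]
    refine Finset.sum_congr rfl fun q _ => ?_
    rw [Finset.sum_comm]
  · rw [Finset.sum_comm]

theorem Link.wA_iB (h : Link C k bb ε) (g m : ℝ) (α : Fin 16) (Y : EY k) (v : F) :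
    wA b M G g m α (iB ε h.ho Y) v = ∑ q, ∑ A : Fin (k q ^ 2 - 1), ∑ β : Fin 16,
      ((wpot (bb q) G g m α β A (Y q) : ℝ) : ℂ) •
        thv M β (ε q (EuclideanSpace.single A 1)) v := by
  rw [wA_eq]
  simp only [h.wpv_iB, thv_sum, thv_map M _ (ε _) (wpv G _ g m α _ _)]
  rw [Finset.sum_comm]
  refine Finset.sum_congr rfl fun q _ => ?_
  rw [Finset.sum_comm]
  rfl

variable {Fb : κ → Type*} [∀ p, NormedAddCommGroup (Fb p)] [∀ p, InnerProductSpace ℂ (Fb p)]
  [∀ p, FiniteDimensional ℂ (Fb p)]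

/-- An orthonormal basis of the block part. -/
def Link.basis (h : Link C k bb ε) :
    OrthonormalBasis (Σ q, Fin 9 × Fin (k q ^ 2 - 1)) ℝ C.Blk :=
  (Pi.orthonormalBasis fun q => EuclideanSpace.basisFun (Fin 9 × Fin (k q ^ 2 - 1)) ℝ).map h.iBe

theorem Link.basis_apply (h : Link C k bb ε) (j : Σ q, Fin 9 × Fin (k q ^ 2 - 1)) :
    ((h.basis j : C.Blk) : Cfg N) = e9 (ε j.1) (EuclideanSpace.single j.2 1) := by
  unfold Link.basis
  rw [OrthonormalBasis.map_apply, h.coe_iBe, Pi.orthonormalBasis_apply]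
  rw [← iB_sg (ho := h.ho)]
  simp [BD.sg]

theorem Theta_e9 (α : Fin 16) (ε : Colg n →ₗᵢ[ℝ] Colg N) (i : Fin 9) (A : Fin (n ^ 2 - 1)) (v : F) :
    Theta M G α (e9 ε (EuclideanSpace.single (i, A) 1)) v =
      ∑ β, (G.γ i α β : ℂ) • thv M β (ε (EuclideanSpace.single A 1)) v := by
  rw [Theta_comp, Finset.sum_eq_single i]
  · simp only [comp_e9, comp_single, if_true]
  · intro j _ hj
    refine Finset.sum_eq_zero fun β _ => ?_
    rw [comp_e9, comp_single, if_neg hj, map_zero]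
    unfold thv
    simp
  · intro h
    exact absurd (Finset.mem_univ _) h

/-- **The block charges of the channel are the sums of the charges of the blocks.** -/
theorem Link.qblk_iB (h : Link C k bb ε) (D : BD M G k Fb) (hD : D.ε = ε) (g : ℝ) (α : Fin 16)
    {f : Cfg N → F} {Y : EY k} (hf : DifferentiableAt ℝ f (iB ε h.ho Y)) :
    qblk C M G g α f (iB ε h.ho Y) =
      ∑ q, D.bch bb q α g 0 (fun Y => f (iB ε h.ho Y)) Y := by
  subst hD
  unfold qblk
  -- the kinetic part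
  have h1 : (∑ n, aA M G α ((stdOrthonormalBasis ℝ C.Blk n : C.Blk) : Cfg N)
      (fderiv ℝ f (iB D.ε h.ho Y) ((stdOrthonormalBasis ℝ C.Blk n : C.Blk) : Cfg N))) =
      ∑ j, aA M G α ((h.basis j : C.Blk) : Cfg N)
        (fderiv ℝ f (iB D.ε h.ho Y) ((h.basis j : C.Blk) : Cfg N)) := by
    have h2 := contraction_basis ((kb M G α (fderiv ℝ f (iB D.ε h.ho Y))).compl₁₂
      C.Blk.subtype C.Blk.subtype) (stdOrthonormalBasis ℝ C.Blk) h.basis
    simp only [LinearMap.compl₁₂_apply, kb_apply, Submodule.coe_subtype] at h2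
    have h3 : ∀ x : Cfg N, ∀ v : F, aA M G α x v = (-Complex.I) • Theta M G α x v :=
      fun _ _ => rfl
    simp only [h3]
    rw [← Finset.smul_sum, ← Finset.smul_sum, h2]
  have hd : ∀ v : EY k, fderiv ℝ (fun Y => f (iB D.ε h.ho Y)) Y v =
      fderiv ℝ f (iB D.ε h.ho Y) (iB D.ε h.ho v) := by
    intro v
    have h4 : HasFDerivAt (fun Y => f (iB D.ε h.ho Y))
        ((fderiv ℝ f (iB D.ε h.ho Y)).comp (iB D.ε h.ho).toContinuousLinearMap) Y :=
      hf.hasFDerivAt.comp Y (iB D.ε h.ho).toContinuousLinearMap.hasFDerivAt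
    rw [h4.fderiv]
    rfl
  rw [h1, h.wA_iB, Fintype.sum_sigma, ← Finset.sum_add_distrib]
  refine Finset.sum_congr rfl fun q _ => ?_
  unfold BD.bch
  congr 1
  rw [Fintype.sum_prod_type]
  refine Finset.sum_congr rfl fun i _ => Finset.sum_congr rfl fun A _ => ?_
  rw [h.basis_apply, hd, iB_sg]
  have h3 : ∀ x : Cfg N, ∀ v : F, aA M G α x v = (-Complex.I) • Theta M G α x v :=
    fun _ _ => rfl
  rw [h3, Theta_e9, Finset.smul_sum]
  refine Finset.sum_congr rfl fun β _ => ?_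
  rw [smul_smul]

end charges

end Crest.Agent.R330.Psi477

end
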