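import Crest.Agent.R330.BlkNeut2_735
import Crest.Agent.R330.PsiGeo_477
import Crest.Agent.R330.TDefB_414

/-!
# Row 330 (helper735): the core property in the block coordinates of a channel

* `Io C bb ε` : the block gauge elements of a channel.
* `Io.fix` : they fix the vectors of `C.kk` orthogonal to their block.
* `hcore_Y` : the hypothesis `hcore` of 494's product Hardy inequality for a function on `C.Blk`
  with the properties required by 414's `PsiHardy`.
-/

set_option autoImplicit false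
set_option linter.unusedSectionVars false

open MeasureTheory Crest.MathPhysics.MatrixQM
open scoped BigOperators InnerProductSpace ContDiff

noncomputable section

namespace Crest.Agent.R330.BlkNeut735

open Crest.Agent.R330.Cliff442 Crest.Agent.R330.Cliff442.CRep Crest.Agent.R330.Fact161
open Crest.Agent.R330.LS839 Crest.Agent.R330.Bind6839 Crest.Agent.R330.Defs478
open Crest.Agent.R330.SInd478 Crest.Agent.R330.FactI161 Crest.Agent.R330.TCore944
open Crest.Agent.R330.TDef414 Crest.Agent.R330.Psi477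

section link

variable {N p : ℕ} {b : ColorBasis N} {S : Type} [Group S] [Fintype S] {C : Chn b p S}
  {κ : Type*} [Fintype κ] [DecidableEq κ] {k : κ → ℕ} {bb : ∀ q, ColorBasis (k q)}
  {ε : ∀ q, Colg (k q) →ₗᵢ[ℝ] Colg N}

/-- The block gauge elements of a channel. -/
def Io (C : Chn b p S) (bb : ∀ q, ColorBasis (k q)) (ε : ∀ q, Colg (k q) →ₗᵢ[ℝ] Colg N) : Prop :=
  ∀ q (a : Matrix.specialUnitaryGroup (Fin (k q)) ℂ), ∃ g : Matrix.specialUnitaryGroup (Fin N) ℂ,
    (∀ X, b.act g (C.cf X) = C.cf X) ∧ (∀ u, adC b g (ε q u) = ε q (adC (bb q) a u)) ∧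
    ∀ q', q' ≠ q → ∀ u, adC b g (ε q' u) = ε q' u

theorem adC_cen_of {g : Matrix.specialUnitaryGroup (Fin N) ℂ}
    (h1 : ∀ X, b.act g (C.cf X) = C.cf X) (t : EuclideanSpace ℝ (Fin p)) :
    adC b g (C.cen t) = C.cen t := by
  have h := congrArg (fun x => comp x 0) (h1 (mkp fun _ => t))
  simp only [comp_actg, C.comp_cf, pcomp_mkp] at h
  exact h

/-- Block gauge elements fix the light directions orthogonal to their block. -/
theorem fix_of (h : Link C k bb ε) {q : κ} {g : Matrix.specialUnitaryGroup (Fin N) ℂ}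
    (h1 : ∀ X, b.act g (C.cf X) = C.cf X) (h3 : ∀ q', q' ≠ q → ∀ u, adC b g (ε q' u) = ε q' u)
    {u : Colg N} (hu : u ∈ C.kk) (huo : ∀ v, ⟪u, ε q v⟫_ℝ = 0) : adC b g u = u := by
  obtain ⟨t, v, rfl⟩ := h.span u hu
  have hv : v q = 0 := by
    have h4 := huo (v q)
    rw [inner_add_left, h.cen0, zero_add, sum_inner, Finset.sum_eq_single q] at h4
    · rw [(ε q).inner_map_map] at h4
      exact inner_self_eq_zero.1 h4
    · intro q' _ hq'
      exact h.ho q' q hq' _ _
    · intro h0
      exact absurd (Finset.mem_univ _) h0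
  rw [map_add, map_sum, adC_cen_of h1]
  congr 1
  refine Finset.sum_congr rfl fun q' _ => ?_
  by_cases hq : q' = q
  · subst hq
    rw [hv, map_zero, map_zero]
  · exact h3 q' hq _

/-- A gauge element of the block `q` acts in the slot `q`. -/
theorem act_iB (h : Link C k bb ε) {q : κ} {a : Matrix.specialUnitaryGroup (Fin (k q)) ℂ}
    {g : Matrix.specialUnitaryGroup (Fin N) ℂ}
    (h2 : ∀ u, adC b g (ε q u) = ε q (adC (bb q) a u))
    (h3 : ∀ q', q' ≠ q → ∀ u, adC b g (ε q' u) = ε q' u) {Y Y' : EY k}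
    (hq : Y' q = (bb q).act a (Y q)) (hq' : ∀ q', q' ≠ q → Y' q' = Y q') :
    iB ε h.ho Y' = b.act g (iB ε h.ho Y) := by
  refine ext_comp fun i => ?_
  rw [comp_actg, comp_iB, comp_iB, map_sum]
  refine Finset.sum_congr rfl fun r _ => ?_
  by_cases hr : r = q
  · subst hr
    rw [hq, comp_actg, h2]
  · rw [hq' r hr, h3 r hr]

variable {F : Type*} [NormedAddCommGroup F] [InnerProductSpace ℂ F] [FiniteDimensional ℂ F]
  {M : FermionRep N F} {R : GaugeAction b M} {G : GammaNine} {Fb : κ → Type*}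
  [∀ p, NormedAddCommGroup (Fb p)] [∀ p, InnerProductSpace ℂ (Fb p)]
  [∀ p, FiniteDimensional ℂ (Fb p)]

/-- **The core property of the components**, in the block coordinates of a channel, for any
splitting `T` of `EY k` along the slot `q`. -/
theorem hcore_Y (h : Link C k bb ε) (hio : Io C bb ε) (D : BD M G k Fb) (hD : D.ε = ε)
    (Rb : ∀ q, GaugeAction (bb q) (D.Mb q)) {w : C.Blk → F} (hw : ContDiff ℝ ∞ w)
    (hcs : HasCompactSupport w) (hv : ∀ Y, w Y ∈ C.Fl M G)
    (heq : ∀ (g : Matrix.specialUnitaryGroup (Fin N) ℂ) (X : Pos p), C.Reg X →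
      b.act g (C.cf X) = C.cf X → ∀ Y Y' : C.Blk, (Y' : Cfg N) = b.act g Y →
        w Y' = R.ρ g (w Y)) (hX : ∃ X, C.Reg X) (q : κ)
    {E' : Type*} [NormedAddCommGroup E'] [InnerProductSpace ℝ E'] [FiniteDimensional ℝ E']
    (T : EY k ≃ₗᵢ[ℝ] WithLp 2 (Cfg (k q) × E')) (hT : ∀ y, Prod494.emb T y = BD.sg q y)
    {κ' : Type*} [Fintype κ'] [DecidableEq κ'] (W : OrthonormalBasis κ' ℂ (vacB M G (D.ε q)))
    (i : κ') (x' : E') :
    IsCoreVec (bb q) (Rb q) fun y => (mult M (D.isv q) (D.nm q) (D.ε q) W).comp i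
      (Prod494.fib T (fun Y => w (h.iBe Y)) x' y) := by
  subst hD
  let _ : MeasurableSpace E' := borel E'
  have _ : BorelSpace E' := ⟨rfl⟩
  obtain ⟨X, hX⟩ := hX
  choose io h1 h2 h3 using hio q
  refine core_comp R (Rb q) (D.isv q) (D.nm q) (D.ε q) (K := C.kk) W (h.mem q) (io := io)
    h2 (fun a u hu huo => fix_of h (h1 a) (h3 a) hu huo) T
    (hw.comp h.iBe.toContinuousLinearEquiv.contDiff)
    (hcs.comp_homeomorph h.iBe.toHomeomorph) (fun Y => hv _) (fun a y x' => ?_) i x'
  refine heq (io a) X hX (h1 a X) _ _ ?_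
  change iB D.ε h.ho (Prod494.pt T ((bb q).act a y) x') =
    b.act (io a) (iB D.ε h.ho (Prod494.pt T y x'))
  -- the points of the fibre
  have hpt : ∀ y : Cfg (k q), Prod494.pt T y x' = BD.sg q y + Prod494.pt T 0 x' := fun y => by
    rw [← hT, add_comm, ← Prod494.pt_add_emb, zero_add]
  have h0 : (Prod494.pt T 0 x' : EY k) q = 0 := by
    refine ext_inner_right ℝ fun v => ?_
    have e1 : ⟪(Prod494.pt T 0 x' : EY k), BD.sg q v⟫_ℝ = ⟪(Prod494.pt T 0 x' : EY k) q, v⟫_ℝ := by
      rw [PiLp.inner_apply, Finset.sum_eq_single q]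
      · simp [BD.sg]
      · intro r _ hr
        simp [BD.sg, hr]
      · intro h0
        exact absurd (Finset.mem_univ _) h0
    rw [← e1, ← hT, inner_zero_left]
    unfold Prod494.emb Prod494.pt
    rw [T.symm.inner_map_map, WithLp.prod_inner_apply]
    simp
  refine act_iB h (h2 a) (h3 a) ?_ fun r hr => ?_
  · rw [hpt ((bb q).act a y), hpt y, PiLp.add_apply, PiLp.add_apply, h0, add_zero, add_zero]
    simp [BD.sg]
  · rw [hpt ((bb q).act a y), hpt y, PiLp.add_apply, PiLp.add_apply]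
    simp [BD.sg, hr]

end link

end Crest.Agent.R330.BlkNeut735

end
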