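import Crest.Agent.R330.LocD_8

/-!
# Row 330, S9-LOC (helper406): the block charges of the fibre projection

* `fub_fpr_le` : `∫_X ∫_Y ‖fpr gs pV Ψ (uE (X - X0, Y))‖² ≤ ∫ ‖Ψ‖²`.

-/

set_option autoImplicit false
set_option linter.unusedSectionVars false

open MeasureTheory Filter Topology Crest.MathPhysics.MatrixQM
open scoped ContDiff InnerProductSpace ENNReal

noncomputable section

namespace Crest.Agent.R330.HQFub406

open Crest.Agent.R330.Defs478 Crest.Agent.R330.LS839 Crest.Agent.R330.Frame839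
  Crest.Agent.R330.Clus839
  Crest.Agent.R330.Bind6839 Crest.Agent.R330.SlG944 Crest.Agent.R330.SlF944
  Crest.Agent.R330.IBP837 Crest.Agent.R330.TDef414
  Crest.Agent.R330.LemA342 Crest.Agent.R330.FibProj837 Crest.Agent.R330.LocB8
  Crest.Agent.R330.LocC8 Crest.Agent.R330.LocD8
  Crest.Agent.R330.SlQE87 Crest.Agent.R330.TrialSys796
open Crest.Agent.R330.SlB314 (Nor Tan br)
open Crest.Agent.R330.KEq823 (actU actZ)

variable {N p : ℕ} {b : ColorBasis N} {S : Type} [Group S] [Fintype S] {C : Chn b p S}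
  {F : Type*} [NormedAddCommGroup F] [InnerProductSpace ℂ F] [FiniteDimensional ℂ F]
  {M : FermionRep N F} {R : GaugeAction b M} {G : GammaNine}

section fub

variable {P : TPack C M R G} {σ : Sl C} {ρ : Pos p → Pos p} {g : ℝ}

/-- the fibre projection of any slice function -/
def fp (P : TPack C M R G) (σ : Sl C) (ρ : Pos p → Pos p) (g : ℝ)
    (Ψ : Sc b (C.cf σ.X0) → F) : Uk b (C.cf σ.X0) → F :=
  fpr volume (gsl P σ ρ g) (fun u => pV P (posu σ (u : Cfg N))) Ψ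

theorem continuous_vint (hρ : ContDiff ℝ ∞ ρ) (hr : ∀ X, ‖ρ X - σ.X0‖ < σ.r)
    {Ψ : Sc b (C.cf σ.X0) → F} (hΨ : Continuous Ψ) (hc : HasCompactSupport Ψ) :
    Continuous (fpr (volume : Measure (Zs b (C.cf σ.X0))) (gsl P σ ρ g)
      (fun _ => LinearMap.id) Ψ) := by
  have h1 : ContDiff ℝ ((0 : ℕ∞) : WithTop ℕ∞) (fpr (volume : Measure (Zs b (C.cf σ.X0)))
      (gsl P σ ρ g) (fun _ => LinearMap.id) Ψ) :=
    contDiff_fpr (n := 0) (contDiff_zero.2 (contDiff_gsl hρ hr g).continuous)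
      (fun _ => contDiff_const) (contDiff_zero.2 hΨ) hc
  exact h1.continuous

theorem fp_eq (Ψ : Sc b (C.cf σ.X0) → F) (u : Uk b (C.cf σ.X0)) : fp P σ ρ g Ψ u =
    pV P (posu σ (u : Cfg N)) (fpr (volume : Measure (Zs b (C.cf σ.X0))) (gsl P σ ρ g)
      (fun _ => LinearMap.id) Ψ u) := rfl

theorem aesm_fp (hρ : ContDiff ℝ ∞ ρ) (hr : ∀ X, ‖ρ X - σ.X0‖ < σ.r)
    {Ψ : Sc b (C.cf σ.X0) → F} (hΨ : Continuous Ψ) (hc : HasCompactSupport Ψ) :
    AEStronglyMeasurable (fp P σ ρ g Ψ) volume :=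
  aesm_fpr (continuous_vint hρ hr hΨ hc)

theorem integrable_fp_sq (hρ : ContDiff ℝ ∞ ρ) (hr : ∀ X, ‖ρ X - σ.X0‖ < σ.r) (hg : 0 < g)
    {Ψ : Sc b (C.cf σ.X0) → F} (hΨ : Continuous Ψ) (hc : HasCompactSupport Ψ) :
    Integrable (fun u => ‖fp P σ ρ g Ψ u‖ ^ 2) := by
  have hi : Integrable (fun q => ‖Ψ q‖ ^ 2)
      ((volume : Measure (Uk b (C.cf σ.X0))).prod (volume : Measure (Zs b (C.cf σ.X0)))) :=
    Amp837.integrable_normSq hΨ hc
  refine hi.integral_prod_left.mono' ((aesm_fp hρ hr hΨ hc).norm.pow 2)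
    (Eventually.of_forall fun u => ?_)
  rw [Real.norm_of_nonneg (by positivity)]
  have h := norm_fpr_sq_le (μ := (volume : Measure (Zs b (C.cf σ.X0))))
    (gs := gsl P σ ρ g) (p := fun u => pV P (posu σ (u : Cfg N)))
    (contDiff_gsl hρ hr g).continuous hΨ hc u (memLp_gsl hr hg u)
    (integral_gsl_sq hr hg u).le (norm_pV_le P _)
  rw [one_mul] at h
  exact h

/-- **Fubini and contraction** -/
theorem fub_fp_le (hρ : ContDiff ℝ ∞ ρ) (hr : ∀ X, ‖ρ X - σ.X0‖ < σ.r) (hg : 0 < g)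
    {Ψ : Sc b (C.cf σ.X0) → F} (hΨ : Continuous Ψ) (hc : HasCompactSupport Ψ) :
    ∫ X, ∫ Y : C.Blk, ‖fp P σ ρ g Ψ (PairT245.uE (BrT5658.reg0 σ) (X - σ.X0, Y))‖ ^ 2 ≤
      ∫ x, ‖Ψ x‖ ^ 2 ∂((volume : Measure (Uk b (C.cf σ.X0))).prod
        (volume : Measure (Zs b (C.cf σ.X0)))) := by
  have hi := integrable_fp_sq (P := P) hρ hr hg hΨ hc
  have hi2 := (PairT245.integrable_uk (BrT5658.reg0 σ) _).1 hi
  rw [Measure.volume_eq_prod] at hi2
  have e1 := integral_sub_right_eq_self (fun X : Pos p => ∫ Y : C.Blk,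
    ‖fp P σ ρ g Ψ (PairT245.uE (BrT5658.reg0 σ) (X, Y))‖ ^ 2) (μ := volume) σ.X0
  rw [e1]
  have e2 : ∫ u, ‖fp P σ ρ g Ψ u‖ ^ 2 = ∫ X : Pos p, ∫ Y : C.Blk,
      ‖fp P σ ρ g Ψ (PairT245.uE (BrT5658.reg0 σ) (X, Y))‖ ^ 2 := by
    rw [PairT245.integral_uk (BrT5658.reg0 σ), Measure.volume_eq_prod, integral_prod _ hi2]
  rw [← e2]
  have h := integral_fpr_sq_le (ν := (volume : Measure (Uk b (C.cf σ.X0))))
    (μ := (volume : Measure (Zs b (C.cf σ.X0))))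
    (gs := gsl P σ ρ g) (p := fun u => pV P (posu σ (u : Cfg N)))
    (contDiff_gsl hρ hr g).continuous hΨ hc zero_le_one
    (fun u _ => ⟨memLp_gsl hr hg u, (integral_gsl_sq hr hg u).le⟩)
    (fun u => norm_pV_le P _)
  rw [one_mul] at h
  exact h

end fub

end Crest.Agent.R330.HQFub406

end
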