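import Crest.Agent.R330.LemF_581
import Crest.Agent.R330.LemR2_302
import Crest.Agent.R330.LocC_8
import Crest.Agent.R330.SlEx_814
import Crest.Agent.R330.TrialSys_796

/-!
# Row 330, S9-LOC (helper581): the bounds of Lemma R for every core vector

* `out_core` : near every commuting `c` there is a radius `s` such that, for every smooth cut-off
  `η` supported in `‖u‖² + ‖z‖² < s²`, the slice function `η • φ(c + u + z)` of a core vector `φ`
  satisfies all bounds of `LemC342.Out` with energy `C * En φ`, uniformly in `g ≥ 1`, `0 ≤ m ≤ 1`.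
* `r2k`, `r2k_chart` : the sum of the light and heavy energies.
-/

set_option autoImplicit false
set_option linter.unusedSectionVars false
set_option linter.unusedVariables false
set_option maxSynthPendingDepth 3

open MeasureTheory Filter Topology Crest.MathPhysics.MatrixQM
open scoped ContDiff InnerProductSpace

noncomputable section

namespace Crest.Agent.R330.R2K581

open Crest.Agent.R330.IBP837 Crest.Agent.R330.Defs478 Crest.Agent.R330.Frame839
  Crest.Agent.R330.LS839 Crest.Agent.R330.Clus839 Crest.Agent.R330.Bind6839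
  Crest.Agent.R330.Cliff442 Crest.Agent.R330.FactI161 Crest.Agent.R330.LemA342
  Crest.Agent.R330.LemB342 Crest.Agent.R330.LemC342 Crest.Agent.R330.SlQE87
  Crest.Agent.R330.TrialSys796 Crest.Agent.R330.FibP581

variable {N : ℕ} {b : ColorBasis N} {c : Cfg N}
  {F : Type*} [NormedAddCommGroup F] [InnerProductSpace ℂ F] [FiniteDimensional ℂ F]
  {M : FermionRep N F}

/-- `η` is an admissible cut-off of radius `s`. -/
structure Adc (s : ℝ) (η : Sc b c → ℝ) : Prop where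
  smooth : ContDiff ℝ ∞ η
  cpt : HasCompactSupport η
  zero : ∀ x, s ^ 2 ≤ ‖x.1‖ ^ 2 + ‖x.2‖ ^ 2 → η x = 0

theorem Adc.mono {s s' : ℝ} {η : Sc b c → ℝ} (h : Adc s η) (h0 : 0 ≤ s) (h1 : s ≤ s') :
    Adc s' η where
  smooth := h.smooth
  cpt := h.cpt
  zero x hx := h.zero x ((pow_le_pow_left₀ h0 h1 2).trans hx)

/-- **Lemma R for core vectors.** -/
theorem out_core [Nontrivial F] (M : FermionRep N F) (R : GaugeAction b M) (G : GammaNine)
    (hc : Comc b c) :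
    ∃ s : ℝ, 0 < s ∧ ∀ Γ : F →ₗ[ℂ] F, IsPar b c M Γ →
      (∀ f ∈ (cr M).vacJ (FibP581.JX b G c c), Γ f = f) →
      ∀ η : Sc b c → ℝ, Adc s η → ∀ (ι κ κ' : Type) [Fintype ι] [Fintype κ] [Fintype κ']
      (e : OrthonormalBasis ι ℝ (Uk b c)) (v : OrthonormalBasis κ ℝ (Zs b c))
      (t : OrthonormalBasis κ' ℝ (Tn (actB b) c)), ∃ C : ℝ, 0 ≤ C ∧ ∀ g m : ℝ, 1 ≤ g → 0 ≤ m →
      m ≤ 1 → ∀ φ : Cfg N → F, IsCoreVec b R φ →
      Out (volume.prod volume) M G Γ e v t g m (half b c η φ) (C * En b M G g m φ) := by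
  obtain ⟨B, hB0, hB⟩ := exists_actBound b
  obtain ⟨r, hr0, hr⟩ := SlEx814.exists_gapAt (b := b) c
  obtain ⟨r0, C0, H⟩ := SlM712.exists_SRad (b := b) c
  obtain ⟨s1, hs1, -, hs1B, -, hR2⟩ := LemR2302.R2' (M := M) R G hc hr0 hr hB hB0 H
  obtain ⟨ρ, hρ0, hρB, K, hK, hF⟩ := LemF581.lemF b M G hc hr0 hr hB hB0.le
  -- the radius
  set s : ℝ := min s1 (ρ / 2) with hs
  have hs0 : 0 < s := lt_min hs1 (by positivity)
  have hss1 : s ≤ s1 := min_le_left _ _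
  have hsρ : s < ρ := (min_le_right _ _).trans_lt (by linarith)
  refine ⟨s, hs0, fun Γ hΓ hv η hη ι κ κ' _ _ _ e v t => ?_⟩
  have hP := (hF Γ hΓ hv).mono hsρ.le
  obtain ⟨C1, hC1, hR⟩ := hR2 η hη.smooth hη.cpt (hη.mono hs0.le hss1).zero
  have : ((volume : Measure (Uk b c)).prod (volume : Measure (Zs b c))).IsAddHaarMeasure :=
    Measure.prod.instIsAddHaarMeasure volume volume
  obtain ⟨C2, hC2, hO⟩ := out_of ((volume : Measure (Uk b c)).prod (volume : Measure (Zs b c)))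
    hr0 hr hB hB0.le hc M G hΓ e v t hs0 hsρ
    hρB hK
  refine ⟨C2 * C1, by positivity, fun g m hg hm hm1 φ hφ => ?_⟩
  obtain ⟨h1, h2⟩ := hR g m hg hm hm1 φ hφ
  have hg0 : 0 < g := zero_lt_one.trans_le hg
  have hE : qf b M G g m φ + ∫ x, ‖φ x‖ ^ 2 = En b M G g m φ := by
    unfold En
    ring
  have h3 : ∫ x, ‖φ x‖ ^ 2 ≤ En b M G g m φ := by
    have h4 : 0 ≤ qf b M G g m φ := by
      unfold qf
      refine mul_nonneg (by norm_num) (Finset.sum_nonneg fun α _ => integral_nonneg fun x => ?_)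
      positivity
    rw [← hE]
    linarith
  have h5 := h1 ι κ κ' e v t
  rw [hE] at h5
  have h6 : ∫ x, ‖half b c η φ x‖ ^ 2 ∂(volume.prod volume) ≤ C1 * En b M G g m φ :=
    h2.trans (mul_le_mul_of_nonneg_left h3 hC1)
  have h7 := hO g m hg0.le (hP.odd κ κ' v t g hg0 volume) (half b c η φ) (C1 * En b M G g m φ)
    ((LocC8.contDiff_half hη.smooth hφ.1).of_le (by norm_cast)) (LocC8.hcs_half hη.cpt)
    (fun x hx => LocC8.half_eq_zero (hη.zero x (by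
      have h8 : s ^ 2 ≤ ‖x.1‖ ^ 2 := pow_le_pow_left₀ hs0.le hx.le 2
      have h9 : 0 ≤ ‖x.2‖ ^ 2 := by positivity
      linarith))) h5 h6
  rw [← mul_assoc] at h7
  exact h7

/-- **The energies of the slice function of a core vector** (8's `R2K`). -/
theorem r2k [Nontrivial F] (M : FermionRep N F) (R : GaugeAction b M) (G : GammaNine)
    (hc : Comc b c) :
    ∃ s : ℝ, 0 < s ∧ ∀ η : Sc b c → ℝ, Adc s η →
      ∀ (ι κ κ' : Type) [Fintype ι] [Fintype κ] [Fintype κ']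
      (e : OrthonormalBasis ι ℝ (Uk b c)) (v : OrthonormalBasis κ ℝ (Zs b c))
      (t : OrthonormalBasis κ' ℝ (Tn (actB b) c)), ∃ C : ℝ, 0 ≤ C ∧ ∀ g m : ℝ, 1 ≤ g → 0 ≤ m →
      m ≤ 1 → ∀ φ : Cfg N → F, IsCoreVec b R φ →
      (∑ α, ∫ x, ‖Aop b c M G g m α e (half b c η φ) x‖ ^ 2 ∂(volume.prod volume)) +
        (∑ α, ∫ x, ‖Bop b c M G g α v t (half b c η φ) x‖ ^ 2 ∂(volume.prod volume)) +
        (∫ x, ‖half b c η φ x‖ ^ 2 ∂(volume.prod volume)) ≤ C * En b M G g m φ := by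
  obtain ⟨s, hs, h⟩ := out_core M R G hc
  obtain ⟨Γ, hΓ, hv⟩ := exists_par b G M hc
  refine ⟨s, hs, fun η hη ι κ κ' _ _ _ e v t => ?_⟩
  obtain ⟨C, hC, hO⟩ := h Γ hΓ hv η hη ι κ κ' e v t
  refine ⟨3 * C, by positivity, fun g m hg hm hm1 φ hφ => ?_⟩
  have h1 := hO g m hg hm hm1 φ hφ
  have h2 := h1.sA
  have h3 := h1.sB
  have h4 := h1.s0
  linarith

/-- `r2k` in the names of `TDef_414`: `c = C.cf σ.X0`; the radius depends on the centre only. -/
theorem r2k_chart {p : ℕ} {S : Type} [Group S] [Fintype S] {C : TDef414.Chn b p S} [Nontrivial F]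
    (M : FermionRep N F) (R : GaugeAction b M) (G : GammaNine) {X0 : TDef414.Pos p}
    (h0 : C.Reg X0) :
    ∃ s : ℝ, 0 < s ∧ ∀ σ : TDef414.Sl C, σ.X0 = X0 → ∀ κ0 : Sc b (C.cf σ.X0) → ℝ, Adc s κ0 →
      ∀ (ι κ κ' : Type) [Fintype ι] [Fintype κ] [Fintype κ']
      (e : OrthonormalBasis ι ℝ (Uk b (C.cf σ.X0))) (v : OrthonormalBasis κ ℝ (Zs b (C.cf σ.X0)))
      (t : OrthonormalBasis κ' ℝ (Tn (actB b) (C.cf σ.X0))), ∃ K : ℝ, 0 ≤ K ∧ ∀ g m : ℝ, 1 ≤ g →
      0 ≤ m → m ≤ 1 → ∀ φ : Cfg N → F, IsCoreVec b R φ →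
      (∑ α, ∫ x, ‖Aop b (C.cf σ.X0) M G g m α e (half b (C.cf σ.X0) κ0 φ) x‖ ^ 2
          ∂(volume.prod volume)) +
        (∑ α, ∫ x, ‖Bop b (C.cf σ.X0) M G g α v t (half b (C.cf σ.X0) κ0 φ) x‖ ^ 2
          ∂(volume.prod volume)) +
        (∫ x, ‖half b (C.cf σ.X0) κ0 φ x‖ ^ 2 ∂(volume.prod volume)) ≤
          K * En b M G g m φ := by
  have hc : Comc b (C.cf X0) := fun i j => by
    rw [C.comp_cf, C.comp_cf]
    exact C.cen_comm _ _ (C.cen_mem _)
  obtain ⟨s, hs, h⟩ := r2k M R G hc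
  refine ⟨s, hs, fun σ hσ => ?_⟩
  subst hσ
  intro κ0 hκ0 ι κ κ' _ _ _ e v t
  obtain ⟨K, hK, h1⟩ := h κ0 hκ0 ι κ κ' e v t
  exact ⟨K, hK, fun g m hg hm hm1 φ hφ => h1 g m hg hm hm1 φ hφ⟩

end Crest.Agent.R330.R2K581

end
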