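import Crest.Agent.R330.LocF_8
import Crest.Agent.R330.H6C_596
import Crest.Agent.R330.R2K_581

/-!
# Row 330, S9-LOC (helper406): the field `hq` of `LocAt`

* `hq` : `Small σ fun ρ s => ∀ κ, CutS σ κ s → HQIn P σ ρ κ m` from 596's (H6) and the bounds of
  Lemma R (581's `r2k_chart`).
-/

set_option autoImplicit false
set_option linter.unusedSectionVars false
set_option maxSynthPendingDepth 3

open MeasureTheory Filter Topology Crest.MathPhysics.MatrixQM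
open scoped ContDiff InnerProductSpace ENNReal

noncomputable section

namespace Crest.Agent.R330.HQIn406

open Crest.Agent.R330.Defs478 Crest.Agent.R330.LS839 Crest.Agent.R330.Frame839
  Crest.Agent.R330.Clus839
  Crest.Agent.R330.Bind6839 Crest.Agent.R330.SlG944 Crest.Agent.R330.SlF944
  Crest.Agent.R330.IBP837 Crest.Agent.R330.TDef414
  Crest.Agent.R330.LemA342 Crest.Agent.R330.FibProj837 Crest.Agent.R330.LocB8
  Crest.Agent.R330.LocC8 Crest.Agent.R330.LocD8 Crest.Agent.R330.LocF8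
  Crest.Agent.R330.SlQE87 Crest.Agent.R330.TrialSys796 Crest.Agent.R330.H6596
open Crest.Agent.R330.SlB314 (Nor Tan br)

variable {N p : ℕ} {b : ColorBasis N} {S : Type} [Group S] [Fintype S] {C : Chn b p S}
  {F : Type*} [NormedAddCommGroup F] [InnerProductSpace ℂ F] [FiniteDimensional ℂ F]
  {M : FermionRep N F} {R : GaugeAction b M} {G : GammaNine}

/-- the light energy of the slice function bounds the block energy -/
theorem ablk_le {σ : Sl C} {κ : Sc b (C.cf σ.X0) → ℝ} (hκ : Cut σ κ) {ι : Type*} [Fintype ι]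
    (e : OrthonormalBasis ι ℝ (Uk b (C.cf σ.X0))) (M : FermionRep N F) (R : GaugeAction b M)
    (G : GammaNine) (m : ℝ) : ∃ D : ℝ, 0 ≤ D ∧ ∀ (g : ℝ) (φ : Cfg N → F), IsCoreVec b R φ →
      (∑ α, ∫ x, ‖Ablk M G (BrT5658.reg0 σ) g α (half b (C.cf σ.X0) κ φ) x‖ ^ 2
        ∂((volume : Measure (Uk b (C.cf σ.X0))).prod (volume : Measure (Zs b (C.cf σ.X0))))) ≤
      2 * (∑ α, ∫ x, ‖Aop b (C.cf σ.X0) M G g m α e (half b (C.cf σ.X0) κ φ) x‖ ^ 2
        ∂((volume : Measure (Uk b (C.cf σ.X0))).prod (volume : Measure (Zs b (C.cf σ.X0))))) +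
      D * ∫ x, ‖half b (C.cf σ.X0) κ φ x‖ ^ 2
        ∂((volume : Measure (Uk b (C.cf σ.X0))).prod (volume : Measure (Zs b (C.cf σ.X0)))) := by
  -- bound of the position on the support
  have hcont : Continuous fun x : Sc b (C.cf σ.X0) => ‖C.cf σ.X0 + (x.1 : Cfg N)‖ ^ 2 :=
    (cont_c (X0 := σ.X0) (C := C)).norm.pow 2
  obtain ⟨E, hE⟩ : ∃ E : ℝ, ∀ x ∈ tsupport κ, ‖C.cf σ.X0 + (x.1 : Cfg N)‖ ^ 2 ≤ E := by
    obtain ⟨E, hE⟩ := (hκ.supp.isCompact.image hcont).isBounded.subset_closedBall 0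
    refine ⟨E, fun x hx => ?_⟩
    have := hE ⟨x, hx, rfl⟩
    rw [mem_closedBall_zero_iff] at this
    exact (le_abs_self _).trans this
  refine ⟨KW M G * m ^ 2 * |E|, mul_nonneg (mul_nonneg KW_nonneg (sq_nonneg _)) (abs_nonneg _),
    fun g φ hφ => ?_⟩
  have hΦ : ContDiff ℝ ∞ (half b (C.cf σ.X0) κ φ) := contDiff_half hκ.smooth hφ.1
  have hΦc : HasCompactSupport (half b (C.cf σ.X0) κ φ) := hcs_half hκ.supp
  have : ((volume : Measure (Uk b (C.cf σ.X0))).prod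
      (volume : Measure (Zs b (C.cf σ.X0)))).IsAddHaarMeasure :=
    Measure.prod.instIsAddHaarMeasure _ _
  have h1 := cen_blk_sum_le (μ := (volume : Measure (Uk b (C.cf σ.X0))).prod
    (volume : Measure (Zs b (C.cf σ.X0)))) (M := M) (G := G) (g := g) (m := m)
    (BrT5658.reg0 σ) e (hΦ.of_le (by norm_cast)) hΦc
  have h2 : 0 ≤ ∑ α, ∫ x, ‖Acen M G (BrT5658.reg0 σ) α (half b (C.cf σ.X0) κ φ) x‖ ^ 2
      ∂((volume : Measure (Uk b (C.cf σ.X0))).prod (volume : Measure (Zs b (C.cf σ.X0)))) :=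
    Finset.sum_nonneg fun α _ => integral_nonneg fun x => by positivity
  have h3 : ∫ x, ‖C.cf σ.X0 + (x.1 : Cfg N)‖ ^ 2 * ‖half b (C.cf σ.X0) κ φ x‖ ^ 2
      ∂((volume : Measure (Uk b (C.cf σ.X0))).prod (volume : Measure (Zs b (C.cf σ.X0)))) ≤
      |E| * ∫ x, ‖half b (C.cf σ.X0) κ φ x‖ ^ 2
        ∂((volume : Measure (Uk b (C.cf σ.X0))).prod (volume : Measure (Zs b (C.cf σ.X0)))) := by
    rw [← integral_const_mul]
    refine integral_mono_of_nonneg (Eventually.of_forall fun x => by positivity)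
      ((Amp837.integrable_normSq hΦ.continuous hΦc).const_mul _)
      (Eventually.of_forall fun x => ?_)
    simp only
    by_cases hx : x ∈ tsupport κ
    · exact mul_le_mul_of_nonneg_right ((hE x hx).trans (le_abs_self _)) (by positivity)
    · rw [half_eq_zero (image_eq_zero_of_notMem_tsupport hx)]
      simp
  have h4 := mul_le_mul_of_nonneg_left h3
    (mul_nonneg (KW_nonneg (M := M) (G := G)) (sq_nonneg m))
  rw [← mul_assoc] at h4
  linarith

theorem norm_sq_uz (c : Cfg N) (x : Sc b c) :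
    ‖(x.1 : Cfg N) + (x.2 : Cfg N)‖ ^ 2 = ‖x.1‖ ^ 2 + ‖x.2‖ ^ 2 :=
  LemR2302.norm_add_sq_uz x

/-- **The field `hq`.** -/
theorem hq [Nontrivial F] (P : TPack C M R G) (σ : Sl C) {m : ℝ} (hm : 0 ≤ m) (hm1 : m ≤ 1) :
    Small σ fun ρ s => ∀ κ, CutS σ κ s → HQIn P σ ρ κ m := by
  obtain ⟨s1, d1, hs1, hd1, h1⟩ := (small_ball (σ := σ))
  obtain ⟨s2, hs2, h2⟩ := R2K581.r2k_chart M R G (BrT5658.reg0 σ)
  refine ⟨min s1 (s2 / 2), d1, lt_min hs1 (by positivity), hd1, fun s hs hss ρ hρ κ hκ => ?_⟩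
  obtain ⟨h4, h5⟩ := h1 s hs (hss.trans (min_le_left _ _)) ρ hρ
  have hadc : R2K581.Adc s2 κ := by
    refine ⟨hκ.cut.smooth, hκ.cut.supp, fun x hx => hκ.zero x ?_⟩
    rw [← norm_sq_uz] at hx
    have h6 := (pow_le_pow_iff_left₀ hs2.le (norm_nonneg _) two_ne_zero).1 hx
    have h7 := hss.trans (min_le_right _ _)
    linarith
  obtain ⟨K, hK, h6⟩ := h2 σ rfl κ hadc _ _ _ (stdOrthonormalBasis ℝ (Uk b (C.cf σ.X0)))
    (stdOrthonormalBasis ℝ (Zs b (C.cf σ.X0)))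
    (stdOrthonormalBasis ℝ (Tn (actB b) (C.cf σ.X0)))
  obtain ⟨D, hD, h7⟩ := ablk_le hκ.cut (stdOrthonormalBasis ℝ (Uk b (C.cf σ.X0))) M R G m
  refine ⟨2 * K + D * K, by positivity, ?_⟩
  filter_upwards [eventually_ge_atTop (1 : ℝ)] with g hg φ hφ
  have h8 := qblkB_wB_sum_le (P := P) h4 h5 hκ.cut hφ.1 (lt_of_lt_of_le one_pos hg)
  have h9 := h7 g φ hφ
  have h10 := h6 g m hg hm hm1 φ hφ
  have a1 : 0 ≤ ∑ α, ∫ x, ‖Aop b (C.cf σ.X0) M G g m α
      (stdOrthonormalBasis ℝ (Uk b (C.cf σ.X0))) (half b (C.cf σ.X0) κ φ) x‖ ^ 2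
      ∂((volume : Measure (Uk b (C.cf σ.X0))).prod (volume : Measure (Zs b (C.cf σ.X0)))) :=
    Finset.sum_nonneg fun α _ => integral_nonneg fun x => by positivity
  have a2 : 0 ≤ ∑ α, ∫ x, ‖Bop b (C.cf σ.X0) M G g α
      (stdOrthonormalBasis ℝ (Zs b (C.cf σ.X0)))
      (stdOrthonormalBasis ℝ (Tn (actB b) (C.cf σ.X0))) (half b (C.cf σ.X0) κ φ) x‖ ^ 2
      ∂((volume : Measure (Uk b (C.cf σ.X0))).prod (volume : Measure (Zs b (C.cf σ.X0)))) :=
    Finset.sum_nonneg fun α _ => integral_nonneg fun x => by positivity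
  have a3 : 0 ≤ ∫ x, ‖half b (C.cf σ.X0) κ φ x‖ ^ 2
      ∂((volume : Measure (Uk b (C.cf σ.X0))).prod (volume : Measure (Zs b (C.cf σ.X0)))) :=
    integral_nonneg fun x => by positivity
  have b1 : ∑ α, ∫ x, ‖Aop b (C.cf σ.X0) M G g m α
      (stdOrthonormalBasis ℝ (Uk b (C.cf σ.X0))) (half b (C.cf σ.X0) κ φ) x‖ ^ 2
      ∂((volume : Measure (Uk b (C.cf σ.X0))).prod (volume : Measure (Zs b (C.cf σ.X0)))) ≤
      K * En b M G g m φ := by linarith
  have b2 : ∫ x, ‖half b (C.cf σ.X0) κ φ x‖ ^ 2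
      ∂((volume : Measure (Uk b (C.cf σ.X0))).prod (volume : Measure (Zs b (C.cf σ.X0)))) ≤
      K * En b M G g m φ := by linarith
  have b3 := mul_le_mul_of_nonneg_left b2 hD
  refine h8.trans (h9.trans ?_)
  linarith

end Crest.Agent.R330.HQIn406

end
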