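import Crest.Agent.R330.Prod3_494
import Crest.Agent.R330.SInd_478
import Crest.Agent.R330.ScaleD_423

/-!
# Row 330 (helper735): the Hardy inequality of the small system at coupling `g`

* `hwg l y = (l⁻² + ‖y‖²)⁻¹` : the Hardy weight at the scale `l⁻¹`, `l = g^{1/3}`.
* `integral_weight_Us` : weighted norms under the scaling unitary.
* `Ground.low` : a ground state `ψ` of `Q^{1,0}` gives, with one constant `c > 0` and for every
  `g > 0`, `Low b M R G g 0 c (hwg (g^{1/3})) (Us (g^{1/3}) ψ)`.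
* `Low.ball` : the localised form on `E ≃ₗᵢ Cfg N × E'`,
  `∫_{‖y‖ ≤ δ} ‖φ - P φ‖² ≤ (l⁻² + δ²) / c * q(φ)`.
-/

set_option autoImplicit false
set_option linter.unusedSectionVars false

open MeasureTheory Filter Topology Crest.MathPhysics.MatrixQM
open scoped ContDiff InnerProductSpace ENNReal

noncomputable section

namespace Crest.Agent.R330.HardyG735

open Crest.Agent.R330.Defs478 Crest.Agent.R330.Scale423 Crest.Agent.R330.ScaleD423
  Crest.Agent.R330.SInd478 Crest.Agent.R330.Prod494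

variable {N : ℕ}

/-- The Hardy weight at the scale `l⁻¹`. -/
def hwg (l : ℝ) (y : Cfg N) : ℝ := (l⁻¹ ^ 2 + ‖y‖ ^ 2)⁻¹

theorem hwg_pos {l : ℝ} (hl : 0 < l) (y : Cfg N) : 0 < hwg l y := by
  unfold hwg
  have : 0 < l⁻¹ := inv_pos.2 hl
  positivity

theorem hwg_le {l : ℝ} (hl : 0 < l) (y : Cfg N) : ‖hwg l y‖ ≤ l ^ 2 := by
  rw [Real.norm_of_nonneg (hwg_pos hl y).le]
  unfold hwg
  have h1 : 0 < l⁻¹ ^ 2 := by have := inv_pos.2 hl; positivity
  calc (l⁻¹ ^ 2 + ‖y‖ ^ 2)⁻¹ ≤ (l⁻¹ ^ 2)⁻¹ := inv_anti₀ h1 (by nlinarith [sq_nonneg ‖y‖])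
    _ = l ^ 2 := by rw [inv_pow, inv_inv]

theorem continuous_hwg {l : ℝ} (hl : 0 < l) : Continuous (hwg (N := N) l) := by
  unfold hwg
  refine (continuous_const.add (continuous_norm.pow 2)).inv₀ fun y => ?_
  have : 0 < l⁻¹ := inv_pos.2 hl
  exact (by positivity : (0 : ℝ) < l⁻¹ ^ 2 + ‖y‖ ^ 2).ne'

/-- The weight at scale `1` is the Hardy weight. -/
theorem hwg_one : hwg (N := N) 1 = hw := by
  funext y
  simp [hwg, hw]

variable {F : Type*} [NormedAddCommGroup F] [InnerProductSpace ℂ F] [FiniteDimensional ℂ F]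

/-- Weighted norms under the scaling unitary. -/
theorem integral_weight_Us {l : ℝ} (hl : 0 < l) (w : Cfg N → ℝ) (φ : Cfg N → F) :
    ∫ x, w x * ‖Us l φ x‖ ^ 2 = ∫ x, w (l⁻¹ • x) * ‖φ x‖ ^ 2 := by
  have h1 : ∀ x : Cfg N, w x * ‖Us l φ x‖ ^ 2 =
      nrm N l ^ 2 * (fun y => w (l⁻¹ • y) * ‖φ y‖ ^ 2) (l • x) := by
    intro x
    have e : l⁻¹ • l • x = x := by rw [smul_smul, inv_mul_cancel₀ hl.ne', one_smul]
    simp only [Us, norm_smul, Complex.norm_real, Real.norm_of_nonneg (nrm_pos hl).le, mul_pow, e]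
    ring
  simp only [h1]
  rw [integral_const_mul, Measure.integral_comp_smul volume (fun y => w (l⁻¹ • y) * ‖φ y‖ ^ 2) l,
    nrm_sq hl, abs_of_pos (inv_pos.2 (pow_pos hl _)), smul_eq_mul, ← mul_assoc,
    mul_inv_cancel₀ (pow_pos hl _).ne', one_mul]

theorem hw_scale {l : ℝ} (hl : 0 < l) (y : Cfg N) : l ^ 2 * hw (l • y) = hwg l y := by
  unfold hw hwg
  rw [norm_smul, Real.norm_of_nonneg hl.le]
  have h1 : (1 : ℝ) + (l * ‖y‖) ^ 2 ≠ 0 := by positivity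
  have h2 : l⁻¹ ^ 2 + ‖y‖ ^ 2 ≠ 0 := by
    have : 0 < l⁻¹ := inv_pos.2 hl
    positivity
  field_simp

variable {b : ColorBasis N} {M : FermionRep N F} {R : GaugeAction b M} {G : GammaNine}

/-- The Hardy inequality at coupling `g = l³`. -/
theorem low_scale {c : ℝ} {ψ : Cfg N → F} (h : Low b M R G 1 0 c hw ψ) {l : ℝ} (hl : 0 < l)
    {g : ℝ} (hg : g / l ^ 3 = 1) : Low b M R G g 0 c (hwg l) (Us l ψ) := by
  intro f hf
  have hli : 0 < l⁻¹ := inv_pos.2 hl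
  have hf' : IsCoreVec b R (Us l⁻¹ f) := core_Us hli hf
  have h1 := h (Us l⁻¹ f) hf'
  have hd : Differentiable ℝ (Us l⁻¹ f) := (cv_c1 hf').differentiable one_ne_zero
  have h2 : qf b M G g 0 f = l ^ 2 * qf b M G 1 0 (Us l⁻¹ f) := by
    have := qf_Us b M G g 0 hl hd
    rwa [Us_inv_right hl, hg, zero_div] at this
  have h3 : ∫ z, ⟪ψ z, Us l⁻¹ f z⟫_ℂ = ∫ z, ⟪Us l ψ z, f z⟫_ℂ := by
    rw [← integral_inner_Us hl ψ (Us l⁻¹ f), Us_inv_right hl]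
  set k : ℂ := ∫ z, ⟪Us l ψ z, f z⟫_ℂ with hk
  rw [h3] at h1
  have h4 : ∀ y, Us l⁻¹ f y - k • ψ y = Us l⁻¹ (f - k • Us l ψ) y := by
    intro y
    rw [Us_sub, Us_smul, Us_inv_left hl]
    rfl
  have h5 : ∫ y, hw y * ‖Us l⁻¹ f y - k • ψ y‖ ^ 2 = ∫ y, hw (l • y) * ‖f y - k • Us l ψ y‖ ^ 2 := by
    simp only [h4]
    rw [integral_weight_Us hli, inv_inv]
    rfl
  rw [h5] at h1
  rw [h2]
  have h6 : ∫ y, hwg l y * ‖f y - k • Us l ψ y‖ ^ 2 =
      l ^ 2 * ∫ y, hw (l • y) * ‖f y - k • Us l ψ y‖ ^ 2 := by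
    rw [← integral_const_mul]
    refine integral_congr_ae (Eventually.of_forall fun y => ?_)
    show hwg l y * _ = l ^ 2 * (hw (l • y) * _)
    rw [← mul_assoc, hw_scale hl]
  rw [h6]
  have h7 := mul_le_mul_of_nonneg_left h1 (sq_nonneg l)
  calc c * (l ^ 2 * ∫ y, hw (l • y) * ‖f y - k • Us l ψ y‖ ^ 2)
      = l ^ 2 * (c * ∫ y, hw (l • y) * ‖f y - k • Us l ψ y‖ ^ 2) := by ring
    _ ≤ _ := h7

/-- The Hardy inequality of a ground state is a `Low`. -/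
theorem ground_low {ψ : Cfg N → F} (h : Ground b M R G ψ) :
    ∃ c : ℝ, 0 < c ∧ Low b M R G 1 0 c hw ψ := by
  obtain ⟨c, hc, h1⟩ := h.hardy
  exact ⟨c, hc, h1⟩

/-- **The Hardy inequality of the small system at every coupling, with one constant.** -/
theorem ground_low_g {ψ : Cfg N → F} (h : Ground b M R G ψ) :
    ∃ c : ℝ, 0 < c ∧ ∀ g : ℝ, 0 < g →
      Low b M R G g 0 c (hwg (g ^ ((1 : ℝ) / 3))) (Us (g ^ ((1 : ℝ) / 3)) ψ) := by
  obtain ⟨c, hc, h1⟩ := ground_low h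
  refine ⟨c, hc, fun g hg => ?_⟩
  have hs : 0 < g ^ ((1 : ℝ) / 3) := Real.rpow_pos_of_pos hg _
  have h2 : (g ^ ((1 : ℝ) / 3)) ^ 3 = g := by
    rw [← Real.rpow_natCast, ← Real.rpow_mul hg.le]
    norm_num
  exact low_scale h1 hs (by rw [h2, div_self hg.ne'])

/-! ### The localised form on `E` -/

section ball

variable {F₁ : Type*} [NormedAddCommGroup F₁] [InnerProductSpace ℂ F₁] [FiniteDimensional ℂ F₁]
  {ι : Type*} [Fintype ι] [DecidableEq ι] {M₁ : FermionRep N F₁} {R₁ : GaugeAction b M₁}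
  {g m : ℝ} {θ : Fin 16 → Fin (N ^ 2 - 1) → (F →ₗ[ℂ] F)}
  {E E' : Type*} [NormedAddCommGroup E] [InnerProductSpace ℝ E] [FiniteDimensional ℝ E]
  [MeasurableSpace E] [BorelSpace E] [NormedAddCommGroup E'] [InnerProductSpace ℝ E']
  [FiniteDimensional ℝ E'] [MeasurableSpace E'] [BorelSpace E']

theorem continuous_fst_T (T : E ≃ₗᵢ[ℝ] WithLp 2 (Cfg N × E')) :
    Continuous fun x : E => (T x).fst := continuous_snd.comp (pmH T).symm.continuous

/-- **Localised Hardy inequality**: the mass of `φ - P φ` in `‖y‖ ≤ δ`. -/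
theorem low_ball {c l : ℝ} {ψ : Cfg N → F₁} (h : Low b M₁ R₁ G g m c (hwg l) ψ) (hc : 0 < c)
    (hl : 0 < l) (T : E ≃ₗᵢ[ℝ] WithLp 2 (Cfg N × E')) (L : Mult M₁ θ ι) (hψ : MemLp ψ 2 volume)
    {φ : E → F} (hφ : ContDiff ℝ 1 φ) (hcs : HasCompactSupport φ)
    (hcore : ∀ w x', IsCoreVec b R₁ fun y => L.comp w (fib T φ x' y)) (δ : ℝ) :
    ∫ x in {x | ‖(T x).fst‖ ≤ δ}, ‖φ x - pproj T L ψ φ x‖ ^ 2 ≤
      (l⁻¹ ^ 2 + δ ^ 2) / c *
        ((1 / 16 : ℝ) * ∑ α : Fin 16, ∫ x, ‖pcharge T b θ G g m α φ x‖ ^ 2) := by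
  have hli : 0 < l⁻¹ := inv_pos.2 hl
  have hφ2 : MemLp φ 2 volume := hφ.continuous.memLp_of_hasCompactSupport hcs
  have hP := memLp_pproj T L hψ hφ2
  have hD : MemLp (fun x => φ x - pproj T L ψ φ x) 2 volume := hφ2.sub hP
  have hD2 : Integrable fun x => ‖φ x - pproj T L ψ φ x‖ ^ 2 :=
    (memLp_two_iff_integrable_sq_norm hD.1).1 hD
  have hcf : Continuous fun x : E => (T x).fst := continuous_fst_T T
  have hI1 : Integrable fun x => hwg l (T x).fst * ‖φ x - pproj T L ψ φ x‖ ^ 2 :=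
    hD2.bdd_mul ((continuous_hwg hl).comp hcf).aestronglyMeasurable
      (Eventually.of_forall fun x => hwg_le hl _)
  have h1 := h.plift T L hψ (continuous_hwg hl).aestronglyMeasurable (hwg_le hl) hφ hcs hcore
  have hms : MeasurableSet {x : E | ‖(T x).fst‖ ≤ δ} :=
    measurableSet_le hcf.norm.measurable measurable_const
  have h0 : ∀ x, 0 ≤ hwg l (T x).fst * ‖φ x - pproj T L ψ φ x‖ ^ 2 := fun x =>
    mul_nonneg (hwg_pos hl _).le (sq_nonneg _)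
  have hK : 0 < l⁻¹ ^ 2 + δ ^ 2 := by positivity
  have h2 : ∫ x in {x | ‖(T x).fst‖ ≤ δ}, ‖φ x - pproj T L ψ φ x‖ ^ 2 ≤
      ∫ x in {x | ‖(T x).fst‖ ≤ δ},
        (l⁻¹ ^ 2 + δ ^ 2) * (hwg l (T x).fst * ‖φ x - pproj T L ψ φ x‖ ^ 2) := by
    refine setIntegral_mono_on hD2.integrableOn (hI1.const_mul _).integrableOn hms fun x hx => ?_
    have hx' : ‖(T x).fst‖ ≤ δ := hx
    rw [← mul_assoc]
    have h4 : 1 ≤ (l⁻¹ ^ 2 + δ ^ 2) * hwg l (T x).fst := by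
      unfold hwg
      rw [← div_eq_mul_inv, one_le_div (by positivity)]
      have h6 := pow_le_pow_left₀ (norm_nonneg _) hx' 2
      linarith
    nlinarith [sq_nonneg ‖φ x - pproj T L ψ φ x‖]
  have h3 : ∫ x in {x | ‖(T x).fst‖ ≤ δ},
        (l⁻¹ ^ 2 + δ ^ 2) * (hwg l (T x).fst * ‖φ x - pproj T L ψ φ x‖ ^ 2) ≤
      (l⁻¹ ^ 2 + δ ^ 2) * ∫ x, hwg l (T x).fst * ‖φ x - pproj T L ψ φ x‖ ^ 2 := by
    rw [integral_const_mul]
    exact mul_le_mul_of_nonneg_left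
      (setIntegral_le_integral hI1 (Eventually.of_forall h0)) hK.le
  refine (h2.trans h3).trans ?_
  rw [div_mul_eq_mul_div, le_div_iff₀ hc]
  have h8 := mul_le_mul_of_nonneg_left h1 hK.le
  linarith

end ball

end Crest.Agent.R330.HardyG735

end
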