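import Crest.Agent.R330.HardyG_968

/-!
# Row 330, S9 (helper968): compactness and the tail estimate

* `qe_smul_le` : `q(c φ) ≤ 2 q(φ) + ∫ |∇c|² |φ|²`, `|c| ≤ 1`.
* `GradB Q S` : `‖∇φ‖² ≤ C (q(φ) + ∫ (1+|x|) |φ|²)` for core functions.
* `exists_limit` : local compactness of core functions bounded with the weight `1/(1+|x|²)`.
* `tail_le` : the exterior Hardy inequality with a cut-off.
-/

set_option autoImplicit false
set_option linter.unusedSectionVars false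
set_option linter.unusedVariables false

open MeasureTheory Set Filter Topology ENNReal
open scoped ContDiff InnerProductSpace

noncomputable section

namespace Crest.Agent.R330.Decay968

open Moll596 WS596

section general

variable {E : Type*} [NormedAddCommGroup E] [InnerProductSpace ℝ E] [FiniteDimensional ℝ E]
  [MeasurableSpace E] [BorelSpace E]
variable {F : Type*} [NormedAddCommGroup F] [InnerProductSpace ℂ F] [CompleteSpace F]
variable {κ : Type*} [Fintype κ]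
variable {Q : κ → FOp E F} {S : Set ((E ≃ₗᵢ[ℝ] E) × (F →L[ℝ] F))} {u : E → F}
  {k R₀ : ℝ}

/-! ### Algebra of the core -/

theorem Core.sub {f g : E → F} (hf : Core S f) (hg : Core S g) : Core S (fun x => f x - g x) where
  smooth := hf.smooth.sub hg.smooth
  supp := hf.supp.sub hg.supp
  eqv p hp x := by rw [hf.eqv p hp, hg.eqv p hp, map_sub]

theorem Core.rsmul {f : E → F} (r : ℝ) (hf : Core S f) : Core S (fun x => r • f x) where
  smooth := contDiff_const.smul hf.smooth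
  supp := hf.supp.comp_left (g := fun v => r • v) (smul_zero r)
  eqv p hp x := by rw [hf.eqv p hp, map_smul]

theorem Core.smul_rad {f : E → F} {w : E → ℝ} (hw : ContDiff ℝ ∞ w)
    (hrad : ∀ x y, ‖x‖ = ‖y‖ → w x = w y) (hf : Core S f) : Core S (fun x => w x • f x) where
  smooth := hw.smul hf.smooth
  supp := hf.supp.smul_left
  eqv p hp x := by rw [hf.eqv p hp, map_smul, hrad _ _ (p.1.norm_map x)]

theorem FOp.op_sub (P : FOp E F) {f g : E → F} (hf : ContDiff ℝ ∞ f) (hg : ContDiff ℝ ∞ g)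
    (x : E) : P.op (fun x => f x - g x) x = P.op f x - P.op g x := by
  have h1 : DifferentiableAt ℝ f x := hf.differentiable (by simp) x
  have h2 : DifferentiableAt ℝ g x := hg.differentiable (by simp) x
  rw [FOp.op, FOp.op, FOp.op, fderiv_fun_sub h1 h2, map_sub, map_sub]
  abel

theorem FOp.op_rsmul (P : FOp E F) {f : E → F} (hf : ContDiff ℝ ∞ f) (r : ℝ) (x : E) :
    P.op (fun x => r • f x) x = r • P.op f x := by
  have h1 : DifferentiableAt ℝ f x := hf.differentiable (by simp) x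
  rw [FOp.op, FOp.op, fderiv_fun_const_smul h1, map_smul, map_smul, smul_add]

theorem enorm_sq_eq' {G : Type*} [SeminormedAddCommGroup G] (v : G) :
    ‖v‖ₑ ^ 2 = ENNReal.ofReal (‖v‖ ^ 2) := by
  rw [← ofReal_norm, ENNReal.ofReal_pow (norm_nonneg _)]

theorem enorm_sub_sq_le (v w : F) : ‖v - w‖ₑ ^ 2 ≤ 2 * ‖v‖ₑ ^ 2 + 2 * ‖w‖ₑ ^ 2 := by
  have h := enorm_add_sq_le v (-w)
  rwa [← sub_eq_add_neg, enorm_neg] at h

theorem qe_sub_le {f g : E → F} (hf : ContDiff ℝ ∞ f) (hg : ContDiff ℝ ∞ g) :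
    qe Q (fun x => f x - g x) ≤ 2 * qe Q f + 2 * qe Q g := by
  unfold qe
  have h1 : ∀ a, ∫⁻ x, ‖(Q a).op (fun x => f x - g x) x‖ₑ ^ 2 ≤
      2 * (∫⁻ x, ‖(Q a).op f x‖ₑ ^ 2) + 2 * ∫⁻ x, ‖(Q a).op g x‖ₑ ^ 2 := fun a => by
    simp only [FOp.op_sub (Q a) hf hg]
    rw [← lintegral_const_mul' _ _ (by norm_num), ← lintegral_const_mul' _ _ (by norm_num),
      ← lintegral_add_left' ((aem_sq ((Q a).op_continuous hf).aestronglyMeasurable).const_mul 2)]
    exact lintegral_mono fun x => enorm_sub_sq_le _ _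
  calc (1 / 16 : ℝ≥0∞) * ∑ a, ∫⁻ x, ‖(Q a).op (fun x => f x - g x) x‖ₑ ^ 2
      ≤ (1 / 16) * ∑ a, (2 * (∫⁻ x, ‖(Q a).op f x‖ₑ ^ 2) + 2 * ∫⁻ x, ‖(Q a).op g x‖ₑ ^ 2) := by
        gcongr with a
        exact h1 a
    _ = _ := by
        rw [Finset.sum_add_distrib, ← Finset.mul_sum, ← Finset.mul_sum]
        ring

theorem enorm_real_sq (r : ℝ) : ‖r‖ₑ ^ 2 = ENNReal.ofReal (r ^ 2) := by
  rw [← ofReal_norm, ← ENNReal.ofReal_pow (norm_nonneg _), Real.norm_eq_abs, sq_abs]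

theorem qe_rsmul {f : E → F} (hf : ContDiff ℝ ∞ f) (r : ℝ) :
    qe Q (fun x => r • f x) = ENNReal.ofReal (r ^ 2) * qe Q f := by
  unfold qe
  simp only [FOp.op_rsmul _ hf, enorm_smul, mul_pow, enorm_real_sq]
  simp only [lintegral_const_mul' _ _ ENNReal.ofReal_ne_top]
  rw [← Finset.mul_sum]
  ring

/-- The form of a product. -/
theorem qe_smul_le (hQ : Frame Q) {c : E → ℝ} {φ : E → F} (hc : ContDiff ℝ ∞ c)
    (hc1 : ∀ x, |c x| ≤ 1) (hφ : ContDiff ℝ ∞ φ) :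
    qe Q (fun x => c x • φ x) ≤ 2 * qe Q φ + ∫⁻ x, ‖fderiv ℝ c x‖ₑ ^ 2 * ‖φ x‖ₑ ^ 2 := by
  have hdc : Continuous (fderiv ℝ c) := hc.continuous_fderiv (by simp)
  have hAc : ∀ a, Continuous fun x => (Q a).A ((fderiv ℝ c x).smulRight (φ x)) := fun a =>
    (Q a).A.continuous.comp ((ContinuousLinearMap.smulRightL ℝ E F).continuous₂.comp
      (hdc.prodMk hφ.continuous))
  have h1 : ∀ a, ∫⁻ x, ‖(Q a).op (fun x => c x • φ x) x‖ₑ ^ 2 ≤
      2 * (∫⁻ x, ‖(Q a).op φ x‖ₑ ^ 2) +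
        2 * ∫⁻ x, ‖(Q a).A ((fderiv ℝ c x).smulRight (φ x))‖ₑ ^ 2 := fun a => by
    rw [← lintegral_const_mul' _ _ (by norm_num), ← lintegral_const_mul' _ _ (by norm_num),
      ← lintegral_add_left' ((aem_sq ((Q a).op_continuous hφ).aestronglyMeasurable).const_mul 2)]
    refine lintegral_mono fun x => ?_
    rw [FOp.op_smul _ hc hφ]
    refine (enorm_add_sq_le _ _).trans ?_
    gcongr
    rw [enorm_smul]
    calc ‖c x‖ₑ * ‖(Q a).op φ x‖ₑ ≤ 1 * ‖(Q a).op φ x‖ₑ := by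
          gcongr
          rw [← ofReal_norm, Real.norm_eq_abs]
          exact ENNReal.ofReal_le_one.2 (hc1 x)
      _ = _ := one_mul _
  have h2 : ∑ a, ∫⁻ x, ‖(Q a).A ((fderiv ℝ c x).smulRight (φ x))‖ₑ ^ 2 =
      8 * ∫⁻ x, ‖fderiv ℝ c x‖ₑ ^ 2 * ‖φ x‖ₑ ^ 2 := by
    rw [← lintegral_finsetSum' _ fun a _ => aem_sq (hAc a).aestronglyMeasurable]
    simp only [hQ.sym_enorm]
    rw [lintegral_const_mul' _ _ (by norm_num)]
  unfold qe
  calc (1 / 16 : ℝ≥0∞) * ∑ a, ∫⁻ x, ‖(Q a).op (fun x => c x • φ x) x‖ₑ ^ 2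
      ≤ (1 / 16) * ∑ a, (2 * (∫⁻ x, ‖(Q a).op φ x‖ₑ ^ 2) +
        2 * ∫⁻ x, ‖(Q a).A ((fderiv ℝ c x).smulRight (φ x))‖ₑ ^ 2) := by
        gcongr with a
        exact h1 a
    _ = 2 * ((1 / 16) * ∑ a, ∫⁻ x, ‖(Q a).op φ x‖ₑ ^ 2) +
        (1 / 16 * 16) * ∫⁻ x, ‖fderiv ℝ c x‖ₑ ^ 2 * ‖φ x‖ₑ ^ 2 := by
        rw [Finset.sum_add_distrib, ← Finset.mul_sum, ← Finset.mul_sum, h2]
        ring
    _ = _ := by
        rw [one_div, ENNReal.inv_mul_cancel (by norm_num) (by norm_num), one_mul]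

/-! ### The tail -/

variable (E) in
/-- The gradient of the exterior cut-off. -/
theorem exists_ext_bound {R₀ : ℝ} (hR₀ : 0 < R₀) : ∃ K : ℝ, 0 ≤ K ∧ ∀ x : E,
    ‖fderiv ℝ (ext R₀ : E → ℝ) x‖ₑ ^ 2 ≤
      indicator {x : E | ‖x‖ ≤ 2 * R₀} (fun _ => ENNReal.ofReal K) x := by
  obtain ⟨C, hC⟩ := ((cut_supp (E := E) hR₀).fderiv ℝ).exists_bound_of_continuous
    ((cut_smooth R₀).continuous_fderiv (by simp))
  refine ⟨C ^ 2, by positivity, fun x => ?_⟩
  by_cases hx : ‖x‖ ≤ 2 * R₀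
  · rw [indicator_of_mem (show x ∈ {x | ‖x‖ ≤ 2 * R₀} from hx)]
    refine enorm_sq_le ?_
    rw [fderiv_ext, norm_neg]
    exact hC x
  · rw [fderiv_ext_of_one (ext_one hR₀ (not_le.1 hx).le)]
    have h0 : ‖(0 : E →L[ℝ] ℝ)‖ₑ ^ 2 = 0 := by
      rw [enorm_sq_eq', norm_zero, zero_pow two_ne_zero, ENNReal.ofReal_zero]
    exact h0.le.trans zero_le

/-- **The exterior Hardy inequality with a cut-off.** -/
theorem exists_tail_le (hQ : Frame Q) (hR₀ : 0 < R₀) (hH : HI Q S k R₀) :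
    ∃ K : ℝ, 0 ≤ K ∧ ∀ f : E → F, Core S f →
      ENNReal.ofReal k * ∫⁻ x in {x | ‖x‖ ≤ 2 * R₀}ᶜ, jw x * ‖f x‖ₑ ^ 2 ≤
        2 * qe Q f + ENNReal.ofReal K * ∫⁻ x in {x | ‖x‖ ≤ 2 * R₀}, ‖f x‖ₑ ^ 2 := by
  obtain ⟨K, hK, hb⟩ := exists_ext_bound E hR₀
  refine ⟨K, hK, fun f hf => ?_⟩
  have hc := hf.smul_rad (ext_smooth R₀) fun x y hxy => ext_radial R₀ hxy
  have h1 := hH _ hc fun x hx => by simp only [ext_zero hR₀ hx.le, zero_smul]
  have h2 : ∫⁻ x in {x | ‖x‖ ≤ 2 * R₀}ᶜ, jw x * ‖f x‖ₑ ^ 2 ≤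
      ∫⁻ x, ‖ext R₀ x • f x‖ₑ ^ 2 / ‖x‖ₑ ^ 2 := by
    refine le_trans ?_ (setLIntegral_le_lintegral {x : E | ‖x‖ ≤ 2 * R₀}ᶜ _)
    refine setLIntegral_mono_ae' (measurableSet_cball _).compl (Eventually.of_forall
      fun x hx => ?_)
    have hx' : 2 * R₀ < ‖x‖ := not_le.1 hx
    have hx0 : 0 < ‖x‖ := by linarith
    rw [ext_one hR₀ hx'.le, one_smul, mul_comm, div_eq_mul_inv]
    gcongr
    rw [jw, enorm_sq_eq', ← ENNReal.ofReal_inv_of_pos (by positivity)]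
    refine ENNReal.ofReal_le_ofReal ?_
    rw [one_div]
    exact inv_anti₀ (by positivity) (by linarith)
  refine (mul_le_mul_right h2 _).trans (h1.trans ((qe_smul_le hQ (ext_smooth R₀) (fun x => ?_)
    hf.smooth).trans ?_))
  · rw [abs_of_nonneg (ext_nonneg _ _)]
    exact ext_le_one _ _
  · gcongr
    rw [← lintegral_const_mul' _ _ ENNReal.ofReal_ne_top,
      ← lintegral_indicator (measurableSet_cball _)]
    refine lintegral_mono fun x => ?_
    refine (mul_le_mul_left (hb x) _).trans ?_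
    by_cases hx : x ∈ {x : E | ‖x‖ ≤ 2 * R₀}
    · rw [indicator_of_mem hx, indicator_of_mem hx]
    · rw [indicator_of_notMem hx, indicator_of_notMem hx, zero_mul]

end general

/-! ### Local compactness -/

section compact

variable {ι : Type*} [Fintype ι] [DecidableEq ι]

local notation "V" => EuclideanSpace ℝ ι

variable {F : Type*} [NormedAddCommGroup F] [InnerProductSpace ℂ F] [FiniteDimensional ℂ F]
  [CompleteSpace F]
variable {κ : Type*} [Fintype κ]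
variable {Q : κ → FOp (EuclideanSpace ℝ ι) F}
  {S : Set ((EuclideanSpace ℝ ι ≃ₗᵢ[ℝ] EuclideanSpace ℝ ι) × (F →L[ℝ] F))}
  {u : EuclideanSpace ℝ ι → F} {k R₀ : ℝ}

/-- Control of the gradient. -/
def GradB (Q : κ → FOp V F) (S : Set ((V ≃ₗᵢ[ℝ] V) × (F →L[ℝ] F))) : Prop :=
  ∃ C : ℝ, 0 ≤ C ∧ ∀ φ : V → F, Core S φ →
    ∫⁻ x, ∑ i, ‖fderiv ℝ φ x (EuclideanSpace.single i 1)‖ₑ ^ 2 ≤
      ENNReal.ofReal C * (qe Q φ + ∫⁻ x, ENNReal.ofReal (1 + ‖x‖) * ‖φ x‖ₑ ^ 2)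

/-- The weight `1/(1+|x|²)` as a real function. -/
def rw1 (x : V) : ℝ := (1 + ‖x‖ ^ 2)⁻¹

theorem rw1_pos (x : V) : 0 < rw1 x := by unfold rw1; positivity

theorem rw1_le_one (x : V) : rw1 x ≤ 1 := by
  unfold rw1
  refine inv_le_one_of_one_le₀ ?_
  have : (0 : ℝ) ≤ ‖x‖ ^ 2 := by positivity
  linarith

theorem rw1_smooth : ContDiff ℝ ∞ (rw1 : V → ℝ) := by
  unfold rw1
  refine (contDiff_const.add (contDiff_norm_sq ℝ)).inv fun x => ?_
  positivity

theorem rw1_deriv (x : V) : ‖fderiv ℝ (rw1 : V → ℝ) x‖ ≤ rw1 x := by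
  have h1 : HasFDerivAt (fun x : V => 1 + ‖x‖ ^ 2) (2 • innerSL ℝ x) x :=
    ((hasStrictFDerivAt_norm_sq x).hasFDerivAt).const_add 1
  have h2 : HasFDerivAt (rw1 : V → ℝ) (-((1 + ‖x‖ ^ 2) ^ 2)⁻¹ • (2 • innerSL ℝ x)) x :=
    (hasDerivAt_inv (by positivity : (1 + ‖x‖ ^ 2 : ℝ) ≠ 0)).comp_hasFDerivAt x h1
  rw [h2.fderiv, norm_smul, two_smul, norm_neg, norm_inv, Real.norm_of_nonneg (by positivity)]
  have h6 : ‖innerSL ℝ x + innerSL ℝ x‖ ≤ 1 + ‖x‖ ^ 2 := by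
    refine (norm_add_le _ _).trans ?_
    rw [innerSL_apply_norm]
    nlinarith [sq_nonneg (‖x‖ - 1)]
  calc ((1 + ‖x‖ ^ 2) ^ 2)⁻¹ * ‖innerSL ℝ x + innerSL ℝ x‖
      ≤ ((1 + ‖x‖ ^ 2) ^ 2)⁻¹ * (1 + ‖x‖ ^ 2) := by gcongr
    _ = rw1 x := by
      unfold rw1
      field_simp

theorem ofReal_rw1 (x : V) : ENNReal.ofReal (rw1 x) = jw x := by
  rw [rw1, jw, one_div]

theorem toReal_lintegral_sq {μ : Measure V} {f : V → F} (hf : AEStronglyMeasurable f μ) :
    ∫ x, ‖f x‖ ^ 2 ∂μ = (∫⁻ x, ‖f x‖ₑ ^ 2 ∂μ).toReal := by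
  rw [integral_eq_lintegral_of_nonneg_ae (Eventually.of_forall fun x => sq_nonneg _)
    (hf.norm.pow 2)]
  simp only [enorm_sq_eq]

/-- **Local compactness.** -/
theorem exists_limit (hQ : Frame Q) (hG : GradB Q S) {f : ℕ → V → F} (hf : ∀ n, Core S (f n))
    {C₀ : ℝ} (hC₀ : 0 ≤ C₀) (hq : ∀ n, qe Q (f n) ≤ ENNReal.ofReal C₀)
    (hj : ∀ n, ∫⁻ x, jw x * ‖f n x‖ₑ ^ 2 ≤ ENNReal.ofReal C₀) :
    ∃ (u : V → F) (j : ℕ → ℕ), AEStronglyMeasurable u volume ∧ StrictMono j ∧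
      ∫⁻ x, jw x * ‖u x‖ₑ ^ 2 ≠ ⊤ ∧ LC (fun n => f (j n)) u := by
  obtain ⟨C, hC, hG⟩ := hG
  set g : ℕ → V → F := fun n x => rw1 x • f n x with hg
  have hgc : ∀ n, Core S (g n) := fun n =>
    (hf n).smul_rad rw1_smooth fun x y hxy => by unfold rw1; rw [hxy]
  have hgn : ∀ n, ∫⁻ x, ‖g n x‖ₑ ^ 2 ≤ ENNReal.ofReal C₀ := fun n => by
    refine le_trans (lintegral_mono fun x => ?_) (hj n)
    simp only [hg]
    rw [enorm_smul, mul_pow, enorm_real_sq, ← ofReal_rw1]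
    gcongr
    have h1 := rw1_pos x
    have h2 := rw1_le_one x
    nlinarith
  have hgq : ∀ n, qe Q (g n) ≤ ENNReal.ofReal (3 * C₀) := fun n => by
    refine (qe_smul_le hQ rw1_smooth (fun x => ?_) (hf n).smooth).trans ?_
    · rw [abs_of_pos (rw1_pos x)]
      exact rw1_le_one x
    · rw [show 3 * C₀ = 2 * C₀ + C₀ by ring, ENNReal.ofReal_add (by positivity) hC₀,
        ENNReal.ofReal_mul (by norm_num), ENNReal.ofReal_ofNat]
      refine add_le_add (mul_le_mul_right (hq n) 2) (le_trans (lintegral_mono fun x => ?_) (hj n))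
      refine mul_le_mul_left ?_ _
      rw [← ofReal_rw1, enorm_sq_eq']
      refine ENNReal.ofReal_le_ofReal ?_
      have h1 := rw1_deriv x
      have h2 := rw1_le_one x
      have h3 := norm_nonneg (fderiv ℝ (rw1 : V → ℝ) x)
      nlinarith
  have hgw : ∀ n, ∫⁻ x, ENNReal.ofReal (1 + ‖x‖) * ‖g n x‖ₑ ^ 2 ≤ ENNReal.ofReal (2 * C₀) :=
    fun n => by
      rw [ENNReal.ofReal_mul (by norm_num), ENNReal.ofReal_ofNat]
      refine le_trans ?_ (mul_le_mul_right (hj n) 2)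
      rw [← lintegral_const_mul' _ _ (by norm_num)]
      refine lintegral_mono fun x => ?_
      simp only [hg]
      have h0 : (2 : ℝ≥0∞) * ENNReal.ofReal (rw1 x) = ENNReal.ofReal (2 * rw1 x) := by
        rw [ENNReal.ofReal_mul (by norm_num), ENNReal.ofReal_ofNat]
      rw [enorm_smul, mul_pow, enorm_real_sq, ← ofReal_rw1, ← mul_assoc, ← mul_assoc,
        ← ENNReal.ofReal_mul (by positivity), h0]
      refine mul_le_mul_left (ENNReal.ofReal_le_ofReal ?_) _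
      have h1 := rw1_pos x
      have h2 : (1 + ‖x‖) * rw1 x ≤ 2 := by
        unfold rw1
        rw [mul_inv_le_iff₀ (by positivity)]
        nlinarith [sq_nonneg (‖x‖ - 1)]
      nlinarith
  set C₁ : ℝ := C * (3 * C₀ + 2 * C₀) with hC₁
  have hC₁0 : 0 ≤ C₁ := by positivity
  have hgg : ∀ n, ∫⁻ x, ∑ i, ‖fderiv ℝ (g n) x (EuclideanSpace.single i 1)‖ₑ ^ 2 ≤
      ENNReal.ofReal C₁ := fun n => by
    refine (hG _ (hgc n)).trans ?_
    rw [hC₁, ENNReal.ofReal_mul hC, ENNReal.ofReal_add (by positivity) (by positivity)]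
    exact mul_le_mul_right (add_le_add (hgq n) (hgw n)) _
  -- Rellich
  have hr0 : ∀ n, ∫ x, ‖g n x‖ ^ 2 ≤ max C₀ C₁ := fun n => by
    rw [toReal_lintegral_sq (hgc n).smooth.continuous.aestronglyMeasurable]
    refine le_trans ?_ (le_max_left _ _)
    have h1 := ENNReal.toReal_mono ENNReal.ofReal_ne_top (hgn n)
    rwa [ENNReal.toReal_ofReal hC₀] at h1
  have hr1 : ∀ n, ∫ x, ∑ i, ‖fderiv ℝ (g n) x (EuclideanSpace.single i 1)‖ ^ 2 ≤ max C₀ C₁ :=
    fun n => by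
      have hcont : Continuous fun x => ∑ i, ‖fderiv ℝ (g n) x (EuclideanSpace.single i 1)‖ ^ 2 :=
        continuous_finsetSum _ fun i _ =>
          (((hgc n).smooth.continuous_fderiv (by simp)).clm_apply continuous_const).norm.pow 2
      rw [integral_eq_lintegral_of_nonneg_ae (Eventually.of_forall fun x => by positivity)
        hcont.aestronglyMeasurable]
      refine le_trans ?_ (le_max_right _ _)
      have h1 := ENNReal.toReal_mono ENNReal.ofReal_ne_top (hgg n)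
      rw [ENNReal.toReal_ofReal hC₁0] at h1
      refine le_trans (le_of_eq ?_) h1
      congr 1
      refine lintegral_congr fun x => ?_
      rw [ENNReal.ofReal_sum_of_nonneg fun i _ => by positivity]
      simp only [enorm_sq_eq]
  obtain ⟨Ψ, j, hΨ, hj', hlim⟩ := Rel893.rellich_local (fun n => (hgc n).smooth)
    (fun n => (hgc n).supp) hr0 hr1
  set u : V → F := fun x => (1 + ‖x‖ ^ 2) • Ψ x with hu
  have hum : AEStronglyMeasurable u volume :=
    (by fun_prop : Continuous fun x : V => (1 + ‖x‖ ^ 2 : ℝ)).aestronglyMeasurable.smul hΨ.1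
  have hLC : LC (fun n => f (j n)) u := fun R => by
    have h1 : ∀ n, ∫⁻ x in {x | ‖x‖ ≤ R}, ‖g (j n) x - Ψ x‖ₑ ^ 2 =
        ENNReal.ofReal (∫ x in {x : V | ‖x‖ ≤ R}, ‖g (j n) x - Ψ x‖ ^ 2) := fun n => by
      have hm : AEStronglyMeasurable (fun x => g (j n) x - Ψ x) volume :=
        (hgc (j n)).smooth.continuous.aestronglyMeasurable.sub hΨ.1
      rw [toReal_lintegral_sq hm.restrict, ENNReal.ofReal_toReal]
      refine ne_top_of_le_ne_top (n2_ne_top ?_) (setLIntegral_le_lintegral _ _)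
      exact (Rel893.memLp_core (hgc _).smooth (hgc _).supp).sub hΨ
    have h2 : Tendsto (fun n => ∫⁻ x in {x | ‖x‖ ≤ R}, ‖g (j n) x - Ψ x‖ₑ ^ 2) atTop (𝓝 0) := by
      simp only [h1]
      have := ENNReal.tendsto_ofReal (hlim R)
      rwa [ENNReal.ofReal_zero] at this
    have h3 := ENNReal.Tendsto.const_mul (a := ENNReal.ofReal ((1 + R ^ 2) ^ 2)) h2
      (Or.inr ENNReal.ofReal_ne_top)
    rw [mul_zero] at h3
    refine tendsto_of_tendsto_of_tendsto_of_le_of_le tendsto_const_nhds h3 (fun _ => zero_le)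
      fun n => ?_
    simp only
    rw [← lintegral_const_mul' _ _ ENNReal.ofReal_ne_top]
    refine setLIntegral_mono_ae' (measurableSet_cball R) (Eventually.of_forall fun x hx => ?_)
    have hx' : ‖x‖ ≤ R := hx
    have e : f (j n) x - u x = (1 + ‖x‖ ^ 2) • (g (j n) x - Ψ x) := by
      simp only [hu, hg, rw1]
      rw [smul_sub, smul_smul, mul_inv_cancel₀ (by positivity), one_smul]
    rw [e, enorm_smul, mul_pow, enorm_real_sq]
    gcongr
  refine ⟨u, j, hum, hj', ?_, hLC⟩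
  have hball : ∀ R : ℝ, ∫⁻ x in {x | ‖x‖ ≤ R}, jw x * ‖u x‖ₑ ^ 2 ≤ 2 * ENNReal.ofReal C₀ :=
    fun R => by
      have h1 : ∀ n, ∫⁻ x in {x | ‖x‖ ≤ R}, jw x * ‖u x‖ₑ ^ 2 ≤
          2 * (∫⁻ x in {x | ‖x‖ ≤ R}, ‖f (j n) x - u x‖ₑ ^ 2) + 2 * ENNReal.ofReal C₀ :=
        fun n => by
          have hm : AEMeasurable (fun x => ‖f (j n) x - u x‖ₑ ^ 2)
              ((volume : Measure V).restrict {x | ‖x‖ ≤ R}) :=
            (aem_sq ((hf (j n)).smooth.continuous.aestronglyMeasurable.sub hum)).restrict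
          calc ∫⁻ x in {x | ‖x‖ ≤ R}, jw x * ‖u x‖ₑ ^ 2
              ≤ ∫⁻ x in {x | ‖x‖ ≤ R}, (2 * ‖f (j n) x - u x‖ₑ ^ 2 +
                2 * (jw x * ‖f (j n) x‖ₑ ^ 2)) := by
                refine lintegral_mono fun x => ?_
                have e : u x = f (j n) x - (f (j n) x - u x) := by abel
                calc jw x * ‖u x‖ₑ ^ 2 ≤
                    jw x * (2 * ‖f (j n) x‖ₑ ^ 2 + 2 * ‖f (j n) x - u x‖ₑ ^ 2) := by
                      gcongr
                      conv_lhs => rw [e]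
                      exact enorm_sub_sq_le _ _
                  _ = 2 * (jw x * ‖f (j n) x - u x‖ₑ ^ 2) + 2 * (jw x * ‖f (j n) x‖ₑ ^ 2) := by
                      ring
                  _ ≤ _ := by
                      gcongr
                      exact mul_le_of_le_one_left zero_le (jw_le_one x)
            _ = 2 * (∫⁻ x in {x | ‖x‖ ≤ R}, ‖f (j n) x - u x‖ₑ ^ 2) +
                2 * ∫⁻ x in {x | ‖x‖ ≤ R}, jw x * ‖f (j n) x‖ₑ ^ 2 := by
                rw [lintegral_add_left' (hm.const_mul 2), lintegral_const_mul' _ _ (by norm_num),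
                  lintegral_const_mul' _ _ (by norm_num)]
            _ ≤ _ := by
                gcongr
                exact (setLIntegral_le_lintegral _ _).trans (hj (j n))
      have h2 := (ENNReal.Tendsto.const_mul (a := 2) (hLC R) (Or.inr (by norm_num))).add
        (tendsto_const_nhds (x := 2 * ENNReal.ofReal C₀))
      rw [mul_zero, zero_add] at h2
      exact ge_of_tendsto' h2 h1
  have hU : (⋃ n : ℕ, {x : V | ‖x‖ ≤ (n : ℝ)}) = univ := by
    refine eq_univ_of_forall fun x => ?_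
    obtain ⟨n, hn⟩ := exists_nat_ge ‖x‖
    exact mem_iUnion.2 ⟨n, hn⟩
  have hdir : Directed (· ⊆ ·) fun n : ℕ => {x : V | ‖x‖ ≤ (n : ℝ)} := by
    refine directed_of_isDirected_le fun a b hab x hx => ?_
    have hx' : ‖x‖ ≤ (a : ℝ) := hx
    have hab' : (a : ℝ) ≤ b := by exact_mod_cast hab
    exact hx'.trans hab'
  have h5 := setLIntegral_iUnion_of_directed (μ := (volume : Measure V))
    (fun x => jw x * ‖u x‖ₑ ^ 2) hdir
  rw [hU, Measure.restrict_univ] at h5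
  rw [h5]
  refine ne_top_of_le_ne_top (ENNReal.mul_ne_top (by norm_num) ENNReal.ofReal_ne_top :
    2 * ENNReal.ofReal C₀ ≠ ⊤) (iSup_le fun n => hball n)

end compact

end Crest.Agent.R330.Decay968

end
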