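import Crest.Agent.R330.HardyH_968

/-!
# Row 330, S9 (helper968): the global Hardy inequality

* `pair_lim` : pairings with functions with finite second moment pass to local limits which are
  bounded with the weight `1/(1+|x|²)`.
* `hardy_perp` : for `2 < k` there is `c > 0` with
  `c ∫ |φ - χ|²/(1+|x|²) ≤ q(φ)` for all core `φ` and zero states `χ` with `φ - χ` orthogonal to
  all zero states.
-/

set_option autoImplicit false
set_option linter.unusedSectionVars false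
set_option linter.unusedVariables false

open MeasureTheory Set Filter Topology ENNReal
open scoped ContDiff InnerProductSpace

noncomputable section

namespace Crest.Agent.R330.Decay968

open Moll596 WS596

section general

variable {E : Type*} [NormedAddCommGroup E] [InnerProductSpace ℝ E] [FiniteDimensional ℝ E]
  [MeasurableSpace E] [BorelSpace E]
variable {F : Type*} [NormedAddCommGroup F] [InnerProductSpace ℂ F] [CompleteSpace F]
variable {κ : Type*} [Fintype κ]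
variable {Q : κ → FOp E F} {S : Set ((E ≃ₗᵢ[ℝ] E) × (F →L[ℝ] F))} {u : E → F}
  {k R₀ : ℝ}

/-! ### Pairings -/

theorem lintegral_mul_le {μ : Measure E} {f g : E → ℝ≥0∞} (hf : AEMeasurable f μ)
    (hg : AEMeasurable g μ) : ∫⁻ x, f x * g x ∂μ ≤
      (∫⁻ x, f x ^ 2 ∂μ) ^ (1 / 2 : ℝ) * (∫⁻ x, g x ^ 2 ∂μ) ^ (1 / 2 : ℝ) := by
  have h2 := ENNReal.lintegral_mul_le_Lp_mul_Lq μ (Real.HolderConjugate.two_two) hf hg
  simp only [ENNReal.rpow_two] at h2
  exact h2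

theorem enorm_inner_le (v w : F) : ‖⟪v, w⟫_ℂ‖ₑ ≤ ‖v‖ₑ * ‖w‖ₑ := by
  rw [← ofReal_norm, ← ofReal_norm, ← ofReal_norm, ← ENNReal.ofReal_mul (norm_nonneg _)]
  exact ENNReal.ofReal_le_ofReal (norm_inner_le_norm _ _)

/-- Weighted Cauchy-Schwarz. -/
theorem lintegral_wmul_le {μ : Measure E} {f g : E → F} (hf : AEStronglyMeasurable f μ)
    (hg : AEStronglyMeasurable g μ) : ∫⁻ x, ‖f x‖ₑ * ‖g x‖ₑ ∂μ ≤
      (∫⁻ x, ENNReal.ofReal (1 + ‖x‖ ^ 2) * ‖f x‖ₑ ^ 2 ∂μ) ^ (1 / 2 : ℝ) *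
        (∫⁻ x, jw x * ‖g x‖ₑ ^ 2 ∂μ) ^ (1 / 2 : ℝ) := by
  have hs : ∀ x : E, (0 : ℝ) < Real.sqrt (1 + ‖x‖ ^ 2) := fun x => Real.sqrt_pos.2 (by positivity)
  have h1 : ∀ x, ‖f x‖ₑ * ‖g x‖ₑ = (ENNReal.ofReal (Real.sqrt (1 + ‖x‖ ^ 2)) * ‖f x‖ₑ) *
      (ENNReal.ofReal (Real.sqrt (1 + ‖x‖ ^ 2))⁻¹ * ‖g x‖ₑ) := fun x => by
    have h2 : ENNReal.ofReal (Real.sqrt (1 + ‖x‖ ^ 2)) *
        ENNReal.ofReal (Real.sqrt (1 + ‖x‖ ^ 2))⁻¹ = 1 := by
      rw [← ENNReal.ofReal_mul (hs x).le, mul_inv_cancel₀ (hs x).ne', ENNReal.ofReal_one]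
    calc ‖f x‖ₑ * ‖g x‖ₑ = 1 * (‖f x‖ₑ * ‖g x‖ₑ) := (one_mul _).symm
      _ = _ := by
        rw [← h2]
        ring
  have h3 : ∀ x, (ENNReal.ofReal (Real.sqrt (1 + ‖x‖ ^ 2)) * ‖f x‖ₑ) ^ 2 =
      ENNReal.ofReal (1 + ‖x‖ ^ 2) * ‖f x‖ₑ ^ 2 := fun x => by
    rw [mul_pow, ← ENNReal.ofReal_pow (hs x).le, Real.sq_sqrt (by positivity)]
  have h4 : ∀ x, (ENNReal.ofReal (Real.sqrt (1 + ‖x‖ ^ 2))⁻¹ * ‖g x‖ₑ) ^ 2 =
      jw x * ‖g x‖ₑ ^ 2 := fun x => by
    rw [mul_pow, ← ENNReal.ofReal_pow (inv_pos.2 (hs x)).le, inv_pow,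
      Real.sq_sqrt (by positivity), jw, one_div]
  have hc : Continuous fun x : E => Real.sqrt (1 + ‖x‖ ^ 2) := by fun_prop
  have hc' : Continuous fun x : E => (Real.sqrt (1 + ‖x‖ ^ 2))⁻¹ := hc.inv₀ fun x => (hs x).ne'
  have h5 := lintegral_mul_le (μ := μ)
    (f := fun x => ENNReal.ofReal (Real.sqrt (1 + ‖x‖ ^ 2)) * ‖f x‖ₑ)
    (g := fun x => ENNReal.ofReal (Real.sqrt (1 + ‖x‖ ^ 2))⁻¹ * ‖g x‖ₑ)
    ((hc.measurable.ennreal_ofReal.aemeasurable).mul hf.enorm)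
    ((hc'.measurable.ennreal_ofReal.aemeasurable).mul hg.enorm)
  simp only [h3, h4, ← h1] at h5
  exact h5

/-- The tail of an integrable function. -/
theorem tendsto_tail {f : E → ℝ≥0∞} (hf : AEMeasurable f volume) (h : ∫⁻ x, f x ≠ ⊤) :
    Tendsto (fun n : ℕ => ∫⁻ x in {x : E | ‖x‖ ≤ (n : ℝ)}ᶜ, f x) atTop (𝓝 0) := by
  have h0 : ∫⁻ x : E, (0 : ℝ≥0∞) = 0 := by simp
  simp only [← lintegral_indicator (measurableSet_cball _).compl]
  rw [← h0]
  refine tendsto_lintegral_of_dominated_convergence' f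
    (fun n => hf.indicator (measurableSet_cball _).compl)
    (fun n => Eventually.of_forall fun x => indicator_le_self _ _ _) h
    (Eventually.of_forall fun x => ?_)
  refine tendsto_const_nhds.congr' ?_
  obtain ⟨m, hm⟩ := exists_nat_ge ‖x‖
  filter_upwards [eventually_ge_atTop m] with n hn
  rw [indicator_of_notMem]
  intro hx
  apply hx
  have : (m : ℝ) ≤ n := by exact_mod_cast hn
  exact hm.trans this

/-- **Pairings pass to the limit.** -/
theorem pair_lim {η : E → F} (hη : AEStronglyMeasurable η volume)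
    (hη2 : ∫⁻ x, ENNReal.ofReal (1 + ‖x‖ ^ 2) * ‖η x‖ₑ ^ 2 ≠ ⊤) {g : ℕ → E → F}
    (hg : ∀ n, AEStronglyMeasurable (g n) volume) {B : ℝ≥0∞} (hB : B ≠ ⊤)
    (hgB : ∀ n, ∫⁻ x, jw x * ‖g n x‖ₑ ^ 2 ≤ B)
    (hloc : ∀ R : ℝ, Tendsto (fun n => ∫⁻ x in {x | ‖x‖ ≤ R}, ‖g n x‖ₑ ^ 2) atTop (𝓝 0)) :
    Tendsto (fun n => ∫ x, ⟪η x, g n x⟫_ℂ) atTop (𝓝 0) := by
  rw [tendsto_zero_iff_enorm_tendsto_zero]
  set T : ℕ → ℝ≥0∞ := fun m => ∫⁻ x in {x : E | ‖x‖ ≤ (m : ℝ)}ᶜ,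
    ENNReal.ofReal (1 + ‖x‖ ^ 2) * ‖η x‖ₑ ^ 2 with hT
  have hcont : Continuous fun x : E => (1 + ‖x‖ ^ 2 : ℝ) := by fun_prop
  have hTt : Tendsto T atTop (𝓝 0) :=
    tendsto_tail ((hcont.measurable.ennreal_ofReal.aemeasurable).mul (aem_sq hη)) hη2
  set a : ℝ≥0∞ := ∫⁻ x, ‖η x‖ₑ ^ 2 with ha
  have ha' : a ≠ ⊤ := by
    refine ne_top_of_le_ne_top hη2 (lintegral_mono fun x => ?_)
    refine le_mul_of_one_le_left zero_le ?_
    rw [← ENNReal.ofReal_one]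
    refine ENNReal.ofReal_le_ofReal ?_
    have : (0 : ℝ) ≤ ‖x‖ ^ 2 := by positivity
    linarith
  have hbound : ∀ m n : ℕ, ‖∫ x, ⟪η x, g n x⟫_ℂ‖ₑ ≤
      a ^ (1 / 2 : ℝ) * (∫⁻ x in {x | ‖x‖ ≤ (m : ℝ)}, ‖g n x‖ₑ ^ 2) ^ (1 / 2 : ℝ) +
        T m ^ (1 / 2 : ℝ) * B ^ (1 / 2 : ℝ) := fun m n => by
    refine (enorm_integral_le_lintegral_enorm _).trans ?_
    refine (lintegral_mono fun x => enorm_inner_le (η x) (g n x)).trans ?_
    rw [← lintegral_add_compl _ (measurableSet_cball (m : ℝ))]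
    refine add_le_add ?_ ?_
    · refine (lintegral_mul_le hη.enorm.restrict (hg n).enorm.restrict).trans ?_
      gcongr
      exact setLIntegral_le_lintegral _ _
    · refine (lintegral_wmul_le hη.restrict (hg n).restrict).trans ?_
      gcongr
      exact (setLIntegral_le_lintegral _ _).trans (hgB n)
  rw [ENNReal.tendsto_nhds_zero]
  intro ε hε
  have h1 : Tendsto (fun m => T m ^ (1 / 2 : ℝ) * B ^ (1 / 2 : ℝ)) atTop (𝓝 0) := by
    have := ENNReal.Tendsto.mul_const (b := B ^ (1 / 2 : ℝ)) (tendsto_half hTt)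
      (Or.inr (ENNReal.rpow_ne_top_of_nonneg (by norm_num) hB))
    rwa [zero_mul] at this
  have hε2 : 0 < ε / 2 := ENNReal.half_pos hε.ne'
  obtain ⟨m, hm⟩ := (ENNReal.tendsto_nhds_zero.1 h1 _ hε2).exists
  have h2 : Tendsto (fun n => a ^ (1 / 2 : ℝ) *
      (∫⁻ x in {x | ‖x‖ ≤ (m : ℝ)}, ‖g n x‖ₑ ^ 2) ^ (1 / 2 : ℝ)) atTop (𝓝 0) := by
    have := ENNReal.Tendsto.const_mul (a := a ^ (1 / 2 : ℝ)) (tendsto_half (hloc m))
      (Or.inr (ENNReal.rpow_ne_top_of_nonneg (by norm_num) ha'))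
    rwa [mul_zero] at this
  filter_upwards [ENNReal.tendsto_nhds_zero.1 h2 _ hε2] with n hn
  refine (hbound m n).trans ((add_le_add hn hm).trans ?_)
  rw [ENNReal.add_halves]

theorem integrable_inner_memLp {f g : E → F} (hf : MemLp f 2 volume) (hg : MemLp g 2 volume) :
    Integrable fun x => ⟪f x, g x⟫_ℂ := by
  have h1 : Integrable fun x => ‖f x‖ * ‖g x‖ := hf.norm.integrable_mul hg.norm
  refine h1.mono' (hf.1.inner hg.1) (Eventually.of_forall fun x => norm_inner_le_norm _ _)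

theorem Core.memLp {f : E → F} (hf : Core S f) : MemLp f 2 volume :=
  hf.smooth.continuous.memLp_of_hasCompactSupport hf.supp

theorem lint_le_qe (f : E → F) (a : κ) : ∫⁻ x, ‖(Q a).op f x‖ₑ ^ 2 ≤ 16 * qe Q f := by
  unfold qe
  rw [← mul_assoc, one_div, ENNReal.mul_inv_cancel (by norm_num) (by norm_num), one_mul]
  exact Finset.single_le_sum (f := fun a => ∫⁻ x, ‖(Q a).op f x‖ₑ ^ 2) (fun _ _ => zero_le)
    (Finset.mem_univ a)

/-! ### Zero states -/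

theorem Ker.exists_approx {χ : E → F} (h : Ker Q S χ) {ε : ℝ≥0∞} (hε : 0 < ε) :
    ∃ f : E → F, Core S f ∧ ∫⁻ x, ‖f x - χ x‖ₑ ^ 2 ≤ ε ∧ qe Q f ≤ ε := by
  obtain ⟨φ, h1, h2, h3⟩ := h.app
  have h4 := (ENNReal.continuous_pow 2).continuousAt.tendsto.comp h2
  simp only [ne_eq, OfNat.ofNat_ne_zero, not_false_eq_true, zero_pow, Function.comp_def,
    sq_eLpNorm] at h4
  have h5 : Tendsto (fun n => qe Q (φ n)) atTop (𝓝 0) := by
    have h6 : Tendsto (fun n => (1 / 16 : ℝ≥0∞) * ∑ a, eLpNorm ((Q a).op (φ n)) 2 volume ^ 2)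
        atTop (𝓝 ((1 / 16) * ∑ a : κ, (0 : ℝ≥0∞) ^ 2)) := by
      refine ENNReal.Tendsto.const_mul ?_ (Or.inr (by
        rw [one_div]; exact ENNReal.inv_ne_top.2 (by norm_num)))
      exact tendsto_finsetSum _ fun a _ =>
        (ENNReal.continuous_pow 2).continuousAt.tendsto.comp (h3 a)
    simp only [ne_eq, OfNat.ofNat_ne_zero, not_false_eq_true, zero_pow, Finset.sum_const_zero,
      mul_zero, sq_eLpNorm] at h6
    exact h6
  obtain ⟨n, hn1, hn2⟩ := ((ENNReal.tendsto_nhds_zero.1 h4 ε hε).and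
    (ENNReal.tendsto_nhds_zero.1 h5 ε hε)).exists
  exact ⟨φ n, h1 n, hn1, hn2⟩

theorem Ker.rsmul {χ : E → F} (h : Ker Q S χ) (r : ℝ) : Ker Q S (fun x => r • χ x) := by
  obtain ⟨φ, h1, h2, h3⟩ := h.app
  refine ⟨h.memLp.const_smul r, fun n x => r • φ n x, fun n => (h1 n).rsmul r, ?_, fun a => ?_⟩
  · have e : ∀ n, eLpNorm (fun x => r • φ n x - r • χ x) 2 volume =
        ‖r‖ₑ * eLpNorm (fun x => φ n x - χ x) 2 volume := fun n => by
      have : (fun x => r • φ n x - r • χ x) = r • fun x => φ n x - χ x := by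
        funext x
        simp [smul_sub]
      rw [this, eLpNorm_const_smul]
    simp only [e]
    have := ENNReal.Tendsto.const_mul (a := ‖r‖ₑ) h2 (Or.inr enorm_ne_top)
    rwa [mul_zero] at this
  · have e : ∀ n, eLpNorm ((Q a).op (fun x => r • φ n x)) 2 volume =
        ‖r‖ₑ * eLpNorm ((Q a).op (φ n)) 2 volume := fun n => by
      have : (Q a).op (fun x => r • φ n x) = r • (Q a).op (φ n) := by
        funext x
        exact FOp.op_rsmul _ (h1 n).smooth r x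
      rw [this, eLpNorm_const_smul]
    simp only [e]
    have := ENNReal.Tendsto.const_mul (a := ‖r‖ₑ) (h3 a) (Or.inr enorm_ne_top)
    rwa [mul_zero] at this

end general

/-! ### The contradiction -/

section compact

variable {ι : Type*} [Fintype ι] [DecidableEq ι]
variable {F : Type*} [NormedAddCommGroup F] [InnerProductSpace ℂ F] [FiniteDimensional ℂ F]
  [CompleteSpace F]
variable {κ : Type*} [Fintype κ]
variable {Q : κ → FOp (EuclideanSpace ℝ ι) F}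
  {S : Set ((EuclideanSpace ℝ ι ≃ₗᵢ[ℝ] EuclideanSpace ℝ ι) × (F →L[ℝ] F))}
  {u : EuclideanSpace ℝ ι → F} {k R₀ : ℝ}

theorem tendsto_ofReal_div (C : ℝ) :
    Tendsto (fun n : ℕ => ENNReal.ofReal (C / ((n : ℝ) + 1))) atTop (𝓝 0) := by
  have h1 : Tendsto (fun n : ℕ => C / ((n : ℝ) + 1)) atTop (𝓝 0) :=
    tendsto_const_nhds.div_atTop (tendsto_atTop_add_const_right _ _ tendsto_natCast_atTop_atTop)
  have := ENNReal.tendsto_ofReal h1
  rwa [ENNReal.ofReal_zero] at this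

/-- No sequence contradicts the Hardy inequality. -/
theorem no_seq (hQ : Frame Q) (hR₀ : 0 < R₀) (hH : HI Q S k R₀) (hk : 2 < k) (hG : GradB Q S)
    {φ χ : ℕ → EuclideanSpace ℝ ι → F} (hφ : ∀ n, Core S (φ n)) (hχ : ∀ n, Ker Q S (χ n))
    (hp : ∀ n, ∀ η : EuclideanSpace ℝ ι → F, Ker Q S η → ∫ x, ⟪η x, φ n x - χ n x⟫_ℂ = 0)
    (hq : ∀ n, qe Q (φ n) ≤ ENNReal.ofReal (1 / ((n : ℝ) + 1)))
    (h1 : ∀ n, ∫⁻ x, jw x * ‖φ n x - χ n x‖ₑ ^ 2 = 1) : False := by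
  have hpos : ∀ n : ℕ, 0 < ENNReal.ofReal (1 / ((n : ℝ) + 1)) := fun n =>
    ENNReal.ofReal_pos.2 (by positivity)
  have hle1 : ∀ n : ℕ, ENNReal.ofReal (1 / ((n : ℝ) + 1)) ≤ 1 := fun n => by
    refine ENNReal.ofReal_le_one.2 ?_
    rw [div_le_one (by positivity)]
    have : (0 : ℝ) ≤ n := Nat.cast_nonneg n
    linarith
  choose χ' hχc hχ1 hχ2 using fun n => (hχ n).exists_approx (hpos n)
  set f : ℕ → EuclideanSpace ℝ ι → F := fun n x => φ n x - χ' n x with hf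
  have hfc : ∀ n, Core S (f n) := fun n => (hφ n).sub (hχc n)
  have hm1 : ∀ n, AEStronglyMeasurable (fun x => φ n x - χ n x) volume := fun n =>
    (hφ n).memLp.1.sub (hχ n).memLp.1
  have hm2 : ∀ n, AEStronglyMeasurable (fun x => χ' n x - χ n x) volume := fun n =>
    (hχc n).memLp.1.sub (hχ n).memLp.1
  have hfq : ∀ n, qe Q (f n) ≤ 4 * ENNReal.ofReal (1 / ((n : ℝ) + 1)) := fun n => by
    refine (qe_sub_le (hφ n).smooth (hχc n).smooth).trans ?_
    refine (add_le_add (mul_le_mul_right (hq n) 2) (mul_le_mul_right (hχ2 n) 2)).trans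
      (le_of_eq ?_)
    rw [← add_mul]
    norm_num
  have hfj : ∀ n, ∫⁻ x, jw x * ‖f n x‖ₑ ^ 2 ≤
      2 * 1 + 2 * ENNReal.ofReal (1 / ((n : ℝ) + 1)) := fun n => by
    have hm : AEMeasurable (fun x => jw x * ‖φ n x - χ n x‖ₑ ^ 2)
        (volume : Measure (EuclideanSpace ℝ ι)) := measurable_jw.aemeasurable.mul (aem_sq (hm1 n))
    calc ∫⁻ x, jw x * ‖f n x‖ₑ ^ 2
        ≤ ∫⁻ x, (2 * (jw x * ‖φ n x - χ n x‖ₑ ^ 2) + 2 * ‖χ' n x - χ n x‖ₑ ^ 2) := by
          refine lintegral_mono fun x => ?_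
          have e : f n x = (φ n x - χ n x) - (χ' n x - χ n x) := by
            simp only [hf]
            abel
          rw [e]
          calc jw x * ‖(φ n x - χ n x) - (χ' n x - χ n x)‖ₑ ^ 2
              ≤ jw x * (2 * ‖φ n x - χ n x‖ₑ ^ 2 + 2 * ‖χ' n x - χ n x‖ₑ ^ 2) := by
                gcongr
                exact enorm_sub_sq_le _ _
            _ = 2 * (jw x * ‖φ n x - χ n x‖ₑ ^ 2) + 2 * (jw x * ‖χ' n x - χ n x‖ₑ ^ 2) := by ring
            _ ≤ _ := by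
                gcongr
                exact mul_le_of_le_one_left zero_le (jw_le_one x)
      _ = 2 * (∫⁻ x, jw x * ‖φ n x - χ n x‖ₑ ^ 2) + 2 * ∫⁻ x, ‖χ' n x - χ n x‖ₑ ^ 2 := by
          rw [lintegral_add_left' (hm.const_mul 2), lintegral_const_mul' _ _ (by norm_num),
            lintegral_const_mul' _ _ (by norm_num)]
      _ ≤ _ := by
          rw [h1]
          gcongr
          exact hχ1 n
  have hqb : ∀ n, qe Q (f n) ≤ ENNReal.ofReal 4 := fun n => by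
    refine (hfq n).trans ?_
    calc 4 * ENNReal.ofReal (1 / ((n : ℝ) + 1)) ≤ 4 * 1 := by gcongr; exact hle1 n
      _ = ENNReal.ofReal 4 := by rw [mul_one, ENNReal.ofReal_ofNat]
  have hjb : ∀ n, ∫⁻ x, jw x * ‖f n x‖ₑ ^ 2 ≤ ENNReal.ofReal 4 := fun n => by
    refine (hfj n).trans ?_
    calc 2 * 1 + 2 * ENNReal.ofReal (1 / ((n : ℝ) + 1)) ≤ 2 * 1 + 2 * 1 := by gcongr; exact hle1 n
      _ = ENNReal.ofReal 4 := by rw [ENNReal.ofReal_ofNat]; norm_num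
  obtain ⟨u, j, hum, hj, hufin, hLC⟩ := exists_limit hQ hG hfc (by norm_num : (0 : ℝ) ≤ 4) hqb hjb
  have hqt : Tendsto (fun n => qe Q (f (j n))) atTop (𝓝 0) := by
    have h2 := ENNReal.Tendsto.const_mul (a := 4) (tendsto_ofReal_div 1) (Or.inr (by norm_num))
    rw [mul_zero] at h2
    exact tendsto_of_tendsto_of_tendsto_of_le_of_le tendsto_const_nhds
      (h2.comp hj.tendsto_atTop) (fun _ => zero_le) fun n => hfq (j n)
  have hsol : Sol Q S u := by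
    refine sol_of_lim hQ.adj (fun n => hfc (j n)) hum hufin hLC fun a => ?_
    have h2 := ENNReal.Tendsto.const_mul (a := 16) hqt (Or.inr (by norm_num))
    rw [mul_zero] at h2
    exact tendsto_of_tendsto_of_tendsto_of_le_of_le tendsto_const_nhds h2 (fun _ => zero_le)
      fun n => lint_le_qe (f (j n)) a
  have huL : MemLp u 2 volume := hsol.memLp hQ hR₀ hH (by linarith)
  have huK : Ker Q S u := hsol.ker hQ.adj huL
  -- `u` is zero
  have hmom : ∫⁻ x, ENNReal.ofReal (1 + ‖x‖ ^ 2) * ‖u x‖ₑ ^ 2 ≠ ⊤ := by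
    have := hsol.moment hQ hR₀ hH (s := 1) zero_le_one (by norm_num; linarith)
    simpa only [Real.rpow_one] using this
  have hB : 2 * ENNReal.ofReal 4 + 2 * (∫⁻ x, jw x * ‖u x‖ₑ ^ 2) ≠ ⊤ :=
    ENNReal.add_ne_top.2 ⟨ENNReal.mul_ne_top (by norm_num) ENNReal.ofReal_ne_top,
      ENNReal.mul_ne_top (by norm_num) hufin⟩
  have hP1 : Tendsto (fun n => ∫ x, ⟪u x, f (j n) x - u x⟫_ℂ) atTop (𝓝 0) := by
    refine pair_lim hum hmom (fun n => (hfc (j n)).memLp.1.sub hum) hB (fun n => ?_) hLC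
    have hm : AEMeasurable (fun x => jw x * ‖f (j n) x‖ₑ ^ 2)
        (volume : Measure (EuclideanSpace ℝ ι)) :=
      measurable_jw.aemeasurable.mul (aem_sq (hfc (j n)).memLp.1)
    calc ∫⁻ x, jw x * ‖f (j n) x - u x‖ₑ ^ 2
        ≤ ∫⁻ x, (2 * (jw x * ‖f (j n) x‖ₑ ^ 2) + 2 * (jw x * ‖u x‖ₑ ^ 2)) := by
          refine lintegral_mono fun x => ?_
          calc jw x * ‖f (j n) x - u x‖ₑ ^ 2
              ≤ jw x * (2 * ‖f (j n) x‖ₑ ^ 2 + 2 * ‖u x‖ₑ ^ 2) := by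
                gcongr
                exact enorm_sub_sq_le _ _
            _ = _ := by ring
      _ = 2 * (∫⁻ x, jw x * ‖f (j n) x‖ₑ ^ 2) + 2 * ∫⁻ x, jw x * ‖u x‖ₑ ^ 2 := by
          rw [lintegral_add_left' (hm.const_mul 2), lintegral_const_mul' _ _ (by norm_num),
            lintegral_const_mul' _ _ (by norm_num)]
      _ ≤ _ := by
          gcongr
          exact hjb (j n)
  have hP2 : Tendsto (fun n => ∫ x, ⟪u x, χ n x - χ' n x⟫_ℂ) atTop (𝓝 0) := by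
    refine tendsto_pair_zero huL (fun n => (hχ n).memLp.1.sub (hχc n).memLp.1) ?_
    refine tendsto_of_tendsto_of_tendsto_of_le_of_le tendsto_const_nhds
      (tendsto_ofReal_div 1) (fun _ => zero_le) fun n => ?_
    refine le_trans (le_of_eq (lintegral_congr fun x => ?_)) (hχ1 n)
    rw [← enorm_neg, neg_sub]
  have hP3 : ∀ n, ∫ x, ⟪u x, f n x⟫_ℂ = ∫ x, ⟪u x, χ n x - χ' n x⟫_ℂ := fun n => by
    have e : ∀ x, ⟪u x, f n x⟫_ℂ = ⟪u x, φ n x - χ n x⟫_ℂ + ⟪u x, χ n x - χ' n x⟫_ℂ := fun x => by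
      rw [← inner_add_right]
      congr 1
      simp only [hf]
      abel
    have i1 : Integrable fun x => ⟪u x, φ n x - χ n x⟫_ℂ :=
      integrable_inner_memLp huL ((hφ n).memLp.sub (hχ n).memLp)
    have i2 : Integrable fun x => ⟪u x, χ n x - χ' n x⟫_ℂ :=
      integrable_inner_memLp huL ((hχ n).memLp.sub (hχc n).memLp)
    simp only [e]
    rw [integral_add i1 i2, hp n u huK, zero_add]
  have huu : ∫ x, ⟪u x, u x⟫_ℂ = 0 := by
    have e : ∀ n, ∫ x, ⟪u x, u x⟫_ℂ =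
        (∫ x, ⟪u x, χ (j n) x - χ' (j n) x⟫_ℂ) - ∫ x, ⟪u x, f (j n) x - u x⟫_ℂ := fun n => by
      have i1 : Integrable fun x => ⟪u x, f (j n) x⟫_ℂ :=
        integrable_inner_memLp huL (hfc (j n)).memLp
      have i2 : Integrable fun x => ⟪u x, f (j n) x - u x⟫_ℂ :=
        integrable_inner_memLp huL ((hfc (j n)).memLp.sub huL)
      rw [← hP3, ← integral_sub i1 i2]
      refine integral_congr_ae (Eventually.of_forall fun x => ?_)
      simp only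
      rw [← inner_sub_right]
      congr 1
      abel
    have ht := (hP2.comp hj.tendsto_atTop).sub hP1
    rw [sub_zero] at ht
    refine tendsto_nhds_unique (tendsto_const_nhds (x := ∫ x, ⟪u x, u x⟫_ℂ)
      (f := (atTop : Filter ℕ))) (ht.congr fun n => ?_)
    exact (e n).symm
  have hu0 : ∀ᵐ x, u x = 0 := by
    have h2 : ∫ x, ‖u x‖ ^ 2 = 0 := by
      have e : ∀ x, ⟪u x, u x⟫_ℂ = ((‖u x‖ ^ 2 : ℝ) : ℂ) := fun x => by
        rw [inner_self_eq_norm_sq_to_K]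
        simp
      simp only [e] at huu
      rw [integral_complex_ofReal] at huu
      exact_mod_cast huu
    have h3 := (integral_eq_zero_iff_of_nonneg (fun x => sq_nonneg ‖u x‖)
      (huL.integrable_norm_pow (by norm_num))).1 h2
    filter_upwards [h3] with x hx
    have h4 : ‖u x‖ ^ 2 = 0 := hx
    simpa using h4
  -- the whole mass goes to zero
  obtain ⟨K, hK, htail⟩ := exists_tail_le hQ hR₀ hH
  have hin : Tendsto (fun n => ∫⁻ x in {x | ‖x‖ ≤ 2 * R₀}, ‖f (j n) x‖ₑ ^ 2) atTop (𝓝 0) := by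
    refine (hLC (2 * R₀)).congr fun n => ?_
    refine lintegral_congr_ae ?_
    filter_upwards [ae_restrict_of_ae hu0] with x hx
    rw [hx, sub_zero]
  have hout : Tendsto (fun n => ENNReal.ofReal k *
      ∫⁻ x in {x | ‖x‖ ≤ 2 * R₀}ᶜ, jw x * ‖f (j n) x‖ₑ ^ 2) atTop (𝓝 0) := by
    have h2 := (ENNReal.Tendsto.const_mul (a := 2) hqt (Or.inr (by norm_num))).add
      (ENNReal.Tendsto.const_mul (a := ENNReal.ofReal K) hin (Or.inr ENNReal.ofReal_ne_top))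
    rw [mul_zero, mul_zero, add_zero] at h2
    exact tendsto_of_tendsto_of_tendsto_of_le_of_le tendsto_const_nhds h2 (fun _ => zero_le)
      fun n => htail _ (hfc (j n))
  have hk0 : ENNReal.ofReal k ≠ 0 := by
    rw [Ne, ENNReal.ofReal_eq_zero, not_le]
    linarith
  have hout' : Tendsto (fun n =>
      ∫⁻ x in {x | ‖x‖ ≤ 2 * R₀}ᶜ, jw x * ‖f (j n) x‖ₑ ^ 2) atTop (𝓝 0) := by
    have h2 := ENNReal.Tendsto.const_mul (a := (ENNReal.ofReal k)⁻¹) hout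
      (Or.inr (ENNReal.inv_ne_top.2 hk0))
    rw [mul_zero] at h2
    refine h2.congr fun n => ?_
    rw [← mul_assoc, ENNReal.inv_mul_cancel hk0 ENNReal.ofReal_ne_top, one_mul]
  have hall : Tendsto (fun n => 2 * ((∫⁻ x in {x | ‖x‖ ≤ 2 * R₀}, ‖f (j n) x‖ₑ ^ 2) +
      ∫⁻ x in {x | ‖x‖ ≤ 2 * R₀}ᶜ, jw x * ‖f (j n) x‖ₑ ^ 2) +
        2 * ENNReal.ofReal (1 / ((j n : ℝ) + 1))) atTop (𝓝 0) := by
    have h2 := (ENNReal.Tendsto.const_mul (a := 2) (hin.add hout') (Or.inr (by norm_num))).add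
      (ENNReal.Tendsto.const_mul (a := 2) ((tendsto_ofReal_div 1).comp hj.tendsto_atTop)
        (Or.inr (by norm_num)))
    simp only [add_zero, mul_zero] at h2
    exact h2
  have hge : ∀ n, (1 : ℝ≥0∞) ≤ 2 * ((∫⁻ x in {x | ‖x‖ ≤ 2 * R₀}, ‖f (j n) x‖ₑ ^ 2) +
      ∫⁻ x in {x | ‖x‖ ≤ 2 * R₀}ᶜ, jw x * ‖f (j n) x‖ₑ ^ 2) +
        2 * ENNReal.ofReal (1 / ((j n : ℝ) + 1)) := fun n => by
    have hm : AEMeasurable (fun x => jw x * ‖f (j n) x‖ₑ ^ 2)
        (volume : Measure (EuclideanSpace ℝ ι)) :=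
      measurable_jw.aemeasurable.mul (aem_sq (hfc (j n)).memLp.1)
    calc (1 : ℝ≥0∞) = ∫⁻ x, jw x * ‖φ (j n) x - χ (j n) x‖ₑ ^ 2 := (h1 (j n)).symm
      _ ≤ ∫⁻ x, (2 * (jw x * ‖f (j n) x‖ₑ ^ 2) + 2 * ‖χ' (j n) x - χ (j n) x‖ₑ ^ 2) := by
          refine lintegral_mono fun x => ?_
          have e : φ (j n) x - χ (j n) x = f (j n) x + (χ' (j n) x - χ (j n) x) := by
            simp only [hf]
            abel
          rw [e]
          calc jw x * ‖f (j n) x + (χ' (j n) x - χ (j n) x)‖ₑ ^ 2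
              ≤ jw x * (2 * ‖f (j n) x‖ₑ ^ 2 + 2 * ‖χ' (j n) x - χ (j n) x‖ₑ ^ 2) := by
                gcongr
                exact enorm_add_sq_le _ _
            _ = 2 * (jw x * ‖f (j n) x‖ₑ ^ 2) + 2 * (jw x * ‖χ' (j n) x - χ (j n) x‖ₑ ^ 2) := by
                ring
            _ ≤ _ := by
                gcongr
                exact mul_le_of_le_one_left zero_le (jw_le_one x)
      _ = 2 * (∫⁻ x, jw x * ‖f (j n) x‖ₑ ^ 2) + 2 * ∫⁻ x, ‖χ' (j n) x - χ (j n) x‖ₑ ^ 2 := by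
          rw [lintegral_add_left' (hm.const_mul 2), lintegral_const_mul' _ _ (by norm_num),
            lintegral_const_mul' _ _ (by norm_num)]
      _ ≤ _ := by
          rw [← lintegral_add_compl (fun x => jw x * ‖f (j n) x‖ₑ ^ 2)
            (measurableSet_cball (2 * R₀))]
          gcongr with x
          · exact mul_le_of_le_one_left zero_le (jw_le_one x)
          · exact hχ1 (j n)
  have := ge_of_tendsto' hall hge
  simp at this

/-- **The global Hardy inequality.** -/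
theorem hardy_perp (hQ : Frame Q) (hR₀ : 0 < R₀) (hH : HI Q S k R₀) (hk : 2 < k)
    (hG : GradB Q S) :
    ∃ c : ℝ, 0 < c ∧ ∀ φ χ : EuclideanSpace ℝ ι → F, Core S φ → Ker Q S χ →
      (∀ η : EuclideanSpace ℝ ι → F, Ker Q S η → ∫ x, ⟪η x, φ x - χ x⟫_ℂ = 0) →
      ENNReal.ofReal c * ∫⁻ x, jw x * ‖φ x - χ x‖ₑ ^ 2 ≤ qe Q φ := by
  by_contra hcon
  push Not at hcon
  choose φ χ hφ hχ hp hlt using fun n : ℕ => hcon (1 / ((n : ℝ) + 1)) (by positivity)
  set I : ℕ → ℝ≥0∞ := fun n => ∫⁻ x, jw x * ‖φ n x - χ n x‖ₑ ^ 2 with hI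
  have hI0 : ∀ n, I n ≠ 0 := fun n h0 => by
    have := hlt n
    rw [show ∫⁻ x, jw x * ‖φ n x - χ n x‖ₑ ^ 2 = I n from rfl, h0, mul_zero] at this
    exact absurd this (by simp)
  have hIt : ∀ n, I n ≠ ⊤ := fun n => jw_int_ne_top ((hφ n).memLp.sub (hχ n).memLp)
  have hIr : ∀ n, 0 < (I n).toReal := fun n => ENNReal.toReal_pos (hI0 n) (hIt n)
  set r : ℕ → ℝ := fun n => (Real.sqrt (I n).toReal)⁻¹ with hr
  have hr2 : ∀ n, ENNReal.ofReal (r n ^ 2) * I n = 1 := fun n => by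
    have h1 : r n ^ 2 = ((I n).toReal)⁻¹ := by
      simp only [hr]
      rw [inv_pow, Real.sq_sqrt (hIr n).le]
    rw [h1, ENNReal.ofReal_inv_of_pos (hIr n), ENNReal.ofReal_toReal (hIt n),
      ENNReal.inv_mul_cancel (hI0 n) (hIt n)]
  refine no_seq hQ hR₀ hH hk hG (φ := fun n x => r n • φ n x) (χ := fun n x => r n • χ n x)
    (fun n => (hφ n).rsmul _) (fun n => (hχ n).rsmul _) (fun n η hη => ?_) (fun n => ?_)
    fun n => ?_
  · have e : ∀ x, ⟪η x, r n • φ n x - r n • χ n x⟫_ℂ =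
        (r n : ℂ) * ⟪η x, φ n x - χ n x⟫_ℂ := fun x => by
      rw [← smul_sub, inner_rsmul_right]
    simp only [e]
    rw [integral_const_mul, hp n η hη, mul_zero]
  · rw [qe_rsmul (hφ n).smooth]
    calc ENNReal.ofReal (r n ^ 2) * qe Q (φ n)
        ≤ ENNReal.ofReal (r n ^ 2) * (ENNReal.ofReal (1 / ((n : ℝ) + 1)) * I n) :=
          mul_le_mul_right (hlt n).le _
      _ = ENNReal.ofReal (1 / ((n : ℝ) + 1)) * (ENNReal.ofReal (r n ^ 2) * I n) := by ring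
      _ = _ := by rw [hr2, mul_one]
  · have e : ∀ x, jw x * ‖r n • φ n x - r n • χ n x‖ₑ ^ 2 =
        ENNReal.ofReal (r n ^ 2) * (jw x * ‖φ n x - χ n x‖ₑ ^ 2) := fun x => by
      rw [← smul_sub, enorm_smul, mul_pow, enorm_real_sq]
      ring
    simp only [e]
    rw [lintegral_const_mul' _ _ ENNReal.ofReal_ne_top]
    exact hr2 n

end compact

end Crest.Agent.R330.Decay968

end
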