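import Crest.Agent.R330.PairOp_693
import Crest.Agent.R330.Om0b_331
import Crest.Agent.R330.Real_311

/-!
# Row 330, S8: the literal heavy vacuum (helper693)

Positions with multiplicity `r : Fin N → EuclideanSpace ℝ (Fin 9)`.

* `Jp b G r` : the real matrix of the heavy complex structure `(J X)_ad = -i γ·n_ad X_ad`,
  `n_ad = (r_a - r_d)/|r_a - r_d|` (`0` inside the clusters); `Jp_sq`, `Jp_cube`, `Jp_transpose`.
* `Jz b G r` : heavy part of `Γ ⊗ 1`; `Jf b G r` : full complex structure, `Jp` on heavy pairs,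
  `-Γ ⊗ 1` on light ones.
* `Usep r` : different positions have different `b`-components.
* `overlap_lit` : the vacua of `Jf r` and of `-Γ ⊗ 1` are not orthogonal.
* `adI_Jp`, `adI_Jz` : gauge covariance.
* `exists_anti` : a real orthogonal involution anticommuting with `Γ ⊗ 1`, `Jp r`, `Jp r'`.
-/

set_option autoImplicit false

noncomputable section

open scoped InnerProductSpace BigOperators

namespace Crest.Agent.R330.HvLit693

open Crest.MathPhysics.MatrixQM Crest.Agent.R330 Crest.Agent.R330.Om0331 Crest.Agent.R330.Neut45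
  Crest.Agent.R330.PairOp693 Crest.Agent.R330.Defs478

variable {N : ℕ} (b : ColorBasis N) (G : GammaNine)

/-- positions in nine dimensions -/
abbrev E9 := EuclideanSpace ℝ (Fin 9)

/-- `γ·n` -/
def gm (n : E9) : Matrix (Fin 16) (Fin 16) ℝ := ∑ i, n i • G.γ i

theorem gm_add (n m : E9) : gm G (n + m) = gm G n + gm G m := by
  simp only [gm, PiLp.add_apply, add_smul, Finset.sum_add_distrib]

theorem gm_neg (n : E9) : gm G (-n) = -gm G n := by
  simp only [gm, PiLp.neg_apply, neg_smul, Finset.sum_neg_distrib]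

theorem gm_zero : gm G 0 = 0 := by simp [gm]

theorem gm_transpose (n : E9) : (gm G n).transpose = gm G n := by
  simp only [gm, Matrix.transpose_sum, Matrix.transpose_smul, G.symm]

theorem gm_anti (n m : E9) :
    gm G n * gm G m + gm G m * gm G n = (2 * ⟪n, m⟫_ℝ) • (1 : Matrix (Fin 16) (Fin 16) ℝ) := by
  have h1 : gm G n * gm G m = ∑ i, ∑ j, (n i * m j) • (G.γ i * G.γ j) := by
    simp only [gm, Finset.sum_mul, Finset.mul_sum, smul_mul_smul_comm]
    rw [Finset.sum_comm]
  have h2 : gm G m * gm G n = ∑ i, ∑ j, (n i * m j) • (G.γ j * G.γ i) := by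
    simp only [gm, Finset.sum_mul, Finset.mul_sum, smul_mul_smul_comm]
    exact Finset.sum_congr rfl fun i _ => Finset.sum_congr rfl fun j _ => by rw [mul_comm]
  rw [h1, h2, ← Finset.sum_add_distrib]
  simp only [← Finset.sum_add_distrib, ← smul_add, G.clifford]
  simp only [smul_ite, smul_zero, Finset.sum_ite_eq, Finset.mem_univ, if_true]
  rw [PiLp.inner_apply, Finset.mul_sum, Finset.sum_smul]
  refine Finset.sum_congr rfl fun i _ => ?_
  have : (2 : Matrix (Fin 16) (Fin 16) ℝ) = (2 : ℝ) • 1 := by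
    rw [two_smul, one_add_one_eq_two]
  rw [this, smul_smul]
  congr 1
  simp only [RCLike.inner_apply, conj_trivial]
  ring

theorem gm_sq (n : E9) : gm G n * gm G n = (‖n‖ ^ 2) • (1 : Matrix (Fin 16) (Fin 16) ℝ) := by
  have h := gm_anti G n n
  rw [real_inner_self_eq_norm_sq, ← two_smul ℝ (gm G n * gm G n), ← smul_smul] at h
  exact smul_right_injective _ (two_ne_zero' ℝ) h

/-- unit vector of a pair -/
def nv (r : Fin N → E9) (a d : Fin N) : E9 := (‖r a - r d‖)⁻¹ • (r a - r d)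

theorem nv_swap (r : Fin N → E9) (a d : Fin N) : nv r d a = -nv r a d := by
  unfold nv
  rw [norm_sub_rev, ← smul_neg, neg_sub]

theorem nv_eq (r : Fin N → E9) {a d : Fin N} (h : r a = r d) : nv r a d = 0 := by
  unfold nv
  rw [h, sub_self, smul_zero]

theorem norm_nv (r : Fin N → E9) {a d : Fin N} (h : r a ≠ r d) : ‖nv r a d‖ = 1 := by
  unfold nv
  rw [norm_smul, norm_inv, norm_norm, inv_mul_cancel₀ (norm_ne_zero_iff.2 (sub_ne_zero.2 h))]

/-- heavy indicator -/
def hi (r : Fin N → E9) (a d : Fin N) : ℂ := if r a = r d then 0 else 1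

/-- the array of the heavy complex structure -/
def Jc (r : Fin N → E9) : PA N := fun a d => (-Complex.I) • rc (gm G (nv r a d))

theorem Jc_good (r : Fin N → E9) : Good (Jc G r) where
  herm a d α β := by
    simp only [Jc, Matrix.smul_apply, rc_apply, smul_eq_mul, star_mul', Complex.star_def,
      Complex.conj_ofReal, map_neg, Complex.conj_I]
    rw [nv_swap r a d, gm_neg]
    simp only [Matrix.neg_apply]
    push_cast
    ring
  diag a d := by
    simp only [Jc, nv_eq r rfl]

theorem Jc_sq (r : Fin N → E9) (a d : Fin N) :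
    Jc G r a d * Jc G r a d = -(hi r a d • (1 : Matrix (Fin 16) (Fin 16) ℂ)) := by
  unfold Jc hi
  rw [smul_mul_smul_comm, ← rc_mul, gm_sq, rc_smul, rc_one]
  have hI : -Complex.I * -Complex.I = -1 := by rw [neg_mul_neg, Complex.I_mul_I]
  rw [hI, neg_smul, one_smul]
  split_ifs with h
  · rw [nv_eq r h, norm_zero]
    simp
  · rw [norm_nv r h]
    simp

/-- **The heavy complex structure.** -/
def Jp (r : Fin N → E9) : Matrix (Idx N) (Idx N) ℝ := pop b (Jc G r)

/-- array of the projection on heavy pairs -/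
def Hc (r : Fin N → E9) : PA N := fun a d => hi r a d • 1

theorem hi_swap (r : Fin N → E9) (a d : Fin N) : hi r d a = hi r a d := by
  simp only [hi, eq_comm]

theorem hi_star (r : Fin N → E9) (a d : Fin N) : star (hi r a d) = hi r a d := by
  unfold hi
  split_ifs <;> simp

theorem smul_good {c : PA N} (hc : Good c) {s : Fin N → Fin N → ℂ} (h1 : ∀ a d, s d a = s a d)
    (h2 : ∀ a d, star (s a d) = s a d) (h3 : ∀ a d, s a a = s d d) :
    Good (fun a d => s a d • c a d) where
  herm a d α β := by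
    simp only [Matrix.smul_apply, smul_eq_mul, star_mul', h2 a d]
    rw [h1 a d, hc.herm a d]
  diag a d := by rw [h3 a d, hc.diag a d]

theorem hi_good {c : PA N} (hc : Good c) (r : Fin N → E9) :
    Good (fun a d => hi r a d • c a d) :=
  smul_good hc (hi_swap r) (hi_star r) fun a d => by simp [hi]

theorem one_good : Good (N := N) (fun _ _ => (1 : Matrix (Fin 16) (Fin 16) ℂ)) := by
  have := good_const (N := N) 1
  rwa [rc_one] at this

theorem Hc_good (r : Fin N → E9) : Good (Hc (N := N) r) := hi_good one_good r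

/-- projection on heavy pairs -/
def Hp (r : Fin N → E9) : Matrix (Idx N) (Idx N) ℝ := pop b (Hc r)

theorem Jp_sq (r : Fin N → E9) : Jp b G r * Jp b G r = -Hp b r := by
  unfold Jp Hp
  rw [pop_mul b (Jc_good G r) (Jc_good G r), ← pop_neg]
  congr 1
  funext a d
  exact Jc_sq G r a d

theorem hi_Jc (r : Fin N → E9) (a d : Fin N) : hi r a d • Jc G r a d = Jc G r a d := by
  unfold hi
  split_ifs with h
  · rw [Jc, nv_eq r h, gm_zero]
    ext α β
    simp [rc_apply]
  · rw [one_smul]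

theorem Hp_Jp (r : Fin N → E9) : Hp b r * Jp b G r = Jp b G r := by
  unfold Jp Hp
  rw [pop_mul b (Hc_good r) (Jc_good G r)]
  congr 1
  funext a d
  rw [Hc, smul_mul_assoc, one_mul, hi_Jc]

theorem Jp_cube (r : Fin N → E9) : Jp b G r * Jp b G r * Jp b G r = -Jp b G r := by
  rw [Jp_sq, Matrix.neg_mul, Hp_Jp]

theorem rc_conjTranspose (K : Matrix (Fin 16) (Fin 16) ℝ) :
    (rc K).conjTranspose = rc K.transpose := by
  ext α β
  simp [rc_apply, Matrix.conjTranspose_apply]

theorem Jp_transpose (r : Fin N → E9) : (Jp b G r).transpose = -Jp b G r := by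
  unfold Jp
  rw [pop_transpose b (Jc_good G r), ← pop_neg]
  congr 1
  funext a d
  rw [Jc, Matrix.conjTranspose_smul, rc_conjTranspose, gm_transpose]
  simp

/-- heavy part of `Γ ⊗ 1` -/
def Jz (r : Fin N → E9) : Matrix (Idx N) (Idx N) ℝ :=
  pop b (fun a d => hi r a d • rc (Gam G))

theorem Jz_eq (r : Fin N → E9) : Jz b G r = Hp b r * tens N (Gam G) := by
  unfold Jz Hp
  rw [← pop_tens b, pop_mul b (Hc_good r) (good_const _)]
  congr 1
  funext a d
  rw [Hc, smul_mul_assoc, one_mul]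

theorem hi_mul (r : Fin N → E9) (a d : Fin N) : hi r a d * hi r a d = hi r a d := by
  unfold hi
  split_ifs <;> simp

theorem Jz_sq (r : Fin N → E9) : Jz b G r * Jz b G r = -Hp b r := by
  unfold Jz Hp
  rw [pop_mul b (hi_good (good_const _) r) (hi_good (good_const _) r), ← pop_neg]
  congr 1
  funext a d
  rw [smul_mul_smul_comm, hi_mul, ← rc_mul, Ovl693.Gam_sq, rc_neg, rc_one, smul_neg, Hc]

theorem Jz_cube (r : Fin N → E9) : Jz b G r * Jz b G r * Jz b G r = -Jz b G r := by
  rw [Jz_sq, Matrix.neg_mul]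
  unfold Jz Hp
  rw [pop_mul b (Hc_good r) (hi_good (good_const _) r)]
  congr 2
  funext a d
  rw [Hc, smul_mul_smul_comm, hi_mul, one_mul]

theorem Gam_tr : (Gam G).transpose = -Gam G :=
  Ovl693.triple_transpose G (by decide) (by decide) (by decide)

theorem Jz_transpose (r : Fin N → E9) : (Jz b G r).transpose = -Jz b G r := by
  unfold Jz
  rw [pop_transpose b (hi_good (good_const _) r), ← pop_neg]
  congr 1
  funext a d
  rw [Matrix.conjTranspose_smul, rc_conjTranspose, Gam_tr, hi_star, rc_neg, smul_neg]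

/-! ## covariance -/

/-- **Gauge covariance of the heavy structure** (also block permutations, global rotations of a
diagonal configuration). -/
theorem adI_Jp {r r' : Fin N → E9} (g : Matrix.specialUnitaryGroup (Fin N) ℂ)
    (h : ∀ a a', (g : Matrix (Fin N) (Fin N) ℂ) a a' ≠ 0 → r a' = r' a) :
    adI b g * Jp b G r = Jp b G r' * adI b g :=
  adI_pop b (Jc_good G r) (Jc_good G r') g fun a a' d d' h1 h2 => by
    unfold Jc nv
    rw [h a a' h1, h d d' h2]

theorem adI_Jz {r r' : Fin N → E9} (g : Matrix.specialUnitaryGroup (Fin N) ℂ)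
    (h : ∀ a a', (g : Matrix (Fin N) (Fin N) ℂ) a a' ≠ 0 → r a' = r' a) :
    adI b g * Jz b G r = Jz b G r' * adI b g :=
  adI_pop b (hi_good (good_const _) r) (hi_good (good_const _) r') g fun a a' d d' h1 h2 => by
    unfold hi
    rw [h a a' h1, h d d' h2]

theorem adI_Hp {r r' : Fin N → E9} (g : Matrix.specialUnitaryGroup (Fin N) ℂ)
    (h : ∀ a a', (g : Matrix (Fin N) (Fin N) ℂ) a a' ≠ 0 → r a' = r' a) :
    adI b g * Hp b r = Hp b r' * adI b g :=
  adI_pop b (Hc_good r) (Hc_good r') g fun a a' d d' h1 h2 => by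
    unfold Hc hi
    rw [h a a' h1, h d d' h2]

/-! ## the full complex structure and the overlap -/

/-- full array: `Jc` on heavy pairs, `-Γ` on light pairs -/
def Fc (r : Fin N → E9) : PA N := fun a d => Jc G r a d - (1 - hi r a d) • rc (Gam G)

theorem Fc_good (r : Fin N → E9) : Good (Fc G r) := by
  have h1 : Good (fun a d => (1 - hi r a d) • rc (Gam G)) :=
    smul_good (good_const _) (fun a d => by rw [hi_swap r a d])
      (fun a d => by rw [star_sub, hi_star, star_one]) fun a d => by simp [hi]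
  have h2 := (Jc_good G r).add h1.neg
  refine ⟨fun a d α β => ?_, fun a d => ?_⟩
  · have := h2.herm a d α β
    simpa only [Fc, sub_eq_add_neg] using this
  · have := h2.diag a d
    simpa only [Fc, sub_eq_add_neg] using this

/-- the full complex structure -/
def Jf (r : Fin N → E9) : Matrix (Idx N) (Idx N) ℝ := pop b (Fc G r)

theorem Fc_light {r : Fin N → E9} {a d : Fin N} (h : r a = r d) : Fc G r a d = -rc (Gam G) := by
  rw [Fc, ← hi_Jc, hi, if_pos h, zero_smul, sub_zero, one_smul, zero_sub]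

theorem Fc_heavy {r : Fin N → E9} {a d : Fin N} (h : r a ≠ r d) : Fc G r a d = Jc G r a d := by
  rw [Fc, hi, if_neg h, sub_self, zero_smul, sub_zero]

theorem Jf_sq (r : Fin N → E9) : Jf b G r * Jf b G r = -1 := by
  unfold Jf
  rw [pop_mul b (Fc_good G r) (Fc_good G r), ← pop_one b, ← pop_neg]
  congr 1
  funext a d
  by_cases h : r a = r d
  · rw [Fc_light G h, neg_mul_neg, ← rc_mul, Ovl693.Gam_sq, rc_neg, rc_one]
  · rw [Fc_heavy G h, Jc_sq, hi, if_neg h, one_smul]

theorem Jf_transpose (r : Fin N → E9) : (Jf b G r).transpose = -Jf b G r := by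
  unfold Jf
  rw [pop_transpose b (Fc_good G r), ← pop_neg]
  congr 1
  funext a d
  by_cases h : r a = r d
  · rw [Fc_light G h, Matrix.conjTranspose_neg, rc_conjTranspose, Gam_tr, rc_neg]
  · rw [Fc_heavy G h, Jc, Matrix.conjTranspose_smul, rc_conjTranspose, gm_transpose]
    simp

theorem Hp_Jf (r : Fin N → E9) : Hp b r * Jf b G r = Jp b G r := by
  unfold Jf Hp Jp
  rw [pop_mul b (Hc_good r) (Fc_good G r)]
  congr 1
  funext a d
  rw [Hc, smul_mul_assoc, one_mul]
  by_cases h : r a = r d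
  · rw [← hi_Jc, hi, if_pos h, zero_smul, zero_smul]
  · rw [Fc_heavy G h, hi, if_neg h, one_smul]

/-- the `b`-components separate different positions -/
def Usep (r : Fin N → E9) : Prop := ∀ a d, r a ≠ r d → ∃ i : Fin 9, 3 ≤ (i : ℕ) ∧ r a i ≠ r d i

/-! ## splitting of `ℝ⁹` -/

/-- `a`-part (first three components) -/
def pa (n : E9) : E9 := WithLp.toLp 2 fun i => if (i : ℕ) < 3 then n i else 0

/-- `b`-part (last six components) -/
def pb (n : E9) : E9 := WithLp.toLp 2 fun i => if (i : ℕ) < 3 then 0 else n i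

theorem pa_add_pb (n : E9) : pa n + pb n = n := by
  ext i
  by_cases h : (i : ℕ) < 3 <;> simp [pa, pb, h]

theorem pa_neg (n : E9) : pa (-n) = -pa n := by
  ext i
  by_cases h : (i : ℕ) < 3 <;> simp [pa, h]

theorem pb_neg (n : E9) : pb (-n) = -pb n := by
  ext i
  by_cases h : (i : ℕ) < 3 <;> simp [pb, h]

theorem norm_pa_pb (n : E9) : ‖pa n‖ ^ 2 + ‖pb n‖ ^ 2 = ‖n‖ ^ 2 := by
  rw [EuclideanSpace.real_norm_sq_eq, EuclideanSpace.real_norm_sq_eq,
    EuclideanSpace.real_norm_sq_eq, ← Finset.sum_add_distrib]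
  refine Finset.sum_congr rfl fun i _ => ?_
  by_cases h : (i : ℕ) < 3 <;> simp [pa, pb, h]

theorem Gam_comm {l : Fin 9} (hl : (l : ℕ) < 3) : Gam G * G.γ l = G.γ l * Gam G := by
  have h3 : l = 0 ∨ l = 1 ∨ l = 2 := by
    rcases l with ⟨l, h⟩
    simp only at hl
    interval_cases l <;> simp
  have a := Gam962.anti G (i := 0) (j := 1) (by decide)
  have c := Gam962.anti G (i := 0) (j := 2) (by decide)
  have e := Gam962.anti G (i := 1) (j := 2) (by decide)
  unfold Gam
  rcases h3 with rfl | rfl | rfl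
  · calc G.γ 0 * G.γ 1 * G.γ 2 * G.γ 0 = G.γ 0 * G.γ 1 * (G.γ 2 * G.γ 0) := by
          simp only [mul_assoc]
      _ = G.γ 0 * G.γ 1 * (-(G.γ 0 * G.γ 2)) := by rw [c, neg_neg]
      _ = -(G.γ 0 * (G.γ 1 * G.γ 0) * G.γ 2) := by simp only [mul_neg, mul_assoc]
      _ = -(G.γ 0 * (-(G.γ 0 * G.γ 1)) * G.γ 2) := by rw [a, neg_neg]
      _ = G.γ 0 * (G.γ 0 * G.γ 1 * G.γ 2) := by
          simp only [mul_neg, neg_mul, neg_neg, mul_assoc]
  · calc G.γ 0 * G.γ 1 * G.γ 2 * G.γ 1 = G.γ 0 * G.γ 1 * (G.γ 2 * G.γ 1) := by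
          simp only [mul_assoc]
      _ = G.γ 0 * G.γ 1 * (-(G.γ 1 * G.γ 2)) := by rw [e, neg_neg]
      _ = -(G.γ 0 * G.γ 1 * G.γ 1 * G.γ 2) := by simp only [mul_neg, mul_assoc]
      _ = -(-(G.γ 1 * G.γ 0) * G.γ 1 * G.γ 2) := by rw [a]
      _ = G.γ 1 * (G.γ 0 * G.γ 1 * G.γ 2) := by
          simp only [neg_mul, neg_neg, mul_assoc]
  · calc G.γ 0 * G.γ 1 * G.γ 2 * G.γ 2 = G.γ 0 * (G.γ 1 * G.γ 2) * G.γ 2 := by
          simp only [mul_assoc]
      _ = -(G.γ 0 * G.γ 2 * G.γ 1 * G.γ 2) := by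
          rw [e]; simp only [mul_neg, neg_mul, mul_assoc]
      _ = G.γ 2 * (G.γ 0 * G.γ 1 * G.γ 2) := by
          rw [c]; simp only [neg_mul, neg_neg, mul_assoc]

theorem Gam_anti {l : Fin 9} (hl : ¬ (l : ℕ) < 3) : Gam G * G.γ l = -(G.γ l * Gam G) :=
  Ovl693.triple_anti G (by rintro rfl; simp at hl) (by rintro rfl; simp at hl)
    (by rintro rfl; simp at hl)

theorem Gam_gm_pa (n : E9) : Gam G * gm G (pa n) = gm G (pa n) * Gam G := by
  simp only [gm, Finset.mul_sum, Finset.sum_mul, Matrix.mul_smul, Matrix.smul_mul]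
  refine Finset.sum_congr rfl fun i _ => ?_
  by_cases h : (i : ℕ) < 3
  · rw [Gam_comm G h]
  · simp [pa, h]

theorem Gam_gm_pb (n : E9) : Gam G * gm G (pb n) = -(gm G (pb n) * Gam G) := by
  simp only [gm, Finset.mul_sum, Finset.sum_mul, Matrix.mul_smul, Matrix.smul_mul,
    ← Finset.sum_neg_distrib]
  refine Finset.sum_congr rfl fun i _ => ?_
  by_cases h : (i : ℕ) < 3
  · simp [pb, h]
  · rw [Gam_anti G h, smul_neg]

/-! ## the overlap -/

/-- left factor of the inverse -/
def q1 (n : E9) : Matrix (Fin 16) (Fin 16) ℂ := 1 - Complex.I • rc (Gam G * gm G n)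

/-- right factor of the inverse -/
def q2 (n : E9) : Matrix (Fin 16) (Fin 16) ℂ := 1 + Complex.I • rc (gm G (pa n) * Gam G)

theorem q_mul (n : E9) (hn : ‖n‖ = 1) :
    (1 - Complex.I • rc (gm G n * Gam G)) * (q1 G n * q2 G n) =
      ((2 * ‖pb n‖ ^ 2 : ℝ) : ℂ) • (1 : Matrix (Fin 16) (Fin 16) ℂ) := by
  set A := rc (gm G (pa n)) with hA
  set B := rc (gm G (pb n)) with hB
  set Γ := rc (Gam G) with hΓ
  have hn1 : rc (gm G n) = A + B := by rw [hA, hB, ← rc_add, ← gm_add, pa_add_pb]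
  have h1 : Γ * A = A * Γ := by rw [hΓ, hA, ← rc_mul, ← rc_mul, Gam_gm_pa]
  have h2 : Γ * B = -(B * Γ) := by rw [hΓ, hB, ← rc_mul, ← rc_mul, Gam_gm_pb, rc_neg]
  have h3 : Γ * Γ = -1 := by rw [hΓ, ← rc_mul, Ovl693.Gam_sq, rc_neg, rc_one]
  have h4 : (A + B) * (A + B) = 1 := by
    rw [← hn1, ← rc_mul, gm_sq, hn, one_pow, one_smul, rc_one]
  have h5 : A * A = ((‖pa n‖ ^ 2 : ℝ) : ℂ) • (1 : Matrix (Fin 16) (Fin 16) ℂ) := by
    rw [hA, ← rc_mul, gm_sq, rc_smul, rc_one]
  have hI : Complex.I * Complex.I = -1 := Complex.I_mul_I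
  have e1 : (1 - Complex.I • ((A + B) * Γ)) * (1 - Complex.I • (Γ * (A + B))) =
      (2 : ℂ) • (1 - Complex.I • (A * Γ)) := by
    have e2 : (A + B) * Γ * (Γ * (A + B)) = -1 := by
      calc (A + B) * Γ * (Γ * (A + B)) = (A + B) * (Γ * Γ) * (A + B) := by noncomm_ring
        _ = -((A + B) * (A + B)) := by rw [h3]; noncomm_ring
        _ = -1 := by rw [h4]
    have e3 : (A + B) * Γ + Γ * (A + B) = (2 : ℂ) • (A * Γ) := by
      rw [mul_add, add_mul, h1, h2, two_smul]
      abel
    have e4 : (1 - Complex.I • ((A + B) * Γ)) * (1 - Complex.I • (Γ * (A + B))) =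
        1 - Complex.I • ((A + B) * Γ + Γ * (A + B)) +
          (Complex.I * Complex.I) • ((A + B) * Γ * (Γ * (A + B))) := by
      simp only [sub_mul, mul_sub, one_mul, mul_one, smul_mul_smul_comm, smul_add]
      abel
    rw [e4, e2, e3, hI]
    module
  have e5 : (1 - Complex.I • (A * Γ)) * (1 + Complex.I • (A * Γ)) =
      ((‖pb n‖ ^ 2 : ℝ) : ℂ) • (1 : Matrix (Fin 16) (Fin 16) ℂ) := by
    have e6 : A * Γ * (A * Γ) = -(A * A) := by
      calc A * Γ * (A * Γ) = A * (Γ * A) * Γ := by noncomm_ring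
        _ = A * A * (Γ * Γ) := by rw [h1]; noncomm_ring
        _ = -(A * A) := by rw [h3]; noncomm_ring
    have e7 : (1 - Complex.I • (A * Γ)) * (1 + Complex.I • (A * Γ)) =
        1 - (Complex.I * Complex.I) • (A * Γ * (A * Γ)) := by
      simp only [sub_mul, mul_add, one_mul, mul_one, smul_mul_smul_comm]
      abel
    have e8 : ‖pb n‖ ^ 2 = 1 - ‖pa n‖ ^ 2 := by
      have := norm_pa_pb n
      rw [hn] at this
      linarith
    rw [e7, e6, h5, hI, e8]
    push_cast
    module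
  rw [q1, q2, rc_mul, rc_mul, rc_mul, hn1, ← mul_assoc, e1, smul_mul_assoc, e5, smul_smul]
  push_cast
  ring_nf

theorem q1_star (n : E9) (α β : Fin 16) : q1 G (-n) α β = star (q1 G n α β) := by
  simp only [q1, Matrix.sub_apply, Matrix.smul_apply, rc_apply, smul_eq_mul, star_sub, star_mul',
    Complex.star_def, Complex.conj_I, Complex.conj_ofReal]
  rw [gm_neg, Matrix.mul_neg, Matrix.neg_apply]
  by_cases h : α = β
  · simp [Matrix.one_apply, h]
  · simp [Matrix.one_apply, h]

theorem q2_star (n : E9) (α β : Fin 16) : q2 G (-n) α β = star (q2 G n α β) := by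
  simp only [q2, Matrix.add_apply, Matrix.smul_apply, rc_apply, smul_eq_mul, star_add, star_mul',
    Complex.star_def, Complex.conj_I, Complex.conj_ofReal]
  rw [pa_neg, gm_neg, Matrix.neg_mul, Matrix.neg_apply]
  by_cases h : α = β
  · simp [Matrix.one_apply, h]
  · simp [Matrix.one_apply, h]

/-- the array of the inverse -/
def Ic (r : Fin N → E9) : PA N := fun a d =>
  if r a = r d then ((1 / 2 : ℝ) : ℂ) • 1 else
    (((2 * ‖pb (nv r a d)‖ ^ 2)⁻¹ : ℝ) : ℂ) • (q1 G (nv r a d) * q2 G (nv r a d))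

theorem Ic_good (r : Fin N → E9) : Good (Ic G r) where
  herm a d α β := by
    unfold Ic
    by_cases h : r a = r d
    · rw [if_pos h, if_pos h.symm, Matrix.smul_apply, smul_eq_mul, star_mul', Complex.star_def,
        Complex.conj_ofReal]
      by_cases h1 : α = β <;> simp [Matrix.one_apply, h1]
    · rw [if_neg h, if_neg (Ne.symm h), nv_swap r a d, pb_neg, norm_neg, Matrix.smul_apply,
        Matrix.smul_apply, smul_eq_mul, smul_eq_mul, star_mul', Complex.star_def,
        Complex.conj_ofReal, Matrix.mul_apply, Matrix.mul_apply]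
      congr 1
      rw [map_sum]
      refine Finset.sum_congr rfl fun x _ => ?_
      rw [map_mul, q1_star, q2_star]
      rfl
  diag a d := by
    simp only [Ic, if_true]

theorem pb_ne {r : Fin N → E9} (hr : Usep r) {a d : Fin N} (h : r a ≠ r d) :
    ‖pb (nv r a d)‖ ^ 2 ≠ 0 := by
  obtain ⟨i, hi, hne⟩ := hr a d h
  refine pow_ne_zero 2 (norm_ne_zero_iff.2 fun h0 => ?_)
  have h1 := congrFun (congrArg WithLp.ofLp h0) i
  simp only [pb, nv, PiLp.zero_apply, PiLp.smul_apply, PiLp.sub_apply, smul_eq_mul,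
    if_neg (not_lt.2 hi)] at h1
  rcases mul_eq_zero.1 h1 with h2 | h2
  · exact norm_ne_zero_iff.2 (sub_ne_zero.2 h) (inv_eq_zero.1 h2)
  · exact hne (sub_eq_zero.1 h2)

/-- `1 + Jf · Γ` is invertible. -/
theorem Jf_inv {r : Fin N → E9} (hr : Usep r) :
    (1 + Jf b G r * tens N (Gam G)) * pop b (Ic G r) = 1 := by
  have h1 : Good (fun (a d : Fin N) => Fc G r a d * rc (Gam G)) :=
    (Fc_good G r).mul (good_const _)
  rw [Jf, ← pop_tens b, pop_mul b (Fc_good G r) (good_const _), ← pop_one b, ← pop_add,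
    pop_mul b (one_good.add h1) (Ic_good G r)]
  congr 1
  funext a d
  by_cases h : r a = r d
  · rw [Fc_light G h, Ic, if_pos h, neg_mul, ← rc_mul, Ovl693.Gam_sq, rc_neg, rc_one, neg_neg,
      mul_smul_comm, mul_one, ← two_smul ℂ (1 : Matrix (Fin 16) (Fin 16) ℂ), smul_smul]
    norm_num
  · rw [Fc_heavy G h, Ic, if_neg h, mul_smul_comm]
    have h2 : (1 : Matrix (Fin 16) (Fin 16) ℂ) + Jc G r a d * rc (Gam G) =
        1 - Complex.I • rc (gm G (nv r a d) * Gam G) := by
      rw [Jc, smul_mul_assoc, ← rc_mul, neg_smul, ← sub_eq_add_neg]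
    rw [h2, q_mul G _ (norm_nv r h), smul_smul, ← Complex.ofReal_mul, inv_mul_cancel₀
      (mul_ne_zero two_ne_zero (pb_ne hr h)), Complex.ofReal_one, one_smul]

section vac

variable {F : Type*} [NormedAddCommGroup F] [InnerProductSpace ℂ F] {M : FermionRep N F}

/-- **The overlap**: the vacua of `Jf r` and of `-Γ ⊗ 1` are not orthogonal. -/
theorem overlap_lit {r : Fin N → E9} (hr : Usep r) {Ω Ω' : F}
    (h : IsVac (tht M) (-tens N (Gam G)) Ω) (h' : IsVac (tht M) (Jf b G r) Ω')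
    (h0 : Ω ≠ 0) (h0' : Ω' ≠ 0) : ⟪Ω', Ω⟫_ℂ ≠ 0 := by
  refine Ovl693.overlap_ne_zero (Om0331.cliff_tht M) (Ovl693.tht_symm M) (Ovl693.tht_irr M)
    (Jf_sq b G r) (fun u => ⟨(pop b (Ic G r)).mulVec u, ?_⟩) h h' h0 h0'
  have h1 := congrArg (fun K => Matrix.mulVec K u) (Jf_inv b G hr)
  simp only [Matrix.add_mul, Matrix.one_mul, Matrix.add_mulVec, Matrix.one_mulVec] at h1
  rw [Matrix.neg_mulVec, Matrix.mulVec_neg, sub_neg_eq_add, Matrix.mulVec_mulVec,
    Matrix.mulVec_mulVec]
  exact h1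

end vac

/-! ## reality -/

theorem exists_perp (n m : E9) : ∃ e : E9, ‖e‖ = 1 ∧ (∀ i : Fin 9, (i : ℕ) < 3 → e i = 0) ∧
    ⟪e, n⟫_ℝ = 0 ∧ ⟪e, m⟫_ℝ = 0 := by
  let f : Fin 5 → E9 := ![EuclideanSpace.single 0 1, EuclideanSpace.single 1 1,
    EuclideanSpace.single 2 1, n, m]
  have h1 : Module.finrank ℝ (Submodule.span ℝ (Set.range f)) ≤ 5 := by
    have h : Set.finrank ℝ (Set.range f) ≤ 5 := by
      simpa using finrank_range_le_card (R := ℝ) f
    exact h
  have h2 := Submodule.finrank_add_finrank_orthogonal (Submodule.span ℝ (Set.range f))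
  have h3 : Module.finrank ℝ E9 = 9 := by simp
  rw [h3] at h2
  have h4 : (Submodule.span ℝ (Set.range f))ᗮ ≠ ⊥ := by
    intro h
    rw [h, finrank_bot] at h2
    omega
  obtain ⟨e, he, he0⟩ := Submodule.exists_mem_ne_zero_of_ne_bot h4
  have h5 : ∀ j, ⟪f j, e⟫_ℝ = 0 := fun j =>
    (Submodule.mem_orthogonal _ _).1 he _ (Submodule.subset_span ⟨j, rfl⟩)
  have h6 : ∀ j, ⟪(‖e‖⁻¹ : ℝ) • e, f j⟫_ℝ = 0 := fun j => by
    rw [inner_smul_left, real_inner_comm, h5 j, mul_zero]
  refine ⟨(‖e‖⁻¹ : ℝ) • e, ?_, fun i hi => ?_, h6 3, h6 4⟩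
  · rw [norm_smul, norm_inv, norm_norm, inv_mul_cancel₀ (norm_ne_zero_iff.2 he0)]
  · have h7 : ∀ k : Fin 9, ⟪(‖e‖⁻¹ : ℝ) • e, EuclideanSpace.single k (1 : ℝ)⟫_ℝ =
        ((‖e‖⁻¹ : ℝ) • e) k := fun k => by
      rw [EuclideanSpace.inner_single_right]
      simp
    have h8 : i = 0 ∨ i = 1 ∨ i = 2 := by
      rcases i with ⟨i, h⟩
      simp only at hi
      interval_cases i <;> simp
    rcases h8 with rfl | rfl | rfl
    · rw [← h7]; exact h6 0
    · rw [← h7]; exact h6 1
    · rw [← h7]; exact h6 2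

/-- **Reality**: an orthogonal involution anticommuting with `Γ ⊗ 1` and two heavy structures. -/
theorem exists_anti (r r' : Fin N → E9) : ∃ O : Matrix (Idx N) (Idx N) ℝ,
    O.transpose * O = 1 ∧ O * O = 1 ∧ O * tens N (Gam G) = -(tens N (Gam G) * O) ∧
      O * Jp b G r = -(Jp b G r * O) ∧ O * Jp b G r' = -(Jp b G r' * O) := by
  classical
  choose e he1 he2 he3 he4 using fun a d : Fin N => exists_perp (nv r a d) (nv r' a d)
  obtain ⟨e0, h01, h02, -, -⟩ := exists_perp 0 0
  let E : Fin N → Fin N → E9 := fun a d => if a < d then e a d else if d < a then e d a else e0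
  have hE : ∀ a d, E d a = E a d := by
    intro a d
    simp only [E]
    rcases lt_trichotomy a d with h | h | h
    · rw [if_pos h, if_neg (not_lt.2 h.le), if_pos h]
    · rw [h]
    · rw [if_pos h, if_neg (not_lt.2 h.le), if_pos h]
  have hE1 : ∀ a d, ‖E a d‖ = 1 := by
    intro a d
    simp only [E]
    split_ifs
    · exact he1 _ _
    · exact he1 _ _
    · exact h01
  have hE2 : ∀ a d, ∀ i : Fin 9, (i : ℕ) < 3 → E a d i = 0 := by
    intro a d
    simp only [E]
    split_ifs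
    · exact he2 _ _
    · exact he2 _ _
    · exact h02
  have hE3 : ∀ a d, ⟪E a d, nv r a d⟫_ℝ = 0 := by
    intro a d
    simp only [E]
    split_ifs with h1 h2
    · exact he3 _ _
    · rw [nv_swap r d a, inner_neg_right, he3, neg_zero]
    · rw [le_antisymm (not_lt.1 h2) (not_lt.1 h1), nv_eq r rfl, inner_zero_right]
  have hE4 : ∀ a d, ⟪E a d, nv r' a d⟫_ℝ = 0 := by
    intro a d
    simp only [E]
    split_ifs with h1 h2
    · exact he4 _ _
    · rw [nv_swap r' d a, inner_neg_right, he4, neg_zero]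
    · rw [le_antisymm (not_lt.1 h2) (not_lt.1 h1), nv_eq r' rfl, inner_zero_right]
  have hgood : Good (fun a d : Fin N => rc (gm G (E a d))) := by
    refine ⟨fun a d α β => ?_, fun a d => ?_⟩
    · rw [hE a d, rc_apply, Complex.star_def, Complex.conj_ofReal]
    · simp only [E, lt_irrefl, if_false]
  have hsq : pop b (fun a d : Fin N => rc (gm G (E a d))) *
      pop b (fun a d : Fin N => rc (gm G (E a d))) = 1 := by
    rw [pop_mul b hgood hgood, ← pop_one b]
    congr 1
    funext a d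
    rw [← rc_mul, gm_sq, hE1, one_pow, one_smul, rc_one]
  have htr : (pop b (fun a d : Fin N => rc (gm G (E a d)))).transpose =
      pop b (fun a d : Fin N => rc (gm G (E a d))) := by
    rw [pop_transpose b hgood]
    congr 1
    funext a d
    rw [rc_conjTranspose, gm_transpose]
  have hJ : ∀ s : Fin N → E9, (∀ a d, ⟪E a d, nv s a d⟫_ℝ = 0) →
      pop b (fun a d : Fin N => rc (gm G (E a d))) * Jp b G s =
        -(Jp b G s * pop b (fun a d : Fin N => rc (gm G (E a d)))) := by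
    intro s hs
    unfold Jp
    rw [pop_mul b hgood (Jc_good G s), pop_mul b (Jc_good G s) hgood, ← pop_neg]
    congr 1
    funext a d
    have h1 := gm_anti G (E a d) (nv s a d)
    rw [hs, mul_zero, zero_smul] at h1
    rw [Jc, mul_smul_comm, smul_mul_assoc, ← rc_mul, ← rc_mul, eq_neg_of_add_eq_zero_left h1,
      rc_neg, smul_neg]
  refine ⟨_, by rw [htr, hsq], hsq, ?_, hJ r hE3, hJ r' hE4⟩
  rw [← pop_tens b, pop_mul b hgood (good_const _), pop_mul b (good_const _) hgood, ← pop_neg]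
  congr 1
  funext a d
  have h1 : pb (E a d) = E a d := by
    ext i
    by_cases h : (i : ℕ) < 3
    · simp [pb, h, hE2 a d i h]
    · simp [pb, h]
  have h2 := Gam_gm_pb G (E a d)
  rw [h1] at h2
  rw [← rc_mul, ← rc_mul, h2, rc_neg, neg_neg]

end Crest.Agent.R330.HvLit693

end
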