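import Crest.Agent.R330.I1In_342
import Crest.Agent.R330.LocF_8

/-!
# Row 330, S9-LOC (helper342): `LocF8.LocAt.i1`
-/

set_option autoImplicit false

open Crest.MathPhysics.MatrixQM
open Crest.Agent.R330.TDef414

noncomputable section

namespace Crest.Agent.R330.I1F342

variable {N p : ℕ} {b : ColorBasis N} {S : Type} [Group S] [Fintype S] {C : Chn b p S}
  {F : Type*} [NormedAddCommGroup F] [InnerProductSpace ℂ F] [FiniteDimensional ℂ F]
  {M : FermionRep N F} {R : GaugeAction b M} {G : GammaNine}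

/-- **(i1)** of `LocF8.LocAt`. -/
theorem i1 [Nontrivial F] (P : TPack C M R G) (σ : Sl C) {m : ℝ} (hm : 0 ≤ m) (hm1 : m ≤ 1) :
    LocF8.Small σ fun ρ s => LocD8.I1In P σ ρ (HQ998.rad s) m := by
  obtain ⟨s0, hs0, H⟩ := I1In342.i1In P σ hm hm1
  exact ⟨s0, σ.r, hs0, σ.pos, fun s hs hss ρ hρ => H s hs hss ρ hρ.ball hρ.eq_id⟩

end Crest.Agent.R330.I1F342

end
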