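import Crest.Agent.R330.Amp_406

/-!
# Row 330, S9 capture (helper365): weakly null amplitudes with values in a subspace

* `null_sub` : `a_j : R → F` with values in a subspace `W`, eventually `C¹`, supported in one
  compact set and bounded in `H¹`, weakly null against test functions with values in `W`:
  `∫ ‖a_j‖² → 0`.
-/

set_option autoImplicit false
set_option linter.unusedSectionVars false

noncomputable section

namespace Crest.Agent.R330.I3N365

open MeasureTheory Filter Topology Set Crest.Agent.R330.Amp406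
open scoped ContDiff InnerProductSpace ENNReal

variable {R : Type*} [NormedAddCommGroup R] [InnerProductSpace ℝ R]
  [FiniteDimensional ℝ R] [MeasurableSpace R] [BorelSpace R] {F : Type*}
  [NormedAddCommGroup F] [InnerProductSpace ℂ F] [FiniteDimensional ℂ F]

/-- `C¹` functions vanishing outside a compact set: the norms are square integrable. -/
theorem integrable_sq_of_supp {G : Type*} [NormedAddCommGroup G] {K : Set R} (hK : IsCompact K)
    {f : R → G} (hf : Continuous f) (hs : ∀ x ∉ K, f x = 0) :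
    Integrable fun x => ‖f x‖ ^ 2 := by
  refine (hf.norm.pow 2).integrable_of_hasCompactSupport (HasCompactSupport.intro hK ?_)
  intro x hx
  show ‖f x‖ ^ 2 = 0
  rw [hs x hx, norm_zero, zero_pow two_ne_zero]

/-- **Weakly null, bounded in `H¹`, values in a subspace.** -/
theorem null_sub {W : Submodule ℂ F} {K : Set R} (hK : IsCompact K) {a : ℕ → R → F}
    (hm : ∀ j x, a j x ∈ W) {E : ℝ}
    (ha : ∀ᶠ j in atTop, ContDiff ℝ 1 (a j) ∧ tsupport (a j) ⊆ K ∧ ∫ x, ‖a j x‖ ^ 2 ≤ E ∧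
      ∫ x, ‖fderiv ℝ (a j) x‖ ^ 2 ≤ E)
    (hw : ∀ χ : R → W, ContDiff ℝ ∞ χ → HasCompactSupport χ →
      Tendsto (fun j => ∫ x, ⟪(χ x : F), a j x⟫_ℂ) atTop (𝓝 0)) :
    Tendsto (fun j => ∫ x, ‖a j x‖ ^ 2) atTop (𝓝 0) := by
  obtain ⟨n0, hn0⟩ := eventually_atTop.1 ha
  rw [← tendsto_add_atTop_iff_nat n0]
  have hge : ∀ j, n0 ≤ j + n0 := fun j => Nat.le_add_left _ _
  obtain ⟨r, hr⟩ := hK.isBounded.subset_closedBall (0 : R)
  set T : F →L[ℂ] W := W.orthogonalProjectionOnto with hT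
  set a' : ℕ → R → W := fun j x => ⟨a (j + n0) x, hm _ x⟩ with ha'
  have hTa : ∀ j, a' j = fun x => T (a (j + n0) x) := by
    intro j
    funext x
    have h1 : T (⟨a (j + n0) x, hm _ x⟩ : W) = ⟨a (j + n0) x, hm _ x⟩ :=
      Submodule.orthogonalProjectionOnto_mem_subspace_eq_self _
    exact h1.symm
  have hc : ∀ j, ContDiff ℝ 1 (a' j) := by
    intro j
    rw [hTa j]
    exact (T.restrictScalars ℝ).contDiff.comp (hn0 _ (hge j)).1
  have hn : ∀ j x, ‖a' j x‖ = ‖a (j + n0) x‖ := fun j x => rfl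
  have hd : ∀ j x, ‖fderiv ℝ (a' j) x‖ ≤ ‖fderiv ℝ (a (j + n0)) x‖ := by
    intro j x
    have h1 : HasFDerivAt (a' j) ((T.restrictScalars ℝ).comp (fderiv ℝ (a (j + n0)) x)) x := by
      rw [hTa j]
      exact (T.restrictScalars ℝ).hasFDerivAt.comp x
        (((hn0 _ (hge j)).1.differentiable one_ne_zero) x).hasFDerivAt
    rw [h1.fderiv]
    refine ContinuousLinearMap.opNorm_le_bound _ (norm_nonneg _) fun v => ?_
    have h2 : ‖T (fderiv ℝ (a (j + n0)) x v)‖ ≤ ‖fderiv ℝ (a (j + n0)) x v‖ := by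
      have h3 := T.le_opNorm (fderiv ℝ (a (j + n0)) x v)
      have h4 : ‖T‖ ≤ 1 := W.orthogonalProjectionOnto_norm_le
      calc ‖T (fderiv ℝ (a (j + n0)) x v)‖ ≤ ‖T‖ * ‖fderiv ℝ (a (j + n0)) x v‖ := h3
        _ ≤ 1 * ‖fderiv ℝ (a (j + n0)) x v‖ := by gcongr
        _ = _ := one_mul _
    exact h2.trans ((fderiv ℝ (a (j + n0)) x).le_opNorm v)
  have hs' : ∀ j, tsupport (a' j) ⊆ tsupport (a (j + n0)) := by
    intro j
    refine closure_mono fun x hx h0 => hx ?_
    apply Subtype.ext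
    exact h0
  have hz : ∀ j x, x ∉ K → a (j + n0) x = 0 := fun j x hx =>
    image_eq_zero_of_notMem_tsupport fun h => hx ((hn0 _ (hge j)).2.1 h)
  have hzd : ∀ j x, x ∉ K → fderiv ℝ (a (j + n0)) x = 0 := fun j x hx => by
    by_contra h3
    exact hx ((hn0 _ (hge j)).2.1 (support_fderiv_subset ℝ h3))
  have hzd' : ∀ j x, x ∉ K → fderiv ℝ (a' j) x = 0 := fun j x hx => by
    by_contra h3
    exact hx (((hs' j).trans (hn0 _ (hge j)).2.1) (support_fderiv_subset ℝ h3))
  have h0 : ∀ j, ∫ x, ‖a' j x‖ ^ 2 ≤ E := fun j => (hn0 _ (hge j)).2.2.1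
  have h1 : ∀ j, ∫ x, ‖fderiv ℝ (a' j) x‖ ^ 2 ≤ E := by
    intro j
    have hpt : ∀ x, ‖fderiv ℝ (a' j) x‖ ^ 2 ≤ ‖fderiv ℝ (a (j + n0)) x‖ ^ 2 := fun x =>
      pow_le_pow_left₀ (norm_nonneg (fderiv ℝ (a' j) x)) (hd j x) 2
    refine le_trans (integral_mono ?_ ?_ hpt) (hn0 _ (hge j)).2.2.2
    · exact integrable_sq_of_supp hK ((hc j).continuous_fderiv one_ne_zero) (hzd' j)
    · exact integrable_sq_of_supp hK ((hn0 _ (hge j)).1.continuous_fderiv one_ne_zero) (hzd j)
  have hfin : Tendsto (fun j => ∫ x, ‖a' j x‖ ^ 2) atTop (𝓝 0) := by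
    refine amp_null (a := a') hc (fun j => ((hs' j).trans (hn0 _ (hge j)).2.1).trans hr) h0 h1
      fun χ hχ hcχ => ?_
    exact (hw χ hχ hcχ).comp (tendsto_add_atTop_nat n0)
  exact hfin

end Crest.Agent.R330.I3N365

end
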