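import Crest.Agent.R330.Haar_596
import Crest.Agent.R330.Cone_741
import Crest.Agent.R330.Col_962
import Crest.Agent.R330.Cov_837

/-!
# Row 330 (helper399): gauge invariant bumps and partitions of unity on annuli

* `exists_inv_bump` : for every configuration `c` and `r > 0` a smooth gauge invariant function
  `h ≥ 0` on `Cfg N` with `h x > 0 ↔ ∃ g, ‖g x - c‖ < r`.
* `exists_inv_partition` : on the annulus `1 ≤ ‖x‖ ≤ a` a finite smooth gauge invariant partition
  `Σ J_k² = 1` (everywhere), where each `J_k` vanishes on the annulus, or is supported in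
  `V4 ≥ v > 0`, or is supported in the prescribed tube `{∃ g, ‖g x - c‖ < r c}` of a commuting
  configuration `c` of the annulus.
-/

set_option autoImplicit false
set_option linter.unusedSectionVars false

open MeasureTheory Filter Topology Set Metric
open scoped ContDiff
open Crest.MathPhysics.MatrixQM

noncomputable section

namespace Crest.Agent.R330.InvPart399

open Crest.Agent.R330.SUgrp596 Crest.Agent.R330.Moll596 Crest.Agent.R330.Haar596
  Crest.Agent.R330.Cone741

variable {N : ℕ} (b : ColorBasis N)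

theorem bump0_pos {ε : ℝ} (hε : 0 < ε) (x : Cfg N) : 0 < bump0 ε x ↔ ‖x‖ < ε := by
  unfold bump0
  constructor
  · intro h
    by_contra hcon
    push Not at hcon
    have : ε ^ 2 - ‖x‖ ^ 2 ≤ 0 := by nlinarith [norm_nonneg x]
    rw [Real.smoothTransition.zero_of_nonpos this] at h
    exact lt_irrefl _ h
  · intro h
    exact Real.smoothTransition.pos_of_pos (by nlinarith [norm_nonneg x])

theorem continuous_act_left (x : Cfg N) : Continuous fun g : SU N => b.act g x := by
  have h : Continuous fun g : SU N => (fun iA : Fin 9 × Fin (N ^ 2 - 1) =>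
      ∑ B, b.adjMat g iA.2 B * x (iA.1, B)) := by
    refine continuous_pi fun iA => continuous_finsetSum _ fun B _ => ?_
    exact (Cov837.adj_continuous b iA.2 B).mul continuous_const
  exact (PiLp.continuous_toLp 2 _).comp h

theorem exists_inv_bump (c : Cfg N) {r : ℝ} (hr : 0 < r) :
    ∃ h : Cfg N → ℝ, ContDiff ℝ ∞ h ∧ (∀ (g : SU N) x, h (b.act g x) = h x) ∧
      (∀ x, 0 ≤ h x) ∧ ∀ x, 0 < h x ↔ ∃ g : SU N, ‖b.act g x - c‖ < r := by
  set φ : Cfg N → ℝ := fun y => bump0 r (y - c) with hφ
  have hφs : ContDiff ℝ ∞ φ := (bump0_smooth r).comp (contDiff_id.sub contDiff_const)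
  set Lc : SU N → Cfg N →L[ℝ] Cfg N := fun g => (Col962.actLI b g).toContinuousLinearEquiv with hLc
  have hLa : ∀ g x, Lc g x = b.act g x := fun g x => rfl
  have hLcont : Continuous Lc := by
    rw [continuous_clm_apply]
    intro x
    simp only [hLa]
    exact continuous_act_left b x
  refine ⟨fun x => ∫ g, φ (b.act g x) ∂(haarSU N), ?_, ?_, ?_, ?_⟩
  · rw [contDiff_infty]
    intro n
    have h := contDiff_avgR (μ := haarSU N) Lc hLcont n (F₁ := ℝ) (F₂ := ℝ)
      (fun _ => ContinuousLinearMap.id ℝ ℝ) continuous_const φ (hφs.of_le (by exact_mod_cast le_top))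
    exact h
  · intro g x
    have h := integral_mul_right_eq_self (μ := haarSU N) (fun k => φ (b.act k x)) g
    show ∫ k, φ (b.act k (b.act g x)) ∂(haarSU N) = ∫ k, φ (b.act k x) ∂(haarSU N)
    rw [← h]
    refine integral_congr_ae (Eventually.of_forall fun k => ?_)
    simp only
    rw [Col962.act_mul]
  · intro x
    exact integral_nonneg fun g => bump0_nonneg r _
  · intro x
    have hc : Continuous fun g : SU N => φ (b.act g x) :=
      hφs.continuous.comp (continuous_act_left b x)
    constructor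
    · intro hpos
      by_contra hcon
      push Not at hcon
      have h0 : ∀ g : SU N, φ (b.act g x) = 0 := fun g => bump0_zero hr (hcon g)
      simp only [h0, integral_zero] at hpos
      exact lt_irrefl _ hpos
    · rintro ⟨g, hg⟩
      refine Continuous.integral_pos_of_hasCompactSupport_nonneg_nonzero hc
        (HasCompactSupport.of_compactSpace _) (fun g => bump0_nonneg r _) (x := g) ?_
      exact ((bump0_pos hr _).2 hg).ne'

/-- the tube around the orbit of `c` -/
def tube (c : Cfg N) (r : ℝ) : Set (Cfg N) := {x | ∃ g : SU N, ‖b.act g x - c‖ < r}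

/-- **gauge invariant partition of unity on the annulus** -/
theorem exists_inv_partition {a : ℝ} (ha : 1 ≤ a) (r : Cfg N → ℝ)
    (hr : ∀ c ∈ Cm b, 1 ≤ ‖c‖ → ‖c‖ ≤ a → 0 < r c) :
    ∃ (ι : Type) (_ : Fintype ι) (J : ι → Cfg N → ℝ) (v : ℝ), 0 < v ∧
      (∀ k, ContDiff ℝ ∞ (J k)) ∧ (∀ k (g : SU N) x, J k (b.act g x) = J k x) ∧
      (∀ x, ∑ k, J k x ^ 2 = 1) ∧
      ∀ k, (∀ x, 1 ≤ ‖x‖ → ‖x‖ ≤ a → J k x = 0) ∨ (∀ x, J k x ≠ 0 → v ≤ V4 b x) ∨
        ∃ c ∈ Cm b, 1 ≤ ‖c‖ ∧ ‖c‖ ≤ a ∧ ∀ x, J k x ≠ 0 → x ∈ tube b c (r c) := by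
  classical
  -- bumps
  set ρ : Cfg N → ℝ := fun c => if 0 < r c then r c else 1 with hρ
  have hρ0 : ∀ c, 0 < ρ c := fun c => by
    simp only [hρ]
    split_ifs with h
    · exact h
    · exact one_pos
  choose h hsm hinv hnn hpos using fun c => exists_inv_bump b c (hρ0 c)
  -- the finite cover
  obtain ⟨T, r₀, hr₀, hT, hcov⟩ := exists_finite_cover b 1 a (fun c => {x | 0 < h c x})
    (fun c _ _ _ => (isOpen_lt continuous_const (hsm c).continuous).mem_nhds
      ((hpos c c).2 ⟨1, by rw [Col962.act_one, sub_self, norm_zero]; exact hρ0 c⟩))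
  obtain ⟨c₀, hc₀, hV⟩ := V4_lower b (r := r₀ / a) (by positivity)
  have ha0 : 0 < a := by linarith
  -- away from the cone
  have haway : ∀ x : Cfg N, 1 ≤ ‖x‖ → ‖x‖ ≤ a → V4 b x < c₀ → ∃ c ∈ T, 0 < h c x := by
    intro x h1 h2 h3
    have h4 : infDist x (Cm b) < r₀ := by
      by_contra hcon
      push Not at hcon
      have h5 : r₀ / a * ‖x‖ ≤ infDist x (Cm b) := by
        refine le_trans ?_ hcon
        rw [div_mul_eq_mul_div, div_le_iff₀ ha0]
        nlinarith
      have h6 := hV x h5
      have h7 : (1 : ℝ) ≤ ‖x‖ ^ 4 := one_le_pow₀ h1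
      nlinarith
    obtain ⟨c, hc, hx⟩ := hcov x h1 h2 h4
    have hx' : x ∈ {x | 0 < h c x} := interior_subset hx
    exact ⟨c, hc, hx'⟩
  set s0 : Cfg N → ℝ := fun x => Real.smoothTransition (V4 b x - c₀ / 2) with hs0
  set so : Cfg N → ℝ := fun x => Real.smoothTransition (1 - ‖x‖ ^ 2) +
    Real.smoothTransition (‖x‖ ^ 2 - a ^ 2) with hso
  have hV4s : ContDiff ℝ ∞ (V4 b) := by
    unfold V4 Bar186.brk row
    fun_prop
  have hs0s : ContDiff ℝ ∞ s0 := Real.smoothTransition.contDiff.comp (hV4s.sub contDiff_const)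
  have hsos : ContDiff ℝ ∞ so :=
    (Real.smoothTransition.contDiff.comp (contDiff_const.sub (contDiff_norm_sq ℝ))).add
      (Real.smoothTransition.contDiff.comp ((contDiff_norm_sq ℝ).sub contDiff_const))
  set S : Cfg N → ℝ := fun x => so x ^ 2 + s0 x ^ 2 + ∑ c ∈ T, h c x ^ 2 with hS
  have hSs : ContDiff ℝ ∞ S :=
    ((hsos.pow 2).add (hs0s.pow 2)).add (ContDiff.sum fun c _ => (hsm c).pow 2)
  have hSpos : ∀ x, 0 < S x := by
    intro x
    have e1 : 0 ≤ so x ^ 2 := sq_nonneg _
    have e2 : 0 ≤ s0 x ^ 2 := sq_nonneg _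
    have e3 : 0 ≤ ∑ c ∈ T, h c x ^ 2 := Finset.sum_nonneg fun c _ => sq_nonneg _
    by_cases hx1 : 1 ≤ ‖x‖
    · by_cases hx2 : ‖x‖ ≤ a
      · by_cases hx3 : V4 b x < c₀
        · obtain ⟨c, hc, hcx⟩ := haway x hx1 hx2 hx3
          have : h c x ^ 2 ≤ ∑ c ∈ T, h c x ^ 2 :=
            Finset.single_le_sum (f := fun c => h c x ^ 2) (fun c _ => sq_nonneg _) hc
          have h4 : 0 < h c x ^ 2 := by positivity
          simp only [hS]
          linarith
        · push Not at hx3
          have h4 : 0 < s0 x := Real.smoothTransition.pos_of_pos (by linarith)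
          have h5 : 0 < s0 x ^ 2 := by positivity
          simp only [hS]
          linarith
      · push Not at hx2
        have h4 : 0 < so x := by
          simp only [hso]
          have h6 : 0 < Real.smoothTransition (‖x‖ ^ 2 - a ^ 2) :=
            Real.smoothTransition.pos_of_pos (by nlinarith)
          have h7 := Real.smoothTransition.nonneg (1 - ‖x‖ ^ 2)
          linarith
        have h5 : 0 < so x ^ 2 := by positivity
        simp only [hS]
        linarith
    · push Not at hx1
      have h4 : 0 < so x := by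
        simp only [hso]
        have h6 : 0 < Real.smoothTransition (1 - ‖x‖ ^ 2) :=
          Real.smoothTransition.pos_of_pos (by nlinarith [norm_nonneg x])
        have h7 := Real.smoothTransition.nonneg (‖x‖ ^ 2 - a ^ 2)
        linarith
      have h5 : 0 < so x ^ 2 := by positivity
      simp only [hS]
      linarith
  set w : Cfg N → ℝ := fun x => (Real.sqrt (S x))⁻¹ with hw
  have hws : ContDiff ℝ ∞ w :=
    (hSs.sqrt fun x => (hSpos x).ne').inv fun x => (Real.sqrt_pos.2 (hSpos x)).ne'
  have hw2 : ∀ x, w x ^ 2 * S x = 1 := fun x => by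
    simp only [hw, inv_pow]
    rw [Real.sq_sqrt (hSpos x).le, inv_mul_cancel₀ (hSpos x).ne']
  have hnact : ∀ (g : SU N) x, ‖b.act g x‖ = ‖x‖ := fun g x => Col962.norm_act b g x
  have hsoi : ∀ (g : SU N) x, so (b.act g x) = so x := fun g x => by
    simp only [hso, hnact]
  have hs0i : ∀ (g : SU N) x, s0 (b.act g x) = s0 x := fun g x => by
    simp only [hs0]
    rw [V4_act b g x]
  have hSi : ∀ (g : SU N) x, S (b.act g x) = S x := fun g x => by
    simp only [hS, hsoi, hs0i, hinv]
  have hwi : ∀ (g : SU N) x, w (b.act g x) = w x := fun g x => by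
    simp only [hw, hSi]
  refine ⟨Option (Option {c // c ∈ T}), inferInstance, fun k x => match k with
    | none => w x * so x
    | some none => w x * s0 x
    | some (some c) => w x * h c.1 x, c₀ / 2, by positivity, ?_, ?_, ?_, ?_⟩
  · rintro (_ | _ | c)
    · exact hws.mul hsos
    · exact hws.mul hs0s
    · exact hws.mul (hsm c.1)
  · rintro (_ | _ | c) g x
    · simp only [hwi, hsoi]
    · simp only [hwi, hs0i]
    · simp only [hwi, hinv]
  · intro x
    rw [Fintype.sum_option, Fintype.sum_option]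
    have e : ∑ c : {c // c ∈ T}, (w x * h c.1 x) ^ 2 = w x ^ 2 * ∑ c ∈ T, h c x ^ 2 := by
      rw [Finset.mul_sum, ← Finset.sum_coe_sort T (fun c => w x ^ 2 * h c x ^ 2)]
      exact Finset.sum_congr rfl fun c _ => by ring
    simp only [e]
    calc (w x * so x) ^ 2 + ((w x * s0 x) ^ 2 + w x ^ 2 * ∑ c ∈ T, h c x ^ 2)
        = w x ^ 2 * S x := by simp only [hS]; ring
      _ = 1 := hw2 x
  · rintro (_ | _ | c)
    · left
      intro x h1 h2
      have e1 : Real.smoothTransition (1 - ‖x‖ ^ 2) = 0 :=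
        Real.smoothTransition.zero_of_nonpos (by nlinarith)
      have e2 : Real.smoothTransition (‖x‖ ^ 2 - a ^ 2) = 0 :=
        Real.smoothTransition.zero_of_nonpos (by nlinarith [norm_nonneg x])
      simp only [hso, e1, e2, add_zero, mul_zero]
    · right; left
      intro x hx
      by_contra hcon
      push Not at hcon
      apply hx
      have e1 : s0 x = 0 := Real.smoothTransition.zero_of_nonpos (by linarith)
      simp only [e1, mul_zero]
    · right; right
      have hcT := hT c.1 c.2
      have hrc : ρ c.1 = r c.1 := by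
        simp only [hρ]
        rw [if_pos (hr c.1 hcT.1 hcT.2.1 hcT.2.2)]
      refine ⟨c.1, hcT.1, hcT.2.1, hcT.2.2, fun x hx => ?_⟩
      have h1 : h c.1 x ≠ 0 := fun h0 => hx (by simp only [h0, mul_zero])
      have h2 : 0 < h c.1 x := lt_of_le_of_ne (hnn c.1 x) (Ne.symm h1)
      have h3 := (hpos c.1 x).1 h2
      rw [hrc] at h3
      exact h3

end Crest.Agent.R330.InvPart399

end
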