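import Crest.Agent.R330.FactI_161
import Crest.Agent.R330.TDef_414

/-!
# R330 (helper566), S10-LIM: the vacuum space of `Kᗮ` is irreducible under `θ(u)`, `u ∈ K`

* `irr_vacOf` : a subspace of `vacOf M G Kᗮ` which is invariant under `thv M β u`, `u ∈ K`, is `0` or
  everything;
* `gvac_mem`, `vacOf_ne_bot`, `isGVac_of` : reference vacua.
-/

set_option autoImplicit false
set_option linter.unusedSectionVars false
set_option linter.unusedVariables false

open MeasureTheory Crest.MathPhysics.MatrixQM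
open scoped BigOperators InnerProductSpace

noncomputable section
namespace Crest.Agent.R330.IrrX566

open Crest.Agent.R330.Cliff442 Crest.Agent.R330.Cliff442.CRep
open Crest.Agent.R330.LS839 Crest.Agent.R330.Bind6839 Crest.Agent.R330.Defs478
open Crest.Agent.R330.SInd478 Crest.Agent.R330.FactI161 Crest.Agent.R330.TDef414

variable {N : ℕ}

/-! ### the partial complex structure -/

section pj

variable (G : GammaNine) (K : Submodule ℝ (Colg N))

/-- the orthogonal projection on `Kᗮ`, as a linear map -/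
def piL : Colg N →ₗ[ℝ] Colg N := (Kᗮ.starProjection : Colg N →L[ℝ] Colg N)

theorem piL_mem (u : Colg N) : piL K u ∈ Kᗮ := Submodule.starProjection_apply_mem _ _

theorem piL_of_mem {u : Colg N} (hu : u ∈ Kᗮ) : piL K u = u :=
  Submodule.starProjection_eq_self_iff.2 hu

theorem inner_piL (u v : Colg N) : ⟪piL K u, v⟫_ℝ = ⟪u, piL K v⟫_ℝ :=
  Submodule.inner_starProjection_left_eq_right _ _ _

theorem piL_eq_zero {u : Colg N} (h : piL K u = 0) : u ∈ K := by
  have h1 : u ∈ Kᗮᗮ := by
    have := (Submodule.starProjection_apply_eq_zero_iff (K := Kᗮ) (v := u)).1 h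
    exact this
  rwa [Submodule.orthogonal_orthogonal] at h1

/-- `1 ⊗ P_{Kᗮ}` -/
def Pi : W16 N →ₗ[ℝ] W16 N := teL (piL K)

theorem row_Pi (β : Fin 16) (x : W16 N) : row β (Pi K x) = piL K (row β x) := row_teL _ _ _

theorem inner_Pi (x y : W16 N) : ⟪Pi K x, y⟫_ℝ = ⟪x, Pi K y⟫_ℝ := by
  rw [inner_row, inner_row]
  refine Finset.sum_congr rfl fun β _ => ?_
  rw [row_Pi, row_Pi, inner_piL]

theorem Pi_GJ (x : W16 N) : Pi K (GJ G N x) = GJ G N (Pi K x) := by
  refine ext_row fun β => ?_
  rw [row_Pi, row_GJ, row_GJ, map_sum]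
  refine Finset.sum_congr rfl fun β' _ => ?_
  rw [map_smul, row_Pi]

theorem Pi_Pi (x : W16 N) : Pi K (Pi K x) = Pi K x := by
  refine ext_row fun β => ?_
  rw [row_Pi, row_Pi]
  exact piL_of_mem K (piL_mem K _)

theorem Pi_of_rows {x : W16 N} (h : ∀ β, row β x ∈ Kᗮ) : Pi K x = x := by
  refine ext_row fun β => ?_
  rw [row_Pi, piL_of_mem K (h β)]

theorem rows_of_Pi {x : W16 N} (h : Pi K x = x) (β : Fin 16) : row β x ∈ Kᗮ := by
  rw [← h, row_Pi]
  exact piL_mem K _

/-- the partial complex structure -/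
def PJ : W16 N →ₗ[ℝ] W16 N := Pi K ∘ₗ GJ G N

theorem PJ_apply (x : W16 N) : PJ G K x = Pi K (GJ G N x) := rfl

theorem PJ_skew : Skew (PJ G K) := by
  intro x y
  rw [PJ_apply, PJ_apply, inner_Pi, GJ_skew G N x (Pi K y), Pi_GJ]

theorem PJ_PJ (x : W16 N) : PJ G K (PJ G K x) = -Pi K x := by
  rw [PJ_apply, PJ_apply, ← Pi_GJ, Pi_Pi, GJ_GJ, map_neg]

/-- the pairs of the partial complex structure -/
theorem exists_pairs : ∃ (m : ℕ) (u v : ℕ → W16 N),
    Prs u v (Finset.range m) ∧
    (∀ j ∈ Finset.range m, Pi K (u j) = u j ∧ Pi K (v j) = v j) ∧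
    (∀ j ∈ Finset.range m, v j = -GJ G N (u j)) ∧ (∀ j ∈ Finset.range m, u j = GJ G N (v j)) ∧
    (∀ x, (∀ j ∈ Finset.range m, ⟪x, u j⟫_ℝ = 0 ∧ ⟪x, v j⟫_ℝ = 0) → Pi K x = 0) := by
  obtain ⟨m, u, v, lam, h⟩ := (PJ_skew G K).exists_NF
  have hPu : ∀ j ∈ Finset.range m, Pi K (u j) = u j := fun j hj => by
    have e1 := h.av j hj
    have e2 : lam j ≠ 0 := (h.pos j hj).ne'
    have e3 : u j = (lam j)⁻¹ • PJ G K (v j) := by rw [e1, smul_smul, inv_mul_cancel₀ e2, one_smul]
    rw [e3, PJ_apply, map_smul, Pi_Pi]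
  have hPv : ∀ j ∈ Finset.range m, Pi K (v j) = v j := fun j hj => by
    have e1 := h.au j hj
    have e2 : lam j ≠ 0 := (h.pos j hj).ne'
    have e3 : v j = -((lam j)⁻¹ • PJ G K (u j)) := by
      rw [e1, smul_smul, mul_neg, inv_mul_cancel₀ e2, neg_smul, one_smul, neg_neg]
    rw [e3, PJ_apply, map_neg, map_smul, Pi_Pi]
  have hl : ∀ j ∈ Finset.range m, lam j = 1 := fun j hj => by
    have e1 := PJ_PJ G K (u j)
    rw [h.au j hj, map_smul, h.av j hj, smul_smul, neg_mul, neg_smul, neg_inj, hPu j hj] at e1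
    have e2 : ⟪(lam j * lam j) • u j, u j⟫_ℝ = ⟪u j, u j⟫_ℝ := by rw [e1]
    rw [inner_smul_left, real_inner_self_eq_norm_sq, (h.prs.pr j hj).1] at e2
    simp only [conj_trivial, one_pow, mul_one] at e2
    nlinarith [h.pos j hj]
  refine ⟨m, u, v, h.prs, fun j hj => ⟨hPu j hj, hPv j hj⟩, fun j hj => ?_, fun j hj => ?_,
    fun x hx => ?_⟩
  · have e := h.au j hj
    rw [hl j hj, neg_smul, one_smul, PJ_apply, Pi_GJ, hPu j hj] at e
    rw [e, neg_neg]
  · have e := h.av j hj
    rw [hl j hj, one_smul, PJ_apply, Pi_GJ, hPv j hj] at e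
    exact e.symm
  · have e := h.ker x hx
    have e1 := PJ_PJ G K x
    rw [e, map_zero] at e1
    exact neg_eq_zero.1 e1.symm

end pj

/-! ### the vacuum space -/

section vac

variable {F : Type*} [NormedAddCommGroup F] [InnerProductSpace ℂ F] [FiniteDimensional ℂ F]
variable (M : FermionRep N F) (G : GammaNine)

/-- `gan` through the Clifford module -/
theorem gan_eq (β : Fin 16) (u : Colg N) (f : F) : gan M G β u f =
    (cr M).θ (ins β u) f - Complex.I • (cr M).θ (GJ G N (ins β u)) f := by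
  unfold gan
  rw [GJ_ins, CRep.sum, LinearMap.sub_apply, LinearMap.smul_apply, LinearMap.sum_apply,
    LinearMap.sum_apply, cr_ins]
  congr 2
  refine Finset.sum_congr rfl fun β' _ => ?_
  rw [map_smul, CRep.smul, cr_ins]

/-- vacuum vectors through the Clifford module -/
theorem mem_vacOf_iff (K : Submodule ℝ (Colg N)) (f : F) : f ∈ vacOf M G K ↔
    ∀ x : W16 N, (∀ β, row β x ∈ K) → (cr M).θ x f = Complex.I • (cr M).θ (GJ G N x) f := by
  rw [mem_vacOf]
  constructor
  · intro h x hx
    conv_lhs => rw [← sum_ins_row x]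
    conv_rhs => rw [← sum_ins_row x]
    rw [map_sum, CRep.sum, CRep.sum, LinearMap.sum_apply, LinearMap.sum_apply, Finset.smul_sum]
    refine Finset.sum_congr rfl fun β _ => ?_
    have := h β _ (hx β)
    rw [gan_eq, sub_eq_zero] at this
    exact this
  · intro h β u hu
    rw [gan_eq, sub_eq_zero]
    refine h _ fun β' => ?_
    rw [row_ins]
    split_ifs
    · exact hu
    · exact K.zero_mem

theorem mem_vacOf_top_iff (f : F) : f ∈ vacOf M G ⊤ ↔ IsGVac M G f := by
  rw [mem_vacOf_iff, isGVac_iff]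
  exact ⟨fun h x => h x fun _ => trivial, fun h x _ => h x⟩

theorem gvac_mem {f : F} (hf : IsGVac M G f) (K : Submodule ℝ (Colg N)) : f ∈ vacOf M G K :=
  vacOf_mono le_top ((mem_vacOf_top_iff M G f).2 hf)

theorem vacOf_ne_bot [Nontrivial F] (K : Submodule ℝ (Colg N)) : vacOf M G K ≠ ⊥ := by
  obtain ⟨Ω, h1, h2⟩ := exists_gvac M G
  intro h
  have h3 := gvac_mem M G h2 K
  rw [h, Submodule.mem_bot] at h3
  rw [h3, norm_zero] at h1
  exact zero_ne_one h1

theorem gan_add (β : Fin 16) (u v : Colg N) (f : F) :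
    gan M G β (u + v) f = gan M G β u f + gan M G β v f := by
  rw [gan_eq, gan_eq, gan_eq, map_add, map_add, CRep.add, CRep.add, LinearMap.add_apply,
    LinearMap.add_apply, smul_add]
  abel

/-- **irreducibility** -/
theorem irr_vacOf (K : Submodule ℝ (Colg N)) (W : Submodule ℂ F) (hW : W ≤ vacOf M G Kᗮ)
    (hinv : ∀ β, ∀ u ∈ K, ∀ f ∈ W, thv M β u f ∈ W) : W = ⊥ ∨ W = vacOf M G Kᗮ := by
  obtain ⟨m, u, v, hprs, hP, hv, hu, hker⟩ := exists_pairs G K
  have h1 := (cr_irr M).vacS hprs fun k _ => ⟨Submodule.mem_top, Submodule.mem_top⟩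
  -- the vacuum space
  have h2 : (cr M).vacS ⊤ u v (Finset.range m) = vacOf M G Kᗮ := by
    ext f
    rw [mem_vacS, mem_vacOf_iff]
    constructor
    · rintro ⟨-, h⟩ x hx
      let A : Submodule ℝ (W16 N) :=
        { carrier := {x | (cr M).θ x f = Complex.I • (cr M).θ (GJ G N x) f}
          add_mem' := fun {a b} ha hb => by
            have ha' : (cr M).θ a f = Complex.I • (cr M).θ (GJ G N a) f := ha
            have hb' : (cr M).θ b f = Complex.I • (cr M).θ (GJ G N b) f := hb
            change (cr M).θ (a + b) f = Complex.I • (cr M).θ (GJ G N (a + b)) f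
            rw [map_add, CRep.add, CRep.add, LinearMap.add_apply, LinearMap.add_apply, ha', hb',
              smul_add]
          zero_mem' := by
            change (cr M).θ 0 f = Complex.I • (cr M).θ (GJ G N 0) f
            rw [map_zero, CRep.zero]
            simp
          smul_mem' := fun r a ha => by
            have ha' : (cr M).θ a f = Complex.I • (cr M).θ (GJ G N a) f := ha
            change (cr M).θ (r • a) f = Complex.I • (cr M).θ (GJ G N (r • a)) f
            rw [map_smul, CRep.smul, CRep.smul, LinearMap.smul_apply, LinearMap.smul_apply, ha',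
              smul_comm] }
      have hu' : ∀ j ∈ Finset.range m, u j ∈ A := fun j hj => by
        have h5 := h j hj
        rw [ann_apply, hv j hj, CRep.neg, LinearMap.neg_apply, smul_neg, ← sub_eq_add_neg,
          sub_eq_zero] at h5
        exact h5
      have hv' : ∀ j ∈ Finset.range m, v j ∈ A := fun j hj => by
        have h5 := h j hj
        rw [ann_apply] at h5
        change (cr M).θ (v j) f = Complex.I • (cr M).θ (GJ G N (v j)) f
        rw [← hu j hj, eq_neg_of_add_eq_zero_left h5, smul_neg, smul_smul, Complex.I_mul_I,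
          neg_smul, one_smul, neg_neg]
      have hx2 : Pi K x = x := Pi_of_rows K hx
      have hx3 : x = ∑ l ∈ Finset.range m, (⟪x, u l⟫_ℝ • u l + ⟪x, v l⟫_ℝ • v l) := by
        have h6 := hker _ (hprs.proj_mem x)
        rw [map_sub, map_sum, hx2, sub_eq_zero] at h6
        conv_lhs => rw [h6]
        refine Finset.sum_congr rfl fun l hl => ?_
        rw [map_add, map_smul, map_smul, (hP l hl).1, (hP l hl).2]
      have hx4 : x ∈ A := by
        rw [hx3]
        exact Submodule.sum_mem _ fun l hl =>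
          A.add_mem (A.smul_mem _ (hu' l hl)) (A.smul_mem _ (hv' l hl))
      exact hx4
    · intro h
      refine ⟨Submodule.mem_top, fun j hj => ?_⟩
      have h3 := h (u j) (rows_of_Pi K (hP j hj).1)
      rw [ann_apply, hv j hj, CRep.neg, LinearMap.neg_apply, h3, smul_neg, ← sub_eq_add_neg,
        sub_self]
  rw [h2] at h1
  refine h1.2 W hW fun x hx f hf => ?_
  have h3 := hker x (mem_perpS.1 hx).2
  rw [cr_eq_sum]
  refine W.sum_mem fun β _ => hinv β _ ?_ f hf
  apply piL_eq_zero K
  rw [← row_Pi, h3, map_zero]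

end vac

end Crest.Agent.R330.IrrX566
end
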