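import Crest.Agent.R330.VacSec5_255
import Crest.Agent.R330.Cliff6_442
import Crest.Agent.R330.SInd_478

/-!
# Row 330 (helper255): bridges of the vacuum section

* `crp M` : 442's module of the generators of `M`; `rl A` : the real linear map of a real matrix.
* `mem_vacJ_rl` : `f ∈ (crp M).vacJ (rl (-J)) ↔ PVac (thC M) J f`.
* `pcs_ref`, `pcs_op` : `JR0 r`, `JR r` are partial complex structures;
  `Wop_proj : Wop r (proj (JR0 r) f) = proj (JR r) (Wop r f)`.
* `contDiffAt_JR` ; `pvac_of_gvac` : 478's reference vacuum.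
-/

set_option autoImplicit false
set_option linter.unusedSectionVars false
set_option linter.style.haveILetI false

noncomputable section

open Filter Topology
open scoped InnerProductSpace Matrix ContDiff
open Crest.MathPhysics.MatrixQM
open Crest.Agent.R330.Cliff442

namespace Crest.Agent.R330.VacSec255

variable {N : ℕ} {F : Type*} [NormedAddCommGroup F] [InnerProductSpace ℂ F]
  [FiniteDimensional ℂ F]

theorem anticomm' (M : FermionRep N F) (j k : IX N) :
    M.θ j.1 j.2 ∘ₗ M.θ k.1 k.2 + M.θ k.1 k.2 ∘ₗ M.θ j.1 j.2 =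
      if j = k then (LinearMap.id : F →ₗ[ℂ] F) else 0 := by
  rw [M.anticomm]
  by_cases h : j = k
  · rw [if_pos h, if_pos ⟨congrArg Prod.fst h, congrArg Prod.snd h⟩]
  · rw [if_neg h, if_neg fun h' => h (Prod.ext h'.1 h'.2)]

/-- 442's module of the generators. -/
def crp (M : FermionRep N F) : CRep (EuclideanSpace ℝ (IX N)) F :=
  CRep.of (fun p : IX N => M.θ p.1 p.2) (fun p => M.selfAdjoint p.1 p.2) (anticomm' M)

theorem crp_apply (M : FermionRep N F) (x : EuclideanSpace ℝ (IX N)) (f : F) :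
    (crp M).θ x f = th (thC M) (fun p => ((x p : ℝ) : ℂ)) f := by
  change (∑ p, ((x p : ℝ) : ℂ) • M.θ p.1 p.2) f = _
  rw [LinearMap.sum_apply, th, _root_.sum_apply]
  rfl

/-- The real linear map of a matrix. -/
def rl (A : Matrix (IX N) (IX N) ℂ) :
    EuclideanSpace ℝ (IX N) →ₗ[ℝ] EuclideanSpace ℝ (IX N) where
  toFun x := WithLp.toLp 2 fun p => ∑ q, (A p q).re * x q
  map_add' x y := by
    ext p
    simp only [PiLp.add_apply, mul_add, Finset.sum_add_distrib]
  map_smul' t x := by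
    ext p
    simp only [PiLp.smul_apply, smul_eq_mul, RingHom.id_apply, Finset.mul_sum]
    refine Finset.sum_congr rfl fun q _ => ?_
    ring

theorem rl_apply (A : Matrix (IX N) (IX N) ℂ) (x : EuclideanSpace ℝ (IX N)) (p : IX N) :
    rl A x p = ∑ q, (A p q).re * x q := rfl

theorem IsReal.re {A : Matrix (IX N) (IX N) ℂ} (h : IsReal A) (p q : IX N) :
    ((A p q).re : ℂ) = A p q := Complex.conj_eq_iff_re.1 (h p q)

theorem rl_coe {A : Matrix (IX N) (IX N) ℂ} (h : IsReal A) (x : EuclideanSpace ℝ (IX N)) :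
    (fun p => ((rl A x p : ℝ) : ℂ)) = A *ᵥ fun p => ((x p : ℝ) : ℂ) := by
  funext p
  rw [rl_apply, Complex.ofReal_sum, Matrix.mulVec, dotProduct]
  refine Finset.sum_congr rfl fun q _ => ?_
  rw [Complex.ofReal_mul, h.re]

theorem rl_rl {A B : Matrix (IX N) (IX N) ℂ} (hA : IsReal A) (hB : IsReal B)
    (x : EuclideanSpace ℝ (IX N)) : rl A (rl B x) = rl (A * B) x := by
  ext p
  have h1 := congrFun (rl_coe hA (rl B x)) p
  have h2 := congrFun (rl_coe (hA.mul hB) x) p
  rw [rl_coe hB, Matrix.mulVec_mulVec] at h1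
  have h3 := h1.trans h2.symm
  exact_mod_cast h3

theorem crp_rl (M : FermionRep N F) {A : Matrix (IX N) (IX N) ℂ} (hA : IsReal A)
    (x : EuclideanSpace ℝ (IX N)) (f : F) :
    (crp M).θ (rl A x) f = ∑ q, ((x q : ℝ) : ℂ) • lc (thC M) A q f := by
  rw [crp_apply, rl_coe hA, th_mulVec, _root_.sum_apply]
  rfl

theorem rl_neg (A : Matrix (IX N) (IX N) ℂ) (x : EuclideanSpace ℝ (IX N)) :
    rl (-A) x = -rl A x := by
  ext p
  rw [rl_apply, PiLp.neg_apply, rl_apply, ← Finset.sum_neg_distrib]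
  refine Finset.sum_congr rfl fun q _ => ?_
  rw [Matrix.neg_apply, Complex.neg_re]
  ring

/-- **442's vacuum space.** -/
theorem mem_vacJ_rl {M : FermionRep N F} {J : Matrix (IX N) (IX N) ℂ} (hJ : IsReal J) (f : F) :
    f ∈ (crp M).vacJ (rl (-J)) ↔ PVac (thC M) J f := by
  have hn : IsReal (-J) := hJ.neg
  have key : ∀ x, ((crp M).θ (rl (-J) x) f = Complex.I • (crp M).θ (rl (-J) (rl (-J) x)) f) ↔
      ∑ q, ((x q : ℝ) : ℂ) • lc (thC M) (J * J) q f =
        Complex.I • ∑ q, ((x q : ℝ) : ℂ) • lc (thC M) J q f := by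
    intro x
    rw [rl_rl hn hn, crp_rl M hn, crp_rl M (hn.mul hn), neg_mul_neg]
    simp only [lc_neg, _root_.neg_apply, smul_neg, Finset.sum_neg_distrib]
    constructor
    · intro h
      have h2 := congrArg (fun v : F => (-Complex.I) • v) h
      simp only [smul_neg, smul_smul, neg_mul, Complex.I_mul_I, neg_neg, one_smul,
        neg_smul] at h2
      exact h2.symm
    · intro h
      rw [h, smul_smul, Complex.I_mul_I, neg_one_smul]
  rw [CRep.mem_vacJ]
  constructor
  · intro h q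
    have h1 := (key (EuclideanSpace.single q (1 : ℝ))).1 (h _)
    have h2 : ∀ A : Matrix (IX N) (IX N) ℂ,
        ∑ p, (((EuclideanSpace.single q (1 : ℝ) : EuclideanSpace ℝ (IX N)) p : ℝ) : ℂ) •
          lc (thC M) A p f = lc (thC M) A q f := by
      intro A
      rw [Finset.sum_eq_single q]
      · simp
      · intro p _ hp
        simp [hp]
      · intro h'; exact absurd (Finset.mem_univ q) h'
    rwa [h2, h2] at h1
  · intro h x
    refine (key x).2 ?_
    rw [Finset.smul_sum]
    refine Finset.sum_congr rfl fun q _ => ?_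
    rw [h q, smul_comm]

/-! ### Partial complex structures -/

theorem pcs_rl {J : Matrix (IX N) (IX N) ℂ} (hJ : IsReal J) (hs : Jᵀ = -J)
    (hc : J * J * J = -J) : PCS (rl (-J)) where
  skew := by
    intro x y
    have hs' : ∀ p q, ((-J) p q).re = -((-J) q p).re := fun p q => by
      have h1 := congrFun (congrFun hs p) q
      rw [Matrix.transpose_apply, Matrix.neg_apply] at h1
      rw [Matrix.neg_apply, Matrix.neg_apply, h1]
      simp
    have e1 : ∀ u v : EuclideanSpace ℝ (IX N), ⟪u, v⟫_ℝ = ∑ p, u p * v p := fun u v => by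
      rw [PiLp.inner_apply]
      refine Finset.sum_congr rfl fun p _ => ?_
      simp [mul_comm]
    rw [e1, e1, ← Finset.sum_neg_distrib]
    have e2 : ∀ p, rl (-J) x p * y p = ∑ q, ((-J) p q).re * x q * y p := fun p => by
      rw [rl_apply, Finset.sum_mul]
    have e3 : ∀ q, -(x q * rl (-J) y q) = ∑ p, ((-J) p q).re * x q * y p := fun q => by
      rw [rl_apply, Finset.mul_sum, ← Finset.sum_neg_distrib]
      refine Finset.sum_congr rfl fun p _ => ?_
      rw [hs' p q]
      ring
    rw [Finset.sum_congr rfl fun p _ => e2 p, Finset.sum_congr rfl fun q _ => e3 q,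
      Finset.sum_comm]
  cube := by
    intro x
    have hn : IsReal (-J) := hJ.neg
    have h1 : -J * -J * -J = J := by
      rw [neg_mul_neg, mul_neg, hc, neg_neg]
    rw [rl_rl hn hn, rl_rl (hn.mul hn) hn, h1, rl_neg, neg_neg]

variable (b : ColorBasis N) (G : GammaNine)

/-- the reference structure as a real linear map -/
def JR0 (r : Fin N → E9) : EuclideanSpace ℝ (IX N) →ₗ[ℝ] EuclideanSpace ℝ (IX N) :=
  rl (-Jref b G r)

/-- the structure of the configuration as a real linear map -/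
def JR (r : Fin N → E9) : EuclideanSpace ℝ (IX N) →ₗ[ℝ] EuclideanSpace ℝ (IX N) :=
  rl (-Jop b G r)

theorem isReal_Jref (r : Fin N → E9) : IsReal (Jref b G r) := pa_real b (good_K0 G) r

theorem isReal_Jop (r : Fin N → E9) : IsReal (Jop b G r) := pa_real b (good_Kn G) r

theorem pcs_ref {r : Fin N → E9} (hr : UU r) : PCS (JR0 b G r) :=
  pcs_rl (isReal_Jref b G r) (pa_skew b (good_K0 G) r)
    (pa_cube b (good_K0 G) (fun _ hv => K0_sq G hv) hr)

theorem pcs_op {r : Fin N → E9} (hr : UU r) : PCS (JR b G r) :=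
  pcs_rl (isReal_Jop b G r) (pa_skew b (good_Kn G) r)
    (pa_cube b (good_Kn G) (fun _ hv => Kn_sq G hv) hr)

variable {M : FermionRep N F}

theorem mem_vac_ref {r : Fin N → E9} {f : F} :
    f ∈ (crp M).vacJ (JR0 b G r) ↔ PVac (thC M) (Jref b G r) f :=
  mem_vacJ_rl (isReal_Jref b G r) f

theorem mem_vac_op {r : Fin N → E9} {f : F} :
    f ∈ (crp M).vacJ (JR b G r) ↔ PVac (thC M) (Jop b G r) f :=
  mem_vacJ_rl (isReal_Jop b G r) f

/-- **The section conjugates 442's projections.** -/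
theorem Wop_proj {r : Fin N → E9} (hr : UU r) (f : F) :
    Wop b G M r ((crp M).proj (JR0 b G r) f) = (crp M).proj (JR b G r) (Wop b G M r f) := by
  have p0 := pcs_ref b G hr
  have p1 := pcs_op b G hr
  set f0 := (crp M).proj (JR0 b G r) f with hf0
  have h0 : f0 ∈ (crp M).vacJ (JR0 b G r) := CRep.proj_mem p0 f
  have h1 : Wop b G M r f0 ∈ (crp M).vacJ (JR b G r) :=
    (mem_vac_op b G).2 ((pvac_Wop_iff b G hr f0).1 ((mem_vac_ref b G).1 h0))
  set v := (crp M).proj (JR b G r) (Wop b G M r f - Wop b G M r f0) with hv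
  have h2 : v ∈ (crp M).vacJ (JR b G r) := CRep.proj_mem p1 _
  obtain ⟨v0, hv0, hv1⟩ := exists_of_pvac b G hr ((mem_vac_op b G).1 h2)
  have h3 : ⟪v, v⟫_ℂ = 0 := by
    have e1 : ⟪v, v⟫_ℂ = ⟪v, Wop b G M r f - Wop b G M r f0⟫_ℂ := by
      nth_rewrite 2 [hv]
      rw [← (crp M).proj_symm p1, (crp M).proj_of_mem p1 h2]
    rw [e1, ← hv1, ← map_sub, Wop_inner]
    exact (crp M).proj_orth p0 ((mem_vac_ref b G).2 hv0) f
  have h4 : v = 0 := inner_self_eq_zero.1 h3
  rw [hv, map_sub, (crp M).proj_of_mem p1 h1, sub_eq_zero] at h4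
  exact h4.symm

/-- smoothness of the structure -/
theorem contDiffAt_JR {V : Type*} [NormedAddCommGroup V] [NormedSpace ℝ V]
    {X : V → Fin N → E9} {x₀ : V}
    {n : WithTop ℕ∞} (hX : ∀ a, ContDiffAt ℝ n (fun x => X x a) x₀)
    (hp : ∀ᶠ x in 𝓝 x₀, ∀ a d, X x₀ a = X x₀ d → X x a = X x d) (hU : UU (X x₀))
    (y : EuclideanSpace ℝ (IX N)) : ContDiffAt ℝ n (fun x => JR b G (X x) y) x₀ := by
  rw [contDiffAt_euclidean]
  intro p
  have h1 : (fun x => JR b G (X x) y p) = fun x => ∑ q, -(Jop b G (X x) p q).re * y q := by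
    funext x
    rw [JR, rl_apply]
    refine Finset.sum_congr rfl fun q _ => ?_
    rw [Matrix.neg_apply, Complex.neg_re]
  rw [h1]
  refine ContDiffAt.sum fun q _ => ContDiffAt.mul (ContDiffAt.neg ?_) contDiffAt_const
  exact Complex.reCLM.contDiff.contDiffAt.comp x₀
    (contDiffAt_Op b (contDiffAt_pa (good_Kn G) (smo_Kn G) hX hp hU) p q)

/-! ### The reference vacuum of 478 -/

theorem vac_full {Ω : F} (h : SInd478.IsGVac M G Ω) :
    Vac (thC M) (Op b fun _ _ => -Gc G) Ω := by
  intro q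
  have h1 : lc (thC M) (Op b fun _ _ => -Gc G) q Ω =
      -∑ β : Fin 16, ((Defs478.Gam G β q.1 : ℝ) : ℂ) • M.θ β q.2 Ω := by
    rw [lc_apply, Fintype.sum_prod_type, ← Finset.sum_neg_distrib]
    refine Finset.sum_congr rfl fun β _ => ?_
    have e1 : ∀ B, Op b (fun _ _ => -Gc G) (β, B) q =
        if B = q.2 then -((Defs478.Gam G β q.1 : ℝ) : ℂ) else 0 := by
      intro B
      have e2 : Op b (fun _ _ => -Gc G) (β, B) q =
          -((Defs478.Gam G β q.1 : ℝ) : ℂ) * (b.T B * b.T q.2).trace := by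
        rw [Op_apply, Matrix.trace, Finset.mul_sum, Finset.sum_comm]
        refine Finset.sum_congr rfl fun d _ => ?_
        rw [Matrix.diag_apply, Matrix.mul_apply, Finset.mul_sum]
        refine Finset.sum_congr rfl fun a _ => ?_
        rw [Matrix.neg_apply, Gc, cM_apply]
        ring
      rw [e2, b.orthonormal]
      split_ifs <;> simp
    simp only [e1, ite_smul, zero_smul, Finset.sum_ite_eq', Finset.mem_univ, if_true, neg_smul]
    rfl
  rw [h1]
  change -∑ β : Fin 16, ((Defs478.Gam G β q.1 : ℝ) : ℂ) • M.θ β q.2 Ω =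
    Complex.I • M.θ q.1 q.2 Ω
  rw [h q.1 q.2, smul_smul, Complex.I_mul_I, neg_one_smul]

/-- **478's reference vacuum is a vacuum of every `Jref`.** -/
theorem pvac_of_gvac {Ω : F} (h : SInd478.IsGVac M G Ω) (r : Fin N → E9) :
    PVac (thC M) (Jref b G r) Ω := by
  set c : PA N := fun a d => if r a = r d then 0 else 1 with hc
  have hcd : DC c := fun a d => by simp [hc]
  have hjd : DC (fun _ _ => -Gc G : PA N) := fun _ _ => rfl
  have h1 : Jref b G r = Op b (fun _ _ => -Gc G) * Op b c := by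
    rw [← Op_mul b _ _ hcd, Jref]
    congr 1
    funext a d
    simp only [pa, K0, Pi.mul_apply, hc, sub_eq_zero]
    split_ifs <;> simp
  have h2 : Op b (fun _ _ => -Gc G) * Op b c = Op b c * Op b (fun _ _ => -Gc G) := by
    rw [← Op_mul b _ _ hcd, ← Op_mul b _ _ hjd]
    congr 1
    funext a d
    simp only [Pi.mul_apply, hc]
    split_ifs <;> simp
  have h3 : Op b c * Op b c = Op b c := by
    rw [← Op_mul b _ _ hcd]
    congr 1
    funext a d
    simp only [Pi.mul_apply, hc]
    split_ifs <;> simp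
  rw [h1]
  exact (vac_full b G h).pvac _ h2 h3

end Crest.Agent.R330.VacSec255
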