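import Crest.Agent.R330.Kill_942
import Crest.Agent.R330.VacSec6_255
import Crest.Agent.R330.Geo8_692

/-!
# Row 330 (helper942), S8: 984's heavy complex structure is 255's

`r : Fin N → E9`, `Σ_a r_a = 0`, `X = dg b r`, `K = kc (actB b) X`:
* `hm_adX` : `(ad X_i u)_{ad} = -i (r_a - r_d)_i u_{ad}`;
* `hm_lr`, `hm_li` : `|ad X|`, `|ad X|⁻¹` entrywise;
* **`Jc_eq_JR`** : `Jc b G K X = JR b G r`;
* **`vacJ_Jc`** : `f ∈ (cr M).vacJ (Jc b G K X) ↔ PVac (thC M) (Jop b G r) f`;
* `Jc_cfX`, `vac_cfX`, `kill_iff_PVac` : the same at the position `X ∈ Reg b P`.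
-/

set_option autoImplicit false
set_option linter.unusedSectionVars false

open Crest.MathPhysics.MatrixQM
open scoped InnerProductSpace Matrix

noncomputable section

namespace Crest.Agent.R330.JBr942

open Crest.Agent.R330.AX984 Crest.Agent.R330.GBind984 Crest.Agent.R330.FactI161
  Crest.Agent.R330.Bind6839 Crest.Agent.R330.LS839 Crest.Agent.R330.Frame839
  Crest.Agent.R330.Defs478 Crest.Agent.R330.Cliff442
  Crest.Agent.R330.HMain942 Crest.Agent.R330.SqrtPD984 Crest.Agent.R330.Kill942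
  Crest.Agent.R330.VacSec255 Crest.Agent.R330.Diag304
open Crest.Agent.R330.Blk304 (hm)

variable {N : ℕ} {F : Type*} [NormedAddCommGroup F] [InnerProductSpace ℂ F]
  [FiniteDimensional ℂ F]

variable (b : ColorBasis N) (G : GammaNine) (r : Fin N → E9)

/-- weights of `|ad X| + P_K` -/
def wt (a d : Fin N) : ℝ := if r a = r d then 1 else ‖r a - r d‖

theorem wt_self (a : Fin N) : wt r a a = 1 := by rw [wt, if_pos rfl]

theorem wt_comm (a d : Fin N) : wt r a d = wt r d a := by
  unfold wt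
  by_cases h : r a = r d
  · rw [if_pos h, if_pos h.symm]
  · rw [if_neg h, if_neg (Ne.symm h), norm_sub_rev]

theorem wt_pos (a d : Fin N) : 0 < wt r a d := by
  unfold wt
  by_cases h : r a = r d
  · rw [if_pos h]; exact one_pos
  · rw [if_neg h]; exact norm_pos_iff.2 (sub_ne_zero.2 h)

/-- entrywise scaling of a matrix -/
def wm (A : Matrix (Fin N) (Fin N) ℂ) : Matrix (Fin N) (Fin N) ℂ :=
  Matrix.of fun a d => (wt r a d : ℂ) * A a d

theorem wm_apply (A : Matrix (Fin N) (Fin N) ℂ) (a d : Fin N) :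
    wm r A a d = (wt r a d : ℂ) * A a d := rfl

/-- entrywise scaling -/
def sw : Colg N →ₗ[ℝ] Colg N where
  toFun u := WithLp.toLp 2 (Blk304.cf b (wm r (hm b u.ofLp)))
  map_add' u v := by
    have h : wm r (hm b (u + v).ofLp) = wm r (hm b u.ofLp) + wm r (hm b v.ofLp) := by
      ext a d
      rw [WithLp.ofLp_add, Blk304.hm_add, Matrix.add_apply, wm_apply, wm_apply, wm_apply,
        Matrix.add_apply, mul_add]
    rw [h, Blk304.cf_add]
    rfl
  map_smul' t u := by
    have h : wm r (hm b (t • u).ofLp) = (t : ℂ) • wm r (hm b u.ofLp) := by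
      ext a d
      rw [WithLp.ofLp_smul, Blk304.hm_smul, Matrix.smul_apply, wm_apply, wm_apply,
        Matrix.smul_apply, smul_eq_mul, smul_eq_mul]
      ring
    rw [h, Blk304.cf_smul]
    rfl

theorem hm_sw (u : Colg N) (a d : Fin N) :
    hm b (sw b r u).ofLp a d = (wt r a d : ℂ) * hm b u.ofLp a d := by
  have h1 : (wm r (hm b u.ofLp)).IsHermitian := by
    ext a d
    rw [Matrix.conjTranspose_apply, wm_apply, wm_apply, star_mul', Complex.star_def,
      Complex.conj_ofReal, wt_comm r a d]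
    congr 1
    exact congrFun (congrFun (Blk304.hm_herm b u.ofLp) a) d
  have h2 : (wm r (hm b u.ofLp)).trace = 0 := by
    rw [← Blk304.hm_trace b u.ofLp]
    refine Finset.sum_congr rfl fun a _ => ?_
    rw [Matrix.diag_apply, Matrix.diag_apply, wm_apply, wt_self, Complex.ofReal_one, one_mul]
  exact congrFun (congrFun (Blk304.hm_cf b h1 h2) a) d

theorem inner_colg (u v : Colg N) : ⟪u, v⟫_ℝ =
    ∑ a, ∑ d, (hm b u.ofLp a d * (starRingEnd ℂ) (hm b v.ofLp a d)).re := by
  rw [← Blk304.sum_mul_eq, PiLp.inner_apply]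
  refine Finset.sum_congr rfl fun A _ => ?_
  simp [mul_comm]

theorem ext_hm {u v : Colg N} (h : ∀ a d, hm b u.ofLp a d = hm b v.ofLp a d) : u = v := by
  have h1 : hm b u.ofLp = hm b v.ofLp := by
    ext a d
    exact h a d
  have h2 := Blk304.hm_inj b h1
  ext A
  exact congrFun h2 A

/-- the scaling as a continuous map -/
def swL : Colg N →L[ℝ] Colg N := LinearMap.toContinuousLinearMap (sw b r)

theorem swL_apply (u : Colg N) : swL b r u = sw b r u := rfl

theorem swL_pd : PD (swL b r) := by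
  constructor
  · intro v w
    rw [inner_colg b, inner_colg b]
    refine Finset.sum_congr rfl fun a _ => Finset.sum_congr rfl fun d _ => ?_
    rw [swL_apply, swL_apply, hm_sw, hm_sw, map_mul, Complex.conj_ofReal]
    congr 1
    ring
  · intro v hv
    rw [inner_colg b]
    have h1 : ∀ a d, 0 ≤ (hm b (swL b r v).ofLp a d * (starRingEnd ℂ) (hm b v.ofLp a d)).re := by
      intro a d
      rw [swL_apply, hm_sw, mul_assoc, Complex.mul_conj, ← Complex.ofReal_mul, Complex.ofReal_re]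
      exact mul_nonneg (wt_pos r a d).le (Complex.normSq_nonneg _)
    obtain ⟨a, d, had⟩ : ∃ a d, hm b v.ofLp a d ≠ 0 := by
      by_contra hcon
      push Not at hcon
      refine hv (ext_hm b fun a d => ?_)
      rw [hcon a d, WithLp.ofLp_zero, Blk304.hm_zero]
      rfl
    refine Finset.sum_pos' (fun a _ => Finset.sum_nonneg fun d _ => h1 a d)
      ⟨a, Finset.mem_univ _, Finset.sum_pos' (fun d _ => h1 a d) ⟨d, Finset.mem_univ _, ?_⟩⟩
    rw [swL_apply, hm_sw, mul_assoc, Complex.mul_conj, ← Complex.ofReal_mul, Complex.ofReal_re]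
    exact mul_pos (wt_pos r a d) (Complex.normSq_pos.2 had)

variable {r}

/-- entries of `ad X_i` -/
theorem hm_adX (hr : ∑ a, r a = 0) (i : Fin 9) (u : Colg N) (a d : Fin N) :
    hm b (adX b (dg b r) i u).ofLp a d = -Complex.I * (((r a - r d) i : ℝ) : ℂ) * hm b u.ofLp a d := by
  have h0 : (adX b (dg b r) i u).ofLp = Blk304.cbr b (fun A => (dg b r) (i, A)) u.ofLp := by
    funext A
    rw [adX_apply]
    rfl
  rw [h0, Blk304.hm_cbr]
  have h1 : hm b (fun A => (dg b r) (i, A)) = Matrix.diagonal fun a => ((r a i : ℝ) : ℂ) :=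
    mat_dg b hr i
  rw [h1]
  simp only [Matrix.smul_apply, Matrix.sub_apply, Matrix.mul_diagonal, Matrix.diagonal_mul,
    smul_eq_mul, PiLp.sub_apply]
  push_cast
  ring

/-! ### `|ad X|` entrywise -/

/-- the kernel of `ad X` entrywise -/
theorem mem_kc_dg (hr : ∑ a, r a = 0) (u : Colg N) : u ∈ kc (actB b) (dg b r) ↔
    ∀ a d, r a ≠ r d → hm b u.ofLp a d = 0 := by
  rw [Frame839.mem_kc, actB_apply, brx_dg_eq_zero b hr]

/-- the projection to the kernel entrywise -/
theorem hm_proj (hr : ∑ a, r a = 0) (u : Colg N) (a d : Fin N) :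
    hm b ((kc (actB b) (dg b r)).starProjection u).ofLp a d =
      if r a = r d then hm b u.ofLp a d else 0 := by
  have h1 : (kc (actB b) (dg b r)).starProjection u = WithLp.toLp 2 (pk b r u.ofLp) := by
    refine Submodule.eq_starProjection_of_mem_orthogonal ?_ ?_
    · rw [mem_kc_dg b hr]
      intro a d had
      rw [hm_pk, blk_of_ne had]
    · rw [Submodule.mem_orthogonal]
      intro w hw
      rw [mem_kc_dg b hr] at hw
      have h2 : pk b r w.ofLp = w.ofLp := (pk_eq_self_iff b r w.ofLp).2 hw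
      have h3 : ⟪w, u⟫_ℝ = ∑ A, w.ofLp A * u.ofLp A := by
        rw [PiLp.inner_apply]
        refine Finset.sum_congr rfl fun A _ => ?_
        simp [mul_comm]
      have h4 : ⟪w, (WithLp.toLp 2 (pk b r u.ofLp) : Colg N)⟫_ℝ =
          ∑ A, w.ofLp A * pk b r u.ofLp A := by
        rw [PiLp.inner_apply]
        refine Finset.sum_congr rfl fun A _ => ?_
        simp [mul_comm]
      rw [inner_sub_right, h3, h4, ← pk_symm b r w.ofLp u.ofLp, h2, sub_self]
  rw [h1, hm_pk]
  by_cases h : r a = r d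
  · rw [blk_of_eq h, if_pos h]
  · rw [blk_of_ne h, if_neg h]

theorem hm_sum {ι : Type*} (T : Finset ι) (f : ι → Colg N) :
    hm b (∑ i ∈ T, f i).ofLp = ∑ i ∈ T, hm b (f i).ofLp := by
  classical
  induction T using Finset.induction_on with
  | empty => rw [Finset.sum_empty, Finset.sum_empty, WithLp.ofLp_zero, Blk304.hm_zero]
  | insert i T hi ih =>
    rw [Finset.sum_insert hi, Finset.sum_insert hi, WithLp.ofLp_add, Blk304.hm_add, ih]

theorem hm_ll (hr : ∑ a, r a = 0) (u : Colg N) (a d : Fin N) :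
    hm b (ll (kc (actB b) (dg b r)) (adX b (dg b r)) u).ofLp a d =
      ((wt r a d ^ 2 : ℝ) : ℂ) * hm b u.ofLp a d := by
  rw [ll_apply, WithLp.ofLp_sub, Blk304.hm_sub, Matrix.sub_apply, hm_proj b hr, hm_sum,
    Matrix.sum_apply]
  have h1 : ∀ i, hm b (adX b (dg b r) i (adX b (dg b r) i u)).ofLp a d =
      -((((r a - r d) i) ^ 2 : ℝ) : ℂ) * hm b u.ofLp a d := by
    intro i
    rw [hm_adX b hr, hm_adX b hr]
    push_cast
    linear_combination (((r a - r d) i : ℝ) : ℂ) ^ 2 * hm b u.ofLp a d * Complex.I_mul_I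
  simp only [h1]
  rw [← Finset.sum_mul, Finset.sum_neg_distrib, ← Complex.ofReal_sum]
  have h2 : ∑ i, ((r a - r d) i) ^ 2 = ‖r a - r d‖ ^ 2 := by
    rw [EuclideanSpace.norm_sq_eq]
    refine Finset.sum_congr rfl fun i _ => ?_
    rw [Real.norm_eq_abs, sq_abs]
  rw [h2]
  unfold wt
  by_cases h : r a = r d
  · rw [if_pos h, if_pos h, h, sub_self, norm_zero]
    push_cast
    ring
  · rw [if_neg h, if_neg h]
    ring

theorem fam_dg (hr : ∑ a, r a = 0) : ∃ s, 0 < s ∧
    Fam (kc (actB b) (dg b r)) s (adX b (dg b r)) :=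
  fam_of_eq (b := b) (fun i j => comm_dg b hr i j) rfl

theorem lr_eq (hr : ∑ a, r a = 0) : lr (kc (actB b) (dg b r)) (adX b (dg b r)) = swL b r := by
  obtain ⟨s, hs, h⟩ := fam_dg b hr
  refine psq_eq (swL_pd b r) ?_ (h.ll_pd hs).ps
  refine ContinuousLinearMap.ext fun u => ext_hm b fun a d => ?_
  rw [hm_ll b hr]
  change hm b (sw b r (sw b r u)).ofLp a d = _
  rw [hm_sw, hm_sw]
  push_cast
  ring

/-- `|ad X|⁻¹` entrywise -/
theorem hm_li (hr : ∑ a, r a = 0) (u : Colg N) (a d : Fin N) :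
    hm b (li (kc (actB b) (dg b r)) (adX b (dg b r)) u).ofLp a d =
      ((wt r a d : ℝ) : ℂ)⁻¹ * hm b u.ofLp a d := by
  obtain ⟨s, hs, h⟩ := fam_dg b hr
  have h1 := h.lr_li hs u
  rw [lr_eq b hr] at h1
  have h2 := hm_sw b r (li (kc (actB b) (dg b r)) (adX b (dg b r)) u) a d
  rw [← swL_apply, h1] at h2
  rw [h2, ← mul_assoc, inv_mul_cancel₀ (Complex.ofReal_ne_zero.2 (wt_pos r a d).ne'), one_mul]

/-! ### pair operators entrywise -/

theorem cm_Op {c : PA N} (hc : DC c) (u : IX N → ℂ) (β : Fin 16) (a d : Fin N) :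
    cm b (Op b c *ᵥ u) β a d = ∑ β', c a d β β' * cm b u β' a d := by
  set Y : Matrix (Fin N) (Fin N) ℂ := Matrix.of fun e f => ∑ β', c e f β β' * cm b u β' e f with hY
  have hct : ∀ β', (cm b u β').trace = 0 := by
    intro β'
    rw [cm, Matrix.trace_sum]
    refine Finset.sum_eq_zero fun B _ => ?_
    rw [Matrix.trace_smul, b.traceless, smul_zero]
  have hYt : Y.trace = 0 := by
    rcases isEmpty_or_nonempty (Fin N) with h0 | ⟨⟨e0⟩⟩
    · simp [Matrix.trace]
    · have h1 : Y.trace = ∑ β', c e0 e0 β β' * (cm b u β').trace := by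
        rw [Matrix.trace]
        simp only [Matrix.diag_apply, hY, Matrix.of_apply, Matrix.trace, Finset.mul_sum]
        rw [Finset.sum_comm]
        refine Finset.sum_congr rfl fun β' _ => Finset.sum_congr rfl fun e _ => ?_
        rw [hc e e0]
      rw [h1]
      simp only [hct, mul_zero, Finset.sum_const_zero]
  have h2 : ∀ A, (Op b c *ᵥ u) (β, A) = ∑ e, ∑ f, b.T A f e * Y e f := by
    intro A
    rw [Matrix.mulVec, dotProduct, Fintype.sum_prod_type]
    have h3 : ∀ β', ∑ B, Op b c (β, A) (β', B) * u (β', B) =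
        ∑ e, ∑ f, b.T A f e * (c e f β β' * cm b u β' e f) := by
      intro β'
      simp only [Op_apply, Finset.sum_mul, cm, Matrix.sum_apply, Matrix.smul_apply, smul_eq_mul,
        Finset.mul_sum]
      rw [Finset.sum_comm]
      refine Finset.sum_congr rfl fun e _ => ?_
      rw [Finset.sum_comm]
      refine Finset.sum_congr rfl fun f _ => Finset.sum_congr rfl fun B _ => ?_
      ring
    simp only [h3]
    rw [Finset.sum_comm]
    refine Finset.sum_congr rfl fun e _ => ?_
    rw [Finset.sum_comm]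
    refine Finset.sum_congr rfl fun f _ => ?_
    rw [← Finset.mul_sum]
    rfl
  have h4 : cm b (Op b c *ᵥ u) β a d = ∑ B, b.T B a d * ∑ e, ∑ f, b.T B f e * Y e f := by
    rw [cm, Matrix.sum_apply]
    refine Finset.sum_congr rfl fun B _ => ?_
    rw [Matrix.smul_apply, smul_eq_mul, h2, mul_comm]
  rw [h4, sum_T b hYt]
  rfl

theorem hm_row (x : W16 N) (β : Fin 16) :
    hm b (row β x).ofLp = cm b (fun p => ((x p : ℝ) : ℂ)) β := rfl

/-- `255`'s structure entrywise -/
theorem hm_JR (x : W16 N) (β : Fin 16) (a d : Fin N) :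
    hm b (row β (JR b G r x)).ofLp a d =
      Complex.I * ∑ β', gv G (un (r a - r d)) β β' * hm b (row β' x).ofLp a d := by
  rw [hm_row]
  have h1 : (fun p => ((JR b G r x p : ℝ) : ℂ)) =
      Op b (-pa (Kn G) r) *ᵥ fun p => ((x p : ℝ) : ℂ) := by
    rw [Op_neg]
    exact rl_coe (isReal_Jop b G r).neg x
  have hdc : DC (-pa (Kn G) r) := fun a d => by
    simp [pa]
  rw [h1, cm_Op b hdc, Finset.mul_sum]
  refine Finset.sum_congr rfl fun β' _ => ?_
  rw [hm_row]
  change -(((-Complex.I) • gv G (un (r a - r d))) β β') * _ = _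
  rw [Matrix.smul_apply, smul_eq_mul]
  ring

/-- **The two complex structures agree.** -/
theorem Jc_eq_JR (hr : ∑ a, r a = 0) :
    Jc b G (kc (actB b) (dg b r)) (dg b r) = JR b G r := by
  refine LinearMap.ext fun x => ext_row fun β => ext_hm b fun a d => ?_
  rw [hm_JR, row_Jc, WithLp.ofLp_neg, Blk304.hm_neg, Matrix.neg_apply, hm_sum, Matrix.sum_apply]
  have h1 : ∀ i, hm b (∑ β', G.γ i β β' • adX b (dg b r) i
      (li (kc (actB b) (dg b r)) (adX b (dg b r)) (row β' x))).ofLp a d =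
      ∑ β', -Complex.I * ((G.γ i β β' : ℝ) : ℂ) * (((r a - r d) i : ℝ) : ℂ) *
        ((wt r a d : ℝ) : ℂ)⁻¹ * hm b (row β' x).ofLp a d := by
    intro i
    rw [hm_sum, Matrix.sum_apply]
    refine Finset.sum_congr rfl fun β' _ => ?_
    rw [WithLp.ofLp_smul, Blk304.hm_smul, Matrix.smul_apply, hm_adX b hr, hm_li b hr, smul_eq_mul]
    ring
  simp only [h1]
  rw [Finset.sum_comm, ← Finset.sum_neg_distrib, Finset.mul_sum]
  refine Finset.sum_congr rfl fun β' _ => ?_
  rw [gv_apply, Finset.sum_mul, Finset.mul_sum, ← Finset.sum_neg_distrib]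
  refine Finset.sum_congr rfl fun i _ => ?_
  have h2 : ((un (r a - r d) i : ℝ) : ℂ) = ((wt r a d : ℝ) : ℂ)⁻¹ * (((r a - r d) i : ℝ) : ℂ) := by
    unfold wt un
    by_cases h : r a = r d
    · rw [h, sub_self]
      simp
    · rw [if_neg h, PiLp.smul_apply, smul_eq_mul]
      push_cast
      ring
  rw [h2]
  change _ = Complex.I * (((wt r a d : ℝ) : ℂ)⁻¹ * (((r a - r d) i : ℝ) : ℂ) *
    ((G.γ i β β' : ℝ) : ℂ) * hm b (row β' x).ofLp a d)
  ring

/-! ### the vacuum -/

theorem cr_eq_crp (M : FermionRep N F) : cr M = crp M := rfl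

theorem mem_vacJ_Jc (M : FermionRep N F) (hr : ∑ a, r a = 0) (f : F) :
    f ∈ (cr M).vacJ (Jc b G (kc (actB b) (dg b r)) (dg b r)) ↔ PVac (thC M) (Jop b G r) f := by
  rw [Jc_eq_JR b G hr, cr_eq_crp]
  exact mem_vac_op b G

/-- **The kernel condition at the diagonal configuration is 255's partial vacuum.** -/
theorem kill_iff_PVac (M : FermionRep N F) (hr : ∑ a, r a = 0) (f : F) :
    (∀ z ∈ Tup (kc (actB b) (dg b r))ᗮ, ∀ α,
      Complex.I • Theta M G α (AXc b (kc (actB b) (dg b r)) (dg b r) z) f +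
        wB b M G 1 α (dg b r) z f = 0) ↔ PVac (thC M) (Jop b G r) f := by
  rw [kill_iff_Jc M (fun i j => comm_dg b hr i j) rfl, mem_vacJ_Jc b G M hr]

section cfX

variable (P : Parts879.Lam N)

/-- the positions of the indices -/
def rp (X : Geo692.XS P) (a : Fin N) : E9 := Geo692.pos b P X (P.cl a)

theorem sum_rp (X : Geo692.XS P) : ∑ a, rp b P X a = 0 := Geo692.sum_pos b P X

theorem cfX_eq (X : Geo692.XS P) : Geo692.cfX b P X = dg b (rp b P X) := Geo692.cfX_eq_dg b P X

theorem rp_eq_iff {X : Geo692.XS P} (hX : X ∈ Geo692.Reg b P) (a d : Fin N) :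
    rp b P X a = rp b P X d ↔ P.cl a = P.cl d :=
  ⟨fun h => hX h, fun h => by rw [rp, rp, h]⟩

theorem contDiff_rp (a : Fin N) {n : WithTop ℕ∞} : ContDiff ℝ n fun X => rp b P X a := by
  have h : (fun X => rp b P X a) = (LinearMap.toContinuousLinearMap
      ({ toFun := fun X => Geo692.pos b P X (P.cl a)
         map_add' := fun X Y => Geo692.pos_add b P X Y _
         map_smul' := fun t X => Geo692.pos_smul b P t X _ } : Geo692.XS P →ₗ[ℝ] E9)) := rfl
  rw [h]
  exact ContinuousLinearMap.contDiff _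

theorem UU_rp {X : Geo692.XS P} (hX : X ∈ Geo692.UU b P) : VacSec255.UU (rp b P X) := by
  intro a d had h
  have hcl : P.cl a ≠ P.cl d := fun h' => had (by rw [rp, rp, h'])
  obtain ⟨j, hj, hne⟩ := hX _ _ hcl
  refine hne ?_
  have h1 := congrArg (fun v : E9 => v j) h
  simp only [bp_apply, PiLp.zero_apply] at h1
  rw [if_neg (by omega)] at h1
  exact sub_eq_zero.1 h1

theorem Jc_cfX {X : Geo692.XS P} (hX : X ∈ Geo692.Reg b P) :
    Jc b G (Geo692.kk b P) (Geo692.cfX b P X) = JR b G (rp b P X) := by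
  rw [← Geo692.kc_cfX b P hX, cfX_eq]
  exact Jc_eq_JR b G (sum_rp b P X)

theorem mem_vacJ_cfX (M : FermionRep N F) {X : Geo692.XS P} (hX : X ∈ Geo692.Reg b P) (f : F) :
    f ∈ (cr M).vacJ (Jc b G (Geo692.kk b P) (Geo692.cfX b P X)) ↔
      PVac (thC M) (Jop b G (rp b P X)) f := by
  rw [Jc_cfX b G P hX, cr_eq_crp]
  exact mem_vac_op b G

/-- **The kernel condition at a regular position is 255's partial vacuum.** -/
theorem kill_cfX (M : FermionRep N F) {X : Geo692.XS P} (hX : X ∈ Geo692.Reg b P) (f : F) :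
    (∀ z ∈ Tup (Geo692.kk b P)ᗮ, ∀ α,
      Complex.I • Theta M G α (AXc b (Geo692.kk b P) (Geo692.cfX b P X) z) f +
        wB b M G 1 α (Geo692.cfX b P X) z f = 0) ↔ PVac (thC M) (Jop b G (rp b P X)) f := by
  rw [kill_iff_Jc M (Geo692.comc_cfX b P X) (Geo692.kc_cfX b P hX), mem_vacJ_cfX b G P M hX]

/-- the projection of the vacuum of the configuration in 255's frame -/
theorem Wop_proj_cfX (M : FermionRep N F) {X : Geo692.XS P} (hX : X ∈ Geo692.UU b P) (f : F) :
    Wop b G M (rp b P X) ((cr M).proj (JR0 b G (rp b P X)) f) =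
      (cr M).proj (Jc b G (Geo692.kk b P) (Geo692.cfX b P X)) (Wop b G M (rp b P X) f) := by
  rw [Jc_cfX b G P (Geo692.UU_subset_Reg b P hX), cr_eq_crp]
  exact Wop_proj b G (UU_rp b P hX) f

end cfX

end Crest.Agent.R330.JBr942

end
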