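import Crest.Agent.R330.Alg2_962
import Crest.Agent.R330.RhoB_406

/-! Row 330: the gauge generators `Jg` vanish on equivariant functions; hence
`{Q_α, Q_β} = 2 δ_αβ Ham0` on the core at `m = 0`. -/

set_option autoImplicit false
set_option linter.unusedSectionVars false

open Matrix Finset
open Crest.MathPhysics.MatrixQM
open Crest.Agent.R330.IBP837 Crest.Agent.R330.Gam962 Crest.Agent.R330.Col962
open Crest.Agent.R330.Defs478 Crest.Agent.R330.Alg962 Crest.Agent.R330.Alg2962
open Crest.Agent.R330.Lift406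
open scoped ContDiff InnerProductSpace

noncomputable section

namespace Crest.Agent.R330.JgZero962

variable {N : ℕ} {F : Type*} [NormedAddCommGroup F] [InnerProductSpace ℂ F]
  [FiniteDimensional ℂ F]

theorem two_le_inf : (2 : WithTop ℕ∞) ≤ ((⊤ : ℕ∞) : WithTop ℕ∞) :=
  WithTop.coe_le_coe.2 (le_top : (2 : ℕ∞) ≤ ⊤)

theorem gvec_eq_brC (b : ColorBasis N) (E : Fin (N ^ 2 - 1)) (x : Cfg N) :
    gvec b E x = - brC b (Pi.single E 1) x := by
  ext ⟨i, A⟩
  show ∑ B, b.structConst A B E * x (i, B) = - (adL b (Pi.single E 1) (fun B => x (i, B)) A)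
  have h : adL b (Pi.single E 1) (fun B => x (i, B)) A
      = ∑ B, b.structConst E B A * x (i, B) := by
    rw [adL_apply]
    have h1 : ∀ D B : Fin (N ^ 2 - 1), b.structConst D B A * (Pi.single E 1 :
        Fin (N ^ 2 - 1) → ℝ) D * x (i, B)
        = if D = E then b.structConst E B A * x (i, B) else 0 := by
      intro D B
      by_cases hD : D = E
      · subst hD; simp
      · simp [Pi.single_eq_of_ne hD, hD]
    simp only [h1]
    rw [Finset.sum_comm]
    simp only [Finset.sum_ite_eq', Finset.mem_univ, if_true]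
  rw [h, ← Finset.sum_neg_distrib]
  refine Finset.sum_congr rfl fun B _ => ?_
  rw [f_swap13 b A B E]
  ring

theorem bop_eq_ThE (b : ColorBasis N) (M : FermionRep N F) (E : Fin (N ^ 2 - 1)) (v : F) :
    Bop b M (Pi.single E 1) v = (1 / 2 : ℂ) • ∑ c, ThE b M E c c v := by
  unfold Bop spin ThE
  rw [_root_.smul_apply]
  congr 1
  simp only [_root_.sum_apply, _root_.smul_apply, mulA, th_apply]
  rw [Fintype.sum_prod_type]
  refine Finset.sum_congr rfl fun c _ => Finset.sum_congr rfl fun A _ => ?_
  rw [Fintype.sum_prod_type, Finset.sum_eq_single c]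
  · refine Finset.sum_congr rfl fun B _ => ?_
    have h : gm b (Pi.single E 1) (c, A) (c, B) = b.structConst B A E := by
      simp only [gm, if_true]
      rw [Finset.sum_eq_single E]
      · rw [Pi.single_eq_same, mul_one, f_cyc b E B A]
      · intro D _ hD
        simp [Pi.single_eq_of_ne hD]
      · simp
    rw [h]
  · intro d _ hd
    refine Finset.sum_eq_zero fun B _ => ?_
    have h : gm b (Pi.single E 1) (c, A) (d, B) = 0 := by
      simp only [gm]
      rw [if_neg (Ne.symm hd)]
    rw [h]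
    simp
  · simp

/-- The gauge generators vanish on equivariant functions. -/
theorem Jg_eq_zero [Nontrivial F] {b : ColorBasis N} {M : FermionRep N F}
    (R : GaugeAction b M) {φ : Cfg N → F} (hφ : ∀ g x, φ (b.act g x) = R.ρ g (φ x))
    (x : Cfg N) (hd : DifferentiableAt ℝ φ x) (E : Fin (N ^ 2 - 1)) : Jg b M E φ x = 0 := by
  unfold Jg
  rw [← bop_eq_ThE, gvec_eq_brC, map_neg, fderiv_equivariant R φ hφ (Pi.single E 1) x hd,
    neg_add_cancel, smul_zero]

theorem Jg_core [Nontrivial F] {b : ColorBasis N} {M : FermionRep N F}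
    (R : GaugeAction b M) {φ : Cfg N → F} (hφ : IsCoreVec b R φ) (x : Cfg N)
    (E : Fin (N ^ 2 - 1)) : Jg b M E φ x = 0 :=
  Jg_eq_zero R hφ.2.2 x (hφ.1.differentiable (by simp) x) E

/-- **The supersymmetry algebra on the core at `m = 0`.** -/
theorem dcharge_anti_core [Nontrivial F] {b : ColorBasis N} {M : FermionRep N F}
    (R : GaugeAction b M) (G : GammaNine) (g : ℝ) (α β : Fin 16) {φ : Cfg N → F}
    (hφ : IsCoreVec b R φ) (x : Cfg N) :
    dcharge b M G g 0 α (dcharge b M G g 0 β φ) x
        + dcharge b M G g 0 β (dcharge b M G g 0 α φ) x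
      = if α = β then (2 : ℂ) • Ham0 b M G g φ x else 0 :=
  dcharge_anti_zero_of_gauge b M G g α β (hφ.1.of_le two_le_inf) x (Jg_core R hφ x)

/-- `Q_α² = H` on the core at `m = 0`, for every `α`. -/
theorem dcharge_sq_core [Nontrivial F] {b : ColorBasis N} {M : FermionRep N F}
    (R : GaugeAction b M) (G : GammaNine) (g : ℝ) (α : Fin 16) {φ : Cfg N → F}
    (hφ : IsCoreVec b R φ) (x : Cfg N) :
    dcharge b M G g 0 α (dcharge b M G g 0 α φ) x = Ham0 b M G g φ x := by
  rw [dcharge_sq_zero b M G g α (hφ.1.of_le two_le_inf) x]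
  simp only [Jg_core R hφ x, smul_zero, Finset.sum_const_zero, add_zero]

end Crest.Agent.R330.JgZero962
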