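import Crest.Agent.R330.NeutU_45
import Crest.Agent.R330.Om0_331
import Crest.Agent.R330.Gam_962
import Crest.Agent.R330.Col_962
import Crest.Agent.R330.Defs_478

/-!
# Neutrality of a fuzzy vacuum, literal form (row 330, section 5.3), helper45

On the pair index `Idx N = Fin 16 × Fin (N^2-1)`:

* `kr K L` = `K ⊗ L`, `adE b e` = the matrix of `ad e`, `adE_comm` : `R(h)` commutes with `ad e`
  if `R(h) e = e`.
* `neutral` : `S` symmetric, `S² = 1`, commuting with `Γ ⊗ 1`, `Γ' ⊗ 1` and `1 ⊗ R(h)`; every vacuum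
  of `Γ S` (`(θ(v) - iθ(Γ S v)) Ω = 0`) is fixed by `ρ h`, if every vacuum of `Γ ⊗ 1` is.
-/

set_option autoImplicit false
set_option linter.unusedSectionVars false

noncomputable section

open scoped InnerProductSpace BigOperators

namespace Crest.Agent.R330.NeutL45

open Crest.MathPhysics.MatrixQM Crest.Agent.R330 Crest.Agent.R330.Om0331 Crest.Agent.R330.Neut45
  Crest.Agent.R330.Defs478

/-! ### Triples of Clifford generators -/

section ring

variable {A : Type*} [Ring A] {a b c d e f : A}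

theorem triple_sq (ha : a * a = 1) (hb : b * b = 1) (hc : c * c = 1) (hab : a * b = -(b * a))
    (hac : a * c = -(c * a)) (hbc : b * c = -(c * b)) : a * b * c * (a * b * c) = -1 := by
  have h1 : c * a = -(a * c) := by rw [hac, neg_neg]
  have h2 : b * a = -(a * b) := by rw [hab, neg_neg]
  have h3 : c * b = -(b * c) := by rw [hbc, neg_neg]
  calc a * b * c * (a * b * c) = a * b * (c * a) * b * c := by noncomm_ring
    _ = -(a * (b * a) * c * b * c) := by rw [h1]; noncomm_ring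
    _ = a * a * b * (c * b) * c := by rw [h2]; noncomm_ring
    _ = -(a * a * (b * b) * (c * c)) := by rw [h3]; noncomm_ring
    _ = -1 := by rw [ha, hb, hc]; noncomm_ring

theorem triple_rev (hab : a * b = -(b * a)) (hac : a * c = -(c * a)) (hbc : b * c = -(c * b)) :
    c * b * a = -(a * b * c) := by
  have h1 : c * a = -(a * c) := by rw [hac, neg_neg]
  have h2 : b * a = -(a * b) := by rw [hab, neg_neg]
  have h3 : c * b = -(b * c) := by rw [hbc, neg_neg]
  calc c * b * a = -(b * (c * a)) := by rw [h3]; noncomm_ring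
    _ = b * a * c := by rw [h1]; noncomm_ring
    _ = -(a * b * c) := by rw [h2]; noncomm_ring

theorem triple_anti (had : a * d = -(d * a)) (hbd : b * d = -(d * b)) (hcd : c * d = -(d * c)) :
    a * b * c * d = -(d * (a * b * c)) := by
  calc a * b * c * d = a * b * (c * d) := by noncomm_ring
    _ = -(a * (b * d) * c) := by rw [hcd]; noncomm_ring
    _ = a * d * b * c := by rw [hbd]; noncomm_ring
    _ = -(d * (a * b * c)) := by rw [had]; noncomm_ring

theorem triple_triple {t : A} (hd : t * d = -(d * t)) (he : t * e = -(e * t))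
    (hf : t * f = -(f * t)) : t * (d * e * f) = -(d * e * f * t) := by
  calc t * (d * e * f) = t * d * e * f := by noncomm_ring
    _ = -(d * (t * e) * f) := by rw [hd]; noncomm_ring
    _ = d * e * (t * f) := by rw [he]; noncomm_ring
    _ = -(d * e * f * t) := by rw [hf]; noncomm_ring

end ring

section gam

variable (G : GammaNine)

/-- `Γ' = γ⁴ γ⁵ γ⁶`. -/
def Gamp (G : GammaNine) : Matrix (Fin 16) (Fin 16) ℝ := G.γ 3 * G.γ 4 * G.γ 5

theorem Gam_sq : Gam G * Gam G = -1 :=
  triple_sq (Gam962.sq_one G 0) (Gam962.sq_one G 1) (Gam962.sq_one G 2)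
    (Gam962.anti G (by decide)) (Gam962.anti G (by decide)) (Gam962.anti G (by decide))

theorem Gamp_sq : Gamp G * Gamp G = -1 :=
  triple_sq (Gam962.sq_one G 3) (Gam962.sq_one G 4) (Gam962.sq_one G 5)
    (Gam962.anti G (by decide)) (Gam962.anti G (by decide)) (Gam962.anti G (by decide))

theorem Gam_transpose : (Gam G).transpose = -Gam G := by
  unfold Gam
  rw [Matrix.transpose_mul, Matrix.transpose_mul, G.symm, G.symm, G.symm, ← Matrix.mul_assoc]
  exact triple_rev (Gam962.anti G (by decide)) (Gam962.anti G (by decide))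
    (Gam962.anti G (by decide))

theorem Gamp_transpose : (Gamp G).transpose = -Gamp G := by
  unfold Gamp
  rw [Matrix.transpose_mul, Matrix.transpose_mul, G.symm, G.symm, G.symm, ← Matrix.mul_assoc]
  exact triple_rev (Gam962.anti G (by decide)) (Gam962.anti G (by decide))
    (Gam962.anti G (by decide))

theorem Gam_Gamp : Gam G * Gamp G = -(Gamp G * Gam G) := by
  refine triple_triple ?_ ?_ ?_ <;>
    exact triple_anti (Gam962.anti G (by decide)) (Gam962.anti G (by decide))
      (Gam962.anti G (by decide))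

end gam

/-! ### Tensor products on the pair index -/

section kr

variable {N : ℕ}

/-- `K ⊗ L` on the pair index. -/
def kr (K : Matrix (Fin 16) (Fin 16) ℝ) (L : Matrix (Fin (N ^ 2 - 1)) (Fin (N ^ 2 - 1)) ℝ) :
    Matrix (Idx N) (Idx N) ℝ := fun p q => K p.1 q.1 * L p.2 q.2

theorem kr_mul (K K' : Matrix (Fin 16) (Fin 16) ℝ)
    (L L' : Matrix (Fin (N ^ 2 - 1)) (Fin (N ^ 2 - 1)) ℝ) :
    kr K L * kr K' L' = kr (K * K') (L * L') := by
  ext p q
  simp only [kr, Matrix.mul_apply, Fintype.sum_prod_type]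
  rw [Finset.sum_mul_sum]
  refine Finset.sum_congr rfl fun (x : Fin 16) _ =>
    Finset.sum_congr rfl fun (y : Fin (N ^ 2 - 1)) _ => ?_
  ring

theorem tens_eq_kr (K : Matrix (Fin 16) (Fin 16) ℝ) : tens N K = kr K 1 := by
  ext p q
  simp only [tens, kr, Matrix.one_apply, mul_ite, mul_one, mul_zero]

theorem adI_eq_kr (b : ColorBasis N) (h : Matrix.specialUnitaryGroup (Fin N) ℂ) :
    adI b h = kr 1 (Matrix.of (b.adjMat h)) := by
  ext p q
  simp only [adI, kr, Matrix.one_apply, Matrix.of_apply, ite_mul, one_mul, zero_mul]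

theorem kr_transpose (K : Matrix (Fin 16) (Fin 16) ℝ)
    (L : Matrix (Fin (N ^ 2 - 1)) (Fin (N ^ 2 - 1)) ℝ) :
    (kr K L).transpose = kr K.transpose L.transpose := rfl

theorem adI_orth (b : ColorBasis N) (h : Matrix.specialUnitaryGroup (Fin N) ℂ) :
    adI b h * (adI b h).transpose = 1 := by
  rw [adI_eq_kr, kr_transpose, kr_mul]
  have h1 : Matrix.of (b.adjMat h) * (Matrix.of (b.adjMat h)).transpose = 1 := by
    ext A B
    rw [Matrix.mul_apply, Matrix.one_apply]
    exact Col962.adjMat_orth' b h A B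
  rw [h1, Matrix.transpose_one, Matrix.one_mul]
  ext p q
  simp only [kr, Matrix.one_apply, Prod.ext_iff]
  split_ifs <;> simp_all

/-- The matrix of `ad e`: `(ad e v)_C = Σ_AB f_ABC e_A v_B`. -/
def adE (b : ColorBasis N) (e : Fin (N ^ 2 - 1) → ℝ) :
    Matrix (Fin (N ^ 2 - 1)) (Fin (N ^ 2 - 1)) ℝ :=
  fun C B => ∑ A, b.structConst A B C * e A

theorem adE_comm (b : ColorBasis N) {e : Fin (N ^ 2 - 1) → ℝ}
    {h : Matrix.specialUnitaryGroup (Fin N) ℂ} (he : ∀ C, ∑ A, b.adjMat h C A * e A = e C) :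
    Matrix.of (b.adjMat h) * adE b e = adE b e * Matrix.of (b.adjMat h) := by
  ext D B
  rw [Matrix.mul_apply, Matrix.mul_apply]
  simp only [Matrix.of_apply, adE]
  calc ∑ C, b.adjMat h D C * ∑ A, b.structConst A B C * e A
      = ∑ A, (∑ C, b.structConst A B C * b.adjMat h D C) * e A := by
        simp only [Finset.mul_sum, Finset.sum_mul]
        rw [Finset.sum_comm]
        refine Finset.sum_congr rfl fun x _ => Finset.sum_congr rfl fun y _ => ?_
        ring
    _ = ∑ A, (∑ A', ∑ B', b.adjMat h A' A * b.adjMat h B' B * b.structConst A' B' D) * e A := by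
        refine Finset.sum_congr rfl fun A _ => ?_
        rw [Col962.adjMat_struct]
    _ = ∑ B', ∑ A', b.structConst A' B' D * (∑ A, b.adjMat h A' A * e A) * b.adjMat h B' B := by
        simp only [Finset.mul_sum, Finset.sum_mul]
        calc ∑ A, ∑ A', ∑ B', b.adjMat h A' A * b.adjMat h B' B * b.structConst A' B' D * e A
            = ∑ A', ∑ A, ∑ B', b.adjMat h A' A * b.adjMat h B' B * b.structConst A' B' D * e A :=
              Finset.sum_comm
          _ = ∑ A', ∑ B', ∑ A, b.adjMat h A' A * b.adjMat h B' B * b.structConst A' B' D * e A :=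
              Finset.sum_congr rfl fun _ _ => Finset.sum_comm
          _ = ∑ B', ∑ A', ∑ A, b.adjMat h A' A * b.adjMat h B' B * b.structConst A' B' D * e A :=
              Finset.sum_comm
          _ = _ := by
              refine Finset.sum_congr rfl fun x _ => Finset.sum_congr rfl fun y _ =>
                Finset.sum_congr rfl fun z _ => ?_
              ring
    _ = ∑ B', (∑ A', b.structConst A' B' D * e A') * b.adjMat h B' B := by
        refine Finset.sum_congr rfl fun B' _ => ?_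
        rw [Finset.sum_mul]
        refine Finset.sum_congr rfl fun A' _ => ?_
        rw [he]

/-- `K ⊗ ad e` commutes with `1 ⊗ R(h)` if `R(h) e = e`. -/
theorem kr_adE_comm (b : ColorBasis N) {e : Fin (N ^ 2 - 1) → ℝ}
    {h : Matrix.specialUnitaryGroup (Fin N) ℂ} (he : ∀ C, ∑ A, b.adjMat h C A * e A = e C)
    (K : Matrix (Fin 16) (Fin 16) ℝ) : kr K (adE b e) * adI b h = adI b h * kr K (adE b e) := by
  rw [adI_eq_kr, kr_mul, kr_mul, Matrix.mul_one, Matrix.one_mul, adE_comm b he]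

end kr

section neutral

variable {N : ℕ} {F : Type*} [NormedAddCommGroup F] [InnerProductSpace ℂ F]
  [FiniteDimensional ℂ F] {b : ColorBasis N} {M : FermionRep N F} (R : GaugeAction b M)

/-- **Neutrality.** -/
theorem neutral (G : GammaNine) {S : Matrix (Idx N) (Idx N) ℝ} (hS : S.transpose = S)
    (hSS : S * S = 1) (hG : S * tens N (Gam G) = tens N (Gam G) * S)
    (hG' : S * tens N (Gamp G) = tens N (Gamp G) * S)
    {h : Matrix.specialUnitaryGroup (Fin N) ℂ} (hSh : S * adI b h = adI b h * S)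
    (hfix : ∀ Ω0, IsVac (tht M) (-tens N (Gam G)) Ω0 → R.ρ h Ω0 = Ω0) {Ω : F}
    (hΩ : IsVac (tht M) (-(tens N (Gam G) * S)) Ω) : R.ρ h Ω = Ω := by
  have hX : (tens N (Gamp G * Gam G)).transpose = -tens N (Gamp G * Gam G) := by
    rw [tens_transpose, ← tens_neg]
    congr 1
    rw [Matrix.transpose_mul, Gam_transpose, Gamp_transpose, neg_mul_neg, Gam_Gamp]
  have hXX : tens N (Gamp G * Gam G) * tens N (Gamp G * Gam G) = -1 := by
    rw [tens_mul, ← tens_one, ← tens_neg]
    congr 1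
    calc Gamp G * Gam G * (Gamp G * Gam G) = Gamp G * (Gam G * Gamp G) * Gam G := by
          noncomm_ring
      _ = -(Gamp G * Gamp G * (Gam G * Gam G)) := by rw [Gam_Gamp]; noncomm_ring
      _ = -1 := by rw [Gamp_sq, Gam_sq]; noncomm_ring
  have hSX : S * tens N (Gamp G * Gam G) = tens N (Gamp G * Gam G) * S := by
    rw [← tens_mul, ← Matrix.mul_assoc, hG', Matrix.mul_assoc, hG, ← Matrix.mul_assoc]
  set X := tens N (Gamp G * Gam G) with hXdef
  set P : Matrix (Idx N) (Idx N) ℝ := (1 / 2 : ℝ) • (1 - S) with hP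
  have h12 : (1 : Matrix (Idx N) (Idx N) ℝ) - 2 * P = S := by
    have h2 : (2 : Matrix (Idx N) (Idx N) ℝ) * P = 1 - S := by
      rw [two_mul, hP, ← add_smul]
      norm_num
    rw [h2]
    abel
  have hPP : P * P = P := by
    rw [hP, Matrix.smul_mul, Matrix.mul_smul, smul_smul]
    have : (1 - S) * (1 - S) = (2 : ℝ) • (1 - S) := by
      calc (1 - S) * (1 - S) = 1 - S - S + S * S := by noncomm_ring
        _ = (2 : ℝ) • (1 - S) := by rw [hSS, two_smul]; abel
    rw [this, smul_smul]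
    norm_num
  have hJ : -tens N (Gam G) * (1 - 2 * P) = -(tens N (Gam G) * S) := by
    rw [h12, neg_mul]
  rw [← hJ] at hΩ
  refine vac_fixed (X := X) (P := P) (R := adI b h) (cliff_tht M) hX hXX ?_ hPP ?_ ?_ ?_
    (adI_orth b h) (tens_comm_adI b _ h).symm ?_ (fun k x => rho_tht R h k x) hfix hΩ
  · rw [hP, Matrix.transpose_smul, Matrix.transpose_sub, Matrix.transpose_one, hS]
  · rw [hP, Matrix.mul_smul, Matrix.smul_mul, Matrix.mul_sub, Matrix.sub_mul, hSX,
      Matrix.mul_one, Matrix.one_mul]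
  · rw [hP, Matrix.mul_smul, Matrix.smul_mul, Matrix.mul_sub, Matrix.sub_mul, mul_neg S, hG,
      Matrix.neg_mul _ S, Matrix.mul_one, Matrix.one_mul]
  · rw [hXdef, mul_neg, neg_mul, neg_neg, tens_mul, tens_mul]
    have : Gam G * (Gamp G * Gam G) = -(Gamp G * Gam G * Gam G) := by
      rw [← Matrix.mul_assoc, Gam_Gamp, Matrix.neg_mul]
    rw [this, tens_neg]
  · rw [hP, Matrix.mul_smul, Matrix.smul_mul, Matrix.mul_sub, Matrix.sub_mul, hSh,
      Matrix.mul_one, Matrix.one_mul]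

/-- The vacuum condition `(θ(v) - iθ(I v)) Ω = 0` on the basis vectors. -/
theorem isVac_neg_iff (I : Matrix (Idx N) (Idx N) ℝ) (Ω : F) :
    IsVac (tht M) (-I) Ω ↔
      ∀ k, tht M k Ω = Complex.I • ∑ l, ((I l k : ℝ) : ℂ) • tht M l Ω := by
  unfold IsVac
  refine forall_congr' fun k => ?_
  have h : -Complex.I • ∑ l, (((-I) l k : ℝ) : ℂ) • tht M l Ω =
      Complex.I • ∑ l, ((I l k : ℝ) : ℂ) • tht M l Ω := by
    simp only [Matrix.neg_apply, Complex.ofReal_neg, neg_smul, Finset.sum_neg_distrib, smul_neg,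
      neg_neg]
  rw [h]

/-- **Neutrality, closed form** (characters of `SU(N)` trivial). -/
theorem neutral_char (hchar : ∀ (χ : Matrix.specialUnitaryGroup (Fin N) ℂ →* ℂ) g, χ g = 1)
    (G : GammaNine) {S : Matrix (Idx N) (Idx N) ℝ} (hS : S.transpose = S)
    (hSS : S * S = 1) (hG : S * tens N (Gam G) = tens N (Gam G) * S)
    (hG' : S * tens N (Gamp G) = tens N (Gamp G) * S)
    {h : Matrix.specialUnitaryGroup (Fin N) ℂ} (hSh : S * adI b h = adI b h * S) {Ω : F}
    (hΩ : ∀ k, tht M k Ω =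
      Complex.I • ∑ l, (((tens N (Gam G) * S) l k : ℝ) : ℂ) • tht M l Ω) : R.ρ h Ω = Ω := by
  refine neutral R G hS hSS hG hG' hSh (fun Ω0 h0 => ?_) ((isVac_neg_iff _ _).2 hΩ)
  refine rho_fix_of_char R hchar (J := -tens N (Gam G)) (fun g => ?_) h0 h
  rw [neg_mul, mul_neg, tens_comm_adI]

end neutral

/-! ### The operator `T = Σ_a Γγ^a ⊗ ad (3 x_a)` -/

section fT

variable {N : ℕ} (b : ColorBasis N) (G : GammaNine)

/-- `T = Σ_{a ≤ 3} Γγ^a ⊗ ad (3 x_a)`. -/
def fT (x : Cfg N) : Matrix (Idx N) (Idx N) ℝ :=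
  ∑ a : Fin 3, kr (Gam G * G.γ (Fin.castLE (by decide) a))
    (adE b (fun A => 3 * x (Fin.castLE (by decide) a, A)))

theorem Gam_gam (a : Fin 3) : Gam G * G.γ (Fin.castLE (by decide) a) =
    G.γ (Fin.castLE (by decide) a) * Gam G := by
  unfold Gam
  have h01 : G.γ 0 * G.γ 1 = -(G.γ 1 * G.γ 0) := Gam962.anti G (by decide)
  have h02 : G.γ 0 * G.γ 2 = -(G.γ 2 * G.γ 0) := Gam962.anti G (by decide)
  have h12 : G.γ 1 * G.γ 2 = -(G.γ 2 * G.γ 1) := Gam962.anti G (by decide)
  have h10 : G.γ 1 * G.γ 0 = -(G.γ 0 * G.γ 1) := Gam962.anti G (by decide)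
  have h20 : G.γ 2 * G.γ 0 = -(G.γ 0 * G.γ 2) := Gam962.anti G (by decide)
  have h21 : G.γ 2 * G.γ 1 = -(G.γ 1 * G.γ 2) := Gam962.anti G (by decide)
  have key : G.γ 0 * G.γ 1 * G.γ 2 * G.γ 0 = G.γ 0 * (G.γ 0 * G.γ 1 * G.γ 2) ∧
      G.γ 0 * G.γ 1 * G.γ 2 * G.γ 1 = G.γ 1 * (G.γ 0 * G.γ 1 * G.γ 2) ∧
      G.γ 0 * G.γ 1 * G.γ 2 * G.γ 2 = G.γ 2 * (G.γ 0 * G.γ 1 * G.γ 2) := by
    refine ⟨?_, ?_, ?_⟩
    · calc G.γ 0 * G.γ 1 * G.γ 2 * G.γ 0 = G.γ 0 * G.γ 1 * (G.γ 2 * G.γ 0) := by noncomm_ring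
        _ = -(G.γ 0 * (G.γ 1 * G.γ 0) * G.γ 2) := by rw [h20]; noncomm_ring
        _ = _ := by rw [h10]; noncomm_ring
    · calc G.γ 0 * G.γ 1 * G.γ 2 * G.γ 1 = G.γ 0 * G.γ 1 * (G.γ 2 * G.γ 1) := by noncomm_ring
        _ = -(G.γ 0 * G.γ 1 * (G.γ 1 * G.γ 2)) := by rw [h21, mul_neg]
        _ = G.γ 1 * G.γ 0 * (G.γ 1 * G.γ 2) := by rw [h01, neg_mul, neg_neg]
        _ = _ := by noncomm_ring
    · calc G.γ 0 * G.γ 1 * G.γ 2 * G.γ 2 = G.γ 0 * (G.γ 1 * G.γ 2) * G.γ 2 := by noncomm_ring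
        _ = -(G.γ 0 * G.γ 2 * G.γ 1 * G.γ 2) := by rw [h12]; noncomm_ring
        _ = _ := by rw [h02]; noncomm_ring
  fin_cases a
  · exact key.1
  · exact key.2.1
  · exact key.2.2

theorem Gamp_gam (a : Fin 3) : G.γ (Fin.castLE (by decide) a) * Gamp G =
    -(Gamp G * G.γ (Fin.castLE (by decide) a)) := by
  refine triple_triple ?_ ?_ ?_ <;> refine Gam962.anti G ?_ <;> fin_cases a <;> decide

theorem fT_Gam (x : Cfg N) : fT b G x * tens N (Gam G) = tens N (Gam G) * fT b G x := by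
  unfold fT
  rw [Finset.sum_mul, Finset.mul_sum]
  refine Finset.sum_congr rfl fun a _ => ?_
  rw [tens_eq_kr, kr_mul, kr_mul, Matrix.mul_one, Matrix.one_mul, Matrix.mul_assoc, ← Gam_gam]

theorem fT_Gamp (x : Cfg N) : fT b G x * tens N (Gamp G) = tens N (Gamp G) * fT b G x := by
  unfold fT
  rw [Finset.sum_mul, Finset.mul_sum]
  refine Finset.sum_congr rfl fun a _ => ?_
  rw [tens_eq_kr, kr_mul, kr_mul, Matrix.mul_one, Matrix.one_mul, Matrix.mul_assoc, Gamp_gam,
    Matrix.mul_neg, ← Matrix.mul_assoc, Gam_Gamp, Matrix.neg_mul, neg_neg, Matrix.mul_assoc]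

theorem adE_transpose (e : Fin (N ^ 2 - 1) → ℝ) : (adE b e).transpose = -adE b e := by
  ext B C
  simp only [Matrix.transpose_apply, Matrix.neg_apply, adE, ← Finset.sum_neg_distrib]
  refine Finset.sum_congr rfl fun A _ => ?_
  rw [Col962.f_swap23, neg_mul]

theorem fT_transpose (x : Cfg N) : (fT b G x).transpose = fT b G x := by
  unfold fT
  rw [Matrix.transpose_sum]
  refine Finset.sum_congr rfl fun a _ => ?_
  rw [kr_transpose, adE_transpose, Matrix.transpose_mul, G.symm, Gam_transpose, Matrix.mul_neg,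
    ← Gam_gam]
  ext p q
  simp only [kr, Matrix.neg_apply, neg_mul_neg]

theorem fT_adI {x : Cfg N} {h : Matrix.specialUnitaryGroup (Fin N) ℂ} (hx : b.act h x = x) :
    fT b G x * adI b h = adI b h * fT b G x := by
  unfold fT
  rw [Finset.sum_mul, Finset.mul_sum]
  refine Finset.sum_congr rfl fun a _ => ?_
  refine kr_adE_comm b (fun C => ?_) _
  have h1 : b.act h x (Fin.castLE (by decide) a, C) = x (Fin.castLE (by decide) a, C) := by
    rw [hx]
  rw [Col962.act_apply] at h1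
  calc ∑ A, b.adjMat h C A * (3 * x (Fin.castLE (by decide) a, A))
      = 3 * ∑ A, b.adjMat h C A * x (Fin.castLE (by decide) a, A) := by
        rw [Finset.mul_sum]
        exact Finset.sum_congr rfl fun A _ => by ring
    _ = 3 * x (Fin.castLE (by decide) a, C) := by rw [h1]

end fT

end Crest.Agent.R330.NeutL45

end
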