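import Crest.Agent.R330.KEq_823
import Crest.Agent.R330.Blk2_317
import Crest.Agent.R330.Real_311
import Crest.Agent.R330.NeutL_45

/-!
# Row 330, S9-KEQ, part 2 (helper823): block form and covariance of vacuum projections

Over 317's `Dec N k` (blocks), `c = cenCfg R`:

* `embCfg_mem_Uk`, `cenCfg_mem_Uk`; `blkU S y = cenCfg S + Σ_p embCfg p (y p) ∈ Uk b c`.
* `actU_blkU` : `actU (ι_p h) (blkU S y) = blkU S (update y p (h y_p))`.
* `w_block` : the block form of the equivariance.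
* `CM M` : the Clifford module of a `FermionRep`; `adV b h` the adjoint action on
  `R¹⁶ ⊗ colour`; `rho_th`, `rho_proj`, `rho_vacJ`, `stab_proj`.
-/

set_option autoImplicit false
set_option linter.unusedSectionVars false

open MeasureTheory Filter Topology Crest.MathPhysics.MatrixQM
open Crest.Agent.R330.IBP837 Crest.Agent.R330.Defs478 Crest.Agent.R330.Frame839
open Crest.Agent.R330.LS839 Crest.Agent.R330.Clus839 Crest.Agent.R330.Bind6839
open Crest.Agent.R330.Blk317 Crest.Agent.R330.SlA314 Crest.Agent.R330.SlB314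
open scoped ContDiff InnerProductSpace ENNReal

noncomputable section

namespace Crest.Agent.R330.KEqB823

open Crest.Agent.R330.KEq823

/-! ## Block coordinates -/

section block

variable {N : ℕ} {ι : Type*} [Fintype ι] [DecidableEq ι] {k : ι → ℕ} (D : Dec N k)
  (b : ColorBasis N) (bp : ∀ p, ColorBasis (k p))

theorem mem_Uk_of_commute {c x : Cfg N}
    (h : ∀ i j, SlA314.mat b x i * SlA314.mat b c j = SlA314.mat b c j * SlA314.mat b x i) :
    x ∈ Uk b c := by
  rw [Uk, mem_Tup]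
  intro i
  rw [mem_kc, actB_apply]
  apply SlA314.mat_inj b
  intro j
  have h0 : SlA314.mat b (0 : Cfg N) j = 0 := by
    have := SlA314.mat_smul b 0 (0 : Cfg N) j
    simpa using this
  rw [mat_brx, h0]
  have h1 : SlA314.cm b (Bind6839.comp x i).ofLp = SlA314.mat b x i := rfl
  rw [h1, h i j, sub_self, smul_zero]

variable {R : Fin 9 → ι → ℝ} (hR : ∀ i, ∑ p, (k p : ℝ) * R i p = 0)
include hR

theorem embCfg_mem_Uk (p : ι) (y : Cfg (k p)) : D.embCfg b bp p y ∈ Uk b (D.cenCfg b R) := by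
  refine mem_Uk_of_commute b fun i j => ?_
  rw [D.mat_embCfg, D.mat_cenCfg b hR, D.embM_mul_cenM, D.cenM_mul_embM]

theorem cenCfg_mem_Uk {S : Fin 9 → ι → ℝ} (hS : ∀ i, ∑ p, (k p : ℝ) * S i p = 0) :
    D.cenCfg b S ∈ Uk b (D.cenCfg b R) := by
  refine mem_Uk_of_commute b fun i j => ?_
  rw [D.mat_cenCfg b hS, D.mat_cenCfg b hR, D.cenM_mul_cenM, D.cenM_mul_cenM]
  congr 1
  funext p
  ring

/-- block coordinates `(S, y) ↦ cenCfg S + Σ_p embCfg p (y p)` -/
def blkU {S : Fin 9 → ι → ℝ} (hS : ∀ i, ∑ p, (k p : ℝ) * S i p = 0) (y : ∀ p, Cfg (k p)) :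
    Uk b (D.cenCfg b R) :=
  ⟨D.cenCfg b S + ∑ p, D.embCfg b bp p (y p),
    Submodule.add_mem _ (cenCfg_mem_Uk D b hR hS)
      (Submodule.sum_mem _ fun p _ => embCfg_mem_Uk D b bp hR p (y p))⟩

theorem coe_blkU {S : Fin 9 → ι → ℝ} (hS : ∀ i, ∑ p, (k p : ℝ) * S i p = 0)
    (y : ∀ p, Cfg (k p)) : (blkU D b bp hR hS y : Cfg N) =
      D.cenCfg b S + ∑ p, D.embCfg b bp p (y p) := rfl

/-- a block gauge element acts in its own slot -/
theorem act_sum_embCfg (p : ι) (h : Matrix.specialUnitaryGroup (Fin (k p)) ℂ)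
    (y : ∀ p, Cfg (k p)) : b.act (D.iota p h) (∑ q, D.embCfg b bp q (y q)) =
      ∑ q, D.embCfg b bp q (Function.update y p ((bp p).act h (y p)) q) := by
  have h1 : b.act (D.iota p h) (∑ q, D.embCfg b bp q (y q)) =
      ∑ q, b.act (D.iota p h) (D.embCfg b bp q (y q)) :=
    map_sum (Cov837.actL b (D.iota p h)) _ _
  rw [h1]
  refine Finset.sum_congr rfl fun q _ => ?_
  by_cases hq : q = p
  · subst hq
    rw [Function.update_self, D.act_embCfg]
  · rw [Function.update_of_ne hq, D.act_embCfg_ne b bp (Ne.symm hq)]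

/-- **the block gauge group in block coordinates** -/
theorem actU_blkU (p : ι) (h : Matrix.specialUnitaryGroup (Fin (k p)) ℂ)
    (hc : b.act (D.iota p h) (D.cenCfg b R) = D.cenCfg b R)
    {S : Fin 9 → ι → ℝ} (hS : ∀ i, ∑ p, (k p : ℝ) * S i p = 0) (y : ∀ p, Cfg (k p)) :
    actU hc (blkU D b bp hR hS y) =
      blkU D b bp hR hS (Function.update y p ((bp p).act h (y p))) := by
  apply Subtype.ext
  rw [coe_actU, coe_blkU, coe_blkU, Cov837.act_add, D.act_cenCfg b hS,
    act_sum_embCfg D b bp hR p h y]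

/-- **block form of the equivariance** -/
theorem w_block {F : Type*} [NormedAddCommGroup F] [InnerProductSpace ℂ F]
    [FiniteDimensional ℂ F] {M : FermionRep N F} (Rg : GaugeAction b M)
    {w : Uk b (D.cenCfg b R) → F}
    (hw : ∀ g (hc : b.act g (D.cenCfg b R) = D.cenCfg b R) u, w (actU hc u) = Rg.ρ g (w u))
    (p : ι) (h : Matrix.specialUnitaryGroup (Fin (k p)) ℂ)
    {S : Fin 9 → ι → ℝ} (hS : ∀ i, ∑ p, (k p : ℝ) * S i p = 0) (y : ∀ p, Cfg (k p)) :
    w (blkU D b bp hR hS (Function.update y p ((bp p).act h (y p)))) =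
      Rg.ρ (D.iota p h) (w (blkU D b bp hR hS y)) := by
  rw [← actU_blkU D b bp hR p h (D.act_cenCfg b hR p h) hS y]
  exact hw _ _ _

end block

/-! ## Covariance of the vacuum projection -/

section proj

open Crest.Agent.R330.Om0331 Crest.Agent.R330.Cliff442

variable {N : ℕ} {F : Type*} [NormedAddCommGroup F] [InnerProductSpace ℂ F]

theorem tht_comm (M : FermionRep N F) (j k : Idx N) : tht M j ∘ₗ tht M k + tht M k ∘ₗ tht M j =
    if j = k then (LinearMap.id : F →ₗ[ℂ] F) else 0 := by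
  have h := M.anticomm j.1 j.2 k.1 k.2
  rw [tht, tht, h]
  by_cases hjk : j = k
  · rw [if_pos hjk, if_pos ⟨by rw [hjk], by rw [hjk]⟩]
  · rw [if_neg hjk, if_neg fun h => hjk (Prod.ext h.1 h.2)]

/-- the Clifford module on `R¹⁶ ⊗ colour` -/
def CM (M : FermionRep N F) : CRep (EuclideanSpace ℝ (Idx N)) F :=
  CRep.of (tht M) (fun k => M.selfAdjoint k.1 k.2) (tht_comm M)

theorem CM_θ (M : FermionRep N F) (x : EuclideanSpace ℝ (Idx N)) :
    (CM M).θ x = ∑ k, ((x k : ℝ) : ℂ) • tht M k := rfl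

variable (b : ColorBasis N) (h : Matrix.specialUnitaryGroup (Fin N) ℂ)

/-- `1 ⊗ Ad(h)`, as a function -/
def adVf (x : EuclideanSpace ℝ (Idx N)) : EuclideanSpace ℝ (Idx N) :=
  WithLp.toLp 2 fun p => ∑ B, b.adjMat h p.2 B * x (p.1, B)

theorem adVf_apply (x : EuclideanSpace ℝ (Idx N)) (p : Idx N) :
    adVf b h x p = ∑ B, b.adjMat h p.2 B * x (p.1, B) := rfl

theorem adVf_inv (x : EuclideanSpace ℝ (Idx N)) : adVf b h⁻¹ (adVf b h x) = x := by
  ext p
  rw [adVf_apply]
  simp only [adVf_apply, Finset.mul_sum]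
  rw [Finset.sum_comm]
  have h1 : ∀ B, ∑ C, b.adjMat h⁻¹ p.2 C * (b.adjMat h C B * x (p.1, B)) =
      (if p.2 = B then 1 else 0) * x (p.1, B) := by
    intro B
    have h2 := Cov837.adj_mul b h⁻¹ h p.2 B
    rw [inv_mul_cancel, Cov837.adj_one] at h2
    rw [h2, Finset.sum_mul]
    exact Finset.sum_congr rfl fun C _ => by ring
  simp only [h1]
  simp

theorem norm_adVf (x : EuclideanSpace ℝ (Idx N)) : ‖adVf b h x‖ = ‖x‖ := by
  rw [EuclideanSpace.norm_eq, EuclideanSpace.norm_eq]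
  congr 1
  rw [Fintype.sum_prod_type, Fintype.sum_prod_type]
  refine Finset.sum_congr rfl fun α _ => ?_
  have h1 := norm_adf b h (WithLp.toLp 2 fun A => x (α, A))
  have h2 : ‖adf b h (WithLp.toLp 2 fun A => x (α, A))‖ ^ 2 =
      ‖(WithLp.toLp 2 fun A => x (α, A) : Colg N)‖ ^ 2 := by rw [h1]
  rw [EuclideanSpace.norm_sq_eq, EuclideanSpace.norm_sq_eq] at h2
  exact h2

/-- **`1 ⊗ Ad(h)`** on `R¹⁶ ⊗ colour` -/
def adV : EuclideanSpace ℝ (Idx N) ≃ₗᵢ[ℝ] EuclideanSpace ℝ (Idx N) where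
  toFun := adVf b h
  invFun := adVf b h⁻¹
  left_inv := adVf_inv b h
  right_inv x := by
    have := adVf_inv b h⁻¹ x
    rwa [inv_inv] at this
  map_add' x y := by
    ext p
    simp [adVf_apply, mul_add, Finset.sum_add_distrib]
  map_smul' r x := by
    ext p
    simp only [adVf_apply, PiLp.smul_apply, smul_eq_mul, Finset.mul_sum, RingHom.id_apply]
    exact Finset.sum_congr rfl fun B _ => by ring
  norm_map' := norm_adVf b h

theorem adV_apply (x : EuclideanSpace ℝ (Idx N)) (p : Idx N) :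
    adV b h x p = ∑ B, b.adjMat h p.2 B * x (p.1, B) := rfl

theorem adV_symm (x : EuclideanSpace ℝ (Idx N)) : (adV b h).symm x = adV b h⁻¹ x := rfl

variable [FiniteDimensional ℂ F] {b} {M : FermionRep N F} (R : GaugeAction b M)

/-- the gauge action is a spin lift of `1 ⊗ Ad(h)` -/
theorem rho_th (x : EuclideanSpace ℝ (Idx N)) (f : F) :
    R.ρ h ((CM M).θ x f) = (CM M).θ (adV b h x) (R.ρ h f) := by
  rw [CM_θ, CM_θ, LinearMap.sum_apply, LinearMap.sum_apply, map_sum]
  simp only [LinearMap.smul_apply, map_smul, rho_tht, Finset.smul_sum, smul_smul]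
  rw [Finset.sum_comm]
  refine Finset.sum_congr rfl fun p _ => ?_
  rw [← Finset.sum_smul]
  congr 1
  rw [adV_apply, Fintype.sum_prod_type, Finset.sum_eq_single p.1]
  · push_cast
    refine Finset.sum_congr rfl fun B _ => ?_
    simp only [adI, if_true]
    ring
  · intro α _ hα
    refine Finset.sum_eq_zero fun B _ => ?_
    simp only [adI, if_neg (Ne.symm hα), Complex.ofReal_zero, mul_zero]
  · intro hn
    exact absurd (Finset.mem_univ _) hn

/-- **covariance of the vacuum projection** -/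
theorem rho_proj {J : EuclideanSpace ℝ (Idx N) →ₗ[ℝ] EuclideanSpace ℝ (Idx N)} (hJ : Skew J)
    (f : F) : R.ρ h ((CM M).proj J f) = (CM M).proj (CRep.conjJ (adV b h) J) (R.ρ h f) :=
  CRep.proj_cov (CM M) (CM M) hJ (adV b h) (R.ρ h) (fun f g => map_add _ f g)
    (fun r f => map_smul _ _ f) (fun x f => rho_th h R x f) _
    (Or.inl ⟨rfl, fun f => map_smul _ _ f⟩) f

/-- covariance of the vacuum space -/
theorem rho_vacJ {J : EuclideanSpace ℝ (Idx N) →ₗ[ℝ] EuclideanSpace ℝ (Idx N)} {f : F}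
    (hf : f ∈ (CM M).vacJ J) : R.ρ h f ∈ (CM M).vacJ (CRep.conjJ (adV b h) J) := by
  rw [CRep.mem_vacJ] at hf ⊢
  intro x
  have h1 := congrArg (R.ρ h) (hf ((adV b h).symm x))
  rw [map_smul, rho_th, rho_th] at h1
  rw [CRep.conjJ_apply, CRep.conjJ_apply, (adV b h).symm_apply_apply]
  exact h1

/-- an element of the stabiliser commutes with the vacuum projections of an equivariant family of
complex structures: hypothesis `hpe` of `w_equiv` -/
theorem stab_proj {c : Cfg N} (hc : b.act h c = c)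
    {J : Uk b c → EuclideanSpace ℝ (Idx N) →ₗ[ℝ] EuclideanSpace ℝ (Idx N)}
    (hJ : ∀ u, Skew (J u)) (hJe : ∀ u, J (actU hc u) = CRep.conjJ (adV b h) (J u)) (u : Uk b c)
    (v : F) : (CM M).proj (J (actU hc u)) (R.ρ h v) = R.ρ h ((CM M).proj (J u) v) := by
  rw [rho_proj h R (hJ u), hJe]

end proj

end Crest.Agent.R330.KEqB823

end
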