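import Crest.Agent.R330.LitC_974
import Crest.Agent.R330.TGC_372

/-!
# Row 330, S8-ISO (L1) (helper974): `L²` bound of the trial states in the block state

* `norm_tauG_sq_le` : size of `tauG`;
* `lint_tauG` : `∫ ‖tauG‖² ≤ K B` on the slice, uniformly in `g > 0` and in the block state `Φ`
  with `∫ ‖Φ Y f‖² ≤ B ‖f‖²`;
* **`l2_TG`** : `∫ ‖TG P σ g Φ χ‖² ≤ K B`;
* `isBlk_sub`, `TG_sub`, `isBlk_add`, `isBlk_smul`.
-/

set_option autoImplicit false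
set_option linter.unusedSectionVars false

open MeasureTheory Filter Topology Crest.MathPhysics.MatrixQM
open scoped ContDiff InnerProductSpace ENNReal

noncomputable section

namespace Crest.Agent.R330.L2TG974

open Crest.Agent.R330.Defs478 Crest.Agent.R330.LS839 Crest.Agent.R330.Frame839
  Crest.Agent.R330.Bind6839 Crest.Agent.R330.TDef414 Crest.Agent.R330.Split149
  Crest.Agent.R330.LitA974 Crest.Agent.R330.LitB974 Crest.Agent.R330.ConcB974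
  Crest.Agent.R330.TG372
open Crest.Agent.R330.SlB314 (Nor Tan)
open Crest.Agent.R330.SlD314 (tube)

variable {N p : ℕ} {b : ColorBasis N} {S : Type} [Group S] [Fintype S] {C : Chn b p S}
variable {F : Type*} [NormedAddCommGroup F] [InnerProductSpace ℂ F] [FiniteDimensional ℂ F]
variable {M : FermionRep N F} {R : GaugeAction b M} {G : GammaNine}

theorem tauG_zero (P : TPack C M R G) (σ : Sl C) (g : ℝ) (Φ : Cfg N → F →L[ℂ] F)
    {χ : Pos p → C.Fx M G} {u : Cfg N}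
    (h : χ (σ.X0 + C.cfT u) = 0) : tauG P σ g Φ χ u = 0 := by
  unfold tauG
  rw [h, ZeroMemClass.coe_zero, map_zero, map_zero, smul_zero]

theorem norm_tauG_sq (P : TPack C M R G) (σ : Sl C) (g : ℝ) {Φ : Cfg N → F →L[ℂ] F} {ρ : ℝ}
    (H : IsBlk P Φ ρ) (χ : Pos p → C.Fx M G) (u : Cfg N)
    (hX : C.BReg (σ.X0 + C.cfT u)) : ‖tauG P σ g Φ χ u‖ ^ 2 =
      nrm P σ g (σ.X0 + C.cfT u) ^ 2 * kap σ.r (‖C.PM u‖ ^ 2) ^ 2 *
      Real.exp (-(g * ⟪P.A (σ.X0 + C.cfT u) (C.PM u), C.PM u⟫_ℝ)) *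
      ‖Φ (C.PY u) (χ (σ.X0 + C.cfT u) : F)‖ ^ 2 := by
  unfold tauG
  rw [norm_smul, Complex.norm_real, Real.norm_eq_abs, mul_pow, sq_abs,
    norm_U hX (H.mem _ (PY_mem C u) _ (χ (σ.X0 + C.cfT u)).2), mul_pow, mul_pow]
  congr 2
  rw [← Real.exp_nat_mul]
  congr 1
  push_cast
  ring

/-- **Size of `tauG`** with constants. -/
theorem norm_tauG_sq_le (P : TPack C M R G) (σ : Sl C) {a a' j0 j1 g : ℝ} (ha : 0 < a)
    (ha' : 0 < a') (hg : 0 < g)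
    (hA : ∀ X, ‖X - σ.X0‖ ≤ σ.r / 4 → ∀ z ∈ C.Zt σ.X0, a * ‖z‖ ^ 2 ≤ ⟪P.A X z, z⟫_ℝ ∧
      ⟪P.A X z, z⟫_ℝ ≤ a' * ‖z‖ ^ 2)
    (hj : ∀ y ∈ Nor b (C.cf σ.X0), ‖y‖ ≤ σ.r / 2 → j0 ≤ σ.j y ∧ σ.j y ≤ j1)
    {Φ : Cfg N → F →L[ℂ] F} {ρ : ℝ} (H : IsBlk P Φ ρ) (χ : Amp M G σ)
    {u : Cfg N} (hu : u ∈ Nor b (C.cf σ.X0)) : ‖tauG P σ g Φ χ.fn u‖ ^ 2 ≤
      (j1 / ((Real.sqrt g ^ Module.finrank ℝ (C.Zt σ.X0))⁻¹ * gm (C.Zt σ.X0) 0 a')) *
      (Real.exp (-(g * a) * ‖C.PM u‖ ^ 2) * ‖Φ (C.PY u) (χ.fn (σ.X0 + C.cfT u) : F)‖ ^ 2) := by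
  have hL : 0 < (Real.sqrt g ^ Module.finrank ℝ (C.Zt σ.X0))⁻¹ * gm (C.Zt σ.X0) 0 a' := by
    have := gm_zero_pos (Z := C.Zt σ.X0) ha'
    have hs : 0 < Real.sqrt g := Real.sqrt_pos.2 hg
    positivity
  have hj1 : 0 ≤ j1 := by
    have h0 := σ.jpos 0 (Nor b (C.cf σ.X0)).zero_mem (by rw [norm_zero]; exact σ.pos)
    have h1 := (hj 0 (Nor b (C.cf σ.X0)).zero_mem (by rw [norm_zero]; linarith [σ.pos])).2
    linarith
  by_cases h0 : χ.fn (σ.X0 + C.cfT u) = 0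
  · rw [tauG_zero P σ g Φ h0, norm_zero, zero_pow two_ne_zero]
    have := gm_zero_pos (Z := C.Zt σ.X0) ha'
    positivity
  · have hts : σ.X0 + C.cfT u ∈ tsupport χ.fn := subset_tsupport _ h0
    have hball := χ.supp hts
    rw [mem_ball_iff_norm, add_sub_cancel_left] at hball
    have hX : ‖σ.X0 + C.cfT u - σ.X0‖ ≤ σ.r / 4 := by
      rw [add_sub_cancel_left]
      exact hball.le
    have hB := χ.off _ hts
    have hz : C.PM u ∈ C.Zt σ.X0 := PM_mem_Zt C (reg0 σ) hu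
    have hcf : C.cf (C.cfT u) ∈ Nor b (C.cf σ.X0) := cf_mem_Nor C (reg0 σ) _
    have hn : ‖C.cf (C.cfT u)‖ ≤ σ.r / 2 := by
      rw [C.cf.norm_map]
      linarith [σ.pos]
    have hI := nI_ge P σ ha ha' hg (hA _ hX)
    have hnrm : nrm P σ g (σ.X0 + C.cfT u) ^ 2 ≤
        j1 / ((Real.sqrt g ^ Module.finrank ℝ (C.Zt σ.X0))⁻¹ * gm (C.Zt σ.X0) 0 a') := by
      unfold nrm
      have h2 := hj _ hcf hn
      have h3 : 0 < σ.j (C.cf (C.cfT u)) := σ.jpos _ hcf (by linarith [σ.pos])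
      rw [add_sub_cancel_left, Real.sq_sqrt (div_nonneg h3.le (hL.le.trans hI))]
      exact div_le_div₀ hj1 h2.2 hL hI
    rw [norm_tauG_sq P σ g H χ.fn u hB]
    have hk : kap σ.r (‖C.PM u‖ ^ 2) ^ 2 ≤ 1 :=
      pow_le_one₀ (kap_nonneg _ _) (kap_le_one _ _)
    have he : Real.exp (-(g * ⟪P.A (σ.X0 + C.cfT u) (C.PM u), C.PM u⟫_ℝ)) ≤
        Real.exp (-(g * a) * ‖C.PM u‖ ^ 2) := by
      refine Real.exp_le_exp.2 ?_
      have h1 := mul_le_mul_of_nonneg_left (hA _ hX _ hz).1 hg.le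
      linarith
    calc _ ≤ (j1 / ((Real.sqrt g ^ Module.finrank ℝ (C.Zt σ.X0))⁻¹ * gm (C.Zt σ.X0) 0 a')) * 1 *
          Real.exp (-(g * a) * ‖C.PM u‖ ^ 2) *
          ‖Φ (C.PY u) (χ.fn (σ.X0 + C.cfT u) : F)‖ ^ 2 := by gcongr
      _ = _ := by ring

/-- **`L²` bound on the slice.** -/
theorem lint_tauG (P : TPack C M R G) (σ : Sl C) (χ : Amp M G σ) :
    ∃ K : ℝ, 0 ≤ K ∧ ∀ g : ℝ, 0 < g → ∀ (Φ : Cfg N → F →L[ℂ] F) (ρ : ℝ), IsBlk P Φ ρ →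
      ∀ B : ℝ, 0 ≤ B → (∀ f : C.Fx M G, ∫⁻ Y : C.Blk, ‖Φ Y f‖ₑ ^ 2 ≤
        ENNReal.ofReal (B * ‖f‖ ^ 2)) → ∫⁻ u : Nor b (C.cf σ.X0),
        ENNReal.ofReal (‖tauG P σ g Φ χ.fn u‖ ^ 2) ≤ ENNReal.ofReal (K * B) := by
  obtain ⟨a, a', j0, j1, ha, ha', hj0, hj1, hA, hj⟩ := exists_bds P σ
  obtain ⟨B', hB⟩ : ∃ B' : ℝ, ∀ X, ‖χ.fn X‖ ≤ B' :=
    χ.compact.exists_bound_of_continuous χ.smooth.continuous
  have hB0 : 0 ≤ B' := (norm_nonneg _).trans (hB 0)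
  set V : ℝ≥0∞ := volume (Metric.closedBall (0 : Pos p) (σ.r / 4)) with hV
  have hVt : V ≠ (⊤ : ℝ≥0∞) := measure_closedBall_lt_top.ne
  have hg0 := gm_zero_pos (Z := C.Zt σ.X0) ha'
  have hg1 := gm_nonneg (Z := C.Zt σ.X0) 0 a
  refine ⟨(j1 / gm (C.Zt σ.X0) 0 a') * gm (C.Zt σ.X0) 0 a * B' ^ 2 * V.toReal, by positivity, ?_⟩
  intro g hg Φ ρ H Bψ hBψ hψ
  have hs : 0 < Real.sqrt g := Real.sqrt_pos.2 hg
  set D := Module.finrank ℝ (C.Zt σ.X0) with hD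
  set c : ℝ := j1 / ((Real.sqrt g ^ D)⁻¹ * gm (C.Zt σ.X0) 0 a') with hc
  have hc0 : 0 ≤ c := by positivity
  -- the majorant
  set f : Cfg N → ℝ≥0∞ := fun u => ENNReal.ofReal c *
    (ENNReal.ofReal (Real.exp (-(g * a) * ‖C.PM u‖ ^ 2)) *
      ENNReal.ofReal (‖Φ (C.PY u) (χ.fn (σ.X0 + C.cfT u) : F)‖ ^ 2)) with hf
  have hfm : Measurable f := by
    have h1 : Continuous fun u : Cfg N => ‖C.PM u‖ := (continuous_PM C).norm
    have h2 : Continuous fun u : Cfg N => Real.exp (-(g * a) * ‖C.PM u‖ ^ 2) :=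
      (continuous_const.mul (h1.pow 2)).rexp
    have h3 : Continuous fun u : Cfg N => (χ.fn (σ.X0 + C.cfT u) : F) :=
      continuous_subtype_val.comp (χ.smooth.continuous.comp
        (continuous_const.add C.cfT.continuous))
    have h4 : Continuous fun u : Cfg N =>
        ‖Φ (C.PY u) (χ.fn (σ.X0 + C.cfT u) : F)‖ ^ 2 :=
      (((H.smooth.continuous.comp (continuous_PY C)).clm_apply h3).norm).pow 2
    exact ((h2.measurable.ennreal_ofReal).mul (h4.measurable.ennreal_ofReal)).const_mul _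
  have h1 : ∫⁻ u : Nor b (C.cf σ.X0), ENNReal.ofReal (‖tauG P σ g Φ χ.fn u‖ ^ 2) ≤
      ∫⁻ u : Nor b (C.cf σ.X0), f u := by
    refine lintegral_mono fun u => ?_
    have h2 := norm_tauG_sq_le P σ ha ha' hg hA hj H χ u.2
    rw [hf]
    simp only
    rw [← ENNReal.ofReal_mul (by positivity), ← ENNReal.ofReal_mul hc0]
    exact ENNReal.ofReal_le_ofReal h2
  refine h1.trans ?_
  rw [lintegral_nor C (reg0 σ) hfm]
  -- the inner integrals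
  have hgm : ∫⁻ z : C.Zt σ.X0, ENNReal.ofReal (Real.exp (-(g * a) * ‖z‖ ^ 2)) =
      ENNReal.ofReal (gm (C.Zt σ.X0) 0 (g * a)) := by
    have := lint_gm (Z := C.Zt σ.X0) 0 (mul_pos hg ha)
    simpa only [Nat.mul_zero, pow_zero, one_mul] using this
  have h2 : ∀ X : Pos p, ∫⁻ Y : C.Blk, ∫⁻ z : C.Zt σ.X0, f (C.cf X + Y + z) =
      ENNReal.ofReal c * (ENNReal.ofReal (gm (C.Zt σ.X0) 0 (g * a)) *
        ∫⁻ Y : C.Blk, ‖Φ Y (χ.fn (σ.X0 + X) : F)‖ₑ ^ 2) := by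
    intro X
    have h3 : ∀ (Y : C.Blk) (z : C.Zt σ.X0), f (C.cf X + Y + z) = ENNReal.ofReal c *
        (ENNReal.ofReal (Real.exp (-(g * a) * ‖z‖ ^ 2)) *
          ‖Φ Y (χ.fn (σ.X0 + X) : F)‖ₑ ^ 2) := by
      intro Y z
      rw [hf]
      simp only
      rw [cfT_coord C Y.2 z.2.1, PY_coord C Y.2 z.2.1, PM_coord C Y.2 z.2.1,
        ENNReal.ofReal_pow (norm_nonneg (Φ Y (χ.fn (σ.X0 + X) : F))), ofReal_norm]
      rfl
    have h4 : ∀ Y : C.Blk, ∫⁻ z : C.Zt σ.X0, f (C.cf X + Y + z) = ENNReal.ofReal c *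
        (ENNReal.ofReal (gm (C.Zt σ.X0) 0 (g * a)) *
          ‖Φ Y (χ.fn (σ.X0 + X) : F)‖ₑ ^ 2) := by
      intro Y
      simp only [h3]
      rw [lintegral_const_mul' _ _ ENNReal.ofReal_ne_top, lintegral_mul_const'', hgm]
      exact (Continuous.measurable (by fun_prop : Continuous fun z : C.Zt σ.X0 =>
        Real.exp (-(g * a) * ‖z‖ ^ 2))).ennreal_ofReal.aemeasurable
    simp only [h4]
    rw [lintegral_const_mul' _ _ ENNReal.ofReal_ne_top,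
      lintegral_const_mul' _ _ ENNReal.ofReal_ne_top]
  simp only [h2]
  have h5 : ∀ X : Pos p, ENNReal.ofReal c * (ENNReal.ofReal (gm (C.Zt σ.X0) 0 (g * a)) *
      ∫⁻ Y : C.Blk, ‖Φ Y (χ.fn (σ.X0 + X) : F)‖ₑ ^ 2) ≤
      (Metric.closedBall (0 : Pos p) (σ.r / 4)).indicator (fun _ => ENNReal.ofReal
        (c * gm (C.Zt σ.X0) 0 (g * a) * (Bψ * B' ^ 2))) X := by
    intro X
    by_cases hX : X ∈ Metric.closedBall (0 : Pos p) (σ.r / 4)
    · rw [Set.indicator_of_mem hX]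
      have h6 : ∫⁻ Y : C.Blk, ‖Φ Y (χ.fn (σ.X0 + X) : F)‖ₑ ^ 2 ≤
          ENNReal.ofReal (Bψ * B' ^ 2) := by
        refine (hψ _).trans (ENNReal.ofReal_le_ofReal ?_)
        have := hB (σ.X0 + X)
        gcongr
      rw [mul_assoc c, ENNReal.ofReal_mul hc0, ENNReal.ofReal_mul (gm_nonneg _ _)]
      gcongr
    · rw [Set.indicator_of_notMem hX]
      have h7 : χ.fn (σ.X0 + X) = 0 := by
        by_contra h8
        have h9 := χ.supp (subset_tsupport _ h8)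
        rw [mem_ball_iff_norm, add_sub_cancel_left] at h9
        exact hX (mem_closedBall_zero_iff.2 h9.le)
      rw [h7]
      simp
  refine (lintegral_mono h5).trans ?_
  rw [lintegral_indicator Metric.isClosed_closedBall.measurableSet, setLIntegral_const, ← hV]
  have hA0 : 0 ≤ c * gm (C.Zt σ.X0) 0 (g * a) * (Bψ * B' ^ 2) := by
    have := gm_nonneg (Z := C.Zt σ.X0) 0 (g * a)
    positivity
  have hVe : ENNReal.ofReal (c * gm (C.Zt σ.X0) 0 (g * a) * (Bψ * B' ^ 2)) * V =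
      ENNReal.ofReal (c * gm (C.Zt σ.X0) 0 (g * a) * (Bψ * B' ^ 2) * V.toReal) := by
    rw [ENNReal.ofReal_mul hA0, ENNReal.ofReal_toReal hVt]
  rw [hVe]
  refine ENNReal.ofReal_le_ofReal (le_of_eq ?_)
  rw [gm_scale 0 a hg, hc, ← hD]
  field_simp

/-- integrability of a block state -/
theorem integrable_blk {P : TPack C M R G} {Φ : Cfg N → F →L[ℂ] F} {ρ : ℝ} (H : IsBlk P Φ ρ)
    (f : F) : Integrable fun Y : C.Blk => ‖Φ Y f‖ ^ 2 := by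
  have h1 : Continuous fun Y : C.Blk => Φ Y f :=
    (H.smooth.continuous.comp continuous_subtype_val).clm_apply continuous_const
  have h2 : HasCompactSupport fun Y : C.Blk => Φ Y f := by
    refine HasCompactSupport.intro (isCompact_closedBall (0 : C.Blk) ρ) fun Y hY => ?_
    have h1 : ρ ≤ ‖(Y : Cfg N)‖ := by
      have : ¬ ‖Y‖ ≤ ρ := fun h => hY (mem_closedBall_zero_iff.2 h)
      exact (not_le.1 this).le
    rw [H.supp Y Y.2 h1]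
    rfl
  refine Continuous.integrable_of_hasCompactSupport (h1.norm.pow 2) ?_
  exact h2.comp_left (g := fun v : F => ‖v‖ ^ 2) (by simp)

theorem lint_blk {P : TPack C M R G} {Φ : Cfg N → F →L[ℂ] F} {ρ : ℝ} (H : IsBlk P Φ ρ)
    (f : F) : ∫⁻ Y : C.Blk, ‖Φ Y f‖ₑ ^ 2 = ENNReal.ofReal (∫ Y : C.Blk, ‖Φ Y f‖ ^ 2) := by
  rw [ofReal_integral_eq_lintegral_ofReal (integrable_blk H f)
    (Eventually.of_forall fun Y => by positivity)]
  refine lintegral_congr fun Y => ?_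
  rw [← ofReal_norm, ENNReal.ofReal_pow (norm_nonneg _)]

/-- **`L²` bound of the trial states** (372's (L1)). -/
theorem l2_TG [Nontrivial F] (P : TPack C M R G) (σ : Sl C) (χ : Amp M G σ) :
    ∃ K : ℝ, 0 ≤ K ∧ ∀ g : ℝ, 0 < g → ∀ (Φ : Cfg N → F →L[ℂ] F) (ρ : ℝ), IsBlk P Φ ρ →
      ρ ≤ σ.r / 4 → ∀ B : ℝ, 0 ≤ B →
        (∀ f ∈ C.Fx M G, ∫ Y : C.Blk, ‖Φ Y f‖ ^ 2 ≤ B * ‖f‖ ^ 2) →
          ∫ x, ‖TG P σ g Φ χ.fn x‖ ^ 2 ≤ K * B := by
  obtain ⟨a, a', j0, j1, ha, ha', hj0, hj1, hA, hj⟩ := exists_bds P σ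
  obtain ⟨K, hK, h⟩ := lint_tauG P σ χ
  refine ⟨j0⁻¹ * K, by positivity, fun g hg Φ ρ H hρ B hB hΦ => ?_⟩
  have hcore := TGC372.coreG P σ hg H hρ χ
  have h1 := toReal_lint hcore.1.continuous Set.univ
  rw [setIntegral_univ, setLIntegral_univ] at h1
  have h2 : ∫⁻ x, ‖TG P σ g Φ χ.fn x‖ₑ ^ 2 ≤ ENNReal.ofReal (j0⁻¹ * K * B) := by
    rw [mass_eq (J := σ.j) σ.int hcore.1.continuous (fun k x => by
      rw [TGC372.TG_act P σ g H χ k x, Cov837.norm_rho])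
      (fun x hx => TGC372.TG_off P σ g Φ χ.fn hx)]
    have h3 : ∫⁻ u in Metric.ball (0 : Nor b (C.cf σ.X0)) σ.r,
        ENNReal.ofReal (σ.j u) * ‖TG P σ g Φ χ.fn (C.cf σ.X0 + u)‖ₑ ^ 2 ≤
        ∫⁻ u in Metric.ball (0 : Nor b (C.cf σ.X0)) σ.r, ENNReal.ofReal j0⁻¹ *
          ENNReal.ofReal (‖tauG P σ g Φ χ.fn u‖ ^ 2) := by
      refine setLIntegral_mono' measurableSet_ball fun u hu => ?_
      have hur : ‖(u : Cfg N)‖ < σ.r := by simpa using hu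
      have hju := σ.jpos u u.2 hur
      rw [TGC372.TG_slice P σ g H χ u.2 hur, ← ofReal_norm, ← ENNReal.ofReal_pow (norm_nonneg _),
        ← ENNReal.ofReal_mul hju.le, ← ENNReal.ofReal_mul (by positivity), norm_smul,
        Complex.norm_real, Real.norm_eq_abs, abs_of_pos (inv_pos.2 hju), mul_pow]
      refine ENNReal.ofReal_le_ofReal ?_
      have h4 : σ.j u * ((σ.j u)⁻¹ ^ 2 * ‖tauG P σ g Φ χ.fn u‖ ^ 2) =
          (σ.j u)⁻¹ * ‖tauG P σ g Φ χ.fn u‖ ^ 2 := by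
        field_simp
      rw [h4]
      by_cases h0 : tauG P σ g Φ χ.fn u = 0
      · rw [h0, norm_zero]
        simp
      · obtain ⟨-, h5, h6, h7⟩ := TGC372.tauG_ne P σ g H χ h0
        have h8 := norm_nor_lt C u σ.r h5.le (h6.le.trans hρ) h7.le
        have h9 := (hj u u.2 h8).1
        gcongr
    refine h3.trans ?_
    rw [lintegral_const_mul' _ _ ENNReal.ofReal_ne_top, mul_assoc,
      ENNReal.ofReal_mul (by positivity)]
    refine mul_le_mul_right ?_ _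
    refine (setLIntegral_le_lintegral _ _).trans (h g hg Φ ρ H B hB fun f => ?_)
    rw [lint_blk H]
    exact ENNReal.ofReal_le_ofReal (hΦ f f.2)
  rw [h1]
  exact (ENNReal.toReal_mono ENNReal.ofReal_ne_top h2).trans
    (by rw [ENNReal.toReal_ofReal (by positivity)])

/-! ### Algebra of block states -/

theorem isBlk_sub {P : TPack C M R G} {Φ Φ' : Cfg N → F →L[ℂ] F} {ρ : ℝ} (H : IsBlk P Φ ρ)
    (H' : IsBlk P Φ' ρ) : IsBlk P (fun Y => Φ Y - Φ' Y) ρ where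
  smooth := H.smooth.sub H'.smooth
  supp Y hY hn := by rw [H.supp Y hY hn, H'.supp Y hY hn, sub_zero]
  mem Y hY f hf := by
    rw [sub_apply]
    exact Submodule.sub_mem _ (H.mem Y hY f hf) (H'.mem Y hY f hf)
  cov h X X' hX hX' he Y hY f hf := by
    obtain ⟨h1, h2⟩ := H.cov h X X' hX hX' he Y hY f hf
    obtain ⟨-, h3⟩ := H'.cov h X X' hX hX' he Y hY f hf
    refine ⟨h1, ?_⟩
    rw [sub_apply, sub_apply, map_sub, h2, h3]

theorem isBlk_mono {P : TPack C M R G} {Φ : Cfg N → F →L[ℂ] F} {ρ ρ' : ℝ} (H : IsBlk P Φ ρ)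
    (h : ρ ≤ ρ') : IsBlk P Φ ρ' where
  smooth := H.smooth
  supp Y hY hn := H.supp Y hY (h.trans hn)
  mem := H.mem
  cov := H.cov

theorem TG_sub (P : TPack C M R G) (σ : Sl C) (g : ℝ) {Φ Φ' : Cfg N → F →L[ℂ] F} {ρ : ℝ}
    (H : IsBlk P Φ ρ) (H' : IsBlk P Φ' ρ) (χ : Amp M G σ) (x : Cfg N) :
    TG P σ g Φ χ.fn x - TG P σ g Φ' χ.fn x = TG P σ g (fun Y => Φ Y - Φ' Y) χ.fn x := by
  by_cases hx : x ∈ tube b (C.cf σ.X0) σ.r
  · obtain ⟨h, y, hy, hr, rfl⟩ := (SlD314.mem_tube_iff b (C.cf σ.X0) σ.r x).1 hx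
    rw [TGC372.TG_apply P σ g H χ h hy hr, TGC372.TG_apply P σ g H' χ h hy hr,
      TGC372.TG_apply P σ g (isBlk_sub H H') χ h hy hr, ← tauG_sub, smul_sub, map_sub]
  · rw [TGC372.TG_off P σ g Φ χ.fn hx, TGC372.TG_off P σ g Φ' χ.fn hx,
      TGC372.TG_off P σ g _ χ.fn hx, sub_zero]

end Crest.Agent.R330.L2TG974

end
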