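import Crest.Agent.R330.A0_151

/-!
# `L²` bounds of functions dominated by the Gaussian amplitude (helper151)

`Lp` the space of the light variables `p`, `X : Lp → P` the centre coordinate, `z ∈ Z`.
If `‖e (p, z)‖ ≤ W p * (1 + g ‖z‖²)^k * a0 A j g (X p) z * m p` (`W, m ≥ 0`, and `m p = 0` unless
`A (X p)`, `j (X p)` are in the uniform class), then `∫ ‖e‖² ≤ C ∫ W² m²`, `C` depends only on `k`
and the class (`l2_bound`), and the part over `‖z‖ ≥ δ` is `≤ C (g δ²)^(-l) ∫ W² m²` (`l2_tail`).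
-/

set_option autoImplicit false
set_option linter.unusedSectionVars false

open MeasureTheory Filter Topology Set Real
open scoped InnerProductSpace

noncomputable section

namespace Crest.Agent.R330.L2a151

open SqrtPD984 GPar984 A0151

variable {P Z Lp F : Type*} [NormedAddCommGroup Z] [InnerProductSpace ℝ Z] [FiniteDimensional ℝ Z]
  [MeasurableSpace Z] [BorelSpace Z] [MeasurableSpace Lp] {ν : Measure Lp} [SigmaFinite ν]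
  [NormedAddCommGroup F]

theorem one_add_pow_le (t : ℝ) (ht : 0 ≤ t) (k : ℕ) :
    ((1 + t) ^ k) ^ 2 ≤ 2 ^ (2 * k) * (t ^ 0 + t ^ (2 * k)) := by
  rw [← pow_mul, mul_comm k 2, pow_zero]
  rcases le_total t 1 with h | h
  · calc (1 + t) ^ (2 * k) ≤ 2 ^ (2 * k) := pow_le_pow_left₀ (by linarith) (by linarith) _
      _ ≤ 2 ^ (2 * k) * (1 + t ^ (2 * k)) := by
        have : 0 ≤ t ^ (2 * k) := by positivity
        have h2 : (0 : ℝ) < 2 ^ (2 * k) := by positivity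
        nlinarith
  · calc (1 + t) ^ (2 * k) ≤ (2 * t) ^ (2 * k) := pow_le_pow_left₀ (by linarith) (by linarith) _
      _ = 2 ^ (2 * k) * t ^ (2 * k) := mul_pow _ _ _
      _ ≤ 2 ^ (2 * k) * (1 + t ^ (2 * k)) := by
        have h2 : (0 : ℝ) < 2 ^ (2 * k) := by positivity
        nlinarith

/-- The uniform class. -/
def Cls (a K J : ℝ) (A : P → (Z →L[ℝ] Z)) (j : P → ℝ) (X : P) : Prop :=
  UB a K (A X) ∧ 0 ≤ j X ∧ j X ≤ J

/-- Fibre bound: `∫ ((1 + g‖z‖²)^k a0)² ≤ C`. -/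
theorem fibre_bound (a K J : ℝ) (ha : 0 < a) (k : ℕ) :
    ∃ C : ℝ, 0 ≤ C ∧ ∀ (A : P → (Z →L[ℝ] Z)) (j : P → ℝ) (g : ℝ) (X : P), 0 < g →
      Cls a K J A j X →
      Integrable (fun z : Z => ((1 + g * ‖z‖ ^ 2) ^ k * a0 A j g X z) ^ 2) ∧
      ∫ z : Z, ((1 + g * ‖z‖ ^ 2) ^ k * a0 A j g X z) ^ 2 ≤ C := by
  obtain ⟨C0, hC0, h0⟩ := moment_a0 (P := P) (Z := Z) a K J ha 0
  obtain ⟨C1, hC1, h1⟩ := moment_a0 (P := P) (Z := Z) a K J ha (2 * k)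
  refine ⟨2 ^ (2 * k) * (C0 + C1), by positivity, fun A j g X hg hX => ?_⟩
  obtain ⟨hU, hj, hJ⟩ := hX
  have i0 := integrable_a0_sq (j := j) ha hg hU hj 0
  have i1 := integrable_a0_sq (j := j) ha hg hU hj (2 * k)
  have i2 : Integrable (fun z : Z => 2 ^ (2 * k) * ((g * ‖z‖ ^ 2) ^ 0 * a0 A j g X z ^ 2 +
      (g * ‖z‖ ^ 2) ^ (2 * k) * a0 A j g X z ^ 2)) := (i0.add i1).const_mul _
  have hb : ∀ z : Z, ((1 + g * ‖z‖ ^ 2) ^ k * a0 A j g X z) ^ 2 ≤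
      2 ^ (2 * k) * ((g * ‖z‖ ^ 2) ^ 0 * a0 A j g X z ^ 2 +
      (g * ‖z‖ ^ 2) ^ (2 * k) * a0 A j g X z ^ 2) := by
    intro z
    rw [mul_pow]
    have h3 := one_add_pow_le (g * ‖z‖ ^ 2) (by positivity) k
    calc ((1 + g * ‖z‖ ^ 2) ^ k) ^ 2 * a0 A j g X z ^ 2 ≤
          (2 ^ (2 * k) * ((g * ‖z‖ ^ 2) ^ 0 + (g * ‖z‖ ^ 2) ^ (2 * k))) * a0 A j g X z ^ 2 :=
          mul_le_mul_of_nonneg_right h3 (sq_nonneg _)
      _ = _ := by ring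
  have hc : Continuous fun z : Z => ((1 + g * ‖z‖ ^ 2) ^ k * a0 A j g X z) ^ 2 :=
    (((continuous_const.add (continuous_const.mul (continuous_norm.pow 2))).pow k).mul
      continuous_a0).pow 2
  have i3 : Integrable (fun z : Z => ((1 + g * ‖z‖ ^ 2) ^ k * a0 A j g X z) ^ 2) :=
    i2.mono' hc.aestronglyMeasurable (ae_of_all _ fun z => by
      rw [Real.norm_of_nonneg (sq_nonneg _)]
      exact hb z)
  refine ⟨i3, ?_⟩
  calc ∫ z : Z, ((1 + g * ‖z‖ ^ 2) ^ k * a0 A j g X z) ^ 2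
      ≤ ∫ z : Z, 2 ^ (2 * k) * ((g * ‖z‖ ^ 2) ^ 0 * a0 A j g X z ^ 2 +
          (g * ‖z‖ ^ 2) ^ (2 * k) * a0 A j g X z ^ 2) := integral_mono i3 i2 hb
    _ = 2 ^ (2 * k) * ((∫ z : Z, (g * ‖z‖ ^ 2) ^ 0 * a0 A j g X z ^ 2) +
          ∫ z : Z, (g * ‖z‖ ^ 2) ^ (2 * k) * a0 A j g X z ^ 2) := by
        rw [integral_const_mul, integral_add i0 i1]
    _ ≤ 2 ^ (2 * k) * (C0 + C1) := by
        have h3 := h0 A j g X hg hU hj hJ
        have h4 := h1 A j g X hg hU hj hJ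
        gcongr

/-- Weight `(1 + √g ‖z‖)^(2 n)`. -/
theorem weight_bound (a K J : ℝ) (ha : 0 < a) (n : ℕ) :
    ∃ C : ℝ, 0 ≤ C ∧ ∀ (A : P → (Z →L[ℝ] Z)) (j : P → ℝ) (g : ℝ) (X : P), 0 < g →
      Cls a K J A j X →
      Integrable (fun z : Z => (1 + √g * ‖z‖) ^ (2 * n) * a0 A j g X z ^ 2) ∧
      ∫ z : Z, (1 + √g * ‖z‖) ^ (2 * n) * a0 A j g X z ^ 2 ≤ C := by
  obtain ⟨C, hC, h⟩ := fibre_bound (P := P) (Z := Z) a K J ha n
  refine ⟨2 ^ n * C, by positivity, fun A j g X hg hX => ?_⟩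
  obtain ⟨i1, h1⟩ := h A j g X hg hX
  have hs : √g ^ 2 = g := Real.sq_sqrt hg.le
  have hb : ∀ z : Z, (1 + √g * ‖z‖) ^ (2 * n) * a0 A j g X z ^ 2 ≤
      2 ^ n * ((1 + g * ‖z‖ ^ 2) ^ n * a0 A j g X z) ^ 2 := by
    intro z
    set s : ℝ := √g * ‖z‖ with hsdef
    have hs0 : 0 ≤ s := by positivity
    have hs2 : g * ‖z‖ ^ 2 = s ^ 2 := by rw [hsdef, mul_pow, hs]
    rw [hs2, mul_pow, pow_mul, ← mul_assoc]
    refine mul_le_mul_of_nonneg_right ?_ (sq_nonneg _)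
    have h2 : (1 + s) ^ 2 ≤ 2 * (1 + s ^ 2) := by nlinarith [sq_nonneg (1 - s)]
    calc ((1 + s) ^ 2) ^ n ≤ (2 * (1 + s ^ 2)) ^ n := pow_le_pow_left₀ (sq_nonneg _) h2 n
      _ = 2 ^ n * (1 + s ^ 2) ^ n := mul_pow _ _ _
      _ ≤ 2 ^ n * ((1 + s ^ 2) ^ n) ^ 2 := by
        refine mul_le_mul_of_nonneg_left ?_ (by positivity)
        have h3 : (1 : ℝ) ≤ (1 + s ^ 2) ^ n := one_le_pow₀ (by nlinarith [sq_nonneg s])
        nlinarith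
  have hc : Continuous fun z : Z => (1 + √g * ‖z‖) ^ (2 * n) * a0 A j g X z ^ 2 :=
    ((continuous_const.add (continuous_const.mul continuous_norm)).pow _).mul (continuous_a0.pow 2)
  have i2 : Integrable (fun z : Z => (1 + √g * ‖z‖) ^ (2 * n) * a0 A j g X z ^ 2) :=
    (i1.const_mul (2 ^ n)).mono' hc.aestronglyMeasurable (ae_of_all _ fun z => by
      rw [Real.norm_of_nonneg (by positivity)]
      exact hb z)
  refine ⟨i2, (integral_mono i2 (i1.const_mul _) hb).trans ?_⟩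
  rw [integral_const_mul]
  exact mul_le_mul_of_nonneg_left h1 (by positivity)

/-- Fibre tail bound. -/
theorem fibre_tail (a K J : ℝ) (ha : 0 < a) (k l : ℕ) :
    ∃ C : ℝ, 0 ≤ C ∧ ∀ (A : P → (Z →L[ℝ] Z)) (j : P → ℝ) (g : ℝ) (X : P) (δ : ℝ), 0 < g →
      0 < δ → Cls a K J A j X →
      ∫ z in {z : Z | δ ≤ ‖z‖}, ((1 + g * ‖z‖ ^ 2) ^ k * a0 A j g X z) ^ 2 ≤
        C * (g * δ ^ 2)⁻¹ ^ l := by
  obtain ⟨C, hC, h⟩ := fibre_bound (P := P) (Z := Z) a K J ha (k + l)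
  refine ⟨C, hC, fun A j g X δ hg hδ hX => ?_⟩
  have hmeas : MeasurableSet {z : Z | δ ≤ ‖z‖} := measurableSet_le measurable_const measurable_norm
  obtain ⟨i1, h1⟩ := h A j g X hg hX
  obtain ⟨C', -, h'⟩ := fibre_bound (P := P) (Z := Z) a K J ha k
  obtain ⟨i0, -⟩ := h' A j g X hg hX
  have hgd : 0 < g * δ ^ 2 := by positivity
  have hb : ∀ z ∈ {z : Z | δ ≤ ‖z‖}, ((1 + g * ‖z‖ ^ 2) ^ k * a0 A j g X z) ^ 2 ≤
      (g * δ ^ 2)⁻¹ ^ l * ((1 + g * ‖z‖ ^ 2) ^ (k + l) * a0 A j g X z) ^ 2 := by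
    intro z hz
    have hz' : δ ≤ ‖z‖ := hz
    have h2 : g * δ ^ 2 ≤ 1 + g * ‖z‖ ^ 2 := by
      have : δ ^ 2 ≤ ‖z‖ ^ 2 := pow_le_pow_left₀ hδ.le hz' 2
      nlinarith
    have h3 : (1 : ℝ) ≤ 1 + g * ‖z‖ ^ 2 := by
      have : 0 ≤ g * ‖z‖ ^ 2 := by positivity
      linarith
    have h4 : 1 ≤ (g * δ ^ 2)⁻¹ ^ l * ((1 + g * ‖z‖ ^ 2) ^ l) ^ 2 := by
      rw [inv_pow, ← div_eq_inv_mul, one_le_div (by positivity)]
      calc (g * δ ^ 2) ^ l ≤ (1 + g * ‖z‖ ^ 2) ^ l := pow_le_pow_left₀ hgd.le h2 l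
        _ = (1 + g * ‖z‖ ^ 2) ^ l * 1 := (mul_one _).symm
        _ ≤ (1 + g * ‖z‖ ^ 2) ^ l * (1 + g * ‖z‖ ^ 2) ^ l :=
          mul_le_mul_of_nonneg_left (one_le_pow₀ h3) (by positivity)
        _ = _ := (pow_two _).symm
    calc ((1 + g * ‖z‖ ^ 2) ^ k * a0 A j g X z) ^ 2
        = 1 * ((1 + g * ‖z‖ ^ 2) ^ k * a0 A j g X z) ^ 2 := (one_mul _).symm
      _ ≤ ((g * δ ^ 2)⁻¹ ^ l * ((1 + g * ‖z‖ ^ 2) ^ l) ^ 2) *
          ((1 + g * ‖z‖ ^ 2) ^ k * a0 A j g X z) ^ 2 :=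
          mul_le_mul_of_nonneg_right h4 (sq_nonneg _)
      _ = _ := by rw [pow_add]; ring
  calc ∫ z in {z : Z | δ ≤ ‖z‖}, ((1 + g * ‖z‖ ^ 2) ^ k * a0 A j g X z) ^ 2
      ≤ ∫ z in {z : Z | δ ≤ ‖z‖},
          (g * δ ^ 2)⁻¹ ^ l * ((1 + g * ‖z‖ ^ 2) ^ (k + l) * a0 A j g X z) ^ 2 :=
        setIntegral_mono_on i0.integrableOn (i1.const_mul _).integrableOn hmeas hb
    _ ≤ ∫ z : Z, (g * δ ^ 2)⁻¹ ^ l * ((1 + g * ‖z‖ ^ 2) ^ (k + l) * a0 A j g X z) ^ 2 :=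
        setIntegral_le_integral (i1.const_mul _) (ae_of_all _ fun z => by positivity)
    _ = (g * δ ^ 2)⁻¹ ^ l * ∫ z : Z, ((1 + g * ‖z‖ ^ 2) ^ (k + l) * a0 A j g X z) ^ 2 :=
        integral_const_mul _ _
    _ ≤ (g * δ ^ 2)⁻¹ ^ l * C := mul_le_mul_of_nonneg_left h1 (by positivity)
    _ = _ := mul_comm _ _

/-- **`L²` bound.** -/
theorem l2_bound (a K J : ℝ) (ha : 0 < a) (k : ℕ) :
    ∃ C : ℝ, 0 ≤ C ∧ ∀ (A : P → (Z →L[ℝ] Z)) (j : P → ℝ) (X : Lp → P) (g : ℝ), 0 < g →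
      ∀ (e : Lp × Z → F) (W m : Lp → ℝ), AEStronglyMeasurable e (ν.prod volume) →
      (∀ p, m p ≠ 0 → Cls a K J A j (X p)) →
      (∀ p z, ‖e (p, z)‖ ≤ W p * (1 + g * ‖z‖ ^ 2) ^ k * a0 A j g (X p) z * m p) →
      Integrable (fun p => (W p * m p) ^ 2) ν →
      Integrable (fun q => ‖e q‖ ^ 2) (ν.prod volume) ∧
      ∫ q, ‖e q‖ ^ 2 ∂(ν.prod volume) ≤ C * ∫ p, (W p * m p) ^ 2 ∂ν := by
  obtain ⟨C, hC, h⟩ := fibre_bound (P := P) (Z := Z) a K J ha k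
  refine ⟨C, hC, fun A j X g hg e W m he hm hb hi => ?_⟩
  have hfib : ∀ p, Integrable (fun z : Z => (W p * m p) ^ 2 *
      ((1 + g * ‖z‖ ^ 2) ^ k * a0 A j g (X p) z) ^ 2) := by
    intro p
    by_cases h0 : m p = 0
    · simp only [h0, mul_zero, ne_eq, OfNat.ofNat_ne_zero, not_false_eq_true, zero_pow, zero_mul]
      exact integrable_zero _ _ _
    · exact (h A j g (X p) hg (hm p h0)).1.const_mul _
  have hle : ∀ p (z : Z), ‖e (p, z)‖ ^ 2 ≤ (W p * m p) ^ 2 *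
      ((1 + g * ‖z‖ ^ 2) ^ k * a0 A j g (X p) z) ^ 2 := by
    intro p z
    calc ‖e (p, z)‖ ^ 2 ≤ (W p * (1 + g * ‖z‖ ^ 2) ^ k * a0 A j g (X p) z * m p) ^ 2 :=
          pow_le_pow_left₀ (norm_nonneg _) (hb p z) 2
      _ = _ := by ring
  have hfi : ∀ p, ∫ z : Z, (W p * m p) ^ 2 * ((1 + g * ‖z‖ ^ 2) ^ k * a0 A j g (X p) z) ^ 2 ≤
      C * (W p * m p) ^ 2 := by
    intro p
    rw [integral_const_mul, mul_comm]
    by_cases h0 : m p = 0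
    · simp [h0]
    · exact mul_le_mul_of_nonneg_right (h A j g (X p) hg (hm p h0)).2 (sq_nonneg _)
  have hme : AEStronglyMeasurable (fun q => ‖e q‖ ^ 2) (ν.prod (volume : Measure Z)) :=
    he.norm.pow 2
  have hfe : ∀ᵐ p ∂ν, Integrable (fun z : Z => ‖e (p, z)‖ ^ 2) := by
    filter_upwards [hme.prodMk_left] with p hp
    exact (hfib p).mono' hp (ae_of_all _ fun z => by
      rw [Real.norm_of_nonneg (sq_nonneg _)]
      exact hle p z)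
  have hin : ∀ᵐ p ∂ν, ∫ z : Z, ‖e (p, z)‖ ^ 2 ≤ C * (W p * m p) ^ 2 := by
    filter_upwards [hfe] with p hp
    exact (integral_mono hp (hfib p) (hle p)).trans (hfi p)
  have hint : Integrable (fun q => ‖e q‖ ^ 2) (ν.prod (volume : Measure Z)) := by
    rw [integrable_prod_iff hme]
    refine ⟨hfe, ?_⟩
    refine (hi.const_mul C).mono' hme.norm.integral_prod_right' ?_
    filter_upwards [hin] with p hp
    have e1 : ∀ z : Z, ‖‖e (p, z)‖ ^ 2‖ = ‖e (p, z)‖ ^ 2 := fun z =>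
      Real.norm_of_nonneg (sq_nonneg _)
    simp only [e1]
    rw [Real.norm_of_nonneg (integral_nonneg fun z => sq_nonneg _)]
    exact hp
  refine ⟨hint, ?_⟩
  rw [integral_prod _ hint, ← integral_const_mul]
  exact integral_mono_ae hint.integral_prod_left (hi.const_mul C) hin

/-- **Tails in `L²`.** -/
theorem l2_tail (a K J : ℝ) (ha : 0 < a) (k l : ℕ) :
    ∃ C : ℝ, 0 ≤ C ∧ ∀ (A : P → (Z →L[ℝ] Z)) (j : P → ℝ) (X : Lp → P) (g δ : ℝ), 0 < g → 0 < δ →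
      ∀ (e : Lp × Z → F) (W m : Lp → ℝ), AEStronglyMeasurable e (ν.prod volume) →
      (∀ p, m p ≠ 0 → Cls a K J A j (X p)) →
      (∀ p z, ‖e (p, z)‖ ≤ W p * (1 + g * ‖z‖ ^ 2) ^ k * a0 A j g (X p) z * m p) →
      (∀ p z, ‖z‖ < δ → e (p, z) = 0) →
      Integrable (fun p => (W p * m p) ^ 2) ν →
      Integrable (fun q => ‖e q‖ ^ 2) (ν.prod volume) ∧
      ∫ q, ‖e q‖ ^ 2 ∂(ν.prod volume) ≤
        C * ((g * δ ^ 2)⁻¹ ^ l) ^ 2 * ∫ p, (W p * m p) ^ 2 ∂ν := by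
  obtain ⟨C, hC, h⟩ := l2_bound (P := P) (Z := Z) (Lp := Lp) (ν := ν) (F := F) a K J ha (k + l)
  refine ⟨C, hC, fun A j X g δ hg hδ e W m he hm hb h0 hi => ?_⟩
  have hgd : 0 < g * δ ^ 2 := by positivity
  have hW : ∀ p z, ‖e (p, z)‖ ≤ ((g * δ ^ 2)⁻¹ ^ l * W p) * (1 + g * ‖z‖ ^ 2) ^ (k + l) *
      a0 A j g (X p) z * m p := by
    intro p z
    rcases lt_or_ge ‖z‖ δ with hz | hz
    · rw [h0 p z hz, norm_zero]
      have h1 := hb p z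
      rw [h0 p z hz, norm_zero] at h1
      have h2 : 0 ≤ (g * δ ^ 2)⁻¹ ^ l * (1 + g * ‖z‖ ^ 2) ^ l := by positivity
      calc (0 : ℝ) ≤ ((g * δ ^ 2)⁻¹ ^ l * (1 + g * ‖z‖ ^ 2) ^ l) *
            (W p * (1 + g * ‖z‖ ^ 2) ^ k * a0 A j g (X p) z * m p) := mul_nonneg h2 h1
        _ = _ := by rw [pow_add]; ring
    · have h2 : g * δ ^ 2 ≤ 1 + g * ‖z‖ ^ 2 := by
        have : δ ^ 2 ≤ ‖z‖ ^ 2 := pow_le_pow_left₀ hδ.le hz 2
        nlinarith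
      have h4 : 1 ≤ (g * δ ^ 2)⁻¹ ^ l * (1 + g * ‖z‖ ^ 2) ^ l := by
        rw [inv_pow, ← div_eq_inv_mul, one_le_div (by positivity)]
        exact pow_le_pow_left₀ hgd.le h2 l
      have h5 : 0 ≤ W p * (1 + g * ‖z‖ ^ 2) ^ k * a0 A j g (X p) z * m p :=
        (norm_nonneg _).trans (hb p z)
      calc ‖e (p, z)‖ ≤ 1 * (W p * (1 + g * ‖z‖ ^ 2) ^ k * a0 A j g (X p) z * m p) := by
            rw [one_mul]
            exact hb p z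
        _ ≤ ((g * δ ^ 2)⁻¹ ^ l * (1 + g * ‖z‖ ^ 2) ^ l) *
            (W p * (1 + g * ‖z‖ ^ 2) ^ k * a0 A j g (X p) z * m p) :=
            mul_le_mul_of_nonneg_right h4 h5
        _ = _ := by rw [pow_add]; ring
  have e1 : ∀ p, ((g * δ ^ 2)⁻¹ ^ l * W p * m p) ^ 2 =
      ((g * δ ^ 2)⁻¹ ^ l) ^ 2 * (W p * m p) ^ 2 := fun p => by ring
  have hi' : Integrable (fun p => ((g * δ ^ 2)⁻¹ ^ l * W p * m p) ^ 2) ν := by
    simp only [e1]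
    exact hi.const_mul _
  obtain ⟨h6, h7⟩ := h A j X g hg e (fun p => (g * δ ^ 2)⁻¹ ^ l * W p) m he hm hW hi'
  refine ⟨h6, h7.trans (le_of_eq ?_)⟩
  simp only [e1]
  rw [integral_const_mul]
  ring

end Crest.Agent.R330.L2a151

end
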