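import Crest.Agent.R330.LemA_342

/-!
# Row 330, S7-R (helper342): Lemma R on the fixed slice, part 2: decoupling in slice coordinates

`lemR1` : `Σ ‖A Φ‖² + ½ Σ ‖B Φ‖² ≤ Σ ‖(A + B) Φ‖² + C K₁ ‖Φ‖²` from the inequality on the odd part.
-/

set_option autoImplicit false
set_option linter.unusedSectionVars false
set_option maxSynthPendingDepth 3

open MeasureTheory Filter Topology Crest.MathPhysics.MatrixQM
open Crest.Agent.R330.IBP837 Crest.Agent.R330.Defs478 Crest.Agent.R330.Frame839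
open Crest.Agent.R330.LS839 Crest.Agent.R330.Clus839 Crest.Agent.R330.Bind6839
open Crest.Agent.R330.Decoup924 Crest.Agent.R330.LemA342
open scoped ContDiff InnerProductSpace ENNReal

noncomputable section

namespace Crest.Agent.R330.LemB342

variable {N : ℕ} {b : ColorBasis N} {c : Cfg N}
  {F : Type*} [NormedAddCommGroup F] [InnerProductSpace ℂ F] [FiniteDimensional ℂ F]
  {M : FermionRep N F} {G : GammaNine} {g m : ℝ} {α : Fin 16}
  {ι κ η : Type*} [Fintype ι] [Fintype κ] [Fintype η]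

/-- a real function on a finite dimensional space with bounded derivative -/
theorem exists_cfs_bound {v : OrthonormalBasis κ ℝ (Zs b c)}
    {t : OrthonormalBasis η ℝ (Tn (actB b) c)} {χ : Uk b c → ℝ}
    (h : ∀ i a, ContDiff ℝ ∞ (cfs v t χ i a)) (hs : HasCompactSupport χ) :
    ∃ C : ℝ, 0 ≤ C ∧ ∀ i a u, ‖fderiv ℝ (cfs v t χ i a) u‖ ≤ C := by
  have h1 : ∀ i a, ∃ C : ℝ, ∀ u, ‖fderiv ℝ (cfs v t χ i a) u‖ ≤ C := by
    intro i a
    have h2 : Continuous (fderiv ℝ (cfs v t χ i a)) := (h i a).continuous_fderiv (by simp)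
    have h3 : HasCompactSupport (fderiv ℝ (cfs v t χ i a)) :=
      (hasCompactSupport_cfs v t hs i a).fderiv ℝ
    exact h3.exists_bound_of_continuous h2
  choose C hC using h1
  have h0 : ∀ i a, 0 ≤ C i a := fun i a => (norm_nonneg _).trans (hC i a 0)
  refine ⟨∑ i, ∑ a, C i a, Finset.sum_nonneg fun i _ => Finset.sum_nonneg fun a _ => h0 i a,
    fun i a u => (hC i a u).trans ?_⟩
  exact (Finset.single_le_sum (f := fun a => C i a) (fun a _ => h0 i a) (Finset.mem_univ a)).trans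
    (Finset.single_le_sum (f := fun i => ∑ a, C i a)
      (fun i _ => Finset.sum_nonneg fun a _ => h0 i a) (Finset.mem_univ i))

/-- directions of the light part -/
def le (e : OrthonormalBasis ι ℝ (Uk b c)) (s : ι) : Sc b c := (e s, 0)

/-- directions of the heavy part -/
def hv (v : OrthonormalBasis κ ℝ (Zs b c)) (i : κ) : Sc b c := (0, v i)

theorem op_light (e : OrthonormalBasis ι ℝ (Uk b c)) (Φ : Sc b c → F) (x : Sc b c) :
    op (le e) (fun s _ => toR (aA M G α (e s))) (fun x => toR (wA b M G g m α (c + x.1))) Φ x =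
      Aop b c M G g m α e Φ x := rfl

/-- on functions supported where the cut-off is one, the cut-off heavy part is the heavy part -/
theorem op_heavy (v : OrthonormalBasis κ ℝ (Zs b c)) (t : OrthonormalBasis η ℝ (Tn (actB b) c))
    {χ : Uk b c → ℝ} {ρ : ℝ} (hχ : ∀ u, ‖u‖ ≤ ρ → χ u = 1) {Φ : Sc b c → F}
    (hs : ∀ x : Sc b c, ρ < ‖x.1‖ → Φ x = 0) (x : Sc b c) :
    op (hv v) (bet M G α v t χ) (fun x => toR (wB b M G g α (c + x.1) x.2)) Φ x =
      Bop b c M G g α v t Φ x := by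
  by_cases hx : ‖x.1‖ ≤ ρ
  · unfold op Bop
    congr 1
    refine Finset.sum_congr rfl fun i _ => ?_
    unfold bet
    rw [toR_apply, aBx_eq v t i (hχ _ hx)]
    rfl
  · rw [not_le] at hx
    have h1 : Φ =ᶠ[𝓝 x] fun _ => 0 := by
      have h2 : {y : Sc b c | ρ < ‖y.1‖} ∈ 𝓝 x :=
        (isOpen_lt continuous_const (continuous_fst.norm)).mem_nhds hx
      filter_upwards [h2] with y hy using hs y hy
    have h3 : fderiv ℝ Φ x = 0 := by rw [h1.fderiv_eq]; simp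
    have h4 : Φ x = 0 := h1.eq_of_nhds
    simp [op, Bop, h3, h4]

/-- the density of the heavy energy -/
theorem dd_eq (v : OrthonormalBasis κ ℝ (Zs b c)) (h : Sc b c → F) (x : Sc b c) :
    dd (hv v) (fun x => g * ‖x.2‖) h x =
      ∑ i, ‖fderiv ℝ h x (0, v i)‖ ^ 2 + (g * ‖x.2‖) ^ 2 * ‖h x‖ ^ 2 := rfl

theorem norm_pd_le (v : OrthonormalBasis κ ℝ (Zs b c)) (h : Sc b c → F) (x : Sc b c) (i : κ) :
    ‖fderiv ℝ h x (hv v i)‖ ≤ Real.sqrt (dd (hv v) (fun x => g * ‖x.2‖) h x) := by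
  refine Real.le_sqrt_of_sq_le ?_
  rw [dd_eq]
  have h1 : ‖fderiv ℝ h x (0, v i)‖ ^ 2 ≤ ∑ i, ‖fderiv ℝ h x (0, v i)‖ ^ 2 :=
    Finset.single_le_sum (f := fun i => ‖fderiv ℝ h x (0, v i)‖ ^ 2)
      (fun i _ => by positivity) (Finset.mem_univ i)
  have h2 : 0 ≤ (g * ‖x.2‖) ^ 2 * ‖h x‖ ^ 2 := by positivity
  change ‖fderiv ℝ h x (0, v i)‖ ^ 2 ≤ _
  linarith

theorem norm_zd_le (v : OrthonormalBasis κ ℝ (Zs b c)) (h : Sc b c → F)
    (x : Sc b c) :
    g * ‖x.2‖ * ‖h x‖ ≤ Real.sqrt (dd (hv v) (fun x => g * ‖x.2‖) h x) := by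
  refine Real.le_sqrt_of_sq_le ?_
  rw [dd_eq]
  have h2 : 0 ≤ ∑ i, ‖fderiv ℝ h x (0, v i)‖ ^ 2 :=
    Finset.sum_nonneg fun i _ => by positivity
  nlinarith

/-- **The bound of the commutator term.** -/
theorem exists_hX (M : FermionRep N F) (G : GammaNine) (e : OrthonormalBasis ι ℝ (Uk b c))
    {v : OrthonormalBasis κ ℝ (Zs b c)}
    {t : OrthonormalBasis η ℝ (Tn (actB b) c)} {χ : Uk b c → ℝ}
    (hc : ∀ i a, ContDiff ℝ ∞ (cfs v t χ i a)) (hs : HasCompactSupport χ) :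
    ∃ K : ℝ, 0 ≤ K ∧ ∀ g : ℝ, 0 ≤ g → ∀ (α : Fin 16) (h : Sc b c → F) (x : Sc b c),
      ‖∑ s, toR (aA M G α (e s)) (dop (le e s) (hv v) (bet M G α v t χ)
        (fun x => toR (wB b M G g α (c + x.1) x.2)) h x)‖ ≤
      K * Real.sqrt (dd (hv v) (fun x => g * ‖x.2‖) h x) := by
  obtain ⟨C1, hC1, h1⟩ := exists_cfs_bound hc hs
  obtain ⟨CT, hCT, hT⟩ := exists_Theta_bound M G
  set CW : ℝ := ∑ α, ‖Wq b M G α‖ with hCW
  have hCW0 : 0 ≤ CW := Finset.sum_nonneg fun α _ => norm_nonneg _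
  have hCWα : ∀ α, ‖Wq b M G α‖ ≤ CW := fun α =>
    Finset.single_le_sum (f := fun α => ‖Wq b M G α‖) (fun α _ => norm_nonneg _)
      (Finset.mem_univ α)
  refine ⟨Fintype.card ι * (CT * (Fintype.card κ * (Fintype.card η * (C1 * CT)) + 2 * CW)),
    by positivity, fun g hg α h x => ?_⟩
  set S := Real.sqrt (dd (hv v) (fun x => g * ‖x.2‖) h x) with hS
  have hS0 : 0 ≤ S := Real.sqrt_nonneg _
  have he : ∀ s, ‖((e s : Uk b c) : Cfg N)‖ = 1 := fun s => e.orthonormal.1 s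
  have ht : ∀ a, ‖((t a : Tn (actB b) c) : Cfg N)‖ = 1 := fun a => t.orthonormal.1 a
  have hTt : ∀ (a : η) (y : F), ‖toR ((-Complex.I) • Theta M G α (t a)) y‖ ≤ CT * ‖y‖ := by
    intro a y
    rw [toR_apply, LinearMap.smul_apply, norm_smul, norm_neg, Complex.norm_I, one_mul]
    refine (hT _ _ _).trans ?_
    rw [ht a, mul_one]
  have hA : ∀ s (y : F), ‖toR (aA M G α (e s)) y‖ ≤ CT * ‖y‖ := by
    intro s y
    rw [toR_apply]
    unfold aA
    rw [LinearMap.smul_apply, norm_smul, norm_neg, Complex.norm_I, one_mul]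
    refine (hT _ _ _).trans ?_
    rw [he s, mul_one]
  -- the coefficient derivatives
  have hb : ∀ s i (y : F), ‖fderiv ℝ (bet M G α v t χ i) x (le e s) y‖ ≤
      Fintype.card η * (C1 * CT) * ‖y‖ := by
    intro s i y
    rw [fderiv_bet hc, _root_.neg_apply, norm_neg, _root_.sum_apply]
    refine (norm_sum_le _ _).trans ?_
    have h2 : ∀ a ∈ (Finset.univ : Finset η),
        ‖(fderiv ℝ (cfs v t χ i a) x.1 (le e s).1 • toR ((-Complex.I) • Theta M G α (t a))) y‖ ≤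
        C1 * (CT * ‖y‖) := by
      intro a _
      rw [_root_.smul_apply, norm_smul]
      have h3 : ‖fderiv ℝ (cfs v t χ i a) x.1 (le e s).1‖ ≤ C1 := by
        refine ((fderiv ℝ (cfs v t χ i a) x.1).le_opNorm _).trans ?_
        have h4 : ‖(le e s).1‖ = 1 := e.orthonormal.1 s
        rw [h4, mul_one]
        exact h1 i a _
      exact mul_le_mul h3 (hTt a y) (norm_nonneg _) hC1
    refine (Finset.sum_le_sum h2).trans ?_
    rw [Finset.sum_const, Finset.card_univ, nsmul_eq_mul]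
    apply le_of_eq
    ring
  have hw : ∀ s (y : F), ‖fderiv ℝ (fun x : Sc b c => toR (wB b M G g α (c + x.1) x.2)) x
      (le e s) y‖ ≤ 2 * CW * (g * ‖x.2‖ * ‖y‖) := by
    intro s y
    unfold le
    rw [fderiv_wB, _root_.smul_apply, norm_smul, Real.norm_of_nonneg (by positivity)]
    have h2 : ‖Wq b M G α (e s) (x.2 : Zs b c) y‖ ≤ CW * ‖x.2‖ * ‖y‖ := by
      calc ‖Wq b M G α (e s) (x.2 : Zs b c) y‖
          ≤ ‖Wq b M G α (e s) (x.2 : Zs b c)‖ * ‖y‖ := ContinuousLinearMap.le_opNorm _ _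
        _ ≤ ‖Wq b M G α‖ * ‖((e s : Uk b c) : Cfg N)‖ * ‖((x.2 : Zs b c) : Cfg N)‖ * ‖y‖ := by
            gcongr
            exact (Wq b M G α).le_opNorm₂ _ _
        _ ≤ CW * 1 * ‖x.2‖ * ‖y‖ := by
            rw [he s]
            gcongr
            · exact hCWα α
            · exact le_refl _
        _ = _ := by ring
    calc 2 * g * ‖Wq b M G α (e s) (x.2 : Zs b c) y‖ ≤ 2 * g * (CW * ‖x.2‖ * ‖y‖) := by gcongr
      _ = _ := by ring
  have hdop : ∀ s, ‖dop (le e s) (hv v) (bet M G α v t χ)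
      (fun x => toR (wB b M G g α (c + x.1) x.2)) h x‖ ≤
      (Fintype.card κ * (Fintype.card η * (C1 * CT)) + 2 * CW) * S := by
    intro s
    unfold dop
    refine (norm_add_le _ _).trans ?_
    rw [add_mul]
    refine add_le_add ?_ ?_
    · refine (norm_sum_le _ _).trans ?_
      have h2 : ∀ i ∈ (Finset.univ : Finset κ),
          ‖fderiv ℝ (bet M G α v t χ i) x (le e s) (fderiv ℝ h x (hv v i))‖ ≤
          Fintype.card η * (C1 * CT) * S := fun i _ =>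
        (hb s i _).trans (mul_le_mul_of_nonneg_left (norm_pd_le v h x i) (by positivity))
      refine (Finset.sum_le_sum h2).trans ?_
      rw [Finset.sum_const, Finset.card_univ, nsmul_eq_mul]
      apply le_of_eq
      ring
    · exact (hw s _).trans (mul_le_mul_of_nonneg_left (norm_zd_le v h x) (by positivity))
  refine (norm_sum_le _ _).trans ?_
  have h5 : ∀ s ∈ (Finset.univ : Finset ι), ‖toR (aA M G α (e s)) (dop (le e s) (hv v)
      (bet M G α v t χ) (fun x => toR (wB b M G g α (c + x.1) x.2)) h x)‖ ≤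
      CT * ((Fintype.card κ * (Fintype.card η * (C1 * CT)) + 2 * CW) * S) := fun s _ =>
    (hA s _).trans (mul_le_mul_of_nonneg_left (hdop s) hCT)
  refine (Finset.sum_le_sum h5).trans ?_
  rw [Finset.sum_const, Finset.card_univ, nsmul_eq_mul]
  apply le_of_eq
  ring

/-- **The inequality on the odd part**, integrated over the slice. -/
def OddIneq (μ : Measure (Sc b c)) (M : FermionRep N F) (G : GammaNine)
    (v : OrthonormalBasis κ ℝ (Zs b c)) (t : OrthonormalBasis η ℝ (Tn (actB b) c))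
    (Γ : F →ₗ[ℂ] F) (ρ g K : ℝ) : Prop :=
  ∀ h : Sc b c → F, ContDiff ℝ 2 h → HasCompactSupport h →
    (∀ x : Sc b c, ρ < ‖x.1‖ → h x = 0) → (∀ x, Γ (h x) = - h x) →
    ∫ x, dd (hv v) (fun x => g * ‖x.2‖) h x ∂μ + g * ∫ x, ‖h x‖ ^ 2 ∂μ ≤
      K * ∑ α, ∫ x, ‖Bop b c M G g α v t h x‖ ^ 2 ∂μ

theorem perp_inner {K : Submodule ℝ (Colg N)} : ∀ u ∈ K, ∀ v ∈ Kᗮ, ⟪u, v⟫_ℝ = 0 :=
  fun _ hu _ hv => (Submodule.mem_orthogonal _ _).1 hv _ hu

theorem base_mem (hc : Comc b c) (u : Uk b c) : c + (u : Cfg N) ∈ Uk b c :=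
  (Uk b c).add_mem (self_mem_Uk hc) u.2

/-- the heavy part anticommutes with the parity -/
theorem Bop_par {Γ : F →ₗ[ℂ] F} (hΓ : IsPar b c M Γ) (hc : Comc b c)
    (v : OrthonormalBasis κ ℝ (Zs b c)) (t : OrthonormalBasis η ℝ (Tn (actB b) c))
    {Φ : Sc b c → F} {x : Sc b c} (hΦ : DifferentiableAt ℝ Φ x) :
    Bop b c M G g α v t (fun y => Po (toR Γ) (Φ y)) x = Pe (toR Γ) (Bop b c M G g α v t Φ x) := by
  have h1 : ∀ w, fderiv ℝ (fun y => Po (toR Γ) (Φ y)) x w = Po (toR Γ) (fderiv ℝ Φ x w) := by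
    intro w
    have := ((Po (toR Γ)).hasFDerivAt.comp x hΦ.hasFDerivAt).fderiv
    simp only [Function.comp_def] at this
    rw [this]
    rfl
  have h2 : ∀ (L : F →ₗ[ℂ] F), L ∈ Od M (kc (actB b) c)ᗮ → ∀ y : F,
      L (Po (toR Γ) y) = Pe (toR Γ) (L y) := by
    intro L hL y
    have h3 : Anti (toR Γ) (toR L) := fun z => hΓ.anti L hL z
    exact anti_Po h3 y
  unfold Bop
  simp only [h1]
  rw [map_add, map_sum]
  congr 1
  · refine Finset.sum_congr rfl fun i _ => ?_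
    exact h2 _ (aB_mem M G α t _ (v i).2.1) _
  · exact h2 _ (wB_mem M G g α (base_mem hc x.1) x.2.2.1) _

/-- **Lemma R, part 1: decoupling on the slice.** -/
theorem lemR1 (μ : Measure (Sc b c)) [μ.IsAddHaarMeasure] {r B : ℝ} (hr0 : 0 < r)
    (hr : GapAt (actB b) c r) (hB : ActBound (actB b) B) (hB0 : 0 ≤ B) (hc : Comc b c)
    (M : FermionRep N F) (G : GammaNine) {Γ : F →ₗ[ℂ] F} (hΓ : IsPar b c M Γ)
    (e : OrthonormalBasis ι ℝ (Uk b c)) (v : OrthonormalBasis κ ℝ (Zs b c))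
    (t : OrthonormalBasis η ℝ (Tn (actB b) c)) {ρ ρ' : ℝ} (h0 : 0 < ρ) (h1 : ρ < ρ')
    (h2 : B * ρ' ≤ r / 2) :
    ∃ C : ℝ, 0 ≤ C ∧ ∀ K : ℝ, 0 ≤ K → ∀ g m : ℝ, 0 ≤ g → OddIneq μ M G v t Γ ρ g K →
      ∀ Φ : Sc b c → F, ContDiff ℝ 2 Φ → HasCompactSupport Φ →
        (∀ x : Sc b c, ρ < ‖x.1‖ → Φ x = 0) →
        (∑ α, ∫ x, ‖Aop b c M G g m α e Φ x‖ ^ 2 ∂μ +
            (1 / 2) * ∑ α, ∫ x, ‖Bop b c M G g α v t Φ x‖ ^ 2 ∂μ ≤
          ∑ α, ∫ x, ‖Aop b c M G g m α e Φ x + Bop b c M G g α v t Φ x‖ ^ 2 ∂μ +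
            C * K * ∫ x, ‖Φ x‖ ^ 2 ∂μ) ∧
        (∫ x, dd (hv v) (fun x => g * ‖x.2‖) (fun y => Po (toR Γ) (Φ y)) x ∂μ +
            g * ∫ x, ‖Po (toR Γ) (Φ x)‖ ^ 2 ∂μ ≤
          K * ∑ α, ∫ x, ‖Bop b c M G g α v t Φ x‖ ^ 2 ∂μ) := by
  -- the cut-off
  let χ : ContDiffBump (0 : Uk b c) := ⟨ρ, ρ', h0, h1⟩
  have hχ1 : ∀ u : Uk b c, ‖u‖ ≤ ρ → χ u = 1 := fun u hu =>
    χ.one_of_mem_closedBall (by simpa using hu)
  have hχs : ∀ u ∈ tsupport (χ : Uk b c → ℝ), B * ‖u‖ ≤ r / 2 := by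
    intro u hu
    rw [χ.tsupport_eq] at hu
    have h3 : ‖u‖ ≤ ρ' := by simpa using hu
    exact (mul_le_mul_of_nonneg_left h3 hB0).trans h2
  have hχd : ContDiff ℝ ∞ (χ : Uk b c → ℝ) := χ.contDiff
  have hχc : HasCompactSupport (χ : Uk b c → ℝ) := χ.hasCompactSupport
  have hcf : ∀ i a, ContDiff ℝ ∞ (cfs v t χ i a) := fun i a =>
    contDiff_cfs hr0 hr hB v t hχd hχs i a
  obtain ⟨K0, hK0, hX⟩ := exists_hX M G e hcf hχc
  refine ⟨2 * (16 : ℝ) ^ 2 * K0 ^ 2, by positivity, fun K hK g m hg hodd Φ hΦ hcΦ hsΦ => ?_⟩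
  -- the odd part
  have hΦ1 : ContDiff ℝ 2 (fun y => Po (toR Γ) (Φ y)) := (Po (toR Γ)).contDiff.comp hΦ
  have hc1 : HasCompactSupport (fun y => Po (toR Γ) (Φ y)) :=
    hcΦ.mono' fun x hx => subset_tsupport _ (by intro h0; apply hx; simp [h0])
  have hs1 : ∀ x : Sc b c, ρ < ‖x.1‖ → Po (toR Γ) (Φ x) = 0 := fun x hx => by
    rw [hsΦ x hx, map_zero]
  have hinv : ∀ y, (toR Γ) ((toR Γ) y) = y := fun y => hΓ.inv y
  have hsy : Symm (toR Γ) := fun y z => hΓ.symm y z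
  have ho1 : ∀ x, Γ (Po (toR Γ) (Φ x)) = - Po (toR Γ) (Φ x) := fun x => Γ_Po hinv _
  have hod := hodd (fun y => Po (toR Γ) (Φ y)) hΦ1 hc1 hs1 ho1
  have hdΦ : ∀ x, DifferentiableAt ℝ Φ x := fun x => hΦ.differentiable (by norm_num) x
  have hBle : ∀ α, ∫ x, ‖Bop b c M G g α v t (fun y => Po (toR Γ) (Φ y)) x‖ ^ 2 ∂μ ≤
      ∫ x, ‖Bop b c M G g α v t Φ x‖ ^ 2 ∂μ := by
    intro α
    have hcont : Continuous (Bop b c M G g α v t Φ) := by
      have e1 : Bop b c M G g α v t Φ = op (hv v) (bet M G α v t χ)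
          (fun x => toR (wB b M G g α (c + x.1) x.2)) Φ :=
        funext fun x => (op_heavy v t hχ1 hsΦ x).symm
      rw [e1]
      exact (contDiff_op (n := 2) (m := 1) (by norm_num)
        (fun i => (contDiff_bet hcf i).of_le (by exact_mod_cast le_top))
        (contDiff_wB.of_le (by exact_mod_cast le_top)) hΦ).continuous
    have hcs : HasCompactSupport (Bop b c M G g α v t Φ) := by
      have e1 : Bop b c M G g α v t Φ = op (hv v) (bet M G α v t χ)
          (fun x => toR (wB b M G g α (c + x.1) x.2)) Φ :=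
        funext fun x => (op_heavy v t hχ1 hsΦ x).symm
      rw [e1]
      exact hasCompactSupport_op hcΦ
    refine integral_mono_of_nonneg (Eventually.of_forall fun x => by positivity)
      (integrable_sq_of_cont hcont hcs) (Eventually.of_forall fun x => ?_)
    simp only
    rw [Bop_par hΓ hc v t (hdΦ x)]
    exact norm_Pe_le hinv hsy _
  have hodB : ∫ x, dd (hv v) (fun x => g * ‖x.2‖) (fun y => Po (toR Γ) (Φ y)) x ∂μ +
      g * ∫ x, ‖Po (toR Γ) (Φ x)‖ ^ 2 ∂μ ≤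
      K * ∑ α, ∫ x, ‖Bop b c M G g α v t Φ x‖ ^ 2 ∂μ :=
    hod.trans (mul_le_mul_of_nonneg_left (Finset.sum_le_sum fun α _ => hBle α) hK)
  refine ⟨?_, hodB⟩
  -- the decoupling
  have hkk := perp_inner (K := kc (actB b) c)
  have hh1 : ∫ x, dd (hv v) (fun x => g * ‖x.2‖) (fun y => Po (toR Γ) (Φ y)) x ∂μ ≤
      K * ∑ α, ∫ x, ‖op (hv v) (bet M G α v t χ) (fun x => toR (wB b M G g α (c + x.1) x.2))
        (fun y => Po (toR Γ) (Φ y)) x‖ ^ 2 ∂μ := by
    simp only [op_heavy v t hχ1 hs1]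
    have h3 : 0 ≤ g * ∫ x, ‖Po (toR Γ) (Φ x)‖ ^ 2 ∂μ :=
      mul_nonneg hg (integral_nonneg fun x => by positivity)
    linarith
  have key := decouple (μ := μ) (e := le e)
    (a := fun α s => toR (aA M G α (e s))) (w := fun α x => toR (wA b M G g m α (c + x.1)))
    (v := hv v) (β := fun α => bet M G α v t χ)
    (p := fun α x => toR (wB b M G g α (c + x.1) x.2)) (Γ := toR Γ)
    (ρ := fun x => g * ‖x.2‖) (Φ := Φ) (K := K0) (K₁ := K)
    (fun α => contDiff_wA.of_le (by exact_mod_cast le_top))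
    (fun α i => (contDiff_bet hcf i).of_le (by exact_mod_cast le_top))
    (fun α => contDiff_wB.of_le (by exact_mod_cast le_top))
    (fun α s y z => aA_skew M G α _ y z)
    (fun α x y z => wA_symm M G g m α _ y z)
    (fun α i x y z => aBx_skew v t χ i x.1 y z)
    (fun α x y z => wB_symm M G g α _ _ y z)
    (fun α i x => by
      rw [fderiv_bet hcf]
      simp [hv])
    (fun α i x => fderiv_wA x (v i))
    (fun α s i x y => Od_anti M hkk (aA_mem M G α (e s).2) (aBx_mem v t χ i x.1) y)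
    (fun α s x y => Od_anti M hkk (aA_mem M G α (e s).2)
      (wB_mem M G g α (base_mem hc x.1) x.2.2.1) y)
    (fun α i x y => Od_anti M hkk (wA_mem M G g m α (base_mem hc x.1))
      (aBx_mem v t χ i x.1) y)
    (fun α x y => Od_anti M hkk (wA_mem M G g m α (base_mem hc x.1))
      (wB_mem M G g α (base_mem hc x.1) x.2.2.1) y)
    hinv hsy
    (fun α s y => (hΓ.comm _ (aA_mem M G α (e s).2) y).symm)
    (fun α x y => (hΓ.comm _ (wA_mem M G g m α (base_mem hc x.1)) y).symm)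
    (fun α i x y => hΓ.anti _ (aBx_mem v t χ i x.1) y)
    (fun α x y => hΓ.anti _ (wB_mem M G g α (base_mem hc x.1) x.2.2.1) y)
    (continuous_const.mul continuous_snd.norm) hΦ hcΦ hK0 hK
    (fun α x => hX g hg α _ x) hh1
  simp only [op_light, op_heavy v t hχ1 hsΦ, Fintype.card_fin] at key
  refine key.trans (le_of_eq ?_)
  push_cast
  ring

end Crest.Agent.R330.LemB342

end
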