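import Crest.Agent.R330.OffCm_302
import Crest.Agent.R330.Ims_714
import Crest.Agent.R330.Brid_837

/-!
R330, S9-OFF (helper302): mass away from the commuting variety is `O(g⁻²)` times the energy.

* `EnLow b M G C` : the lower energy bound `q ≥ ½‖∇φ‖² + ∫ V|φ|² - C ∫ (g|x|+m)|φ|²` (726's (1.1)).
* `qf_mul_le` : `q(χφ) ≤ 2 q(φ) + L² ‖φ‖²`.
* `off_mass` : `g² ∫_S |φ|² ≤ C' (q_{g,m}(φ) + ‖φ‖²)` for `S ⊆ {|x| ≤ ρ, V₁ ≥ v₀}`, `m² ≤ K g`.
* `off_weight` : `g² ∫_{|x| ≤ ρ} V₁ |φ|² ≤ C' (q + g ‖φ‖²)`.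
-/

set_option autoImplicit false
set_option linter.unusedSectionVars false
open MeasureTheory Filter Topology Crest.MathPhysics.MatrixQM
open scoped ContDiff InnerProductSpace

namespace Crest.Agent.R330.Off2302

open Crest.Agent.R330.CoerCfg87 Crest.Agent.R330.VId87 Crest.Agent.R330.AcomV302
open Crest.Agent.R330.Defs478 Crest.Agent.R330.OffCm302 Crest.Agent.R330.Ims714

noncomputable section

variable {N : ℕ} {F : Type*} [NormedAddCommGroup F] [InnerProductSpace ℂ F]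

/-- the potential part of the charges as an endomorphism field -/
def wop (b : ColorBasis N) (M : FermionRep N F) (G : GammaNine) (g m : ℝ) (α : Fin 16)
    (x : Cfg N) : F →ₗ[ℂ] F :=
  ∑ A : Fin (N ^ 2 - 1), ∑ β : Fin 16, ((wpot b G g m α β A x : ℝ) : ℂ) • M.θ β A

theorem dcharge_eq_dop (b : ColorBasis N) (M : FermionRep N F) (G : GammaNine) (g m : ℝ)
    (α : Fin 16) (φ : Cfg N → F) : dcharge b M G g m α φ = dop G M α (wop b M G g m α) φ := by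
  funext x
  simp only [dcharge, Defs478.kin, dop, wop, LinearMap.sum_apply, LinearMap.smul_apply]

variable [FiniteDimensional ℂ F]

theorem integrable_dcharge_sq (b : ColorBasis N) (M : FermionRep N F) (G : GammaNine)
    (g m : ℝ) (α : Fin 16) {φ : Cfg N → F} (hφ : ContDiff ℝ 1 φ) (hc : HasCompactSupport φ) :
    Integrable fun x => ‖dcharge b M G g m α φ x‖ ^ 2 := by
  refine ((continuous_dcharge b M G g m α hφ).norm.pow 2).integrable_of_hasCompactSupport ?_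
  have h1 := Brid837.hasCompactSupport_dcharge (b := b) (M := M) (G := G) (g := g) (m := m)
    (α := α) hc
  exact HasCompactSupport.intro h1 fun x hx => by
    simp only [Pi.pow_apply, image_eq_zero_of_notMem_tsupport hx]; simp

theorem integrable_sq {φ : Cfg N → F} (hφ : Continuous φ) (hc : HasCompactSupport φ) :
    Integrable fun x => ‖φ x‖ ^ 2 := by
  refine (hφ.norm.pow 2).integrable_of_hasCompactSupport ?_
  exact HasCompactSupport.intro hc fun x hx => by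
    simp only [Pi.pow_apply, image_eq_zero_of_notMem_tsupport hx]; simp

theorem integrable_mul_sq {φ : Cfg N → F} (hφ : Continuous φ) (hc : HasCompactSupport φ)
    {w : Cfg N → ℝ} (hw : Continuous w) : Integrable fun x => w x * ‖φ x‖ ^ 2 := by
  refine (hw.mul (hφ.norm.pow 2)).integrable_of_hasCompactSupport ?_
  exact HasCompactSupport.intro hc fun x hx => by
    simp only [Pi.mul_apply, Pi.pow_apply, image_eq_zero_of_notMem_tsupport hx]; simp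

/-- `q(χφ) ≤ 2 q(φ) + L² ‖φ‖²` for `|χ| ≤ 1`, `|∇χ| ≤ L` -/
theorem qf_mul_le (b : ColorBasis N) (M : FermionRep N F) (G : GammaNine) (g m : ℝ)
    {χ : Cfg N → ℝ} (hχ : ContDiff ℝ 1 χ) (h1 : ∀ x, |χ x| ≤ 1) {L : ℝ}
    (hL : ∀ x, ‖grad χ x‖ ≤ L) {φ : Cfg N → F} (hφ : ContDiff ℝ 1 φ)
    (hc : HasCompactSupport φ) :
    qf b M G g m (fun x => χ x • φ x) ≤ 2 * qf b M G g m φ + L ^ 2 * ∫ x, ‖φ x‖ ^ 2 := by
  have hχφ : ContDiff ℝ 1 (fun x => χ x • φ x) := hχ.smul hφ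
  have hcc : HasCompactSupport (fun x => χ x • φ x) := hc.smul_left
  have key : ∀ α, ∫ x, ‖dcharge b M G g m α (fun x => χ x • φ x) x‖ ^ 2 ≤
      2 * (∫ x, ‖dcharge b M G g m α φ x‖ ^ 2) + L ^ 2 * ∫ x, ‖φ x‖ ^ 2 := by
    intro α
    rw [← integral_const_mul, ← integral_const_mul, ← integral_add
      ((integrable_dcharge_sq b M G g m α hφ hc).const_mul _)
      ((integrable_sq hφ.continuous hc).const_mul _)]
    refine integral_mono (integrable_dcharge_sq b M G g m α hχφ hcc)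
      (((integrable_dcharge_sq b M G g m α hφ hc).const_mul _).add
        ((integrable_sq hφ.continuous hc).const_mul _)) fun x => ?_
    have h2 := normSq_dop_mul_le G M α (wop b M G g m α) (χ := χ) (φ := φ) (x := x)
      (hχ.differentiable (by simp) x) (hφ.differentiable (by simp) x) (t := 1) one_pos
    rw [← dcharge_eq_dop, ← dcharge_eq_dop] at h2
    refine h2.trans ?_
    have h3 : χ x ^ 2 ≤ 1 := by
      rw [← sq_abs]
      exact pow_le_one₀ (abs_nonneg _) (h1 x)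
    have h4 : ‖grad χ x‖ ^ 2 ≤ L ^ 2 := pow_le_pow_left₀ (norm_nonneg _) (hL x) 2
    have h5 : 0 ≤ ‖dcharge b M G g m α φ x‖ ^ 2 := by positivity
    have h6 : 0 ≤ ‖φ x‖ ^ 2 := by positivity
    nlinarith [mul_le_mul_of_nonneg_right h3 h5, mul_le_mul_of_nonneg_right h4 h6]
  unfold qf
  have h7 := Finset.sum_le_sum fun α (_ : α ∈ (Finset.univ : Finset (Fin 16))) => key α
  rw [Finset.sum_add_distrib, ← Finset.mul_sum, Finset.sum_const, Finset.card_univ,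
    Fintype.card_fin, nsmul_eq_mul] at h7
  push_cast at h7
  linarith

/-- the lower energy bound (the inequality half of (1.1)) -/
def EnLow (b : ColorBasis N) (M : FermionRep N F) (G : GammaNine) (C : ℝ) : Prop :=
  ∀ g m : ℝ, 0 ≤ g → 0 ≤ m → ∀ φ : Cfg N → F, ContDiff ℝ ∞ φ → HasCompactSupport φ →
    1 / 2 * (∑ k : Fin 9 × Fin (N ^ 2 - 1),
        ∫ x, ‖fderiv ℝ φ x (EuclideanSpace.single k 1)‖ ^ 2) +
      (∫ x, Vsq G b g m x * ‖φ x‖ ^ 2) ≤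
      qf b M G g m φ + C * ∫ x, (g * ‖x‖ + m) * ‖φ x‖ ^ 2

theorem continuous_Vsq (G : GammaNine) (b : ColorBasis N) (g m : ℝ) :
    Continuous (Vsq G b g m) := by
  unfold Vsq
  exact continuous_const.mul (continuous_finsetSum _ fun α _ => continuous_finsetSum _ fun β _ =>
    continuous_finsetSum _ fun A _ => (continuous_wpot b G g m α β A).pow 2)

theorem contDiff_Vq (b : ColorBasis N) : ContDiff ℝ ∞ (Vq b) := by
  unfold Vq br CoerCfg87.comp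
  fun_prop

theorem continuous_grad {χ : Cfg N → ℝ} (hχ : ContDiff ℝ 1 χ) : Continuous (grad χ) := by
  have h : Continuous fun x : Cfg N => fun iA : Fin 9 × Fin (N ^ 2 - 1) =>
      fderiv ℝ χ x (EuclideanSpace.single iA 1) :=
    continuous_pi fun iA => (hχ.continuous_fderiv one_ne_zero).clm_apply continuous_const
  exact (PiLp.continuous_toLp 2 (fun _ : Fin 9 × Fin (N ^ 2 - 1) => ℝ)).comp h

/-- smooth compactly supported functions have bounded gradient -/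
theorem exists_grad_bound {χ : Cfg N → ℝ} (hχ : ContDiff ℝ 1 χ) (hc : HasCompactSupport χ) :
    ∃ L : ℝ, 0 ≤ L ∧ ∀ x, ‖grad χ x‖ ≤ L := by
  have h1 : HasCompactSupport (grad χ) := by
    refine HasCompactSupport.intro hc fun x hx => ?_
    have h2 : fderiv ℝ χ x = 0 := by
      rw [(notMem_tsupport_iff_eventuallyEq.1 hx).fderiv_eq]
      exact fderiv_const_apply (0 : ℝ)
    ext iA
    rw [grad_apply, h2]
    simp
  obtain ⟨C, hC⟩ := h1.exists_bound_of_continuous (continuous_grad hχ)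
  exact ⟨max C 0, le_max_right _ _, fun x => (hC x).trans (le_max_left _ _)⟩

/-- the cut-off function: `1` on `{|x| ≤ ρ, V₁ ≥ v₀}`, supported in `{|x|² ≤ 2ρ², V₁ ≥ v₀/2}` -/
def chi (b : ColorBasis N) (ρ v₀ : ℝ) (x : Cfg N) : ℝ :=
  Real.smoothTransition (2 * Vq b x / v₀ - 1) * Real.smoothTransition (2 - ‖x‖ ^ 2 / ρ ^ 2)

theorem contDiff_chi (b : ColorBasis N) (ρ v₀ : ℝ) : ContDiff ℝ ∞ (chi b ρ v₀) := by
  unfold chi
  have h1 := contDiff_Vq b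
  refine ContDiff.mul (Real.smoothTransition.contDiff.comp ?_)
    (Real.smoothTransition.contDiff.comp ?_)
  · exact ((contDiff_const.mul h1).div_const _).sub contDiff_const
  · exact contDiff_const.sub ((contDiff_norm_sq ℝ).div_const _)

theorem chi_nonneg (b : ColorBasis N) (ρ v₀ : ℝ) (x : Cfg N) : 0 ≤ chi b ρ v₀ x :=
  mul_nonneg (Real.smoothTransition.nonneg _) (Real.smoothTransition.nonneg _)

theorem chi_le_one (b : ColorBasis N) (ρ v₀ : ℝ) (x : Cfg N) : chi b ρ v₀ x ≤ 1 :=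
  mul_le_one₀ (Real.smoothTransition.le_one _) (Real.smoothTransition.nonneg _)
    (Real.smoothTransition.le_one _)

theorem chi_eq_one (b : ColorBasis N) {ρ v₀ : ℝ} (hρ : 0 < ρ) (hv : 0 < v₀) {x : Cfg N}
    (hx : ‖x‖ ≤ ρ) (hV : v₀ ≤ Vq b x) : chi b ρ v₀ x = 1 := by
  unfold chi
  rw [Real.smoothTransition.one_of_one_le, Real.smoothTransition.one_of_one_le, one_mul]
  · have : ‖x‖ ^ 2 / ρ ^ 2 ≤ 1 := by
      rw [div_le_one (by positivity)]
      exact pow_le_pow_left₀ (norm_nonneg _) hx 2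
    linarith
  · have : 1 ≤ Vq b x / v₀ := by rwa [one_le_div hv]
    have h2 : 2 * Vq b x / v₀ = 2 * (Vq b x / v₀) := by ring
    rw [h2]
    linarith

theorem chi_supp (b : ColorBasis N) {ρ v₀ : ℝ} (hρ : 0 < ρ) (hv : 0 < v₀) {x : Cfg N}
    (hx : chi b ρ v₀ x ≠ 0) : ‖x‖ ≤ 2 * ρ ∧ v₀ / 2 ≤ Vq b x := by
  unfold chi at hx
  have h1 : Real.smoothTransition (2 * Vq b x / v₀ - 1) ≠ 0 := left_ne_zero_of_mul hx
  have h2 : Real.smoothTransition (2 - ‖x‖ ^ 2 / ρ ^ 2) ≠ 0 := right_ne_zero_of_mul hx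
  constructor
  · by_contra hcon
    push Not at hcon
    apply h2
    refine Real.smoothTransition.zero_of_nonpos ?_
    have h3 : (2 * ρ) ^ 2 ≤ ‖x‖ ^ 2 := pow_le_pow_left₀ (by positivity) hcon.le 2
    have h4 : 4 ≤ ‖x‖ ^ 2 / ρ ^ 2 := by
      rw [le_div_iff₀ (by positivity)]
      nlinarith
    linarith
  · by_contra hcon
    push Not at hcon
    apply h1
    refine Real.smoothTransition.zero_of_nonpos ?_
    have h3 : 2 * Vq b x / v₀ ≤ 1 := by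
      rw [div_le_one hv]
      linarith
    linarith

theorem chi_compact (b : ColorBasis N) {ρ v₀ : ℝ} (hρ : 0 < ρ) (hv : 0 < v₀) :
    HasCompactSupport (chi b ρ v₀) := by
  refine HasCompactSupport.intro (isCompact_closedBall (0 : Cfg N) (2 * ρ)) fun x hx => ?_
  by_contra h
  exact hx (mem_closedBall_zero_iff.2 (chi_supp b hρ hv h).1)

/-- **Mass off the commuting variety.** -/
theorem off_mass (b : ColorBasis N) (M : FermionRep N F) (G : GammaNine) {C : ℝ}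
    (hEn : EnLow b M G C) (K ρ v₀ : ℝ) (hv : 0 < v₀) :
    ∃ C' : ℝ, 0 ≤ C' ∧ ∀ g m : ℝ, 1 ≤ g → 0 ≤ m → m ^ 2 ≤ K * g → ∀ φ : Cfg N → F,
      ContDiff ℝ ∞ φ → HasCompactSupport φ → ∀ S : Set (Cfg N), MeasurableSet S →
      (∀ x ∈ S, ‖x‖ ≤ ρ ∧ v₀ ≤ Vq b x) →
      g ^ 2 * ∫ x in S, ‖φ x‖ ^ 2 ≤ C' * (qf b M G g m φ + ∫ x, ‖φ x‖ ^ 2) := by
  set ρ' : ℝ := max ρ 1 with hρ'
  have hρ0 : 0 < ρ' := lt_of_lt_of_le one_pos (le_max_right _ _)
  obtain ⟨L, hL0, hL⟩ := exists_grad_bound ((contDiff_chi b ρ' v₀).of_le (by simp))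
    (chi_compact b hρ0 hv)
  set Cp : ℝ := |C| with hCp
  have hCp0 : 0 ≤ Cp := abs_nonneg C
  set C₂ : ℝ := |K| * (2 * ρ') ^ 2 / 18 + Cp * (2 * ρ' + (1 + |K|)) with hC₂
  have hC₂0 : 0 ≤ C₂ := by positivity
  refine ⟨32 / v₀ * (2 + L ^ 2) + (32 * C₂ / v₀) ^ 2, by positivity,
    fun g m hg hm hmK φ hφ hc S hS hSx => ?_⟩
  have hg0 : 0 < g := lt_of_lt_of_le one_pos hg
  set ψ : Cfg N → F := fun x => chi b ρ' v₀ x • φ x with hψ
  have hψc : ContDiff ℝ ∞ ψ := (contDiff_chi b ρ' v₀).smul hφ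
  have hψs : HasCompactSupport ψ := hc.smul_left
  have hφ1 : ContDiff ℝ 1 φ := hφ.of_le (by simp)
  have hI : 0 ≤ ∫ x, ‖φ x‖ ^ 2 := integral_nonneg fun x => by positivity
  have hIψ : 0 ≤ ∫ x, ‖ψ x‖ ^ 2 := integral_nonneg fun x => by positivity
  have hq : 0 ≤ qf b M G g m φ := by
    unfold qf
    have : 0 ≤ ∑ α : Fin 16, ∫ x, ‖dcharge b M G g m α φ x‖ ^ 2 :=
      Finset.sum_nonneg fun α _ => integral_nonneg fun x => by positivity
    positivity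
  have hSψ : ∫ x in S, ‖φ x‖ ^ 2 ≤ ∫ x, ‖ψ x‖ ^ 2 := by
    have h1 : ∫ x in S, ‖φ x‖ ^ 2 = ∫ x in S, ‖ψ x‖ ^ 2 := by
      refine setIntegral_congr_fun hS fun x hx => ?_
      obtain ⟨hx1, hx2⟩ := hSx x hx
      simp only [hψ]
      rw [chi_eq_one b hρ0 hv (hx1.trans (le_max_left _ _)) hx2, one_smul]
    rw [h1]
    exact setIntegral_le_integral (integrable_sq hψc.continuous hψs)
      (Eventually.of_forall fun x => by positivity)
  have hψφ : ∫ x, ‖ψ x‖ ^ 2 ≤ ∫ x, ‖φ x‖ ^ 2 := by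
    refine integral_mono (integrable_sq hψc.continuous hψs) (integrable_sq hφ.continuous hc)
      fun x => ?_
    simp only [hψ]
    rw [norm_smul, Real.norm_eq_abs, abs_of_nonneg (chi_nonneg b ρ' v₀ x), mul_pow]
    have h1 : chi b ρ' v₀ x ^ 2 ≤ 1 := pow_le_one₀ (chi_nonneg b ρ' v₀ x) (chi_le_one b ρ' v₀ x)
    exact mul_le_of_le_one_left (by positivity) h1
  have hE := hEn g m hg0.le hm ψ hψc hψs
  have hgrad : 0 ≤ 1 / 2 * (∑ k : Fin 9 × Fin (N ^ 2 - 1),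
      ∫ x, ‖fderiv ℝ ψ x (EuclideanSpace.single k 1)‖ ^ 2) := by
    have : 0 ≤ ∑ k : Fin 9 × Fin (N ^ 2 - 1),
        ∫ x, ‖fderiv ℝ ψ x (EuclideanSpace.single k 1)‖ ^ 2 :=
      Finset.sum_nonneg fun k _ => integral_nonneg fun x => by positivity
    positivity
  have hm1 : m ≤ (1 + |K|) * g := by
    have h1 : m ≤ 1 + m ^ 2 := by nlinarith [sq_nonneg (m - 1)]
    have h2 : K * g ≤ |K| * g := mul_le_mul_of_nonneg_right (le_abs_self K) hg0.le
    nlinarith [abs_nonneg K]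
  have hmK' : m ^ 2 ≤ |K| * g := hmK.trans (mul_le_mul_of_nonneg_right (le_abs_self K) hg0.le)
  -- pointwise lower bound of the potential on the support of ψ
  have hVl : (g ^ 2 * v₀ / 16) * (∫ x, ‖ψ x‖ ^ 2) ≤
      (∫ x, Vsq G b g m x * ‖ψ x‖ ^ 2) + |K| * g * (2 * ρ') ^ 2 / 18 * ∫ x, ‖ψ x‖ ^ 2 := by
    rw [← integral_const_mul, ← integral_const_mul, ← integral_add
      (integrable_mul_sq hψc.continuous hψs (continuous_Vsq G b g m))
      ((integrable_sq hψc.continuous hψs).const_mul _)]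
    refine integral_mono ((integrable_sq hψc.continuous hψs).const_mul _)
      ((integrable_mul_sq hψc.continuous hψs (continuous_Vsq G b g m)).add
        ((integrable_sq hψc.continuous hψs).const_mul _)) fun x => ?_
    simp only
    by_cases hx : chi b ρ' v₀ x = 0
    · simp [hψ, hx]
    · obtain ⟨h1, h2⟩ := chi_supp b hρ0 hv hx
      have h3 := Vsq_ge G b g m x
      have h4 : ‖x‖ ^ 2 ≤ (2 * ρ') ^ 2 := pow_le_pow_left₀ (norm_nonneg _) h1 2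
      have h5 : g ^ 2 / 8 * (v₀ / 2) ≤ g ^ 2 / 8 * Vq b x :=
        mul_le_mul_of_nonneg_left h2 (by positivity)
      have h6 : m ^ 2 / 18 * ‖x‖ ^ 2 ≤ |K| * g * (2 * ρ') ^ 2 / 18 := by
        have := mul_le_mul hmK' h4 (by positivity) (by positivity)
        linarith
      have h7 : g ^ 2 * v₀ / 16 ≤ Vsq G b g m x + |K| * g * (2 * ρ') ^ 2 / 18 := by linarith
      have h8 := mul_le_mul_of_nonneg_right h7 (show 0 ≤ ‖ψ x‖ ^ 2 by positivity)
      linarith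
  have hY : C * ∫ x, (g * ‖x‖ + m) * ‖ψ x‖ ^ 2 ≤
      Cp * (2 * ρ' + (1 + |K|)) * g * ∫ x, ‖ψ x‖ ^ 2 := by
    have h1 : ∫ x, (g * ‖x‖ + m) * ‖ψ x‖ ^ 2 ≤
        ((2 * ρ' + (1 + |K|)) * g) * ∫ x, ‖ψ x‖ ^ 2 := by
      rw [← integral_const_mul]
      refine integral_mono (integrable_mul_sq hψc.continuous hψs
        ((continuous_const.mul continuous_norm).add continuous_const))
        ((integrable_sq hψc.continuous hψs).const_mul _) fun x => ?_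
      simp only
      by_cases hx : chi b ρ' v₀ x = 0
      · simp [hψ, hx]
      · obtain ⟨h1, h2⟩ := chi_supp b hρ0 hv hx
        refine mul_le_mul_of_nonneg_right ?_ (by positivity)
        have := mul_le_mul_of_nonneg_left h1 hg0.le
        linarith
    have h2 : 0 ≤ ∫ x, (g * ‖x‖ + m) * ‖ψ x‖ ^ 2 :=
      integral_nonneg fun x => by positivity
    calc C * ∫ x, (g * ‖x‖ + m) * ‖ψ x‖ ^ 2 ≤ Cp * ∫ x, (g * ‖x‖ + m) * ‖ψ x‖ ^ 2 :=
          mul_le_mul_of_nonneg_right (le_abs_self C) h2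
      _ ≤ Cp * (((2 * ρ' + (1 + |K|)) * g) * ∫ x, ‖ψ x‖ ^ 2) :=
          mul_le_mul_of_nonneg_left h1 hCp0
      _ = _ := by ring
  have hqψ := qf_mul_le b M G g m (χ := chi b ρ' v₀) ((contDiff_chi b ρ' v₀).of_le (by simp))
    (fun x => by rw [abs_of_nonneg (chi_nonneg b ρ' v₀ x)]; exact chi_le_one b ρ' v₀ x) hL hφ1 hc
  have hmain : g ^ 2 * v₀ / 16 * (∫ x, ‖ψ x‖ ^ 2) ≤
      2 * qf b M G g m φ + L ^ 2 * (∫ x, ‖φ x‖ ^ 2) + C₂ * g * ∫ x, ‖ψ x‖ ^ 2 := by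
    have e1 : C₂ * g * ∫ x, ‖ψ x‖ ^ 2 = |K| * g * (2 * ρ') ^ 2 / 18 * (∫ x, ‖ψ x‖ ^ 2) +
        Cp * (2 * ρ' + (1 + |K|)) * g * ∫ x, ‖ψ x‖ ^ 2 := by
      rw [hC₂]; ring
    rw [e1]
    linarith
  have hL2 : 0 ≤ L ^ 2 := sq_nonneg L
  rcases le_or_gt (32 * C₂ / v₀) g with hgl | hgl
  · have h1 : 32 * C₂ ≤ g * v₀ := by rwa [div_le_iff₀ hv] at hgl
    have h2 : C₂ * g * (∫ x, ‖ψ x‖ ^ 2) ≤ g ^ 2 * v₀ / 32 * ∫ x, ‖ψ x‖ ^ 2 := by
      refine mul_le_mul_of_nonneg_right ?_ hIψ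
      nlinarith
    have h3 : g ^ 2 * v₀ / 32 * (∫ x, ‖ψ x‖ ^ 2) ≤
        2 * qf b M G g m φ + L ^ 2 * ∫ x, ‖φ x‖ ^ 2 := by linarith
    have h4 : g ^ 2 * (∫ x, ‖ψ x‖ ^ 2) ≤
        32 / v₀ * (2 * qf b M G g m φ + L ^ 2 * ∫ x, ‖φ x‖ ^ 2) := by
      rw [div_mul_eq_mul_div, le_div_iff₀ hv]
      linarith
    have h5 : 32 / v₀ * (2 * qf b M G g m φ + L ^ 2 * ∫ x, ‖φ x‖ ^ 2) ≤
        32 / v₀ * (2 + L ^ 2) * (qf b M G g m φ + ∫ x, ‖φ x‖ ^ 2) := by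
      rw [mul_assoc]
      refine mul_le_mul_of_nonneg_left ?_ (by positivity)
      nlinarith [mul_nonneg hL2 hq]
    have h6 : 0 ≤ (32 * C₂ / v₀) ^ 2 * (qf b M G g m φ + ∫ x, ‖φ x‖ ^ 2) := by positivity
    calc g ^ 2 * ∫ x in S, ‖φ x‖ ^ 2 ≤ g ^ 2 * ∫ x, ‖ψ x‖ ^ 2 :=
          mul_le_mul_of_nonneg_left hSψ (by positivity)
      _ ≤ _ := by linarith
  · have h1 : g ^ 2 ≤ (32 * C₂ / v₀) ^ 2 := pow_le_pow_left₀ hg0.le hgl.le 2
    have h2 : 0 ≤ 32 / v₀ * (2 + L ^ 2) * (qf b M G g m φ + ∫ x, ‖φ x‖ ^ 2) := by positivity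
    calc g ^ 2 * ∫ x in S, ‖φ x‖ ^ 2 ≤ (32 * C₂ / v₀) ^ 2 * ∫ x, ‖φ x‖ ^ 2 :=
          mul_le_mul h1 (hSψ.trans hψφ) (integral_nonneg fun x => by positivity) (by positivity)
      _ ≤ (32 * C₂ / v₀) ^ 2 * (qf b M G g m φ + ∫ x, ‖φ x‖ ^ 2) :=
          mul_le_mul_of_nonneg_left (by linarith) (by positivity)
      _ ≤ _ := by linarith

/-- compact sets off the commuting variety are in the range of `off_mass` -/
theorem exists_sep (b : ColorBasis N) {K : Set (Cfg N)} (hK : IsCompact K)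
    (hd : Disjoint K (Cm b)) : ∃ ρ v₀ : ℝ, 0 < v₀ ∧ ∀ x ∈ K, ‖x‖ ≤ ρ ∧ v₀ ≤ Vq b x := by
  obtain ⟨ρ, hρ⟩ := hK.isBounded.exists_norm_le
  rcases K.eq_empty_or_nonempty with rfl | hne
  · exact ⟨0, 1, one_pos, fun x hx => hx.elim⟩
  · obtain ⟨x₀, hx₀, hmin⟩ := hK.exists_isMinOn hne (continuous_Vq b).continuousOn
    have hpos : 0 < Vq b x₀ := by
      refine lt_of_le_of_ne (Vq_nonneg b x₀) fun h => ?_
      exact Set.disjoint_left.1 hd hx₀ h.symm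
    exact ⟨ρ, Vq b x₀, hpos, fun x hx => ⟨hρ x hx, hmin hx⟩⟩

theorem qf_nonneg (b : ColorBasis N) (M : FermionRep N F) (G : GammaNine) (g m : ℝ)
    (φ : Cfg N → F) : 0 ≤ qf b M G g m φ := by
  unfold qf
  have : 0 ≤ ∑ α : Fin 16, ∫ x, ‖dcharge b M G g m α φ x‖ ^ 2 :=
    Finset.sum_nonneg fun α _ => integral_nonneg fun x => by positivity
  positivity

/-- `S9-OFF`, sequence form: bounded energy sequences with coupling `→ ∞` lose their mass off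
the commuting variety. -/
theorem off_seq (b : ColorBasis N) (M : FermionRep N F) (G : GammaNine) {C : ℝ}
    (hEn : EnLow b M G C) (ρ v₀ : ℝ) (hv : 0 < v₀) {m : ℝ} (hm : 0 ≤ m) {g : ℕ → ℝ}
    (hg : Tendsto g atTop atTop) {φ : ℕ → Cfg N → F} (hφ : ∀ j, ContDiff ℝ ∞ (φ j))
    (hc : ∀ j, HasCompactSupport (φ j)) {E : ℝ}
    (hE : ∀ j, qf b M G (g j) m (φ j) + ∫ x, ‖φ j x‖ ^ 2 ≤ E) {S : Set (Cfg N)}
    (hS : MeasurableSet S) (hSx : ∀ x ∈ S, ‖x‖ ≤ ρ ∧ v₀ ≤ Vq b x) :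
    Tendsto (fun j => ∫ x in S, ‖φ j x‖ ^ 2) atTop (𝓝 0) := by
  obtain ⟨C', hC', h⟩ := off_mass b M G hEn (m ^ 2) ρ v₀ hv
  have hlim : Tendsto (fun j => C' * E / (g j) ^ 2) atTop (𝓝 0) :=
    Tendsto.div_atTop tendsto_const_nhds ((tendsto_pow_atTop two_ne_zero).comp hg)
  refine squeeze_zero' (Eventually.of_forall fun j => integral_nonneg fun x => by positivity)
    ?_ hlim
  filter_upwards [hg.eventually_ge_atTop 1] with j hj
  have h1 := h (g j) m hj hm (by nlinarith [sq_nonneg m]) (φ j) (hφ j) (hc j) S hS hSx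
  rw [le_div_iff₀ (by positivity), mul_comm]
  exact h1.trans (mul_le_mul_of_nonneg_left (hE j) hC')

/-- compact `K` disjoint from the commuting variety -/
theorem off_compact (b : ColorBasis N) (M : FermionRep N F) (G : GammaNine) {C : ℝ}
    (hEn : EnLow b M G C) (K₀ : ℝ) {K : Set (Cfg N)} (hK : IsCompact K)
    (hd : Disjoint K (Cm b)) :
    ∃ C' : ℝ, 0 ≤ C' ∧ ∀ g m : ℝ, 1 ≤ g → 0 ≤ m → m ^ 2 ≤ K₀ * g → ∀ φ : Cfg N → F,
      ContDiff ℝ ∞ φ → HasCompactSupport φ →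
      g ^ 2 * ∫ x in K, ‖φ x‖ ^ 2 ≤ C' * (qf b M G g m φ + ∫ x, ‖φ x‖ ^ 2) := by
  obtain ⟨ρ, v₀, hv, hx⟩ := exists_sep b hK hd
  obtain ⟨C', hC', h⟩ := off_mass b M G hEn K₀ ρ v₀ hv
  exact ⟨C', hC', fun g m hg hm hmK φ hφ hc => h g m hg hm hmK φ hφ hc K hK.measurableSet hx⟩

/-- compact `K` disjoint from the commuting variety, sequences -/
theorem off_compact_seq (b : ColorBasis N) (M : FermionRep N F) (G : GammaNine) {C : ℝ}
    (hEn : EnLow b M G C) {K : Set (Cfg N)} (hK : IsCompact K) (hd : Disjoint K (Cm b))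
    {m : ℝ} (hm : 0 ≤ m) {g : ℕ → ℝ} (hg : Tendsto g atTop atTop) {φ : ℕ → Cfg N → F}
    (hφ : ∀ j, ContDiff ℝ ∞ (φ j)) (hc : ∀ j, HasCompactSupport (φ j)) {E : ℝ}
    (hE : ∀ j, qf b M G (g j) m (φ j) + ∫ x, ‖φ j x‖ ^ 2 ≤ E) :
    Tendsto (fun j => ∫ x in K, ‖φ j x‖ ^ 2) atTop (𝓝 0) := by
  obtain ⟨ρ, v₀, hv, hx⟩ := exists_sep b hK hd
  exact off_seq b M G hEn ρ v₀ hv hm hg hφ hc hE hK.measurableSet hx

/-- `S9-OFF`, weighted form on balls: `g² ∫ V₁|φ|² + ∫ |∇φ|² ≤ C' (q + g ‖φ‖²)` for `φ`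
supported in `|x| ≤ ρ`. -/
theorem off_weight (b : ColorBasis N) (M : FermionRep N F) (G : GammaNine) {C : ℝ}
    (hEn : EnLow b M G C) (K ρ : ℝ) :
    ∃ C' : ℝ, 0 ≤ C' ∧ ∀ g m : ℝ, 1 ≤ g → 0 ≤ m → m ^ 2 ≤ K * g → ∀ φ : Cfg N → F,
      ContDiff ℝ ∞ φ → HasCompactSupport φ → (∀ x, φ x ≠ 0 → ‖x‖ ≤ ρ) →
      (∑ k : Fin 9 × Fin (N ^ 2 - 1),
        ∫ x, ‖fderiv ℝ φ x (EuclideanSpace.single k 1)‖ ^ 2) + g ^ 2 * (∫ x, Vq b x * ‖φ x‖ ^ 2) ≤
      C' * (qf b M G g m φ + g * ∫ x, ‖φ x‖ ^ 2) := by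
  set Cp : ℝ := |C| with hCp
  have hCp0 : 0 ≤ Cp := abs_nonneg C
  set C₂ : ℝ := |K| * ρ ^ 2 / 18 + Cp * (|ρ| + (1 + |K|)) with hC₂
  have hC₂0 : 0 ≤ C₂ := by positivity
  refine ⟨8 * (1 + C₂), by positivity, fun g m hg hm hmK φ hφ hc hs => ?_⟩
  have hg0 : 0 < g := lt_of_lt_of_le one_pos hg
  have hI : 0 ≤ ∫ x, ‖φ x‖ ^ 2 := integral_nonneg fun x => by positivity
  have hq := qf_nonneg b M G g m φ
  have hE := hEn g m hg0.le hm φ hφ hc
  have hm1 : m ≤ (1 + |K|) * g := by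
    have h1 : m ≤ 1 + m ^ 2 := by nlinarith [sq_nonneg (m - 1)]
    have h2 : K * g ≤ |K| * g := mul_le_mul_of_nonneg_right (le_abs_self K) hg0.le
    nlinarith [abs_nonneg K]
  have hmK' : m ^ 2 ≤ |K| * g := hmK.trans (mul_le_mul_of_nonneg_right (le_abs_self K) hg0.le)
  have hVl : (g ^ 2 / 8) * (∫ x, Vq b x * ‖φ x‖ ^ 2) ≤
      (∫ x, Vsq G b g m x * ‖φ x‖ ^ 2) + |K| * g * ρ ^ 2 / 18 * ∫ x, ‖φ x‖ ^ 2 := by
    rw [← integral_const_mul, ← integral_const_mul, ← integral_add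
      (integrable_mul_sq hφ.continuous hc (continuous_Vsq G b g m))
      ((integrable_sq hφ.continuous hc).const_mul _)]
    refine integral_mono ((integrable_mul_sq hφ.continuous hc (continuous_Vq b)).const_mul _)
      ((integrable_mul_sq hφ.continuous hc (continuous_Vsq G b g m)).add
        ((integrable_sq hφ.continuous hc).const_mul _)) fun x => ?_
    simp only
    by_cases hx : φ x = 0
    · simp [hx]
    · have h1 := hs x hx
      have h3 := Vsq_ge G b g m x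
      have h4 : ‖x‖ ^ 2 ≤ ρ ^ 2 := pow_le_pow_left₀ (norm_nonneg _) h1 2
      have h6 : m ^ 2 / 18 * ‖x‖ ^ 2 ≤ |K| * g * ρ ^ 2 / 18 := by
        have := mul_le_mul hmK' h4 (by positivity) (by positivity)
        linarith
      have h7 : g ^ 2 / 8 * Vq b x ≤ Vsq G b g m x + |K| * g * ρ ^ 2 / 18 := by linarith
      have h8 := mul_le_mul_of_nonneg_right h7 (show 0 ≤ ‖φ x‖ ^ 2 by positivity)
      linarith
  have hY : C * ∫ x, (g * ‖x‖ + m) * ‖φ x‖ ^ 2 ≤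
      Cp * (|ρ| + (1 + |K|)) * g * ∫ x, ‖φ x‖ ^ 2 := by
    have h1 : ∫ x, (g * ‖x‖ + m) * ‖φ x‖ ^ 2 ≤
        ((|ρ| + (1 + |K|)) * g) * ∫ x, ‖φ x‖ ^ 2 := by
      rw [← integral_const_mul]
      refine integral_mono (integrable_mul_sq hφ.continuous hc
        ((continuous_const.mul continuous_norm).add continuous_const))
        ((integrable_sq hφ.continuous hc).const_mul _) fun x => ?_
      simp only
      by_cases hx : φ x = 0
      · simp [hx]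
      · refine mul_le_mul_of_nonneg_right ?_ (by positivity)
        have := mul_le_mul_of_nonneg_left ((hs x hx).trans (le_abs_self ρ)) hg0.le
        linarith
    have h2 : 0 ≤ ∫ x, (g * ‖x‖ + m) * ‖φ x‖ ^ 2 :=
      integral_nonneg fun x => by positivity
    calc C * ∫ x, (g * ‖x‖ + m) * ‖φ x‖ ^ 2 ≤ Cp * ∫ x, (g * ‖x‖ + m) * ‖φ x‖ ^ 2 :=
          mul_le_mul_of_nonneg_right (le_abs_self C) h2
      _ ≤ Cp * (((|ρ| + (1 + |K|)) * g) * ∫ x, ‖φ x‖ ^ 2) :=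
          mul_le_mul_of_nonneg_left h1 hCp0
      _ = _ := by ring
  have hgr : 0 ≤ ∑ k : Fin 9 × Fin (N ^ 2 - 1),
      ∫ x, ‖fderiv ℝ φ x (EuclideanSpace.single k 1)‖ ^ 2 :=
    Finset.sum_nonneg fun k _ => integral_nonneg fun x => by positivity
  have hVn : 0 ≤ ∫ x, Vq b x * ‖φ x‖ ^ 2 :=
    integral_nonneg fun x => mul_nonneg (Vq_nonneg b x) (by positivity)
  have e1 : C₂ * g * ∫ x, ‖φ x‖ ^ 2 = |K| * g * ρ ^ 2 / 18 * (∫ x, ‖φ x‖ ^ 2) +
      Cp * (|ρ| + (1 + |K|)) * g * ∫ x, ‖φ x‖ ^ 2 := by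
    rw [hC₂]; ring
  have hmain : 1 / 2 * (∑ k : Fin 9 × Fin (N ^ 2 - 1),
      ∫ x, ‖fderiv ℝ φ x (EuclideanSpace.single k 1)‖ ^ 2) +
      g ^ 2 / 8 * (∫ x, Vq b x * ‖φ x‖ ^ 2) ≤ qf b M G g m φ + C₂ * g * ∫ x, ‖φ x‖ ^ 2 := by
    rw [e1]
    linarith
  have h9 : 0 ≤ g * ∫ x, ‖φ x‖ ^ 2 := by positivity
  nlinarith [mul_nonneg hC₂0 hq]

end

end Crest.Agent.R330.Off2302
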