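import Mathlib
import Crest.Agent.R330.Off2_302
import Crest.Agent.R330.SlQE_87
import Crest.Agent.R330.Moll_596

/-!
# Row 330, CAP (helper365): radial cut-off of a core vector of arbitrary support

`cut ρ` (596): smooth, radial, one on `‖x‖ ≤ ρ`, zero for `2ρ ≤ ‖x‖`.

* `core_cut` : `cut ρ • φ` is a core vector.
* `qf_cut_le` : `q(cut ρ φ) ≤ 2 q(φ) + K ∫‖φ‖²`, `K` independent of `g, m, φ`.
* `int_cut_le`, `En_cut_le`.
* `fderiv_cut_eq`, `dcharge_cut_eq` : nothing changes for `‖x‖ < ρ`.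
* `half_cut` : the slice function (87's `half`) does not change if `η` lives in `‖c + u + z‖ ≤ ρ`.
* `exists_cut` : all of it in one statement.
-/

set_option autoImplicit false
set_option linter.unusedSectionVars false

open MeasureTheory Set Filter Topology Crest.MathPhysics.MatrixQM
open scoped ContDiff InnerProductSpace ENNReal

noncomputable section

namespace Crest.Agent.R330.LemCut365

open Crest.Agent.R330.Defs478 Crest.Agent.R330.Moll596 Crest.Agent.R330.Off2302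
  Crest.Agent.R330.SlQE87 Crest.Agent.R330.Bind6839

variable {N : ℕ} {F : Type*} [NormedAddCommGroup F] [InnerProductSpace ℂ F]
  [FiniteDimensional ℂ F]

section core

variable {b : ColorBasis N} {M : FermionRep N F} {R : GaugeAction b M} {φ : Cfg N → F}

theorem core_cut (ρ : ℝ) (hφ : IsCoreVec b R φ) :
    IsCoreVec b R fun x => cut ρ x • φ x := by
  refine ⟨(cut_smooth ρ).smul hφ.1, hφ.2.1.smul_left, fun g x => ?_⟩
  show cut ρ (b.act g x) • φ (b.act g x) = R.ρ g (cut ρ x • φ x)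
  rw [cut_radial ρ (Col962.norm_act b g x), hφ.2.2 g x]
  have h1 : R.ρ g ((cut ρ x : ℂ) • φ x) = (cut ρ x : ℂ) • R.ρ g (φ x) := map_smul _ _ _
  rw [← Complex.coe_smul, ← Complex.coe_smul, h1]

theorem norm_cut_le (ρ : ℝ) (x : Cfg N) : ‖cut ρ x • φ x‖ ≤ ‖φ x‖ := by
  rw [norm_smul, Real.norm_of_nonneg (cut_nonneg ρ x)]
  exact mul_le_of_le_one_left (norm_nonneg _) (cut_le_one ρ x)

theorem int_cut_le (ρ : ℝ) (hφ : IsCoreVec b R φ) :
    ∫ x, ‖cut ρ x • φ x‖ ^ 2 ≤ ∫ x, ‖φ x‖ ^ 2 := by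
  refine integral_mono (integrable_sq (core_cut ρ hφ).1.continuous (core_cut ρ hφ).2.1)
    (integrable_sq hφ.1.continuous hφ.2.1) fun x => ?_
  exact pow_le_pow_left₀ (norm_nonneg _) (norm_cut_le ρ x) 2

/-- The cut-off costs a multiple of the mass. -/
theorem qf_cut_le (b : ColorBasis N) (M : FermionRep N F) (R : GaugeAction b M) (G : GammaNine)
    {ρ : ℝ} (hρ : 0 < ρ) :
    ∃ K : ℝ, 0 ≤ K ∧ ∀ (g m : ℝ) (φ : Cfg N → F), IsCoreVec b R φ →
      qf b M G g m (fun x => cut ρ x • φ x) ≤ 2 * qf b M G g m φ + K * ∫ x, ‖φ x‖ ^ 2 := by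
  have hs : ContDiff ℝ 1 (cut ρ : Cfg N → ℝ) := (cut_smooth ρ).of_le (by exact_mod_cast le_top)
  obtain ⟨L, hL0, hL⟩ := exists_grad_bound hs (cut_supp hρ)
  refine ⟨L ^ 2, sq_nonneg L, fun g m φ hφ => ?_⟩
  refine qf_mul_le b M G g m hs (fun x => ?_) hL (hφ.1.of_le (by exact_mod_cast le_top)) hφ.2.1
  rw [abs_of_nonneg (cut_nonneg ρ x)]
  exact cut_le_one ρ x

theorem fderiv_cut_eq {ρ : ℝ} (hρ : 0 < ρ) {x : Cfg N} (hx : ‖x‖ < ρ) :
    fderiv ℝ (fun y => cut ρ y • φ y) x = fderiv ℝ φ x := by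
  refine Filter.EventuallyEq.fderiv_eq ?_
  have h1 : Metric.ball (0 : Cfg N) ρ ∈ 𝓝 x :=
    Metric.isOpen_ball.mem_nhds (by rwa [mem_ball_zero_iff])
  filter_upwards [h1] with y hy
  rw [cut_one hρ (mem_ball_zero_iff.1 hy).le, one_smul]

theorem cut_eq {ρ : ℝ} (hρ : 0 < ρ) {x : Cfg N} (hx : ‖x‖ ≤ ρ) : cut ρ x • φ x = φ x := by
  rw [cut_one hρ hx, one_smul]

theorem dcharge_cut_eq {G : GammaNine} {g m : ℝ} {α : Fin 16} {ρ : ℝ} (hρ : 0 < ρ) {x : Cfg N}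
    (hx : ‖x‖ < ρ) :
    dcharge b M G g m α (fun y => cut ρ y • φ y) x = dcharge b M G g m α φ x := by
  have h1 : (fun y => cut ρ y • φ y) x = φ x := cut_eq hρ hx.le
  unfold dcharge kin
  rw [fderiv_cut_eq hρ hx, h1]

theorem half_cut {c : Cfg N} {η : Uk b c × Zs b c → ℝ} {ρ : ℝ} (hρ : 0 < ρ)
    (hη : ∀ x : Uk b c × Zs b c, η x ≠ 0 → ‖c + (x.1 : Cfg N) + (x.2 : Cfg N)‖ ≤ ρ) :
    half b c η (fun y => cut ρ y • φ y) = half b c η φ := by
  funext x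
  unfold half
  by_cases h : η x = 0
  · rw [h, zero_smul, zero_smul]
  · show η x • (cut ρ (c + (x.1 : Cfg N) + (x.2 : Cfg N)) • φ (c + (x.1 : Cfg N) + (x.2 : Cfg N))) = _
    rw [cut_one hρ (hη x h), one_smul]

end core

/-- All the properties of the cut-off at once. -/
theorem exists_cut (b : ColorBasis N) (M : FermionRep N F) (R : GaugeAction b M) (G : GammaNine)
    {ρ : ℝ} (hρ : 0 < ρ) :
    ∃ (χ : Cfg N → ℝ) (K : ℝ), ContDiff ℝ ∞ χ ∧ HasCompactSupport χ ∧ (∀ x, 0 ≤ χ x) ∧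
      (∀ x, χ x ≤ 1) ∧ (∀ x, ‖x‖ ≤ ρ → χ x = 1) ∧ (∀ x, 2 * ρ ≤ ‖x‖ → χ x = 0) ∧
      (∀ h x, χ (b.act h x) = χ x) ∧ 0 ≤ K ∧
      ∀ φ : Cfg N → F, IsCoreVec b R φ → IsCoreVec b R (fun x => χ x • φ x) ∧
        ((∫ x, ‖χ x • φ x‖ ^ 2) ≤ ∫ x, ‖φ x‖ ^ 2) ∧
        (∀ g m, qf b M G g m (fun x => χ x • φ x) ≤ 2 * qf b M G g m φ + K * ∫ x, ‖φ x‖ ^ 2) ∧
        (∀ x, ‖x‖ < ρ → fderiv ℝ (fun y => χ y • φ y) x = fderiv ℝ φ x) ∧
        (∀ g m α x, ‖x‖ < ρ →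
          dcharge b M G g m α (fun y => χ y • φ y) x = dcharge b M G g m α φ x) ∧
        ∀ (c : Cfg N) (η : Uk b c × Zs b c → ℝ),
          (∀ x : Uk b c × Zs b c, η x ≠ 0 → ‖c + (x.1 : Cfg N) + (x.2 : Cfg N)‖ ≤ ρ) →
            half b c η (fun y => χ y • φ y) = half b c η φ := by
  obtain ⟨K, hK0, hK⟩ := qf_cut_le b M R G hρ
  exact ⟨cut ρ, K, cut_smooth ρ, cut_supp hρ, cut_nonneg ρ, cut_le_one ρ,
    fun x hx => cut_one hρ hx, fun x hx => cut_zero hρ hx,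
    fun h x => cut_radial ρ (Col962.norm_act b h x), hK0, fun φ hφ =>
      ⟨core_cut ρ hφ, int_cut_le ρ hφ, fun g m => hK g m φ hφ, fun x hx => fderiv_cut_eq hρ hx,
        fun g m α x hx => dcharge_cut_eq hρ hx, fun c η hη => half_cut hρ hη⟩⟩

end Crest.Agent.R330.LemCut365

end
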