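import Mathlib

/-!
# Row 330, leaf S7-R (helper149): integration of fibre inequalities over `U × Z`

* `bop`, `bfib` : first order operators in the fibre variable, coefficients depending on the base.
* `bop_eq` : `bop Φ (u, z) = bfib (Φ(u,·)) z`.
* `continuous_bop` : continuity when the coefficients are continuous near the support.
* `fib_ineq` : (B1) a fibre inequality `D(f) + g ∫ ‖f‖² ≤ K Σ ∫ ‖B_u f‖²` integrates.
* `fib_proj` : (B2) `g ∫ ‖f - P_u f‖² ≤ K (Σ ∫ ‖B_u f‖² + ρ² g ∫ ‖f‖²)` integrates over `S × Z`.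
-/

set_option autoImplicit false
set_option linter.unusedSectionVars false

open MeasureTheory Filter Topology Set
open scoped ContDiff InnerProductSpace ENNReal

noncomputable section

namespace Crest.Agent.R330.LemRb149

variable {U Z F : Type*} [NormedAddCommGroup U] [NormedSpace ℝ U]
  [NormedAddCommGroup Z] [NormedSpace ℝ Z]
  [NormedAddCommGroup F] [InnerProductSpace ℂ F] {ι τ : Type*} [Fintype ι] [Fintype τ]

/-- First order operator in the fibre variable. -/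
def bop (a : U → ι → F →ₗ[ℂ] F) (w : U → Z → F →ₗ[ℂ] F) (v : ι → Z) (Φ : U × Z → F)
    (x : U × Z) : F :=
  (∑ i, a x.1 i (fderiv ℝ Φ x (0, v i))) + w x.1 x.2 (Φ x)

/-- The operator on one fibre. -/
def bfib (a : ι → F →ₗ[ℂ] F) (w : Z → F →ₗ[ℂ] F) (v : ι → Z) (f : Z → F) (z : Z) : F :=
  (∑ i, a i (fderiv ℝ f z (v i))) + w z (f z)

theorem fderiv_fib {Φ : U × Z → F} {u : U} {z : Z} (hΦ : DifferentiableAt ℝ Φ (u, z)) (v : Z) :
    fderiv ℝ (fun z => Φ (u, z)) z v = fderiv ℝ Φ (u, z) (0, v) := by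
  have h1 : HasFDerivAt (fun z : Z => (u, z)) (ContinuousLinearMap.inr ℝ U Z) z :=
    hasFDerivAt_prodMk_right u z
  have h2 : HasFDerivAt (fun z => Φ (u, z)) _ z := hΦ.hasFDerivAt.comp z h1
  rw [h2.fderiv]
  rfl

theorem bop_eq {a : U → ι → F →ₗ[ℂ] F} {w : U → Z → F →ₗ[ℂ] F} {v : ι → Z} {Φ : U × Z → F}
    {u : U} {z : Z} (hΦ : DifferentiableAt ℝ Φ (u, z)) :
    bop a w v Φ (u, z) = bfib (a u) (w u) v (fun z => Φ (u, z)) z := by
  unfold bop bfib
  simp only [fderiv_fib hΦ]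

theorem fib_contDiff {n : WithTop ℕ∞} {Φ : U × Z → F} (hΦ : ContDiff ℝ n Φ) (u : U) :
    ContDiff ℝ n (fun z => Φ (u, z)) := hΦ.comp (contDiff_const.prodMk contDiff_id)

theorem fib_hcs {Φ : U × Z → F} (hΦ : HasCompactSupport Φ) (u : U) :
    HasCompactSupport (fun z => Φ (u, z)) := by
  refine HasCompactSupport.intro (hΦ.isCompact.image continuous_snd) fun z hz => ?_
  by_contra h
  exact hz ⟨(u, z), subset_tsupport _ h, rfl⟩

section cont

variable [FiniteDimensional ℂ F]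

/-- Evaluation of a family of operators on a finite dimensional space. -/
theorem continuousWithinAt_apply {X : Type*} [TopologicalSpace X] {L : X → F →ₗ[ℂ] F}
    {y : X → F} {s : Set X} {x : X} (hL : ∀ f, ContinuousWithinAt (fun x => L x f) s x)
    (hy : ContinuousWithinAt y s x) : ContinuousWithinAt (fun x => L x (y x)) s x := by
  set e := stdOrthonormalBasis ℂ F with he
  have h1 : (fun x => L x (y x)) = fun x => ∑ k, ⟪e k, y x⟫_ℂ • L x (e k) := by
    funext x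
    conv_lhs => rw [← e.sum_repr' (y x)]
    rw [map_sum]
    exact Finset.sum_congr rfl fun k _ => map_smul _ _ _
  rw [h1]
  refine tendsto_finsetSum _ fun k _ => ?_
  exact (ContinuousWithinAt.inner (𝕜 := ℂ) continuousWithinAt_const hy).smul (hL (e k))

theorem continuousAt_apply {X : Type*} [TopologicalSpace X] {L : X → F →ₗ[ℂ] F}
    {y : X → F} {x : X} (hL : ∀ f, ContinuousAt (fun x => L x f) x)
    (hy : ContinuousAt y x) : ContinuousAt (fun x => L x (y x)) x := by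
  rw [← continuousWithinAt_univ] at *
  exact continuousWithinAt_apply (fun f => by
    have := hL f
    rwa [← continuousWithinAt_univ] at this) hy

/-- Continuity of `bop Φ` if `Φ` vanishes off `S × Z`, `S` closed, and the coefficients are
continuous at the points of `S`. -/
theorem continuous_bop {a : U → ι → F →ₗ[ℂ] F} {w : U → Z → F →ₗ[ℂ] F} {v : ι → Z}
    {Φ : U × Z → F} {S : Set U} (hS : IsClosed S) (hΦ : ContDiff ℝ 1 Φ)
    (h0 : ∀ x : U × Z, x.1 ∉ S → Φ x = 0)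
    (ha : ∀ i f, ∀ u ∈ S, ContinuousAt (fun u => a u i f) u)
    (hw : ∀ f, ∀ u ∈ S, ∀ z, ContinuousAt (fun x : U × Z => w x.1 x.2 f) (u, z)) :
    Continuous (bop a w v Φ) := by
  rw [continuous_iff_continuousAt]
  rintro ⟨u, z⟩
  by_cases hu : u ∈ S
  · have h1 : Continuous (fderiv ℝ Φ) := hΦ.continuous_fderiv one_ne_zero
    refine ContinuousAt.add ?_ ?_
    · refine tendsto_finsetSum _ fun i _ => ?_
      refine continuousAt_apply (L := fun x : U × Z => a x.1 i) (fun f => ?_) ?_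
      · exact ContinuousAt.comp (f := fun x : U × Z => x.1) (g := fun u => a u i f)
          (x := (u, z)) (ha i f u hu) continuousAt_fst
      · exact (h1.clm_apply continuous_const).continuousAt
    · exact continuousAt_apply (L := fun x : U × Z => w x.1 x.2) (fun f => hw f u hu z)
        hΦ.continuous.continuousAt
  · have hO : IsOpen {x : U × Z | x.1 ∉ S} := hS.isOpen_compl.preimage continuous_fst
    have h1 : bop a w v Φ =ᶠ[𝓝 (u, z)] fun _ => 0 := by
      filter_upwards [hO.mem_nhds (show (u, z) ∈ {x : U × Z | x.1 ∉ S} from hu)] with x hx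
      have h2 : Φ =ᶠ[𝓝 x] fun _ => 0 := by
        filter_upwards [hO.mem_nhds hx] with y hy
        exact h0 y hy
      unfold bop
      rw [h2.fderiv_eq, h0 x hx]
      simp
    exact (continuousAt_congr h1).2 continuousAt_const

end cont

theorem hcs_bop {a : U → ι → F →ₗ[ℂ] F} {w : U → Z → F →ₗ[ℂ] F} {v : ι → Z}
    {Φ : U × Z → F} (hc : HasCompactSupport Φ) : HasCompactSupport (bop a w v Φ) := by
  refine hc.of_isClosed_subset (isClosed_tsupport _) ?_
  refine closure_minimal (fun x hx => ?_) (isClosed_tsupport Φ)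
  by_contra h
  apply hx
  unfold bop
  have h1 : fderiv ℝ Φ x = 0 := by
    by_contra h2
    exact h (tsupport_fderiv_subset ℝ (subset_tsupport _ h2))
  rw [h1, image_eq_zero_of_notMem_tsupport h]
  simp

/-! ## Integration -/

section int

variable [MeasurableSpace U] [BorelSpace U] [FiniteDimensional ℝ U]
  [MeasurableSpace Z] [BorelSpace Z] [FiniteDimensional ℝ Z]
  {μU : Measure U} [μU.IsAddHaarMeasure] {μZ : Measure Z} [μZ.IsAddHaarMeasure]

theorem sq_int {E : Type*} [NormedAddCommGroup E] {f : U × Z → E} (hf : Continuous f)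
    (hc : HasCompactSupport f) : Integrable (fun x => ‖f x‖ ^ 2) (μU.prod μZ) :=
  (hf.norm.pow 2).integrable_of_hasCompactSupport
    (hc.mono' fun x hx => subset_tsupport _ (by
      intro h0; apply hx; have h00 : f x = 0 := h0; simp [h00]))

theorem sq_intZ {E : Type*} [NormedAddCommGroup E] {f : Z → E} (hf : Continuous f)
    (hc : HasCompactSupport f) : Integrable (fun x => ‖f x‖ ^ 2) μZ :=
  (hf.norm.pow 2).integrable_of_hasCompactSupport
    (hc.mono' fun x hx => subset_tsupport _ (by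
      intro h0; apply hx; have h00 : f x = 0 := h0; simp [h00]))

theorem hcs_fderiv_apply {Φ : U × Z → F} (hc : HasCompactSupport Φ) (v : U × Z) :
    HasCompactSupport (fun x => fderiv ℝ Φ x v) := by
  refine (hc.fderiv ℝ).mono' fun x hx => subset_tsupport _ ?_
  intro h0
  apply hx
  have h1 : fderiv ℝ Φ x = 0 := h0
  show fderiv ℝ Φ x v = 0
  rw [h1]
  rfl

/-- The density `Σ ‖∂_{v_i} Φ‖² + (g ‖z‖)² ‖Φ‖²`. -/
def dens (g : ℝ) (v : ι → Z) (Φ : U × Z → F) (x : U × Z) : ℝ :=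
  (∑ i, ‖fderiv ℝ Φ x (0, v i)‖ ^ 2) + (g * ‖x.2‖) ^ 2 * ‖Φ x‖ ^ 2

def densZ (g : ℝ) (v : ι → Z) (f : Z → F) (z : Z) : ℝ :=
  (∑ i, ‖fderiv ℝ f z (v i)‖ ^ 2) + (g * ‖z‖) ^ 2 * ‖f z‖ ^ 2

theorem dens_eq (g : ℝ) (v : ι → Z) {Φ : U × Z → F} {u : U} {z : Z}
    (hΦ : DifferentiableAt ℝ Φ (u, z)) : dens g v Φ (u, z) = densZ g v (fun z => Φ (u, z)) z := by
  unfold dens densZ
  simp only [fderiv_fib hΦ]

theorem dens_nonneg (g : ℝ) (v : ι → Z) (Φ : U × Z → F) (x : U × Z) : 0 ≤ dens g v Φ x := by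
  unfold dens
  positivity

theorem continuous_dens (g : ℝ) (v : ι → Z) {Φ : U × Z → F} (hΦ : ContDiff ℝ 1 Φ) :
    Continuous (dens g v Φ) := by
  have h1 : Continuous (fderiv ℝ Φ) := hΦ.continuous_fderiv one_ne_zero
  unfold dens
  refine Continuous.add (continuous_finsetSum _ fun i _ =>
    (h1.clm_apply continuous_const).norm.pow 2) ?_
  exact ((continuous_const.mul continuous_snd.norm).pow 2).mul (hΦ.continuous.norm.pow 2)

theorem hcs_dens (g : ℝ) (v : ι → Z) {Φ : U × Z → F} (hc : HasCompactSupport Φ) :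
    HasCompactSupport (dens g v Φ) := by
  refine hc.mono' fun x hx => ?_
  by_contra h
  apply hx
  have h1 : fderiv ℝ Φ x = 0 := by
    by_contra h2
    exact h (tsupport_fderiv_subset ℝ (subset_tsupport _ h2))
  unfold dens
  rw [h1, image_eq_zero_of_notMem_tsupport h]
  simp

/-- **(B1)** integration of a fibre inequality. -/
theorem fib_ineq_n {n : WithTop ℕ∞} (hn : 1 ≤ n) {a : τ → U → ι → F →ₗ[ℂ] F}
    {w : τ → U → Z → F →ₗ[ℂ] F} {v : ι → Z}
    {S : Set U} {h : U × Z → F} (hh' : ContDiff ℝ n h) (hc : HasCompactSupport h)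
    (h0 : ∀ x : U × Z, x.1 ∉ S → h x = 0)
    (hB : ∀ α, Integrable (fun x => ‖bop (a α) (w α) v h x‖ ^ 2) (μU.prod μZ))
    {P : F → Prop} (hP : ∀ x, P (h x)) {g K : ℝ}
    (hF : ∀ u ∈ S, ∀ f : Z → F, ContDiff ℝ n f → HasCompactSupport f → (∀ z, P (f z)) →
      ∫ z, densZ g v f z ∂μZ + g * ∫ z, ‖f z‖ ^ 2 ∂μZ ≤
        K * ∑ α, ∫ z, ‖bfib (a α u) (w α u) v f z‖ ^ 2 ∂μZ) :
    ∫ x, dens g v h x ∂(μU.prod μZ) + g * ∫ x, ‖h x‖ ^ 2 ∂(μU.prod μZ) ≤
      K * ∑ α, ∫ x, ‖bop (a α) (w α) v h x‖ ^ 2 ∂(μU.prod μZ) := by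
  have hh : ContDiff ℝ 1 h := hh'.of_le hn
  have hd : Differentiable ℝ h := hh.differentiable one_ne_zero
  have i1 : Integrable (dens g v h) (μU.prod μZ) :=
    (continuous_dens g v hh).integrable_of_hasCompactSupport (hcs_dens g v hc)
  have i2 : Integrable (fun x => ‖h x‖ ^ 2) (μU.prod μZ) := sq_int hh.continuous hc
  rw [integral_prod _ i1, integral_prod _ i2]
  simp only [integral_prod _ (hB _)]
  have j1 := i1.integral_prod_left
  have j2 := i2.integral_prod_left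
  have j3 : ∀ α, Integrable (fun u => ∫ z, ‖bop (a α) (w α) v h (u, z)‖ ^ 2 ∂μZ) μU :=
    fun α => (hB α).integral_prod_left
  rw [← integral_const_mul, ← integral_add j1 (j2.const_mul g),
    ← integral_finsetSum _ (fun α _ => j3 α), ← integral_const_mul]
  refine integral_mono (j1.add (j2.const_mul g))
    ((integrable_finsetSum _ fun α _ => j3 α).const_mul K) fun u => ?_
  show (∫ z, dens g v h (u, z) ∂μZ) + g * ∫ z, ‖h (u, z)‖ ^ 2 ∂μZ ≤
    K * ∑ α, ∫ z, ‖bop (a α) (w α) v h (u, z)‖ ^ 2 ∂μZ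
  simp only [dens_eq g v (hd _), bop_eq (hd _)]
  by_cases hu : u ∈ S
  · exact hF u hu _ (fib_contDiff hh' u) (fib_hcs hc u) fun z => hP (u, z)
  · have h1 : ∀ z, h (u, z) = 0 := fun z => h0 (u, z) hu
    simp [densZ, bfib, h1]

/-- **(B2)** integration of a fibre projection inequality over `S × Z`. -/
theorem fib_proj_n {n : WithTop ℕ∞} (hn : 1 ≤ n) {a : τ → U → ι → F →ₗ[ℂ] F}
    {w : τ → U → Z → F →ₗ[ℂ] F} {v : ι → Z}
    {S : Set U} (hS : MeasurableSet S) {Φ : U × Z → F} (hΦ' : ContDiff ℝ n Φ)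
    (hc : HasCompactSupport Φ)
    (hB : ∀ α, Integrable (fun x => ‖bop (a α) (w α) v Φ x‖ ^ 2) (μU.prod μZ))
    {P : U → (Z → F) → Z → F}
    (hPi : IntegrableOn (fun x : U × Z => ‖Φ x - P x.1 (fun z => Φ (x.1, z)) x.2‖ ^ 2)
      (S ×ˢ univ) (μU.prod μZ)) {g K ρ : ℝ} (hg : 0 ≤ g) (hK : 0 ≤ K)
    (hF : ∀ u ∈ S, ∀ f : Z → F, ContDiff ℝ n f → HasCompactSupport f →
      g * ∫ z, ‖f z - P u f z‖ ^ 2 ∂μZ ≤
        K * (∑ α, ∫ z, ‖bfib (a α u) (w α u) v f z‖ ^ 2 ∂μZ + ρ ^ 2 * (g * ∫ z, ‖f z‖ ^ 2 ∂μZ))) :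
    g * ∫ x in S ×ˢ univ, ‖Φ x - P x.1 (fun z => Φ (x.1, z)) x.2‖ ^ 2 ∂(μU.prod μZ) ≤
      K * (∑ α, ∫ x, ‖bop (a α) (w α) v Φ x‖ ^ 2 ∂(μU.prod μZ) +
        ρ ^ 2 * (g * ∫ x, ‖Φ x‖ ^ 2 ∂(μU.prod μZ))) := by
  have hΦ : ContDiff ℝ 1 Φ := hΦ'.of_le hn
  have hd : Differentiable ℝ Φ := hΦ.differentiable one_ne_zero
  have i2 : Integrable (fun x => ‖Φ x‖ ^ 2) (μU.prod μZ) := sq_int hΦ.continuous hc
  rw [setIntegral_prod _ hPi]
  simp only [Measure.restrict_univ]
  -- restrict the right hand side to `S × Z`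
  have hR : K * (∑ α, ∫ x in S ×ˢ univ, ‖bop (a α) (w α) v Φ x‖ ^ 2 ∂(μU.prod μZ) +
        ρ ^ 2 * (g * ∫ x in S ×ˢ univ, ‖Φ x‖ ^ 2 ∂(μU.prod μZ))) ≤
      K * (∑ α, ∫ x, ‖bop (a α) (w α) v Φ x‖ ^ 2 ∂(μU.prod μZ) +
        ρ ^ 2 * (g * ∫ x, ‖Φ x‖ ^ 2 ∂(μU.prod μZ))) := by
    refine mul_le_mul_of_nonneg_left (add_le_add (Finset.sum_le_sum fun α _ => ?_) ?_) hK
    · exact setIntegral_le_integral (hB α) (Eventually.of_forall fun x => sq_nonneg _)
    · refine mul_le_mul_of_nonneg_left (mul_le_mul_of_nonneg_left ?_ hg) (sq_nonneg _)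
      exact setIntegral_le_integral i2 (Eventually.of_forall fun x => sq_nonneg _)
  refine le_trans ?_ hR
  rw [setIntegral_prod _ i2.integrableOn]
  simp only [setIntegral_prod _ (hB _).integrableOn, Measure.restrict_univ]
  have j1 : IntegrableOn (fun u => ∫ z, ‖Φ (u, z) - P u (fun z => Φ (u, z)) z‖ ^ 2 ∂μZ) S μU := by
    have := hPi
    unfold IntegrableOn at this
    rw [← Measure.prod_restrict, Measure.restrict_univ] at this
    exact this.integral_prod_left
  have j2 : IntegrableOn (fun u => ∫ z, ‖Φ (u, z)‖ ^ 2 ∂μZ) S μU :=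
    i2.integral_prod_left.integrableOn
  have j3 : ∀ α, IntegrableOn (fun u => ∫ z, ‖bop (a α) (w α) v Φ (u, z)‖ ^ 2 ∂μZ) S μU :=
    fun α => (hB α).integral_prod_left.integrableOn
  rw [← integral_const_mul g, ← integral_const_mul g, ← integral_const_mul (ρ ^ 2),
    ← integral_finsetSum _ (fun α _ => j3 α),
    ← integral_add (integrable_finsetSum _ fun α _ => j3 α) ((j2.const_mul g).const_mul (ρ ^ 2)),
    ← integral_const_mul K]
  refine setIntegral_mono_on (j1.const_mul g) ?_ hS fun u hu => ?_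
  · exact ((integrable_finsetSum _ fun α _ => j3 α).add
      ((j2.const_mul g).const_mul (ρ ^ 2))).const_mul K
  · simp only [bop_eq (hd _)]
    exact hF u hu _ (fib_contDiff hΦ' u) (fib_hcs hc u)

end int

end Crest.Agent.R330.LemRb149

end
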