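import Crest.Agent.R330.LemRb_149
import Crest.Agent.R330.LemA_342

/-!
# Row 330, leaf S7-R (helper149): the fibre inequalities on the slice, literal coefficients

`aB`, `wB` of Bind6_839, slice coordinates `(u, z) ∈ Uk b c × Zs b c`.

* `contDiffAt_nn`, `contDiffAt_aB`, `contDiff_wB`.
* `continuous_Bop`, `integrable_Bop`, **`B1`**, **`B2`** for `Bop`, `Bfib`, `Dfib` of LemA_342.
-/

set_option autoImplicit false
set_option linter.unusedSectionVars false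

open MeasureTheory Filter Topology Crest.MathPhysics.MatrixQM Set
open Crest.Agent.R330.IBP837 Crest.Agent.R330.Defs478 Crest.Agent.R330.Frame839
open Crest.Agent.R330.LS839 Crest.Agent.R330.Clus839 Crest.Agent.R330.Bind6839
open Crest.Agent.R330.LemRb149 Crest.Agent.R330.LemA342
open scoped ContDiff InnerProductSpace ENNReal

noncomputable section

namespace Crest.Agent.R330.LemRc149

section nn

variable {V E : Type*} [NormedAddCommGroup V] [InnerProductSpace ℝ V] [FiniteDimensional ℝ V]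
  [NormedAddCommGroup E] [InnerProductSpace ℝ E] [FiniteDimensional ℝ E]
  {A : V →L[ℝ] E →L[ℝ] E} {c : E} {r B : ℝ}

theorem contDiffAt_nn (hr0 : 0 < r) (hr : GapAt A c r) (hB : ActBound A B) {x : E}
    (hx : B * ‖x - c‖ ≤ r / 2) (t : Tn A c) : ContDiffAt ℝ ∞ (fun x => nn A c x t) x := by
  unfold nn
  have h1 : ContDiffAt ℝ ∞ (fun x => om A c x t) x :=
    (contDiffAt_om hr0 hr hB hx).clm_apply contDiffAt_const
  have h2 : ContDiffAt ℝ ∞ (fun x => ((om A c x t : (kc A c)ᗮ) : V)) x :=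
    (((kc A c)ᗮ).subtypeL.contDiff.contDiffAt).comp x h1
  have h3 : ContDiffAt ℝ ∞ (fun x => A ((om A c x t : (kc A c)ᗮ) : V)) x :=
    (A.contDiff.contDiffAt).comp x h2
  exact (h3.clm_apply contDiffAt_id).sub contDiffAt_const

end nn

variable {N : ℕ} {F : Type*} [NormedAddCommGroup F] [InnerProductSpace ℂ F]
  [FiniteDimensional ℂ F] (b : ColorBasis N) (c : Cfg N) (M : FermionRep N F) (G : GammaNine)
  (g : ℝ) (α : Fin 16)

variable {b c} in
/-- The coefficient of the heavy charge is smooth in the base point. -/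
theorem contDiffAt_aB {κ : Type*} [Fintype κ] (t : OrthonormalBasis κ ℝ (Tn (actB b) c))
    {r B : ℝ} (hr0 : 0 < r) (hr : GapAt (actB b) c r) (hB : ActBound (actB b) B) {p : Cfg N}
    (hp : B * ‖p - c‖ ≤ r / 2) (e : Cfg N) (f : F) :
    ContDiffAt ℝ ∞ (fun p => aB b c M G α t p e f) p := by
  unfold aB
  simp only [LinearMap.smul_apply, LinearMap.sub_apply, LinearMap.sum_apply]
  refine contDiffAt_const.smul (contDiffAt_const.sub ?_)
  refine ContDiffAt.sum fun a _ => ?_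
  refine ContDiffAt.smul ?_ contDiffAt_const
  have h1 : ContDiffAt ℝ ∞ (fun p => ⟪e, nn (actB b) c p (t a)⟫_ℝ) p :=
    contDiffAt_const.inner ℝ (contDiffAt_nn hr0 hr hB hp (t a))
  exact (Complex.ofRealCLM.contDiff.contDiffAt).comp p h1

theorem contDiff_wB' (f : F) {n : WithTop ℕ∞} :
    ContDiff ℝ n (fun q : Cfg N × Cfg N => wB b M G g α q.1 q.2 f) := by
  unfold wB
  simp only [vco_apply]
  refine ContDiff.sum fun A _ => ContDiff.sum fun β _ => ?_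
  refine ContDiff.smul ?_ contDiff_const
  have h1 : ContDiff ℝ n (fun q : Cfg N × Cfg N => 2 * g * wb b G α β A q.1 q.2) := by
    unfold wb
    fun_prop
  exact Complex.ofRealCLM.contDiff.comp h1

variable {b c}
variable {κ η : Type*} [Fintype κ] [Fintype η]

theorem Bop_eq (v : OrthonormalBasis κ ℝ (Zs b c)) (t : OrthonormalBasis η ℝ (Tn (actB b) c))
    (Φ : Sc b c → F) :
    Bop b c M G g α v t Φ = bop (fun (u : Uk b c) i => aB b c M G α t (c + u) (v i))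
      (fun (u : Uk b c) (z : Zs b c) => wB b M G g α (c + u) z) v Φ := rfl

theorem Bfib_eq (v : OrthonormalBasis κ ℝ (Zs b c)) (t : OrthonormalBasis η ℝ (Tn (actB b) c))
    (p : Cfg N) (f : Zs b c → F) : Bfib b c M G g α v t p f =
      bfib (fun i => aB b c M G α t p (v i)) (fun z : Zs b c => wB b M G g α p z) v f := rfl

/-- The heavy charge of a slice function supported near `c` is continuous. -/
theorem continuous_Bop (v : OrthonormalBasis κ ℝ (Zs b c))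
    (t : OrthonormalBasis η ℝ (Tn (actB b) c)) {r B ρ : ℝ}
    (hr0 : 0 < r) (hr : GapAt (actB b) c r) (hB : ActBound (actB b) B) (hρ : B * ρ ≤ r / 2)
    (hB0 : 0 ≤ B) {Φ : Sc b c → F} (hΦ : ContDiff ℝ 1 Φ)
    (h0 : ∀ x : Sc b c, ρ < ‖x.1‖ → Φ x = 0) :
    Continuous (Bop b c M G g α v t Φ) := by
  rw [Bop_eq]
  refine continuous_bop (S := {u : Uk b c | ‖u‖ ≤ ρ}) (isClosed_le continuous_norm
    continuous_const) hΦ (fun x hx => h0 x (not_le.1 hx)) (fun i f u hu => ?_)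
    fun f u _ z => ?_
  · have h1 : ContinuousAt (fun p => aB b c M G α t p (v i) f) (c + (u : Cfg N)) := by
      refine (contDiffAt_aB M G α t hr0 hr hB ?_ _ f).continuousAt
      rw [add_sub_cancel_left]
      exact (mul_le_mul_of_nonneg_left hu hB0).trans hρ
    exact ContinuousAt.comp (f := fun u : Uk b c => c + (u : Cfg N)) (x := u) h1
      (by fun_prop)
  · exact ((contDiff_wB' b M G g α f (n := 0)).continuous.comp
      (by fun_prop : Continuous fun x : Uk b c × Zs b c =>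
        (c + (x.1 : Cfg N), (x.2 : Cfg N)))).continuousAt

theorem hcs_Bop (v : OrthonormalBasis κ ℝ (Zs b c)) (t : OrthonormalBasis η ℝ (Tn (actB b) c))
    {Φ : Sc b c → F} (hc : HasCompactSupport Φ) :
    HasCompactSupport (Bop b c M G g α v t Φ) := by
  rw [Bop_eq]
  exact hcs_bop hc

variable {μU : Measure (Uk b c)} [μU.IsAddHaarMeasure] {μZ : Measure (Zs b c)}
  [μZ.IsAddHaarMeasure]

theorem integrable_Bop (v : OrthonormalBasis κ ℝ (Zs b c))
    (t : OrthonormalBasis η ℝ (Tn (actB b) c)) {r B ρ : ℝ}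
    (hr0 : 0 < r) (hr : GapAt (actB b) c r) (hB : ActBound (actB b) B) (hρ : B * ρ ≤ r / 2)
    (hB0 : 0 ≤ B) {Φ : Sc b c → F} (hΦ : ContDiff ℝ 1 Φ) (hc : HasCompactSupport Φ)
    (h0 : ∀ x : Sc b c, ρ < ‖x.1‖ → Φ x = 0) :
    Integrable (fun x => ‖Bop b c M G g α v t Φ x‖ ^ 2) (μU.prod μZ) :=
  sq_int (continuous_Bop M G g α v t hr0 hr hB hρ hB0 hΦ h0) (hcs_Bop M G g α v t hc)

theorem dens_eq' {v : OrthonormalBasis κ ℝ (Zs b c)} {Φ : Sc b c → F} (x : Sc b c) :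
    (∑ i, ‖fderiv ℝ Φ x (0, v i)‖ ^ 2) + g ^ 2 * ‖x.2‖ ^ 2 * ‖Φ x‖ ^ 2 = dens g v Φ x := by
  unfold dens
  rw [mul_pow]

theorem Dfib_eq {v : OrthonormalBasis κ ℝ (Zs b c)} {f : Zs b c → F} (z : Zs b c) :
    Dfib g v f z = densZ g v f z := by
  unfold Dfib densZ
  rw [mul_pow]

/-- **(B1)** the fibre inequality on the odd part, integrated over the slice. -/
theorem B1 {n : WithTop ℕ∞} (hn : 1 ≤ n) (v : OrthonormalBasis κ ℝ (Zs b c))
    (t : OrthonormalBasis η ℝ (Tn (actB b) c))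
    {r B ρ : ℝ}
    (hr0 : 0 < r) (hr : GapAt (actB b) c r) (hB : ActBound (actB b) B) (hρ : B * ρ ≤ r / 2)
    (hB0 : 0 ≤ B) {K : ℝ} {P : F → Prop}
    (hF : ∀ u : Uk b c, ‖u‖ ≤ ρ → ∀ f : Zs b c → F, ContDiff ℝ n f → HasCompactSupport f →
      (∀ z, P (f z)) →
      ∫ z, Dfib g v f z ∂μZ + g * ∫ z, ‖f z‖ ^ 2 ∂μZ ≤
        K * ∑ α, ∫ z, ‖Bfib b c M G g α v t (c + u) f z‖ ^ 2 ∂μZ)
    {h : Sc b c → F} (hh : ContDiff ℝ n h) (hc : HasCompactSupport h)
    (h0 : ∀ x : Sc b c, ρ < ‖x.1‖ → h x = 0) (hP : ∀ x, P (h x)) :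
    ∫ x, ((∑ i, ‖fderiv ℝ h x (0, v i)‖ ^ 2) + g ^ 2 * ‖x.2‖ ^ 2 * ‖h x‖ ^ 2)
        ∂(μU.prod μZ) + g * ∫ x, ‖h x‖ ^ 2 ∂(μU.prod μZ) ≤
      K * ∑ α, ∫ x, ‖Bop b c M G g α v t h x‖ ^ 2 ∂(μU.prod μZ) := by
  have hI := fun α => integrable_Bop (μU := μU) (μZ := μZ) M G g α v t hr0 hr hB hρ hB0 (hh.of_le hn) hc h0
  simp only [Bop_eq] at hI
  have hF' : ∀ u ∈ {u : Uk b c | ‖u‖ ≤ ρ}, ∀ f : Zs b c → F, ContDiff ℝ n f →
      HasCompactSupport f → (∀ z, P (f z)) →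
      ∫ z, densZ g v f z ∂μZ + g * ∫ z, ‖f z‖ ^ 2 ∂μZ ≤
        K * ∑ α, ∫ z, ‖bfib (fun i => aB b c M G α t (c + u) (v i))
          (fun z : Zs b c => wB b M G g α (c + u) z) v f z‖ ^ 2 ∂μZ := by
    intro u hu f hf hcf hPf
    have := hF u hu f hf hcf hPf
    simp only [Dfib_eq, Bfib_eq] at this
    exact this
  have key := fib_ineq_n hn (U := Uk b c) (Z := Zs b c) (F := F) (τ := Fin 16) (ι := κ) (μU := μU)
    (μZ := μZ) (a := fun α (u : Uk b c) i => aB b c M G α t (c + u) (v i))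
    (w := fun α (u : Uk b c) (z : Zs b c) => wB b M G g α (c + u) z) (v := v)
    (S := {u : Uk b c | ‖u‖ ≤ ρ}) hh hc (fun x hx => h0 x (not_le.1 hx)) hI (P := P) hP
    (g := g) (K := K) hF'
  simp only [dens_eq', Bop_eq]
  exact key

/-- **(B2)** a fibre projection inequality, integrated over `S × Zs`. -/
theorem B2 {n : WithTop ℕ∞} (hn : 1 ≤ n) (v : OrthonormalBasis κ ℝ (Zs b c))
    (t : OrthonormalBasis η ℝ (Tn (actB b) c))
    {r B ρ : ℝ}
    (hr0 : 0 < r) (hr : GapAt (actB b) c r) (hB : ActBound (actB b) B) (hρ : B * ρ ≤ r / 2)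
    (hB0 : 0 ≤ B) {K δ : ℝ} (hg : 0 ≤ g) (hK : 0 ≤ K) {S : Set (Uk b c)}
    (hS : MeasurableSet S) {P : Uk b c → (Zs b c → F) → Zs b c → F}
    (hF : ∀ u ∈ S, ∀ f : Zs b c → F, ContDiff ℝ n f → HasCompactSupport f →
      g * ∫ z, ‖f z - P u f z‖ ^ 2 ∂μZ ≤
        K * (∑ α, ∫ z, ‖Bfib b c M G g α v t (c + u) f z‖ ^ 2 ∂μZ +
          δ ^ 2 * (g * ∫ z, ‖f z‖ ^ 2 ∂μZ)))
    {Φ : Sc b c → F} (hΦ : ContDiff ℝ n Φ) (hc : HasCompactSupport Φ)
    (h0 : ∀ x : Sc b c, ρ < ‖x.1‖ → Φ x = 0)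
    (hPi : IntegrableOn (fun x : Sc b c =>
      ‖Φ x - P x.1 (fun z => Φ (x.1, z)) x.2‖ ^ 2) (S ×ˢ univ) (μU.prod μZ)) :
    g * ∫ x in S ×ˢ univ, ‖Φ x - P x.1 (fun z => Φ (x.1, z)) x.2‖ ^ 2 ∂(μU.prod μZ) ≤
      K * (∑ α, ∫ x, ‖Bop b c M G g α v t Φ x‖ ^ 2 ∂(μU.prod μZ) +
        δ ^ 2 * (g * ∫ x, ‖Φ x‖ ^ 2 ∂(μU.prod μZ))) := by
  have hI := fun α => integrable_Bop (μU := μU) (μZ := μZ) M G g α v t hr0 hr hB hρ hB0 (hΦ.of_le hn) hc h0
  simp only [Bop_eq] at hI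
  have hF' : ∀ u ∈ S, ∀ f : Zs b c → F, ContDiff ℝ n f → HasCompactSupport f →
      g * ∫ z, ‖f z - P u f z‖ ^ 2 ∂μZ ≤
        K * (∑ α, ∫ z, ‖bfib (fun i => aB b c M G α t (c + u) (v i))
          (fun z : Zs b c => wB b M G g α (c + u) z) v f z‖ ^ 2 ∂μZ +
          δ ^ 2 * (g * ∫ z, ‖f z‖ ^ 2 ∂μZ)) := by
    intro u hu f hf hcf
    have := hF u hu f hf hcf
    simp only [Bfib_eq] at this
    exact this
  have key := fib_proj_n hn (U := Uk b c) (Z := Zs b c) (F := F) (τ := Fin 16) (ι := κ) (μU := μU)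
    (μZ := μZ) (a := fun α (u : Uk b c) i => aB b c M G α t (c + u) (v i))
    (w := fun α (u : Uk b c) (z : Zs b c) => wB b M G g α (c + u) z) (v := v)
    (S := S) hS hΦ hc hI (P := P) hPi hg hK hF'
  simp only [Bop_eq]
  exact key

end Crest.Agent.R330.LemRc149

end
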