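import Crest.Prelude.Def_MatrixModel

/-!
# (1.3): the spin lift `ρ(exp(t X(ω))) = exp(t B(ω))`

General facts about quadratic elements `spin a = (1/2) Σ a_pq θ_p θ_q` of the Clifford module,
Schur's lemma, one-parameter groups, triviality of the determinant of a representation of SU(N).
-/

set_option autoImplicit false
set_option linter.unusedSectionVars false
set_option linter.style.haveILetI false

open MeasureTheory Filter Topology Crest.MathPhysics.MatrixQM
open NormedSpace (exp)
open scoped InnerProductSpace ContDiff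

noncomputable section

namespace Crest.Agent.R330.Lift406

/-! ## An abstract intertwining lemma for exponentials -/

section Abstract

variable {𝔸 : Type*} [NormedRing 𝔸] [NormedAlgebra ℝ 𝔸] [CompleteSpace 𝔸]
variable {V : Type*} [NormedAddCommGroup V] [NormedSpace ℝ V] [CompleteSpace V]

theorem exp_neg_mul_exp (B : 𝔸) (t : ℝ) : exp (-(t • B)) * exp (t • B) = 1 := by
  letI : NormedAlgebra ℚ 𝔸 := NormedAlgebra.restrictScalars ℚ ℝ 𝔸
  rw [← NormedSpace.exp_add_of_commute]
  · simp
  · exact (Commute.refl (t • B)).neg_left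

theorem exp_mul_exp_neg (B : 𝔸) (t : ℝ) : exp (t • B) * exp (-(t • B)) = 1 := by
  letI : NormedAlgebra ℚ 𝔸 := NormedAlgebra.restrictScalars ℚ ℝ 𝔸
  rw [← NormedSpace.exp_add_of_commute]
  · simp
  · exact (Commute.refl (t • B)).neg_right

theorem exp_add_smul (B : 𝔸) (s t : ℝ) : exp ((s + t) • B) = exp (s • B) * exp (t • B) := by
  letI : NormedAlgebra ℚ 𝔸 := NormedAlgebra.restrictScalars ℚ ℝ 𝔸
  rw [add_smul, NormedSpace.exp_add_of_commute]
  exact ((Commute.refl B).smul_left s).smul_right t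

/-- if `B L(v) - L(v) B = L(a v)` then `L(e^{ta} v) e^{tB} = e^{tB} L(v)`. -/
theorem exp_intertwine (L : V →L[ℝ] 𝔸) (a : V →L[ℝ] V) (B : 𝔸)
    (h : ∀ v, B * L v - L v * B = L (a v)) (t : ℝ) (v : V) :
    L (exp (t • a) v) * exp (t • B) = exp (t • B) * L v := by
  set f : ℝ → 𝔸 := fun t => exp (-(t • B)) * L (exp (t • a) v) * exp (t • B) with hf
  have hd : ∀ t, HasDerivAt f 0 t := by
    intro t
    have h1 : HasDerivAt (fun u : ℝ => exp (u • B)) (exp (t • B) * B) t :=
      hasDerivAt_exp_smul_const B t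
    have h1' : HasDerivAt (fun u : ℝ => exp (u • (-B))) (exp (t • (-B)) * (-B)) t :=
      hasDerivAt_exp_smul_const (-B) t
    have h2 : HasDerivAt (fun u : ℝ => exp (u • a)) (a * exp (t • a)) t :=
      hasDerivAt_exp_smul_const' a t
    have h3 : HasDerivAt (fun u : ℝ => L (exp (u • a) v)) (L ((a * exp (t • a)) v)) t :=
      L.hasFDerivAt.comp_hasDerivAt t (h2.clm_apply (hasDerivAt_const t v) |>.congr_deriv (by simp))
    have h4 := (h1'.mul h3).mul h1
    have h1B : exp (t • B) * B = B * exp (t • B) := by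
      have := (hasDerivAt_exp_smul_const B t).unique (hasDerivAt_exp_smul_const' B t)
      simpa using this
    refine (h4.congr_deriv ?_).congr_of_eventuallyEq (Eventually.of_forall fun u => ?_)
    · have h5 := h (exp (t • a) v)
      have h6 : L ((a * exp (t • a)) v) = L (a (exp (t • a) v)) := rfl
      rw [h6, ← h5, h1B]
      simp only [Pi.mul_apply]
      noncomm_ring
    · simp [hf]
  have hc : ∀ t, f t = f 0 := by
    intro t
    exact is_const_of_deriv_eq_zero (fun x => (hd x).differentiableAt) (fun x => (hd x).deriv) t 0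
  have h0 : f 0 = L v := by simp [hf]
  have h1 : exp (-(t • B)) * L (exp (t • a) v) * exp (t • B) = L v := by
    have := hc t; rw [h0] at this; exact this
  calc L (exp (t • a) v) * exp (t • B)
      = (exp (t • B) * exp (-(t • B))) * (L (exp (t • a) v) * exp (t • B)) := by
        rw [exp_mul_exp_neg, one_mul]
    _ = exp (t • B) * (exp (-(t • B)) * L (exp (t • a) v) * exp (t • B)) := by
        simp only [mul_assoc]
    _ = exp (t • B) * L v := by rw [h1]

end Abstract

/-! ## Clifford generators as continuous operators -/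

variable {N : ℕ} {F : Type*} [NormedAddCommGroup F] [InnerProductSpace ℂ F] [FiniteDimensional ℂ F]

/-- index set of the fermions -/
abbrev Idx (N : ℕ) := Fin 16 × Fin (N ^ 2 - 1)

/-- the generator `θ_p` as a continuous operator -/
def th (M : FermionRep N F) (p : Idx N) : F →L[ℂ] F :=
  LinearMap.toContinuousLinearMap (M.θ p.1 p.2)

theorem mulA (f g : F →L[ℂ] F) (v : F) : (f * g) v = f (g v) := rfl

@[simp] theorem th_apply (M : FermionRep N F) (p : Idx N) (v : F) : th M p v = M.θ p.1 p.2 v := rfl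

theorem th_anticomm (M : FermionRep N F) (p q : Idx N) :
    th M p * th M q + th M q * th M p = if p = q then 1 else 0 := by
  ext v
  have h := congrArg (fun f : F →ₗ[ℂ] F => f v) (M.anticomm p.1 p.2 q.1 q.2)
  by_cases hpq : p = q
  · subst hpq
    simpa using h
  · have : ¬ (p.1 = q.1 ∧ p.2 = q.2) := fun h => hpq (Prod.ext h.1 h.2)
    simpa [hpq, this] using h

theorem th_sq (M : FermionRep N F) (p : Idx N) : th M p * th M p = (1 / 2 : ℂ) • 1 := by
  have h := th_anticomm M p p
  rw [if_pos rfl, ← two_smul ℂ] at h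
  rw [← h, smul_smul]; norm_num

theorem th_symm (M : FermionRep N F) (p : Idx N) (v w : F) :
    ⟪th M p v, w⟫_ℂ = ⟪v, th M p w⟫_ℂ := M.selfAdjoint p.1 p.2 v w

/-- `(1/2) Σ a_pq θ_p θ_q`. -/
def spin (M : FermionRep N F) (a : Matrix (Idx N) (Idx N) ℝ) : F →L[ℂ] F :=
  (1 / 2 : ℂ) • ∑ p, ∑ q, (a p q : ℂ) • (th M p * th M q)

/-- `[θ_p θ_r, θ_q] = δ_rq θ_p - δ_pq θ_r` -/
theorem quad_comm (M : FermionRep N F) (p r q : Idx N) :
    (th M p * th M r) * th M q - th M q * (th M p * th M r) =
      (if r = q then (1 : ℂ) else 0) • th M p - (if p = q then (1 : ℂ) else 0) • th M r := by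
  have h1 := th_anticomm M r q
  have h2 := th_anticomm M p q
  have : (th M p * th M r) * th M q - th M q * (th M p * th M r) =
      th M p * (th M r * th M q + th M q * th M r) - (th M p * th M q + th M q * th M p) * th M r := by
    noncomm_ring
  rw [this, h1, h2]
  congr 1
  · split_ifs <;> simp
  · split_ifs <;> simp

theorem spin_comm (M : FermionRep N F) (a : Matrix (Idx N) (Idx N) ℝ)
    (ha : ∀ p q, a p q = - a q p) (q : Idx N) :
    spin M a * th M q - th M q * spin M a = ∑ p, (a p q : ℂ) • th M p := by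
  have h1 : spin M a * th M q - th M q * spin M a =
      (1 / 2 : ℂ) • ∑ p, ∑ r, (a p r : ℂ) •
        ((th M p * th M r) * th M q - th M q * (th M p * th M r)) := by
    simp only [spin, smul_sub, Finset.sum_sub_distrib, Finset.sum_mul, Finset.mul_sum,
      smul_mul_assoc, mul_smul_comm]
  rw [h1]
  simp only [quad_comm, smul_sub, Finset.sum_sub_distrib, smul_smul]
  have h2 : ∑ p : Idx N, ∑ r : Idx N, ((a p r : ℂ) * (if r = q then (1 : ℂ) else 0)) • th M p =
      ∑ p, (a p q : ℂ) • th M p := by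
    refine Finset.sum_congr rfl fun p _ => ?_
    rw [Finset.sum_eq_single q]
    · simp
    · intro r _ hr; simp [hr]
    · simp
  have h3 : ∑ p : Idx N, ∑ r : Idx N, ((a p r : ℂ) * (if p = q then (1 : ℂ) else 0)) • th M r =
      - ∑ p, (a p q : ℂ) • th M p := by
    rw [Finset.sum_eq_single q]
    · rw [← Finset.sum_neg_distrib]
      refine Finset.sum_congr rfl fun r _ => ?_
      rw [ha q r]; simp
    · intro p _ hp; simp [hp]
    · simp
  rw [h2, h3, ← smul_sub, sub_neg_eq_add, ← two_smul ℂ, smul_smul]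
  norm_num

/-! ## Schur's lemma -/

theorem schur [Nontrivial F] (M : FermionRep N F) (W : F →L[ℂ] F)
    (h : ∀ p, W * th M p = th M p * W) : ∃ c : ℂ, W = c • 1 := by
  obtain ⟨c, hc⟩ := Module.End.exists_eigenvalue (W : F →ₗ[ℂ] F)
  refine ⟨c, ?_⟩
  have h1 := M.irreducible (Module.End.eigenspace (W : F →ₗ[ℂ] F) c) (by
    intro α A v hv
    rw [Module.End.mem_eigenspace_iff] at hv ⊢
    have h2 := congrArg (fun f : F →L[ℂ] F => f v) (h (α, A))
    simp only [mulA, th_apply] at h2
    change W (M.θ α A v) = c • M.θ α A v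
    rw [h2]
    have hv' : W v = c • v := hv
    rw [hv', map_smul])
  rcases h1 with h1 | h1
  · exact absurd h1 hc
  · ext v
    have : v ∈ Module.End.eigenspace (W : F →ₗ[ℂ] F) c := by rw [h1]; trivial
    rw [Module.End.mem_eigenspace_iff] at this
    simpa using this

/-! ## adjoint, trace and determinant -/

theorem quad_skew (M : FermionRep N F) (p q : Idx N) (v w : F) :
    ⟪(th M p * th M q) v, w⟫_ℂ = ⟪v, (th M q * th M p) w⟫_ℂ := by
  simp only [mulA]
  rw [th_symm, th_symm]

theorem spin_skew (M : FermionRep N F) (a : Matrix (Idx N) (Idx N) ℝ)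
    (ha : ∀ p q, a p q = - a q p) (v w : F) :
    ⟪spin M a v, w⟫_ℂ = - ⟪v, spin M a w⟫_ℂ := by
  have h1 : ⟪spin M a v, w⟫_ℂ = (1 / 2 : ℂ) * ∑ p, ∑ q, (a p q : ℂ) * ⟪v, (th M q * th M p) w⟫_ℂ := by
    simp only [spin, _root_.smul_apply, _root_.sum_apply,
      inner_smul_left, sum_inner]
    congr 1
    · simp only [map_div₀, map_one, map_ofNat]
    · refine Finset.sum_congr rfl fun p _ => Finset.sum_congr rfl fun q _ => ?_
      rw [quad_skew]; simp
  have h2 : ⟪v, spin M a w⟫_ℂ = (1 / 2 : ℂ) * ∑ p, ∑ q, (a p q : ℂ) * ⟪v, (th M p * th M q) w⟫_ℂ := by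
    simp only [spin, _root_.smul_apply, _root_.sum_apply,
      inner_smul_right, inner_sum]
  rw [h1, h2, ← mul_neg, ← Finset.sum_neg_distrib]
  congr 1
  rw [Finset.sum_comm]
  refine Finset.sum_congr rfl fun q _ => ?_
  rw [← Finset.sum_neg_distrib]
  refine Finset.sum_congr rfl fun p _ => ?_
  rw [ha p q]; push_cast; ring

theorem trace_quad (M : FermionRep N F) (p q : Idx N) (h : p ≠ q) :
    LinearMap.trace ℂ F ((th M p * th M q : F →L[ℂ] F) : F →ₗ[ℂ] F) = 0 := by
  have h1 : LinearMap.trace ℂ F ((th M p * th M q : F →L[ℂ] F) : F →ₗ[ℂ] F) =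
      LinearMap.trace ℂ F ((th M q * th M p : F →L[ℂ] F) : F →ₗ[ℂ] F) :=
    LinearMap.trace_mul_comm ℂ (th M p : F →ₗ[ℂ] F) (th M q : F →ₗ[ℂ] F)
  have h2 : ((th M p * th M q : F →L[ℂ] F) : F →ₗ[ℂ] F) +
      ((th M q * th M p : F →L[ℂ] F) : F →ₗ[ℂ] F) = 0 := by
    have := th_anticomm M p q
    rw [if_neg h] at this
    rw [← ContinuousLinearMap.toLinearMap_add, this]; rfl
  have h3 := congrArg (LinearMap.trace ℂ F) h2
  rw [map_add, ← h1, map_zero] at h3
  have : (2 : ℂ) * LinearMap.trace ℂ F ((th M p * th M q : F →L[ℂ] F) : F →ₗ[ℂ] F) = 0 := by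
    rw [two_mul]; exact h3
  simpa using this

theorem spin_trace (M : FermionRep N F) (a : Matrix (Idx N) (Idx N) ℝ)
    (ha : ∀ p q, a p q = - a q p) :
    LinearMap.trace ℂ F ((spin M a : F →L[ℂ] F) : F →ₗ[ℂ] F) = 0 := by
  have h1 : ((spin M a : F →L[ℂ] F) : F →ₗ[ℂ] F) =
      (1 / 2 : ℂ) • ∑ p, ∑ q, (a p q : ℂ) • ((th M p * th M q : F →L[ℂ] F) : F →ₗ[ℂ] F) := by
    ext v
    simp [spin, LinearMap.sum_apply]
  rw [h1, map_smul, map_sum]
  have : ∀ p ∈ (Finset.univ : Finset (Idx N)), (LinearMap.trace ℂ F)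
      (∑ q, (a p q : ℂ) • ((th M p * th M q : F →L[ℂ] F) : F →ₗ[ℂ] F)) = 0 := by
    intro p _
    rw [map_sum]
    refine Finset.sum_eq_zero fun q _ => ?_
    rw [map_smul]
    by_cases hpq : p = q
    · subst hpq
      have : a p p = 0 := by have := ha p p; linarith
      simp [this]
    · rw [trace_quad M p q hpq, smul_zero]
  rw [Finset.sum_eq_zero this, smul_zero]

/-- `exp(t A) v = e^{t μ} v` on an eigenvector -/
theorem exp_eigen (A : F →L[ℂ] F) (μ : ℂ) (v : F) (h : A v = μ • v) (t : ℝ) :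
    exp (t • A) v = Complex.exp (t * μ) • v := by
  set f : ℝ → F := fun t => Complex.exp (-(t * μ)) • (exp (t • A) v) with hf
  have hd : ∀ t, HasDerivAt f 0 t := by
    intro t
    have h1 : HasDerivAt (fun u : ℝ => exp (u • A)) (exp (t • A) * A) t :=
      hasDerivAt_exp_smul_const A t
    have h2 : HasDerivAt (fun u : ℝ => exp (u • A) v) ((exp (t • A) * A) v) t := by
      have h5 := (((ContinuousLinearMap.apply ℂ F v).restrictScalars ℝ).hasFDerivAt
        (x := exp (t • A)))
      exact h5.comp_hasDerivAt t h1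
    have h3 : HasDerivAt (fun u : ℝ => Complex.exp (-(u * μ)))
        (Complex.exp (-(t * μ)) * (-μ)) t := by
      have h4 : HasDerivAt (fun u : ℝ => -((u : ℂ) * μ)) (-μ) t := by
        have := ((Complex.ofRealCLM.hasDerivAt (x := t)).mul_const μ).neg
        refine this.congr_deriv ?_
        simp
      exact h4.cexp
    refine (h3.smul h2).congr_deriv ?_
    have : (exp (t • A) * A) v = μ • exp (t • A) v := by
      rw [mulA, h, map_smul]
    rw [this, smul_smul, ← add_smul]
    ring_nf
    simp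
  have hc := is_const_of_deriv_eq_zero (fun x => (hd x).differentiableAt) (fun x => (hd x).deriv) t 0
  have h0 : f 0 = v := by simp [hf]
  rw [h0] at hc
  have : exp (t • A) v = Complex.exp (t * μ) • f t := by
    simp only [hf, smul_smul]
    rw [← Complex.exp_add]; simp
  rw [this, hc]

theorem det_exp_skew (A : F →L[ℂ] F) (hA : ∀ v w, ⟪A v, w⟫_ℂ = - ⟪v, A w⟫_ℂ)
    (htr : LinearMap.trace ℂ F (A : F →ₗ[ℂ] F) = 0) (t : ℝ) :
    LinearMap.det (exp (t • A) : F →L[ℂ] F).toLinearMap = 1 := by
  classical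
  set T : F →ₗ[ℂ] F := Complex.I • (A : F →ₗ[ℂ] F) with hT
  have hs : T.IsSymmetric := by
    intro v w
    simp only [hT, LinearMap.smul_apply, inner_smul_left, inner_smul_right]
    change (starRingEnd ℂ) Complex.I * ⟪A v, w⟫_ℂ = _ * ⟪v, A w⟫_ℂ
    rw [hA]; simp
  have hn : Module.finrank ℂ F = Module.finrank ℂ F := rfl
  set e := (hs.eigenvectorBasis hn) with he
  set l := hs.eigenvalues hn with hl
  have hAe : ∀ k, A (e k) = (-Complex.I * (l k : ℂ)) • e k := by
    intro k
    have h1 : T (e k) = (l k : ℂ) • e k := hs.apply_eigenvectorBasis hn k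
    have h2 : Complex.I • A (e k) = (l k : ℂ) • e k := h1
    have h3 := congrArg (fun x => (-Complex.I) • x) h2
    simp only [smul_smul] at h3
    rw [show -Complex.I * Complex.I = 1 by simp, one_smul] at h3
    exact h3
  have htr' : ∑ k, (-Complex.I * (l k : ℂ)) = 0 := by
    rw [LinearMap.trace_eq_matrix_trace ℂ e.toBasis, Matrix.trace] at htr
    rw [← htr]
    refine Finset.sum_congr rfl fun k _ => ?_
    rw [Matrix.diag_apply, LinearMap.toMatrix_apply]
    simp only [OrthonormalBasis.coe_toBasis, ContinuousLinearMap.coe_coe, hAe, map_smul,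
      Finsupp.smul_apply, smul_eq_mul]
    rw [show e.toBasis.repr (e k) k = 1 by
      rw [← OrthonormalBasis.coe_toBasis]; simp]
    simp
  rw [← LinearMap.det_toMatrix e.toBasis]
  have hdiag : LinearMap.toMatrix e.toBasis e.toBasis (exp (t • A) : F →L[ℂ] F).toLinearMap =
      Matrix.diagonal (fun k => Complex.exp (t * (-Complex.I * (l k : ℂ)))) := by
    ext j k
    rw [LinearMap.toMatrix_apply]
    simp only [OrthonormalBasis.coe_toBasis, ContinuousLinearMap.coe_coe]
    rw [exp_eigen A _ _ (hAe k) t, map_smul, Finsupp.smul_apply]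
    rw [← OrthonormalBasis.coe_toBasis, Module.Basis.repr_self]
    by_cases hjk : j = k
    · subst hjk; simp
    · simp [hjk]
  rw [hdiag, Matrix.det_diagonal, ← Complex.exp_sum, ← Finset.mul_sum, htr', mul_zero,
    Complex.exp_zero]

end Crest.Agent.R330.Lift406
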