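import Crest.Agent.R330.LitA_974
import Crest.Agent.R330.BlkSplit_837

/-!
# Row 330, T5 (helper916): the light line, pointwise

Over 414's `TPack`: `om P X0 g χ u = U_X (Psi_g(Y) (χ X))`, `X = X0 + cfT u`, `Y = PY u`.

* `LC` : light charge of `om` at `p ∈ L = R⁹ ⊗ kk`:
  `Σ_s -i Θ(u_s) (D om u_s) + W(c+p) (om p) = om' p + rhoE p + rhoS p`, `om'` the amplitude `D χ`.
* `berry_zero` : `⟪U_X f, rhoE⟫ = 0` for `f ∈ Fl`.
-/

set_option autoImplicit false
set_option linter.unusedSectionVars false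

open MeasureTheory Filter Topology Crest.MathPhysics.MatrixQM
open scoped ContDiff InnerProductSpace ENNReal

noncomputable section

namespace Crest.Agent.R330.LightC916

open Crest.Agent.R330.Defs478 Crest.Agent.R330.LS839 Crest.Agent.R330.Frame839
  Crest.Agent.R330.Bind6839 Crest.Agent.R330.TDef414 Crest.Agent.R330.Split149
  Crest.Agent.R330.LitA974 Crest.Agent.R330.IBP837 Crest.Agent.R330.FreeC122
  Crest.Agent.R330.Clus839
open Crest.Agent.R330.BlkSplit837.EmbFam (wvec wvec_eq wA_eq_sum thvL thvL_apply thv_add thv_smul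
  Theta_eq_thv)

/-! ### 0. Derivative of `x ↦ c x (v x)` with complex linear `c x` -/

section gen

variable {E F F' : Type*} [NormedAddCommGroup E] [NormedSpace ℝ E]
  [NormedAddCommGroup F] [NormedSpace ℂ F] [NormedAddCommGroup F'] [NormedSpace ℂ F']

/-- evaluation as a real bilinear map -/
def evB : (F →L[ℂ] F') →L[ℝ] F →L[ℝ] F' := ContinuousLinearMap.restrictScalarsL ℂ F F' ℝ ℝ

theorem evB_apply (c : F →L[ℂ] F') (v : F) : evB c v = c v := rfl

theorem hasFDerivAt_ev {c : E → F →L[ℂ] F'} {v : E → F} {x : E} {c' : E →L[ℝ] F →L[ℂ] F'}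
    {v' : E →L[ℝ] F} (hc : HasFDerivAt c c' x) (hv : HasFDerivAt v v' x) :
    HasFDerivAt (fun y => c y (v y))
      (((evB (c x)).comp v') + ((evB (F := F) (F' := F')).comp c').flip (v x)) x := by
  have h1 : HasFDerivAt (fun y => evB (c y)) ((evB (F := F) (F' := F')).comp c') x :=
    (evB (F := F) (F' := F')).hasFDerivAt.comp x hc
  exact h1.clm_apply hv

theorem contDiffAt_ev {n : WithTop ℕ∞} {c : E → F →L[ℂ] F'} {v : E → F} {x : E}
    (hc : ContDiffAt ℝ n c x) (hv : ContDiffAt ℝ n v x) :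
    ContDiffAt ℝ n (fun y => c y (v y)) x := by
  have h1 : ContDiffAt ℝ n (fun y => evB (c y)) x :=
    (evB (F := F) (F' := F')).contDiff.contDiffAt.comp x hc
  exact h1.clm_apply hv

theorem fderiv_ev {c : E → F →L[ℂ] F'} {v : E → F} {x : E} (hc : DifferentiableAt ℝ c x)
    (hv : DifferentiableAt ℝ v x) (e : E) :
    fderiv ℝ (fun y => c y (v y)) x e = c x (fderiv ℝ v x e) + (fderiv ℝ c x e) (v x) := by
  rw [(hasFDerivAt_ev hc.hasFDerivAt hv.hasFDerivAt).fderiv]
  rfl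

end gen

variable {N p : ℕ} {b : ColorBasis N} {S : Type} [Group S] [Fintype S] {C : Chn b p S}
  {F : Type*} [NormedAddCommGroup F] [InnerProductSpace ℂ F] [FiniteDimensional ℂ F]
  {M : FermionRep N F} {R : GaugeAction b M} {G : GammaNine}

/-! ### 1. The operators of the light fermions -/

theorem Od_mono {K K' : Submodule ℝ (Colg N)} (h : K ≤ K') : Od M K ≤ Od M K' := by
  unfold Od
  refine Submodule.span_mono ?_
  rintro L ⟨β, u, hu, rfl⟩
  exact ⟨β, u, h hu, rfl⟩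

/-- light operators preserve a space of vacua of the complement -/
theorem Od_mem_vacOf {K : Submodule ℝ (Colg N)} {L : F →ₗ[ℂ] F} (hL : L ∈ Od M K) {f : F}
    (hf : f ∈ vacOf M G Kᗮ) : L f ∈ vacOf M G Kᗮ := by
  unfold Od at hL
  induction hL using Submodule.span_induction with
  | mem x hx =>
    obtain ⟨β, u, hu, rfl⟩ := hx
    exact thv_mem_vacOf (Submodule.le_orthogonal_orthogonal K hu) hf
  | zero => simp
  | add x y _ _ h1 h2 =>
    rw [LinearMap.add_apply]
    exact Submodule.add_mem _ h1 h2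
  | smul r x _ h1 =>
    rw [LinearMap.smul_apply]
    exact Submodule.smul_mem _ _ h1

/-- `U X` commutes with the light operators on `Fl` -/
theorem U_Od (P : TPack C M R G) {X : Pos p} (hX : C.BReg X) {L : F →ₗ[ℂ] F}
    (hL : L ∈ Od M C.kk) {f : F} (hf : f ∈ C.Fl M G) : P.U X (L f) = L (P.U X f) := by
  unfold Od at hL
  induction hL using Submodule.span_induction with
  | mem x hx =>
    obtain ⟨β, u, hu, rfl⟩ := hx
    exact P.U_comm X hX β u hu f hf
  | zero => simp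
  | add x y _ _ h1 h2 => rw [LinearMap.add_apply, LinearMap.add_apply, map_add, h1, h2]
  | smul r x _ h1 => rw [LinearMap.smul_apply, LinearMap.smul_apply, map_smul, h1]

/-- `Psi` commutes with the fermions of the centre on `Fx` -/
theorem Psi_Od (P : TPack C M R G) (g : ℝ) {Y : Cfg N} (hY : Y ∈ C.Blk) {L : F →ₗ[ℂ] F}
    (hL : L ∈ Od M (LinearMap.range C.cen.toLinearMap)) {f : F} (hf : f ∈ C.Fx M G) :
    P.Psi g Y (L f) = L (P.Psi g Y f) := by
  unfold Od at hL
  induction hL using Submodule.span_induction with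
  | mem x hx =>
    obtain ⟨β, _, ⟨t, rfl⟩, rfl⟩ := hx
    exact P.Psi_thx g Y hY β t f hf
  | zero => simp
  | add x y _ _ h1 h2 => rw [LinearMap.add_apply, LinearMap.add_apply, map_add, h1, h2]
  | smul r x _ h1 => rw [LinearMap.smul_apply, LinearMap.smul_apply, map_smul, h1]

theorem aA_mem' {K : Submodule ℝ (Colg N)} (α : Fin 16) {e : Cfg N} (he : e ∈ Tup K) :
    aA M G α e ∈ Od M K := Submodule.smul_mem _ _ (Theta_mem M G α he)

theorem thv_sum (β : Fin 16) {ι : Type*} (s : Finset ι) (f : ι → Colg N) :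
    thv M β (∑ i ∈ s, f i) = ∑ i ∈ s, thv M β (f i) := by
  rw [← thvL_apply, map_sum]
  rfl

theorem thv_smul' (β : Fin 16) (r : ℝ) (u : Colg N) :
    thv M β (r • u) = (r : ℂ) • thv M β u := thv_smul M β r u

/-- `aA` on positions -/
theorem aA_cf (α : Fin 16) (q : Fin 9 × Fin p) (f : F) :
    aA M G α (C.cf (EuclideanSpace.single q 1)) f =
      (-Complex.I) • ∑ β, ((G.γ q.1 α β : ℝ) : ℂ) •
        thv M β (C.cen (EuclideanSpace.single q.2 1)) f := by
  unfold aA
  rw [LinearMap.smul_apply, Theta_eq_thv, LinearMap.sum_apply]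
  congr 1
  refine Finset.sum_congr rfl fun β _ => ?_
  have h : ∑ j, G.γ j α β • comp (C.cf (EuclideanSpace.single q 1)) j =
      G.γ q.1 α β • C.cen (EuclideanSpace.single q.2 1) := by
    rw [Finset.sum_eq_single q.1]
    · rw [C.comp_cf]
      congr 2
      ext s
      simp only [pcomp, PiLp.single_apply, Prod.ext_iff]
      simp
    · intro j _ hj
      rw [C.comp_cf]
      have : pcomp (EuclideanSpace.single q (1 : ℝ) : Pos p) j = 0 := by
        ext s
        simp only [pcomp, PiLp.single_apply, Prod.ext_iff]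
        simp [hj]
      rw [this, map_zero, smul_zero]
    · simp
  rw [h, thv_smul', LinearMap.smul_apply]

/-- the mass term on positions -/
theorem wA_cf (m : ℝ) (α : Fin 16) (X : Pos p) (f : F) :
    wA b M G 0 m α (C.cf X) f = ∑ q : Fin 9 × Fin p, ((X q : ℝ) : ℂ) •
      ∑ β, ((-(m * (cc q.1 * (Gam G * G.γ q.1) α β)) : ℝ) : ℂ) •
        thv M β (C.cen (EuclideanSpace.single q.2 1)) f := by
  rw [wA_eq_sum]
  have h : ∀ β, wvec b G 0 m α β (C.cf X) = ∑ q : Fin 9 × Fin p,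
      (X q * (-(m * (cc q.1 * (Gam G * G.γ q.1) α β)))) •
        C.cen (EuclideanSpace.single q.2 1) := by
    intro β
    rw [wvec_eq, zero_smul, zero_sub, Fintype.sum_prod_type, Finset.smul_sum,
      ← Finset.sum_neg_distrib]
    refine Finset.sum_congr rfl fun j _ => ?_
    rw [C.comp_cf]
    have h1 : pcomp X j = ∑ s, X (j, s) • (EuclideanSpace.single s (1 : ℝ)) := by
      have h2 := (EuclideanSpace.basisFun (Fin p) ℝ).sum_repr (pcomp X j)
      simp only [EuclideanSpace.basisFun_apply, EuclideanSpace.basisFun_repr] at h2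
      rw [← h2]
      rfl
    rw [h1, map_sum, Finset.smul_sum, Finset.smul_sum, ← Finset.sum_neg_distrib]
    refine Finset.sum_congr rfl fun s _ => ?_
    rw [map_smul, smul_smul, smul_smul, ← neg_smul]
    congr 1
    ring
  simp only [h, thv_sum, thv_smul', LinearMap.sum_apply, LinearMap.smul_apply]
  rw [Finset.sum_comm]
  refine Finset.sum_congr rfl fun q _ => ?_
  rw [Finset.smul_sum]
  refine Finset.sum_congr rfl fun β _ => ?_
  rw [smul_smul]
  push_cast
  rfl

/-- The free charges through the charges of `R⁹ ⊗ centre`. -/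
theorem Dx_coe (m : ℝ) (α : Fin 16) (χ : Pos p → C.Fx M G) (X : Pos p) :
    ((C.Dx M G m α χ X : C.Fx M G) : F) =
      (∑ q, aA M G α (C.cf (EuclideanSpace.single q 1))
        ((fderiv ℝ χ X (EuclideanSpace.single q 1) : C.Fx M G) : F)) +
      wA b M G 0 m α (C.cf X) ((χ X : C.Fx M G) : F) := by
  have hthx : ∀ β t (f : C.Fx M G), ((C.thx M G β t f : C.Fx M G) : F) =
      thv M β (C.cen t) (f : F) := fun β t f => rfl
  unfold Chn.Dx dirac
  rw [lin_apply]
  simp only [Submodule.coe_add, Submodule.coe_sum, Submodule.coe_smul, Chn.ax, Chn.vx,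
    LinearMap.sum_apply, LinearMap.smul_apply, hthx]
  rw [wA_cf]
  simp only [aA_cf]

/-! ### 2. The light function and its derivative -/

/-- `PY` as a continuous linear map -/
def PYL (C : Chn b p S) : Cfg N →L[ℝ] Cfg N :=
  C.PK - C.cf.toContinuousLinearMap.comp C.cfT

theorem PYL_apply (u : Cfg N) : PYL C u = C.PY u := rfl

/-- the light function: `om u = U_X (Psi_g(Y) (χ X))` -/
def om (P : TPack C M R G) (X0 : Pos p) (g : ℝ) (χ : Pos p → C.Fx M G) (u : Cfg N) : F :=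
  P.U (X0 + C.cfT u) (P.Psi g (C.PY u) ((χ (X0 + C.cfT u) : C.Fx M G) : F))

/-- the derivative of the heavy vacuum -/
def rhoE (P : TPack C M R G) (X0 : Pos p) (g : ℝ) (α : Fin 16) (χ : Pos p → C.Fx M G)
    (u : Cfg N) : F :=
  ∑ q, aA M G α (C.cf (EuclideanSpace.single q 1))
    ((fderiv ℝ P.U (X0 + C.cfT u) (EuclideanSpace.single q 1))
      (P.Psi g (C.PY u) ((χ (X0 + C.cfT u) : C.Fx M G) : F)))

/-- the block charges and the mass term of the blocks -/
def rhoS (P : TPack C M R G) (X0 : Pos p) (g m : ℝ) (α : Fin 16) (χ : Pos p → C.Fx M G)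
    (u : Cfg N) : F :=
  P.U (X0 + C.cfT u) (qblk C M G g α
    (fun Y => P.Psi g Y ((χ (X0 + C.cfT u) : C.Fx M G) : F)) (C.PY u)) +
  wA b M G 0 m α (C.PY u) (om P X0 g χ u)

theorem hasFDerivAt_X (X0 : Pos p) (u : Cfg N) :
    HasFDerivAt (fun u => X0 + C.cfT u) C.cfT u := C.cfT.hasFDerivAt.const_add X0

theorem hasFDerivAt_Y (u : Cfg N) : HasFDerivAt C.PY (PYL C) u := (PYL C).hasFDerivAt

section der

variable {P : TPack C M R G} {X0 : Pos p} {g : ℝ} {χ : Pos p → C.Fx M G}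

theorem diff_chi (hχ : ContDiff ℝ 1 χ) (u : Cfg N) :
    HasFDerivAt (fun u => ((χ (X0 + C.cfT u) : C.Fx M G) : F))
      (((C.Fx M G).subtypeL.restrictScalars ℝ).comp
        ((fderiv ℝ χ (X0 + C.cfT u)).comp C.cfT)) u := by
  have h1 : HasFDerivAt (fun u => χ (X0 + C.cfT u)) ((fderiv ℝ χ (X0 + C.cfT u)).comp C.cfT) u :=
    ((hχ.differentiable (by simp) _).hasFDerivAt).comp u (hasFDerivAt_X X0 u)
  exact ((C.Fx M G).subtypeL.restrictScalars ℝ).hasFDerivAt.comp u h1

theorem diff_psi (hP : ContDiff ℝ 1 (P.Psi g)) (u : Cfg N) :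
    HasFDerivAt (fun u => P.Psi g (C.PY u)) ((fderiv ℝ (P.Psi g) (C.PY u)).comp (PYL C)) u :=
  ((hP.differentiable (by simp) _).hasFDerivAt).comp u (hasFDerivAt_Y u)

theorem diff_U {u : Cfg N} (hX : C.BReg (X0 + C.cfT u)) :
    HasFDerivAt (fun u => P.U (X0 + C.cfT u))
      ((fderiv ℝ P.U (X0 + C.cfT u)).comp C.cfT) u :=
  (((P.U_smooth _ hX).differentiableAt (by simp)).hasFDerivAt).comp u (hasFDerivAt_X X0 u)

/-- The derivative of the light function. -/
theorem fderiv_om (hP : ContDiff ℝ 1 (P.Psi g)) (hχ : ContDiff ℝ 1 χ) {u : Cfg N}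
    (hX : C.BReg (X0 + C.cfT u)) (e : Cfg N) :
    HasFDerivAt (om P X0 g χ) (fderiv ℝ (om P X0 g χ) u) u ∧
    fderiv ℝ (om P X0 g χ) u e =
      (fderiv ℝ P.U (X0 + C.cfT u) (C.cfT e))
        (P.Psi g (C.PY u) ((χ (X0 + C.cfT u) : C.Fx M G) : F)) +
      P.U (X0 + C.cfT u) ((fderiv ℝ (P.Psi g) (C.PY u) (C.PY e))
        ((χ (X0 + C.cfT u) : C.Fx M G) : F)) +
      P.U (X0 + C.cfT u) (P.Psi g (C.PY u)
        ((fderiv ℝ χ (X0 + C.cfT u) (C.cfT e) : C.Fx M G) : F)) := by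
  have h1 := diff_chi (X0 := X0) hχ u
  have h2 := diff_psi (C := C) hP u
  have h3 := diff_U (P := P) hX
  have h4 := hasFDerivAt_ev h2 h1
  have h5 := hasFDerivAt_ev h3 h4
  have h6 : HasFDerivAt (om P X0 g χ) _ u := h5
  refine ⟨h6.differentiableAt.hasFDerivAt, ?_⟩
  rw [h6.fderiv]
  have e1 : ∀ e, ((((evB (P.U (X0 + C.cfT u))).comp
      (((evB (P.Psi g (C.PY u))).comp (((C.Fx M G).subtypeL.restrictScalars ℝ).comp
        ((fderiv ℝ χ (X0 + C.cfT u)).comp C.cfT))) +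
        ((evB (F := F) (F' := F)).comp ((fderiv ℝ (P.Psi g) (C.PY u)).comp (PYL C))).flip
          ((χ (X0 + C.cfT u) : C.Fx M G) : F))) +
      ((evB (F := F) (F' := F)).comp ((fderiv ℝ P.U (X0 + C.cfT u)).comp C.cfT)).flip
        (P.Psi g (C.PY u) ((χ (X0 + C.cfT u) : C.Fx M G) : F))) e) =
      P.U (X0 + C.cfT u) (P.Psi g (C.PY u)
        ((fderiv ℝ χ (X0 + C.cfT u) (C.cfT e) : C.Fx M G) : F) +
        (fderiv ℝ (P.Psi g) (C.PY u) (C.PY e)) ((χ (X0 + C.cfT u) : C.Fx M G) : F)) +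
      (fderiv ℝ P.U (X0 + C.cfT u) (C.cfT e))
        (P.Psi g (C.PY u) ((χ (X0 + C.cfT u) : C.Fx M G) : F)) := fun e => rfl
  rw [e1, map_add]
  abel

end der

/-- the derivative of `Psi` in block directions has values in `Fl` -/
theorem fderiv_Psi_mem (P : TPack C M R G) {g : ℝ} (hP : ContDiff ℝ 1 (P.Psi g)) {Y e : Cfg N}
    (hY : Y ∈ C.Blk) (he : e ∈ C.Blk) {f : F} (hf : f ∈ C.Fx M G) :
    (fderiv ℝ (P.Psi g) Y e) f ∈ C.Fl M G := by
  have h0 : ((C.Fl M G)ᗮ)ᗮ = C.Fl M G := Submodule.orthogonal_orthogonal _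
  rw [← h0, Submodule.mem_orthogonal]
  intro w hw
  have h1 : HasDerivAt (fun t : ℝ => P.Psi g (Y + t • e)) (fderiv ℝ (P.Psi g) Y e) 0 := by
    have h2 : HasDerivAt (fun t : ℝ => Y + t • e) e 0 := by
      simpa using ((hasDerivAt_id (0 : ℝ)).smul_const e).const_add Y
    have h3 : HasFDerivAt (P.Psi g) (fderiv ℝ (P.Psi g) Y) (Y + (0 : ℝ) • e) := by
      rw [zero_smul, add_zero]
      exact (hP.differentiable (by simp) _).hasFDerivAt
    exact h3.comp_hasDerivAt (0 : ℝ) h2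
  have h4 : HasDerivAt (fun t : ℝ => P.Psi g (Y + t • e) f) ((fderiv ℝ (P.Psi g) Y e) f) 0 := by
    have h5 := ((evB (F := F) (F' := F)).hasFDerivAt.comp_hasDerivAt (0 : ℝ) h1)
    have h6 := h5.clm_apply (hasDerivAt_const (0 : ℝ) f)
    simpa [evB_apply] using h6
  have h7 : HasDerivAt (fun t : ℝ => ⟪w, P.Psi g (Y + t • e) f⟫_ℂ)
      (⟪w, (fderiv ℝ (P.Psi g) Y e) f⟫_ℂ) 0 := by
    have h8 := (((innerSL ℂ w).restrictScalars ℝ).hasFDerivAt).comp_hasDerivAt (0 : ℝ) h4
    exact h8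
  have h9 : (fun t : ℝ => ⟪w, P.Psi g (Y + t • e) f⟫_ℂ) = fun _ => 0 := by
    funext t
    have h10 := P.Psi_mem g (Y + t • e) (Submodule.add_mem _ hY (Submodule.smul_mem _ _ he)) f hf
    rw [← inner_conj_symm]
    rw [(Submodule.mem_orthogonal _ _).1 hw _ h10, map_zero]
  rw [h9] at h7
  exact h7.unique (hasDerivAt_const (0 : ℝ) (0 : ℂ))

/-! ### 3. The light charge -/

/-- `Σ_s a(e_s) D(e_s)` as a bilinear map on `R⁹ ⊗ kk` -/
def kbK (C : Chn b p S) (M : FermionRep N F) (G : GammaNine) (α : Fin 16) (D : Cfg N →L[ℝ] F) :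
    Tup C.kk →ₗ[ℝ] Tup C.kk →ₗ[ℝ] F :=
  LinearMap.mk₂ ℝ (fun e e' => aA M G α (e : Cfg N) (D (e' : Cfg N)))
    (fun e₁ e₂ e' => by
      simp only [aA, Submodule.coe_add, Theta_add, smul_add, LinearMap.add_apply])
    (fun r e e' => by
      simp only [aA, Submodule.coe_smul, Theta_smul, LinearMap.smul_apply]
      rw [smul_comm]
      exact Complex.coe_smul _ _)
    (fun e e₁ e₂ => by rw [Submodule.coe_add, map_add, map_add])
    (fun r e e' => by
      rw [Submodule.coe_smul, map_smul]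
      have : (r • D (e' : Cfg N) : F) = (r : ℂ) • D (e' : Cfg N) := (Complex.coe_smul _ _).symm
      rw [this, map_smul]
      exact Complex.coe_smul _ _)

theorem kbK_apply (C : Chn b p S) (α : Fin 16) (D : Cfg N →L[ℝ] F) (e e' : Tup C.kk) :
    kbK C M G α D e e' = aA M G α (e : Cfg N) (D (e' : Cfg N)) := rfl

/-- An orthonormal basis of `R⁹ ⊗ kk`: positions and blocks. -/
def basK (C : Chn b p S) : OrthonormalBasis ((Fin 9 × Fin p) ⊕ Fin (Module.finrank ℝ C.Blk)) ℝ
    (Tup C.kk) :=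
  OrthonormalBasis.mk ((split_kk C).ob_orthonormal (EuclideanSpace.basisFun (Fin 9 × Fin p) ℝ)
    (stdOrthonormalBasis ℝ C.Blk)) (by
    intro x _
    obtain ⟨u, z, hx⟩ := (split_kk C).span x
    rw [hx]
    refine Submodule.add_mem _ ?_ ?_
    · have h := (EuclideanSpace.basisFun (Fin 9 × Fin p) ℝ).sum_repr' u
      rw [← h, map_sum]
      refine Submodule.sum_mem _ fun s _ => ?_
      rw [map_smul]
      exact Submodule.smul_mem _ _ (Submodule.subset_span ⟨Sum.inl s, rfl⟩)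
    · have h := (stdOrthonormalBasis ℝ C.Blk).sum_repr' z
      rw [← h, map_sum]
      refine Submodule.sum_mem _ fun s _ => ?_
      rw [map_smul]
      exact Submodule.smul_mem _ _ (Submodule.subset_span ⟨Sum.inr s, rfl⟩))

theorem basK_inl (q : Fin 9 × Fin p) :
    ((basK C (Sum.inl q) : Tup C.kk) : Cfg N) = C.cf (EuclideanSpace.single q 1) := by
  unfold basK
  simp only [OrthonormalBasis.coe_mk, Sum.elim_inl, EuclideanSpace.basisFun_apply]
  rfl

theorem basK_inr (n : Fin (Module.finrank ℝ C.Blk)) :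
    ((basK C (Sum.inr n) : Tup C.kk) : Cfg N) =
      ((stdOrthonormalBasis ℝ C.Blk n : C.Blk) : Cfg N) := by
  unfold basK
  simp only [OrthonormalBasis.coe_mk, Sum.elim_inr]
  rfl

/-- The derivative part of the light charge in the coordinates (positions, blocks). -/
theorem kin_light {κ : Type*} [Fintype κ] (e : OrthonormalBasis κ ℝ (Tup C.kk)) (α : Fin 16)
    (D : Cfg N →L[ℝ] F) :
    ∑ s, aA M G α ((e s : Tup C.kk) : Cfg N) (D ((e s : Tup C.kk) : Cfg N)) =
      (∑ q, aA M G α (C.cf (EuclideanSpace.single q 1)) (D (C.cf (EuclideanSpace.single q 1)))) +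
      ∑ n, aA M G α ((stdOrthonormalBasis ℝ C.Blk n : C.Blk) : Cfg N)
        (D ((stdOrthonormalBasis ℝ C.Blk n : C.Blk) : Cfg N)) := by
  have h := contraction_basis (kbK C M G α D) e (basK C)
  simp only [kbK_apply] at h
  rw [h, Fintype.sum_sum_type]
  simp only [basK_inl, basK_inr]

/-- the potential of a light configuration is a light operator -/
theorem wA_mem_kk {X : Pos p} (hX : C.Reg X) (g m : ℝ) (α : Fin 16) {x : Cfg N}
    (hx : x ∈ Tup C.kk) : wA b M G g m α x ∈ Od M C.kk := by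
  have h := wA_mem (b := b) (c := C.cf X) M G g m α (p := x) (by
    rw [Uk_cf C hX]
    exact hx)
  rwa [show kc (actB b) (C.cf X) = C.kk from hX] at h

theorem wA_cf_mem (m : ℝ) (α : Fin 16) (X : Pos p) :
    wA b M G 0 m α (C.cf X) ∈ Od M (LinearMap.range C.cen.toLinearMap) := by
  have h : wA b M G 0 m α (C.cf X) = ∑ q : Fin 9 × Fin p, ((X q : ℝ) : ℂ) •
      ∑ β, ((-(m * (cc q.1 * (Gam G * G.γ q.1) α β)) : ℝ) : ℂ) •
        thv M β (C.cen (EuclideanSpace.single q.2 1)) := by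
    apply LinearMap.ext
    intro f
    rw [wA_cf]
    simp only [LinearMap.sum_apply, LinearMap.smul_apply]
  rw [h]
  refine Submodule.sum_mem _ fun q _ => Submodule.smul_mem _ _ (Submodule.sum_mem _ fun β _ =>
    Submodule.smul_mem _ _ (thv_mem M β ⟨_, rfl⟩))

/-- the potential at `cf X + Y` -/
theorem wA_add (g m : ℝ) (α : Fin 16) (X : Pos p) {Y : Cfg N} (hY : Y ∈ Tup C.kk) :
    wA b M G g m α (C.cf X + Y) = wA b M G 0 m α (C.cf X) + wA b M G g 0 α Y +
      wA b M G 0 m α Y := by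
  apply LinearMap.ext
  intro f
  rw [LinearMap.add_apply, LinearMap.add_apply]
  simp only [wA_eq_sum]
  rw [← Finset.sum_add_distrib, ← Finset.sum_add_distrib]
  refine Finset.sum_congr rfl fun β _ => ?_
  rw [← LinearMap.add_apply, ← LinearMap.add_apply, ← thv_add, ← thv_add]
  congr 2
  have h1 : ∀ i j, (colAlg b).br (comp (C.cf X + Y) i) (comp (C.cf X + Y) j) =
      (colAlg b).br (comp Y i) (comp Y j) := by
    intro i j
    have hc : ∀ u ∈ C.kk, (colAlg b).br (comp (C.cf X) i) u = 0 := fun u hu => by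
      rw [C.comp_cf]
      exact C.cen_comm _ u hu
    have hc' : ∀ u ∈ C.kk, (colAlg b).br u (comp (C.cf X) j) = 0 := fun u hu => by
      rw [(colAlg b).anti, C.comp_cf, C.cen_comm _ u hu, neg_zero]
    rw [comp_add, comp_add]
    simp only [map_add, LinearMap.add_apply]
    rw [hc _ (cf_mem_Tup C X j), hc _ (hY j), hc' _ (hY i)]
    abel
  simp only [wvec_eq, h1, zero_smul, sub_zero, zero_sub]
  have h2 : (∑ j, (cc j * (Gam G * G.γ j) α β) • comp (C.cf X + Y) j : Colg N) =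
      (∑ j, (cc j * (Gam G * G.γ j) α β) • comp (C.cf X) j) +
        ∑ j, (cc j * (Gam G * G.γ j) α β) • comp Y j := by
    rw [← Finset.sum_add_distrib]
    exact Finset.sum_congr rfl fun j _ => by rw [comp_add, smul_add]
  rw [h2, smul_add]
  abel

theorem PY_cf (X : Pos p) : C.PY (C.cf X) = 0 := by
  have h := PY_coord C (X := X) (Y := 0) (z := 0) (Submodule.zero_mem _) (Submodule.zero_mem _)
  simpa using h

theorem PY_blk {Y : Cfg N} (hY : Y ∈ C.Blk) : C.PY Y = Y := by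
  have h := PY_coord C (X := 0) (Y := Y) (z := 0) hY (Submodule.zero_mem _)
  simpa using h

theorem Fx_aA {α : Fin 16} {X : Pos p} {f : F} (hf : f ∈ C.Fx M G) :
    aA M G α (C.cf X) f ∈ C.Fx M G :=
  Od_mem_vacOf (aA_mem' α fun i => by rw [C.comp_cf]; exact ⟨_, rfl⟩) hf

/-- **The light charge of the light function.** -/
theorem LC (P : TPack C M R G) (X0 : Pos p) {g : ℝ} (m : ℝ) (α : Fin 16)
    {χ : Pos p → C.Fx M G} (hP : ContDiff ℝ 1 (P.Psi g)) (hχ : ContDiff ℝ 1 χ) {κ : Type*}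
    [Fintype κ] (e : OrthonormalBasis κ ℝ (Tup C.kk)) {u : Cfg N} (hu : u ∈ Tup C.kk)
    (hX : C.BReg (X0 + C.cfT u)) :
    (∑ s, aA M G α ((e s : Tup C.kk) : Cfg N) (fderiv ℝ (om P X0 g χ) u (e s : Tup C.kk))) +
      wA b M G g m α (C.cf X0 + u) (om P X0 g χ u) =
    om P X0 g (C.Dx M G m α χ) u + rhoE P X0 g α χ u + rhoS P X0 g m α χ u := by
  set X := X0 + C.cfT u with hXd
  set Y := C.PY u with hYd
  have hYB : Y ∈ C.Blk := PY_mem C u
  have hχX : ((χ X : C.Fx M G) : F) ∈ C.Fx M G := (χ X).2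
  have hPs : P.Psi g Y ((χ X : C.Fx M G) : F) ∈ C.Fl M G := P.Psi_mem g Y hYB _ hχX
  have hsum : C.cf X0 + u = C.cf X + Y := by
    have h1 : u = C.cf (C.cfT u) + Y := by
      rw [hYd]
      unfold Chn.PY
      rw [PK_of_mem C hu]
      abel
    conv_lhs => rw [h1]
    rw [hXd, map_add]
    abel
  rw [kin_light e α, hsum, wA_add g m α X hYB.1]
  -- derivatives in the directions of the centre
  have hc : ∀ q, fderiv ℝ (om P X0 g χ) u (C.cf (EuclideanSpace.single q 1)) =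
      (fderiv ℝ P.U X (EuclideanSpace.single q 1)) (P.Psi g Y ((χ X : C.Fx M G) : F)) +
      P.U X (P.Psi g Y ((fderiv ℝ χ X (EuclideanSpace.single q 1) : C.Fx M G) : F)) := by
    intro q
    rw [(fderiv_om hP hχ hX _).2, C.cfT_cf, PY_cf]
    simp
    rfl
  -- derivatives in the directions of the blocks
  have hb : ∀ n, fderiv ℝ (om P X0 g χ) u ((stdOrthonormalBasis ℝ C.Blk n : C.Blk) : Cfg N) =
      P.U X ((fderiv ℝ (P.Psi g) Y ((stdOrthonormalBasis ℝ C.Blk n : C.Blk) : Cfg N))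
        ((χ X : C.Fx M G) : F)) := by
    intro n
    rw [(fderiv_om hP hχ hX _).2, cfT_Blk C (stdOrthonormalBasis ℝ C.Blk n).2,
      PY_blk (stdOrthonormalBasis ℝ C.Blk n).2]
    simp
    rfl
  simp only [hc, hb, map_add, Finset.sum_add_distrib]
  -- light operators through `U X`
  have hcen : ∀ q, aA M G α (C.cf (EuclideanSpace.single q 1))
      (P.U X (P.Psi g Y ((fderiv ℝ χ X (EuclideanSpace.single q 1) : C.Fx M G) : F))) =
      P.U X (P.Psi g Y (aA M G α (C.cf (EuclideanSpace.single q 1))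
        ((fderiv ℝ χ X (EuclideanSpace.single q 1) : C.Fx M G) : F))) := by
    intro q
    have h1 : aA M G α (C.cf (EuclideanSpace.single q 1)) ∈
        Od M (LinearMap.range C.cen.toLinearMap) := aA_mem' α fun i => by
      rw [C.comp_cf]
      exact ⟨_, rfl⟩
    rw [Psi_Od P g hYB h1 (fderiv ℝ χ X (EuclideanSpace.single q 1)).2,
      U_Od P hX (aA_mem' α (cf_mem_Tup C _)) (P.Psi_mem g Y hYB _
        (fderiv ℝ χ X (EuclideanSpace.single q 1)).2)]
  have hblk : ∀ n, aA M G α ((stdOrthonormalBasis ℝ C.Blk n : C.Blk) : Cfg N)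
      (P.U X ((fderiv ℝ (P.Psi g) Y ((stdOrthonormalBasis ℝ C.Blk n : C.Blk) : Cfg N))
        ((χ X : C.Fx M G) : F))) =
      P.U X (aA M G α ((stdOrthonormalBasis ℝ C.Blk n : C.Blk) : Cfg N)
        ((fderiv ℝ (P.Psi g) Y ((stdOrthonormalBasis ℝ C.Blk n : C.Blk) : Cfg N))
          ((χ X : C.Fx M G) : F))) := fun n =>
    (U_Od P hX (aA_mem' α (stdOrthonormalBasis ℝ C.Blk n).2.1)
      (fderiv_Psi_mem P hP hYB (stdOrthonormalBasis ℝ C.Blk n).2 hχX)).symm
  simp only [hcen, hblk]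
  have hw1 : wA b M G 0 m α (C.cf X) (om P X0 g χ u) =
      P.U X (P.Psi g Y (wA b M G 0 m α (C.cf X) ((χ X : C.Fx M G) : F))) := by
    rw [Psi_Od P g hYB (wA_cf_mem m α X) hχX,
      U_Od P hX (wA_mem_kk hX.reg 0 m α (cf_mem_Tup C X)) hPs]
    rfl
  have hw2 : wA b M G g 0 α Y (om P X0 g χ u) =
      P.U X (wA b M G g 0 α Y (P.Psi g Y ((χ X : C.Fx M G) : F))) := by
    rw [U_Od P hX (wA_mem_kk hX.reg g 0 α hYB.1) hPs]
    rfl
  rw [LinearMap.add_apply, LinearMap.add_apply, hw1, hw2]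
  have hD : om P X0 g (C.Dx M G m α χ) u =
      (∑ q, P.U X (P.Psi g Y (aA M G α (C.cf (EuclideanSpace.single q 1))
        ((fderiv ℝ χ X (EuclideanSpace.single q 1) : C.Fx M G) : F)))) +
      P.U X (P.Psi g Y (wA b M G 0 m α (C.cf X) ((χ X : C.Fx M G) : F))) := by
    show P.U X (P.Psi g Y ((C.Dx M G m α χ X : C.Fx M G) : F)) = _
    rw [Dx_coe]
    simp only [map_add, map_sum]
  have hE : rhoE P X0 g α χ u = ∑ q, aA M G α (C.cf (EuclideanSpace.single q 1))
      ((fderiv ℝ P.U X (EuclideanSpace.single q 1)) (P.Psi g Y ((χ X : C.Fx M G) : F))) := rfl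
  have hfd : ∀ n, fderiv ℝ (fun Y => P.Psi g Y ((χ X : C.Fx M G) : F)) Y
      ((stdOrthonormalBasis ℝ C.Blk n : C.Blk) : Cfg N) =
      (fderiv ℝ (P.Psi g) Y ((stdOrthonormalBasis ℝ C.Blk n : C.Blk) : Cfg N))
        ((χ X : C.Fx M G) : F) := by
    intro n
    rw [fderiv_ev (hP.differentiable (by simp) _) (differentiableAt_const _)]
    simp
  have hS : rhoS P X0 g m α χ u =
      (∑ n, P.U X (aA M G α ((stdOrthonormalBasis ℝ C.Blk n : C.Blk) : Cfg N)
        ((fderiv ℝ (P.Psi g) Y ((stdOrthonormalBasis ℝ C.Blk n : C.Blk) : Cfg N))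
          ((χ X : C.Fx M G) : F)))) +
      P.U X (wA b M G g 0 α Y (P.Psi g Y ((χ X : C.Fx M G) : F))) +
      wA b M G 0 m α Y (om P X0 g χ u) := by
    unfold rhoS qblk
    rw [← hXd, ← hYd]
    simp only [hfd, map_add, map_sum]
  rw [hD, hE, hS]
  abel

/-- **Berry**: the derivative of the heavy vacuum has no vacuum component. -/
theorem berry_zero (P : TPack C M R G) (X0 : Pos p) (g : ℝ) (α : Fin 16)
    (χ : Pos p → C.Fx M G) (u : Cfg N) (hX : C.BReg (X0 + C.cfT u)) {f : F}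
    (hf : f ∈ C.Fl M G) : ⟪P.U (X0 + C.cfT u) f, rhoE P X0 g α χ u⟫_ℂ = 0 := by
  unfold rhoE
  rw [inner_sum]
  refine Finset.sum_eq_zero fun q _ => ?_
  have h1 : ∀ v, ⟪P.U (X0 + C.cfT u) f, aA M G α (C.cf (EuclideanSpace.single q 1)) v⟫_ℂ =
      -⟪aA M G α (C.cf (EuclideanSpace.single q 1)) (P.U (X0 + C.cfT u) f), v⟫_ℂ := fun v => by
    rw [aA_skew, neg_neg]
  rw [h1, ← U_Od P hX (aA_mem' α (cf_mem_Tup C _)) hf]
  have hf' : aA M G α (C.cf (EuclideanSpace.single q 1)) f ∈ C.Fl M G :=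
    Od_mem_vacOf (aA_mem' α (cf_mem_Tup C _)) hf
  have hPs : P.Psi g (C.PY u) ((χ (X0 + C.cfT u) : C.Fx M G) : F) ∈ C.Fl M G :=
    P.Psi_mem g _ (PY_mem C u) _ (χ (X0 + C.cfT u)).2
  have h2 := P.U_berry _ hX (EuclideanSpace.single q 1) _ hf' _ hPs
  rw [fderiv_ev ((P.U_smooth _ hX).differentiableAt (by simp)) (differentiableAt_const _)] at h2
  simp only [fderiv_fun_const, Pi.zero_apply, _root_.zero_apply, map_zero,
    zero_add] at h2
  rw [h2, neg_zero]

end Crest.Agent.R330.LightC916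

end
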