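import Mathlib

/-!
# R330/PairC_714 : the L² calculus of the error classes in S8-PAIR (helper714)

Coordinates `(p, z) ∈ U × Z`, amplitude `a p z ≥ 0`, weight `wt g z = (1 + √g ‖z‖)^4`.

* `memLp_sq_le` : `‖e (p,z)‖ ≤ K a(p,z) wt h(p)` and the fibre moments give `e ∈ L²` and
  `∫ ‖e‖² ≤ K² CM ∫ h²`.
* `Moms` : the hypotheses on the sizes of the base functions as `g → ∞`.
* `Cls1`, `Cls2`, `Cls3` : the three classes of error terms; `.add`.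
* `small` : `g^(-1/2) |e1| + g^(-1/2) |e2| + |ρ e2| + |e3| → 0`.
-/

set_option autoImplicit false
set_option linter.unusedSectionVars false
set_option linter.unusedVariables false

open MeasureTheory Filter Topology
open scoped ENNReal

noncomputable section

namespace Crest.Agent.R330.PairC714

variable {U Z F : Type*} [MeasurableSpace U] [MeasurableSpace Z] [NormedAddCommGroup Z]
  [NormedAddCommGroup F] {μ : Measure U} {ν : Measure Z}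

/-- the polynomial weight in the fibre -/
def wt (g : ℝ) (z : Z) : ℝ := (1 + Real.sqrt g * ‖z‖) ^ 4

theorem one_le_wt (g : ℝ) (z : Z) : 1 ≤ wt g z :=
  one_le_pow₀ (by have := mul_nonneg (Real.sqrt_nonneg g) (norm_nonneg z); linarith)

theorem wt_nonneg (g : ℝ) (z : Z) : 0 ≤ wt g z := zero_le_one.trans (one_le_wt g z)

/-- the `L²` size -/
def l2 (m : Measure (U × Z)) (e : U × Z → F) : ℝ := Real.sqrt (∫ x, ‖e x‖ ^ 2 ∂m)

theorem l2_nonneg (m : Measure (U × Z)) (e : U × Z → F) : 0 ≤ l2 m e := Real.sqrt_nonneg _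

section basic

variable [SFinite μ] [SFinite ν]

theorem lint_le {e : U × Z → F} (he : AEStronglyMeasurable e (μ.prod ν)) {a : U → Z → ℝ}
    {h : U → ℝ} {C H : ℝ≥0∞} (hb : ∀ p z, ‖e (p, z)‖ ≤ a p z * h p)
    (hM : ∀ p, h p ≠ 0 → ∫⁻ z, ENNReal.ofReal (a p z ^ 2) ∂ν ≤ C)
    (hH : ∫⁻ p, ENNReal.ofReal (h p ^ 2) ∂μ ≤ H) (hC : C ≠ ⊤) :
    ∫⁻ x, ‖e x‖ₑ ^ 2 ∂(μ.prod ν) ≤ C * H := by
  rw [lintegral_prod _ (he.enorm.pow_const 2)]
  calc ∫⁻ p, ∫⁻ z, ‖e (p, z)‖ₑ ^ 2 ∂ν ∂μ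
      ≤ ∫⁻ p, C * ENNReal.ofReal (h p ^ 2) ∂μ := by
        refine lintegral_mono fun p => ?_
        by_cases h0 : h p = 0
        · have h1 : ∀ z, ‖e (p, z)‖ₑ ^ 2 = 0 := fun z => by
            have h2 := hb p z
            rw [h0, mul_zero] at h2
            have h3 : e (p, z) = 0 := norm_le_zero_iff.1 h2
            rw [h3, enorm_zero]
            norm_num
          simp only [h1, lintegral_zero]
          exact bot_le
        · calc ∫⁻ z, ‖e (p, z)‖ₑ ^ 2 ∂ν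
              ≤ ∫⁻ z, ENNReal.ofReal (h p ^ 2) * ENNReal.ofReal (a p z ^ 2) ∂ν := by
                refine lintegral_mono fun z => ?_
                rw [← ENNReal.ofReal_mul (sq_nonneg _), ← mul_pow, mul_comm (h p),
                  ← ofReal_norm, ← ENNReal.ofReal_pow (norm_nonneg _)]
                exact ENNReal.ofReal_le_ofReal (by
                  have h1 := hb p z
                  have h2 := norm_nonneg (e (p, z))
                  exact pow_le_pow_left₀ h2 h1 2)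
            _ = ENNReal.ofReal (h p ^ 2) * ∫⁻ z, ENNReal.ofReal (a p z ^ 2) ∂ν :=
                lintegral_const_mul' _ _ ENNReal.ofReal_ne_top
            _ ≤ ENNReal.ofReal (h p ^ 2) * C := by gcongr; exact hM p h0
            _ = C * ENNReal.ofReal (h p ^ 2) := mul_comm _ _
    _ = C * ∫⁻ p, ENNReal.ofReal (h p ^ 2) ∂μ := lintegral_const_mul' _ _ hC
    _ ≤ C * H := by gcongr

theorem memLp_sq_le {e : U × Z → F} (he : AEStronglyMeasurable e (μ.prod ν)) {a : U → Z → ℝ}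
    {h : U → ℝ} {g K CM : ℝ} (hCM : 0 ≤ CM)
    (hM : ∀ p, h p ≠ 0 → Integrable (fun z => (a p z * wt g z) ^ 2) ν ∧
      ∫ z, (a p z * wt g z) ^ 2 ∂ν ≤ CM)
    (hI : Integrable (fun p => h p ^ 2) μ)
    (hb : ∀ p z, ‖e (p, z)‖ ≤ K * (a p z * wt g z) * h p) :
    MemLp e 2 (μ.prod ν) ∧ ∫ x, ‖e x‖ ^ 2 ∂(μ.prod ν) ≤ K ^ 2 * CM * ∫ p, h p ^ 2 ∂μ := by
  have hH0 : 0 ≤ ∫ p, h p ^ 2 ∂μ := integral_nonneg fun p => sq_nonneg _
  have h1 := lint_le (μ := μ) (ν := ν) he (a := fun p z => K * (a p z * wt g z)) (h := h)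
    (C := ENNReal.ofReal (K ^ 2 * CM)) (H := ENNReal.ofReal (∫ p, h p ^ 2 ∂μ)) hb
    (fun p hp => by
      obtain ⟨h2, h3⟩ := hM p hp
      have h4 : ∀ z, (K * (a p z * wt g z)) ^ 2 = K ^ 2 * (a p z * wt g z) ^ 2 := fun z => by ring
      simp only [h4]
      rw [← ofReal_integral_eq_lintegral_ofReal (h2.const_mul _)
        (Eventually.of_forall fun z => by positivity), integral_const_mul]
      exact ENNReal.ofReal_le_ofReal (mul_le_mul_of_nonneg_left h3 (sq_nonneg K)))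
    (by
      rw [← ofReal_integral_eq_lintegral_ofReal hI (Eventually.of_forall fun p => sq_nonneg _)])
    ENNReal.ofReal_ne_top
  rw [← ENNReal.ofReal_mul (by positivity)] at h1
  have h5 : ∫⁻ x, ‖e x‖ₑ ^ 2 ∂(μ.prod ν) ≠ ⊤ := ne_top_of_le_ne_top ENNReal.ofReal_ne_top h1
  have h6 : MemLp e 2 (μ.prod ν) := by
    refine ⟨he, ?_⟩
    rw [eLpNorm_eq_lintegral_rpow_enorm_toReal (by norm_num) (by norm_num)]
    simp only [ENNReal.toReal_ofNat]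
    refine ENNReal.rpow_lt_top_of_nonneg (by norm_num) ?_
    convert h5 using 3
    norm_num
  refine ⟨h6, ?_⟩
  have h7 : ∫ x, ‖e x‖ ^ 2 ∂(μ.prod ν) = (∫⁻ x, ‖e x‖ₑ ^ 2 ∂(μ.prod ν)).toReal := by
    rw [integral_eq_lintegral_of_nonneg_ae (Eventually.of_forall fun x => sq_nonneg _)
      (he.norm.pow 2)]
    congr 1
    refine lintegral_congr fun x => ?_
    rw [ENNReal.ofReal_pow (norm_nonneg _), ofReal_norm]
  rw [h7]
  exact ENNReal.toReal_le_of_le_ofReal (by positivity) h1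

end basic

/-! ## the classes -/

/-- sizes of the base functions: `n0 = ‖om‖`, `n1 = ‖D om‖`, `nE`, `nS` the errors of the light
charge, `y = ‖Y‖`. -/
structure Sizes (U : Type*) where
  y : U → ℝ
  n0 : ℝ → U → ℝ
  n1 : ℝ → U → ℝ
  nE : ℝ → U → ℝ
  nS : ℝ → U → ℝ

variable (s : Sizes U)

/-- base function of class 1 -/
def Sizes.h1 (g : ℝ) (p : U) : ℝ :=
  Real.sqrt g * s.y p * s.n0 g p + s.n0 g p + (Real.sqrt g)⁻¹ * s.n1 g p + s.nE g p + s.nS g p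

/-- base function of class 2 -/
def Sizes.h2 (g : ℝ) (p : U) : ℝ := s.n0 g p + s.nE g p

/-- base function of class 3 -/
def Sizes.h3 (g : ℝ) (p : U) : ℝ :=
  (s.y p + (Real.sqrt g)⁻¹) * s.n0 g p + s.nS g p + (Real.sqrt g)⁻¹ * s.n1 g p +
    (Real.sqrt g)⁻¹ * s.nE g p

/-- a family of functions bounded by `K a wt h` for large `g` -/
def Cls (a : ℝ → U → Z → ℝ) (h : ℝ → U → ℝ) (e : ℝ → U × Z → F) : Prop :=
  ∃ K : ℝ, 0 ≤ K ∧ ∀ᶠ g in atTop, ∀ p z, ‖e g (p, z)‖ ≤ K * (a g p z * wt g z) * h g p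

theorem Cls.add {a : ℝ → U → Z → ℝ} {h : ℝ → U → ℝ} {e e' : ℝ → U × Z → F} (h1 : Cls a h e)
    (h2 : Cls a h e') : Cls a h (fun g x => e g x + e' g x) := by
  obtain ⟨K, hK, h1⟩ := h1
  obtain ⟨K', hK', h2⟩ := h2
  refine ⟨K + K', add_nonneg hK hK', ?_⟩
  filter_upwards [h1, h2] with g g1 g2 p z
  have := norm_add_le (e g (p, z)) (e' g (p, z))
  have h3 := g1 p z
  have h4 := g2 p z
  calc ‖e g (p, z) + e' g (p, z)‖ ≤ _ := this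
    _ ≤ K * (a g p z * wt g z) * h g p + K' * (a g p z * wt g z) * h g p := add_le_add h3 h4
    _ = (K + K') * (a g p z * wt g z) * h g p := by ring

theorem Cls.sum {ι : Type*} (t : Finset ι) {a : ℝ → U → Z → ℝ} {h : ℝ → U → ℝ}
    {e : ι → ℝ → U × Z → F} (h1 : ∀ i ∈ t, Cls a h (e i)) : Cls a h (fun g x => ∑ i ∈ t, e i g x) := by
  classical
  induction t using Finset.induction_on with
  | empty =>
    refine ⟨0, le_rfl, ?_⟩
    filter_upwards with g p z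
    simp
  | insert i t hi ih =>
    have h2 := ih fun j hj => h1 j (Finset.mem_insert_of_mem hj)
    have h3 := (h1 i (Finset.mem_insert_self i t)).add h2
    refine (?_ : Cls a h (fun g x => e i g x + ∑ j ∈ t, e j g x) → _) h3
    intro h4
    simpa only [Finset.sum_insert hi] using h4

theorem Cls.neg {a : ℝ → U → Z → ℝ} {h : ℝ → U → ℝ} {e : ℝ → U × Z → F} (h1 : Cls a h e) :
    Cls a h (fun g x => - e g x) := by
  obtain ⟨K, hK, h1⟩ := h1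
  refine ⟨K, hK, ?_⟩
  filter_upwards [h1] with g g1 p z
  rw [norm_neg]
  exact g1 p z

/-- comparison of the base functions -/
theorem Cls.mono {a : ℝ → U → Z → ℝ} {h h' : ℝ → U → ℝ} {e : ℝ → U × Z → F} (h1 : Cls a h e)
    (ha : ∀ g p z, 0 ≤ a g p z) (hh : ∀ᶠ g in atTop, ∀ p, h g p ≤ h' g p) : Cls a h' e := by
  obtain ⟨K, hK, h1⟩ := h1
  refine ⟨K, hK, ?_⟩
  filter_upwards [h1, hh] with g g1 g2 p z
  refine (g1 p z).trans ?_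
  exact mul_le_mul_of_nonneg_left (g2 p) (mul_nonneg hK (mul_nonneg (ha g p z) (wt_nonneg g z)))

/-- the hypotheses on the sizes as `g → ∞` -/
structure Moms (μ : Measure U) (s : Sizes U) : Prop where
  y0 : ∀ p, 0 ≤ s.y p
  n00 : ∀ g p, 0 ≤ s.n0 g p
  n10 : ∀ g p, 0 ≤ s.n1 g p
  nE0 : ∀ g p, 0 ≤ s.nE g p
  nS0 : ∀ g p, 0 ≤ s.nS g p
  i0 : ∀ᶠ g in atTop, Integrable (fun p => s.n0 g p ^ 2) μ
  iy : ∀ᶠ g in atTop, Integrable (fun p => (s.y p * s.n0 g p) ^ 2) μ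
  i1 : ∀ᶠ g in atTop, Integrable (fun p => s.n1 g p ^ 2) μ
  iE : ∀ᶠ g in atTop, Integrable (fun p => s.nE g p ^ 2) μ
  iyE : ∀ᶠ g in atTop, Integrable (fun p => (s.y p * s.nE g p) ^ 2) μ
  iS : ∀ᶠ g in atTop, Integrable (fun p => s.nS g p ^ 2) μ
  b0 : ∃ C : ℝ, ∀ᶠ g in atTop, ∫ p, s.n0 g p ^ 2 ∂μ ≤ C
  by0 : Tendsto (fun g => ∫ p, (s.y p * s.n0 g p) ^ 2 ∂μ) atTop (𝓝 0)
  b1 : Tendsto (fun g => g⁻¹ * ∫ p, s.n1 g p ^ 2 ∂μ) atTop (𝓝 0)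
  bE : ∃ C : ℝ, ∀ᶠ g in atTop, ∫ p, s.nE g p ^ 2 ∂μ ≤ C
  byE : Tendsto (fun g => ∫ p, (s.y p * s.nE g p) ^ 2 ∂μ) atTop (𝓝 0)
  bS : Tendsto (fun g => ∫ p, s.nS g p ^ 2 ∂μ) atTop (𝓝 0)

section sums

variable {f₁ f₂ f₃ f₄ : U → ℝ}

theorem AESM_of_sq (h : ∀ p, 0 ≤ f₁ p) (hi : Integrable (fun p => f₁ p ^ 2) μ) :
    AEStronglyMeasurable f₁ μ := by
  have h1 : f₁ = fun p => Real.sqrt (f₁ p ^ 2) := by
    funext p
    rw [Real.sqrt_sq (h p)]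
  rw [h1]
  exact Real.continuous_sqrt.comp_aestronglyMeasurable hi.aestronglyMeasurable

theorem int_add_sq {f₁ f₂ : U → ℝ} (h₁ : ∀ p, 0 ≤ f₁ p) (h₂ : ∀ p, 0 ≤ f₂ p)
    (i₁ : Integrable (fun p => f₁ p ^ 2) μ) (i₂ : Integrable (fun p => f₂ p ^ 2) μ) :
    Integrable (fun p => (f₁ p + f₂ p) ^ 2) μ ∧
      ∫ p, (f₁ p + f₂ p) ^ 2 ∂μ ≤ 2 * ((∫ p, f₁ p ^ 2 ∂μ) + ∫ p, f₂ p ^ 2 ∂μ) := by
  have hb : ∀ p, (f₁ p + f₂ p) ^ 2 ≤ 2 * (f₁ p ^ 2 + f₂ p ^ 2) := fun p => by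
    nlinarith [sq_nonneg (f₁ p - f₂ p)]
  have hi : Integrable (fun p => 2 * (f₁ p ^ 2 + f₂ p ^ 2)) μ := (i₁.add i₂).const_mul 2
  have hi2 : Integrable (fun p => (f₁ p + f₂ p) ^ 2) μ := by
    refine hi.mono' (((AESM_of_sq h₁ i₁).add (AESM_of_sq h₂ i₂)).pow 2)
      (Eventually.of_forall fun p => ?_)
    rw [Real.norm_eq_abs, abs_of_nonneg (sq_nonneg _)]
    exact hb p
  refine ⟨hi2, (integral_mono hi2 hi hb).trans (le_of_eq ?_)⟩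
  rw [integral_const_mul, integral_add i₁ i₂]

end sums

section bounds

variable {s} (h : Moms μ s)

include h

theorem Moms.H1 : ∀ᶠ g in atTop, Integrable (fun p => s.h1 g p ^ 2) μ ∧
    ∫ p, s.h1 g p ^ 2 ∂μ ≤ 16 * (g * (∫ p, (s.y p * s.n0 g p) ^ 2 ∂μ) +
      (∫ p, s.n0 g p ^ 2 ∂μ) + g⁻¹ * (∫ p, s.n1 g p ^ 2 ∂μ) + (∫ p, s.nE g p ^ 2 ∂μ) +
      ∫ p, s.nS g p ^ 2 ∂μ) := by
  filter_upwards [h.i0, h.iy, h.i1, h.iE, h.iS, eventually_gt_atTop 0] with g g0 gy g1 gE gS hg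
  have hsg : 0 ≤ Real.sqrt g := Real.sqrt_nonneg g
  have e1 : ∀ p, (Real.sqrt g * s.y p * s.n0 g p) ^ 2 = g * (s.y p * s.n0 g p) ^ 2 := fun p => by
    rw [mul_assoc, mul_pow, Real.sq_sqrt hg.le]
  have e2 : ∀ p, ((Real.sqrt g)⁻¹ * s.n1 g p) ^ 2 = g⁻¹ * s.n1 g p ^ 2 := fun p => by
    rw [mul_pow, inv_pow, Real.sq_sqrt hg.le]
  have i1 : Integrable (fun p => (Real.sqrt g * s.y p * s.n0 g p) ^ 2) μ := by
    simp only [e1]; exact gy.const_mul _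
  have i2 : Integrable (fun p => ((Real.sqrt g)⁻¹ * s.n1 g p) ^ 2) μ := by
    simp only [e2]; exact g1.const_mul _
  have p1 : ∀ p, 0 ≤ Real.sqrt g * s.y p * s.n0 g p := fun p =>
    mul_nonneg (mul_nonneg hsg (h.y0 p)) (h.n00 g p)
  have p2 : ∀ p, 0 ≤ (Real.sqrt g)⁻¹ * s.n1 g p := fun p =>
    mul_nonneg (inv_nonneg.2 hsg) (h.n10 g p)
  obtain ⟨j1, k1⟩ := int_add_sq p1 (h.n00 g) i1 g0
  obtain ⟨j2, k2⟩ := int_add_sq (fun p => add_nonneg (p1 p) (h.n00 g p)) p2 j1 i2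
  obtain ⟨j3, k3⟩ := int_add_sq
    (fun p => add_nonneg (add_nonneg (p1 p) (h.n00 g p)) (p2 p)) (h.nE0 g) j2 gE
  obtain ⟨j4, k4⟩ := int_add_sq (fun p => add_nonneg (add_nonneg (add_nonneg (p1 p)
    (h.n00 g p)) (p2 p)) (h.nE0 g p)) (h.nS0 g) j3 gS
  refine ⟨j4, k4.trans ?_⟩
  simp only [e1, e2, integral_const_mul] at k1 k2 k3 ⊢
  have q1 : 0 ≤ g⁻¹ * ∫ p, s.n1 g p ^ 2 ∂μ :=
    mul_nonneg (inv_nonneg.2 hg.le) (integral_nonneg fun p => sq_nonneg _)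
  have q2 : 0 ≤ g * ∫ p, (s.y p * s.n0 g p) ^ 2 ∂μ :=
    mul_nonneg hg.le (integral_nonneg fun p => sq_nonneg _)
  have q3 : 0 ≤ ∫ p, s.n0 g p ^ 2 ∂μ := integral_nonneg fun p => sq_nonneg _
  have q4 : 0 ≤ ∫ p, s.nE g p ^ 2 ∂μ := integral_nonneg fun p => sq_nonneg _
  have q5 : 0 ≤ ∫ p, s.nS g p ^ 2 ∂μ := integral_nonneg fun p => sq_nonneg _
  linarith

theorem Moms.H2 : ∀ᶠ g in atTop, Integrable (fun p => s.h2 g p ^ 2) μ ∧
    ∫ p, s.h2 g p ^ 2 ∂μ ≤ 2 * ((∫ p, s.n0 g p ^ 2 ∂μ) + ∫ p, s.nE g p ^ 2 ∂μ) := by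
  filter_upwards [h.i0, h.iE] with g g0 gE
  exact int_add_sq (h.n00 g) (h.nE0 g) g0 gE

theorem Moms.Hy2 : ∀ᶠ g in atTop, Integrable (fun p => (s.y p * s.h2 g p) ^ 2) μ ∧
    ∫ p, (s.y p * s.h2 g p) ^ 2 ∂μ ≤
      2 * ((∫ p, (s.y p * s.n0 g p) ^ 2 ∂μ) + ∫ p, (s.y p * s.nE g p) ^ 2 ∂μ) := by
  filter_upwards [h.iy, h.iyE] with g g0 gE
  have e : ∀ p, s.y p * s.h2 g p = s.y p * s.n0 g p + s.y p * s.nE g p := fun p => by
    unfold Sizes.h2; ring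
  simp only [e]
  exact int_add_sq (fun p => mul_nonneg (h.y0 p) (h.n00 g p))
    (fun p => mul_nonneg (h.y0 p) (h.nE0 g p)) g0 gE

theorem Moms.H3 : ∀ᶠ g in atTop, Integrable (fun p => s.h3 g p ^ 2) μ ∧
    ∫ p, s.h3 g p ^ 2 ∂μ ≤ 16 * ((∫ p, (s.y p * s.n0 g p) ^ 2 ∂μ) +
      g⁻¹ * (∫ p, s.n0 g p ^ 2 ∂μ) + (∫ p, s.nS g p ^ 2 ∂μ) +
      g⁻¹ * (∫ p, s.n1 g p ^ 2 ∂μ) + g⁻¹ * ∫ p, s.nE g p ^ 2 ∂μ) := by
  filter_upwards [h.i0, h.iy, h.i1, h.iE, h.iS, eventually_gt_atTop 0] with g g0 gy g1 gE gS hg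
  have hsg : 0 ≤ Real.sqrt g := Real.sqrt_nonneg g
  have e0 : ∀ p, ((Real.sqrt g)⁻¹ * s.n0 g p) ^ 2 = g⁻¹ * s.n0 g p ^ 2 := fun p => by
    rw [mul_pow, inv_pow, Real.sq_sqrt hg.le]
  have e2 : ∀ p, ((Real.sqrt g)⁻¹ * s.n1 g p) ^ 2 = g⁻¹ * s.n1 g p ^ 2 := fun p => by
    rw [mul_pow, inv_pow, Real.sq_sqrt hg.le]
  have e4 : ∀ p, ((Real.sqrt g)⁻¹ * s.nE g p) ^ 2 = g⁻¹ * s.nE g p ^ 2 := fun p => by
    rw [mul_pow, inv_pow, Real.sq_sqrt hg.le]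
  have i0 : Integrable (fun p => ((Real.sqrt g)⁻¹ * s.n0 g p) ^ 2) μ := by
    simp only [e0]; exact g0.const_mul _
  have i2 : Integrable (fun p => ((Real.sqrt g)⁻¹ * s.n1 g p) ^ 2) μ := by
    simp only [e2]; exact g1.const_mul _
  have i4 : Integrable (fun p => ((Real.sqrt g)⁻¹ * s.nE g p) ^ 2) μ := by
    simp only [e4]; exact gE.const_mul _
  have p0 : ∀ p, 0 ≤ s.y p * s.n0 g p := fun p => mul_nonneg (h.y0 p) (h.n00 g p)
  have p1 : ∀ p, 0 ≤ (Real.sqrt g)⁻¹ * s.n0 g p := fun p =>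
    mul_nonneg (inv_nonneg.2 hsg) (h.n00 g p)
  have p2 : ∀ p, 0 ≤ (Real.sqrt g)⁻¹ * s.n1 g p := fun p =>
    mul_nonneg (inv_nonneg.2 hsg) (h.n10 g p)
  have p4 : ∀ p, 0 ≤ (Real.sqrt g)⁻¹ * s.nE g p := fun p =>
    mul_nonneg (inv_nonneg.2 hsg) (h.nE0 g p)
  obtain ⟨j1, k1⟩ := int_add_sq p0 p1 gy i0
  obtain ⟨j2, k2⟩ := int_add_sq (fun p => add_nonneg (p0 p) (p1 p)) (h.nS0 g) j1 gS
  obtain ⟨j3, k3⟩ := int_add_sq
    (fun p => add_nonneg (add_nonneg (p0 p) (p1 p)) (h.nS0 g p)) p2 j2 i2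
  obtain ⟨j4, k4⟩ := int_add_sq (fun p => add_nonneg (add_nonneg (add_nonneg (p0 p) (p1 p))
    (h.nS0 g p)) (p2 p)) p4 j3 i4
  have e3 : ∀ p, s.h3 g p = s.y p * s.n0 g p + (Real.sqrt g)⁻¹ * s.n0 g p + s.nS g p +
      (Real.sqrt g)⁻¹ * s.n1 g p + (Real.sqrt g)⁻¹ * s.nE g p := fun p => by
    unfold Sizes.h3; ring
  simp only [e3]
  refine ⟨j4, k4.trans ?_⟩
  simp only [e0, e2, e4, integral_const_mul] at k1 k2 k3 ⊢
  have q1 : 0 ≤ g⁻¹ * ∫ p, s.n1 g p ^ 2 ∂μ :=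
    mul_nonneg (inv_nonneg.2 hg.le) (integral_nonneg fun p => sq_nonneg _)
  have q2 : 0 ≤ ∫ p, (s.y p * s.n0 g p) ^ 2 ∂μ := integral_nonneg fun p => sq_nonneg _
  have q3 : 0 ≤ g⁻¹ * ∫ p, s.n0 g p ^ 2 ∂μ :=
    mul_nonneg (inv_nonneg.2 hg.le) (integral_nonneg fun p => sq_nonneg _)
  have q4 : 0 ≤ ∫ p, s.nS g p ^ 2 ∂μ := integral_nonneg fun p => sq_nonneg _
  have q5 : 0 ≤ g⁻¹ * ∫ p, s.nE g p ^ 2 ∂μ :=
    mul_nonneg (inv_nonneg.2 hg.le) (integral_nonneg fun p => sq_nonneg _)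
  linarith

end bounds

/-- the fibre moments of the amplitude: for large `g`, over the support of the base functions -/
def FibMom (ν : Measure Z) (a : ℝ → U → Z → ℝ) (S : Set U) : Prop :=
  ∃ CM : ℝ, 0 ≤ CM ∧ ∀ᶠ g in atTop, ∀ p ∈ S, Integrable (fun z => (a g p z * wt g z) ^ 2) ν ∧
    ∫ z, (a g p z * wt g z) ^ 2 ∂ν ≤ CM

/-- the support condition for the sizes -/
def Sizes.Supp (s : Sizes U) (S : Set U) : Prop :=
  ∀ᶠ g in atTop, ∀ p, p ∉ S → s.n0 g p = 0 ∧ s.n1 g p = 0 ∧ s.nE g p = 0 ∧ s.nS g p = 0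

section final

variable [SFinite μ] [SFinite ν] {s} {a : ℝ → U → Z → ℝ} {S : Set U}

theorem cls_bound {h : ℝ → U → ℝ} (hM : FibMom ν a S)
    (hS : ∀ᶠ g in atTop, ∀ p, p ∉ S → h g p = 0)
    {e : ℝ → U × Z → F} (he : Cls a h e)
    (hm : ∀ᶠ g in atTop, AEStronglyMeasurable (e g) (μ.prod ν))
    (hi : ∀ᶠ g in atTop, Integrable (fun p => h g p ^ 2) μ) :
    ∃ C : ℝ, 0 ≤ C ∧ ∀ᶠ g in atTop, MemLp (e g) 2 (μ.prod ν) ∧
      ∫ x, ‖e g x‖ ^ 2 ∂(μ.prod ν) ≤ C * ∫ p, h g p ^ 2 ∂μ := by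
  obtain ⟨CM, hCM, hM⟩ := hM
  obtain ⟨K, hK, he⟩ := he
  refine ⟨K ^ 2 * CM, by positivity, ?_⟩
  filter_upwards [hM, he, hm, hi, hS] with g g1 g2 g3 g4 g5
  exact memLp_sq_le g3 hCM (fun p hp => g1 p (by
    by_contra hp2
    exact hp (g5 p hp2))) g4 g2

theorem l2_tendsto_zero {e : ℝ → U × Z → F} {b : ℝ → ℝ}
    (h : ∀ᶠ g in atTop, ∫ x, ‖e g x‖ ^ 2 ∂(μ.prod ν) ≤ b g) (hb : Tendsto b atTop (𝓝 0)) :
    Tendsto (fun g => l2 (μ.prod ν) (e g)) atTop (𝓝 0) := by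
  have h1 : Tendsto (fun g => Real.sqrt (b g)) atTop (𝓝 0) := by
    have := (Real.continuous_sqrt.tendsto 0).comp hb
    rwa [Real.sqrt_zero] at this
  refine squeeze_zero' (Eventually.of_forall fun g => l2_nonneg _ _) ?_ h1
  filter_upwards [h] with g hg
  exact Real.sqrt_le_sqrt hg

theorem l2_div_tendsto_zero {e : ℝ → U × Z → F} {b : ℝ → ℝ}
    (h : ∀ᶠ g in atTop, ∫ x, ‖e g x‖ ^ 2 ∂(μ.prod ν) ≤ b g)
    (hb : Tendsto (fun g => g⁻¹ * b g) atTop (𝓝 0)) :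
    Tendsto (fun g => (Real.sqrt g)⁻¹ * l2 (μ.prod ν) (e g)) atTop (𝓝 0) := by
  have h1 : Tendsto (fun g => Real.sqrt (g⁻¹ * b g)) atTop (𝓝 0) := by
    have := (Real.continuous_sqrt.tendsto 0).comp hb
    rwa [Real.sqrt_zero] at this
  refine squeeze_zero' (Eventually.of_forall fun g =>
    mul_nonneg (inv_nonneg.2 (Real.sqrt_nonneg _)) (l2_nonneg _ _)) ?_ h1
  filter_upwards [h, eventually_gt_atTop 0] with g hg hg0
  rw [Real.sqrt_mul (inv_nonneg.2 hg0.le), Real.sqrt_inv]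
  exact mul_le_mul_of_nonneg_left (Real.sqrt_le_sqrt hg) (inv_nonneg.2 (Real.sqrt_nonneg _))

/-- **The error is small.** -/
theorem small (hm : Moms μ s) (hM : FibMom ν a S) (hS : s.Supp S)
    {e1 e2 e3 : ℝ → U × Z → F} (c1 : Cls a s.h1 e1) (c2 : Cls a s.h2 e2) (c3 : Cls a s.h3 e3)
    (m1 : ∀ᶠ g in atTop, AEStronglyMeasurable (e1 g) (μ.prod ν))
    (m2 : ∀ᶠ g in atTop, AEStronglyMeasurable (e2 g) (μ.prod ν))
    (m3 : ∀ᶠ g in atTop, AEStronglyMeasurable (e3 g) (μ.prod ν)) [NormedSpace ℝ F]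
    (my : AEStronglyMeasurable (fun x : U × Z => s.y x.1) (μ.prod ν)) :
    (∀ᶠ g in atTop, MemLp (e1 g) 2 (μ.prod ν) ∧ MemLp (e2 g) 2 (μ.prod ν) ∧
      MemLp (fun x => s.y x.1 • e2 g x) 2 (μ.prod ν) ∧ MemLp (e3 g) 2 (μ.prod ν)) ∧
    Tendsto (fun g => (Real.sqrt g)⁻¹ * l2 (μ.prod ν) (e1 g) +
      (Real.sqrt g)⁻¹ * l2 (μ.prod ν) (e2 g) + l2 (μ.prod ν) (fun x => s.y x.1 • e2 g x) +
      l2 (μ.prod ν) (e3 g)) atTop (𝓝 0) := by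
  have s1 : ∀ᶠ g in atTop, ∀ p, p ∉ S → s.h1 g p = 0 := hS.mono fun g hg p hp => by
    obtain ⟨a0, a1, a2, a3⟩ := hg p hp
    simp [Sizes.h1, a0, a1, a2, a3]
  have s2 : ∀ᶠ g in atTop, ∀ p, p ∉ S → s.h2 g p = 0 := hS.mono fun g hg p hp => by
    obtain ⟨a0, -, a1, -⟩ := hg p hp
    simp [Sizes.h2, a0, a1]
  have s3 : ∀ᶠ g in atTop, ∀ p, p ∉ S → s.h3 g p = 0 := hS.mono fun g hg p hp => by
    obtain ⟨a0, a1, a3, a2⟩ := hg p hp
    simp [Sizes.h3, a0, a1, a2, a3]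
  have sy : ∀ᶠ g in atTop, ∀ p, p ∉ S → s.y p * s.h2 g p = 0 := s2.mono fun g hg p hp => by
    rw [hg p hp, mul_zero]
  have cy : Cls a (fun g p => s.y p * s.h2 g p) (fun g x => s.y x.1 • e2 g x) := by
    obtain ⟨K, hK, c2⟩ := c2
    refine ⟨K, hK, ?_⟩
    filter_upwards [c2] with g g2 p z
    rw [norm_smul, Real.norm_eq_abs, abs_of_nonneg (hm.y0 p)]
    calc s.y p * ‖e2 g (p, z)‖ ≤ s.y p * (K * (a g p z * wt g z) * s.h2 g p) :=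
          mul_le_mul_of_nonneg_left (g2 p z) (hm.y0 p)
      _ = _ := by ring
  obtain ⟨C1, hC1, b1⟩ := cls_bound hM s1 c1 m1 (hm.H1.mono fun g hg => hg.1)
  obtain ⟨C2, hC2, b2⟩ := cls_bound hM s2 c2 m2 (hm.H2.mono fun g hg => hg.1)
  obtain ⟨C3, hC3, b3⟩ := cls_bound hM s3 c3 m3 (hm.H3.mono fun g hg => hg.1)
  obtain ⟨Cy, hCy, by'⟩ := cls_bound hM sy cy (m2.mono fun g hg => my.smul hg)
    (hm.Hy2.mono fun g hg => hg.1)
  refine ⟨?_, ?_⟩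
  · filter_upwards [b1, b2, b3, by'] with g g1 g2 g3 g4
    exact ⟨g1.1, g2.1, g4.1, g3.1⟩
  obtain ⟨B0, hB0⟩ := hm.b0
  obtain ⟨BE, hBE⟩ := hm.bE
  have hinv : Tendsto (fun g : ℝ => g⁻¹) atTop (𝓝 0) := tendsto_inv_atTop_zero
  have z0 : Tendsto (fun g => g⁻¹ * ∫ p, s.n0 g p ^ 2 ∂μ) atTop (𝓝 0) := by
    refine squeeze_zero' (g := fun g => g⁻¹ * |B0|) ?_ ?_ ?_
    · filter_upwards [eventually_gt_atTop 0] with g hg
      exact mul_nonneg (inv_nonneg.2 hg.le) (integral_nonneg fun p => sq_nonneg _)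
    · filter_upwards [hB0, eventually_gt_atTop 0] with g hg hg0
      exact mul_le_mul_of_nonneg_left (hg.trans (le_abs_self _)) (inv_nonneg.2 hg0.le)
    · simpa using hinv.mul_const |B0|
  have zE : Tendsto (fun g => g⁻¹ * ∫ p, s.nE g p ^ 2 ∂μ) atTop (𝓝 0) := by
    refine squeeze_zero' (g := fun g => g⁻¹ * |BE|) ?_ ?_ ?_
    · filter_upwards [eventually_gt_atTop 0] with g hg
      exact mul_nonneg (inv_nonneg.2 hg.le) (integral_nonneg fun p => sq_nonneg _)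
    · filter_upwards [hBE, eventually_gt_atTop 0] with g hg hg0
      exact mul_le_mul_of_nonneg_left (hg.trans (le_abs_self _)) (inv_nonneg.2 hg0.le)
    · simpa using hinv.mul_const |BE|
  have t1 : Tendsto (fun g => (Real.sqrt g)⁻¹ * l2 (μ.prod ν) (e1 g)) atTop (𝓝 0) := by
    refine l2_div_tendsto_zero (b := fun g => C1 * (16 * (g * (∫ p, (s.y p * s.n0 g p) ^ 2 ∂μ) +
      (∫ p, s.n0 g p ^ 2 ∂μ) + g⁻¹ * (∫ p, s.n1 g p ^ 2 ∂μ) + (∫ p, s.nE g p ^ 2 ∂μ) +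
      ∫ p, s.nS g p ^ 2 ∂μ))) ?_ ?_
    · filter_upwards [b1, hm.H1] with g g1 g2
      exact g1.2.trans (mul_le_mul_of_nonneg_left g2.2 hC1)
    · have h1 : Tendsto (fun g => C1 * (16 * ((∫ p, (s.y p * s.n0 g p) ^ 2 ∂μ) +
          g⁻¹ * (∫ p, s.n0 g p ^ 2 ∂μ) + g⁻¹ * (g⁻¹ * ∫ p, s.n1 g p ^ 2 ∂μ) +
          g⁻¹ * (∫ p, s.nE g p ^ 2 ∂μ) + g⁻¹ * ∫ p, s.nS g p ^ 2 ∂μ))) atTop (𝓝 0) := by
        have h2 := (((((hm.by0.add z0).add (hinv.mul hm.b1)).add zE).add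
          (hinv.mul hm.bS)).const_mul 16).const_mul C1
        simpa using h2
      refine h1.congr' ?_
      filter_upwards [eventually_gt_atTop 0] with g hg
      field_simp
  have t2 : Tendsto (fun g => (Real.sqrt g)⁻¹ * l2 (μ.prod ν) (e2 g)) atTop (𝓝 0) := by
    refine l2_div_tendsto_zero (b := fun g => C2 * (2 * ((∫ p, s.n0 g p ^ 2 ∂μ) +
      ∫ p, s.nE g p ^ 2 ∂μ))) ?_ ?_
    · filter_upwards [b2, hm.H2] with g g1 g2
      exact g1.2.trans (mul_le_mul_of_nonneg_left g2.2 hC2)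
    · have h2 := ((z0.add zE).const_mul 2).const_mul C2
      simp only [add_zero, mul_zero] at h2
      refine h2.congr fun g => ?_
      ring
  have t3 : Tendsto (fun g => l2 (μ.prod ν) (fun x => s.y x.1 • e2 g x)) atTop (𝓝 0) := by
    refine l2_tendsto_zero (b := fun g => Cy * (2 * ((∫ p, (s.y p * s.n0 g p) ^ 2 ∂μ) +
      ∫ p, (s.y p * s.nE g p) ^ 2 ∂μ))) ?_ ?_
    · filter_upwards [by', hm.Hy2] with g g1 g2
      exact g1.2.trans (mul_le_mul_of_nonneg_left g2.2 hCy)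
    · have h2 := ((hm.by0.add hm.byE).const_mul 2).const_mul Cy
      simpa using h2
  have t4 : Tendsto (fun g => l2 (μ.prod ν) (e3 g)) atTop (𝓝 0) := by
    refine l2_tendsto_zero (b := fun g => C3 * (16 * ((∫ p, (s.y p * s.n0 g p) ^ 2 ∂μ) +
      g⁻¹ * (∫ p, s.n0 g p ^ 2 ∂μ) + (∫ p, s.nS g p ^ 2 ∂μ) +
      g⁻¹ * (∫ p, s.n1 g p ^ 2 ∂μ) + g⁻¹ * ∫ p, s.nE g p ^ 2 ∂μ))) ?_ ?_
    · filter_upwards [b3, hm.H3] with g g1 g2
      exact g1.2.trans (mul_le_mul_of_nonneg_left g2.2 hC3)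
    · have h2 := (((((hm.by0.add z0).add hm.bS).add hm.b1).add zE).const_mul 16).const_mul C3
      simpa using h2
  have := ((t1.add t2).add t3).add t4
  simpa using this

end final

end Crest.Agent.R330.PairC714

end
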