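import Crest.Agent.R330.LightC_916
import Crest.Agent.R330.PairL_862
import Crest.Agent.R330.PairC_714

/-!
# Row 330, T5 (helper916): sizes of the light line

The moments `PairC714.Moms` of the light function `om` over 414's `TPack`, on `L = R⁹ ⊗ kk`.
-/

set_option autoImplicit false
set_option linter.unusedSectionVars false

open MeasureTheory Filter Topology Crest.MathPhysics.MatrixQM
open scoped ContDiff InnerProductSpace ENNReal

noncomputable section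

namespace Crest.Agent.R330.LightM916

open Crest.Agent.R330.Frame839 hiding om
open Crest.Agent.R330.Defs478 Crest.Agent.R330.LS839
  Crest.Agent.R330.Bind6839 Crest.Agent.R330.TDef414 Crest.Agent.R330.Split149
  Crest.Agent.R330.LitA974 Crest.Agent.R330.IBP837 Crest.Agent.R330.FreeC122
  Crest.Agent.R330.Clus839 Crest.Agent.R330.LightC916 Crest.Agent.R330.PairC714

/-! ### 1. Expansion in a basis -/

theorem norm_sq_le_basis {V W κ : Type*} [NormedAddCommGroup V] [InnerProductSpace ℂ V]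
    [Fintype κ] [NormedAddCommGroup W] [NormedSpace ℂ W] (f : OrthonormalBasis κ ℂ V)
    (T : V →ₗ[ℂ] W) (v : V) : ‖T v‖ ^ 2 ≤ ‖v‖ ^ 2 * ∑ k, ‖T (f k)‖ ^ 2 := by
  have h1 : T v = ∑ k, ⟪f k, v⟫_ℂ • T (f k) := by
    conv_lhs => rw [← f.sum_repr' v]
    simp only [map_sum, map_smul]
  have h2 : ‖T v‖ ≤ ∑ k, ‖⟪f k, v⟫_ℂ‖ * ‖T (f k)‖ := by
    rw [h1]
    exact (norm_sum_le _ _).trans (Finset.sum_le_sum fun k _ => (norm_smul _ _).le)
  have h3 : (∑ k, ‖⟪f k, v⟫_ℂ‖ * ‖T (f k)‖) ^ 2 ≤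
      (∑ k, ‖⟪f k, v⟫_ℂ‖ ^ 2) * ∑ k, ‖T (f k)‖ ^ 2 := Finset.sum_mul_sq_le_sq_mul_sq _ _ _
  rw [f.sum_sq_norm_inner_right] at h3
  exact (pow_le_pow_left₀ (norm_nonneg _) h2 2).trans h3

variable {N p : ℕ} {b : ColorBasis N} {S : Type} [Group S] [Fintype S] {C : Chn b p S}
  {F : Type*} [NormedAddCommGroup F] [InnerProductSpace ℂ F] [FiniteDimensional ℂ F]
  {M : FermionRep N F} {R : GaugeAction b M} {G : GammaNine}

/-- a basis of the amplitude space -/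
def fB (C : Chn b p S) (M : FermionRep N F) (G : GammaNine) :
    OrthonormalBasis (Fin (Module.finrank ℂ (C.Fx M G))) ℂ (C.Fx M G) :=
  stdOrthonormalBasis ℂ _

/-! ### 2. The state of the blocks on `Blk` -/

/-- `Y ↦ Psi_g(Y) f` on the blocks -/
def psB (P : TPack C M R G) (g : ℝ) (f : F) (Y : C.Blk) : F := P.Psi g (Y : Cfg N) f

section psB

variable {P : TPack C M R G} {g : ℝ}

theorem contDiff_psB {n : WithTop ℕ∞} (hP : ContDiff ℝ n (P.Psi g)) (f : F) :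
    ContDiff ℝ n (psB P g f) := by
  rw [contDiff_iff_contDiffAt]
  intro Y
  exact contDiffAt_ev (c := fun Y : C.Blk => P.Psi g (Y : Cfg N))
    (hP.contDiffAt.comp Y C.Blk.subtypeL.contDiff.contDiffAt) contDiffAt_const

theorem fderiv_psB (hP : ContDiff ℝ 1 (P.Psi g)) (f : F) (Y e : C.Blk) :
    fderiv ℝ (psB P g f) Y e = (fderiv ℝ (P.Psi g) (Y : Cfg N) (e : Cfg N)) f := by
  have h1 : HasFDerivAt (fun Y : C.Blk => P.Psi g (Y : Cfg N))
      ((fderiv ℝ (P.Psi g) (Y : Cfg N)).comp C.Blk.subtypeL) Y :=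
    ((hP.differentiable (by simp) _).hasFDerivAt).comp Y C.Blk.subtypeL.hasFDerivAt
  have h2 := fderiv_ev (c := fun Y : C.Blk => P.Psi g (Y : Cfg N)) (v := fun _ => f)
    h1.differentiableAt (differentiableAt_const _) e
  have h3 : fderiv ℝ (psB P g f) Y e = fderiv ℝ (fun Y : C.Blk => P.Psi g (Y : Cfg N) f) Y e := rfl
  rw [h3, h2, h1.fderiv]
  simp

theorem hcs_psB (f : F) : HasCompactSupport (psB P g f) := by
  refine HasCompactSupport.of_support_subset_isCompact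
    (isCompact_closedBall (0 : C.Blk) (P.s g)) fun Y hY => ?_
  rw [Metric.mem_closedBall, dist_zero_right]
  by_contra h
  apply hY
  have h1 := P.Psi_supp g Y Y.2 (by
    have : ‖(Y : Cfg N)‖ = ‖Y‖ := rfl
    rw [this]
    exact (not_le.1 h).le)
  unfold psB
  rw [h1]
  rfl

/-- the block charge, linear in the amplitude -/
def QL (P : TPack C M R G) (g : ℝ) (α : Fin 16) (Y : Cfg N) : F →ₗ[ℂ] F :=
  (∑ n, (aA M G α ((stdOrthonormalBasis ℝ C.Blk n : C.Blk) : Cfg N)).comp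
    ((fderiv ℝ (P.Psi g) Y ((stdOrthonormalBasis ℝ C.Blk n : C.Blk) : Cfg N) : F →L[ℂ] F) :
      F →ₗ[ℂ] F)) + (wA b M G g 0 α Y).comp ((P.Psi g Y : F →L[ℂ] F) : F →ₗ[ℂ] F)

theorem QL_apply (hP : ContDiff ℝ 1 (P.Psi g)) (α : Fin 16) (f : F) (Y : Cfg N) :
    QL P g α Y f = qblk C M G g α (fun Y => P.Psi g Y f) Y := by
  unfold QL qblk
  have hfd : ∀ n, fderiv ℝ (fun Y => P.Psi g Y f) Y
      ((stdOrthonormalBasis ℝ C.Blk n : C.Blk) : Cfg N) =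
      (fderiv ℝ (P.Psi g) Y ((stdOrthonormalBasis ℝ C.Blk n : C.Blk) : Cfg N)) f := by
    intro n
    rw [fderiv_ev (hP.differentiable (by simp) _) (differentiableAt_const _)]
    simp
  simp only [LinearMap.add_apply, LinearMap.sum_apply, LinearMap.comp_apply,
    ContinuousLinearMap.coe_coe, hfd]

theorem QL_blk (hP : ContDiff ℝ 1 (P.Psi g)) (α : Fin 16) (f : F) (Y : C.Blk) :
    QL P g α (Y : Cfg N) f =
      (∑ n, aA M G α ((stdOrthonormalBasis ℝ C.Blk n : C.Blk) : Cfg N)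
        (fderiv ℝ (psB P g f) Y (stdOrthonormalBasis ℝ C.Blk n))) +
      wA b M G g 0 α (Y : Cfg N) (psB P g f Y) := by
  unfold QL
  simp only [LinearMap.add_apply, LinearMap.sum_apply, LinearMap.comp_apply,
    ContinuousLinearMap.coe_coe, fderiv_psB hP]
  rfl

theorem continuous_wA {X : Type*} [TopologicalSpace X] (g m : ℝ) (α : Fin 16) {x : X → Cfg N}
    {f : X → F} (hx : Continuous x) (hf : Continuous f) :
    Continuous fun s => wA b M G g m α (x s) (f s) := by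
  unfold wA
  refine PairL_862.continuous_vco M (fun β A => ?_) hf
  simp only [wpot_wb]
  exact (((PairL_862.continuous_wb b G α β A).comp (hx.prodMk hx)).const_mul g).sub
    (((PairL_862.continuous_wl G α β A).comp hx).const_mul m)

theorem continuous_QL (hP : ContDiff ℝ 1 (P.Psi g)) (α : Fin 16) (f : F) :
    Continuous fun Y : C.Blk => QL P g α (Y : Cfg N) f := by
  simp only [QL_blk hP]
  refine Continuous.add (continuous_finsetSum _ fun n _ => ?_) ?_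
  · refine (aA M G α _).continuous_of_finiteDimensional.comp ?_
    exact ((contDiff_psB hP f).continuous_fderiv (by simp)).clm_apply continuous_const
  · exact continuous_wA g 0 α continuous_subtype_val (contDiff_psB hP f).continuous

theorem hcs_QL (hP : ContDiff ℝ 1 (P.Psi g)) (α : Fin 16) (f : F) :
    HasCompactSupport fun Y : C.Blk => QL P g α (Y : Cfg N) f := by
  refine HasCompactSupport.of_support_subset_isCompact (hcs_psB (P := P) (g := g) f)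
    fun Y hY => ?_
  by_contra h
  apply hY
  show QL P g α (Y : Cfg N) f = 0
  have h1 : psB P g f Y = 0 := image_eq_zero_of_notMem_tsupport h
  have h2 : fderiv ℝ (psB P g f) Y = 0 := by
    by_contra h3
    exact h (support_fderiv_subset ℝ h3)
  rw [QL_blk hP, h1, h2]
  simp

end psB

/-! ### 3. Integrals over `L` of products -/

theorem int_prod (X0 : Pos p) {a : Pos p → ℝ} {c : C.Blk → ℝ} (ha : Continuous a)
    (hac : HasCompactSupport a) (hc : Continuous c) (hcc : HasCompactSupport c) :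
    Integrable (fun q : Tup C.kk => a (X0 + C.cfT q) * c ⟨C.PY q, PY_mem C q⟩) ∧
      ∫ q : Tup C.kk, a (X0 + C.cfT q) * c ⟨C.PY q, PY_mem C q⟩ =
        (∫ X, a X) * ∫ Y, c Y := by
  have e1 : ∀ q : Pos p × C.Blk, C.cfT ((iP C q.1 + iB C q.2 : Tup C.kk) : Cfg N) = q.1 := by
    intro q
    show C.cfT (C.cf q.1 + (q.2 : Cfg N)) = q.1
    rw [map_add, C.cfT_cf, cfT_Blk C q.2.2, add_zero]
  have e2 : ∀ q : Pos p × C.Blk, (⟨C.PY ((iP C q.1 + iB C q.2 : Tup C.kk) : Cfg N),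
      PY_mem C _⟩ : C.Blk) = q.2 := by
    intro q
    apply Subtype.ext
    show C.PY (C.cf q.1 + (q.2 : Cfg N)) = q.2
    have := PY_coord C (X := q.1) (Y := q.2) (z := 0) q.2.2 (Submodule.zero_mem _)
    rwa [add_zero] at this
  have i1 : Integrable a := ha.integrable_of_hasCompactSupport hac
  have i1' : Integrable (fun X => a (X0 + X)) := i1.comp_add_left X0
  have i2 : Integrable c := hc.integrable_of_hasCompactSupport hcc
  have i3 : Integrable (fun q : Pos p × C.Blk => a (X0 + q.1) * c q.2) := i1'.mul_prod i2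
  have h1 : (fun q : Pos p × C.Blk => a (X0 + C.cfT ((iP C q.1 + iB C q.2 : Tup C.kk) : Cfg N)) *
      c ⟨C.PY ((iP C q.1 + iB C q.2 : Tup C.kk) : Cfg N), PY_mem C _⟩) =
      fun q => a (X0 + q.1) * c q.2 := by
    funext q
    rw [e1, e2]
  constructor
  · refine ((split_kk C).mp.integrable_comp_emb (split_kk C).me).1 ?_
    show Integrable (fun q : Pos p × C.Blk => a (X0 + C.cfT ((iP C q.1 + iB C q.2 : Tup C.kk) :
      Cfg N)) * c ⟨C.PY ((iP C q.1 + iB C q.2 : Tup C.kk) : Cfg N), PY_mem C _⟩)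
    rw [h1]
    exact i3
  · rw [← (split_kk C).mp.integral_comp (split_kk C).me]
    have h2 : ∫ q : Pos p × C.Blk, a (X0 + q.1) * c q.2 = (∫ X, a (X0 + X)) * ∫ Y, c Y :=
      integral_prod_mul (fun X => a (X0 + X)) c
    rw [h1, h2, integral_add_left_eq_self (fun X => a X) X0]

/-! ### 4. The base functions on the blocks -/

/-- `Σ_k ‖Psi_g(Y) f_k‖²` -/
def S0 (P : TPack C M R G) (g : ℝ) (Y : C.Blk) : ℝ :=
  ∑ k, ‖psB P g ((fB C M G k : C.Fx M G) : F) Y‖ ^ 2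

/-- `Σ_k ‖D Psi_g(Y) f_k‖²` -/
def S1 (P : TPack C M R G) (g : ℝ) (Y : C.Blk) : ℝ :=
  ∑ k, ‖fderiv ℝ (psB P g ((fB C M G k : C.Fx M G) : F)) Y‖ ^ 2

/-- `Σ_k ‖Q Psi_g(Y) f_k‖²` -/
def SQ (P : TPack C M R G) (g : ℝ) (α : Fin 16) (Y : C.Blk) : ℝ :=
  ∑ k, ‖QL P g α (Y : Cfg N) ((fB C M G k : C.Fx M G) : F)‖ ^ 2

theorem S0_nonneg (P : TPack C M R G) (g : ℝ) (Y : C.Blk) : 0 ≤ S0 P g Y :=
  Finset.sum_nonneg fun _ _ => sq_nonneg _

theorem S1_nonneg (P : TPack C M R G) (g : ℝ) (Y : C.Blk) : 0 ≤ S1 P g Y :=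
  Finset.sum_nonneg fun _ _ => sq_nonneg _

theorem SQ_nonneg (P : TPack C M R G) (g : ℝ) (α : Fin 16) (Y : C.Blk) : 0 ≤ SQ P g α Y :=
  Finset.sum_nonneg fun _ _ => sq_nonneg _

theorem hcs_nsq {X : Type*} [TopologicalSpace X] {W : Type*} [NormedAddCommGroup W] {f : X → W}
    (h : HasCompactSupport f) : HasCompactSupport fun x => ‖f x‖ ^ 2 :=
  h.comp_left (g := fun w : W => ‖w‖ ^ 2) (by simp)

theorem cont_nsq {X : Type*} [TopologicalSpace X] {W : Type*} [NormedAddCommGroup W] {f : X → W}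
    (h : Continuous f) : Continuous fun x => ‖f x‖ ^ 2 := h.norm.pow 2

theorem cont_sum {X κ : Type*} [TopologicalSpace X] [Fintype κ] {W : Type*}
    [NormedAddCommGroup W] {f : κ → X → W} (h : ∀ k, Continuous (f k)) :
    Continuous fun x => ∑ k, ‖f k x‖ ^ 2 := continuous_finsetSum _ fun k _ => cont_nsq (h k)

theorem hcs_sum {X κ : Type*} [TopologicalSpace X] [Fintype κ] {W : Type*}
    [NormedAddCommGroup W] {f : κ → X → W} (h : ∀ k, HasCompactSupport (f k)) :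
    HasCompactSupport fun x => ∑ k, ‖f k x‖ ^ 2 := by
  classical
  have h1 : ∀ s : Finset κ, HasCompactSupport fun x => ∑ k ∈ s, ‖f k x‖ ^ 2 := by
    intro s
    induction s using Finset.induction_on with
    | empty =>
      simp only [Finset.sum_empty]
      exact HasCompactSupport.zero
    | insert a s ha ih =>
      simp only [Finset.sum_insert ha]
      exact HasCompactSupport.add (hcs_nsq (h a)) ih
  exact h1 _

section S

variable {P : TPack C M R G} {g : ℝ}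

theorem continuous_S0 (hP : ContDiff ℝ 1 (P.Psi g)) : Continuous (S0 P g) :=
  cont_sum (f := fun k => psB P g ((fB C M G k : C.Fx M G) : F))
    fun _ => (contDiff_psB hP _).continuous

theorem continuous_S1 (hP : ContDiff ℝ 1 (P.Psi g)) : Continuous (S1 P g) :=
  cont_sum (f := fun k => fderiv ℝ (psB P g ((fB C M G k : C.Fx M G) : F)))
    fun _ => (contDiff_psB hP _).continuous_fderiv (by simp)

theorem continuous_SQ (hP : ContDiff ℝ 1 (P.Psi g)) (α : Fin 16) : Continuous (SQ P g α) :=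
  cont_sum (f := fun k (Y : C.Blk) => QL P g α (Y : Cfg N) ((fB C M G k : C.Fx M G) : F))
    fun _ => continuous_QL hP α _

theorem hcs_S0 : HasCompactSupport (S0 P g) :=
  hcs_sum (f := fun k => psB P g ((fB C M G k : C.Fx M G) : F)) fun _ => hcs_psB _

theorem hcs_S1 : HasCompactSupport (S1 P g) :=
  hcs_sum (f := fun k => fderiv ℝ (psB P g ((fB C M G k : C.Fx M G) : F)))
    fun _ => (hcs_psB _).fderiv ℝ

theorem hcs_SQ (hP : ContDiff ℝ 1 (P.Psi g)) (α : Fin 16) : HasCompactSupport (SQ P g α) :=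
  hcs_sum (f := fun k (Y : C.Blk) => QL P g α (Y : Cfg N) ((fB C M G k : C.Fx M G) : F))
    fun _ => hcs_QL hP α _

theorem psi_le (v : C.Fx M G) (Y : C.Blk) :
    ‖P.Psi g (Y : Cfg N) (v : F)‖ ^ 2 ≤ ‖v‖ ^ 2 * S0 P g Y :=
  norm_sq_le_basis (fB C M G) (((P.Psi g (Y : Cfg N) : F →L[ℂ] F) : F →ₗ[ℂ] F).comp
    (C.Fx M G).subtype) v

theorem QL_le (α : Fin 16) (v : C.Fx M G) (Y : C.Blk) :
    ‖QL P g α (Y : Cfg N) (v : F)‖ ^ 2 ≤ ‖v‖ ^ 2 * SQ P g α Y :=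
  norm_sq_le_basis (fB C M G) ((QL P g α (Y : Cfg N)).comp (C.Fx M G).subtype) v

theorem der_le (hP : ContDiff ℝ 1 (P.Psi g)) (v : C.Fx M G) (Y e : C.Blk) :
    ‖(fderiv ℝ (P.Psi g) (Y : Cfg N) (e : Cfg N)) (v : F)‖ ^ 2 ≤
      ‖v‖ ^ 2 * (‖e‖ ^ 2 * S1 P g Y) := by
  have h := norm_sq_le_basis (fB C M G)
    (((fderiv ℝ (P.Psi g) (Y : Cfg N) (e : Cfg N) : F →L[ℂ] F) : F →ₗ[ℂ] F).comp
      (C.Fx M G).subtype) v
  refine h.trans (mul_le_mul_of_nonneg_left ?_ (sq_nonneg _))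
  unfold S1
  rw [Finset.mul_sum]
  refine Finset.sum_le_sum fun k _ => ?_
  have h1 : (((fderiv ℝ (P.Psi g) (Y : Cfg N) (e : Cfg N) : F →L[ℂ] F) : F →ₗ[ℂ] F).comp
      (C.Fx M G).subtype) (fB C M G k) =
      fderiv ℝ (psB P g ((fB C M G k : C.Fx M G) : F)) Y e := (fderiv_psB hP _ Y e).symm
  rw [h1, mul_comm (‖e‖ ^ 2), ← mul_pow]
  exact pow_le_pow_left₀ (norm_nonneg _) (ContinuousLinearMap.le_opNorm _ _) 2

end S

/-! ### 5. The asymptotics of the block integrals -/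

theorem fB_norm (k : Fin (Module.finrank ℂ (C.Fx M G))) :
    ‖((fB C M G k : C.Fx M G) : F)‖ = 1 := (fB C M G).orthonormal.1 k

theorem ev_C1 (P : TPack C M R G) : ∀ᶠ g in atTop, ContDiff ℝ 1 (P.Psi g) := by
  filter_upwards [P.Psi_smooth] with g hg
  exact hg.of_le (by exact_mod_cast le_top)

theorem int_S0 (P : TPack C M R G) : ∃ K : ℝ, ∀ᶠ g in atTop, ∫ Y, S0 P g Y ≤ K := by
  have h1 : ∀ k, ∀ᶠ g in atTop,
      ∫ Y, ‖psB P g ((fB C M G k : C.Fx M G) : F) Y‖ ^ 2 ≤ 2 := by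
    intro k
    have h2 := P.Psi_iso _ (fB C M G k).2 _ (fB C M G k).2
    have h3 : ⟪((fB C M G k : C.Fx M G) : F), ((fB C M G k : C.Fx M G) : F)⟫_ℂ = 1 := by
      rw [inner_self_eq_norm_sq_to_K, fB_norm]
      simp
    rw [h3] at h2
    have h4 := (Complex.continuous_re.tendsto _).comp h2
    have h5 := (tendsto_order.1 h4).2 2 (by simp)
    filter_upwards [h5] with g hg
    have h6 : ∫ Y : C.Blk, ⟪P.Psi g Y ((fB C M G k : C.Fx M G) : F),
        P.Psi g Y ((fB C M G k : C.Fx M G) : F)⟫_ℂ =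
        ((∫ Y, ‖psB P g ((fB C M G k : C.Fx M G) : F) Y‖ ^ 2 : ℝ) : ℂ) :=
      (BlkSplit837.integral_norm_sq_eq _).symm
    have h7 : (Complex.re ∘ fun g => ∫ Y : C.Blk, ⟪P.Psi g Y ((fB C M G k : C.Fx M G) : F),
        P.Psi g Y ((fB C M G k : C.Fx M G) : F)⟫_ℂ) g =
        ∫ Y, ‖psB P g ((fB C M G k : C.Fx M G) : F) Y‖ ^ 2 := by
      show Complex.re (∫ Y : C.Blk, ⟪P.Psi g Y ((fB C M G k : C.Fx M G) : F),
        P.Psi g Y ((fB C M G k : C.Fx M G) : F)⟫_ℂ) = _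
      rw [h6, Complex.ofReal_re]
    rw [h7] at hg
    exact hg.le
  refine ⟨∑ _k : Fin (Module.finrank ℂ (C.Fx M G)), (2 : ℝ), ?_⟩
  filter_upwards [eventually_all.2 h1, ev_C1 P] with g hg hP
  unfold S0
  rw [integral_finsetSum _ fun k _ => (cont_nsq
    (contDiff_psB hP _).continuous).integrable_of_hasCompactSupport (hcs_nsq (hcs_psB _))]
  exact Finset.sum_le_sum fun k _ => hg k

theorem int_yS0 (P : TPack C M R G) :
    Tendsto (fun g => ∫ Y : C.Blk, ‖Y‖ ^ 2 * S0 P g Y) atTop (𝓝 0) := by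
  obtain ⟨K, hK⟩ := P.Psi_mom
  have h0 : Tendsto (fun g : ℝ => (∑ _k : Fin (Module.finrank ℂ (C.Fx M G)), K) *
      (g ^ ((2 : ℝ) / 3))⁻¹) atTop (𝓝 0) := by
    have h1 : Tendsto (fun g : ℝ => (g ^ ((2 : ℝ) / 3))⁻¹) atTop (𝓝 0) :=
      (tendsto_rpow_atTop (by norm_num)).inv_tendsto_atTop
    simpa using h1.const_mul (∑ _k : Fin (Module.finrank ℂ (C.Fx M G)), K)
  refine squeeze_zero' (Eventually.of_forall fun g => integral_nonneg fun Y =>
    mul_nonneg (sq_nonneg _) (S0_nonneg P g Y)) ?_ h0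
  filter_upwards [hK, ev_C1 P, eventually_gt_atTop 0] with g hg hP hgp
  have hgr : 0 < g ^ ((2 : ℝ) / 3) := Real.rpow_pos_of_pos hgp _
  have h2 : ∀ Y : C.Blk, ‖Y‖ ^ 2 * S0 P g Y =
      ∑ k, ‖Y‖ ^ 2 * ‖psB P g ((fB C M G k : C.Fx M G) : F) Y‖ ^ 2 := fun Y => by
    unfold S0
    rw [Finset.mul_sum]
  simp only [h2]
  have hint : ∀ k, Integrable fun Y : C.Blk =>
      ‖Y‖ ^ 2 * ‖psB P g ((fB C M G k : C.Fx M G) : F) Y‖ ^ 2 := fun k =>
    ((cont_nsq continuous_id).mul (cont_nsq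
      (contDiff_psB hP _).continuous)).integrable_of_hasCompactSupport
        ((hcs_nsq (hcs_psB _)).mul_left)
  rw [integral_finsetSum _ fun k _ => hint k, Finset.sum_mul]
  refine Finset.sum_le_sum fun k _ => ?_
  have h3 := hg _ (fB C M G k).2
  rw [fB_norm, one_pow, mul_one] at h3
  have h4 : ∫ Y : C.Blk, ‖Y‖ ^ 2 * ‖psB P g ((fB C M G k : C.Fx M G) : F) Y‖ ^ 2 =
      ∫ Y : C.Blk, ‖(Y : Cfg N)‖ ^ 2 * ‖P.Psi g Y ((fB C M G k : C.Fx M G) : F)‖ ^ 2 := rfl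
  rw [h4, ← div_eq_mul_inv, le_div_iff₀ hgr, mul_comm]
  exact h3

theorem hint_S1 (P : TPack C M R G) {g : ℝ} (hP : ContDiff ℝ 1 (P.Psi g)) (f : F) :
    Integrable fun Y : C.Blk => ‖fderiv ℝ (psB P g f) Y‖ ^ 2 :=
  (cont_nsq (f := fderiv ℝ (psB P g f)) ((contDiff_psB hP f).continuous_fderiv
    (by simp))).integrable_of_hasCompactSupport (hcs_nsq ((hcs_psB f).fderiv ℝ))

theorem int_S1 (P : TPack C M R G) :
    Tendsto (fun g => g⁻¹ * ∫ Y : C.Blk, S1 P g Y) atTop (𝓝 0) := by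
  obtain ⟨K, hK⟩ := P.Psi_grad
  have h0 : Tendsto (fun g : ℝ => (∑ _k : Fin (Module.finrank ℂ (C.Fx M G)), K) *
      g ^ (-((1 : ℝ) / 3))) atTop (𝓝 0) := by
    have h1 : Tendsto (fun g : ℝ => g ^ (-((1 : ℝ) / 3))) atTop (𝓝 0) :=
      tendsto_rpow_neg_atTop (by norm_num)
    simpa using h1.const_mul (∑ _k : Fin (Module.finrank ℂ (C.Fx M G)), K)
  refine squeeze_zero' ?_ ?_ h0
  · filter_upwards [eventually_gt_atTop 0] with g hg
    exact mul_nonneg (inv_nonneg.2 hg.le) (integral_nonneg fun Y => S1_nonneg P g Y)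
  filter_upwards [hK, ev_C1 P, eventually_gt_atTop 0] with g hg hP hgp
  unfold S1
  rw [integral_finsetSum _ fun k _ => hint_S1 P hP _, Finset.mul_sum, Finset.sum_mul]
  refine Finset.sum_le_sum fun k _ => ?_
  have h3 := hg _ (fB C M G k).2
  rw [fB_norm, one_pow, mul_one] at h3
  have h4 : ∫ Y : C.Blk, ‖fderiv ℝ (psB P g ((fB C M G k : C.Fx M G) : F)) Y‖ ^ 2 ≤
      K * g ^ ((2 : ℝ) / 3) := h3
  have h5 : g⁻¹ * (K * g ^ ((2 : ℝ) / 3)) = K * g ^ (-((1 : ℝ) / 3)) := by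
    have h6 : g⁻¹ = g ^ (-1 : ℝ) := by rw [Real.rpow_neg_one]
    rw [h6, mul_left_comm, ← Real.rpow_add hgp]
    norm_num
  calc _ ≤ g⁻¹ * (K * g ^ ((2 : ℝ) / 3)) :=
        mul_le_mul_of_nonneg_left h4 (inv_nonneg.2 hgp.le)
    _ = _ := h5

theorem int_SQ (P : TPack C M R G) (α : Fin 16) :
    Tendsto (fun g => ∫ Y : C.Blk, SQ P g α Y) atTop (𝓝 0) := by
  have h1 : Tendsto (fun g => ∑ k, ∫ Y : C.Blk, ‖qblk C M G g α
      (fun Y => P.Psi g Y ((fB C M G k : C.Fx M G) : F)) Y‖ ^ 2) atTop (𝓝 0) := by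
    have h2 := tendsto_finsetSum (Finset.univ : Finset (Fin (Module.finrank ℂ (C.Fx M G))))
      fun k _ => P.Psi_charge _ (fB C M G k).2 α
    simpa using h2
  refine h1.congr' ?_
  filter_upwards [ev_C1 P] with g hP
  unfold SQ
  rw [integral_finsetSum _ fun k _ => (cont_nsq
    (continuous_QL hP α _)).integrable_of_hasCompactSupport (hcs_nsq (hcs_QL hP α _))]
  refine Finset.sum_congr rfl fun k _ => ?_
  simp only [QL_apply hP]

/-! ### 6. Smoothness and supports -/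

section reg

variable {P : TPack C M R G} {X0 : Pos p} {g : ℝ} {χ : Pos p → C.Fx M G}

theorem cont_X (X0 : Pos p) : Continuous fun u : Cfg N => X0 + C.cfT u :=
  continuous_const.add C.cfT.continuous

theorem ev_chi_zero {u : Cfg N} (h : X0 + C.cfT u ∉ tsupport χ) :
    ∀ᶠ v in 𝓝 u, χ (X0 + C.cfT v) = 0 := by
  have h1 : ∀ᶠ v in 𝓝 u, X0 + C.cfT v ∈ (tsupport χ)ᶜ :=
    (cont_X X0).continuousAt.eventually_mem ((isClosed_tsupport χ).isOpen_compl.mem_nhds h)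
  filter_upwards [h1] with v hv
  exact image_eq_zero_of_notMem_tsupport hv

theorem om_zero {u : Cfg N} (h : χ (X0 + C.cfT u) = 0) : om P X0 g χ u = 0 := by
  unfold om
  rw [h]
  simp

theorem rhoE_zero {α : Fin 16} {u : Cfg N} (h : χ (X0 + C.cfT u) = 0) :
    rhoE P X0 g α χ u = 0 := by
  unfold rhoE
  rw [h]
  simp

theorem rhoS_eq (hP : ContDiff ℝ 1 (P.Psi g)) (m : ℝ) (α : Fin 16) (u : Cfg N) :
    rhoS P X0 g m α χ u =
      P.U (X0 + C.cfT u) (QL P g α (C.PY u) ((χ (X0 + C.cfT u) : C.Fx M G) : F)) +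
        wA b M G 0 m α (C.PY u) (om P X0 g χ u) := by
  unfold rhoS
  rw [QL_apply hP]

theorem rhoS_zero (hP : ContDiff ℝ 1 (P.Psi g)) {m : ℝ} {α : Fin 16} {u : Cfg N}
    (h : χ (X0 + C.cfT u) = 0) : rhoS P X0 g m α χ u = 0 := by
  rw [rhoS_eq hP, om_zero h, h]
  simp

theorem contDiff_om {n : WithTop ℕ∞} (hn : n ≤ ((⊤ : ℕ∞) : WithTop ℕ∞)) (hP : ContDiff ℝ ∞ (P.Psi g))
    (hχ : ContDiff ℝ ∞ χ) (hs : ∀ X ∈ tsupport χ, C.BReg X) : ContDiff ℝ n (om P X0 g χ) := by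
  rw [contDiff_iff_contDiffAt]
  intro u
  by_cases h : X0 + C.cfT u ∈ tsupport χ
  · have hX : ContDiffAt ℝ ∞ (fun u : Cfg N => X0 + C.cfT u) u :=
      (contDiff_const.add C.cfT.contDiff).contDiffAt
    have h1 : ContDiffAt ℝ ∞ (fun u => P.U (X0 + C.cfT u)) u :=
      (P.U_smooth _ (hs _ h)).comp u hX
    have h2 : ContDiffAt ℝ ∞ (fun u => P.Psi g (C.PY u)) u :=
      hP.contDiffAt.comp u (PYL C).contDiff.contDiffAt
    have h3 : ContDiffAt ℝ ∞ (fun u => ((χ (X0 + C.cfT u) : C.Fx M G) : F)) u :=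
      (((C.Fx M G).subtypeL.restrictScalars ℝ).contDiff.contDiffAt).comp u
        (hχ.contDiffAt.comp u hX)
    exact (contDiffAt_ev h1 (contDiffAt_ev h2 h3)).of_le hn
  · have h1 : om P X0 g χ =ᶠ[𝓝 u] fun _ => 0 := by
      filter_upwards [ev_chi_zero h] with v hv
      exact om_zero hv
    exact contDiffAt_const.congr_of_eventuallyEq h1

theorem continuous_om (hP : ContDiff ℝ ∞ (P.Psi g)) (hχ : ContDiff ℝ ∞ χ)
    (hs : ∀ X ∈ tsupport χ, C.BReg X) : Continuous (om P X0 g χ) :=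
  (contDiff_om (n := 0) (by simp) hP hχ hs).continuous

theorem continuous_rhoE (hP : ContDiff ℝ ∞ (P.Psi g)) (hχ : ContDiff ℝ ∞ χ)
    (hs : ∀ X ∈ tsupport χ, C.BReg X) (α : Fin 16) : Continuous (rhoE P X0 g α χ) := by
  rw [continuous_iff_continuousAt]
  intro u
  by_cases h : X0 + C.cfT u ∈ tsupport χ
  · have h1 : ContinuousAt (fun u => fderiv ℝ P.U (X0 + C.cfT u)) u :=
      ContinuousAt.comp (g := fderiv ℝ P.U)
        (((P.U_smooth _ (hs _ h)).fderiv_right (m := 0) (by simp)).continuousAt)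
        (cont_X X0).continuousAt
    have h2 : Continuous (fun u : Cfg N => P.Psi g (C.PY u)
        ((χ (X0 + C.cfT u) : C.Fx M G) : F)) :=
      (hP.continuous.comp (continuous_PY C)).clm_apply
        (continuous_subtype_val.comp (hχ.continuous.comp (cont_X X0)))
    unfold rhoE
    refine tendsto_finsetSum _ fun q _ => ?_
    exact (aA M G α _).continuous_of_finiteDimensional.continuousAt.comp
      ((h1.clm_apply continuousAt_const).clm_apply h2.continuousAt)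
  · have h1 : rhoE P X0 g α χ =ᶠ[𝓝 u] fun _ => 0 := by
      filter_upwards [ev_chi_zero h] with v hv
      exact rhoE_zero hv
    exact continuousAt_const.congr h1.symm

/-- `QL` as a function of `Y ∈ Cfg N`, `f` -/
theorem continuous_QL' (hP : ContDiff ℝ ∞ (P.Psi g)) (α : Fin 16) {X : Type*}
    [TopologicalSpace X] {y : X → Cfg N} {f : X → F} (hy : Continuous y) (hf : Continuous f) :
    Continuous fun s => QL P g α (y s) (f s) := by
  unfold QL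
  simp only [LinearMap.add_apply, LinearMap.sum_apply, LinearMap.comp_apply,
    ContinuousLinearMap.coe_coe]
  refine Continuous.add (continuous_finsetSum _ fun n _ => ?_) ?_
  · refine (aA M G α _).continuous_of_finiteDimensional.comp ?_
    exact ((((hP.continuous_fderiv (by simp)).comp hy).clm_apply
      continuous_const).clm_apply hf)
  · exact continuous_wA g 0 α hy ((hP.continuous.comp hy).clm_apply hf)

theorem continuous_rhoS (hP : ContDiff ℝ ∞ (P.Psi g)) (hχ : ContDiff ℝ ∞ χ)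
    (hs : ∀ X ∈ tsupport χ, C.BReg X) (m : ℝ) (α : Fin 16) :
    Continuous (rhoS P X0 g m α χ) := by
  have hP1 : ContDiff ℝ 1 (P.Psi g) := hP.of_le (by exact_mod_cast le_top)
  rw [continuous_iff_continuousAt]
  intro u
  by_cases h : X0 + C.cfT u ∈ tsupport χ
  · have h1 : ContinuousAt (fun u => P.U (X0 + C.cfT u)) u :=
      ContinuousAt.comp (g := P.U) (P.U_smooth _ (hs _ h)).continuousAt (cont_X X0).continuousAt
    have h2 : Continuous fun u : Cfg N => QL P g α (C.PY u)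
        ((χ (X0 + C.cfT u) : C.Fx M G) : F) :=
      continuous_QL' hP α (continuous_PY C)
        (continuous_subtype_val.comp (hχ.continuous.comp (cont_X X0)))
    have h3 : Continuous fun u => wA b M G 0 m α (C.PY u) (om P X0 g χ u) :=
      continuous_wA 0 m α (continuous_PY C) (continuous_om hP hχ hs)
    have h4 : rhoS P X0 g m α χ = fun u =>
        P.U (X0 + C.cfT u) (QL P g α (C.PY u) ((χ (X0 + C.cfT u) : C.Fx M G) : F)) +
        wA b M G 0 m α (C.PY u) (om P X0 g χ u) := funext fun u => rhoS_eq hP1 m α u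
    rw [h4]
    exact (h1.clm_apply h2.continuousAt).add h3.continuousAt
  · have h1 : rhoS P X0 g m α χ =ᶠ[𝓝 u] fun _ => 0 := by
      filter_upwards [ev_chi_zero h] with v hv
      exact rhoS_zero hP1 hv
    exact continuousAt_const.congr h1.symm

end reg

/-! ### 7. Pointwise bounds -/

theorem exists_KU (P : TPack C M R G) {χ : Pos p → C.Fx M G} (hc : HasCompactSupport χ)
    (hs : ∀ X ∈ tsupport χ, C.BReg X) :
    ∃ K : ℝ, 0 ≤ K ∧ ∀ X ∈ tsupport χ, ‖P.U X‖ ≤ K ∧ ‖fderiv ℝ P.U X‖ ≤ K := by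
  obtain ⟨K1, h1⟩ := IsCompact.exists_bound_of_continuousOn (f := P.U) (s := tsupport χ) hc
    fun X hX => (P.U_smooth X (hs X hX)).continuousAt.continuousWithinAt
  obtain ⟨K2, h2⟩ := IsCompact.exists_bound_of_continuousOn (f := fderiv ℝ P.U)
    (s := tsupport χ) hc fun X hX => (((P.U_smooth X (hs X hX)).fderiv_right (m := 0)
      (by simp)).continuousAt).continuousWithinAt
  refine ⟨max (max K1 K2) 0, le_max_right _ _, fun X hX => ⟨?_, ?_⟩⟩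
  · exact (h1 X hX).trans ((le_max_left _ _).trans (le_max_left _ _))
  · exact (h2 X hX).trans ((le_max_right _ _).trans (le_max_left _ _))

section bd

variable {P : TPack C M R G} {X0 : Pos p} {g : ℝ} {χ : Pos p → C.Fx M G} {K : ℝ}

/-- the point of the blocks -/
def bY (C : Chn b p S) (u : Cfg N) : C.Blk := ⟨C.PY u, PY_mem C u⟩

theorem om_le (hK : ∀ X ∈ tsupport χ, ‖P.U X‖ ≤ K ∧ ‖fderiv ℝ P.U X‖ ≤ K)
    (u : Cfg N) : ‖om P X0 g χ u‖ ^ 2 ≤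
      K ^ 2 * (‖χ (X0 + C.cfT u)‖ ^ 2 * S0 P g (bY C u)) := by
  by_cases h : χ (X0 + C.cfT u) = 0
  · rw [om_zero h, h]
    simp
  · have h1 : X0 + C.cfT u ∈ tsupport χ := subset_tsupport _ h
    have h2 : ‖om P X0 g χ u‖ ≤ K * ‖P.Psi g (C.PY u) ((χ (X0 + C.cfT u) : C.Fx M G) : F)‖ :=
      (ContinuousLinearMap.le_opNorm _ _).trans
        (mul_le_mul_of_nonneg_right (hK _ h1).1 (norm_nonneg _))
    calc ‖om P X0 g χ u‖ ^ 2
        ≤ (K * ‖P.Psi g (C.PY u) ((χ (X0 + C.cfT u) : C.Fx M G) : F)‖) ^ 2 :=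
          pow_le_pow_left₀ (norm_nonneg _) h2 2
      _ = K ^ 2 * ‖P.Psi g (C.PY u) ((χ (X0 + C.cfT u) : C.Fx M G) : F)‖ ^ 2 := mul_pow _ _ _
      _ ≤ _ := mul_le_mul_of_nonneg_left (psi_le (χ (X0 + C.cfT u)) (bY C u)) (sq_nonneg K)

/-- a bound for the coefficients `aA` -/
theorem exists_aA (M : FermionRep N F) (G : GammaNine) :
    ∃ K : ℝ, 0 ≤ K ∧ ∀ (α : Fin 16) (e : Cfg N) (f : F), ‖aA M G α e f‖ ≤ K * ‖e‖ * ‖f‖ := by
  obtain ⟨K, hK, h⟩ := LS839.exists_Theta_bound M G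
  refine ⟨K, hK, fun α e f => ?_⟩
  unfold aA
  rw [LinearMap.smul_apply, norm_smul, norm_neg, Complex.norm_I, one_mul]
  exact h α e f

theorem rhoE_le (α : Fin 16) {KT : ℝ} (hKT : 0 ≤ KT)
    (hT : ∀ (α : Fin 16) (e : Cfg N) (f : F), ‖aA M G α e f‖ ≤ KT * ‖e‖ * ‖f‖)
    (hK : ∀ X ∈ tsupport χ, ‖P.U X‖ ≤ K ∧ ‖fderiv ℝ P.U X‖ ≤ K)
    (u : Cfg N) : ‖rhoE P X0 g α χ u‖ ^ 2 ≤ (Fintype.card (Fin 9 × Fin p) * (KT * K)) ^ 2 *
      (‖χ (X0 + C.cfT u)‖ ^ 2 * S0 P g (bY C u)) := by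
  by_cases h : χ (X0 + C.cfT u) = 0
  · rw [rhoE_zero h, h]
    simp
  · have h1 : X0 + C.cfT u ∈ tsupport χ := subset_tsupport _ h
    set v := P.Psi g (C.PY u) ((χ (X0 + C.cfT u) : C.Fx M G) : F) with hv
    have h2 : ‖rhoE P X0 g α χ u‖ ≤ Fintype.card (Fin 9 × Fin p) * (KT * K) * ‖v‖ := by
      unfold rhoE
      refine (norm_sum_le _ _).trans ?_
      have h3 : ∀ q ∈ (Finset.univ : Finset (Fin 9 × Fin p)),
          ‖aA M G α (C.cf (EuclideanSpace.single q 1))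
            ((fderiv ℝ P.U (X0 + C.cfT u) (EuclideanSpace.single q 1)) v)‖ ≤
              KT * K * ‖v‖ := by
        intro q _
        refine (hT α _ _).trans ?_
        rw [C.cf.norm_map]
        have h4 : ‖(EuclideanSpace.single q (1 : ℝ) : Pos p)‖ = 1 := by simp
        rw [h4, mul_one, mul_assoc]
        refine mul_le_mul_of_nonneg_left ?_ hKT
        refine (ContinuousLinearMap.le_opNorm _ _).trans
          (mul_le_mul_of_nonneg_right ?_ (norm_nonneg _))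
        refine (ContinuousLinearMap.le_opNorm _ _).trans ?_
        rw [h4, mul_one]
        exact (hK _ h1).2
      refine (Finset.sum_le_sum h3).trans (le_of_eq ?_)
      rw [Finset.sum_const, Finset.card_univ, nsmul_eq_mul]
      ring
    calc ‖rhoE P X0 g α χ u‖ ^ 2
        ≤ (Fintype.card (Fin 9 × Fin p) * (KT * K) * ‖v‖) ^ 2 :=
          pow_le_pow_left₀ (norm_nonneg _) h2 2
      _ = (Fintype.card (Fin 9 × Fin p) * (KT * K)) ^ 2 * ‖v‖ ^ 2 := mul_pow _ _ _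
      _ ≤ _ := mul_le_mul_of_nonneg_left (psi_le (χ (X0 + C.cfT u)) (bY C u)) (sq_nonneg _)

/-- a bound for the mass term -/
theorem exists_wl (b : ColorBasis N) (M : FermionRep N F) (G : GammaNine) (m : ℝ) :
    ∃ K : ℝ, 0 ≤ K ∧ ∀ (α : Fin 16) (x : Cfg N) (f : F),
      ‖wA b M G 0 m α x f‖ ≤ K * ‖x‖ * ‖f‖ := by
  obtain ⟨K, hK, -, -, h, -⟩ := PairL_862.exists_bounds b M G
  refine ⟨|m| * K, by positivity, fun α x f => ?_⟩
  have h1 : wA b M G 0 m α x f = (-m : ℝ) • PairL_862.WlL M G α x f := by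
    have h2 : wA b M G 0 m α x = vco M (fun β A => (-m) * wl G α β A x) := by
      unfold wA
      congr 1
      funext β A
      rw [wpot_wb]
      ring
    rw [h2, PairL_862.vco_rsmul, LinearMap.smul_apply]
    rfl
  rw [h1, norm_smul, Real.norm_eq_abs, abs_neg, mul_assoc, mul_assoc]
  refine mul_le_mul_of_nonneg_left ?_ (abs_nonneg m)
  rw [← mul_assoc]
  exact h α x f

theorem rhoS_le (hP : ContDiff ℝ 1 (P.Psi g)) (m : ℝ) (α : Fin 16) {KW : ℝ}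
    (hW : ∀ (α : Fin 16) (x : Cfg N) (f : F), ‖wA b M G 0 m α x f‖ ≤ KW * ‖x‖ * ‖f‖)
    (hK : ∀ X ∈ tsupport χ, ‖P.U X‖ ≤ K ∧ ‖fderiv ℝ P.U X‖ ≤ K)
    (u : Cfg N) : ‖rhoS P X0 g m α χ u‖ ^ 2 ≤
      2 * K ^ 2 * (‖χ (X0 + C.cfT u)‖ ^ 2 * SQ P g α (bY C u)) +
      2 * (KW * K) ^ 2 * (‖χ (X0 + C.cfT u)‖ ^ 2 * (‖bY C u‖ ^ 2 * S0 P g (bY C u))) := by
  by_cases h : χ (X0 + C.cfT u) = 0
  · rw [rhoS_zero hP h, h]
    simp
  · have h1 : X0 + C.cfT u ∈ tsupport χ := subset_tsupport _ h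
    rw [rhoS_eq hP]
    set w1 := P.U (X0 + C.cfT u) (QL P g α (C.PY u) ((χ (X0 + C.cfT u) : C.Fx M G) : F))
    set w2 := wA b M G 0 m α (C.PY u) (om P X0 g χ u)
    have e1 : ‖w1‖ ^ 2 ≤ K ^ 2 * (‖χ (X0 + C.cfT u)‖ ^ 2 * SQ P g α (bY C u)) := by
      have h2 : ‖w1‖ ≤ K * ‖QL P g α (C.PY u) ((χ (X0 + C.cfT u) : C.Fx M G) : F)‖ :=
        (ContinuousLinearMap.le_opNorm _ _).trans
          (mul_le_mul_of_nonneg_right (hK _ h1).1 (norm_nonneg _))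
      calc ‖w1‖ ^ 2 ≤ (K * ‖QL P g α (C.PY u) ((χ (X0 + C.cfT u) : C.Fx M G) : F)‖) ^ 2 :=
            pow_le_pow_left₀ (norm_nonneg _) h2 2
        _ = K ^ 2 * ‖QL P g α (C.PY u) ((χ (X0 + C.cfT u) : C.Fx M G) : F)‖ ^ 2 := mul_pow _ _ _
        _ ≤ _ := mul_le_mul_of_nonneg_left (QL_le α (χ (X0 + C.cfT u)) (bY C u)) (sq_nonneg K)
    have e2 : ‖w2‖ ^ 2 ≤ (KW * K) ^ 2 *
        (‖χ (X0 + C.cfT u)‖ ^ 2 * (‖bY C u‖ ^ 2 * S0 P g (bY C u))) := by
      have h2 : ‖w2‖ ≤ KW * ‖C.PY u‖ * ‖om P X0 g χ u‖ := hW α _ _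
      calc ‖w2‖ ^ 2 ≤ (KW * ‖C.PY u‖ * ‖om P X0 g χ u‖) ^ 2 :=
            pow_le_pow_left₀ (norm_nonneg _) h2 2
        _ = (KW * ‖C.PY u‖) ^ 2 * ‖om P X0 g χ u‖ ^ 2 := mul_pow _ _ _
        _ ≤ (KW * ‖C.PY u‖) ^ 2 * (K ^ 2 * (‖χ (X0 + C.cfT u)‖ ^ 2 * S0 P g (bY C u))) :=
            mul_le_mul_of_nonneg_left (om_le hK u) (sq_nonneg _)
        _ = (KW * K) ^ 2 *
            (‖χ (X0 + C.cfT u)‖ ^ 2 * (‖bY C u‖ ^ 2 * S0 P g (bY C u))) := by
            have : ‖bY C u‖ = ‖C.PY u‖ := rfl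
            rw [this]
            ring
    have h3 : ‖w1 + w2‖ ^ 2 ≤ 2 * ‖w1‖ ^ 2 + 2 * ‖w2‖ ^ 2 := by
      have h4 : ‖w1 + w2‖ ^ 2 ≤ (‖w1‖ + ‖w2‖) ^ 2 :=
        pow_le_pow_left₀ (norm_nonneg _) (norm_add_le _ _) 2
      nlinarith [sq_nonneg (‖w1‖ - ‖w2‖)]
    linarith

/-- the light function on `L` -/
def omL (P : TPack C M R G) (X0 : Pos p) (g : ℝ) (χ : Pos p → C.Fx M G) (q : Tup C.kk) : F :=
  om P X0 g χ q

theorem omL_zero_near {q : Tup C.kk} (h : X0 + C.cfT q ∉ tsupport χ) :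
    omL P X0 g χ =ᶠ[𝓝 q] fun _ => 0 := by
  have h1 := (continuous_subtype_val (p := fun x => x ∈ Tup C.kk)).continuousAt.eventually
    (ev_chi_zero (X0 := X0) (u := (q : Cfg N)) h)
  filter_upwards [h1] with v hv
  exact om_zero hv

theorem fderiv_omL_le (hP : ContDiff ℝ 1 (P.Psi g)) (hχ : ContDiff ℝ 1 χ)
    (hs : ∀ X ∈ tsupport χ, C.BReg X) (hK0 : 0 ≤ K)
    (hK : ∀ X ∈ tsupport χ, ‖P.U X‖ ≤ K ∧ ‖fderiv ℝ P.U X‖ ≤ K) (q : Tup C.kk) :
    ‖fderiv ℝ (omL P X0 g χ) q‖ ^ 2 ≤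
      3 * K ^ 2 * (‖χ (X0 + C.cfT q)‖ ^ 2 * S0 P g (bY C q)) +
      3 * K ^ 2 * (‖χ (X0 + C.cfT q)‖ ^ 2 * S1 P g (bY C q)) +
      3 * K ^ 2 * (‖fderiv ℝ χ (X0 + C.cfT q)‖ ^ 2 * S0 P g (bY C q)) := by
  set RHS := 3 * K ^ 2 * (‖χ (X0 + C.cfT q)‖ ^ 2 * S0 P g (bY C q)) +
      3 * K ^ 2 * (‖χ (X0 + C.cfT q)‖ ^ 2 * S1 P g (bY C q)) +
      3 * K ^ 2 * (‖fderiv ℝ χ (X0 + C.cfT q)‖ ^ 2 * S0 P g (bY C q)) with hR
  have hS0 := S0_nonneg P g (bY C q)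
  have hS1 := S1_nonneg P g (bY C q)
  have hR0 : 0 ≤ RHS := by positivity
  by_cases h : X0 + C.cfT q ∈ tsupport χ
  swap
  · rw [(omL_zero_near h).fderiv_eq, fderiv_fun_const]
    show ‖(0 : Tup C.kk →L[ℝ] F)‖ ^ 2 ≤ RHS
    rw [ContinuousLinearMap.opNorm_zero]
    simpa using hR0
  obtain ⟨hd, -⟩ := fderiv_om (P := P) (g := g) (X0 := X0) hP hχ (u := (q : Cfg N)) (hs _ h) 0
  have hdL : HasFDerivAt (omL P X0 g χ)
      ((fderiv ℝ (om P X0 g χ) (q : Cfg N)).comp (Tup C.kk).subtypeL) q :=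
    hd.comp q (Tup C.kk).subtypeL.hasFDerivAt
  rw [hdL.fderiv]
  have hb : ‖(fderiv ℝ (om P X0 g χ) (q : Cfg N)).comp (Tup C.kk).subtypeL‖ ≤ Real.sqrt RHS := by
    refine ContinuousLinearMap.opNorm_le_bound _ (Real.sqrt_nonneg _) fun e => ?_
    have he : ((fderiv ℝ (om P X0 g χ) (q : Cfg N)).comp (Tup C.kk).subtypeL) e =
        fderiv ℝ (om P X0 g χ) (q : Cfg N) (e : Cfg N) := rfl
    rw [he, (fderiv_om (P := P) (g := g) (X0 := X0) hP hχ (u := (q : Cfg N)) (hs _ h) _).2]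
    set a1 := (fderiv ℝ P.U (X0 + C.cfT q) (C.cfT (e : Cfg N)))
        (P.Psi g (C.PY q) ((χ (X0 + C.cfT q) : C.Fx M G) : F)) with ha1
    set a2 := P.U (X0 + C.cfT q) ((fderiv ℝ (P.Psi g) (C.PY q) (C.PY (e : Cfg N)))
        ((χ (X0 + C.cfT q) : C.Fx M G) : F)) with ha2
    set a3 := P.U (X0 + C.cfT q) (P.Psi g (C.PY q)
        ((fderiv ℝ χ (X0 + C.cfT q) (C.cfT (e : Cfg N)) : C.Fx M G) : F)) with ha3
    have en : ‖C.cfT (e : Cfg N)‖ ≤ ‖e‖ := norm_cfT_le C _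
    have eY : ‖bY C (e : Cfg N)‖ ≤ ‖e‖ := norm_PY_le C _
    have e1 : ‖a1‖ ^ 2 ≤ K ^ 2 * (‖χ (X0 + C.cfT q)‖ ^ 2 * S0 P g (bY C q)) * ‖e‖ ^ 2 := by
      have h2 : ‖a1‖ ≤ K * ‖e‖ * ‖P.Psi g (C.PY q) ((χ (X0 + C.cfT q) : C.Fx M G) : F)‖ := by
        refine (ContinuousLinearMap.le_opNorm _ _).trans
          (mul_le_mul_of_nonneg_right ?_ (norm_nonneg _))
        exact (ContinuousLinearMap.le_opNorm _ _).trans
          (mul_le_mul (hK _ h).2 en (norm_nonneg _) hK0)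
      calc ‖a1‖ ^ 2 ≤ (K * ‖e‖ *
            ‖P.Psi g (C.PY q) ((χ (X0 + C.cfT q) : C.Fx M G) : F)‖) ^ 2 :=
            pow_le_pow_left₀ (norm_nonneg _) h2 2
        _ = (K * ‖e‖) ^ 2 * ‖P.Psi g (C.PY q) ((χ (X0 + C.cfT q) : C.Fx M G) : F)‖ ^ 2 :=
            mul_pow _ _ _
        _ ≤ (K * ‖e‖) ^ 2 * (‖χ (X0 + C.cfT q)‖ ^ 2 * S0 P g (bY C q)) :=
            mul_le_mul_of_nonneg_left (psi_le (χ (X0 + C.cfT q)) (bY C q)) (sq_nonneg _)
        _ = _ := by ring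
    have e2 : ‖a2‖ ^ 2 ≤ K ^ 2 * (‖χ (X0 + C.cfT q)‖ ^ 2 * S1 P g (bY C q)) * ‖e‖ ^ 2 := by
      have h2 : ‖a2‖ ≤ K * ‖(fderiv ℝ (P.Psi g) (C.PY q) (C.PY (e : Cfg N)))
          ((χ (X0 + C.cfT q) : C.Fx M G) : F)‖ :=
        (ContinuousLinearMap.le_opNorm _ _).trans
          (mul_le_mul_of_nonneg_right (hK _ h).1 (norm_nonneg _))
      have h3 := der_le hP (χ (X0 + C.cfT q)) (bY C q) (bY C (e : Cfg N))
      have h4 : ‖bY C (e : Cfg N)‖ ^ 2 ≤ ‖e‖ ^ 2 := pow_le_pow_left₀ (norm_nonneg _) eY 2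
      calc ‖a2‖ ^ 2 ≤ (K * ‖(fderiv ℝ (P.Psi g) (C.PY q) (C.PY (e : Cfg N)))
            ((χ (X0 + C.cfT q) : C.Fx M G) : F)‖) ^ 2 := pow_le_pow_left₀ (norm_nonneg _) h2 2
        _ = K ^ 2 * ‖(fderiv ℝ (P.Psi g) (C.PY q) (C.PY (e : Cfg N)))
            ((χ (X0 + C.cfT q) : C.Fx M G) : F)‖ ^ 2 := mul_pow _ _ _
        _ ≤ K ^ 2 * (‖χ (X0 + C.cfT q)‖ ^ 2 * (‖bY C (e : Cfg N)‖ ^ 2 * S1 P g (bY C q))) :=
            mul_le_mul_of_nonneg_left h3 (sq_nonneg _)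
        _ ≤ K ^ 2 * (‖χ (X0 + C.cfT q)‖ ^ 2 * (‖e‖ ^ 2 * S1 P g (bY C q))) := by gcongr
        _ = _ := by ring
    have e3 : ‖a3‖ ^ 2 ≤
        K ^ 2 * (‖fderiv ℝ χ (X0 + C.cfT q)‖ ^ 2 * S0 P g (bY C q)) * ‖e‖ ^ 2 := by
      have h2 : ‖a3‖ ≤ K * ‖P.Psi g (C.PY q)
          ((fderiv ℝ χ (X0 + C.cfT q) (C.cfT (e : Cfg N)) : C.Fx M G) : F)‖ :=
        (ContinuousLinearMap.le_opNorm _ _).trans
          (mul_le_mul_of_nonneg_right (hK _ h).1 (norm_nonneg _))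
      have h3 := psi_le (P := P) (g := g) (fderiv ℝ χ (X0 + C.cfT q) (C.cfT (e : Cfg N)))
        (bY C q)
      have h4 : ‖fderiv ℝ χ (X0 + C.cfT q) (C.cfT (e : Cfg N))‖ ^ 2 ≤
          ‖fderiv ℝ χ (X0 + C.cfT q)‖ ^ 2 * ‖e‖ ^ 2 := by
        rw [← mul_pow]
        refine pow_le_pow_left₀ (norm_nonneg _) ?_ 2
        exact (ContinuousLinearMap.le_opNorm _ _).trans
          (mul_le_mul_of_nonneg_left en (norm_nonneg _))
      calc ‖a3‖ ^ 2 ≤ (K * ‖P.Psi g (C.PY q)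
            ((fderiv ℝ χ (X0 + C.cfT q) (C.cfT (e : Cfg N)) : C.Fx M G) : F)‖) ^ 2 :=
            pow_le_pow_left₀ (norm_nonneg _) h2 2
        _ = K ^ 2 * ‖P.Psi g (C.PY q)
            ((fderiv ℝ χ (X0 + C.cfT q) (C.cfT (e : Cfg N)) : C.Fx M G) : F)‖ ^ 2 :=
            mul_pow _ _ _
        _ ≤ K ^ 2 * (‖fderiv ℝ χ (X0 + C.cfT q) (C.cfT (e : Cfg N))‖ ^ 2 *
            S0 P g (bY C q)) := mul_le_mul_of_nonneg_left h3 (sq_nonneg _)
        _ ≤ K ^ 2 * (‖fderiv ℝ χ (X0 + C.cfT q)‖ ^ 2 * ‖e‖ ^ 2 * S0 P g (bY C q)) := by gcongr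
        _ = _ := by ring
    have h5 : ‖a1 + a2 + a3‖ ^ 2 ≤ RHS * ‖e‖ ^ 2 := by
      have h6 : ‖a1 + a2 + a3‖ ≤ ‖a1‖ + ‖a2‖ + ‖a3‖ := norm_add₃_le
      have h7 : ‖a1 + a2 + a3‖ ^ 2 ≤ (‖a1‖ + ‖a2‖ + ‖a3‖) ^ 2 :=
        pow_le_pow_left₀ (norm_nonneg _) h6 2
      have h8 : (‖a1‖ + ‖a2‖ + ‖a3‖) ^ 2 ≤ 3 * (‖a1‖ ^ 2 + ‖a2‖ ^ 2 + ‖a3‖ ^ 2) := by
        nlinarith [sq_nonneg (‖a1‖ - ‖a2‖), sq_nonneg (‖a1‖ - ‖a3‖), sq_nonneg (‖a2‖ - ‖a3‖)]
      have h9 : RHS * ‖e‖ ^ 2 =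
          3 * (K ^ 2 * (‖χ (X0 + C.cfT q)‖ ^ 2 * S0 P g (bY C q)) * ‖e‖ ^ 2 +
            K ^ 2 * (‖χ (X0 + C.cfT q)‖ ^ 2 * S1 P g (bY C q)) * ‖e‖ ^ 2 +
            K ^ 2 * (‖fderiv ℝ χ (X0 + C.cfT q)‖ ^ 2 * S0 P g (bY C q)) * ‖e‖ ^ 2) := by
        rw [hR]
        ring
      rw [h9]
      linarith
    have h10 : ‖a1 + a2 + a3‖ ≤ Real.sqrt (RHS * ‖e‖ ^ 2) := Real.le_sqrt_of_sq_le h5
    rwa [Real.sqrt_mul hR0, Real.sqrt_sq (norm_nonneg _)] at h10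
  exact le_trans (pow_le_pow_left₀ (ContinuousLinearMap.opNorm_nonneg _) hb 2)
    (Real.sq_sqrt hR0).le

end bd

/-! ### 8. The moments -/

/-- a square bounded by an integrable function -/
theorem sq_int {E : Type*} [NormedAddCommGroup E] [InnerProductSpace ℝ E]
    [FiniteDimensional ℝ E] [MeasurableSpace E] [BorelSpace E] {h f : E → ℝ}
    (hc : Continuous h) (hf : Integrable f) (hb : ∀ x, h x ^ 2 ≤ f x) :
    Integrable (fun x => h x ^ 2) ∧ ∫ x, h x ^ 2 ≤ ∫ x, f x := by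
  have h1 : Integrable (fun x => h x ^ 2) := by
    refine hf.mono' (hc.pow 2).aestronglyMeasurable (Eventually.of_forall fun x => ?_)
    rw [Real.norm_eq_abs, abs_of_nonneg (sq_nonneg _)]
    exact hb x
  exact ⟨h1, integral_mono h1 hf hb⟩

section fd

variable {E W : Type*} [NormedAddCommGroup E] [NormedSpace ℝ E] [NormedAddCommGroup W]
  [NormedSpace ℝ W] {f : E → W}

theorem cont_fd (h : ContDiff ℝ 1 f) : Continuous fun x => ‖fderiv ℝ f x‖ :=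
  (h.continuous_fderiv (by simp)).norm

theorem cont_fdsq (h : ContDiff ℝ 1 f) : Continuous fun x => ‖fderiv ℝ f x‖ ^ 2 :=
  (cont_fd h).pow 2

theorem hcs_fdsq (h : HasCompactSupport f) : HasCompactSupport fun x => ‖fderiv ℝ f x‖ ^ 2 :=
  hcs_nsq (h.fderiv ℝ)

theorem fd_nonneg (x : E) : 0 ≤ ‖fderiv ℝ f x‖ := norm_nonneg _

end fd

section main

variable (P : TPack C M R G) (X0 : Pos p) (m : ℝ) (α : Fin 16) (χ : Pos p → C.Fx M G)

/-- the sizes of the light line on `L = R⁹ ⊗ kk` -/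
def sizes : Sizes (Tup C.kk) where
  y q := ‖C.PY q‖
  n0 g q := ‖omL P X0 g χ q‖
  n1 g q := ‖fderiv ℝ (omL P X0 g χ) q‖
  nE g q := ‖rhoE P X0 g α χ q‖
  nS g q := ‖rhoS P X0 g m α χ q‖

variable {χ}

/-- `∫ ‖χ‖²` -/
def Ic (χ : Pos p → C.Fx M G) : ℝ := ∫ X, ‖χ X‖ ^ 2

/-- `∫ ‖Dχ‖²` -/
def Id (χ : Pos p → C.Fx M G) : ℝ := ∫ X, ‖fderiv ℝ χ X‖ ^ 2

section fixg

variable {P X0} {g : ℝ} (hP : ContDiff ℝ 1 (P.Psi g)) (hχ : ContDiff ℝ 1 χ)
  (hc : HasCompactSupport χ)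

include hP hχ hc

theorem iS0 : Integrable (fun q : Tup C.kk => ‖χ (X0 + C.cfT q)‖ ^ 2 * S0 P g (bY C q)) ∧
    ∫ q : Tup C.kk, ‖χ (X0 + C.cfT q)‖ ^ 2 * S0 P g (bY C q) = Ic χ * ∫ Y, S0 P g Y :=
  int_prod X0 (a := fun X => ‖χ X‖ ^ 2) (cont_nsq hχ.continuous) (hcs_nsq hc)
    (continuous_S0 hP) hcs_S0

theorem iS1 : Integrable (fun q : Tup C.kk => ‖χ (X0 + C.cfT q)‖ ^ 2 * S1 P g (bY C q)) ∧
    ∫ q : Tup C.kk, ‖χ (X0 + C.cfT q)‖ ^ 2 * S1 P g (bY C q) = Ic χ * ∫ Y, S1 P g Y :=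
  int_prod X0 (a := fun X => ‖χ X‖ ^ 2) (cont_nsq hχ.continuous) (hcs_nsq hc)
    (continuous_S1 hP) hcs_S1

theorem iSQ (α : Fin 16) :
    Integrable (fun q : Tup C.kk => ‖χ (X0 + C.cfT q)‖ ^ 2 * SQ P g α (bY C q)) ∧
    ∫ q : Tup C.kk, ‖χ (X0 + C.cfT q)‖ ^ 2 * SQ P g α (bY C q) = Ic χ * ∫ Y, SQ P g α Y :=
  int_prod X0 (a := fun X => ‖χ X‖ ^ 2) (cont_nsq hχ.continuous) (hcs_nsq hc)
    (continuous_SQ hP α) (hcs_SQ hP α)

theorem iyS0 : Integrable (fun q : Tup C.kk =>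
      ‖χ (X0 + C.cfT q)‖ ^ 2 * (‖bY C q‖ ^ 2 * S0 P g (bY C q))) ∧
    ∫ q : Tup C.kk, ‖χ (X0 + C.cfT q)‖ ^ 2 * (‖bY C q‖ ^ 2 * S0 P g (bY C q)) =
      Ic χ * ∫ Y : C.Blk, ‖Y‖ ^ 2 * S0 P g Y :=
  int_prod X0 (a := fun X => ‖χ X‖ ^ 2) (c := fun Y => ‖Y‖ ^ 2 * S0 P g Y)
    (cont_nsq hχ.continuous) (hcs_nsq hc) ((cont_nsq continuous_id).mul (continuous_S0 hP))
    hcs_S0.mul_left

theorem iD0 : Integrable (fun q : Tup C.kk =>
      ‖fderiv ℝ χ (X0 + C.cfT q)‖ ^ 2 * S0 P g (bY C q)) ∧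
    ∫ q : Tup C.kk, ‖fderiv ℝ χ (X0 + C.cfT q)‖ ^ 2 * S0 P g (bY C q) =
      Id χ * ∫ Y, S0 P g Y :=
  int_prod X0 (a := fun X => ‖fderiv ℝ χ X‖ ^ 2) (cont_fdsq hχ) (hcs_fdsq hc)
    (continuous_S0 hP) hcs_S0

end fixg

theorem Ic_nonneg (χ : Pos p → C.Fx M G) : 0 ≤ Ic χ := integral_nonneg fun _ => sq_nonneg _

theorem Id_nonneg (χ : Pos p → C.Fx M G) : 0 ≤ Id χ := integral_nonneg fun _ => sq_nonneg _

/-- **The moments of the light line.** -/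
theorem moms (hχ : ContDiff ℝ ∞ χ) (hc : HasCompactSupport χ)
    (hs : ∀ X ∈ tsupport χ, C.BReg X) :
    Moms (volume : Measure (Tup C.kk)) (sizes P X0 m α χ) := by
  obtain ⟨K, hK0, hK⟩ := exists_KU P hc hs
  obtain ⟨KT, hKT, hT⟩ := exists_aA M G
  obtain ⟨KW, -, hW⟩ := exists_wl b M G m
  obtain ⟨B, hB⟩ := int_S0 P
  have hχ1 : ContDiff ℝ 1 χ := hχ.of_le (by exact_mod_cast le_top)
  have hIc := Ic_nonneg χ
  have hId := Id_nonneg χ
  set KE := Fintype.card (Fin 9 × Fin p) * (KT * K) with hKE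
  -- continuity
  have cY : Continuous fun q : Tup C.kk => ‖C.PY q‖ :=
    ((continuous_PY C).comp continuous_subtype_val).norm
  have c0 : ∀ᶠ g in atTop, Continuous fun q : Tup C.kk => ‖omL P X0 g χ q‖ := by
    filter_upwards [P.Psi_smooth] with g hg
    exact ((continuous_om hg hχ hs).comp continuous_subtype_val).norm
  have c1 : ∀ᶠ g in atTop, Continuous fun q : Tup C.kk => ‖fderiv ℝ (omL P X0 g χ) q‖ := by
    filter_upwards [P.Psi_smooth] with g hg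
    have h1 : ContDiff ℝ 1 (omL P X0 g χ) :=
      (contDiff_om (n := 1) (by exact_mod_cast le_top) hg hχ hs).comp
        (Tup C.kk).subtypeL.contDiff
    exact cont_fd h1
  have cE : ∀ᶠ g in atTop, Continuous fun q : Tup C.kk => ‖rhoE P X0 g α χ q‖ := by
    filter_upwards [P.Psi_smooth] with g hg
    exact ((continuous_rhoE hg hχ hs α).comp continuous_subtype_val).norm
  have cS : ∀ᶠ g in atTop, Continuous fun q : Tup C.kk => ‖rhoS P X0 g m α χ q‖ := by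
    filter_upwards [P.Psi_smooth] with g hg
    exact ((continuous_rhoS hg hχ hs m α).comp continuous_subtype_val).norm
  -- the six estimates
  have f0 : ∀ᶠ g in atTop, Integrable (fun q : Tup C.kk => ‖omL P X0 g χ q‖ ^ 2) ∧
      ∫ q : Tup C.kk, ‖omL P X0 g χ q‖ ^ 2 ≤ K ^ 2 * (Ic χ * ∫ Y, S0 P g Y) := by
    filter_upwards [c0, ev_C1 P] with g h1 hP
    obtain ⟨i1, i2⟩ := iS0 (X0 := X0) hP hχ1 hc
    obtain ⟨j1, j2⟩ := sq_int h1 (i1.const_mul (K ^ 2)) fun q => om_le hK (q : Cfg N)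
    rw [integral_const_mul, i2] at j2
    exact ⟨j1, j2⟩
  have fy : ∀ᶠ g in atTop, Integrable (fun q : Tup C.kk => (‖C.PY q‖ * ‖omL P X0 g χ q‖) ^ 2) ∧
      ∫ q : Tup C.kk, (‖C.PY q‖ * ‖omL P X0 g χ q‖) ^ 2 ≤
        K ^ 2 * (Ic χ * ∫ Y : C.Blk, ‖Y‖ ^ 2 * S0 P g Y) := by
    filter_upwards [c0, ev_C1 P] with g h1 hP
    obtain ⟨i1, i2⟩ := iyS0 (X0 := X0) hP hχ1 hc
    obtain ⟨j1, j2⟩ := sq_int (cY.mul h1) (i1.const_mul (K ^ 2)) fun q => by
      have h2 := om_le (X0 := X0) (g := g) hK (q : Cfg N)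
      have h3 : ‖bY C (q : Cfg N)‖ = ‖C.PY q‖ := rfl
      show (‖C.PY q‖ * ‖omL P X0 g χ q‖) ^ 2 ≤ _
      rw [mul_pow, h3]
      calc ‖C.PY q‖ ^ 2 * ‖omL P X0 g χ q‖ ^ 2 ≤
            ‖C.PY q‖ ^ 2 * (K ^ 2 * (‖χ (X0 + C.cfT q)‖ ^ 2 * S0 P g (bY C q))) :=
            mul_le_mul_of_nonneg_left h2 (sq_nonneg _)
        _ = _ := by ring
    rw [integral_const_mul, i2] at j2
    exact ⟨j1, j2⟩
  have fE : ∀ᶠ g in atTop, Integrable (fun q : Tup C.kk => ‖rhoE P X0 g α χ q‖ ^ 2) ∧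
      ∫ q : Tup C.kk, ‖rhoE P X0 g α χ q‖ ^ 2 ≤ KE ^ 2 * (Ic χ * ∫ Y, S0 P g Y) := by
    filter_upwards [cE, ev_C1 P] with g h1 hP
    obtain ⟨i1, i2⟩ := iS0 (X0 := X0) hP hχ1 hc
    obtain ⟨j1, j2⟩ := sq_int h1 (i1.const_mul (KE ^ 2)) fun q =>
      rhoE_le α hKT hT hK (q : Cfg N)
    rw [integral_const_mul, i2] at j2
    exact ⟨j1, j2⟩
  have fyE : ∀ᶠ g in atTop,
      Integrable (fun q : Tup C.kk => (‖C.PY q‖ * ‖rhoE P X0 g α χ q‖) ^ 2) ∧
      ∫ q : Tup C.kk, (‖C.PY q‖ * ‖rhoE P X0 g α χ q‖) ^ 2 ≤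
        KE ^ 2 * (Ic χ * ∫ Y : C.Blk, ‖Y‖ ^ 2 * S0 P g Y) := by
    filter_upwards [cE, ev_C1 P] with g h1 hP
    obtain ⟨i1, i2⟩ := iyS0 (X0 := X0) hP hχ1 hc
    obtain ⟨j1, j2⟩ := sq_int (cY.mul h1) (i1.const_mul (KE ^ 2)) fun q => by
      have h2 := rhoE_le (X0 := X0) (g := g) α hKT hT hK (q : Cfg N)
      have h3 : ‖bY C (q : Cfg N)‖ = ‖C.PY q‖ := rfl
      show (‖C.PY q‖ * ‖rhoE P X0 g α χ q‖) ^ 2 ≤ _
      rw [mul_pow, h3]
      calc ‖C.PY q‖ ^ 2 * ‖rhoE P X0 g α χ q‖ ^ 2 ≤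
            ‖C.PY q‖ ^ 2 * (KE ^ 2 * (‖χ (X0 + C.cfT q)‖ ^ 2 * S0 P g (bY C q))) :=
            mul_le_mul_of_nonneg_left h2 (sq_nonneg _)
        _ = _ := by ring
    rw [integral_const_mul, i2] at j2
    exact ⟨j1, j2⟩
  have fS : ∀ᶠ g in atTop, Integrable (fun q : Tup C.kk => ‖rhoS P X0 g m α χ q‖ ^ 2) ∧
      ∫ q : Tup C.kk, ‖rhoS P X0 g m α χ q‖ ^ 2 ≤
        2 * K ^ 2 * (Ic χ * ∫ Y, SQ P g α Y) +
          2 * (KW * K) ^ 2 * (Ic χ * ∫ Y : C.Blk, ‖Y‖ ^ 2 * S0 P g Y) := by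
    filter_upwards [cS, ev_C1 P] with g h1 hP
    obtain ⟨i1, i2⟩ := iyS0 (X0 := X0) hP hχ1 hc
    obtain ⟨i3, i4⟩ := iSQ (X0 := X0) hP hχ1 hc α
    obtain ⟨j1, j2⟩ := sq_int h1 ((i3.const_mul (2 * K ^ 2)).add
      (i1.const_mul (2 * (KW * K) ^ 2))) fun q => rhoS_le hP m α hW hK (q : Cfg N)
    rw [integral_add' (i3.const_mul _) (i1.const_mul _), integral_const_mul,
      integral_const_mul, i2, i4] at j2
    exact ⟨j1, j2⟩
  have f1 : ∀ᶠ g in atTop, Integrable (fun q : Tup C.kk => ‖fderiv ℝ (omL P X0 g χ) q‖ ^ 2) ∧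
      ∫ q : Tup C.kk, ‖fderiv ℝ (omL P X0 g χ) q‖ ^ 2 ≤
        3 * K ^ 2 * (Ic χ * ∫ Y, S0 P g Y) + 3 * K ^ 2 * (Ic χ * ∫ Y, S1 P g Y) +
          3 * K ^ 2 * (Id χ * ∫ Y, S0 P g Y) := by
    filter_upwards [c1, ev_C1 P] with g h1 hP
    obtain ⟨i1, i2⟩ := iS0 (X0 := X0) hP hχ1 hc
    obtain ⟨i3, i4⟩ := iS1 (X0 := X0) hP hχ1 hc
    obtain ⟨i5, i6⟩ := iD0 (X0 := X0) hP hχ1 hc
    obtain ⟨j1, j2⟩ := sq_int h1 (((i1.const_mul (3 * K ^ 2)).add
      (i3.const_mul (3 * K ^ 2))).add (i5.const_mul (3 * K ^ 2)))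
      fun q => fderiv_omL_le hP hχ1 hs hK0 hK q
    rw [integral_add' ((i1.const_mul _).add (i3.const_mul _)) (i5.const_mul _),
      integral_add' (i1.const_mul _) (i3.const_mul _), integral_const_mul,
      integral_const_mul, integral_const_mul, i2, i4, i6] at j2
    exact ⟨j1, j2⟩
  have hS0p : ∀ g, 0 ≤ ∫ Y, S0 P g Y := fun g => integral_nonneg fun Y => S0_nonneg P g Y
  have ty := (int_yS0 P).const_mul (Ic χ)
  have tQ := (int_SQ P α).const_mul (Ic χ)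
  have t1 := int_S1 P
  simp only [mul_zero] at ty tQ
  refine
    { y0 := fun q => norm_nonneg _
      n00 := fun g q => norm_nonneg _
      n10 := fun g q => fd_nonneg q
      nE0 := fun g q => norm_nonneg _
      nS0 := fun g q => norm_nonneg _
      i0 := f0.mono fun g h => h.1
      iy := fy.mono fun g h => h.1
      i1 := f1.mono fun g h => h.1
      iE := fE.mono fun g h => h.1
      iyE := fyE.mono fun g h => h.1
      iS := fS.mono fun g h => h.1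
      b0 := ⟨K ^ 2 * (Ic χ * B), ?_⟩
      by0 := ?_
      b1 := ?_
      bE := ⟨KE ^ 2 * (Ic χ * B), ?_⟩
      byE := ?_
      bS := ?_ }
  · filter_upwards [f0, hB] with g h1 h2
    exact h1.2.trans (by gcongr)
  · refine squeeze_zero' (Eventually.of_forall fun g => integral_nonneg fun q => sq_nonneg _)
      (fy.mono fun g h => h.2) ?_
    simpa using ty.const_mul (K ^ 2)
  · have h3 : Tendsto (fun g : ℝ => 3 * K ^ 2 * (Ic χ * B * g⁻¹) +
        3 * K ^ 2 * (Ic χ * (g⁻¹ * ∫ Y, S1 P g Y)) + 3 * K ^ 2 * (Id χ * B * g⁻¹))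
        atTop (𝓝 0) := by
      have h4 : Tendsto (fun g : ℝ => g⁻¹) atTop (𝓝 0) := tendsto_inv_atTop_zero
      have h5 := ((h4.const_mul (Ic χ * B)).const_mul (3 * K ^ 2)).add
        ((t1.const_mul (Ic χ)).const_mul (3 * K ^ 2))
      have h6 := h5.add ((h4.const_mul (Id χ * B)).const_mul (3 * K ^ 2))
      simpa using h6
    refine squeeze_zero' ?_ ?_ h3
    · filter_upwards [eventually_gt_atTop 0] with g hg
      exact mul_nonneg (inv_nonneg.2 hg.le) (integral_nonneg fun q => sq_nonneg _)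
    · filter_upwards [f1, hB, eventually_gt_atTop 0] with g h1 h2 hg
      have hgi : 0 ≤ g⁻¹ := inv_nonneg.2 hg.le
      have hS1p : 0 ≤ ∫ Y, S1 P g Y := integral_nonneg fun Y => S1_nonneg P g Y
      calc g⁻¹ * ∫ q : Tup C.kk, ‖fderiv ℝ (omL P X0 g χ) q‖ ^ 2
          ≤ g⁻¹ * (3 * K ^ 2 * (Ic χ * ∫ Y, S0 P g Y) + 3 * K ^ 2 * (Ic χ * ∫ Y, S1 P g Y) +
            3 * K ^ 2 * (Id χ * ∫ Y, S0 P g Y)) := mul_le_mul_of_nonneg_left h1.2 hgi
        _ ≤ g⁻¹ * (3 * K ^ 2 * (Ic χ * B) + 3 * K ^ 2 * (Ic χ * ∫ Y, S1 P g Y) +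
            3 * K ^ 2 * (Id χ * B)) := by gcongr
        _ = _ := by ring
  · filter_upwards [fE, hB] with g h1 h2
    exact h1.2.trans (by gcongr)
  · refine squeeze_zero' (Eventually.of_forall fun g => integral_nonneg fun q => sq_nonneg _)
      (fyE.mono fun g h => h.2) ?_
    simpa using ty.const_mul (KE ^ 2)
  · refine squeeze_zero' (Eventually.of_forall fun g => integral_nonneg fun q => sq_nonneg _)
      (fS.mono fun g h => h.2) ?_
    simpa using (tQ.const_mul (2 * K ^ 2)).add (ty.const_mul (2 * (KW * K) ^ 2))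

end main

/-! ### 9. Supports -/

section supp

variable {P : TPack C M R G} {X0 : Pos p} {g : ℝ} {χ : Pos p → C.Fx M G}

/-- near a point whose block part is outside the radius `Psi` vanishes -/
theorem ev_psi_zero {q : Tup C.kk} (h : P.s g < ‖C.PY q‖) :
    ∀ᶠ v : Tup C.kk in 𝓝 q, P.Psi g (C.PY v) = 0 := by
  have h1 : Continuous fun v : Tup C.kk => ‖C.PY v‖ :=
    ((continuous_PY C).comp continuous_subtype_val).norm
  filter_upwards [h1.continuousAt.eventually (lt_mem_nhds h)] with v hv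
  exact P.Psi_supp g _ (PY_mem C v) hv.le

theorem QL_zero (hP : ContDiff ℝ 1 (P.Psi g)) (α : Fin 16) {Y : C.Blk} (h : P.s g < ‖Y‖)
    (f : F) : QL P g α (Y : Cfg N) f = 0 := by
  have h1 : psB P g f =ᶠ[𝓝 Y] fun _ => 0 := by
    filter_upwards [continuous_norm.continuousAt.eventually (lt_mem_nhds h)] with Z hZ
    unfold psB
    rw [P.Psi_supp g Z Z.2 hZ.le]
    rfl
  rw [QL_blk hP, h1.eq_of_nhds, h1.fderiv_eq]
  simp

/-- **Supports.** -/
theorem out_zero {r : ℝ} (hr : 0 < r) (hχ : tsupport χ ⊆ Metric.closedBall X0 (r / 4))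
    (hP : ContDiff ℝ 1 (P.Psi g)) (hg : P.s g ≤ r / 6) {q : Tup C.kk} (hq : r / 3 < ‖q‖) :
    omL P X0 g χ =ᶠ[𝓝 q] (fun _ => 0) ∧ (∀ α, rhoE P X0 g α χ q = 0) ∧
      ∀ m α, rhoS P X0 g m α χ q = 0 := by
  by_cases h : X0 + C.cfT q ∈ tsupport χ
  · have h1 : ‖C.cfT q‖ ≤ r / 4 := by
      have h2 := hχ h
      rw [Metric.mem_closedBall, dist_eq_norm, add_sub_cancel_left] at h2
      exact h2
    have h3 : P.s g < ‖C.PY q‖ := by
      by_contra h4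
      have h5 : ‖C.PY q‖ ≤ r / 6 := (not_lt.1 h4).trans hg
      have h6 := norm_sq_eq C (q : Cfg N)
      have h7 : C.PM (q : Cfg N) = 0 := by
        unfold Chn.PM
        rw [PK_of_mem C q.2, sub_self]
      rw [h7, norm_zero] at h6
      have h8 : ‖(q : Cfg N)‖ = ‖q‖ := rfl
      rw [h8] at h6
      nlinarith [norm_nonneg (C.cfT (q : Cfg N)), norm_nonneg (C.PY (q : Cfg N)),
        norm_nonneg q]
    have h4 := ev_psi_zero h3
    have h5 : P.Psi g (C.PY q) = 0 := h4.self_of_nhds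
    have h6 : omL P X0 g χ =ᶠ[𝓝 q] (fun _ => 0) := by
      filter_upwards [h4] with v hv
      unfold omL om
      rw [hv]
      simp
    refine ⟨h6, fun α => ?_, fun m α => ?_⟩
    · unfold rhoE
      rw [h5]
      simp
    · have h7 : om P X0 g χ q = 0 := h6.eq_of_nhds
      have h8 : QL P g α (C.PY q) ((χ (X0 + C.cfT q) : C.Fx M G) : F) = 0 :=
        QL_zero hP α (Y := bY C q) h3 _
      rw [rhoS_eq hP, h7, h8]
      simp
  · have h1 : χ (X0 + C.cfT q) = 0 := image_eq_zero_of_notMem_tsupport h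
    exact ⟨omL_zero_near h, fun α => rhoE_zero h1, fun m α => rhoS_zero hP h1⟩

/-- change of the sizes for small couplings -/
theorem moms_congr {E : Type*} [MeasurableSpace E] {μ : Measure E} {s s' : Sizes E}
    (h : Moms μ s) (hy : s'.y = s.y)
    (hn : ∀ g q, 0 ≤ s'.n0 g q ∧ 0 ≤ s'.n1 g q ∧ 0 ≤ s'.nE g q ∧ 0 ≤ s'.nS g q)
    (he : ∀ᶠ g in atTop, s'.n0 g = s.n0 g ∧ s'.n1 g = s.n1 g ∧ s'.nE g = s.nE g ∧
      s'.nS g = s.nS g) : Moms μ s' := by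
  refine
    { y0 := fun q => by rw [hy]; exact h.y0 q
      n00 := fun g q => (hn g q).1
      n10 := fun g q => (hn g q).2.1
      nE0 := fun g q => (hn g q).2.2.1
      nS0 := fun g q => (hn g q).2.2.2
      i0 := ?_, iy := ?_, i1 := ?_, iE := ?_, iyE := ?_, iS := ?_, b0 := ?_, by0 := ?_
      b1 := ?_, bE := ?_, byE := ?_, bS := ?_ }
  · filter_upwards [h.i0, he] with g h1 h2
    rw [h2.1]
    exact h1
  · filter_upwards [h.iy, he] with g h1 h2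
    rw [hy, h2.1]
    exact h1
  · filter_upwards [h.i1, he] with g h1 h2
    rw [h2.2.1]
    exact h1
  · filter_upwards [h.iE, he] with g h1 h2
    rw [h2.2.2.1]
    exact h1
  · filter_upwards [h.iyE, he] with g h1 h2
    rw [hy, h2.2.2.1]
    exact h1
  · filter_upwards [h.iS, he] with g h1 h2
    rw [h2.2.2.2]
    exact h1
  · obtain ⟨K, hK⟩ := h.b0
    refine ⟨K, ?_⟩
    filter_upwards [hK, he] with g h1 h2
    rw [h2.1]
    exact h1
  · refine h.by0.congr' ?_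
    filter_upwards [he] with g h2
    rw [hy, h2.1]
  · refine h.b1.congr' ?_
    filter_upwards [he] with g h2
    rw [h2.2.1]
  · obtain ⟨K, hK⟩ := h.bE
    refine ⟨K, ?_⟩
    filter_upwards [hK, he] with g h1 h2
    rw [h2.2.2.1]
    exact h1
  · refine h.byE.congr' ?_
    filter_upwards [he] with g h2
    rw [hy, h2.2.2.1]
  · refine h.bS.congr' ?_
    filter_upwards [he] with g h2
    rw [h2.2.2.2]

/-- the sizes, cut at `‖q‖ ≤ r/3` -/
def sizesT (P : TPack C M R G) (X0 : Pos p) (m : ℝ) (α : Fin 16) (χ : Pos p → C.Fx M G)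
    (r : ℝ) : Sizes (Tup C.kk) where
  y q := ‖C.PY q‖
  n0 g := {q : Tup C.kk | ‖q‖ ≤ r / 3}.indicator fun q => ‖omL P X0 g χ q‖
  n1 g := {q : Tup C.kk | ‖q‖ ≤ r / 3}.indicator fun q => ‖fderiv ℝ (omL P X0 g χ) q‖
  nE g := {q : Tup C.kk | ‖q‖ ≤ r / 3}.indicator fun q => ‖rhoE P X0 g α χ q‖
  nS g := {q : Tup C.kk | ‖q‖ ≤ r / 3}.indicator fun q => ‖rhoS P X0 g m α χ q‖

theorem sizesT_supp (P : TPack C M R G) (X0 : Pos p) (m : ℝ) (α : Fin 16)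
    (χ : Pos p → C.Fx M G) (r : ℝ) : (sizesT P X0 m α χ r).Supp {q : Tup C.kk | ‖q‖ ≤ r / 3} := by
  refine Filter.Eventually.of_forall fun g q hq => ?_
  refine ⟨?_, ?_, ?_, ?_⟩
  · exact Set.indicator_of_notMem hq fun q => ‖omL P X0 g χ q‖
  · exact Set.indicator_of_notMem hq fun q => ‖fderiv ℝ (omL P X0 g χ) q‖
  · exact Set.indicator_of_notMem hq fun q => ‖rhoE P X0 g α χ q‖
  · exact Set.indicator_of_notMem hq fun q => ‖rhoS P X0 g m α χ q‖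

variable (P X0) (m : ℝ) (α : Fin 16) {r : ℝ}

theorem sizesT_eq (hr : 0 < r) (hχ : tsupport χ ⊆ Metric.closedBall X0 (r / 4)) :
    ∀ᶠ g in atTop, (sizesT P X0 m α χ r).n0 g = (sizes P X0 m α χ).n0 g ∧
      (sizesT P X0 m α χ r).n1 g = (sizes P X0 m α χ).n1 g ∧
      (sizesT P X0 m α χ r).nE g = (sizes P X0 m α χ).nE g ∧
      (sizesT P X0 m α χ r).nS g = (sizes P X0 m α χ).nS g := by
  filter_upwards [ev_C1 P, P.s_lim.eventually (gt_mem_nhds (show (0 : ℝ) < r / 6 by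
    positivity))] with g hP hg
  have h1 := fun (q : Tup C.kk) (hq : r / 3 < ‖q‖) => out_zero hr hχ hP hg.le hq
  refine ⟨?_, ?_, ?_, ?_⟩
  · refine Set.indicator_eq_self.2 fun q hq => ?_
    by_contra h2
    exact hq (by
      show ‖omL P X0 g χ q‖ = 0
      rw [(h1 q (not_le.1 h2)).1.eq_of_nhds, norm_zero])
  · refine Set.indicator_eq_self.2 fun q hq => ?_
    by_contra h2
    exact hq (by
      show ‖fderiv ℝ (omL P X0 g χ) q‖ = 0
      rw [(h1 q (not_le.1 h2)).1.fderiv_eq, fderiv_fun_const]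
      exact ContinuousLinearMap.opNorm_zero)
  · refine Set.indicator_eq_self.2 fun q hq => ?_
    by_contra h2
    exact hq (by
      show ‖rhoE P X0 g α χ q‖ = 0
      rw [(h1 q (not_le.1 h2)).2.1 α, norm_zero])
  · refine Set.indicator_eq_self.2 fun q hq => ?_
    by_contra h2
    exact hq (by
      show ‖rhoS P X0 g m α χ q‖ = 0
      rw [(h1 q (not_le.1 h2)).2.2 m α, norm_zero])

/-- **The moments of the light line, with the support condition.** -/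
theorem momsT (hr : 0 < r) (hχ : ContDiff ℝ ∞ χ)
    (hχr : tsupport χ ⊆ Metric.closedBall X0 (r / 4)) (hs : ∀ X ∈ tsupport χ, C.BReg X) :
    Moms (volume : Measure (Tup C.kk)) (sizesT P X0 m α χ r) := by
  have hc : HasCompactSupport χ :=
    (isCompact_closedBall X0 (r / 4)).of_isClosed_subset (isClosed_tsupport _) hχr
  refine moms_congr (moms P X0 m α hχ hc hs) rfl (fun g q => ⟨?_, ?_, ?_, ?_⟩)
    (sizesT_eq P X0 m α hr hχr)
  · exact Set.indicator_nonneg (fun _ _ => norm_nonneg _) _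
  · exact Set.indicator_nonneg (fun _ _ => fd_nonneg _) _
  · exact Set.indicator_nonneg (fun _ _ => norm_nonneg _) _
  · exact Set.indicator_nonneg (fun _ _ => norm_nonneg _) _

end supp

end Crest.Agent.R330.LightM916

end
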