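import Crest.Agent.R330.Gam_962
import Crest.Agent.R330.Defs_478

/-!
# Row 330, S5c: linear model at a fuzzy vacuum, part A: gamma matrix identities (helper561)

`q a = Γ γ^a` (`a = 0, 1, 2`), the `16 × 9` matrices `gc α` (columns `γ^j ε_α`), `ga α a`
(entries `γ2 a k α β`), `mc α` (entries `c_k (Γ γ^k)_{αβ}`).
-/

set_option autoImplicit false
set_option linter.unusedSimpArgs false

open Matrix Crest.MathPhysics.MatrixQM Crest.Agent.R330.Gam962 Crest.Agent.R330.Defs478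

namespace Crest.Agent.R330.Lin561

noncomputable section

variable (G : GammaNine)

/-- `q_a = Γ γ^a`. -/
def q (a : Fin 3) : Matrix (Fin 16) (Fin 16) ℝ := Gam G * G.γ (Fin.castLE (by norm_num) a)

theorem castLE0 : (Fin.castLE (by norm_num : 3 ≤ 9) (0 : Fin 3)) = (0 : Fin 9) := rfl
theorem castLE1 : (Fin.castLE (by norm_num : 3 ≤ 9) (1 : Fin 3)) = (1 : Fin 9) := rfl
theorem castLE2 : (Fin.castLE (by norm_num : 3 ≤ 9) (2 : Fin 3)) = (2 : Fin 9) := rfl

theorem g01 : G.γ 1 * G.γ 0 = -(G.γ 0 * G.γ 1) := anti G (by decide)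
theorem g02 : G.γ 2 * G.γ 0 = -(G.γ 0 * G.γ 2) := anti G (by decide)
theorem g12 : G.γ 2 * G.γ 1 = -(G.γ 1 * G.γ 2) := anti G (by decide)

/-- push a generator through: `γ^i (γ^i X) = X`. -/
theorem gg (i : Fin 9) (X : Matrix (Fin 16) (Fin 16) ℝ) : G.γ i * (G.γ i * X) = X := by
  rw [← mul_assoc, sq_one, one_mul]

theorem h10 (X : Matrix (Fin 16) (Fin 16) ℝ) : G.γ 1 * (G.γ 0 * X) = -(G.γ 0 * (G.γ 1 * X)) := by
  rw [← mul_assoc, g01, neg_mul, mul_assoc]
theorem h20 (X : Matrix (Fin 16) (Fin 16) ℝ) : G.γ 2 * (G.γ 0 * X) = -(G.γ 0 * (G.γ 2 * X)) := by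
  rw [← mul_assoc, g02, neg_mul, mul_assoc]
theorem h21 (X : Matrix (Fin 16) (Fin 16) ℝ) : G.γ 2 * (G.γ 1 * X) = -(G.γ 1 * (G.γ 2 * X)) := by
  rw [← mul_assoc, g12, neg_mul, mul_assoc]

theorem q0_eq : q G 0 = G.γ 1 * G.γ 2 := by
  simp only [q, castLE0, Gam, mul_assoc, g02, h20, h10, g01, mul_neg, gg, neg_neg]

theorem q1_eq : q G 1 = -(G.γ 0 * G.γ 2) := by
  simp only [q, castLE1, Gam, mul_assoc, g12, h21, mul_neg, gg]

theorem q2_eq : q G 2 = G.γ 0 * G.γ 1 := by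
  simp only [q, castLE2, Gam, mul_assoc, sq_one, mul_one]

theorem Gam_sq : Gam G * Gam G = -1 := by
  simp only [Gam, mul_assoc, h20, h10, h21, g12, g02, g01, mul_neg, gg, neg_neg, sq_one, mul_one,
    neg_mul, sq_one]

theorem Gam_transpose : (Gam G)ᵀ = -Gam G := by
  rw [Gam, transpose_mul, transpose_mul, G.symm, G.symm, G.symm, ← mul_assoc, g12, neg_mul,
    mul_assoc, g02, mul_neg, h10, neg_neg, mul_assoc]

theorem q_transpose (a : Fin 3) : (q G a)ᵀ = -q G a := by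
  fin_cases a
  · show (q G 0)ᵀ = -q G 0
    rw [q0_eq, transpose_mul, G.symm, G.symm, g12]
  · show (q G 1)ᵀ = -q G 1
    rw [q1_eq, transpose_neg, transpose_mul, G.symm, G.symm, g02]
  · show (q G 2)ᵀ = -q G 2
    rw [q2_eq, transpose_mul, G.symm, G.symm, g01]

theorem q_sq (a : Fin 3) : q G a * q G a = -1 := by
  fin_cases a
  · show q G 0 * q G 0 = -1
    simp only [q0_eq, mul_assoc, h21, mul_neg, gg, sq_one]
  · show q G 1 * q G 1 = -1
    simp only [q1_eq, mul_assoc, h20, mul_neg, neg_mul, neg_neg, gg, sq_one]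
  · show q G 2 * q G 2 = -1
    simp only [q2_eq, mul_assoc, h10, mul_neg, gg, sq_one]

theorem q01 : q G 0 * q G 1 = -q G 2 := by
  simp only [q0_eq, q1_eq, q2_eq, mul_assoc, h20, h10, g01, mul_neg, neg_neg, sq_one, mul_one]
theorem q10 : q G 1 * q G 0 = q G 2 := by
  simp only [q0_eq, q1_eq, q2_eq, mul_assoc, h21, sq_one, mul_one, neg_mul, mul_neg, neg_neg]
theorem q12 : q G 1 * q G 2 = -q G 0 := by
  simp only [q0_eq, q1_eq, q2_eq, mul_assoc, h20, h10, h21, g12, gg, neg_mul, mul_neg, neg_neg]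
theorem q21 : q G 2 * q G 1 = q G 0 := by
  simp only [q0_eq, q1_eq, q2_eq, mul_assoc, h10, gg, mul_neg, neg_neg]
theorem q20 : q G 2 * q G 0 = -q G 1 := by
  simp only [q0_eq, q1_eq, q2_eq, mul_assoc, gg, neg_neg]
theorem q02 : q G 0 * q G 2 = q G 1 := by
  simp only [q0_eq, q1_eq, q2_eq, mul_assoc, h20, h10, g12, gg, mul_neg, neg_neg]

theorem Gam_comm0 : Gam G * G.γ 0 = G.γ 0 * Gam G := by
  have := q0_eq G
  rw [q, castLE0] at this
  rw [this, Gam, mul_assoc, gg]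

theorem Gam_comm1 : Gam G * G.γ 1 = G.γ 1 * Gam G := by
  have := q1_eq G
  rw [q, castLE1] at this
  rw [this, Gam, mul_assoc, h10, gg]

theorem Gam_comm2 : Gam G * G.γ 2 = G.γ 2 * Gam G := by
  have := q2_eq G
  rw [q, castLE2] at this
  rw [this, Gam, mul_assoc, h20, h21, mul_neg, neg_neg, sq_one, mul_one]

theorem Gam_anti {k : Fin 9} (hk : 3 ≤ (k : ℕ)) : Gam G * G.γ k = -(G.γ k * Gam G) := by
  have h0 : G.γ 0 * G.γ k = -(G.γ k * G.γ 0) := anti G (by rintro rfl; simp at hk)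
  have h1 : G.γ 1 * G.γ k = -(G.γ k * G.γ 1) := anti G (by rintro rfl; simp at hk)
  have h2 : G.γ 2 * G.γ k = -(G.γ k * G.γ 2) := anti G (by rintro rfl; simp at hk)
  rw [Gam, mul_assoc, mul_assoc, h2, mul_neg, ← mul_assoc (G.γ 1), h1, neg_mul, neg_neg,
    ← mul_assoc, ← mul_assoc, h0]
  simp only [neg_mul, mul_assoc]

theorem Gam_q (a : Fin 3) : Gam G * q G a = q G a * Gam G := by
  fin_cases a
  · show Gam G * q G 0 = q G 0 * Gam G
    rw [q, castLE0, mul_assoc, Gam_comm0]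
  · show Gam G * q G 1 = q G 1 * Gam G
    rw [q, castLE1, mul_assoc, Gam_comm1]
  · show Gam G * q G 2 = q G 2 * Gam G
    rw [q, castLE2, mul_assoc, Gam_comm2]

/-- `Γ q_a = -γ^a`. -/
theorem Gam_mul_q (a : Fin 3) : Gam G * q G a = -G.γ (Fin.castLE (by norm_num) a) := by
  rw [q, ← mul_assoc, Gam_sq, neg_mul, one_mul]

end

end Crest.Agent.R330.Lin561
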