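import Crest.Agent.R330.IBP_837
import Crest.Agent.R330.Hardy_151
import Crest.Agent.R330.Cliff_442

/-!
# Row 330, S5c/S8-FIB: abstract linear supersymmetric models (helper674)

`LinSys ι κ E V` : configuration space `E` with an orthonormal basis `e`, space of fermion indices
`V`, maps `γ_α : E → V` with `Σ_α ⟨γ_α u, γ_α v⟩ = n₀ ⟨u, v⟩`, an orthogonal complex structure `I`
of `V`, `A = B²` with `B` symmetric, and the cross condition `Σ_α ⟨γ_α u, I γ_α A v⟩ = 0`.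

Charges `Q_α φ (x) = -i Σ_k θ(γ_α e_k) ∂_k φ (x) + θ(I γ_α (A x)) φ (x)` in a module
`M : CRep V F` of the Clifford relations.

* `LinSys.weitz` : `Σ_α ∫ ‖Q_α φ‖² = (n₀/2) (∫ Σ_k ‖∂_k φ‖² + ∫ ‖A x‖² ‖φ‖² - tr A ∫ ‖φ‖²)
   + ½ ∫ Σ_{α,k} ‖b(γ_α B e_k) φ‖²`, `b(v) = θ(v) - i θ(I v)`.
* `LinSys.exact` : `= (n₀/2) ∫ Σ_k ‖∂_k φ + ⟨e_k, A x⟩ φ‖² + ½ ∫ Σ_{α,k} ‖b(γ_α B e_k) φ‖²`.
-/

set_option autoImplicit false
set_option linter.unusedSectionVars false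

open MeasureTheory Filter Topology
open scoped ContDiff InnerProductSpace ENNReal
open Crest.Agent.R330.IBP837 Crest.Agent.R330.Cliff442

noncomputable section

namespace Crest.Agent.R330.LinAbs674

variable {ι κ E V F : Type*} [NormedAddCommGroup E] [InnerProductSpace ℝ E] [FiniteDimensional ℝ E]
  [MeasurableSpace E] [BorelSpace E]
  [NormedAddCommGroup V] [InnerProductSpace ℝ V]
  [NormedAddCommGroup F] [InnerProductSpace ℂ F] [FiniteDimensional ℂ F]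
  {μ : Measure E} [μ.IsAddHaarMeasure]

theorem cont_lin (L : F →ₗ[ℂ] F) : Continuous L := LinearMap.continuous_of_finiteDimensional _

theorem cs_lin (L : F →ₗ[ℂ] F) {f : E → F} (hf : HasCompactSupport f) :
    HasCompactSupport fun x => L (f x) :=
  hf.comp_left (g := L) (map_zero L)

theorem fderiv_lin (L : F →ₗ[ℂ] F) {f : E → F} (hf : Differentiable ℝ f) (x v : E) :
    fderiv ℝ (fun y => L (f y)) x v = L (fderiv ℝ f x v) := by
  have h : HasFDerivAt (fun y => L (f y))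
      (((LinearMap.toContinuousLinearMap L).restrictScalars ℝ).comp (fderiv ℝ f x)) x :=
    ((LinearMap.toContinuousLinearMap L).restrictScalars ℝ).hasFDerivAt.comp x (hf x).hasFDerivAt
  rw [h.fderiv]
  rfl

theorem contDiff_lin (L : F →ₗ[ℂ] F) {n : WithTop ℕ∞} {f : E → F} (hf : ContDiff ℝ n f) :
    ContDiff ℝ n fun y => L (f y) :=
  (((LinearMap.toContinuousLinearMap L).restrictScalars ℝ).contDiff).comp hf

theorem contDiff_pd {φ : E → F} (hφ : ContDiff ℝ 2 φ) (v : E) :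
    ContDiff ℝ 1 fun x => fderiv ℝ φ x v :=
  (hφ.fderiv_right (m := 1) (by norm_num)).clm_apply contDiff_const

/-- the swap `∫ ⟪∂_v φ, L ∂_w φ⟫ = ∫ ⟪∂_w φ, L ∂_v φ⟫`. -/
theorem swap (L : F →ₗ[ℂ] F) {φ : E → F} (hφ : ContDiff ℝ 2 φ) (hc : HasCompactSupport φ)
    (v w : E) :
    ∫ x, ⟪fderiv ℝ φ x v, L (fderiv ℝ φ x w)⟫_ℂ ∂μ =
      ∫ x, ⟪fderiv ℝ φ x w, L (fderiv ℝ φ x v)⟫_ℂ ∂μ := by
  have h1 : ContDiff ℝ 1 φ := hφ.of_le (by norm_num)
  have hd : ∀ u : E, ContDiff ℝ 1 fun x => fderiv ℝ φ x u := contDiff_pd hφ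
  rw [ibp h1 (contDiff_lin L (hd w)) (Or.inl hc) v, ibp h1 (contDiff_lin L (hd v)) (Or.inl hc) w]
  congr 1
  refine integral_congr_ae (Eventually.of_forall fun x => ?_)
  have hs : fderiv ℝ (fun y => fderiv ℝ φ y w) x v = fderiv ℝ (fun y => fderiv ℝ φ y v) x w := by
    have hsym : IsSymmSndFDerivAt ℝ φ x := hφ.contDiffAt.isSymmSndFDerivAt (by simp)
    have hdd : DifferentiableAt ℝ (fderiv ℝ φ) x :=
      (hφ.fderiv_right (m := 1) (by norm_num)).differentiable (by norm_num) x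
    have e : ∀ a c : E, fderiv ℝ (fun y => fderiv ℝ φ y a) x c =
        fderiv ℝ (fderiv ℝ φ) x c a := fun a c => by
      rw [fderiv_clm_apply hdd (differentiableAt_const a)]
      simp
    rw [e, e]
    exact hsym v w
  simp only
  rw [fderiv_lin L ((hd w).differentiable (by norm_num)),
    fderiv_lin L ((hd v).differentiable (by norm_num)), hs]

theorem inner_self_c (x : F) : ⟪x, x⟫_ℂ = ((‖x‖ ^ 2 : ℝ) : ℂ) := by
  rw [inner_self_eq_norm_sq_to_K]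
  norm_cast

theorem thetaSq (M : CRep V F) (v : V) (a : F) :
    M.θ v (M.θ v a) = ((‖v‖ ^ 2 / 2 : ℝ) : ℂ) • a := by
  have h := M.sq_apply v a
  have h2 : M.θ v (M.θ v a) = (1 / 2 : ℂ) • ((2 : ℂ) • M.θ v (M.θ v a)) := by
    rw [smul_smul]; norm_num
  rw [h2, h, smul_smul]
  congr 1
  push_cast; ring

theorem norm_sq_theta (M : CRep V F) (v : V) (a : F) :
    ‖M.θ v a‖ ^ 2 = ‖v‖ ^ 2 / 2 * ‖a‖ ^ 2 := by
  have h : ⟪M.θ v a, M.θ v a⟫_ℂ = ((‖v‖ ^ 2 / 2 : ℝ) : ℂ) * ⟪a, a⟫_ℂ := by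
    rw [M.symm, thetaSq, inner_smul_right]
  rw [inner_self_c, inner_self_c, ← Complex.ofReal_mul] at h
  exact_mod_cast h

/-- The Clifford map, real linear. -/
def thL (M : CRep V F) : V →ₗ[ℝ] Module.End ℂ F where
  toFun := M.θ
  map_add' := M.add
  map_smul' r u := by
    rw [M.smul]
    ext v
    simp only [LinearMap.smul_apply, RingHom.id_apply]
    exact Complex.coe_smul r (M.θ u v)

/-! ## The first order part -/

section kin

variable [Fintype κ]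

/-- the first order part -/
def kp (M : CRep V F) (e : κ → E) (u : κ → V) (φ : E → F) (x : E) : F :=
  ∑ k, (-Complex.I) • M.θ (u k) (fderiv ℝ φ x (e k))

theorem continuous_kp {M : CRep V F} {e : κ → E} {u : κ → V} {φ : E → F} (hφ : ContDiff ℝ 1 φ) :
    Continuous (kp M e u φ) := by
  unfold kp
  exact continuous_finsetSum _ fun k _ => Continuous.const_smul
    ((cont_lin _).comp (fderiv_apply_continuous hφ _)) _

theorem cs_kp {M : CRep V F} {e : κ → E} {u : κ → V} {φ : E → F} (hc : HasCompactSupport φ) :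
    HasCompactSupport (kp M e u φ) := by
  refine (hc.fderiv (𝕜 := ℝ)).mono' fun x hx => subset_tsupport _ fun h0 => hx ?_
  simp [kp, h0]

theorem kin_one {M : CRep V F} {e : κ → E} {u : κ → V} {φ : E → F} (hφ : ContDiff ℝ 2 φ)
    (hc : HasCompactSupport φ) :
    (2 : ℂ) * ∫ x, ⟪kp M e u φ x, kp M e u φ x⟫_ℂ ∂μ =
      ∑ k, ∑ l, ((⟪u k, u l⟫_ℝ : ℝ) : ℂ) *
        ∫ x, ⟪fderiv ℝ φ x (e k), fderiv ℝ φ x (e l)⟫_ℂ ∂μ := by
  set P : κ → E → F := fun k x => fderiv ℝ φ x (e k) with hP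
  have h1 : ContDiff ℝ 1 φ := hφ.of_le (by norm_num)
  have hPc : ∀ k, Continuous (P k) := fun k => fderiv_apply_continuous h1 _
  have hPs : ∀ k, HasCompactSupport (P k) := fun k => hasCompactSupport_fderiv_apply hc _
  have hint : ∀ (L : F →ₗ[ℂ] F) (k l), Integrable (fun x => ⟪P k x, L (P l x)⟫_ℂ) μ :=
    fun L k l =>
    integrable_inner_of_cont (hPc k) ((cont_lin L).comp (hPc l)) (Or.inl (hPs k))
  have e1 : ∫ x, ⟪kp M e u φ x, kp M e u φ x⟫_ℂ ∂μ =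
      ∑ k, ∑ l, ∫ x, ⟪P k x, M.θ (u k) (M.θ (u l) (P l x))⟫_ℂ ∂μ := by
    have e : ∀ x, ⟪kp M e u φ x, kp M e u φ x⟫_ℂ =
        ∑ k, ∑ l, ⟪P k x, M.θ (u k) (M.θ (u l) (P l x))⟫_ℂ := by
      intro x
      have e0 : kp M e u φ x = (-Complex.I) • ∑ k, M.θ (u k) (P k x) := by
        simp only [kp, Finset.smul_sum, hP]
      rw [e0, inner_smul_left, inner_smul_right, ← mul_assoc]
      have e00 : (starRingEnd ℂ) (-Complex.I) * (-Complex.I) = 1 := by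
        simp
      rw [e00, one_mul, sum_inner]
      refine Finset.sum_congr rfl fun k _ => ?_
      rw [inner_sum]
      exact Finset.sum_congr rfl fun l _ => M.symm (u k) _ _
    simp only [e]
    rw [integral_finsetSum]
    · refine Finset.sum_congr rfl fun k _ => ?_
      rw [integral_finsetSum]
      intro l _
      exact hint (M.θ (u k) ∘ₗ M.θ (u l)) k l
    · intro k _
      exact integrable_finsetSum _ fun l _ => hint (M.θ (u k) ∘ₗ M.θ (u l)) k l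
  rw [two_mul]
  nth_rewrite 2 [e1]
  rw [e1]
  have e3 : ∑ k, ∑ l, ∫ x, ⟪P k x, M.θ (u k) (M.θ (u l) (P l x))⟫_ℂ ∂μ =
      ∑ k, ∑ l, ∫ x, ⟪P k x, M.θ (u l) (M.θ (u k) (P l x))⟫_ℂ ∂μ := by
    rw [Finset.sum_comm]
    refine Finset.sum_congr rfl fun l _ => Finset.sum_congr rfl fun k _ => ?_
    exact swap (M.θ (u k) ∘ₗ M.θ (u l)) hφ hc _ _
  nth_rewrite 2 [e3]
  rw [← Finset.sum_add_distrib]
  refine Finset.sum_congr rfl fun k _ => ?_
  rw [← Finset.sum_add_distrib]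
  refine Finset.sum_congr rfl fun l _ => ?_
  have e6 := integral_add (hint (M.θ (u k) ∘ₗ M.θ (u l)) k l)
    (hint (M.θ (u l) ∘ₗ M.θ (u k)) k l)
  simp only [LinearMap.comp_apply] at e6
  rw [← e6, ← integral_const_mul]
  refine integral_congr_ae (Eventually.of_forall fun x => ?_)
  simp only
  rw [← inner_add_right, M.anti_apply, inner_smul_right]

/-- the kinetic term -/
theorem kin_int [DecidableEq κ] [Fintype ι] {M : CRep V F} {e : κ → E} {u : ι → κ → V} {n₀ : ℝ}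
    (hu : ∀ k l, ∑ α, ⟪u α k, u α l⟫_ℝ = if k = l then n₀ else 0)
    {φ : E → F} (hφ : ContDiff ℝ 2 φ) (hc : HasCompactSupport φ) :
    ∑ α, ∫ x, ⟪kp M e (u α) φ x, kp M e (u α) φ x⟫_ℂ ∂μ =
      ((n₀ / 2 : ℝ) : ℂ) * ∑ k, ∫ x, ⟪fderiv ℝ φ x (e k), fderiv ℝ φ x (e k)⟫_ℂ ∂μ := by
  have e4 : (2 : ℂ) * ∑ α, ∫ x, ⟪kp M e (u α) φ x, kp M e (u α) φ x⟫_ℂ ∂μ =
      (n₀ : ℂ) * ∑ k, ∫ x, ⟪fderiv ℝ φ x (e k), fderiv ℝ φ x (e k)⟫_ℂ ∂μ := by
    rw [Finset.mul_sum, Finset.sum_congr rfl fun α _ => kin_one hφ hc, Finset.sum_comm,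
      Finset.mul_sum]
    refine Finset.sum_congr rfl fun k _ => ?_
    rw [Finset.sum_comm, Finset.sum_eq_single k]
    · rw [← Finset.sum_mul, ← Complex.ofReal_sum, hu, if_pos rfl]
    · intro l _ hl
      rw [← Finset.sum_mul, ← Complex.ofReal_sum, hu, if_neg (Ne.symm hl)]
      simp
    · intro h; exact absurd (Finset.mem_univ _) h
  have e5 : ∑ α, ∫ x, ⟪kp M e (u α) φ x, kp M e (u α) φ x⟫_ℂ ∂μ =
      (1 / 2 : ℂ) * ((2 : ℂ) * ∑ α, ∫ x, ⟪kp M e (u α) φ x, kp M e (u α) φ x⟫_ℂ ∂μ) := by ring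
  rw [e5, e4]
  push_cast
  ring

end kin

/-! ## The zero order part -/

section cross

/-- `(x, f) ↦ θ(w x) f` as a continuous bilinear map. -/
def twC (M : CRep V F) (w : E →ₗ[ℝ] V) : E →L[ℝ] F →L[ℝ] F :=
  LinearMap.toContinuousLinearMap
    { toFun := fun x => (LinearMap.toContinuousLinearMap (M.θ (w x))).restrictScalars ℝ
      map_add' := fun x y => by
        ext f
        change M.θ (w (x + y)) f = M.θ (w x) f + M.θ (w y) f
        rw [map_add, M.add, LinearMap.add_apply]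
      map_smul' := fun r x => by
        ext f
        change M.θ (w (r • x)) f = r • M.θ (w x) f
        rw [map_smul, M.smul, LinearMap.smul_apply, Complex.coe_smul] }

theorem twC_apply (M : CRep V F) (w : E →ₗ[ℝ] V) (x : E) (f : F) :
    twC M w x f = M.θ (w x) f := rfl

variable {M : CRep V F} {φ : E → F}

theorem continuous_tw (w : E →ₗ[ℝ] V) {f : E → F} (hf : Continuous f) :
    Continuous fun x => M.θ (w x) (f x) :=
  ((twC M w).continuous).clm_apply hf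

theorem contDiff_tw (w : E →ₗ[ℝ] V) {n : WithTop ℕ∞} {f : E → F} (hf : ContDiff ℝ n f) :
    ContDiff ℝ n fun x => M.θ (w x) (f x) :=
  ((twC M w).contDiff).clm_apply hf

theorem cs_tw (w : E →ₗ[ℝ] V) {f : E → F} (hc : HasCompactSupport f) :
    HasCompactSupport fun x => M.θ (w x) (f x) :=
  hc.mono fun x hx h0 => hx (by
    have : f x = 0 := h0
    simp [this])

theorem fderiv_tw (w : E →ₗ[ℝ] V) {f : E → F} (hf : Differentiable ℝ f) (x v : E) :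
    fderiv ℝ (fun x => M.θ (w x) (f x)) x v = M.θ (w v) (f x) + M.θ (w x) (fderiv ℝ f x v) := by
  have h : HasFDerivAt (fun x => twC M w x (f x)) _ x :=
    ((twC M w).hasFDerivAt (x := x)).clm_apply (hf x).hasFDerivAt
  have h2 : (fun x => M.θ (w x) (f x)) = fun x => twC M w x (f x) := rfl
  rw [h2, h.fderiv]
  simp only [add_apply, ContinuousLinearMap.comp_apply,
    ContinuousLinearMap.flip_apply, twC_apply]
  abel

/-- the potential term -/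
theorem tw_inner (w : E →ₗ[ℝ] V) (x : E) (a : F) :
    ⟪M.θ (w x) a, M.θ (w x) a⟫_ℂ = ((‖w x‖ ^ 2 / 2 : ℝ) : ℂ) * ⟪a, a⟫_ℂ := by
  rw [M.symm, thetaSq, inner_smul_right]

/-- the cross term of one component, one direction -/
theorem cross_one (hφ : ContDiff ℝ 1 φ) (hc : HasCompactSupport φ) (w : E →ₗ[ℝ] V) (u : V)
    (e : E) :
    (∫ x, ⟪(-Complex.I) • M.θ u (fderiv ℝ φ x e), M.θ (w x) (φ x)⟫_ℂ ∂μ) +
      ∫ x, ⟪M.θ (w x) (φ x), (-Complex.I) • M.θ u (fderiv ℝ φ x e)⟫_ℂ ∂μ =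
    (∫ x, ⟪φ x, (-Complex.I) • M.θ u (M.θ (w e) (φ x))⟫_ℂ ∂μ) +
      ∫ x, ((⟪u, w x⟫_ℝ : ℝ) : ℂ) * ⟪φ x, (-Complex.I) • fderiv ℝ φ x e⟫_ℂ ∂μ := by
  set P : E → F := fun x => fderiv ℝ φ x e with hP
  have hPc : Continuous P := fderiv_apply_continuous hφ _
  have hWd : ContDiff ℝ 1 (fun x => M.θ (w x) (φ x)) := contDiff_tw w hφ
  have eA : ∫ x, ⟪(-Complex.I) • M.θ u (P x), M.θ (w x) (φ x)⟫_ℂ ∂μ =
      Complex.I * ∫ x, ⟪P x, M.θ u (M.θ (w x) (φ x))⟫_ℂ ∂μ := by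
    rw [← integral_const_mul]
    refine integral_congr_ae (Eventually.of_forall fun x => ?_)
    simp only
    rw [inner_smul_left, M.symm]
    simp
  have i1 : Integrable (fun x => ⟪φ x, M.θ u (M.θ (w e) (φ x))⟫_ℂ) μ :=
    integrable_inner_of_cont hφ.continuous
      ((cont_lin _).comp ((cont_lin _).comp hφ.continuous)) (Or.inl hc)
  have i2 : Integrable (fun x => ⟪φ x, M.θ u (M.θ (w x) (P x))⟫_ℂ) μ :=
    integrable_inner_of_cont hφ.continuous ((cont_lin _).comp (continuous_tw w hPc)) (Or.inl hc)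
  have i3 : Integrable (fun x => ⟪φ x, M.θ (w x) (M.θ u (P x))⟫_ℂ) μ :=
    integrable_inner_of_cont hφ.continuous (continuous_tw w ((cont_lin _).comp hPc)) (Or.inl hc)
  have eI : ∫ x, ⟪P x, M.θ u (M.θ (w x) (φ x))⟫_ℂ ∂μ =
      -((∫ x, ⟪φ x, M.θ u (M.θ (w e) (φ x))⟫_ℂ ∂μ) +
        ∫ x, ⟪φ x, M.θ u (M.θ (w x) (P x))⟫_ℂ ∂μ) := by
    rw [hP]
    simp only
    rw [ibp hφ (contDiff_lin _ hWd) (Or.inl hc)]
    congr 1
    rw [← integral_add i1 i2]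
    refine integral_congr_ae (Eventually.of_forall fun x => ?_)
    simp only
    rw [fderiv_lin _ (hWd.differentiable one_ne_zero), fderiv_tw w (hφ.differentiable one_ne_zero),
      map_add, inner_add_right]
  have eB : ∫ x, ⟪M.θ (w x) (φ x), (-Complex.I) • M.θ u (P x)⟫_ℂ ∂μ =
      (-Complex.I) * ∫ x, ⟪φ x, M.θ (w x) (M.θ u (P x))⟫_ℂ ∂μ := by
    rw [← integral_const_mul]
    refine integral_congr_ae (Eventually.of_forall fun x => ?_)
    simp only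
    rw [inner_smul_right, M.symm]
  have eC : ∫ x, ⟪φ x, (-Complex.I) • M.θ u (M.θ (w e) (φ x))⟫_ℂ ∂μ =
      (-Complex.I) * ∫ x, ⟪φ x, M.θ u (M.θ (w e) (φ x))⟫_ℂ ∂μ := by
    rw [← integral_const_mul]
    refine integral_congr_ae (Eventually.of_forall fun x => ?_)
    simp only
    rw [inner_smul_right]
  have eD : ∫ x, ((⟪u, w x⟫_ℝ : ℝ) : ℂ) * ⟪φ x, (-Complex.I) • P x⟫_ℂ ∂μ =
      (-Complex.I) * ((∫ x, ⟪φ x, M.θ u (M.θ (w x) (P x))⟫_ℂ ∂μ) +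
        ∫ x, ⟪φ x, M.θ (w x) (M.θ u (P x))⟫_ℂ ∂μ) := by
    rw [← integral_add i2 i3, ← integral_const_mul]
    refine integral_congr_ae (Eventually.of_forall fun x => ?_)
    simp only
    rw [← inner_add_right, M.anti_apply, inner_smul_right, inner_smul_right]
    ring
  change (∫ x, ⟪(-Complex.I) • M.θ u (P x), M.θ (w x) (φ x)⟫_ℂ ∂μ) +
      (∫ x, ⟪M.θ (w x) (φ x), (-Complex.I) • M.θ u (P x)⟫_ℂ ∂μ) =
    (∫ x, ⟪φ x, (-Complex.I) • M.θ u (M.θ (w e) (φ x))⟫_ℂ ∂μ) +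
      ∫ x, ((⟪u, w x⟫_ℝ : ℝ) : ℂ) * ⟪φ x, (-Complex.I) • P x⟫_ℂ ∂μ
  rw [eA, eI, eB, eC, eD]
  ring

/-- **The energy identity of linear charges**, complex form. -/
theorem weitz_c [Fintype ι] [Fintype κ] [DecidableEq κ] {e : κ → E} {u : ι → κ → V} {n₀ : ℝ}
    {w : ι → E →ₗ[ℝ] V}
    (hu : ∀ k l, ∑ α, ⟪u α k, u α l⟫_ℝ = if k = l then n₀ else 0)
    (hT : ∀ k x, ∑ α, ⟪u α k, w α x⟫_ℝ = 0)
    (hφ : ContDiff ℝ 2 φ) (hc : HasCompactSupport φ) :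
    ∑ α, ∫ x, ⟪kp M e (u α) φ x + M.θ (w α x) (φ x), kp M e (u α) φ x + M.θ (w α x) (φ x)⟫_ℂ ∂μ =
      ((n₀ / 2 : ℝ) : ℂ) * (∑ k, ∫ x, ⟪fderiv ℝ φ x (e k), fderiv ℝ φ x (e k)⟫_ℂ ∂μ) +
      (∫ x, (((∑ α, ‖w α x‖ ^ 2) / 2 : ℝ) : ℂ) * ⟪φ x, φ x⟫_ℂ ∂μ) +
      ∫ x, ⟪φ x, ∑ α, ∑ k, (-Complex.I) • M.θ (u α k) (M.θ (w α (e k)) (φ x))⟫_ℂ ∂μ := by
  have h1 : ContDiff ℝ 1 φ := hφ.of_le (by norm_num)
  have ck : ∀ α, Continuous (kp M e (u α) φ) := fun α => continuous_kp h1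
  have sk : ∀ α, HasCompactSupport (kp M e (u α) φ) := fun α => cs_kp hc
  have cw : ∀ α, Continuous (fun x => M.θ (w α x) (φ x)) := fun α =>
    continuous_tw (w α) h1.continuous
  have sw : ∀ α, HasCompactSupport (fun x => M.θ (w α x) (φ x)) := fun α => cs_tw (w α) hc
  have e1 : ∀ α, ∫ x, ⟪kp M e (u α) φ x + M.θ (w α x) (φ x),
      kp M e (u α) φ x + M.θ (w α x) (φ x)⟫_ℂ ∂μ =
      (∫ x, ⟪kp M e (u α) φ x, kp M e (u α) φ x⟫_ℂ ∂μ) +
        (∫ x, ⟪M.θ (w α x) (φ x), M.θ (w α x) (φ x)⟫_ℂ ∂μ) +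
        ((∫ x, ⟪kp M e (u α) φ x, M.θ (w α x) (φ x)⟫_ℂ ∂μ) +
          ∫ x, ⟪M.θ (w α x) (φ x), kp M e (u α) φ x⟫_ℂ ∂μ) := by
    intro α
    have i1 := integrable_inner_of_cont (μ := μ) (ck α) (ck α) (Or.inl (sk α))
    have i2 := integrable_inner_of_cont (μ := μ) (cw α) (cw α) (Or.inl (sw α))
    have i3 := integrable_inner_of_cont (μ := μ) (ck α) (cw α) (Or.inl (sk α))
    have i4 := integrable_inner_of_cont (μ := μ) (cw α) (ck α) (Or.inl (sw α))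
    have e6 := integral_add (i1.add i2) (i3.add i4)
    simp only [Pi.add_apply] at e6
    rw [← integral_add i1 i2, ← integral_add i3 i4, ← e6]
    refine integral_congr_ae (Eventually.of_forall fun x => ?_)
    simp only [inner_add_left, inner_add_right]
    ring
  have e2 : ∀ α, (∫ x, ⟪kp M e (u α) φ x, M.θ (w α x) (φ x)⟫_ℂ ∂μ) +
        (∫ x, ⟪M.θ (w α x) (φ x), kp M e (u α) φ x⟫_ℂ ∂μ) =
      (∑ k, ∫ x, ⟪φ x, (-Complex.I) • M.θ (u α k) (M.θ (w α (e k)) (φ x))⟫_ℂ ∂μ) +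
      ∑ k, ∫ x, ((⟪u α k, w α x⟫_ℝ : ℝ) : ℂ) * ⟪φ x, (-Complex.I) • fderiv ℝ φ x (e k)⟫_ℂ ∂μ := by
    intro α
    have j1 : ∀ k, Integrable (fun x =>
        ⟪(-Complex.I) • M.θ (u α k) (fderiv ℝ φ x (e k)), M.θ (w α x) (φ x)⟫_ℂ) μ := fun k =>
      integrable_inner_of_cont (Continuous.const_smul
        ((cont_lin _).comp (fderiv_apply_continuous h1 _)) _) (cw α) (Or.inr (sw α))
    have j2 : ∀ k, Integrable (fun x =>
        ⟪M.θ (w α x) (φ x), (-Complex.I) • M.θ (u α k) (fderiv ℝ φ x (e k))⟫_ℂ) μ := fun k =>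
      integrable_inner_of_cont (cw α) (Continuous.const_smul
        ((cont_lin _).comp (fderiv_apply_continuous h1 _)) _) (Or.inl (sw α))
    have a1 : ∫ x, ⟪kp M e (u α) φ x, M.θ (w α x) (φ x)⟫_ℂ ∂μ = ∑ k, ∫ x,
        ⟪(-Complex.I) • M.θ (u α k) (fderiv ℝ φ x (e k)), M.θ (w α x) (φ x)⟫_ℂ ∂μ := by
      rw [← integral_finsetSum _ fun k _ => j1 k]
      refine integral_congr_ae (Eventually.of_forall fun x => ?_)
      simp only [kp, sum_inner]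
    have a2 : ∫ x, ⟪M.θ (w α x) (φ x), kp M e (u α) φ x⟫_ℂ ∂μ = ∑ k, ∫ x,
        ⟪M.θ (w α x) (φ x), (-Complex.I) • M.θ (u α k) (fderiv ℝ φ x (e k))⟫_ℂ ∂μ := by
      rw [← integral_finsetSum _ fun k _ => j2 k]
      refine integral_congr_ae (Eventually.of_forall fun x => ?_)
      simp only [kp, inner_sum]
    rw [a1, a2, ← Finset.sum_add_distrib, ← Finset.sum_add_distrib]
    exact Finset.sum_congr rfl fun k _ => cross_one h1 hc (w α) (u α k) (e k)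
  have e3 : ∑ α, ∑ k, ∫ x, ((⟪u α k, w α x⟫_ℝ : ℝ) : ℂ) *
      ⟪φ x, (-Complex.I) • fderiv ℝ φ x (e k)⟫_ℂ ∂μ = 0 := by
    rw [Finset.sum_comm]
    refine Finset.sum_eq_zero fun k _ => ?_
    rw [← integral_finsetSum]
    · have : ∀ x, ∑ α, ((⟪u α k, w α x⟫_ℝ : ℝ) : ℂ) *
          ⟪φ x, (-Complex.I) • fderiv ℝ φ x (e k)⟫_ℂ = 0 := by
        intro x
        rw [← Finset.sum_mul, ← Complex.ofReal_sum, hT k x]
        simp
      simp only [this, integral_zero]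
    · intro α _
      have hcont : Continuous fun x => ((⟪u α k, w α x⟫_ℝ : ℝ) : ℂ) := by
        refine Complex.continuous_ofReal.comp ?_
        let L : E →ₗ[ℝ] ℝ := (innerₛₗ ℝ (u α k)).comp (w α)
        exact LinearMap.continuous_of_finiteDimensional L
      refine (hcont.mul (h1.continuous.inner (Continuous.const_smul
        (fderiv_apply_continuous h1 _) _))).integrable_of_hasCompactSupport ?_
      refine hc.mono fun x hx h0 => hx ?_
      have h00 : φ x = 0 := h0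
      simp [h00]
  have e4 : ∑ α, ∑ k, ∫ x, ⟪φ x, (-Complex.I) • M.θ (u α k) (M.θ (w α (e k)) (φ x))⟫_ℂ ∂μ =
      ∫ x, ⟪φ x, ∑ α, ∑ k, (-Complex.I) • M.θ (u α k) (M.θ (w α (e k)) (φ x))⟫_ℂ ∂μ := by
    have j : ∀ α k, Integrable (fun x =>
        ⟪φ x, (-Complex.I) • M.θ (u α k) (M.θ (w α (e k)) (φ x))⟫_ℂ) μ := fun α k =>
      integrable_inner_of_cont h1.continuous (Continuous.const_smul ((cont_lin _).comp
        ((cont_lin _).comp h1.continuous)) _) (Or.inl hc)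
    simp only [inner_sum]
    rw [integral_finsetSum _ fun α _ => integrable_finsetSum _ fun k _ => j α k]
    exact Finset.sum_congr rfl fun α _ => (integral_finsetSum _ fun k _ => j α k).symm
  have e5 : ∑ α, ∫ x, ⟪M.θ (w α x) (φ x), M.θ (w α x) (φ x)⟫_ℂ ∂μ =
      ∫ x, (((∑ α, ‖w α x‖ ^ 2) / 2 : ℝ) : ℂ) * ⟪φ x, φ x⟫_ℂ ∂μ := by
    rw [← integral_finsetSum _ fun α _ => integrable_inner_of_cont (cw α) (cw α) (Or.inl (sw α))]
    refine integral_congr_ae (Eventually.of_forall fun x => ?_)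
    simp only [tw_inner]
    rw [← Finset.sum_mul, ← Complex.ofReal_sum, ← Finset.sum_div]
  simp only [e1, e2, Finset.sum_add_distrib, e3, e4, e5, add_zero, kin_int hu hφ hc]

end cross

/-! ## Linear supersymmetric systems -/

/-- Data of a linear supersymmetric model. -/
structure LinSys (ι κ E V : Type*) [Fintype ι] [Fintype κ] [NormedAddCommGroup E]
    [InnerProductSpace ℝ E] [NormedAddCommGroup V] [InnerProductSpace ℝ V] where
  /-- an orthonormal basis of the configuration space -/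
  e : OrthonormalBasis κ ℝ E
  /-- the maps `γ_α` -/
  γ : ι → E →ₗ[ℝ] V
  /-- the normalisation -/
  n₀ : ℝ
  hγ : ∀ u v, ∑ α, ⟪γ α u, γ α v⟫_ℝ = n₀ * ⟪u, v⟫_ℝ
  /-- the complex structure -/
  I : V →ₗ[ℝ] V
  hI : ∀ u v, ⟪I u, I v⟫_ℝ = ⟪u, v⟫_ℝ
  hI2 : ∀ v, I (I v) = -v
  /-- the frequencies -/
  A : E →ₗ[ℝ] E
  /-- the square root of the frequencies -/
  B : E →ₗ[ℝ] E
  hB : ∀ x y, ⟪B x, y⟫_ℝ = ⟪x, B y⟫_ℝ
  hAB : ∀ x, B (B x) = A x
  hX : ∀ u v, ∑ α, ⟪γ α u, I (γ α (A v))⟫_ℝ = 0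

namespace LinSys

variable [Fintype ι] [Fintype κ] (S : LinSys ι κ E V)

theorem I_skew (u v : V) : ⟪S.I u, v⟫_ℝ = -⟪u, S.I v⟫_ℝ := by
  have h := S.hI u (S.I v)
  rw [S.hI2, inner_neg_right] at h
  linarith

theorem inner_I_self (v : V) : ⟪v, S.I v⟫_ℝ = 0 := by
  have h := S.I_skew v v
  rw [real_inner_comm] at h
  linarith

/-- `b(v) = θ(v) - i θ(I v)`. -/
def b (M : CRep V F) (v : V) : F →ₗ[ℂ] F := M.θ v - Complex.I • M.θ (S.I v)

theorem b_apply (M : CRep V F) (v : V) (a : F) :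
    S.b M v a = M.θ v a - Complex.I • M.θ (S.I v) a := rfl

theorem b_add (M : CRep V F) (u v : V) : S.b M (u + v) = S.b M u + S.b M v := by
  unfold b
  rw [map_add, M.add, M.add, smul_add]
  abel

theorem b_smul (M : CRep V F) (c : ℝ) (v : V) : S.b M (c • v) = (c : ℂ) • S.b M v := by
  unfold b
  rw [map_smul, M.smul, M.smul, smul_sub, smul_comm]

theorem b_I (M : CRep V F) (v : V) : S.b M (S.I v) = Complex.I • S.b M v := by
  unfold b
  rw [S.hI2, M.neg, smul_sub, smul_smul, Complex.I_mul_I]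
  simp only [smul_neg, neg_smul, one_smul]
  abel

/-- `‖b(v) a‖² = ‖v‖² ‖a‖² + 2 Re ⟨a, -i θ(v) θ(I v) a⟩`. -/
theorem norm_sq_b (M : CRep V F) (v : V) (a : F) :
    ‖S.b M v a‖ ^ 2 = ‖v‖ ^ 2 * ‖a‖ ^ 2 +
      2 * (⟪a, (-Complex.I) • M.θ v (M.θ (S.I v) a)⟫_ℂ).re := by
  have h1 : ‖S.b M v a‖ ^ 2 = ‖M.θ v a‖ ^ 2 -
      2 * (⟪M.θ v a, Complex.I • M.θ (S.I v) a⟫_ℂ).re + ‖Complex.I • M.θ (S.I v) a‖ ^ 2 := by
    rw [b_apply]
    exact norm_sub_sq (𝕜 := ℂ) _ _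
  have h2 : ‖Complex.I • M.θ (S.I v) a‖ ^ 2 = ‖M.θ (S.I v) a‖ ^ 2 := by
    rw [norm_smul]
    simp
  have h3 : ⟪a, (-Complex.I) • M.θ v (M.θ (S.I v) a)⟫_ℂ =
      -⟪M.θ v a, Complex.I • M.θ (S.I v) a⟫_ℂ := by
    rw [inner_smul_right, inner_smul_right, M.symm]
    ring
  have h4 : ‖S.I v‖ ^ 2 = ‖v‖ ^ 2 := by
    rw [← real_inner_self_eq_norm_sq, ← real_inner_self_eq_norm_sq, S.hI]
  rw [h1, h2, h3, norm_sq_theta, norm_sq_theta, h4, Complex.neg_re]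
  ring

/-- The charges. -/
def q (M : CRep V F) (α : ι) (φ : E → F) (x : E) : F :=
  (∑ k, (-Complex.I) • M.θ (S.γ α (S.e k)) (fderiv ℝ φ x (S.e k))) +
    M.θ (S.I (S.γ α (S.A x))) (φ x)

/-- The sum of the squares of the annihilation operators. -/
def ns (M : CRep V F) (a : F) : ℝ := ∑ α, ∑ k, ‖S.b M (S.γ α (S.B (S.e k))) a‖ ^ 2

/-- The trace of `A`. -/
def tr : ℝ := ∑ k, ‖S.B (S.e k)‖ ^ 2

theorem tr_eq : S.tr = ∑ k, ⟪S.e k, S.A (S.e k)⟫_ℝ := by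
  unfold tr
  refine Finset.sum_congr rfl fun k _ => ?_
  rw [← real_inner_self_eq_norm_sq, S.hB, S.hAB]

theorem trace_frame {X : Type*} [AddCommGroup X] [Module ℝ X] (T : E →ₗ[ℝ] E →ₗ[ℝ] X) :
    ∑ k, T (S.e k) (S.A (S.e k)) = ∑ k, T (S.B (S.e k)) (S.B (S.e k)) := by
  have h1 : ∀ k, T (S.e k) (S.A (S.e k)) =
      ∑ l, ⟪S.e l, S.B (S.e k)⟫_ℝ • T (S.e k) (S.B (S.e l)) := by
    intro k
    rw [← S.hAB]
    conv_lhs => rw [← S.e.sum_repr' (S.B (S.e k))]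
    rw [map_sum, map_sum]
    exact Finset.sum_congr rfl fun l _ => by rw [map_smul, map_smul]
  have h2 : ∀ l, T (S.B (S.e l)) (S.B (S.e l)) =
      ∑ k, ⟪S.e k, S.B (S.e l)⟫_ℝ • T (S.e k) (S.B (S.e l)) := by
    intro l
    conv_lhs => rw [show T (S.B (S.e l)) (S.B (S.e l)) =
      T (∑ k, ⟪S.e k, S.B (S.e l)⟫_ℝ • S.e k) (S.B (S.e l)) by rw [S.e.sum_repr']]
    rw [map_sum, LinearMap.sum_apply]
    exact Finset.sum_congr rfl fun k _ => by rw [map_smul, LinearMap.smul_apply]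
  simp only [h1, h2]
  rw [Finset.sum_comm]
  refine Finset.sum_congr rfl fun l _ => Finset.sum_congr rfl fun k _ => ?_
  congr 1
  rw [real_inner_comm, S.hB]

/-- The bilinear expression of the Yukawa operator. -/
def yuk (M : CRep V F) (α : ι) (a : F) : E →ₗ[ℝ] E →ₗ[ℝ] F :=
  LinearMap.mk₂ ℝ (fun u v => (-Complex.I) • M.θ (S.γ α u) (M.θ (S.I (S.γ α v)) a))
    (fun u u' v => by simp only [map_add, M.add, LinearMap.add_apply, smul_add])
    (fun c u v => by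
      simp only [map_smul, M.smul, LinearMap.smul_apply]
      rw [smul_comm, Complex.coe_smul])
    (fun u v v' => by simp only [map_add, M.add, LinearMap.add_apply, smul_add])
    (fun c u v => by
      simp only [map_smul, M.smul, LinearMap.smul_apply]
      rw [smul_comm, Complex.coe_smul])

theorem yuk_apply (M : CRep V F) (α : ι) (a : F) (u v : E) :
    S.yuk M α a u v = (-Complex.I) • M.θ (S.γ α u) (M.θ (S.I (S.γ α v)) a) := rfl

/-- The Yukawa operator through the annihilation operators. -/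
theorem yuk_re (M : CRep V F) (a : F) :
    (⟪a, ∑ α, ∑ k, (-Complex.I) • M.θ (S.γ α (S.e k))
      (M.θ (S.I (S.γ α (S.A (S.e k)))) a)⟫_ℂ).re =
      1 / 2 * S.ns M a - S.n₀ / 2 * S.tr * ‖a‖ ^ 2 := by
  have h1 : ∑ α, ∑ k, (-Complex.I) • M.θ (S.γ α (S.e k)) (M.θ (S.I (S.γ α (S.A (S.e k)))) a) =
      ∑ α, ∑ k, (-Complex.I) • M.θ (S.γ α (S.B (S.e k)))
        (M.θ (S.I (S.γ α (S.B (S.e k)))) a) :=
    Finset.sum_congr rfl fun α _ => S.trace_frame (S.yuk M α a)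
  rw [h1, inner_sum, Complex.re_sum]
  have h2 : ∀ α, (⟪a, ∑ k, (-Complex.I) • M.θ (S.γ α (S.B (S.e k)))
        (M.θ (S.I (S.γ α (S.B (S.e k)))) a)⟫_ℂ).re =
      ∑ k, (1 / 2 * ‖S.b M (S.γ α (S.B (S.e k))) a‖ ^ 2 -
          1 / 2 * (‖S.γ α (S.B (S.e k))‖ ^ 2 * ‖a‖ ^ 2)) := by
    intro α
    rw [inner_sum, Complex.re_sum]
    refine Finset.sum_congr rfl fun k _ => ?_
    have e := S.norm_sq_b M (S.γ α (S.B (S.e k))) a
    linarith
  have h3 : ∑ α, ∑ k, ‖S.γ α (S.B (S.e k))‖ ^ 2 = S.n₀ * S.tr := by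
    unfold tr
    rw [Finset.sum_comm, Finset.mul_sum]
    refine Finset.sum_congr rfl fun k _ => ?_
    have := S.hγ (S.B (S.e k)) (S.B (S.e k))
    simpa only [real_inner_self_eq_norm_sq] using this
  simp only [h2, Finset.sum_sub_distrib, ← Finset.mul_sum, ← Finset.sum_mul, h3]
  unfold ns
  ring

theorem continuous_ns (M : CRep V F) : Continuous (S.ns M) := by
  unfold ns
  exact continuous_finsetSum _ fun α _ => continuous_finsetSum _ fun k _ =>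
    ((LinearMap.continuous_of_finiteDimensional _).norm.pow 2)

theorem ns_zero (M : CRep V F) : S.ns M (0 : F) = 0 := by
  simp [ns]

theorem ns_nonneg (M : CRep V F) (a : F) : 0 ≤ S.ns M a :=
  Finset.sum_nonneg fun _ _ => Finset.sum_nonneg fun _ _ => sq_nonneg _

/-- The oscillator identity. -/
theorem osc {φ : E → F} (hφ : ContDiff ℝ 1 φ) (hc : HasCompactSupport φ) :
    ∫ x, ∑ k, ‖fderiv ℝ φ x (S.e k) + ⟪S.e k, S.A x⟫_ℝ • φ x‖ ^ 2 ∂μ =
    (∫ x, ∑ k, ‖fderiv ℝ φ x (S.e k)‖ ^ 2 ∂μ) + (∫ x, ‖S.A x‖ ^ 2 * ‖φ x‖ ^ 2 ∂μ) -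
      S.tr * ∫ x, ‖φ x‖ ^ 2 ∂μ := by
  let _ : InnerProductSpace ℝ F := InnerProductSpace.complexToReal
  let ac : κ → E →L[ℝ] ℝ := fun k => LinearMap.toContinuousLinearMap
    ((innerₛₗ ℝ (S.e k)).comp S.A)
  have hac : ∀ k x, ac k x = ⟪S.e k, S.A x⟫_ℝ := fun k x => rfl
  have e := Hardy151.expand (μ := μ) (f := φ) hφ hc
    (v := fun k => S.e k) (X := fun k x => ac k x) (w := fun _ => 1)
    (fun k x _ => (ac k).contDiff.contDiffAt) (fun x _ => contDiffAt_const)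
  simp only [one_mul] at e
  have h1 : ∀ k (x : E), fderiv ℝ (fun y => ⟪S.e k, S.A y⟫_ℝ) x (S.e k) =
      ⟪S.e k, S.A (S.e k)⟫_ℝ := by
    intro k x
    have h0 : (fun y => ⟪S.e k, S.A y⟫_ℝ) = ⇑(ac k) := rfl
    rw [h0, ContinuousLinearMap.fderiv, hac]
  have hn : ∀ x : E, ∑ k, ⟪S.e k, S.A x⟫_ℝ ^ 2 = ‖S.A x‖ ^ 2 := fun x => by
    have := S.e.sum_sq_norm_inner_right (S.A x)
    simpa only [Real.norm_eq_abs, sq_abs] using this
  simp only [h1, hac, hn, ← S.tr_eq] at e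
  rw [e]
  have i1 : Integrable (fun x => ‖φ x‖ ^ 2) μ :=
    (hφ.continuous.norm.pow 2).integrable_of_hasCompactSupport
      (hc.mono fun x hx h0 => hx (by
        have : φ x = 0 := h0
        simp [this]))
  have i2 : Integrable (fun x => ‖S.A x‖ ^ 2 * ‖φ x‖ ^ 2) μ := by
    refine Continuous.integrable_of_hasCompactSupport ?_ (hc.mono fun x hx h0 => hx (by
        have : φ x = 0 := h0
        simp [this]))
    exact (((LinearMap.continuous_of_finiteDimensional S.A).norm).pow 2).mul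
      (hφ.continuous.norm.pow 2)
  have e2 : ∫ x, (S.tr - ‖S.A x‖ ^ 2) * ‖φ x‖ ^ 2 ∂μ =
      S.tr * (∫ x, ‖φ x‖ ^ 2 ∂μ) - ∫ x, ‖S.A x‖ ^ 2 * ‖φ x‖ ^ 2 ∂μ := by
    rw [← integral_const_mul, ← integral_sub (i1.const_mul _) i2]
    refine integral_congr_ae (Eventually.of_forall fun x => ?_)
    simp only
    ring
  rw [e2]
  ring

theorem sum_sq_w (x : E) : ∑ α, ‖S.I (S.γ α (S.A x))‖ ^ 2 = S.n₀ * ‖S.A x‖ ^ 2 := by
  have h4 : ∀ v, ‖S.I v‖ ^ 2 = ‖v‖ ^ 2 := fun v => by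
    rw [← real_inner_self_eq_norm_sq, ← real_inner_self_eq_norm_sq, S.hI]
  simp only [h4]
  have := S.hγ (S.A x) (S.A x)
  simpa only [real_inner_self_eq_norm_sq] using this

/-- **The energy of the linear model, Weitzenböck form.** -/
theorem weitz [DecidableEq κ] (M : CRep V F) {φ : E → F} (hφ : ContDiff ℝ 2 φ)
    (hc : HasCompactSupport φ) :
    ∑ α, ∫ x, ‖S.q M α φ x‖ ^ 2 ∂μ =
      S.n₀ / 2 * ((∫ x, ∑ k, ‖fderiv ℝ φ x (S.e k)‖ ^ 2 ∂μ) +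
        (∫ x, ‖S.A x‖ ^ 2 * ‖φ x‖ ^ 2 ∂μ) - S.tr * ∫ x, ‖φ x‖ ^ 2 ∂μ) +
      1 / 2 * ∫ x, S.ns M (φ x) ∂μ := by
  have h1 : ContDiff ℝ 1 φ := hφ.of_le (by norm_num)
  have h := congrArg Complex.re (weitz_c (μ := μ) (M := M) (φ := φ) (e := fun k => S.e k)
    (u := fun α k => S.γ α (S.e k)) (n₀ := S.n₀) (w := fun α => S.I ∘ₗ S.γ α ∘ₗ S.A)
    (fun k l => by
      rw [S.hγ, S.e.inner_eq_ite]
      split_ifs <;> simp)
    (fun k x => S.hX (S.e k) x) hφ hc)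
  have hq : ∀ α x, kp M (fun k => S.e k) (fun k => S.γ α (S.e k)) φ x +
      M.θ ((S.I ∘ₗ S.γ α ∘ₗ S.A) x) (φ x) = S.q M α φ x := fun α x => rfl
  simp only [hq, inner_self_c] at h
  have i0 : ∀ k, Integrable (fun x => ‖fderiv ℝ φ x (S.e k)‖ ^ 2) μ := fun k =>
    ((fderiv_apply_continuous h1 _).norm.pow 2).integrable_of_hasCompactSupport
      ((hasCompactSupport_fderiv_apply hc (S.e k)).mono
        fun x hx h0 => hx (by
          have : fderiv ℝ φ x (S.e k) = 0 := h0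
          simp [this]))
  have i1 : Integrable (fun x => ‖φ x‖ ^ 2) μ :=
    (hφ.continuous.norm.pow 2).integrable_of_hasCompactSupport
      (hc.mono fun x hx h0 => hx (by
        have : φ x = 0 := h0
        simp [this]))
  have i3 : Integrable (fun x => S.ns M (φ x)) μ :=
    ((S.continuous_ns M).comp hφ.continuous).integrable_of_hasCompactSupport
      (hc.mono fun x hx h0 => hx (by
        have : φ x = 0 := h0
        simp [this, ns_zero]))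
  have hZ : Integrable (fun x => ⟪φ x, ∑ α, ∑ k, (-Complex.I) • M.θ (S.γ α (S.e k))
      (M.θ ((S.I ∘ₗ S.γ α ∘ₗ S.A) (S.e k)) (φ x))⟫_ℂ) μ := by
    refine integrable_inner_of_cont h1.continuous ?_ (Or.inl hc)
    exact continuous_finsetSum _ fun α _ => continuous_finsetSum _ fun k _ =>
      Continuous.const_smul ((cont_lin _).comp ((cont_lin _).comp h1.continuous)) _
  have hZr : (∫ x, ⟪φ x, ∑ α, ∑ k, (-Complex.I) • M.θ (S.γ α (S.e k))
      (M.θ ((S.I ∘ₗ S.γ α ∘ₗ S.A) (S.e k)) (φ x))⟫_ℂ ∂μ).re =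
      1 / 2 * (∫ x, S.ns M (φ x) ∂μ) - S.n₀ / 2 * S.tr * ∫ x, ‖φ x‖ ^ 2 ∂μ := by
    have e1 : (∫ x, ⟪φ x, ∑ α, ∑ k, (-Complex.I) • M.θ (S.γ α (S.e k))
      (M.θ ((S.I ∘ₗ S.γ α ∘ₗ S.A) (S.e k)) (φ x))⟫_ℂ ∂μ).re =
        ∫ x, (⟪φ x, ∑ α, ∑ k, (-Complex.I) • M.θ (S.γ α (S.e k))
      (M.θ ((S.I ∘ₗ S.γ α ∘ₗ S.A) (S.e k)) (φ x))⟫_ℂ).re ∂μ := (integral_re hZ).symm
    rw [e1]
    simp only [LinearMap.comp_apply, S.yuk_re M]
    rw [integral_sub (i3.const_mul _) (i1.const_mul _), integral_const_mul, integral_const_mul]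
  simp only [← Complex.ofReal_mul, integral_complex_ofReal, Complex.add_re, ← Complex.ofReal_sum,
    Complex.ofReal_re] at h
  rw [h, hZr, integral_finsetSum _ fun k _ => i0 k]
  have e1 : ∫ x, (∑ α, ‖(S.I ∘ₗ S.γ α ∘ₗ S.A) x‖ ^ 2) / 2 * ‖φ x‖ ^ 2 ∂μ =
      S.n₀ / 2 * ∫ x, ‖S.A x‖ ^ 2 * ‖φ x‖ ^ 2 ∂μ := by
    rw [← integral_const_mul]
    refine integral_congr_ae (Eventually.of_forall fun x => ?_)
    simp only [LinearMap.comp_apply, S.sum_sq_w]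
    ring
  rw [e1]
  ring

/-- **The exact identity of the linear model.** -/
theorem exact [DecidableEq κ] (M : CRep V F) {φ : E → F} (hφ : ContDiff ℝ 2 φ)
    (hc : HasCompactSupport φ) :
    ∑ α, ∫ x, ‖S.q M α φ x‖ ^ 2 ∂μ =
      S.n₀ / 2 * (∫ x, ∑ k, ‖fderiv ℝ φ x (S.e k) + ⟪S.e k, S.A x⟫_ℝ • φ x‖ ^ 2 ∂μ) +
      1 / 2 * ∫ x, S.ns M (φ x) ∂μ := by
  rw [S.weitz M hφ hc, S.osc (hφ.of_le (by norm_num)) hc]

end LinSys

end Crest.Agent.R330.LinAbs674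

end
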