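import Crest.Agent.R330.LinA_561
import Mathlib.LinearAlgebra.Matrix.Kronecker

/-!
# Row 330, S5c: linear model at a fuzzy vacuum, part B: Kronecker identities (helper561)

`Y : Fin 3 → Matrix κ κ ℝ` antisymmetric with `[Y_0, Y_1] = Y_2` and cyclic.
`Tm = Σ q_a ⊗ Y_a` (fermions), `Rm = Σ r_a ⊗ Y_a` (the three first bosonic directions),
`Gm α` = isometry `Cfg → R^16 ⊗ g`, `Wm α` = linear part of the potential of the charges.
-/

set_option autoImplicit false
set_option linter.unusedSimpArgs false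

open Matrix Crest.MathPhysics.MatrixQM Crest.Agent.R330.Gam962 Crest.Agent.R330.Defs478
open scoped Kronecker

namespace Crest.Agent.R330.Lin561

noncomputable section

variable (G : GammaNine)

/-- columns `γ^j ε_α` -/
def gcol (α : Fin 16) : Matrix (Fin 16) (Fin 9) ℝ := fun β j => G.γ j α β
/-- entries `γ2 a k α β` -/
def ga (α : Fin 16) (a : Fin 3) : Matrix (Fin 16) (Fin 9) ℝ :=
  fun β k => G.γ2 (Fin.castLE (by norm_num) a) k α β
/-- entries `c_k (Γ γ^k)_{αβ}` -/
def mc (α : Fin 16) : Matrix (Fin 16) (Fin 9) ℝ := fun β k => cc k * (Gam G * G.γ k) α β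
/-- column `Γ ε_α` -/
def gΓ (α : Fin 16) : Matrix (Fin 16) (Fin 1) ℝ := fun β _ => Gam G β α

/-- unit row -/
def row (a : Fin 3) : Matrix (Fin 1) (Fin 9) ℝ :=
  fun _ j => if (j : ℕ) = (a : ℕ) then 1 else 0
/-- projection on the first three directions -/
def pa : Matrix (Fin 9) (Fin 9) ℝ := diagonal fun j => if (j : ℕ) < 3 then 1 else 0
/-- projection on the last six directions -/
def pb : Matrix (Fin 9) (Fin 9) ℝ := 1 - pa
/-- `(r_a)_{cb} = -ε_{cab}` -/
def rr (a : Fin 3) : Matrix (Fin 9) (Fin 9) ℝ := fun c b =>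
  match a with
  | 0 => if c = 1 ∧ b = 2 then 1 else if c = 2 ∧ b = 1 then -1 else 0
  | 1 => if c = 2 ∧ b = 0 then 1 else if c = 0 ∧ b = 2 then -1 else 0
  | 2 => if c = 0 ∧ b = 1 then 1 else if c = 1 ∧ b = 0 then -1 else 0

theorem pa_mul_pa : pa * pa = pa := by
  rw [pa, diagonal_mul_diagonal]
  congr 1
  funext j
  split_ifs <;> simp

theorem pa_transpose : paᵀ = pa := diagonal_transpose _

theorem rr_transpose (a : Fin 3) : (rr a)ᵀ = -rr a := by
  ext c b
  fin_cases a <;> fin_cases c <;> fin_cases b <;> simp [rr, transpose_apply]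

theorem rr_pa (a : Fin 3) : rr a * pa = rr a := by
  ext c b
  rw [pa, mul_diagonal]
  fin_cases a <;> fin_cases c <;> fin_cases b <;> simp [rr]

theorem pa_rr (a : Fin 3) : pa * rr a = rr a := by
  ext c b
  rw [pa, diagonal_mul]
  fin_cases a <;> fin_cases c <;> fin_cases b <;> simp [rr]

theorem row_pa (a : Fin 3) : row a * pa = row a := by
  ext c b
  rw [pa, mul_diagonal]
  fin_cases a <;> fin_cases b <;> simp [row]

theorem row_rr (a c : Fin 3) : row a * rr c =
    fun _ b => rr c (Fin.castLE (by norm_num) a) b := by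
  ext x b
  rw [mul_apply, Finset.sum_eq_single (Fin.castLE (by norm_num) a)]
  · simp [row]
  · intro j _ hj
    have : ¬ ((j : ℕ) = (a : ℕ)) := fun h => hj (Fin.ext (by simpa using h))
    simp [row, this]
  · simp

theorem row_rr_same (a : Fin 3) : row a * rr a = 0 := by
  rw [row_rr]; ext x b
  fin_cases a <;> fin_cases b <;> simp [rr]
theorem row0_rr1 : row 0 * rr 1 = -row 2 := by
  rw [row_rr]; ext x b; fin_cases b <;> simp [rr, row]
theorem row0_rr2 : row 0 * rr 2 = row 1 := by
  rw [row_rr]; ext x b; fin_cases b <;> simp [rr, row]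
theorem row1_rr0 : row 1 * rr 0 = row 2 := by
  rw [row_rr]; ext x b; fin_cases b <;> simp [rr, row]
theorem row1_rr2 : row 1 * rr 2 = -row 0 := by
  rw [row_rr]; ext x b; fin_cases b <;> simp [rr, row]
theorem row2_rr0 : row 2 * rr 0 = -row 1 := by
  rw [row_rr]; ext x b; fin_cases b <;> simp [rr, row]
theorem row2_rr1 : row 2 * rr 1 = row 0 := by
  rw [row_rr]; ext x b; fin_cases b <;> simp [rr, row]

/-- multiplication of a `16 × 16` matrix with the columns -/
theorem mul_gcol (X : Matrix (Fin 16) (Fin 16) ℝ) (α β : Fin 16) (j : Fin 9) :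
    (X * gcol G α) β j = (X * G.γ j) β α := by
  rw [mul_apply, mul_apply]
  refine Finset.sum_congr rfl fun δ _ => ?_
  rw [gcol, g_symm G j α δ]

theorem gcol_mul (X : Matrix (Fin 9) (Fin 9) ℝ) (Z : Matrix (Fin 16) (Fin 16) ℝ)
    (α β : Fin 16) (j : Fin 9) :
    (Z * gcol G α * X) β j = ∑ c, (Z * G.γ c) β α * X c j := by
  rw [mul_apply]
  exact Finset.sum_congr rfl fun c _ => by rw [mul_gcol]

theorem gcol_gram (α : Fin 16) : (gcol G α)ᵀ * gcol G α = 1 := by
  ext i j
  rw [mul_apply, one_apply]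
  have h : ∑ x, (gcol G α)ᵀ i x * gcol G α x j = (G.γ i * G.γ j) α α := by
    rw [mul_apply]
    exact Finset.sum_congr rfl fun x _ => by rw [transpose_apply, gcol, gcol, g_symm G j α x]
  rw [h]
  by_cases hij : i = j
  · rw [if_pos hij, hij, sq_one, one_apply_eq]
  · rw [if_neg hij]
    have h1 : (G.γ i * G.γ j) α α = -(G.γ j * G.γ i) α α := by rw [anti G hij, neg_apply]
    have h2 : (G.γ j * G.γ i) α α = (G.γ i * G.γ j) α α := by
      have : (G.γ j * G.γ i) = (G.γ i * G.γ j)ᵀ := by rw [transpose_mul, G.symm, G.symm]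
      rw [this, transpose_apply]
    linarith

end

end Crest.Agent.R330.Lin561
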