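import Crest.Agent.R330.LinI_561
import Crest.Agent.R330.SqrtPD_984

/-!
# Row 330, S5c: the exact data at a fuzzy vacuum (helper674)

From 561's linear model `(A, Ω, I)` at a vacuum configuration `c`: the symmetric square root `B`
of `A`, and the full direction `j = 8` in its range.
-/

set_option autoImplicit false
set_option linter.unusedSectionVars false

open Matrix Crest.MathPhysics.MatrixQM Crest.Agent.R330.Gam962 Crest.Agent.R330.Defs478
open scoped Kronecker InnerProductSpace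

namespace Crest.Agent.R330.LinB674

open Crest.Agent.R330.NeutL45 Crest.Agent.R330.CoerCfg87 Crest.Agent.R330.S5Defs798
open Crest.Agent.R330.Om0331 Crest.Agent.R330.Vacua303 Crest.Agent.R330.LinEx674
open Crest.Agent.R330.Weitz726 Crest.Agent.R330.Lin561

noncomputable section

variable {N : ℕ}

/-- the symmetric square root -/
theorem exists_sqrt {A : Cfg N →ₗ[ℝ] Cfg N} (hs : ∀ u v, ⟪A u, v⟫_ℝ = ⟪u, A v⟫_ℝ)
    (hp : ∀ u, 0 ≤ ⟪u, A u⟫_ℝ) :
    ∃ B : Cfg N →ₗ[ℝ] Cfg N, (∀ u v, ⟪B u, v⟫_ℝ = ⟪u, B v⟫_ℝ) ∧ ∀ x, B (B x) = A x := by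
  obtain ⟨S, h1, h2⟩ := SqrtPD984.exists_sqrt (T := LinearMap.toContinuousLinearMap A)
    ⟨hs, fun v => by rw [real_inner_comm]; exact hp v⟩
  refine ⟨S, h1.1, fun x => ?_⟩
  exact congrArg (fun T : Cfg N →L[ℝ] Cfg N => T x) h2

/-- the range of a symmetric map -/
theorem mem_range_of_perp {A : Cfg N →ₗ[ℝ] Cfg N} (hs : ∀ u v, ⟪A u, v⟫_ℝ = ⟪u, A v⟫_ℝ)
    {y : Cfg N} (hy : ∀ u, A u = 0 → ⟪u, y⟫_ℝ = 0) : ∃ w, A w = y := by
  have hS : A.IsSymmetric := fun u v => hs u v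
  have h1 : (LinearMap.range A)ᗮ = LinearMap.ker A := hS.orthogonal_range
  have h2 : (LinearMap.ker A)ᗮ = LinearMap.range A := by
    rw [← h1, Submodule.orthogonal_orthogonal]
  have h3 : y ∈ (LinearMap.ker A)ᗮ := by
    rw [Submodule.mem_orthogonal]
    intro u hu
    exact hy u (LinearMap.mem_ker.1 hu)
  rw [h2] at h3
  exact h3

/-- the gauge directions have no component `8` -/
theorem brk_hi {b : ColorBasis N} {c : Cfg N} (hc : IsVacCfg b c) (om : Fin (N ^ 2 - 1) → ℝ)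
    (a : Fin (N ^ 2 - 1)) : brk b om c (8, a) = 0 := by
  have h8 : ∀ A, c (8, A) = 0 := fun A => by
    have := comp_hi b hc (j := 8) (by decide)
    exact this A
  change br b om (comp c 8) a = 0
  unfold br
  have h : comp c 8 = fun _ => 0 := funext fun A => h8 A
  rw [h]
  simp

theorem exPack {F : Type} [NormedAddCommGroup F] [InnerProductSpace ℂ F]
    [FiniteDimensional ℂ F] [Nontrivial F] (b : ColorBasis N) (M : FermionRep N F)
    (R : GaugeAction b M) (G : GammaNine) (c : Cfg N) (hc : IsVacCfg b c) :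
    ∃ (I : VV N →ₗ[ℝ] VV N) (A B : Cfg N →ₗ[ℝ] Cfg N) (Ω : F), IsCS I ∧
      LinW G (wlin b G c) I A ∧ (∀ u v, ⟪B u, v⟫_ℝ = ⟪u, B v⟫_ℝ) ∧ (∀ x, B (B x) = A x) ∧
      (∀ u, A u = 0 → ∃ om, u = brk b om c) ∧
      (∀ a, ∃ w, B w = EuclideanSpace.single ((8 : Fin 9), a) 1) ∧
      Ω ≠ 0 ∧ (∀ v, bop M I v Ω = 0) ∧ VacPack b M R G c A Ω := by
  obtain ⟨A, Ω, I, hV, hW, hI, hb⟩ := linModel b G M R c hc
  obtain ⟨B, hB, hBB⟩ := exists_sqrt hV.symm hV.pos
  refine ⟨I, A, B, Ω, hI, hW, hB, hBB, fun u hu => (hV.ker u).1 hu, fun a => ?_, ?_, hb, hV⟩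
  · obtain ⟨w, hw⟩ := mem_range_of_perp hV.symm
      (y := EuclideanSpace.single ((8 : Fin 9), a) (1 : ℝ)) fun u hu => by
        obtain ⟨om, rfl⟩ := (hV.ker u).1 hu
        rw [EuclideanSpace.inner_single_right]
        simp [brk_hi hc]
    exact ⟨B w, by rw [hBB, hw]⟩
  · intro h
    have := hV.unit
    rw [h, norm_zero] at this
    exact zero_ne_one this

end

end Crest.Agent.R330.LinB674
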