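import Crest.Agent.R330.LinBind_674
import Crest.Agent.R330.SqrtPD_984

/-!
# Row 330, S5c: literal binding of the linear model at a fuzzy vacuum, part 2 (helper674)

`Y = Yc b c`, `Dat Y P Q`; `Iop = ofM (Im G Y Q)`, `Aop = toEuclideanLin (Am Y P Q)`.

* `isCS`, `linW` : `W = I γ_α A`.
* `Aop_symm`, `Aop_act` : symmetric, commutes with the stabiliser.
* `exists_Om` : a unit vacuum; `bop_Om`; `kill`.
* `full` : the last direction is in the range of `Aop`.
-/

set_option autoImplicit false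
set_option linter.unusedSectionVars false

open MeasureTheory Filter Topology
open scoped ContDiff InnerProductSpace ENNReal Kronecker
open Crest.MathPhysics.MatrixQM
open Crest.Agent.R330.Defs478 Crest.Agent.R330.S5Defs798 Crest.Agent.R330.CoerCfg87
  Crest.Agent.R330.NeutL45 Crest.Agent.R330.Lin561 Crest.Agent.R330.Weitz726
  Crest.Agent.R330.LinEx674 Crest.Agent.R330.Om0331 Crest.Agent.R330.IBP837

noncomputable section

namespace Crest.Agent.R330.LinBind674

variable {N : ℕ}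

/-! ## Matrices on the pair index -/

/-- A matrix on the pair index as an operator on coefficient vectors. -/
def ofM (X : Matrix (Idx N) (Idx N) ℝ) : VV N →ₗ[ℝ] VV N where
  toFun v := fun β A => X.mulVec (fun p => v p.1 p.2) (β, A)
  map_add' u v := by
    funext β A
    have : (fun p : Idx N => (u + v) p.1 p.2) = (fun p => u p.1 p.2) + fun p => v p.1 p.2 := rfl
    rw [this, Matrix.mulVec_add]
    rfl
  map_smul' r v := by
    funext β A
    have : (fun p : Idx N => (r • v) p.1 p.2) = r • fun p => v p.1 p.2 := rfl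
    rw [this, Matrix.mulVec_smul]
    rfl

theorem ofM_apply (X : Matrix (Idx N) (Idx N) ℝ) (v : VV N) (β : Fin 16) (A : Fin (N ^ 2 - 1)) :
    ofM X v β A = X.mulVec (fun p => v p.1 p.2) (β, A) := rfl

theorem ofM_mul (X X' : Matrix (Idx N) (Idx N) ℝ) (v : VV N) :
    ofM X (ofM X' v) = ofM (X * X') v := by
  funext β A
  rw [ofM_apply, ofM_apply]
  have : (fun p : Idx N => ofM X' v p.1 p.2) = X'.mulVec (fun p => v p.1 p.2) := by
    funext p
    rfl
  rw [this, Matrix.mulVec_mulVec]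

theorem dp_dot (u v : VV N) :
    dp u v = (fun p : Idx N => u p.1 p.2) ⬝ᵥ fun p => v p.1 p.2 := by
  rw [dp_eq]
  rfl

theorem dp_ofM (X : Matrix (Idx N) (Idx N) ℝ) (u v : VV N) :
    dp (ofM X u) (ofM X v) = dp u (ofM (X.transpose * X) v) := by
  rw [dp_dot, dp_dot]
  have e1 : (fun p : Idx N => ofM X u p.1 p.2) = X.mulVec (fun p => u p.1 p.2) := by
    funext p; rfl
  have e2 : (fun p : Idx N => ofM X v p.1 p.2) = X.mulVec (fun p => v p.1 p.2) := by
    funext p; rfl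
  have e3 : (fun p : Idx N => ofM (X.transpose * X) v p.1 p.2) =
      (X.transpose * X).mulVec (fun p => v p.1 p.2) := by
    funext p; rfl
  rw [e1, e2, e3, ← Matrix.mulVec_mulVec,
    Matrix.dotProduct_mulVec (fun p : Idx N => u p.1 p.2) X.transpose, Matrix.vecMul_transpose]

theorem isCS_ofM {X : Matrix (Idx N) (Idx N) ℝ} (hT : X.transpose = -X) (h2 : X * X = -1) :
    IsCS (ofM X) := by
  constructor
  · intro u v
    rw [dp_ofM, hT, Matrix.neg_mul, h2, neg_neg]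
    congr 1
    funext β A
    rw [ofM_apply, Matrix.one_mulVec]
  · intro v
    rw [ofM_mul, h2]
    funext β A
    rw [ofM_apply, Matrix.neg_mulVec, Matrix.one_mulVec]
    rfl

theorem gv_mulVec (G : GammaNine) (α : Fin 16) (u : Cfg N) (β : Fin 16) (A : Fin (N ^ 2 - 1)) :
    gv G α u β A = (Gm G (Fin (N ^ 2 - 1)) α).mulVec (fun k => u k) (β, A) := by
  rw [gv_apply, Matrix.mulVec, dotProduct, Fintype.sum_prod_type]
  refine Finset.sum_congr rfl fun j _ => ?_
  rw [Finset.sum_eq_single A]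
  · simp [Gm, gcol, Matrix.kroneckerMap_apply]
  · intro B _ hB
    simp [Gm, Matrix.kroneckerMap_apply, Matrix.one_apply, Ne.symm hB]
  · intro h; exact absurd (Finset.mem_univ _) h

variable {b : ColorBasis N} {c : Cfg N} {P Q : Matrix (Fin (N ^ 2 - 1)) (Fin (N ^ 2 - 1)) ℝ}

/-- the complex structure -/
def Iop (b : ColorBasis N) (G : GammaNine) (c : Cfg N)
    (Q : Matrix (Fin (N ^ 2 - 1)) (Fin (N ^ 2 - 1)) ℝ) : VV N →ₗ[ℝ] VV N :=
  ofM (Im G (Yc b c) Q)

/-- the frequencies -/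
def Aop (b : ColorBasis N) (c : Cfg N)
    (P Q : Matrix (Fin (N ^ 2 - 1)) (Fin (N ^ 2 - 1)) ℝ) : Cfg N →ₗ[ℝ] Cfg N :=
  Matrix.toEuclideanLin (Am (Yc b c) P Q)

theorem Aop_apply (u : Cfg N) (k : Fin 9 × Fin (N ^ 2 - 1)) :
    Aop b c P Q u k = (Am (Yc b c) P Q).mulVec (fun k => u k) k := rfl

theorem isCS (D : Dat (Yc b c) P Q) (G : GammaNine) : IsCS (Iop b G c Q) :=
  isCS_ofM (D.I_T G) (D.I_sq G)

theorem linW (h : IsVacCfg b c) (D : Dat (Yc b c) P Q) (G : GammaNine) :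
    LinW G (wlin b G c) (Iop b G c Q) (Aop b c P Q) := by
  intro α x
  funext β a
  rw [wlin_mulVec h, D.W_eq G α, Iop, ofM_apply, ← Matrix.mulVec_mulVec, ← Matrix.mulVec_mulVec]
  congr 2
  funext p
  rw [gv_mulVec]
  rfl

theorem Aop_symm (D : Dat (Yc b c) P Q) (u v : Cfg N) :
    ⟪Aop b c P Q u, v⟫_ℝ = ⟪u, Aop b c P Q v⟫_ℝ := by
  have h : (Am (Yc b c) P Q).IsHermitian := by
    unfold Matrix.IsHermitian
    rw [Matrix.conjTranspose_eq_transpose_of_trivial, D.A_T]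
  exact (Matrix.isSymmetric_toEuclideanLin_iff.2 h) u v

/-! ## The stabiliser -/

/-- `R(h)` as a matrix. -/
def Rh (b : ColorBasis N) (h : Matrix.specialUnitaryGroup (Fin N) ℂ) :
    Matrix (Fin (N ^ 2 - 1)) (Fin (N ^ 2 - 1)) ℝ := Matrix.of (b.adjMat h)

theorem Yc_Rh {h : Matrix.specialUnitaryGroup (Fin N) ℂ} (hx : b.act h c = c) (a : Fin 3) :
    Rh b h * Yc b c a = Yc b c a * Rh b h := by
  refine adE_comm b fun C => ?_
  have h1 : b.act h c (Fin.castLE (by norm_num) a, C) = c (Fin.castLE (by norm_num) a, C) := by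
    rw [hx]
  rw [Col962.act_apply] at h1
  calc ∑ A, b.adjMat h C A * (3 * c (Fin.castLE (by norm_num) a, A))
      = 3 * ∑ A, b.adjMat h C A * c (Fin.castLE (by norm_num) a, A) := by
        rw [Finset.mul_sum]
        exact Finset.sum_congr rfl fun A _ => by ring
    _ = _ := by rw [h1]

theorem Cas_Rh {h : Matrix.specialUnitaryGroup (Fin N) ℂ} (hx : b.act h c = c) :
    Rh b h * Cas (Yc b c) = Cas (Yc b c) * Rh b h := by
  unfold Cas
  have e : ∀ a, Rh b h * (Yc b c a * Yc b c a) = Yc b c a * Yc b c a * Rh b h := fun a => by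
    rw [← Matrix.mul_assoc, Yc_Rh hx, Matrix.mul_assoc, Yc_Rh hx, Matrix.mul_assoc]
  rw [Matrix.mul_neg, Matrix.neg_mul, Matrix.mul_add, Matrix.mul_add, Matrix.add_mul,
    Matrix.add_mul, e, e, e]

theorem Am_Rh (D : Dat (Yc b c) P Q) {h : Matrix.specialUnitaryGroup (Fin N) ℂ}
    (hx : b.act h c = c) : c9 (Rh b h) * Am (Yc b c) P Q = Am (Yc b c) P Q * c9 (Rh b h) := by
  obtain ⟨hP, hQ⟩ := D.comm _ (Cas_Rh hx)
  have hQQ : Rh b h * (Q * Q) = Q * Q * Rh b h := by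
    rw [← Matrix.mul_assoc, hQ, Matrix.mul_assoc, hQ, Matrix.mul_assoc]
  have hPP : Rh b h * (P * P) = P * P * Rh b h := by
    rw [← Matrix.mul_assoc, hP, Matrix.mul_assoc, hP, Matrix.mul_assoc]
  have hPa : c9 (Rh b h) * Pa _ = Pa _ * c9 (Rh b h) := (Pa_c9 _).symm
  have hPb : c9 (Rh b h) * Pb _ = Pb _ * c9 (Rh b h) := (Pb_c9 _).symm
  have hR : c9 (Rh b h) * Rm (Yc b c) = Rm (Yc b c) * c9 (Rh b h) :=
    (Rm_c9 fun a => (Yc_Rh hx a).symm).symm
  have hcQ : c9 (Rh b h) * c9 (Q * Q) = c9 (Q * Q) * c9 (Rh b h) := by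
    rw [c9_mul, c9_mul, hQQ]
  have hcP : c9 (Rh b h) * c9 (P * P) = c9 (P * P) * c9 (Rh b h) := by
    rw [c9_mul, c9_mul, hPP]
  have hAb : c9 (Rh b h) * Lin561.Ab P = Lin561.Ab P * c9 (Rh b h) := by
    unfold Lin561.Ab
    rw [← Matrix.mul_assoc, hPb, Matrix.mul_assoc, hcP, Matrix.mul_assoc]
  have h1 : c9 (Rh b h) * (Pa _ + Rm (Yc b c)) = (Pa _ + Rm (Yc b c)) * c9 (Rh b h) := by
    rw [Matrix.mul_add, Matrix.add_mul, hPa, hR]
  have h2 : c9 (Rh b h) * (Rm (Yc b c) + (1 / 2 : ℝ) • Pa _) =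
      (Rm (Yc b c) + (1 / 2 : ℝ) • Pa _) * c9 (Rh b h) := by
    rw [Matrix.mul_add, Matrix.add_mul, Matrix.mul_smul, Matrix.smul_mul, hPa, hR]
  have hAa : c9 (Rh b h) * Aa (Yc b c) Q = Aa (Yc b c) Q * c9 (Rh b h) := by
    unfold Aa
    rw [← Matrix.mul_assoc, ← Matrix.mul_assoc, h1, Matrix.mul_assoc (Pa _ + Rm (Yc b c)), h2]
    simp only [Matrix.mul_assoc]
    rw [hcQ]
  unfold Am
  rw [Matrix.mul_smul, Matrix.smul_mul, Matrix.mul_add, Matrix.add_mul, hAa, hAb]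

theorem act_mulVec (h : Matrix.specialUnitaryGroup (Fin N) ℂ) (u : Cfg N)
    (k : Fin 9 × Fin (N ^ 2 - 1)) :
    b.act h u k = (c9 (Rh b h)).mulVec (fun k => u k) k := by
  obtain ⟨i, A⟩ := k
  rw [Col962.act_apply, Matrix.mulVec, dotProduct, Fintype.sum_prod_type,
    Finset.sum_eq_single i]
  · refine Finset.sum_congr rfl fun B _ => ?_
    simp [c9, Rh, Matrix.kroneckerMap_apply]
  · intro j _ hj
    refine Finset.sum_eq_zero fun B _ => ?_
    simp [c9, Matrix.kroneckerMap_apply, Matrix.one_apply, Ne.symm hj]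
  · intro h; exact absurd (Finset.mem_univ _) h

theorem Aop_act (D : Dat (Yc b c) P Q) {h : Matrix.specialUnitaryGroup (Fin N) ℂ}
    (hx : b.act h c = c) (u : Cfg N) :
    Aop b c P Q (b.act h u) = b.act h (Aop b c P Q u) := by
  ext k
  rw [Aop_apply, act_mulVec]
  have e1 : (fun k => b.act h u k) = (c9 (Rh b h)).mulVec (fun k => u k) := by
    funext k
    exact act_mulVec h u k
  have e2 : (fun k => Aop b c P Q u k) = (Am (Yc b c) P Q).mulVec (fun k => u k) := rfl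
  rw [e1, e2, Matrix.mulVec_mulVec, Matrix.mulVec_mulVec, Am_Rh D hx]

/-! ## The full direction -/

theorem full (D : Dat (Yc b c) P Q) (a : Fin (N ^ 2 - 1)) :
    ∃ w, Aop b c P Q w = EuclideanSpace.single ((8 : Fin 9), a) 1 := by
  have hm : Am (Yc b c) P Q * ((3 : ℝ) • (Pb _ * c9 (Q * Q))) = Pb _ := by
    have e1 : Aa (Yc b c) Q * (Pb _ * c9 (Q * Q)) = 0 := by
      unfold Aa
      have : c9 (Q * Q) * (Pb _ * c9 (Q * Q)) = Pb _ * (c9 (Q * Q) * c9 (Q * Q)) := by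
        rw [← Matrix.mul_assoc, ← Pb_c9, Matrix.mul_assoc]
      have hz : (Rm (Yc b c) + (1 / 2 : ℝ) • Pa (Fin (N ^ 2 - 1))) * Pb _ = 0 := by
        rw [Matrix.add_mul, Rm_Pb, Matrix.smul_mul, Pa_Pb, smul_zero, add_zero]
      rw [Matrix.mul_assoc, this, Matrix.mul_assoc (Pa _ + Rm (Yc b c)), ← Matrix.mul_assoc
        (Rm (Yc b c) + (1 / 2 : ℝ) • Pa _), hz, Matrix.zero_mul, Matrix.mul_zero]
    have e2 : Lin561.Ab P * (Pb _ * c9 (Q * Q)) = Pb _ := by
      unfold Lin561.Ab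
      rw [Matrix.mul_assoc, ← Matrix.mul_assoc (c9 (P * P)), ← Pb_c9, ← Matrix.mul_assoc,
        ← Matrix.mul_assoc, Pb_Pb, Matrix.mul_assoc, c9_mul]
      have : P * P * (Q * Q) = 1 := D.PPQQ
      rw [this, c9_one, Matrix.mul_one]
    unfold Am
    rw [Matrix.mul_smul, Matrix.smul_mul, Matrix.add_mul, e1, e2, zero_add, smul_smul]
    norm_num
  refine ⟨Matrix.toEuclideanLin ((3 : ℝ) • (Pb _ * c9 (Q * Q)))
    (EuclideanSpace.single ((8 : Fin 9), a) 1), ?_⟩
  ext k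
  rw [Aop_apply]
  have e3 : (fun k => (Matrix.toEuclideanLin ((3 : ℝ) • (Pb (Fin (N ^ 2 - 1)) * c9 (Q * Q)))
      (EuclideanSpace.single ((8 : Fin 9), a) 1) : Cfg N) k) =
      ((3 : ℝ) • (Pb (Fin (N ^ 2 - 1)) * c9 (Q * Q))).mulVec
        (fun k => (EuclideanSpace.single ((8 : Fin 9), a) (1 : ℝ) : Cfg N) k) := rfl
  rw [e3, Matrix.mulVec_mulVec, hm]
  have e4 : (fun k => (EuclideanSpace.single ((8 : Fin 9), a) (1 : ℝ) : Cfg N) k) =
      Pi.single ((8 : Fin 9), a) 1 := by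
    funext k
    simp [Pi.single_apply]
  rw [e4, Matrix.mulVec_single_one]
  obtain ⟨i, A⟩ := k
  simp only [Matrix.col_apply, Pb, pb, pa, Matrix.kroneckerMap_apply, Matrix.sub_apply,
    Matrix.one_apply, Matrix.diagonal_apply, PiLp.single_apply, Prod.mk.injEq]
  by_cases hi : i = 8
  · by_cases hA : A = a
    · simp [hi, hA]
    · simp [hi, hA]
  · simp [hi]

end Crest.Agent.R330.LinBind674

end
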