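import Crest.Agent.R330.LinE_561

/-!
# Row 330, S5c: linear model at a fuzzy vacuum, part F: the operators `S`, `I`, `A` (helper561)

`Dat Y P Q` : `P⁴ = C + 1/4`, `Q = P⁻¹`.  `Sm = (T + 1/2) Q²`, `Im = Γ S`,
`Am = (1/3) (P_a + R)(R + P_a/2) Q² + (1/3) P_b P²`.

* `S_sq`, `S_T`, `I_sq`, `I_T`, `A_T`;
* `W_eq : W_α = I G_α A`;
* `A_DvT : A Divᵀ = 0`, `A_nonneg`, `A_ker`.
-/

set_option autoImplicit false
set_option linter.unusedSectionVars false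
set_option linter.unusedDecidableInType false
set_option linter.unusedFintypeInType false

open Matrix Crest.MathPhysics.MatrixQM Crest.Agent.R330.Gam962 Crest.Agent.R330.Defs478
open scoped Kronecker

namespace Crest.Agent.R330.Lin561

noncomputable section

variable (G : GammaNine) {κ : Type*} [Fintype κ] [DecidableEq κ] {Y : Fin 3 → Matrix κ κ ℝ}

/-- `B = C + 1/4` -/
def Bm (Y : Fin 3 → Matrix κ κ ℝ) : Matrix κ κ ℝ := Cas Y + (1 / 4 : ℝ) • 1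

theorem psd_TT (X : Matrix κ κ ℝ) : (Xᵀ * X).PosSemidef := by
  rw [← conjTranspose_eq_transpose_of_trivial]
  exact posSemidef_conjTranspose_mul_self X

theorem Bm_posDef (h : So3 Y) : (Bm Y).PosDef := by
  have h1 : (Cas Y).PosSemidef := by
    rw [Cas_eq h]
    exact ((psd_TT _).add (psd_TT _)).add (psd_TT _)
  have h2 : ((1 / 4 : ℝ) • (1 : Matrix κ κ ℝ)).PosDef := by
    exact PosDef.smul PosDef.one (by norm_num)
  exact PosDef.posSemidef_add h1 h2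

/-- the data of the linear model -/
structure Dat (Y : Fin 3 → Matrix κ κ ℝ) (P Q : Matrix κ κ ℝ) : Prop where
  so : So3 Y
  PT : Pᵀ = P
  QT : Qᵀ = Q
  PQ : P * Q = 1
  QP : Q * P = 1
  P4 : P * P * (P * P) = Bm Y
  comm : ∀ X : Matrix κ κ ℝ, X * Cas Y = Cas Y * X → X * P = P * X ∧ X * Q = Q * X

theorem exists_dat (h : So3 Y) : ∃ P Q, Dat Y P Q := by
  obtain ⟨P, Q, h1, h2, h3, h4, h5, h6⟩ := exists_root4 (Bm_posDef h)
  refine ⟨P, Q, h, h1, h2, h3, h4, h5, fun X hX => h6 X ?_⟩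
  unfold Bm
  rw [Matrix.mul_add, Matrix.add_mul, hX, Matrix.mul_smul, Matrix.smul_mul, Matrix.mul_one,
    Matrix.one_mul]

variable {P Q : Matrix κ κ ℝ}

/-- `S = (T + 1/2) Q²` -/
def Sm (Y : Fin 3 → Matrix κ κ ℝ) (Q : Matrix κ κ ℝ) : Matrix (Fin 16 × κ) (Fin 16 × κ) ℝ :=
  (Tm G Y + (1 / 2 : ℝ) • 1) * c16 (Q * Q)
/-- `I = Γ S` -/
def Im (Y : Fin 3 → Matrix κ κ ℝ) (Q : Matrix κ κ ℝ) : Matrix (Fin 16 × κ) (Fin 16 × κ) ℝ :=
  GG G κ * Sm G Y Q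
/-- the first three directions -/
def Aa (Y : Fin 3 → Matrix κ κ ℝ) (Q : Matrix κ κ ℝ) : Matrix (Fin 9 × κ) (Fin 9 × κ) ℝ :=
  (Pa κ + Rm Y) * (Rm Y + (1 / 2 : ℝ) • Pa κ) * c9 (Q * Q)
/-- the last six directions -/
def Ab (P : Matrix κ κ ℝ) : Matrix (Fin 9 × κ) (Fin 9 × κ) ℝ := Pb κ * c9 (P * P)
/-- `A` -/
def Am (Y : Fin 3 → Matrix κ κ ℝ) (P Q : Matrix κ κ ℝ) : Matrix (Fin 9 × κ) (Fin 9 × κ) ℝ :=
  (1 / 3 : ℝ) • (Aa Y Q + Ab P)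

namespace Dat

variable (D : Dat Y P Q)
include D

theorem YP (a : Fin 3) : Y a * P = P * Y a := (D.comm _ (Cas_comm D.so a)).1
theorem YQ (a : Fin 3) : Y a * Q = Q * Y a := (D.comm _ (Cas_comm D.so a)).2
theorem YQQ (a : Fin 3) : Y a * (Q * Q) = Q * Q * Y a := by
  rw [← Matrix.mul_assoc, D.YQ, Matrix.mul_assoc, D.YQ, Matrix.mul_assoc]
theorem YPP (a : Fin 3) : Y a * (P * P) = P * P * Y a := by
  rw [← Matrix.mul_assoc, D.YP, Matrix.mul_assoc, D.YP, Matrix.mul_assoc]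

theorem PPQQ : P * P * (Q * Q) = 1 := by
  calc P * P * (Q * Q) = P * (P * Q) * Q := by simp only [Matrix.mul_assoc]
    _ = 1 := by rw [D.PQ, Matrix.mul_one, D.PQ]
theorem QQPP : Q * Q * (P * P) = 1 := by
  calc Q * Q * (P * P) = Q * (Q * P) * P := by simp only [Matrix.mul_assoc]
    _ = 1 := by rw [D.QP, Matrix.mul_one, D.QP]

/-- `B Q⁴ = 1` -/
theorem BQQ : Bm Y * (Q * Q * (Q * Q)) = 1 := by
  rw [← D.P4]
  calc P * P * (P * P) * (Q * Q * (Q * Q)) = P * P * (P * P * (Q * Q)) * (Q * Q) := by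
        simp only [Matrix.mul_assoc]
    _ = 1 := by rw [D.PPQQ, Matrix.mul_one, D.PPQQ]

/-- `B Q² = P²` -/
theorem BQ : Bm Y * (Q * Q) = P * P := by
  rw [← D.P4, Matrix.mul_assoc, D.PPQQ, Matrix.mul_one]

theorem T_half_sq : (Tm G Y + (1 / 2 : ℝ) • 1) * (Tm G Y + (1 / 2 : ℝ) • 1) = c16 (Bm Y) := by
  have h1 : c16 (Bm Y) = Tm G Y * Tm G Y + Tm G Y + (1 / 4 : ℝ) • 1 := by
    rw [T_sq G D.so, Bm, c16_add, c16_smul, c16_one]
    rfl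
  rw [h1]
  simp only [Matrix.mul_add, Matrix.add_mul, Matrix.smul_mul, Matrix.mul_smul, Matrix.mul_one,
    Matrix.one_mul]
  module

theorem Th_c16 : (Tm G Y + (1 / 2 : ℝ) • 1) * c16 (Q * Q) = c16 (Q * Q) * (Tm G Y + (1 / 2 : ℝ) • 1) := by
  rw [Matrix.add_mul, Matrix.mul_add, Tm_c16 G D.YQQ, Matrix.smul_mul, Matrix.mul_smul,
    Matrix.one_mul, Matrix.mul_one]

theorem S_sq : Sm G Y Q * Sm G Y Q = 1 := by
  unfold Sm
  calc (Tm G Y + (1 / 2 : ℝ) • 1) * c16 (Q * Q) * ((Tm G Y + (1 / 2 : ℝ) • 1) * c16 (Q * Q))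
      = (Tm G Y + (1 / 2 : ℝ) • 1) * (c16 (Q * Q) * (Tm G Y + (1 / 2 : ℝ) • 1)) * c16 (Q * Q) := by
        simp only [Matrix.mul_assoc]
    _ = ((Tm G Y + (1 / 2 : ℝ) • 1) * (Tm G Y + (1 / 2 : ℝ) • 1)) * (c16 (Q * Q) * c16 (Q * Q)) := by
        rw [← D.Th_c16 G]; simp only [Matrix.mul_assoc]
    _ = 1 := by rw [D.T_half_sq G, c16_mul, c16_mul, D.BQQ, c16_one]

theorem S_T : (Sm G Y Q)ᵀ = Sm G Y Q := by
  unfold Sm
  rw [transpose_mul, c16_transpose, transpose_mul, D.QT, transpose_add, Tm_transpose G D.so,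
    transpose_smul, transpose_one, D.Th_c16 G]

theorem S_GG : GG G κ * Sm G Y Q = Sm G Y Q * GG G κ := by
  unfold Sm
  have e : GG G κ * (Tm G Y + (1 / 2 : ℝ) • 1) = (Tm G Y + (1 / 2 : ℝ) • 1) * GG G κ := by
    rw [Matrix.mul_add, GG_Tm, Matrix.mul_smul, Matrix.mul_one, Matrix.add_mul,
      Matrix.smul_mul, Matrix.one_mul]
  rw [← Matrix.mul_assoc, e, Matrix.mul_assoc, GG_c16, ← Matrix.mul_assoc]

theorem I_sq : Im G Y Q * Im G Y Q = -1 := by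
  unfold Im
  calc GG G κ * Sm G Y Q * (GG G κ * Sm G Y Q) = GG G κ * (Sm G Y Q * GG G κ) * Sm G Y Q := by
        simp only [Matrix.mul_assoc]
    _ = (GG G κ * GG G κ) * (Sm G Y Q * Sm G Y Q) := by
        rw [← D.S_GG G]; simp only [Matrix.mul_assoc]
    _ = -1 := by rw [GG_sq, D.S_sq G, Matrix.mul_one]

theorem I_T : (Im G Y Q)ᵀ = -Im G Y Q := by
  unfold Im
  rw [transpose_mul, D.S_T G, GG_transpose, Matrix.mul_neg, D.S_GG G]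

theorem A_T : (Am Y P Q)ᵀ = Am Y P Q := by
  have h1 : (Aa Y Q)ᵀ = Aa Y Q := by
    unfold Aa
    have e1 : Rm Y * c9 (Q * Q) = c9 (Q * Q) * Rm Y := Rm_c9 D.YQQ
    have e2 : Pa κ * c9 (Q * Q) = c9 (Q * Q) * Pa κ := Pa_c9 _
    rw [transpose_mul, transpose_mul, c9_transpose, transpose_mul, D.QT, transpose_add,
      transpose_add, Rm_transpose D.so, Pa_transpose, transpose_smul, Pa_transpose]
    have e3 : (Pa κ + Rm Y) * (Rm Y + (1 / 2 : ℝ) • Pa κ) =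
        (Rm Y + (1 / 2 : ℝ) • Pa κ) * (Pa κ + Rm Y) := by
      simp only [Matrix.mul_add, Matrix.add_mul, Matrix.smul_mul, Matrix.mul_smul, Rm_Pa, Pa_Rm,
        Pa_Pa]
      module
    have e4 : c9 (Q * Q) * (Rm Y + (1 / 2 : ℝ) • Pa κ) =
        (Rm Y + (1 / 2 : ℝ) • Pa κ) * c9 (Q * Q) := by
      rw [Matrix.mul_add, Matrix.add_mul, e1, Matrix.mul_smul, Matrix.smul_mul, e2]
    have e5 : c9 (Q * Q) * (Pa κ + Rm Y) = (Pa κ + Rm Y) * c9 (Q * Q) := by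
      rw [Matrix.mul_add, Matrix.add_mul, e1, e2]
    rw [← Matrix.mul_assoc, e4, Matrix.mul_assoc, e5, ← Matrix.mul_assoc, ← e3]
  have h2 : (Ab P)ᵀ = Ab P := by
    unfold Ab
    rw [transpose_mul, c9_transpose, transpose_mul, D.PT, Pb_transpose, Pb_c9]
  unfold Am
  rw [transpose_smul, transpose_add, h1, h2]

/-- `T G_α X = G_α R X` if `P_a X = X`, `Div X = 0`. -/
theorem T_G {m : Type*} (α : Fin 16) {X : Matrix (Fin 9 × κ) m ℝ} (h1 : Pa κ * X = X)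
    (h2 : Dv Y * X = 0) : Tm G Y * (Gm G κ α * X) = Gm G κ α * (Rm Y * X) := by
  calc Tm G Y * (Gm G κ α * X) = Tm G Y * Gm G κ α * Pa κ * X := by
        rw [Matrix.mul_assoc _ (Pa κ), h1, Matrix.mul_assoc]
    _ = Gm G κ α * (Rm Y * X) + GΓ G κ α * (Dv Y * X) := by
        rw [K1, Matrix.add_mul, Matrix.mul_assoc, Matrix.mul_assoc]
    _ = _ := by rw [h2, Matrix.mul_zero, add_zero]

include G in
/-- `(R² + R) X = C X` if `P_a X = X`, `Div X = 0`. -/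
theorem RR {m : Type*} {X : Matrix (Fin 9 × κ) m ℝ} (h1 : Pa κ * X = X)
    (h2 : Dv Y * X = 0) : Rm Y * (Rm Y * X) + Rm Y * X = c9 (Cas Y) * X := by
  let α : Fin 16 := 0
  have e1 : Pa κ * (Rm Y * X) = Rm Y * X := by rw [← Matrix.mul_assoc, Pa_Rm]
  have e2 : Dv Y * (Rm Y * X) = 0 := by
    rw [← Matrix.mul_assoc, K2 D.so, Matrix.neg_mul, h2, neg_zero]
  have e3 : Gm G κ α * (Rm Y * (Rm Y * X) + Rm Y * X) = Gm G κ α * (c9 (Cas Y) * X) := by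
    rw [Matrix.mul_add, ← D.T_G G α e1 e2, ← D.T_G G α h1 h2, ← Matrix.mul_assoc (Gm G κ α),
      Gm_c9, Matrix.mul_assoc (c16 _), ← Matrix.mul_assoc (Tm G Y), ← Matrix.add_mul, T_sq G D.so]
    rfl
  have e4 := congrArg (fun Z => (Gm G κ α)ᵀ * Z) e3
  simpa only [← Matrix.mul_assoc (Gm G κ α)ᵀ, K5, Matrix.one_mul] using e4

theorem Pa_Aa : Pa κ * Aa Y Q = Aa Y Q := by
  unfold Aa
  rw [← Matrix.mul_assoc, ← Matrix.mul_assoc, Matrix.mul_add (Pa κ), Pa_Pa, Pa_Rm]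

theorem Dv_PR : Dv Y * (Pa κ + Rm Y) = 0 := by
  rw [Matrix.mul_add, Dv_Pa, K2 D.so, add_neg_cancel]

theorem Dv_Aa : Dv Y * Aa Y Q = 0 := by
  unfold Aa
  rw [← Matrix.mul_assoc, ← Matrix.mul_assoc, D.Dv_PR, Matrix.zero_mul, Matrix.zero_mul]

/-- `(T + 1/2) G_α A_a = G_α (P_a + R) P²`. -/
theorem Th_Aa (α : Fin 16) :
    Sm G Y Q * (Gm G κ α * Aa Y Q) = Gm G κ α * (Pa κ + Rm Y) := by
  have e0 : Rm Y * c9 (Q * Q) = c9 (Q * Q) * Rm Y := Rm_c9 D.YQQ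
  have e2 : Pa κ * c9 (Q * Q) = c9 (Q * Q) * Pa κ := Pa_c9 _
  -- `(R + 1/2)² (P_a + R) = B (P_a + R)`
  have k1 : Rm Y * (Rm Y * (Pa κ + Rm Y)) + Rm Y * (Pa κ + Rm Y) = c9 (Cas Y) * (Pa κ + Rm Y) :=
    D.RR G (by rw [Matrix.mul_add, Pa_Pa, Pa_Rm]) D.Dv_PR
  have k2 : (Rm Y + (1 / 2 : ℝ) • 1) * ((Rm Y + (1 / 2 : ℝ) • 1) * (Pa κ + Rm Y)) =
      c9 (Bm Y) * (Pa κ + Rm Y) := by
    have e : c9 (Bm Y) * (Pa κ + Rm Y) =
        Rm Y * (Rm Y * (Pa κ + Rm Y)) + Rm Y * (Pa κ + Rm Y) + (1 / 4 : ℝ) • (Pa κ + Rm Y) := by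
      rw [k1, Bm, c9_add, c9_smul, c9_one, Matrix.add_mul, Matrix.smul_mul, Matrix.one_mul]
    rw [e]
    simp only [Matrix.add_mul, Matrix.smul_mul, Matrix.one_mul, Matrix.mul_add, Matrix.mul_smul]
    module
  have k3 : (Pa κ + Rm Y) * (Rm Y + (1 / 2 : ℝ) • Pa κ) =
      (Rm Y + (1 / 2 : ℝ) • 1) * (Pa κ + Rm Y) := by
    simp only [Matrix.mul_add, Matrix.add_mul, Matrix.smul_mul, Matrix.mul_smul, Rm_Pa, Pa_Rm,
      Pa_Pa, Matrix.one_mul]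
    module
  calc Sm G Y Q * (Gm G κ α * Aa Y Q)
      = c16 (Q * Q) * ((Tm G Y + (1 / 2 : ℝ) • 1) * (Gm G κ α * Aa Y Q)) := by
        unfold Sm
        rw [D.Th_c16 G, Matrix.mul_assoc]
    _ = c16 (Q * Q) * (Gm G κ α * ((Rm Y + (1 / 2 : ℝ) • 1) * Aa Y Q)) := by
        rw [Matrix.add_mul, D.T_G G α D.Pa_Aa D.Dv_Aa, Matrix.add_mul, Matrix.mul_add (Gm G κ α),
          Matrix.smul_mul, Matrix.smul_mul, Matrix.mul_smul, Matrix.one_mul, Matrix.one_mul]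
    _ = c16 (Q * Q) * (Gm G κ α * (c9 (Bm Y) * (Pa κ + Rm Y) * c9 (Q * Q))) := by
        unfold Aa
        rw [k3, ← Matrix.mul_assoc (Rm Y + (1 / 2 : ℝ) • 1), k2]
    _ = Gm G κ α * (c9 (Q * Q) * (c9 (Bm Y) * (c9 (Q * Q) * (Pa κ + Rm Y)))) := by
        rw [← Matrix.mul_assoc (c16 _), ← Gm_c9, Matrix.mul_assoc (Gm G κ α)]
        have : (Pa κ + Rm Y) * c9 (Q * Q) = c9 (Q * Q) * (Pa κ + Rm Y) := by
          rw [Matrix.mul_add, Matrix.add_mul, e0, e2]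
        rw [Matrix.mul_assoc (c9 (Bm Y)), this]
    _ = Gm G κ α * (Pa κ + Rm Y) := by
        rw [← Matrix.mul_assoc (c9 (Bm Y)), c9_mul, D.BQ, ← Matrix.mul_assoc, ← Matrix.mul_assoc,
          Matrix.mul_assoc (Gm G κ α) (c9 _), c9_mul, D.QQPP, c9_one, Matrix.mul_one]

/-- `S G_α A_b = (T + 1/2) G_α P_b`. -/
theorem Th_Ab (α : Fin 16) :
    Sm G Y Q * (Gm G κ α * Ab P) = (Tm G Y + (1 / 2 : ℝ) • 1) * Gm G κ α * Pb κ := by
  unfold Sm Ab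
  rw [Pb_c9, ← Matrix.mul_assoc (Gm G κ α), Gm_c9, ← Matrix.mul_assoc, ← Matrix.mul_assoc,
    Matrix.mul_assoc (Tm G Y + (1 / 2 : ℝ) • 1) (c16 _) (c16 _), c16_mul, D.QQPP, c16_one,
    Matrix.mul_one]

/-- **`W_α = I G_α A`.** -/
theorem W_eq (α : Fin 16) : Wm G Y α = Im G Y Q * (Gm G κ α * Am Y P Q) := by
  have h1 : Im G Y Q * (Gm G κ α * Am Y P Q) =
      (1 / 3 : ℝ) • (GG G κ * (Sm G Y Q * (Gm G κ α * Aa Y Q) + Sm G Y Q * (Gm G κ α * Ab P))) := by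
    unfold Im Am
    rw [Matrix.mul_smul, Matrix.mul_smul, ← Matrix.mul_add (Sm G Y Q), ← Matrix.mul_add (Gm G κ α),
      ← Matrix.mul_assoc (GG G κ)]
  rw [h1, D.Th_Aa G, D.Th_Ab G]
  have h2 : Wm G Y α = Wm G Y α * Pa κ + Wm G Y α * Pb κ := by
    rw [← Matrix.mul_add, Pa_add_Pb, Matrix.mul_one]
  have e : ((1 / 3 : ℝ) • Tm G Y + (1 / 6 : ℝ) • (1 : Matrix (Fin 16 × κ) (Fin 16 × κ) ℝ)) =
      (1 / 3 : ℝ) • (Tm G Y + (1 / 2 : ℝ) • 1) := by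
    rw [smul_add, smul_smul]
    norm_num
  rw [h2, K3, K4, e, Matrix.mul_smul (GG G κ), Matrix.smul_mul, Matrix.smul_mul, ← smul_add,
    Matrix.mul_add (GG G κ) (Gm G κ α * _)]
  simp only [Matrix.mul_assoc]

end Dat

end

end Crest.Agent.R330.Lin561
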