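import Crest.Agent.R330.NeutL_45
import Crest.Agent.R330.Char_973

/-!
# Neutrality, no hypothesis on characters (row 330, section 5.3), helper45
-/

set_option autoImplicit false

noncomputable section

open scoped InnerProductSpace BigOperators

namespace Crest.Agent.R330.NeutC45

open Crest.MathPhysics.MatrixQM Crest.Agent.R330 Crest.Agent.R330.Om0331 Crest.Agent.R330.Neut45
  Crest.Agent.R330.Defs478 Crest.Agent.R330.NeutL45

variable {N : ℕ} {F : Type*} [NormedAddCommGroup F] [InnerProductSpace ℂ F]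
  [FiniteDimensional ℂ F] {b : ColorBasis N} {M : FermionRep N F} (R : GaugeAction b M)

/-- Every vacuum of a gauge-invariant `J` is fixed by the gauge group. -/
theorem rho_fix {J : Matrix (Idx N) (Idx N) ℝ} (hJ : ∀ g, J * adI b g = adI b g * J)
    {Ω : F} (h : IsVac (tht M) J Ω) (g : Matrix.specialUnitaryGroup (Fin N) ℂ) :
    R.ρ g Ω = Ω :=
  rho_fix_of_char R (fun χ g => Char973.char_trivial χ g) hJ h g

/-- **Neutrality, closed form.** -/
theorem neutral_closed (G : GammaNine) {S : Matrix (Idx N) (Idx N) ℝ} (hS : S.transpose = S)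
    (hSS : S * S = 1) (hG : S * tens N (Gam G) = tens N (Gam G) * S)
    (hG' : S * tens N (Gamp G) = tens N (Gamp G) * S)
    {h : Matrix.specialUnitaryGroup (Fin N) ℂ} (hSh : S * adI b h = adI b h * S) {Ω : F}
    (hΩ : ∀ k, tht M k Ω =
      Complex.I • ∑ l, (((tens N (Gam G) * S) l k : ℝ) : ℂ) • tht M l Ω) : R.ρ h Ω = Ω :=
  neutral_char R (fun χ g => Char973.char_trivial χ g) G hS hSS hG hG' hSh hΩ

end Crest.Agent.R330.NeutC45

end
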