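import Crest.Agent.R330.LinEx2_674
import Crest.Agent.R330.LinF_561
import Crest.Agent.R330.NeutC_45

/-!
# Row 330, S5c: literal binding of the linear model at a fuzzy vacuum (helper674)

`c` with `IsVacCfg b c`; `Yc b c a = adE b (3 c_a)`.

* `so3_of_vac` : `So3 (Yc b c)`.
* `wlin_mulVec` : `wlin b G c α β A u = ((Wm G (Yc b c) α).mulVec u) (β, A)`.
-/

set_option autoImplicit false
set_option linter.unusedSectionVars false

open MeasureTheory Filter Topology
open scoped ContDiff InnerProductSpace ENNReal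
open Crest.MathPhysics.MatrixQM
open Crest.Agent.R330.Defs478 Crest.Agent.R330.S5Defs798 Crest.Agent.R330.CoerCfg87
  Crest.Agent.R330.NeutL45 Crest.Agent.R330.Lin561

noncomputable section

namespace Crest.Agent.R330.LinBind674

variable {N : ℕ}

/-- `[u, v]` and `ad`. -/
theorem adE_br (b : ColorBasis N) (u v : Fin (N ^ 2 - 1) → ℝ) :
    adE b (br b u v) = adE b u * adE b v - adE b v * adE b u := by
  ext C B
  rw [Matrix.sub_apply, Matrix.mul_apply, Matrix.mul_apply]
  unfold adE br
  have key : ∀ P Q, ∑ E, b.structConst E B C * b.structConst E P Q =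
      ∑ D, b.structConst P D C * b.structConst Q B D -
        ∑ D, b.structConst Q D C * b.structConst P B D := by
    intro P Q
    have h := Col962.jacobi b P Q B C
    rw [Finset.sum_add_distrib, Finset.sum_add_distrib] at h
    have e1 : ∑ E, b.structConst E B C * b.structConst E P Q =
        ∑ E, b.structConst P Q E * b.structConst E B C :=
      Finset.sum_congr rfl fun E _ => by rw [← Col962.f_cyc b E P Q, mul_comm]
    have e2 : ∑ D, b.structConst P D C * b.structConst Q B D =
        -∑ E, b.structConst Q B E * b.structConst E P C := by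
      rw [← Finset.sum_neg_distrib]
      exact Finset.sum_congr rfl fun E _ => by rw [Col962.f_swap12 b P E C]; ring
    have e3 : ∑ D, b.structConst Q D C * b.structConst P B D =
        ∑ E, b.structConst B P E * b.structConst E Q C :=
      Finset.sum_congr rfl fun E _ => by
        rw [Col962.f_swap12 b Q E C, Col962.f_swap12 b B P E]; ring
    rw [e1, e2, e3]
    linarith
  have hL : ∑ A, b.structConst A B C * ∑ P, ∑ Q, b.structConst A P Q * u P * v Q =
      ∑ P, ∑ Q, (∑ E, b.structConst E B C * b.structConst E P Q) * (u P * v Q) := by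
    simp only [Finset.mul_sum, Finset.sum_mul]
    rw [Finset.sum_comm]
    refine Finset.sum_congr rfl fun P _ => ?_
    rw [Finset.sum_comm]
    exact Finset.sum_congr rfl fun Q _ => Finset.sum_congr rfl fun E _ => by ring
  have hR1 : ∑ D, (∑ A, b.structConst A D C * u A) * ∑ A, b.structConst A B D * v A =
      ∑ P, ∑ Q, (∑ D, b.structConst P D C * b.structConst Q B D) * (u P * v Q) := by
    have e : ∀ D, (∑ A, b.structConst A D C * u A) * ∑ A, b.structConst A B D * v A =
        ∑ P, ∑ Q, b.structConst P D C * b.structConst Q B D * (u P * v Q) := by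
      intro D
      rw [Finset.sum_mul_sum]
      exact Finset.sum_congr rfl fun P _ => Finset.sum_congr rfl fun Q _ => by ring
    simp only [e, Finset.sum_mul]
    rw [Finset.sum_comm]
    exact Finset.sum_congr rfl fun P _ => Finset.sum_comm
  have hR2 : ∑ D, (∑ A, b.structConst A D C * v A) * ∑ A, b.structConst A B D * u A =
      ∑ P, ∑ Q, (∑ D, b.structConst Q D C * b.structConst P B D) * (u P * v Q) := by
    have e : ∀ D, (∑ A, b.structConst A D C * v A) * ∑ A, b.structConst A B D * u A =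
        ∑ P, ∑ Q, b.structConst Q D C * b.structConst P B D * (u P * v Q) := by
      intro D
      rw [mul_comm, Finset.sum_mul_sum]
      exact Finset.sum_congr rfl fun P _ => Finset.sum_congr rfl fun Q _ => by ring
    simp only [e, Finset.sum_mul]
    rw [Finset.sum_comm]
    exact Finset.sum_congr rfl fun P _ => Finset.sum_comm
  rw [hL, hR1, hR2, ← Finset.sum_sub_distrib]
  refine Finset.sum_congr rfl fun P _ => ?_
  rw [← Finset.sum_sub_distrib]
  exact Finset.sum_congr rfl fun Q _ => by rw [key, sub_mul]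

/-- `Y_a = ad (3 c_a)`. -/
def Yc (b : ColorBasis N) (c : Cfg N) (a : Fin 3) :
    Matrix (Fin (N ^ 2 - 1)) (Fin (N ^ 2 - 1)) ℝ :=
  adE b (fun A => 3 * c (Fin.castLE (by norm_num) a, A))

theorem vac_lo {b : ColorBasis N} {c : Cfg N} (h : IsVacCfg b c) (i : Fin 3)
    (A : Fin (N ^ 2 - 1)) :
    c (lo i, A) / 3 = br b (comp c (lo (i + 1))) (comp c (lo (i + 2))) A := by
  have h1 := h.1
  unfold Vcyc at h1
  rw [Finset.sum_eq_zero_iff_of_nonneg fun i _ => Finset.sum_nonneg fun A _ => sq_nonneg _] at h1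
  have h2 := h1 i (Finset.mem_univ i)
  rw [Finset.sum_eq_zero_iff_of_nonneg fun A _ => sq_nonneg _] at h2
  have h3 := pow_eq_zero_iff two_ne_zero |>.1 (h2 A (Finset.mem_univ A))
  unfold comp at h3 ⊢
  linarith

theorem vac_hi {b : ColorBasis N} {c : Cfg N} (h : IsVacCfg b c) (j : Fin 9) (hj : 3 ≤ (j : ℕ))
    (A : Fin (N ^ 2 - 1)) : c (j, A) = 0 := by
  have h1 := h.2
  unfold Vhi at h1
  rw [Finset.sum_eq_zero_iff_of_nonneg fun i _ => Finset.sum_nonneg fun A _ => sq_nonneg _] at h1
  have h2 := h1 ⟨(j : ℕ) - 3, by omega⟩ (Finset.mem_univ _)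
  rw [Finset.sum_eq_zero_iff_of_nonneg fun A _ => sq_nonneg _] at h2
  have h3 := pow_eq_zero_iff two_ne_zero |>.1 (h2 A (Finset.mem_univ A))
  have e : (⟨(⟨(j : ℕ) - 3, by omega⟩ : Fin 6) + 3, by omega⟩ : Fin 9) = j := by
    ext
    simp only
    omega
  unfold comp at h3
  simpa [e] using h3

/-- **(B1)** -/
theorem so3_of_vac {b : ColorBasis N} {c : Cfg N} (h : IsVacCfg b c) : So3 (Yc b c) := by
  have hc : ∀ i : Fin 3, Yc b c i =
      Yc b c (i + 1) * Yc b c (i + 2) - Yc b c (i + 2) * Yc b c (i + 1) := by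
    intro i
    unfold Yc
    rw [← adE_br]
    congr 1
    funext A
    rw [br_smul_smul]
    have h1 := vac_lo h i A
    have e : ∀ k : Fin 3, (Fin.castLE (by norm_num) k : Fin 9) = lo k := fun k => rfl
    simp only [e]
    unfold comp at h1
    have h2 : br b (fun A => c (lo (i + 1), A)) (fun A => c (lo (i + 2), A)) A =
      c (lo i, A) / 3 := h1.symm
    rw [h2]
    ring
  refine ⟨fun a => adE_transpose b _, ?_, ?_, ?_⟩
  · exact (hc 2).symm
  · exact (hc 0).symm
  · exact (hc 1).symm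

theorem sum_lo (f : Fin 9 → ℝ) (hf : ∀ j : Fin 9, 3 ≤ (j : ℕ) → f j = 0) :
    ∑ j, f j = ∑ a : Fin 3, f (Fin.castLE (by norm_num) a) := by
  rw [Fin.sum_univ_succ, Fin.sum_univ_succ, Fin.sum_univ_succ,
    Finset.sum_eq_zero (s := Finset.univ) (f := fun i : Fin 6 => f i.succ.succ.succ),
    Fin.sum_univ_three]
  · simp only [add_zero]
    rw [← add_assoc]
    rfl
  · intro i _
    exact hf _ (by simp)

/-- **(B2)** -/
theorem wlin_mulVec {b : ColorBasis N} {c : Cfg N} (h : IsVacCfg b c) (G : GammaNine)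
    (α β : Fin 16) (A : Fin (N ^ 2 - 1)) (u : Cfg N) :
    wlin b G c α β A u = ((Wm G (Yc b c) α).mulVec (fun k => u k)) (β, A) := by
  rw [wlin_eq]
  -- the quadratic part
  have hW : ∀ (j : Fin 9) (B : Fin (N ^ 2 - 1)), Wm G (Yc b c) α (β, A) (j, B) =
      (∑ a : Fin 3, G.γ2 (Fin.castLE (by norm_num) a) j α β *
        (∑ D, b.structConst D B A * c (Fin.castLE (by norm_num) a, D))) -
      (if A = B then cc j * (Gam G * G.γ j) α β else 0) := by
    intro j B
    unfold Wm
    simp only [Matrix.sub_apply, Matrix.smul_apply, Matrix.add_apply, Matrix.kroneckerMap_apply,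
      Matrix.one_apply, mc, ga, Yc, adE, smul_eq_mul, mul_ite, mul_one, mul_zero]
    congr 1
    rw [Fin.sum_univ_three]
    have e : ∀ a : Fin 3, ∑ D, b.structConst D B A * (3 * c (Fin.castLE (by norm_num) a, D)) =
        3 * ∑ D, b.structConst D B A * c (Fin.castLE (by norm_num) a, D) := by
      intro a
      rw [Finset.mul_sum]
      exact Finset.sum_congr rfl fun D _ => by ring
    rw [e, e, e]
    ring
  have hR : ((Wm G (Yc b c) α).mulVec (fun k => u k)) (β, A) =
      (∑ j : Fin 9, ∑ B, (∑ a : Fin 3, G.γ2 (Fin.castLE (by norm_num) a) j α β *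
        (∑ D, b.structConst D B A * c (Fin.castLE (by norm_num) a, D))) * u (j, B)) -
      ∑ j : Fin 9, cc j * u (j, A) * (Gam G * G.γ j) α β := by
    rw [Matrix.mulVec, dotProduct, Fintype.sum_prod_type]
    simp only [hW, sub_mul, Finset.sum_sub_distrib]
    congr 1
    refine Finset.sum_congr rfl fun j _ => ?_
    rw [Finset.sum_eq_single A]
    · rw [if_pos rfl]
      ring
    · intro B _ hB
      rw [if_neg (Ne.symm hB), zero_mul]
    · intro h; exact absurd (Finset.mem_univ _) h
  rw [hR]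
  congr 1
  -- both halves
  have h1 : ∑ B : Fin (N ^ 2 - 1), ∑ C : Fin (N ^ 2 - 1), ∑ i : Fin 9, ∑ j : Fin 9,
      1 / 2 * b.structConst A B C * (c (i, B) * u (j, C) + u (i, B) * c (j, C)) * G.γ2 i j α β =
      ∑ B : Fin (N ^ 2 - 1), ∑ C : Fin (N ^ 2 - 1), ∑ i : Fin 9, ∑ j : Fin 9,
      b.structConst A B C * (c (i, B) * u (j, C)) * G.γ2 i j α β := by
    have e1 : ∑ B : Fin (N ^ 2 - 1), ∑ C : Fin (N ^ 2 - 1), ∑ i : Fin 9, ∑ j : Fin 9,
        b.structConst A B C * (u (i, B) * c (j, C)) * G.γ2 i j α β =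
        ∑ B : Fin (N ^ 2 - 1), ∑ C : Fin (N ^ 2 - 1), ∑ i : Fin 9, ∑ j : Fin 9,
        b.structConst A B C * (c (i, B) * u (j, C)) * G.γ2 i j α β := by
      rw [Finset.sum_comm]
      refine Finset.sum_congr rfl fun B _ => Finset.sum_congr rfl fun C _ => ?_
      rw [Finset.sum_comm]
      refine Finset.sum_congr rfl fun i _ => Finset.sum_congr rfl fun j _ => ?_
      have hg : G.γ2 j i α β = -G.γ2 i j α β := by
        rw [Gam962.g2_swap G i j, Matrix.neg_apply]
      rw [Col962.f_swap23 b A B C, hg]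
      ring
    have e2 : ∑ B : Fin (N ^ 2 - 1), ∑ C : Fin (N ^ 2 - 1), ∑ i : Fin 9, ∑ j : Fin 9,
        1 / 2 * b.structConst A B C * (c (i, B) * u (j, C) + u (i, B) * c (j, C)) * G.γ2 i j α β =
        1 / 2 * (∑ B : Fin (N ^ 2 - 1), ∑ C : Fin (N ^ 2 - 1), ∑ i : Fin 9, ∑ j : Fin 9,
        b.structConst A B C * (c (i, B) * u (j, C)) * G.γ2 i j α β) +
        1 / 2 * ∑ B : Fin (N ^ 2 - 1), ∑ C : Fin (N ^ 2 - 1), ∑ i : Fin 9, ∑ j : Fin 9,
        b.structConst A B C * (u (i, B) * c (j, C)) * G.γ2 i j α β := by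
      simp only [Finset.mul_sum, ← Finset.sum_add_distrib]
      refine Finset.sum_congr rfl fun B _ => Finset.sum_congr rfl fun C _ =>
        Finset.sum_congr rfl fun i _ => Finset.sum_congr rfl fun j _ => ?_
      ring
    rw [e2, e1]
    ring
  rw [h1]
  -- only the first three directions of `c`
  have h2 : ∀ B C : Fin (N ^ 2 - 1), ∑ i : Fin 9, ∑ j : Fin 9,
      b.structConst A B C * (c (i, B) * u (j, C)) * G.γ2 i j α β =
      ∑ a : Fin 3, ∑ j : Fin 9, b.structConst A B C *
        (c (Fin.castLE (by norm_num) a, B) * u (j, C)) *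
          G.γ2 (Fin.castLE (by norm_num) a) j α β := by
    intro B C
    refine sum_lo (fun i => ∑ j : Fin 9, b.structConst A B C * (c (i, B) * u (j, C)) *
      G.γ2 i j α β) fun i hi => ?_
    simp only [vac_hi h i hi]
    simp
  simp only [h2]
  have h3 : ∀ (j : Fin 9) (B : Fin (N ^ 2 - 1)),
      (∑ a : Fin 3, G.γ2 (Fin.castLE (by norm_num) a) j α β *
        (∑ D, b.structConst D B A * c (Fin.castLE (by norm_num) a, D))) * u (j, B) =
      ∑ D, ∑ a : Fin 3, b.structConst A D B *
        (c (Fin.castLE (by norm_num) a, D) * u (j, B)) *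
          G.γ2 (Fin.castLE (by norm_num) a) j α β := by
    intro j B
    rw [Finset.sum_comm, Finset.sum_mul]
    refine Finset.sum_congr rfl fun a _ => ?_
    rw [Finset.mul_sum, Finset.sum_mul]
    refine Finset.sum_congr rfl fun D _ => ?_
    rw [← Col962.f_cyc b A D B]
    ring
  simp only [h3]
  -- reorder the sums
  calc ∑ B : Fin (N ^ 2 - 1), ∑ C : Fin (N ^ 2 - 1), ∑ a : Fin 3, ∑ j : Fin 9,
        b.structConst A B C * (c (Fin.castLE (by norm_num) a, B) * u (j, C)) *
          G.γ2 (Fin.castLE (by norm_num) a) j α β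
      = ∑ B : Fin (N ^ 2 - 1), ∑ C : Fin (N ^ 2 - 1), ∑ j : Fin 9, ∑ a : Fin 3,
        b.structConst A B C * (c (Fin.castLE (by norm_num) a, B) * u (j, C)) *
          G.γ2 (Fin.castLE (by norm_num) a) j α β :=
        Finset.sum_congr rfl fun B _ => Finset.sum_congr rfl fun C _ => Finset.sum_comm
    _ = ∑ B : Fin (N ^ 2 - 1), ∑ j : Fin 9, ∑ C : Fin (N ^ 2 - 1), ∑ a : Fin 3,
        b.structConst A B C * (c (Fin.castLE (by norm_num) a, B) * u (j, C)) *
          G.γ2 (Fin.castLE (by norm_num) a) j α β :=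
        Finset.sum_congr rfl fun B _ => Finset.sum_comm
    _ = ∑ j : Fin 9, ∑ B : Fin (N ^ 2 - 1), ∑ C : Fin (N ^ 2 - 1), ∑ a : Fin 3,
        b.structConst A B C * (c (Fin.castLE (by norm_num) a, B) * u (j, C)) *
          G.γ2 (Fin.castLE (by norm_num) a) j α β := Finset.sum_comm
    _ = ∑ j : Fin 9, ∑ C : Fin (N ^ 2 - 1), ∑ B : Fin (N ^ 2 - 1), ∑ a : Fin 3,
        b.structConst A B C * (c (Fin.castLE (by norm_num) a, B) * u (j, C)) *
          G.γ2 (Fin.castLE (by norm_num) a) j α β :=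
        Finset.sum_congr rfl fun j _ => Finset.sum_comm

end Crest.Agent.R330.LinBind674

end
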