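import Crest.Agent.R330.LinB_561

/-!
# Row 330, S5c: linear model at a fuzzy vacuum, part C: Kronecker identities (helper561)

`T_sq : T² + T = 1 ⊗ C`, `T_Gm : T G_α P_a = G_α R + Γ_α Div`, `Dv_Rm : Div R = -Div`,
`W_Pa`, `W_Pb` : the potential coefficients through `Γ`, `T`, `R`.
-/

set_option autoImplicit false
set_option linter.unusedSimpArgs false

open Matrix Crest.MathPhysics.MatrixQM Crest.Agent.R330.Gam962 Crest.Agent.R330.Defs478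
open scoped Kronecker

namespace Crest.Agent.R330.Lin561

noncomputable section

variable (G : GammaNine)

/-! ## 16 × 9 identities -/

theorem q0g1 : q G 0 * G.γ 1 = -G.γ 2 := by
  rw [q0_eq, mul_assoc, g12, mul_neg, gg]
theorem q0g2 : q G 0 * G.γ 2 = G.γ 1 := by
  rw [q0_eq, mul_assoc, sq_one, mul_one]
theorem q1g0 : q G 1 * G.γ 0 = G.γ 2 := by
  rw [q1_eq, neg_mul, mul_assoc, g02, mul_neg, neg_neg, gg]
theorem q1g2 : q G 1 * G.γ 2 = -G.γ 0 := by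
  rw [q1_eq, neg_mul, mul_assoc, sq_one, mul_one]
theorem q2g0 : q G 2 * G.γ 0 = -G.γ 1 := by
  rw [q2_eq, mul_assoc, g01, mul_neg, gg]
theorem q2g1 : q G 2 * G.γ 1 = G.γ 0 := by
  rw [q2_eq, mul_assoc, sq_one, mul_one]
theorem q0g0 : q G 0 * G.γ 0 = Gam G := by
  rw [q, castLE0, mul_assoc, sq_one, mul_one]
theorem q1g1 : q G 1 * G.γ 1 = Gam G := by
  rw [q, castLE1, mul_assoc, sq_one, mul_one]
theorem q2g2 : q G 2 * G.γ 2 = Gam G := by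
  rw [q, castLE2, mul_assoc, sq_one, mul_one]

theorem sum_rr (a : Fin 3) (f : Fin 9 → ℝ) (j : Fin 9) :
    ∑ c, f c * rr a c j =
      f 0 * rr a 0 j + f 1 * rr a 1 j + f 2 * rr a 2 j := by
  have h : ∀ c : Fin 9, 3 ≤ (c : ℕ) → rr a c j = 0 := by
    intro c hc
    fin_cases a <;> fin_cases c <;> simp_all [rr]
  rw [Fin.sum_univ_succ, Fin.sum_univ_succ, Fin.sum_univ_succ]
  rw [Finset.sum_eq_zero (s := Finset.univ)
    (f := fun i : Fin 6 => f i.succ.succ.succ * rr a i.succ.succ.succ j)]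
  · simp only [Fin.succ_zero_eq_one, Fin.succ_one_eq_two, add_zero]
    ring
  · intro i _
    rw [h _ (by simp), mul_zero]

theorem mul_pa (X : Matrix (Fin 16) (Fin 9) ℝ) (β : Fin 16) (j : Fin 9) :
    (X * pa) β j = if (j : ℕ) < 3 then X β j else 0 := by
  rw [pa, mul_diagonal]; split_ifs <;> simp

theorem mul_pb (X : Matrix (Fin 16) (Fin 9) ℝ) (β : Fin 16) (j : Fin 9) :
    (X * pb) β j = if (j : ℕ) < 3 then 0 else X β j := by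
  rw [pb, Matrix.mul_sub, Matrix.mul_one, Matrix.sub_apply, mul_pa]; split_ifs <;> simp

theorem rr_col_ge (a : Fin 3) (c j : Fin 9) (hj : 3 ≤ (j : ℕ)) : rr a c j = 0 := by
  fin_cases a <;> fin_cases j <;> simp_all [rr]

theorem gΓ_row (α β : Fin 16) (a : Fin 3) (j : Fin 9) :
    (gΓ G α * row a) β j = if (j : ℕ) = (a : ℕ) then Gam G β α else 0 := by
  rw [mul_apply]
  simp [gΓ, row]

/-- (I1) -/
theorem I1 (α : Fin 16) (a : Fin 3) :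
    q G a * gcol G α * pa = gcol G α * rr a + gΓ G α * row a := by
  ext β j
  rw [mul_pa, Matrix.add_apply, gΓ_row, mul_gcol]
  have h1 : (gcol G α * rr a) β j = ∑ c, (G.γ c) β α * rr a c j := by
    rw [mul_apply]
    exact Finset.sum_congr rfl fun c _ => by rw [gcol, g_symm G c α β]
  rw [h1, sum_rr]
  by_cases hj : (j : ℕ) < 3
  · rw [if_pos hj]
    obtain rfl | rfl | rfl : j = 0 ∨ j = 1 ∨ j = 2 := by
      rcases j with ⟨j, hj'⟩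
      simp only at hj
      interval_cases j <;> simp
    all_goals
      fin_cases a <;>
      simp [rr, q0g0, q0g1, q0g2, q1g0, q1g1, q1g2, q2g0, q2g1, q2g2]
  · rw [if_neg hj]
    rw [rr_col_ge a 0 j (by omega), rr_col_ge a 1 j (by omega), rr_col_ge a 2 j (by omega)]
    rw [if_neg (by omega)]
    simp

theorem q_anti (a : Fin 3) (α β : Fin 16) : q G a β α = -q G a α β := by
  have h := congrFun (congrFun (q_transpose G a) α) β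
  rw [transpose_apply, neg_apply] at h
  exact h

theorem g2_eq_q (α β : Fin 16) :
    G.γ2 0 1 α β = q G 2 α β ∧ G.γ2 1 0 α β = -q G 2 α β ∧
    G.γ2 1 2 α β = q G 0 α β ∧ G.γ2 2 1 α β = -q G 0 α β ∧
    G.γ2 2 0 α β = q G 1 α β ∧ G.γ2 0 2 α β = -q G 1 α β := by
  have h1 : G.γ2 0 1 = q G 2 := by rw [g2_ne G (by decide), q2_eq]
  have h2 : G.γ2 1 2 = q G 0 := by rw [g2_ne G (by decide), q0_eq]
  have h3 : G.γ2 2 0 = q G 1 := by rw [g2_ne G (by decide), q1_eq, g02]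
  refine ⟨by rw [h1], ?_, by rw [h2], ?_, by rw [h3], ?_⟩
  · rw [g2_swap G 0 1, h1, neg_apply]
  · rw [g2_swap G 1 2, h2, neg_apply]
  · rw [g2_swap G 2 0, h3, neg_apply]

/-- (I7a) -/
theorem I7a (α : Fin 16) (a : Fin 3) : ga G α a * pa = Gam G * gcol G α * rr a := by
  ext β j
  rw [mul_pa, gcol_mul, sum_rr]
  have e0 : Gam G * G.γ 0 = q G 0 := rfl
  have e1 : Gam G * G.γ 1 = q G 1 := rfl
  have e2 : Gam G * G.γ 2 = q G 2 := rfl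
  obtain ⟨g1, g2, g3, g4, g5, g6⟩ := g2_eq_q G α β
  rw [e0, e1, e2, q_anti G 0, q_anti G 1, q_anti G 2]
  by_cases hj : (j : ℕ) < 3
  · rw [if_pos hj]
    obtain rfl | rfl | rfl : j = 0 ∨ j = 1 ∨ j = 2 := by
      rcases j with ⟨j, hj'⟩
      simp only at hj
      interval_cases j <;> simp
    all_goals
      fin_cases a <;>
      simp [rr, ga, castLE0, castLE1, castLE2, g1, g2, g3, g4, g5, g6, g2_self]
  · rw [if_neg hj]
    rw [rr_col_ge a 0 j (by omega), rr_col_ge a 1 j (by omega), rr_col_ge a 2 j (by omega)]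
    simp

/-- (I7b) -/
theorem I7b (α : Fin 16) : -(mc G α * pa) = (1 / 3 : ℝ) • (Gam G * gcol G α * pa) := by
  ext β j
  rw [Matrix.neg_apply, Matrix.smul_apply, mul_pa, mul_pa, mul_gcol, mc]
  by_cases hj : (j : ℕ) < 3
  · rw [if_pos hj, if_pos hj, cc, if_pos hj]
    have : (Gam G * G.γ j) β α = -(Gam G * G.γ j) α β := by
      obtain rfl | rfl | rfl : j = 0 ∨ j = 1 ∨ j = 2 := by
        rcases j with ⟨j, hj'⟩
        simp only at hj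
        interval_cases j <;> simp
      · exact q_anti G 0 α β
      · exact q_anti G 1 α β
      · exact q_anti G 2 α β
    rw [this, smul_eq_mul]
    ring
  · rw [if_neg hj, if_neg hj]
    simp

/-- (I8a) -/
theorem I8a (α : Fin 16) (a : Fin 3) : ga G α a * pb = Gam G * q G a * gcol G α * pb := by
  ext β j
  rw [mul_pb, mul_pb, mul_gcol]
  by_cases hj : (j : ℕ) < 3
  · rw [if_pos hj, if_pos hj]
  · rw [if_neg hj, if_neg hj, ga, Gam_mul_q, neg_mul, neg_apply]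
    have hne : (Fin.castLE (by norm_num) a : Fin 9) ≠ j := by
      intro h
      apply hj
      rw [← h]
      simp
    rw [g2_asymm, g2_ne G hne]

/-- (I8b) -/
theorem I8b (α : Fin 16) : -(mc G α * pb) = (1 / 6 : ℝ) • (Gam G * gcol G α * pb) := by
  ext β j
  rw [Matrix.neg_apply, Matrix.smul_apply, mul_pb, mul_pb, mul_gcol, mc]
  by_cases hj : (j : ℕ) < 3
  · rw [if_pos hj, if_pos hj]
    simp
  · rw [if_neg hj, if_neg hj, cc, if_neg hj]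
    have : (Gam G * G.γ j) β α = (Gam G * G.γ j) α β := by
      have h : Gam G * G.γ j = (Gam G * G.γ j)ᵀ := by
        rw [transpose_mul, G.symm, Gam_transpose, mul_neg, Gam_anti G (by omega)]
      conv_lhs => rw [h]
      rw [transpose_apply]
    rw [this, smul_eq_mul]
    ring

/-! ## Kronecker identities -/

section kr

variable {l m n p : Type*}

theorem kron_sub_right (A : Matrix l m ℝ) (B C : Matrix n p ℝ) :
    A ⊗ₖ (B - C) = A ⊗ₖ B - A ⊗ₖ C := by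
  ext ⟨i, i'⟩ ⟨j, j'⟩
  simp [kroneckerMap_apply, mul_sub]

theorem kron_neg_right (A : Matrix l m ℝ) (B : Matrix n p ℝ) :
    A ⊗ₖ (-B) = -(A ⊗ₖ B) := by
  ext ⟨i, i'⟩ ⟨j, j'⟩
  simp [kroneckerMap_apply]

theorem kron_neg_left (A : Matrix l m ℝ) (B : Matrix n p ℝ) :
    (-A) ⊗ₖ B = -(A ⊗ₖ B) := by
  ext ⟨i, i'⟩ ⟨j, j'⟩
  simp [kroneckerMap_apply]

theorem kron_sub_left (A C : Matrix l m ℝ) (B : Matrix n p ℝ) :
    (A - C) ⊗ₖ B = A ⊗ₖ B - C ⊗ₖ B := by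
  ext ⟨i, i'⟩ ⟨j, j'⟩
  simp [kroneckerMap_apply, sub_mul]

end kr

section kron

variable {κ : Type*} [Fintype κ] [DecidableEq κ] (Y : Fin 3 → Matrix κ κ ℝ)

/-- antisymmetric matrices with the relations of `so(3)` -/
structure So3 : Prop where
  anti : ∀ a, (Y a)ᵀ = -Y a
  c01 : Y 0 * Y 1 - Y 1 * Y 0 = Y 2
  c12 : Y 1 * Y 2 - Y 2 * Y 1 = Y 0
  c20 : Y 2 * Y 0 - Y 0 * Y 2 = Y 1

/-- `T = Σ q_a ⊗ Y_a` -/
def Tm : Matrix (Fin 16 × κ) (Fin 16 × κ) ℝ :=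
  q G 0 ⊗ₖ Y 0 + q G 1 ⊗ₖ Y 1 + q G 2 ⊗ₖ Y 2
/-- the Casimir on colours -/
def Cas : Matrix κ κ ℝ := -(Y 0 * Y 0 + Y 1 * Y 1 + Y 2 * Y 2)
/-- `R = Σ r_a ⊗ Y_a` -/
def Rm : Matrix (Fin 9 × κ) (Fin 9 × κ) ℝ :=
  rr 0 ⊗ₖ Y 0 + rr 1 ⊗ₖ Y 1 + rr 2 ⊗ₖ Y 2
/-- divergence -/
def Dv : Matrix (Fin 1 × κ) (Fin 9 × κ) ℝ :=
  row 0 ⊗ₖ Y 0 + row 1 ⊗ₖ Y 1 + row 2 ⊗ₖ Y 2
/-- `G_α` -/
def Gm (κ : Type*) [DecidableEq κ] (α : Fin 16) : Matrix (Fin 16 × κ) (Fin 9 × κ) ℝ :=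
  gcol G α ⊗ₖ (1 : Matrix κ κ ℝ)
/-- `Γ_α` -/
def GΓ (κ : Type*) [DecidableEq κ] (α : Fin 16) : Matrix (Fin 16 × κ) (Fin 1 × κ) ℝ :=
  gΓ G α ⊗ₖ (1 : Matrix κ κ ℝ)
/-- `W_α` -/
def Wm (α : Fin 16) : Matrix (Fin 16 × κ) (Fin 9 × κ) ℝ :=
  (1 / 3 : ℝ) • (ga G α 0 ⊗ₖ Y 0 + ga G α 1 ⊗ₖ Y 1 + ga G α 2 ⊗ₖ Y 2) -
    mc G α ⊗ₖ (1 : Matrix κ κ ℝ)
/-- projections -/
def Pa (κ : Type*) [DecidableEq κ] : Matrix (Fin 9 × κ) (Fin 9 × κ) ℝ :=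
  pa ⊗ₖ (1 : Matrix κ κ ℝ)
/-- projections -/
def Pb (κ : Type*) [DecidableEq κ] : Matrix (Fin 9 × κ) (Fin 9 × κ) ℝ :=
  pb ⊗ₖ (1 : Matrix κ κ ℝ)
/-- `Γ ⊗ 1` -/
def GG (κ : Type*) [DecidableEq κ] : Matrix (Fin 16 × κ) (Fin 16 × κ) ℝ :=
  Gam G ⊗ₖ (1 : Matrix κ κ ℝ)

variable {Y}

theorem T_sq (h : So3 Y) : Tm G Y * Tm G Y + Tm G Y = (1 : Matrix (Fin 16) (Fin 16) ℝ) ⊗ₖ Cas Y := by
  have h2 : q G 2 ⊗ₖ Y 2 = q G 2 ⊗ₖ (Y 0 * Y 1) - q G 2 ⊗ₖ (Y 1 * Y 0) := by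
    rw [← kron_sub_right, h.c01]
  have h0 : q G 0 ⊗ₖ Y 0 = q G 0 ⊗ₖ (Y 1 * Y 2) - q G 0 ⊗ₖ (Y 2 * Y 1) := by
    rw [← kron_sub_right, h.c12]
  have h1 : q G 1 ⊗ₖ Y 1 = q G 1 ⊗ₖ (Y 2 * Y 0) - q G 1 ⊗ₖ (Y 0 * Y 2) := by
    rw [← kron_sub_right, h.c20]
  have hT : Tm G Y * Tm G Y =
      -((1 : Matrix (Fin 16) (Fin 16) ℝ) ⊗ₖ (Y 0 * Y 0)) -
        (1 : Matrix (Fin 16) (Fin 16) ℝ) ⊗ₖ (Y 1 * Y 1) -
        (1 : Matrix (Fin 16) (Fin 16) ℝ) ⊗ₖ (Y 2 * Y 2) -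
      q G 2 ⊗ₖ (Y 0 * Y 1) + q G 2 ⊗ₖ (Y 1 * Y 0) - q G 0 ⊗ₖ (Y 1 * Y 2) + q G 0 ⊗ₖ (Y 2 * Y 1)
      - q G 1 ⊗ₖ (Y 2 * Y 0) + q G 1 ⊗ₖ (Y 0 * Y 2) := by
    unfold Tm
    simp only [add_mul, mul_add, ← mul_kronecker_mul, q_sq, q01, q10, q12, q21, q20, q02,
      kron_neg_left]
    abel
  rw [hT]
  unfold Tm Cas
  rw [h0, h1, h2, kron_neg_right, kronecker_add, kronecker_add]
  abel

end kron

end

end Crest.Agent.R330.Lin561
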