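import Crest.Agent.R330.LinC_561

/-!
# Row 330, S5c: linear model at a fuzzy vacuum, part D: intertwining relations (helper561)
-/

set_option autoImplicit false
set_option linter.unusedSimpArgs false
set_option linter.unusedSectionVars false
set_option linter.unusedDecidableInType false
set_option linter.unusedFintypeInType false

open Matrix Crest.MathPhysics.MatrixQM Crest.Agent.R330.Gam962 Crest.Agent.R330.Defs478
open scoped Kronecker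

namespace Crest.Agent.R330.Lin561

noncomputable section

variable (G : GammaNine) {κ : Type*} [Fintype κ] [DecidableEq κ] {Y : Fin 3 → Matrix κ κ ℝ}

theorem kron_T {l m n p : Type*} (A : Matrix l m ℝ) (B : Matrix n p ℝ) :
    (A ⊗ₖ B)ᵀ = Aᵀ ⊗ₖ Bᵀ := by
  ext ⟨i, i'⟩ ⟨j, j'⟩
  rfl

/-- colour operator on the bosonic index space -/
def c9 (B : Matrix κ κ ℝ) : Matrix (Fin 9 × κ) (Fin 9 × κ) ℝ := (1 : Matrix (Fin 9) (Fin 9) ℝ) ⊗ₖ B
/-- colour operator on the fermionic index space -/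
def c16 (B : Matrix κ κ ℝ) : Matrix (Fin 16 × κ) (Fin 16 × κ) ℝ :=
  (1 : Matrix (Fin 16) (Fin 16) ℝ) ⊗ₖ B

theorem Gm_Rm (α : Fin 16) :
    Gm G κ α * Rm Y = (gcol G α * rr 0) ⊗ₖ Y 0 + (gcol G α * rr 1) ⊗ₖ Y 1 +
      (gcol G α * rr 2) ⊗ₖ Y 2 := by
  unfold Gm Rm
  simp only [Matrix.mul_add, ← mul_kronecker_mul, Matrix.one_mul]

theorem K1 (α : Fin 16) :
    Tm G Y * Gm G κ α * Pa κ = Gm G κ α * Rm Y + GΓ G κ α * Dv Y := by
  rw [Gm_Rm]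
  unfold Tm Gm Pa GΓ Dv
  simp only [Matrix.add_mul, Matrix.mul_add, ← mul_kronecker_mul, Matrix.one_mul, Matrix.mul_one,
    I1, add_kronecker]
  abel

theorem K2 (h : So3 Y) : Dv Y * Rm Y = -Dv Y := by
  have h2 : row 2 ⊗ₖ Y 2 = row 2 ⊗ₖ (Y 0 * Y 1) - row 2 ⊗ₖ (Y 1 * Y 0) := by
    rw [← kron_sub_right, h.c01]
  have h0 : row 0 ⊗ₖ Y 0 = row 0 ⊗ₖ (Y 1 * Y 2) - row 0 ⊗ₖ (Y 2 * Y 1) := by
    rw [← kron_sub_right, h.c12]
  have h1 : row 1 ⊗ₖ Y 1 = row 1 ⊗ₖ (Y 2 * Y 0) - row 1 ⊗ₖ (Y 0 * Y 2) := by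
    rw [← kron_sub_right, h.c20]
  have hL : Dv Y * Rm Y = -(row 2 ⊗ₖ (Y 0 * Y 1)) + row 2 ⊗ₖ (Y 1 * Y 0) -
      row 0 ⊗ₖ (Y 1 * Y 2) + row 0 ⊗ₖ (Y 2 * Y 1) - row 1 ⊗ₖ (Y 2 * Y 0) +
      row 1 ⊗ₖ (Y 0 * Y 2) := by
    unfold Dv Rm
    simp only [Matrix.add_mul, Matrix.mul_add, ← mul_kronecker_mul, row_rr_same, row0_rr1,
      row0_rr2, row1_rr0, row1_rr2, row2_rr0, row2_rr1, kron_neg_left, zero_kronecker]
    abel
  rw [hL]
  unfold Dv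
  rw [h0, h1, h2]
  abel

theorem K3 (α : Fin 16) :
    Wm G Y α * Pa κ = (1 / 3 : ℝ) • (GG G κ * Gm G κ α * (Pa κ + Rm Y)) := by
  have e : GG G κ * Gm G κ α * (Pa κ + Rm Y) = (Gam G * gcol G α * pa) ⊗ₖ (1 : Matrix κ κ ℝ) +
      ((Gam G * gcol G α * rr 0) ⊗ₖ Y 0 + (Gam G * gcol G α * rr 1) ⊗ₖ Y 1 +
        (Gam G * gcol G α * rr 2) ⊗ₖ Y 2) := by
    rw [Matrix.mul_add, Matrix.mul_assoc _ _ (Rm Y), Gm_Rm]
    unfold GG Gm Pa
    simp only [Matrix.mul_add, ← mul_kronecker_mul, Matrix.one_mul, Matrix.mul_one,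
      Matrix.mul_assoc]
  have e2 : (mc G α * pa) = -((1 / 3 : ℝ) • (Gam G * gcol G α * pa)) := by
    rw [← I7b, neg_neg]
  rw [e]
  unfold Wm Pa
  simp only [Matrix.sub_mul, Matrix.add_mul, Matrix.smul_mul, ← mul_kronecker_mul, Matrix.mul_one,
    I7a, e2, kron_neg_left, smul_kronecker, smul_add, sub_neg_eq_add]
  abel

theorem K4 (α : Fin 16) :
    Wm G Y α * Pb κ =
      GG G κ * ((1 / 3 : ℝ) • Tm G Y + (1 / 6 : ℝ) • 1) * Gm G κ α * Pb κ := by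
  have e2 : (mc G α * pb) = -((1 / 6 : ℝ) • (Gam G * gcol G α * pb)) := by
    rw [← I8b, neg_neg]
  have h1 : (1 : Matrix (Fin 16 × κ) (Fin 16 × κ) ℝ) =
      (1 : Matrix (Fin 16) (Fin 16) ℝ) ⊗ₖ (1 : Matrix κ κ ℝ) := one_kronecker_one.symm
  rw [h1]
  unfold Wm Pb GG Gm Tm
  simp only [Matrix.sub_mul, Matrix.add_mul, Matrix.mul_add, Matrix.smul_mul, Matrix.mul_smul,
    ← mul_kronecker_mul, Matrix.mul_one, Matrix.one_mul,
    I8a, e2, kron_neg_left, smul_kronecker, smul_add, sub_neg_eq_add]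

theorem K5 (α : Fin 16) : (Gm G κ α)ᵀ * Gm G κ α = 1 := by
  unfold Gm
  rw [kron_T, ← mul_kronecker_mul, gcol_gram, transpose_one, Matrix.one_mul,
    one_kronecker_one]

theorem Tm_transpose (h : So3 Y) : (Tm G Y)ᵀ = Tm G Y := by
  unfold Tm
  simp only [transpose_add, kron_T, q_transpose, h.anti, kron_neg_left,
    kron_neg_right, neg_neg]

theorem Rm_transpose (h : So3 Y) : (Rm Y)ᵀ = Rm Y := by
  unfold Rm
  simp only [transpose_add, kron_T, rr_transpose, h.anti, kron_neg_left,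
    kron_neg_right, neg_neg]

theorem GG_transpose : (GG G κ)ᵀ = -GG G κ := by
  unfold GG
  rw [kron_T, Gam_transpose, transpose_one, kron_neg_left]

theorem GG_sq : GG G κ * GG G κ = -1 := by
  unfold GG
  rw [← mul_kronecker_mul, Gam_sq, Matrix.one_mul, kron_neg_left, one_kronecker_one]

theorem GG_Tm : GG G κ * Tm G Y = Tm G Y * GG G κ := by
  unfold GG Tm
  simp only [Matrix.mul_add, Matrix.add_mul, ← mul_kronecker_mul, Matrix.one_mul, Matrix.mul_one,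
    Gam_q]

theorem Rm_Pa : Rm Y * Pa κ = Rm Y := by
  unfold Rm Pa
  simp only [Matrix.add_mul, ← mul_kronecker_mul, rr_pa, Matrix.mul_one]

theorem Pa_Rm : Pa κ * Rm Y = Rm Y := by
  unfold Rm Pa
  simp only [Matrix.mul_add, ← mul_kronecker_mul, pa_rr, Matrix.one_mul]

theorem Dv_Pa : Dv Y * Pa κ = Dv Y := by
  unfold Dv Pa
  simp only [Matrix.add_mul, ← mul_kronecker_mul, row_pa, Matrix.mul_one]

theorem Pa_Pa : Pa κ * Pa κ = Pa κ := by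
  unfold Pa
  rw [← mul_kronecker_mul, pa_mul_pa, Matrix.one_mul]

theorem Pa_transpose : (Pa κ)ᵀ = Pa κ := by
  unfold Pa
  rw [kron_T, pa_transpose, transpose_one]

theorem Pb_eq : Pb κ = 1 - Pa κ := by
  unfold Pb Pa pb
  rw [kron_sub_left, one_kronecker_one]

theorem Pb_transpose : (Pb κ)ᵀ = Pb κ := by
  rw [Pb_eq, transpose_sub, Pa_transpose, transpose_one]

theorem Pa_Pb : Pa κ * Pb κ = 0 := by
  rw [Pb_eq, Matrix.mul_sub, Matrix.mul_one, Pa_Pa, sub_self]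

theorem Pb_Pa : Pb κ * Pa κ = 0 := by
  rw [Pb_eq, Matrix.sub_mul, Matrix.one_mul, Pa_Pa, sub_self]

theorem Pb_Pb : Pb κ * Pb κ = Pb κ := by
  conv_lhs => rw [Pb_eq, Matrix.mul_sub, Matrix.mul_one]
  rw [← Pb_eq, Pb_Pa, sub_zero]

theorem Pa_add_Pb : Pa κ + Pb κ = 1 := by rw [Pb_eq, add_sub_cancel]

theorem Rm_Pb : Rm Y * Pb κ = 0 := by
  rw [Pb_eq, Matrix.mul_sub, Matrix.mul_one, Rm_Pa, sub_self]

theorem Pb_Rm : Pb κ * Rm Y = 0 := by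
  rw [Pb_eq, Matrix.sub_mul, Matrix.one_mul, Pa_Rm, sub_self]

/-! ### colour operators -/

theorem c9_mul (B C : Matrix κ κ ℝ) : c9 B * c9 C = c9 (B * C) := by
  unfold c9; rw [← mul_kronecker_mul, Matrix.one_mul]
theorem c16_mul (B C : Matrix κ κ ℝ) : c16 B * c16 C = c16 (B * C) := by
  unfold c16; rw [← mul_kronecker_mul, Matrix.one_mul]
theorem c9_one : c9 (1 : Matrix κ κ ℝ) = 1 := one_kronecker_one
theorem c16_one : c16 (1 : Matrix κ κ ℝ) = 1 := one_kronecker_one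
theorem c9_transpose (B : Matrix κ κ ℝ) : (c9 B)ᵀ = c9 Bᵀ := by
  unfold c9; rw [kron_T, transpose_one]
theorem c16_transpose (B : Matrix κ κ ℝ) : (c16 B)ᵀ = c16 Bᵀ := by
  unfold c16; rw [kron_T, transpose_one]
theorem c9_add (B C : Matrix κ κ ℝ) : c9 (B + C) = c9 B + c9 C := by
  unfold c9; rw [kronecker_add]
theorem c16_add (B C : Matrix κ κ ℝ) : c16 (B + C) = c16 B + c16 C := by
  unfold c16; rw [kronecker_add]
theorem c9_smul (r : ℝ) (B : Matrix κ κ ℝ) : c9 (r • B) = r • c9 B := by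
  unfold c9; rw [kronecker_smul]
theorem c16_smul (r : ℝ) (B : Matrix κ κ ℝ) : c16 (r • B) = r • c16 B := by
  unfold c16; rw [kronecker_smul]

theorem Gm_c9 (α : Fin 16) (B : Matrix κ κ ℝ) : Gm G κ α * c9 B = c16 B * Gm G κ α := by
  unfold Gm c9 c16
  rw [← mul_kronecker_mul, ← mul_kronecker_mul, Matrix.one_mul, Matrix.mul_one, Matrix.one_mul,
    Matrix.mul_one]

theorem GG_c16 (B : Matrix κ κ ℝ) : GG G κ * c16 B = c16 B * GG G κ := by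
  unfold GG c16
  rw [← mul_kronecker_mul, ← mul_kronecker_mul, Matrix.one_mul, Matrix.mul_one, Matrix.one_mul,
    Matrix.mul_one]

theorem Tm_c16 {B : Matrix κ κ ℝ} (hB : ∀ a, Y a * B = B * Y a) :
    Tm G Y * c16 B = c16 B * Tm G Y := by
  unfold Tm c16
  simp only [Matrix.mul_add, Matrix.add_mul, ← mul_kronecker_mul, Matrix.one_mul, Matrix.mul_one,
    hB]

theorem Rm_c9 {B : Matrix κ κ ℝ} (hB : ∀ a, Y a * B = B * Y a) :
    Rm Y * c9 B = c9 B * Rm Y := by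
  unfold Rm c9
  simp only [Matrix.mul_add, Matrix.add_mul, ← mul_kronecker_mul, Matrix.one_mul, Matrix.mul_one,
    hB]

theorem Pa_c9 (B : Matrix κ κ ℝ) : Pa κ * c9 B = c9 B * Pa κ := by
  unfold Pa c9
  rw [← mul_kronecker_mul, ← mul_kronecker_mul, Matrix.one_mul, Matrix.mul_one, Matrix.one_mul,
    Matrix.mul_one]

theorem Pb_c9 (B : Matrix κ κ ℝ) : Pb κ * c9 B = c9 B * Pb κ := by
  rw [Pb_eq, Matrix.sub_mul, Matrix.mul_sub, Pa_c9, Matrix.one_mul, Matrix.mul_one]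

/-! ### the Casimir -/

theorem Cas_comm (h : So3 Y) (a : Fin 3) : Y a * Cas Y = Cas Y * Y a := by
  have e2 := h.c01
  have e0 := h.c12
  have e1 := h.c20
  -- `[Y_a, Σ Y_b²] = 0`
  have key : Y a * (Y 0 * Y 0 + Y 1 * Y 1 + Y 2 * Y 2) =
      (Y 0 * Y 0 + Y 1 * Y 1 + Y 2 * Y 2) * Y a := by
    have s01 : Y 0 * Y 1 = Y 1 * Y 0 + Y 2 := by rw [← e2]; abel
    have s12 : Y 1 * Y 2 = Y 2 * Y 1 + Y 0 := by rw [← e0]; abel
    have s20 : Y 2 * Y 0 = Y 0 * Y 2 + Y 1 := by rw [← e1]; abel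
    fin_cases a
    · show Y 0 * (Y 0 * Y 0 + Y 1 * Y 1 + Y 2 * Y 2) = (Y 0 * Y 0 + Y 1 * Y 1 + Y 2 * Y 2) * Y 0
      have a1 : Y 0 * (Y 1 * Y 1) = Y 1 * Y 1 * Y 0 + Y 1 * Y 2 + Y 2 * Y 1 := by
        rw [← mul_assoc, s01, add_mul, mul_assoc (Y 1), s01, mul_add]
        simp only [mul_assoc]
      have a2 : Y 2 * Y 2 * Y 0 = Y 0 * (Y 2 * Y 2) + Y 1 * Y 2 + Y 2 * Y 1 := by
        rw [mul_assoc, s20, mul_add, ← mul_assoc (Y 2), s20, add_mul]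
        simp only [mul_assoc]
      rw [mul_add, mul_add, add_mul, add_mul, a1, a2, mul_assoc (Y 0)]
      abel
    · show Y 1 * (Y 0 * Y 0 + Y 1 * Y 1 + Y 2 * Y 2) = (Y 0 * Y 0 + Y 1 * Y 1 + Y 2 * Y 2) * Y 1
      have a1 : Y 1 * (Y 2 * Y 2) = Y 2 * Y 2 * Y 1 + Y 2 * Y 0 + Y 0 * Y 2 := by
        rw [← mul_assoc, s12, add_mul, mul_assoc (Y 2), s12, mul_add]
        simp only [mul_assoc]
      have a2 : Y 0 * Y 0 * Y 1 = Y 1 * (Y 0 * Y 0) + Y 2 * Y 0 + Y 0 * Y 2 := by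
        rw [mul_assoc, s01, mul_add, ← mul_assoc (Y 0), s01, add_mul]
        simp only [mul_assoc]
      rw [mul_add, mul_add, add_mul, add_mul, a1, a2, mul_assoc (Y 1)]
      abel
    · show Y 2 * (Y 0 * Y 0 + Y 1 * Y 1 + Y 2 * Y 2) = (Y 0 * Y 0 + Y 1 * Y 1 + Y 2 * Y 2) * Y 2
      have a1 : Y 2 * (Y 0 * Y 0) = Y 0 * Y 0 * Y 2 + Y 0 * Y 1 + Y 1 * Y 0 := by
        rw [← mul_assoc, s20, add_mul, mul_assoc (Y 0), s20, mul_add]
        simp only [mul_assoc]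
      have a2 : Y 1 * Y 1 * Y 2 = Y 2 * (Y 1 * Y 1) + Y 0 * Y 1 + Y 1 * Y 0 := by
        rw [mul_assoc, s12, mul_add, ← mul_assoc (Y 1), s12, add_mul]
        simp only [mul_assoc]
      rw [mul_add, mul_add, add_mul, add_mul, a1, a2, mul_assoc (Y 2)]
      abel
  unfold Cas
  rw [mul_neg, neg_mul, key]

theorem Cas_transpose (h : So3 Y) : (Cas Y)ᵀ = Cas Y := by
  unfold Cas
  simp only [transpose_neg, transpose_add, transpose_mul, h.anti, neg_mul, mul_neg, neg_neg]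

theorem Cas_eq (h : So3 Y) :
    Cas Y = (Y 0)ᵀ * Y 0 + (Y 1)ᵀ * Y 1 + (Y 2)ᵀ * Y 2 := by
  unfold Cas
  simp only [h.anti, neg_mul]
  abel

include G in
/-- the cubic identity: `(R² + R - C) (R + P_a) = 0` -/
theorem cubic (h : So3 Y) :
    (Rm Y * Rm Y + Rm Y - c9 (Cas Y)) * (Pa κ + Rm Y) = 0 := by
  have α : Fin 16 := 0
  have hD : Dv Y * (Pa κ + Rm Y) = 0 := by
    rw [Matrix.mul_add, Dv_Pa, K2 h, add_neg_cancel]
  have hT : Tm G Y * (Gm G κ α * (Pa κ + Rm Y)) = Gm G κ α * Rm Y * (Pa κ + Rm Y) := by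
    have e : Pa κ * (Pa κ + Rm Y) = Pa κ + Rm Y := by rw [Matrix.mul_add, Pa_Pa, Pa_Rm]
    calc Tm G Y * (Gm G κ α * (Pa κ + Rm Y))
        = Tm G Y * Gm G κ α * Pa κ * (Pa κ + Rm Y) := by
          rw [Matrix.mul_assoc _ (Pa κ), e, Matrix.mul_assoc]
      _ = Gm G κ α * Rm Y * (Pa κ + Rm Y) + GΓ G κ α * (Dv Y * (Pa κ + Rm Y)) := by
          rw [K1, Matrix.add_mul, Matrix.mul_assoc (GΓ G κ α)]
      _ = _ := by rw [hD, Matrix.mul_zero, add_zero]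
  have hc : Rm Y * (Pa κ + Rm Y) = (Pa κ + Rm Y) * Rm Y := by
    rw [Matrix.mul_add, Matrix.add_mul, Rm_Pa, Pa_Rm]
  have hTT : Tm G Y * (Tm G Y * (Gm G κ α * (Pa κ + Rm Y))) =
      Gm G κ α * Rm Y * Rm Y * (Pa κ + Rm Y) := by
    rw [hT, Matrix.mul_assoc (Gm G κ α), hc, ← Matrix.mul_assoc (Gm G κ α), ← Matrix.mul_assoc,
      hT, Matrix.mul_assoc _ (Pa κ + Rm Y) (Rm Y), ← hc]
    simp only [Matrix.mul_assoc]
  have h0 : (Tm G Y * Tm G Y + Tm G Y - c16 (Cas Y)) * (Gm G κ α * (Pa κ + Rm Y)) = 0 := by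
    have : Tm G Y * Tm G Y + Tm G Y - c16 (Cas Y) = 0 := by
      rw [T_sq G h]; exact sub_self _
    rw [this, Matrix.zero_mul]
  have h1 : Gm G κ α * ((Rm Y * Rm Y + Rm Y - c9 (Cas Y)) * (Pa κ + Rm Y)) = 0 := by
    rw [← h0]
    calc Gm G κ α * ((Rm Y * Rm Y + Rm Y - c9 (Cas Y)) * (Pa κ + Rm Y))
        = Gm G κ α * Rm Y * Rm Y * (Pa κ + Rm Y) + Gm G κ α * Rm Y * (Pa κ + Rm Y) -
            Gm G κ α * c9 (Cas Y) * (Pa κ + Rm Y) := by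
          rw [Matrix.sub_mul, Matrix.add_mul, Matrix.mul_sub, Matrix.mul_add]
          simp only [Matrix.mul_assoc]
      _ = Tm G Y * (Tm G Y * (Gm G κ α * (Pa κ + Rm Y))) + Tm G Y * (Gm G κ α * (Pa κ + Rm Y)) -
            c16 (Cas Y) * (Gm G κ α * (Pa κ + Rm Y)) := by
          rw [hTT, hT, Gm_c9, Matrix.mul_assoc (c16 (Cas Y))]
      _ = _ := by
          rw [Matrix.sub_mul, Matrix.add_mul, Matrix.mul_assoc (Tm G Y) (Tm G Y)]
  calc (Rm Y * Rm Y + Rm Y - c9 (Cas Y)) * (Pa κ + Rm Y)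
      = (Gm G κ α)ᵀ * Gm G κ α * ((Rm Y * Rm Y + Rm Y - c9 (Cas Y)) * (Pa κ + Rm Y)) := by
        rw [K5, Matrix.one_mul]
    _ = 0 := by rw [Matrix.mul_assoc, h1, Matrix.mul_zero]

end

end Crest.Agent.R330.Lin561
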