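import Crest.Agent.R330.LinD_561
import Mathlib.Analysis.Matrix.HermitianFunctionalCalculus
import Mathlib.Analysis.CStarAlgebra.ContinuousFunctionalCalculus.Commute
import Mathlib.Analysis.Matrix.PosDef

/-!
# Row 330, S5c: linear model at a fuzzy vacuum, part E: fourth roots (helper561)

`exists_root4` : a positive definite real matrix `B` has a symmetric fourth root `P` with inverse
`Q`, commuting with everything that commutes with `B`.
-/

set_option autoImplicit false

open Matrix

namespace Crest.Agent.R330.Lin561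

noncomputable section

variable {κ : Type*} [Fintype κ] [DecidableEq κ]

theorem exists_root4 {B : Matrix κ κ ℝ} (hB : B.PosDef) :
    ∃ P Q : Matrix κ κ ℝ, Pᵀ = P ∧ Qᵀ = Q ∧ P * Q = 1 ∧ Q * P = 1 ∧ P * P * (P * P) = B ∧
      ∀ X : Matrix κ κ ℝ, X * B = B * X → X * P = P * X ∧ X * Q = Q * X := by
  classical
  have hsa : IsSelfAdjoint B := hB.isHermitian.isSelfAdjoint
  set f : ℝ → ℝ := fun x => Real.sqrt (Real.sqrt x) with hf
  set P : Matrix κ κ ℝ := cfc f B with hP
  have hsp : ∀ x ∈ spectrum ℝ B, 0 < x := by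
    intro x hx
    rw [hB.isHermitian.spectrum_real_eq_range_eigenvalues] at hx
    obtain ⟨i, rfl⟩ := hx
    exact hB.eigenvalues_pos i
  have hfc : Continuous f := Real.continuous_sqrt.comp Real.continuous_sqrt
  have h4 : P * P * (P * P) = B := by
    rw [hP, ← cfc_mul f f B hfc.continuousOn hfc.continuousOn,
      ← cfc_mul (fun x => f x * f x) (fun x => f x * f x) B (hfc.mul hfc).continuousOn
        (hfc.mul hfc).continuousOn]
    conv_rhs => rw [← cfc_id ℝ B hsa]
    refine cfc_congr fun x hx => ?_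
    have hx0 := (hsp x hx).le
    simp only [hf, id, Real.mul_self_sqrt (Real.sqrt_nonneg x), Real.mul_self_sqrt hx0]
  have hPs : Pᵀ = P := by
    have : IsSelfAdjoint P := cfc_predicate f B
    have h := this.star_eq
    rw [star_eq_conjTranspose, conjTranspose_eq_transpose_of_trivial] at h
    exact h
  have hdet : IsUnit B.det := (Matrix.isUnit_iff_isUnit_det _).mp hB.isUnit
  have hPdet : IsUnit P.det := by
    rw [← h4] at hdet
    rw [det_mul, det_mul] at hdet
    exact isUnit_of_mul_isUnit_left (isUnit_of_mul_isUnit_left hdet)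
  refine ⟨P, P⁻¹, hPs, ?_, mul_nonsing_inv _ hPdet, nonsing_inv_mul _ hPdet, h4, ?_⟩
  · rw [transpose_nonsing_inv, hPs]
  · intro X hX
    have h1 : X * P = P * X := by
      have : Commute B X := hX.symm
      exact (this.cfc_real f).symm
    refine ⟨h1, ?_⟩
    calc X * P⁻¹ = P⁻¹ * P * X * P⁻¹ := by rw [nonsing_inv_mul _ hPdet, one_mul]
      _ = P⁻¹ * (X * P) * P⁻¹ := by rw [mul_assoc P⁻¹ P X, h1]
      _ = P⁻¹ * X * (P * P⁻¹) := by simp only [mul_assoc]
      _ = P⁻¹ * X := by rw [mul_nonsing_inv _ hPdet, mul_one]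

end

end Crest.Agent.R330.Lin561
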