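import Crest.Agent.R330.LinI_561
import Crest.Agent.R330.Par_478

/-!
# Row 330, S5c: the linear model at a vacuum configuration, with parity (helper501)

* `linModelEven` : `Lin561.linModel` with the extra conclusion `P₀ Ω = Ω` for every parity `P₀`.
-/

set_option autoImplicit false
set_option linter.unusedSectionVars false

open Matrix Crest.MathPhysics.MatrixQM Crest.Agent.R330.Gam962 Crest.Agent.R330.Defs478
open scoped Kronecker InnerProductSpace

namespace Crest.Agent.R330.LinEven501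

open Crest.Agent.R330.NeutL45 Crest.Agent.R330.CoerCfg87 Crest.Agent.R330.S5Defs798
open Crest.Agent.R330.Om0331 Crest.Agent.R330.Vacua303 Crest.Agent.R330.LinEx674
open Crest.Agent.R330.Weitz726 Crest.Agent.R330.Lin561 Crest.Agent.R330.SInd478

noncomputable section

variable {N : ℕ} (b : ColorBasis N) (G : GammaNine)

/-- **The linear model at a vacuum configuration.** -/
theorem linModelEven {F : Type} [NormedAddCommGroup F] [InnerProductSpace ℂ F]
    [FiniteDimensional ℂ F] [Nontrivial F] (M : FermionRep N F) (R : GaugeAction b M)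
    (c : Cfg N) (hc : IsVacCfg b c) :
    ∃ (A : Cfg N →ₗ[ℝ] Cfg N) (Ω : F) (I : VV N →ₗ[ℝ] VV N), VacPack b M R G c A Ω ∧
      LinW G (wlin b G c) I A ∧ IsCS I ∧ (∀ v, bop M I v Ω = 0) ∧
      ∀ P₀ : F →ₗ[ℂ] F, IsParity M G P₀ → P₀ Ω = Ω := by
  obtain ⟨P, Q, D⟩ := exists_dat (so3_Yc b hc)
  set X : Matrix (Idx N) (Idx N) ℝ := Im G (Yc b c) Q with hX
  have hXT : Xᵀ = -X := D.I_T G
  have hXX : X * X = -1 := D.I_sq G
  obtain ⟨Ω₀, h0, hvac⟩ := Neut45.exists_vac (cliff_tht M) (J := -X)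
    (by rw [transpose_neg, hXT]) (by rw [neg_mul_neg, hXX])
  set Ω : F := ((‖Ω₀‖⁻¹ : ℝ) : ℂ) • Ω₀ with hΩdef
  have hunit : ‖Ω‖ = 1 := by
    rw [hΩdef, norm_smul, Complex.norm_real, norm_inv, norm_norm,
      inv_mul_cancel₀ (norm_ne_zero_iff.2 h0)]
  have hvac' : Neut45.IsVac (tht M) (-X) Ω := by
    rw [Om0331.isVac_iff] at hvac ⊢
    intro k
    rw [hΩdef, map_smul, hvac k, smul_zero]
  have hk := (isVac_neg_iff (M := M) X Ω).1 hvac'
  have hvec := vac_vec M hk
  have hA : ∀ u v, ⟪AL (Am (Yc b c) P Q) u, v⟫_ℝ = ⟪u, AL (Am (Yc b c) P Q) v⟫_ℝ := by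
    intro u v
    rw [inner_eq_dot, inner_eq_dot, AL_apply, AL_apply]
    exact (dot_symm D.A_T _ _).symm
  have hW := linW b G hc D
  refine ⟨AL (Am (Yc b c) P Q), Ω, IL X, ?_, hW, isCS_IL hXT hXX, fun v => ?_, fun P₀ hP => ?_⟩
  · refine ⟨hA, fun u => ?_, fun u => ?_, fun h hh u => ?_, hunit, fun h hh => ?_, fun α x => ?_⟩
    · rw [inner_eq_dot, AL_apply]
      exact D.A_nonneg G _
    · have e1 : AL (Am (Yc b c) P Q) u = 0 ↔ Am (Yc b c) P Q *ᵥ WithLp.ofLp u = 0 := by
        rw [AL_apply]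
        constructor
        · intro h
          exact (WithLp.toLp_injective 2) h
        · intro h
          rw [h]
          rfl
      rw [e1, D.A_ker G]
      constructor
      · rintro ⟨z, hz⟩
        refine ⟨fun A => 3 * z (0, A), ?_⟩
        rw [← brk_eq b hc, ← hz]
      · rintro ⟨om, hom⟩
        refine ⟨fun p => om p.2 / 3, ?_⟩
        have e2 := brk_eq b hc (fun p => om p.2 / 3)
        have e3 : (fun A => 3 * ((fun p : Fin 1 × Fin (N ^ 2 - 1) => om p.2 / 3) (0, A))) = om := by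
          funext A
          simp only
          ring
        rw [e3, ← hom] at e2
        rw [← e2]
    · rw [AL_apply, AL_apply, act_eq, act_eq]
      congr 1
      rw [mulVec_mulVec, D.A_c9 (Yc_comm b hh), ← mulVec_mulVec]
    · refine NeutC45.neutral_closed R G (S := Sm G (Yc b c) Q) (D.S_T G) (D.S_sq G) ?_ ?_ ?_ ?_
      · rw [tens_eq_kron]
        exact (D.S_GG G).symm
      · rw [tens_eq_kron]
        exact D.S_kron G (q_Gamp G)
      · rw [adI_eq_kr]
        exact D.S_c16 G (Yc_comm b hh)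
      · rw [tens_eq_kron]
        exact hk
    · exact kill_gau b G hA M hW hvec α x
  · rw [bop_apply, ← hvec v, sub_self]
  · refine hP.even_of_anti (J := -X) (by rw [neg_mul_neg, hXX]) ?_ hvac'
    have e0 : tens N (Ovl693.G3 G) = tens N (Gamp G) := rfl
    have e1 : Sm G (Yc b c) Q * tens N (Gamp G) = tens N (Gamp G) * Sm G (Yc b c) Q := by
      rw [tens_eq_kron]
      exact D.S_kron G (q_Gamp G)
    have e2 : tens N (Gam G) * tens N (Gamp G) = -(tens N (Gamp G) * tens N (Gam G)) := by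
      rw [tens_mul, tens_mul, Gam_Gamp, tens_neg]
    have e3 : X = tens N (Gam G) * Sm G (Yc b c) Q := by
      rw [hX, tens_eq_kron]
      rfl
    rw [e0, e3, neg_mul, Matrix.mul_assoc, e1, ← Matrix.mul_assoc, e2, neg_mul, neg_neg, mul_neg,
      neg_neg, Matrix.mul_assoc]

end

end Crest.Agent.R330.LinEven501
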