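import Crest.Agent.R330.LinEx_674
import Crest.Agent.R330.WeitzG_726
import Crest.Agent.R330.S5Defs_798
import Crest.Agent.R330.Om0_331

/-!
# Row 330, S5c: the exact identity for the linearised charges (helper674)

* `trZ_wlin`, `lcharge_eq` : the linearised charges of helper798 as `chargeW`.
* `ex_le` : the identity of `LinEx_674` in the shape of helper350's `liouville_EX`.
* `bv_line` : the common kernel of the annihilation operators is at most a line.
-/

set_option autoImplicit false
set_option linter.unusedSectionVars false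

open MeasureTheory Filter Topology
open scoped ContDiff InnerProductSpace ENNReal
open Crest.MathPhysics.MatrixQM
open Crest.Agent.R330.IBP837 Crest.Agent.R330.Weitz726 Crest.Agent.R330.Defs478

noncomputable section

namespace Crest.Agent.R330.LinEx674

open Crest.Agent.R330.S5Defs798

variable {N : ℕ} {F : Type*} [NormedAddCommGroup F] [InnerProductSpace ℂ F]

theorem trZ_wlin (b : ColorBasis N) (G : GammaNine) (c : Cfg N) : TrZ G (wlin b G c) := by
  intro k x
  have h1 := trZ_wpot b G 1 1 k (c + x)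
  have h2 := trZ_wpot b G 1 1 k c
  have h3 := trZ_wpot b G 1 0 k x
  unfold wlin
  simp only [mul_sub, Finset.sum_sub_distrib, h1, h2, h3, sub_zero]

section

variable [FiniteDimensional ℂ F]

theorem lcharge_eq (b : ColorBasis N) (M : FermionRep N F) (G : GammaNine) (c : Cfg N)
    (α : Fin 16) (φ : Cfg N → F) (x : Cfg N) :
    lcharge b M G c α φ x = chargeW M G (wlin b G c) α φ x := by
  unfold lcharge chargeW dirac
  congr 1
  · unfold kin
    rw [Fintype.sum_prod_type]
    refine Finset.sum_congr rfl fun i _ => Finset.sum_congr rfl fun A _ => ?_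
    rw [dco_apply, Finset.smul_sum]
    exact Finset.sum_congr rfl fun β _ => by rw [smul_smul]
  · rw [vco_apply]

variable {M : FermionRep N F} {G : GammaNine}
  {W : Fin 16 → Fin 16 → Fin (N ^ 2 - 1) → Cfg N → ℝ} {I : VV N →ₗ[ℝ] VV N}
  {A B : Cfg N →ₗ[ℝ] Cfg N}

/-- The exact identity with the sums outside of the integrals. -/
theorem lin_exact' (h : LinW G W I A) (hI : IsCS I) (hT : TrZ G W)
    (hB : ∀ x y, ⟪B x, y⟫_ℝ = ⟪x, B y⟫_ℝ) (hAB : ∀ x, B (B x) = A x)
    {φ : Cfg N → F} (hφ : ContDiff ℝ 2 φ) (hc : HasCompactSupport φ) :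
    ∑ α, ∫ x, ‖chargeW M G W α φ x‖ ^ 2 =
      8 * (∑ k : Fin 9 × Fin (N ^ 2 - 1), ∫ x,
        ‖fderiv ℝ φ x (EuclideanSpace.single k 1) + A x k • φ x‖ ^ 2) +
      1 / 2 * ∑ j : Fin 16 × (Fin 9 × Fin (N ^ 2 - 1)), ∫ x,
        ‖bop M I (gv G j.1 (B (EuclideanSpace.single j.2 1))) (φ x)‖ ^ 2 := by
  have h1 : ContDiff ℝ 1 φ := hφ.of_le (by norm_num)
  rw [lin_exact h hI hT hB hAB hφ hc]
  congr 2
  · rw [integral_finsetSum]
    intro k _
    have hcont : Continuous fun x =>
        fderiv ℝ φ x (EuclideanSpace.single k 1) + A x k • φ x :=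
      (fderiv_apply_continuous h1 _).add ((acL A k).continuous.smul h1.continuous)
    refine (hcont.norm.pow 2).integrable_of_hasCompactSupport ?_
    refine HasCompactSupport.of_support_subset_isCompact hc fun x hx => ?_
    by_contra hx'
    apply hx
    have e1 : fderiv ℝ φ x = 0 := by
      by_contra h'
      exact hx' (support_fderiv_subset ℝ h')
    have e2 : φ x = 0 := image_eq_zero_of_notMem_tsupport hx'
    simp [e1, e2]
  · unfold nsum
    rw [Fintype.sum_prod_type, integral_finsetSum]
    · refine Finset.sum_congr rfl fun α _ => ?_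
      rw [integral_finsetSum]
      intro k _
      exact (((cont_lin _).comp h1.continuous).norm.pow 2).integrable_of_hasCompactSupport
        (hc.mono fun x hx h0 => hx (by
          have : φ x = 0 := h0
          simp [this]))
    · intro α _
      refine integrable_finsetSum _ fun k _ => ?_
      exact (((cont_lin _).comp h1.continuous).norm.pow 2).integrable_of_hasCompactSupport
        (hc.mono fun x hx h0 => hx (by
          have : φ x = 0 := h0
          simp [this]))

/-- **(EX)** in the shape of `liouville_EX`. -/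
theorem ex_le {b : ColorBasis N} {c : Cfg N} (h : LinW G (wlin b G c) I A) (hI : IsCS I)
    (hB : ∀ x y, ⟪B x, y⟫_ℝ = ⟪x, B y⟫_ℝ) (hAB : ∀ x, B (B x) = A x)
    {φ : Cfg N → F} (hφ : ContDiff ℝ ∞ φ) (hc : HasCompactSupport φ) :
    8 * (∑ k : Fin 9 × Fin (N ^ 2 - 1), ∫ y,
        ‖fderiv ℝ φ y (EuclideanSpace.single k 1) + (A y) k • φ y‖ ^ 2) +
      1 / 2 * (∑ j : Fin 16 × (Fin 9 × Fin (N ^ 2 - 1)), ∫ y,
        ‖bop M I (gv G j.1 (B (EuclideanSpace.single j.2 1))) (φ y)‖ ^ 2) ≤
    ∑ α, ∫ y, ‖dirac (dco M G α) (fun x => vco M (fun β A => wlin b G c α β A x)) φ y‖ ^ 2 :=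
  (lin_exact' h hI (trZ_wlin b G c) hB hAB (contDiff_infty.1 hφ 2) hc).symm.le

/-! ## The vacuum line -/

/-- the matrix of `-I` on the pair index -/
def matI (I : VV N →ₗ[ℝ] VV N) : Matrix (Om0331.Idx N) (Om0331.Idx N) ℝ :=
  fun l k => -(I (fun β A => if (β, A) = k then 1 else 0) l.1 l.2)

theorem Th_unit (M : FermionRep N F) (k : Om0331.Idx N) :
    Th M (fun β A => if (β, A) = k then 1 else 0) = M.θ k.1 k.2 := by
  ext v
  rw [Th_apply' M]
  rw [Finset.sum_eq_single k]
  · simp
  · intro p _ hp
    have : ¬ ((p.1, p.2) : Om0331.Idx N) = k := hp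
    rw [if_neg this]
    simp
  · intro h; exact absurd (Finset.mem_univ _) h

/-- the vacua of `I` in the language of helper45 and helper331 -/
theorem isVac_of_bop {I : VV N →ₗ[ℝ] VV N} {v : F} (h : ∀ u, bop M I u v = 0) :
    Neut45.IsVac (Om0331.tht M) (matI I) v := by
  intro k
  have h1 := h (fun β A => if (β, A) = k then 1 else 0)
  rw [bop_apply, Th_unit, sub_eq_zero] at h1
  rw [Om0331.tht, h1, Th_apply' M, neg_smul, ← smul_neg, ← Finset.sum_neg_distrib]
  congr 1
  refine Finset.sum_congr rfl fun p _ => ?_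
  unfold matI
  push_cast
  rw [neg_smul, neg_neg]

theorem vac_line_bop {I : VV N →ₗ[ℝ] VV N} {Ω v : F} (h0 : Ω ≠ 0)
    (hΩ : ∀ u, bop M I u Ω = 0) (hv : ∀ u, bop M I u v = 0) : ∃ k : ℂ, v = k • Ω :=
  Om0331.vac_line M h0 (isVac_of_bop hΩ) (isVac_of_bop hv)

/-- the vectors `γ_α(e_{jA})`, `α = 0..15`, span -/
theorem unit_eq_sum (G : GammaNine) (j : Fin 9) (k : Om0331.Idx N) :
    (fun β A => if (β, A) = k then (1 : ℝ) else 0 : VV N) =
      ∑ α, G.γ j k.1 α • gv G α (EuclideanSpace.single (j, k.2) 1) := by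
  funext β a
  simp only [Finset.sum_apply, Pi.smul_apply, smul_eq_mul, gv_single, ug]
  by_cases ha : a = k.2
  · simp only [ha, if_true]
    have h1 := congrFun (congrFun (gamma_sq G j) k.1) β
    rw [Matrix.mul_apply, Matrix.one_apply] at h1
    rw [h1]
    by_cases hb : β = k.1
    · rw [if_pos hb.symm, if_pos (by rw [hb])]
    · rw [if_neg (Ne.symm hb), if_neg fun h => hb (congrArg Prod.fst h)]
  · have h2 : ¬ ((β, a) : Om0331.Idx N) = k := fun h => ha (congrArg Prod.snd h)
    simp [ha, h2]

/-- **(BV)**: if the range of `B` contains one full direction `j`, the common kernel of the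
`b(γ_α B e_k)` is the vacuum line. -/
theorem bv_line {I : VV N →ₗ[ℝ] VV N} {B : Cfg N →ₗ[ℝ] Cfg N} {j : Fin 9}
    (hr : ∀ a, ∃ w, B w = EuclideanSpace.single (j, a) 1) {Ω : F} (h0 : Ω ≠ 0)
    (hΩ : ∀ u, bop M I u Ω = 0) {v : F}
    (hv : ∀ i : Fin 16 × (Fin 9 × Fin (N ^ 2 - 1)),
      bop M I (gv G i.1 (B (EuclideanSpace.single i.2 1))) v = 0) : ∃ k : ℂ, v = k • Ω := by
  refine vac_line_bop h0 hΩ fun u => ?_
  -- `b(γ_α B w) v = 0`
  have h1 : ∀ α w, bop M I (gv G α (B w)) v = 0 := by
    intro α w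
    have e : gv G α (B w) = ∑ k : Fin 9 × Fin (N ^ 2 - 1),
        w k • gv G α (B (EuclideanSpace.single k 1)) := by
      conv_lhs => rw [sum_single w]
      rw [map_sum, ← gvL_apply, map_sum]
      exact Finset.sum_congr rfl fun k _ => by rw [map_smul, map_smul, gvL_apply]
    rw [e]
    have h2 : ∀ s : Finset (Fin 9 × Fin (N ^ 2 - 1)),
        bop M I (∑ k ∈ s, w k • gv G α (B (EuclideanSpace.single k 1))) v = 0 := by
      intro s
      classical
      induction s using Finset.induction_on with
      | empty => simp [bop_apply, Th_zero]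
      | insert a s ha ih =>
        rw [Finset.sum_insert ha, bop_add, bop_smul, LinearMap.add_apply, LinearMap.smul_apply,
          hv (α, a), ih]
        simp
    exact h2 _
  have h3 : ∀ k : Om0331.Idx N, bop M I (fun β A => if (β, A) = k then (1 : ℝ) else 0) v = 0 := by
    intro k
    obtain ⟨w, hw⟩ := hr k.2
    rw [unit_eq_sum G j k, ← hw]
    have h2 : ∀ s : Finset (Fin 16), bop M I (∑ α ∈ s, G.γ j k.1 α • gv G α (B w)) v = 0 := by
      intro s
      classical
      induction s using Finset.induction_on with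
      | empty => simp [bop_apply, Th_zero]
      | insert a s ha ih =>
        rw [Finset.sum_insert ha, bop_add, bop_smul, LinearMap.add_apply, LinearMap.smul_apply,
          h1, ih]
        simp
    exact h2 _
  have h4 : u = ∑ k : Om0331.Idx N, u k.1 k.2 •
      (fun β A => if (β, A) = k then (1 : ℝ) else 0 : VV N) := by
    funext β a
    simp only [Finset.sum_apply, Pi.smul_apply, smul_eq_mul, mul_ite, mul_one, mul_zero]
    rw [Finset.sum_ite_eq]
    simp
  rw [h4]
  have h5 : ∀ s : Finset (Om0331.Idx N), bop M I (∑ k ∈ s, u k.1 k.2 •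
      (fun β A => if (β, A) = k then (1 : ℝ) else 0 : VV N)) v = 0 := by
    intro s
    classical
    induction s using Finset.induction_on with
    | empty => simp [bop_apply, Th_zero]
    | insert a s ha ih =>
      rw [Finset.sum_insert ha, bop_add, bop_smul, LinearMap.add_apply, LinearMap.smul_apply,
        h3, ih]
      simp
  exact h5 _

end

end Crest.Agent.R330.LinEx674

end
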