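import Crest.Agent.R330.WeitzF_726
import Crest.Agent.R330.Hardy_151

/-!
# Row 330, S5c: the exact energy identity of the linear model (helper674)

Linear charges `-i Θ(γ_α ∇) + Θ(I γ_α (A y))` with `A = B²`, `B` symmetric, `I` an orthogonal
complex structure on the space of coefficient vectors.  `bop v = Θ(v) - i Θ(I v)`.

`lin_exact` : `Σ_α ∫ ‖Q_α φ‖² = 8 ∫ Σ_k ‖∂_k φ + (A y)_k φ‖² + ½ Σ_{α,k} ∫ ‖bop (γ_α (B e_k)) φ‖²`.
-/

set_option autoImplicit false
set_option linter.unusedSectionVars false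

open MeasureTheory Filter Topology
open scoped ContDiff InnerProductSpace ENNReal
open Crest.MathPhysics.MatrixQM
open Crest.Agent.R330.IBP837 Crest.Agent.R330.Weitz726

noncomputable section

namespace Crest.Agent.R330.LinEx674

variable {N : ℕ} {F : Type*} [NormedAddCommGroup F] [InnerProductSpace ℂ F]

/-- Coefficient vectors. -/
abbrev VV (N : ℕ) := Fin 16 → Fin (N ^ 2 - 1) → ℝ

/-- `γ_α(u)`, `u` a configuration. -/
def gv (G : GammaNine) (α : Fin 16) (u : Cfg N) : VV N := fun β A => ∑ j, G.γ j α β * u (j, A)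

theorem gv_apply (G : GammaNine) (α : Fin 16) (u : Cfg N) (β : Fin 16) (A : Fin (N ^ 2 - 1)) :
    gv G α u β A = ∑ j, G.γ j α β * u (j, A) := rfl

theorem gv_add (G : GammaNine) (α : Fin 16) (u v : Cfg N) :
    gv G α (u + v) = gv G α u + gv G α v := by
  funext β A
  simp only [gv, Pi.add_apply, PiLp.add_apply, mul_add, Finset.sum_add_distrib]

theorem gv_smul (G : GammaNine) (α : Fin 16) (c : ℝ) (u : Cfg N) :
    gv G α (c • u) = c • gv G α u := by
  funext β A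
  simp only [gv, Pi.smul_apply, PiLp.smul_apply, smul_eq_mul, Finset.mul_sum]
  exact Finset.sum_congr rfl fun j _ => by ring

/-- `γ_α` as a linear map. -/
def gvL (G : GammaNine) (α : Fin 16) : Cfg N →ₗ[ℝ] VV N where
  toFun := gv G α
  map_add' := gv_add G α
  map_smul' := gv_smul G α

theorem gvL_apply (G : GammaNine) (α : Fin 16) (u : Cfg N) : gvL G α u = gv G α u := rfl

theorem gv_single (G : GammaNine) (α : Fin 16) (k : Fin 9 × Fin (N ^ 2 - 1)) :
    gv G α (EuclideanSpace.single k (1 : ℝ)) = ug G α k.1 k.2 := by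
  funext β A
  rw [gv_apply, Finset.sum_eq_single k.1]
  · unfold ug
    by_cases h : A = k.2
    · rw [if_pos h, h]
      simp
    · rw [if_neg h]
      have : ¬ ((k.1, A) : Fin 9 × Fin (N ^ 2 - 1)) = k := fun h' => h (by rw [← h'])
      simp [this]
  · intro j _ hj
    have : ¬ ((j, A) : Fin 9 × Fin (N ^ 2 - 1)) = k := fun h' => hj (by rw [← h'])
    simp [this]
  · intro h; exact absurd (Finset.mem_univ _) h

theorem sum_single (u : Cfg N) :
    u = ∑ k : Fin 9 × Fin (N ^ 2 - 1), u k • EuclideanSpace.single k (1 : ℝ) := by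
  ext l
  rw [WithLp.ofLp_sum, Finset.sum_apply, Finset.sum_eq_single l]
  · simp
  · intro k _ hk
    simp [Ne.symm hk]
  · intro h; exact absurd (Finset.mem_univ _) h

theorem gv_eq_sum (G : GammaNine) (α : Fin 16) (u : Cfg N) :
    gv G α u = ∑ k : Fin 9 × Fin (N ^ 2 - 1), u k • ug G α k.1 k.2 := by
  conv_lhs => rw [sum_single u]
  rw [← gvL_apply, map_sum]
  refine Finset.sum_congr rfl fun k _ => ?_
  rw [map_smul, gvL_apply, gv_single]

theorem dp_add_left (u v w : VV N) : dp (u + v) w = dp u w + dp v w := by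
  simp only [dp, Pi.add_apply, add_mul, Finset.sum_add_distrib]

theorem dp_smul_left (c : ℝ) (u w : VV N) : dp (c • u) w = c * dp u w := by
  simp only [dp, Pi.smul_apply, smul_eq_mul, Finset.mul_sum, mul_assoc]

theorem dp_add_right (u v w : VV N) : dp w (u + v) = dp w u + dp w v := by
  rw [dp_comm, dp_add_left, dp_comm u, dp_comm v]

theorem dp_smul_right (c : ℝ) (u w : VV N) : dp w (c • u) = c * dp w u := by
  rw [dp_comm, dp_smul_left, dp_comm u]

/-- `dp` as a bilinear form. -/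
def dpB (N : ℕ) : VV N →ₗ[ℝ] VV N →ₗ[ℝ] ℝ :=
  LinearMap.mk₂ ℝ dp dp_add_left dp_smul_left (fun w u v => dp_add_right u v w)
    (fun c w u => dp_smul_right c u w)

theorem dpB_apply (u v : VV N) : dpB N u v = dp u v := rfl

/-- `Σ_α ⟨γ_α u, γ_α v⟩ = 16 ⟨u, v⟩`. -/
theorem sum_dp_gv (G : GammaNine) (u v : Cfg N) :
    ∑ α, dp (gv G α u) (gv G α v) = 16 * ⟪u, v⟫_ℝ := by
  have h : ∀ α, dp (gv G α u) (gv G α v) =
      ∑ k : Fin 9 × Fin (N ^ 2 - 1), ∑ l : Fin 9 × Fin (N ^ 2 - 1),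
        u k * (v l * dp (ug G α k.1 k.2) (ug G α l.1 l.2)) := by
    intro α
    rw [gv_eq_sum, gv_eq_sum, ← dpB_apply]
    simp only [map_sum, map_smul, LinearMap.sum_apply, LinearMap.smul_apply, smul_eq_mul,
      Finset.mul_sum, dpB_apply]
    rw [Finset.sum_comm]
    exact Finset.sum_congr rfl fun k _ => Finset.sum_congr rfl fun l _ => by ring
  simp only [h]
  rw [Finset.sum_comm]
  simp only [PiLp.inner_apply, Finset.mul_sum]
  refine Finset.sum_congr rfl fun k _ => ?_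
  rw [Finset.sum_comm, Finset.sum_eq_single k]
  · rw [← Finset.mul_sum, ← Finset.mul_sum, sum_dp_ug, if_pos rfl]
    simp
    ring
  · intro l _ hl
    rw [← Finset.mul_sum, ← Finset.mul_sum, sum_dp_ug, if_neg (Ne.symm hl)]
    simp
  · intro h; exact absurd (Finset.mem_univ _) h

/-! ## The annihilation operators of a complex structure -/

/-- `I` is an orthogonal complex structure. -/
def IsCS (I : VV N →ₗ[ℝ] VV N) : Prop :=
  (∀ u v, dp (I u) (I v) = dp u v) ∧ ∀ v, I (I v) = -v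

theorem IsCS.dp_self {I : VV N →ₗ[ℝ] VV N} (h : IsCS I) (v : VV N) : dp v (I v) = 0 := by
  have h1 := h.1 v (I v)
  rw [h.2] at h1
  have h2 : dp (I v) (-v) = -dp v (I v) := by
    have : (-v : VV N) = (-1 : ℝ) • v := by simp
    rw [this, dp_smul_right, dp_comm]
    ring
  rw [h2] at h1
  linarith

/-- `Θ(v) - i Θ(I v)`. -/
def bop (M : FermionRep N F) (I : VV N →ₗ[ℝ] VV N) (v : VV N) : F →ₗ[ℂ] F :=
  Th M v - Complex.I • Th M (I v)

theorem bop_apply (M : FermionRep N F) (I : VV N →ₗ[ℝ] VV N) (v : VV N) (a : F) :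
    bop M I v a = Th M v a - Complex.I • Th M (I v) a := rfl

theorem bop_add (M : FermionRep N F) (I : VV N →ₗ[ℝ] VV N) (u v : VV N) :
    bop M I (u + v) = bop M I u + bop M I v := by
  unfold bop
  rw [map_add, Th_add, Th_add, smul_add]
  abel

theorem bop_smul (M : FermionRep N F) (I : VV N →ₗ[ℝ] VV N) (c : ℝ) (v : VV N) :
    bop M I (c • v) = (c : ℂ) • bop M I v := by
  unfold bop
  rw [map_smul, Th_smul, Th_smul, smul_sub, smul_comm]

/-- `b(I v) = i b(v)`. -/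
theorem bop_I (M : FermionRep N F) {I : VV N →ₗ[ℝ] VV N} (h : IsCS I) (v : VV N) :
    bop M I (I v) = Complex.I • bop M I v := by
  unfold bop
  have h1 : Th M (-v) = -Th M v := by
    have : (-v : VV N) = (-1 : ℝ) • v := by simp
    rw [this, Th_smul]
    simp
  rw [h.2, h1, smul_sub, smul_smul, Complex.I_mul_I]
  simp only [smul_neg, neg_smul, one_smul]
  abel

theorem norm_sq_Th (M : FermionRep N F) (v : VV N) (a : F) :
    ‖Th M v a‖ ^ 2 = dp v v / 2 * ‖a‖ ^ 2 := by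
  have h : ⟪Th M v a, Th M v a⟫_ℂ = ((dp v v / 2 : ℝ) : ℂ) * ⟪a, a⟫_ℂ := by
    rw [Th_symm, Th_sq, inner_smul_right]
  have h2 := congrArg Complex.re h
  rw [Complex.re_ofReal_mul] at h2
  have n2 : ∀ w : F, ‖w‖ ^ 2 = (⟪w, w⟫_ℂ).re := fun w => norm_sq_eq_re_inner (𝕜 := ℂ) w
  rw [n2, n2, h2]

/-- `‖b(v) a‖² = |v|² ‖a‖² + 2 Re ⟨a, -i Θ(v) Θ(I v) a⟩`. -/
theorem norm_sq_bop (M : FermionRep N F) {I : VV N →ₗ[ℝ] VV N} (h : IsCS I) (v : VV N) (a : F) :
    ‖bop M I v a‖ ^ 2 = dp v v * ‖a‖ ^ 2 +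
      2 * (⟪a, (-Complex.I) • Th M v (Th M (I v) a)⟫_ℂ).re := by
  have h1 : ‖bop M I v a‖ ^ 2 = ‖Th M v a‖ ^ 2 -
      2 * (⟪Th M v a, Complex.I • Th M (I v) a⟫_ℂ).re + ‖Complex.I • Th M (I v) a‖ ^ 2 := by
    rw [bop_apply]
    exact norm_sub_sq (𝕜 := ℂ) _ _
  have h2 : ‖Complex.I • Th M (I v) a‖ ^ 2 = ‖Th M (I v) a‖ ^ 2 := by
    rw [norm_smul]
    simp
  have h3 : ⟪a, (-Complex.I) • Th M v (Th M (I v) a)⟫_ℂ =
      -⟪Th M v a, Complex.I • Th M (I v) a⟫_ℂ := by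
    rw [inner_smul_right, inner_smul_right, Th_symm]
    ring
  rw [h1, h2, h3, norm_sq_Th, norm_sq_Th, h.1, Complex.neg_re]
  ring

/-! ## Change of the frame in traces -/

theorem trace_frame {X : Type*} [AddCommGroup X] [Module ℝ X] (T : Cfg N →ₗ[ℝ] Cfg N →ₗ[ℝ] X)
    {A B : Cfg N →ₗ[ℝ] Cfg N} (hB : ∀ x y, ⟪B x, y⟫_ℝ = ⟪x, B y⟫_ℝ) (hAB : ∀ x, B (B x) = A x) :
    ∑ k : Fin 9 × Fin (N ^ 2 - 1), T (EuclideanSpace.single k 1) (A (EuclideanSpace.single k 1)) =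
      ∑ k : Fin 9 × Fin (N ^ 2 - 1),
        T (B (EuclideanSpace.single k 1)) (B (EuclideanSpace.single k 1)) := by
  set e : Fin 9 × Fin (N ^ 2 - 1) → Cfg N := fun k => EuclideanSpace.single k 1 with he
  have hin : ∀ (k : Fin 9 × Fin (N ^ 2 - 1)) (x : Cfg N), x k = ⟪e k, x⟫_ℝ := by
    intro k x
    simp [he, EuclideanSpace.inner_single_left]
  have h1 : ∀ k, T (e k) (A (e k)) = ∑ l, (B (e k)) l • T (e k) (B (e l)) := by
    intro k
    rw [← hAB]
    conv_lhs => rw [sum_single (B (e k))]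
    rw [map_sum, map_sum]
    refine Finset.sum_congr rfl fun l _ => ?_
    rw [map_smul, map_smul]
  have h2 : ∀ l, T (B (e l)) (B (e l)) = ∑ k, (B (e l)) k • T (e k) (B (e l)) := by
    intro l
    conv_lhs => rw [show T (B (e l)) (B (e l)) =
      T (∑ k, (B (e l)) k • EuclideanSpace.single k 1) (B (e l)) by rw [← sum_single (B (e l))]]
    rw [map_sum, LinearMap.sum_apply]
    refine Finset.sum_congr rfl fun k _ => ?_
    rw [map_smul, LinearMap.smul_apply]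
  change ∑ k, T (e k) (A (e k)) = ∑ k, T (B (e k)) (B (e k))
  simp only [h1, h2]
  rw [Finset.sum_comm]
  refine Finset.sum_congr rfl fun l _ => Finset.sum_congr rfl fun k _ => ?_
  congr 1
  rw [hin l (B (e k)), hin k (B (e l)), real_inner_comm, hB]

/-! ## The exact identity -/

/-- The coefficients are `W_α(x) = I (γ_α (A x))`. -/
def LinW (G : GammaNine) (W : Fin 16 → Fin 16 → Fin (N ^ 2 - 1) → Cfg N → ℝ)
    (I : VV N →ₗ[ℝ] VV N) (A : Cfg N →ₗ[ℝ] Cfg N) : Prop :=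
  ∀ α x, (fun β a => W α β a x) = I (gv G α (A x))

/-- `W_{αβa}` as a linear form. -/
def lw (G : GammaNine) (I : VV N →ₗ[ℝ] VV N) (A : Cfg N →ₗ[ℝ] Cfg N) (α β : Fin 16)
    (a : Fin (N ^ 2 - 1)) : Cfg N →ₗ[ℝ] ℝ :=
  (LinearMap.proj a) ∘ₗ (LinearMap.proj β) ∘ₗ I ∘ₗ gvL G α ∘ₗ A

theorem LinW.eq {G : GammaNine} {W : Fin 16 → Fin 16 → Fin (N ^ 2 - 1) → Cfg N → ℝ}
    {I : VV N →ₗ[ℝ] VV N} {A : Cfg N →ₗ[ℝ] Cfg N} (h : LinW G W I A) (α β : Fin 16)
    (a : Fin (N ^ 2 - 1)) : W α β a = ⇑(LinearMap.toContinuousLinearMap (lw G I A α β a)) := by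
  funext x
  exact congrFun (congrFun (h α x) β) a

theorem LinW.contDiff {G : GammaNine} {W : Fin 16 → Fin 16 → Fin (N ^ 2 - 1) → Cfg N → ℝ}
    {I : VV N →ₗ[ℝ] VV N} {A : Cfg N →ₗ[ℝ] Cfg N} (h : LinW G W I A) {n : WithTop ℕ∞}
    (α β : Fin 16) (a : Fin (N ^ 2 - 1)) : ContDiff ℝ n (W α β a) := by
  rw [h.eq]
  exact ContinuousLinearMap.contDiff _

theorem LinW.dW {G : GammaNine} {W : Fin 16 → Fin 16 → Fin (N ^ 2 - 1) → Cfg N → ℝ}
    {I : VV N →ₗ[ℝ] VV N} {A : Cfg N →ₗ[ℝ] Cfg N} (h : LinW G W I A) (α : Fin 16)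
    (k : Fin 9 × Fin (N ^ 2 - 1)) (x : Cfg N) :
    dW W α k x = I (gv G α (A (EuclideanSpace.single k 1))) := by
  funext β a
  unfold Weitz726.dW
  rw [h.eq, ContinuousLinearMap.fderiv]
  rfl

/-- The bilinear expression of the Yukawa operator. -/
def yuk (M : FermionRep N F) (G : GammaNine) (I : VV N →ₗ[ℝ] VV N) (α : Fin 16) (a : F) :
    Cfg N →ₗ[ℝ] Cfg N →ₗ[ℝ] F :=
  LinearMap.mk₂ ℝ (fun u v => (-Complex.I) • Th M (gv G α u) (Th M (I (gv G α v)) a))
    (fun u u' v => by simp only [gv_add, Th_add, LinearMap.add_apply, smul_add])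
    (fun c u v => by
      simp only [gv_smul, Th_smul, LinearMap.smul_apply]
      rw [smul_comm, Complex.coe_smul])
    (fun u v v' => by simp only [gv_add, map_add, Th_add, LinearMap.add_apply, smul_add])
    (fun c u v => by
      simp only [gv_smul, map_smul, Th_smul, LinearMap.smul_apply]
      rw [smul_comm, Complex.coe_smul])

theorem yuk_apply (M : FermionRep N F) (G : GammaNine) (I : VV N →ₗ[ℝ] VV N) (α : Fin 16) (a : F)
    (u v : Cfg N) :
    yuk M G I α a u v = (-Complex.I) • Th M (gv G α u) (Th M (I (gv G α v)) a) := rfl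

section exact

variable [FiniteDimensional ℂ F] {M : FermionRep N F} {G : GammaNine}
  {W : Fin 16 → Fin 16 → Fin (N ^ 2 - 1) → Cfg N → ℝ} {I : VV N →ₗ[ℝ] VV N}
  {A B : Cfg N →ₗ[ℝ] Cfg N}

/-- The sum of the squares of the annihilation operators. -/
def nsum (M : FermionRep N F) (G : GammaNine) (I : VV N →ₗ[ℝ] VV N) (B : Cfg N →ₗ[ℝ] Cfg N)
    (a : F) : ℝ :=
  ∑ α : Fin 16, ∑ k : Fin 9 × Fin (N ^ 2 - 1),
    ‖bop M I (gv G α (B (EuclideanSpace.single k 1))) a‖ ^ 2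

/-- The trace of `A = B²`. -/
def trB (B : Cfg N →ₗ[ℝ] Cfg N) : ℝ :=
  ∑ k : Fin 9 × Fin (N ^ 2 - 1), ‖B (EuclideanSpace.single k 1)‖ ^ 2

theorem Zop_re (h : LinW G W I A) (hI : IsCS I) (hB : ∀ x y, ⟪B x, y⟫_ℝ = ⟪x, B y⟫_ℝ)
    (hAB : ∀ x, B (B x) = A x) (x : Cfg N) (a : F) :
    (⟪a, Zop M G W x a⟫_ℂ).re = 1 / 2 * nsum M G I B a - 8 * trB B * ‖a‖ ^ 2 := by
  have h1 : Zop M G W x a = ∑ α, ∑ k : Fin 9 × Fin (N ^ 2 - 1),
      (-Complex.I) • Th M (gv G α (B (EuclideanSpace.single k 1)))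
        (Th M (I (gv G α (B (EuclideanSpace.single k 1)))) a) := by
    rw [Zop_apply]
    refine Finset.sum_congr rfl fun α _ => ?_
    have e := trace_frame (yuk M G I α a) hB hAB
    simp only [yuk_apply, gv_single] at e
    rw [← e]
    refine Finset.sum_congr rfl fun k _ => ?_
    rw [h.dW, dco_eq]
  rw [h1, inner_sum, Complex.re_sum]
  have h2 : ∀ α, (⟪a, ∑ k : Fin 9 × Fin (N ^ 2 - 1),
      (-Complex.I) • Th M (gv G α (B (EuclideanSpace.single k 1)))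
        (Th M (I (gv G α (B (EuclideanSpace.single k 1)))) a)⟫_ℂ).re =
      ∑ k : Fin 9 × Fin (N ^ 2 - 1),
        (1 / 2 * ‖bop M I (gv G α (B (EuclideanSpace.single k 1))) a‖ ^ 2 -
          1 / 2 * (dp (gv G α (B (EuclideanSpace.single k 1)))
            (gv G α (B (EuclideanSpace.single k 1))) * ‖a‖ ^ 2)) := by
    intro α
    rw [inner_sum, Complex.re_sum]
    refine Finset.sum_congr rfl fun k _ => ?_
    have e := norm_sq_bop M hI (gv G α (B (EuclideanSpace.single k 1))) a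
    linarith
  have h3 : ∑ α, ∑ k : Fin 9 × Fin (N ^ 2 - 1),
      dp (gv G α (B (EuclideanSpace.single k 1))) (gv G α (B (EuclideanSpace.single k 1))) =
      16 * trB B := by
    unfold trB
    rw [Finset.sum_comm]
    simp only [sum_dp_gv, real_inner_self_eq_norm_sq, ← Finset.mul_sum]
  simp only [h2, Finset.sum_sub_distrib, ← Finset.mul_sum, ← Finset.sum_mul, h3]
  unfold nsum
  ring

theorem Wsq_eq (h : LinW G W I A) (hI : IsCS I) (x : Cfg N) : Wsq W x = 16 * ‖A x‖ ^ 2 := by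
  unfold Wsq
  simp only [h _ x, hI.1, sum_dp_gv, real_inner_self_eq_norm_sq]

theorem trB_eq (hB : ∀ x y, ⟪B x, y⟫_ℝ = ⟪x, B y⟫_ℝ) (hAB : ∀ x, B (B x) = A x) :
    trB B = ∑ k : Fin 9 × Fin (N ^ 2 - 1), A (EuclideanSpace.single k 1) k := by
  unfold trB
  refine Finset.sum_congr rfl fun k _ => ?_
  rw [← real_inner_self_eq_norm_sq, hB, hAB, EuclideanSpace.inner_single_left]
  simp

/-- `y ↦ (A y)_k` as a continuous linear form. -/
def acL (A : Cfg N →ₗ[ℝ] Cfg N) (k : Fin 9 × Fin (N ^ 2 - 1)) : Cfg N →L[ℝ] ℝ :=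
  LinearMap.toContinuousLinearMap
    ((EuclideanSpace.proj (𝕜 := ℝ) k : Cfg N →L[ℝ] ℝ).toLinearMap ∘ₗ A)

theorem acL_apply (A : Cfg N →ₗ[ℝ] Cfg N) (k : Fin 9 × Fin (N ^ 2 - 1)) (y : Cfg N) :
    acL A k y = A y k := rfl

theorem norm_sq_sum (x : Cfg N) : ∑ k : Fin 9 × Fin (N ^ 2 - 1), x k ^ 2 = ‖x‖ ^ 2 := by
  rw [EuclideanSpace.norm_sq_eq]
  simp

/-- The oscillator identity. -/
theorem osc_identity (hB : ∀ x y, ⟪B x, y⟫_ℝ = ⟪x, B y⟫_ℝ) (hAB : ∀ x, B (B x) = A x)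
    {φ : Cfg N → F} (hφ : ContDiff ℝ 1 φ) (hc : HasCompactSupport φ) :
    ∫ x, ∑ k : Fin 9 × Fin (N ^ 2 - 1),
      ‖fderiv ℝ φ x (EuclideanSpace.single k 1) + A x k • φ x‖ ^ 2 =
    (∫ x, ∑ k : Fin 9 × Fin (N ^ 2 - 1), ‖fderiv ℝ φ x (EuclideanSpace.single k 1)‖ ^ 2) +
      (∫ x, ‖A x‖ ^ 2 * ‖φ x‖ ^ 2) - trB B * ∫ x, ‖φ x‖ ^ 2 := by
  let _ : InnerProductSpace ℝ F := InnerProductSpace.complexToReal
  have e := Hardy151.expand (μ := (volume : Measure (Cfg N))) (f := φ) hφ hc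
    (v := fun k : Fin 9 × Fin (N ^ 2 - 1) => EuclideanSpace.single k (1 : ℝ))
    (X := fun k x => A x k) (w := fun _ => 1)
    (fun k x _ => (acL A k).contDiff.contDiffAt) (fun x _ => contDiffAt_const)
  simp only [one_mul] at e
  rw [e]
  have h1 : ∀ (k : Fin 9 × Fin (N ^ 2 - 1)) (x : Cfg N),
      fderiv ℝ (fun y => A y k) x (EuclideanSpace.single k 1) = A (EuclideanSpace.single k 1) k := by
    intro k x
    have : (fun y => A y k) = ⇑(acL A k) := rfl
    rw [this, ContinuousLinearMap.fderiv]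
    rfl
  simp only [h1, norm_sq_sum, ← trB_eq hB hAB]
  have i1 : Integrable fun x => ‖φ x‖ ^ 2 :=
    (hφ.continuous.norm.pow 2).integrable_of_hasCompactSupport
      (hc.mono fun x hx h0 => hx (by
        have : φ x = 0 := h0
        simp [this]))
  have i2 : Integrable fun x => ‖A x‖ ^ 2 * ‖φ x‖ ^ 2 := by
    refine Continuous.integrable_of_hasCompactSupport ?_ (hc.mono fun x hx h0 => hx (by
        have : φ x = 0 := h0
        simp [this]))
    exact (((LinearMap.continuous_of_finiteDimensional A).norm).pow 2).mul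
      (hφ.continuous.norm.pow 2)
  have e2 : ∫ x, (trB B - ‖A x‖ ^ 2) * ‖φ x‖ ^ 2 =
      trB B * (∫ x, ‖φ x‖ ^ 2) - ∫ x, ‖A x‖ ^ 2 * ‖φ x‖ ^ 2 := by
    rw [← integral_const_mul, ← integral_sub (i1.const_mul _) i2]
    refine integral_congr_ae (Eventually.of_forall fun x => ?_)
    simp only
    ring
  rw [e2]
  ring

theorem continuous_nsum : Continuous (nsum M G I B) := by
  unfold nsum
  exact continuous_finsetSum _ fun α _ => continuous_finsetSum _ fun k _ =>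
    ((LinearMap.continuous_of_finiteDimensional _).norm.pow 2)

theorem nsum_zero : nsum M G I B (0 : F) = 0 := by
  simp [nsum]

/-- **The energy of the linear model, Weitzenböck form.** -/
theorem lin_weitz (h : LinW G W I A) (hI : IsCS I) (hT : TrZ G W)
    (hB : ∀ x y, ⟪B x, y⟫_ℝ = ⟪x, B y⟫_ℝ) (hAB : ∀ x, B (B x) = A x)
    {φ : Cfg N → F} (hφ : ContDiff ℝ 2 φ) (hc : HasCompactSupport φ) :
    ∑ α, ∫ x, ‖chargeW M G W α φ x‖ ^ 2 =
      8 * (∫ x, ∑ k : Fin 9 × Fin (N ^ 2 - 1),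
        ‖fderiv ℝ φ x (EuclideanSpace.single k 1)‖ ^ 2) +
      8 * (∫ x, ‖A x‖ ^ 2 * ‖φ x‖ ^ 2) - 8 * trB B * (∫ x, ‖φ x‖ ^ 2) +
      1 / 2 * ∫ x, nsum M G I B (φ x) := by
  have h1 : ContDiff ℝ 1 φ := hφ.of_le (by norm_num)
  rw [weitz (fun α β a => h.contDiff α β a) hT hφ hc]
  simp only [Wsq_eq h hI, Zop_re h hI hB hAB]
  have i0 : ∀ k : Fin 9 × Fin (N ^ 2 - 1), Integrable fun x =>
      ‖fderiv ℝ φ x (EuclideanSpace.single k 1)‖ ^ 2 := fun k =>
    ((fderiv_apply_continuous h1 _).norm.pow 2).integrable_of_hasCompactSupport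
      ((hasCompactSupport_fderiv_apply hc (EuclideanSpace.single k (1 : ℝ))).mono
        fun x hx h0 => hx (by
          have : fderiv ℝ φ x (EuclideanSpace.single k 1) = 0 := h0
          simp [this]))
  have i1 : Integrable fun x => ‖φ x‖ ^ 2 :=
    (hφ.continuous.norm.pow 2).integrable_of_hasCompactSupport
      (hc.mono fun x hx h0 => hx (by
        have : φ x = 0 := h0
        simp [this]))
  have i3 : Integrable fun x => nsum M G I B (φ x) :=
    (continuous_nsum.comp hφ.continuous).integrable_of_hasCompactSupport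
      (hc.mono fun x hx h0 => hx (by
        have : φ x = 0 := h0
        simp [this, nsum_zero]))
  rw [← integral_finsetSum _ fun k _ => i0 k]
  have e1 : ∫ x, 16 * ‖A x‖ ^ 2 / 2 * ‖φ x‖ ^ 2 = 8 * ∫ x, ‖A x‖ ^ 2 * ‖φ x‖ ^ 2 := by
    rw [← integral_const_mul]
    refine integral_congr_ae (Eventually.of_forall fun x => ?_)
    simp only
    ring
  have e2 : ∫ x, (1 / 2 * nsum M G I B (φ x) - 8 * trB B * ‖φ x‖ ^ 2) =
      1 / 2 * (∫ x, nsum M G I B (φ x)) - 8 * trB B * ∫ x, ‖φ x‖ ^ 2 := by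
    rw [integral_sub (i3.const_mul _) (i1.const_mul _), integral_const_mul, integral_const_mul]
  rw [e1, e2]
  ring

/-- **The exact identity of the linear model.** -/
theorem lin_exact (h : LinW G W I A) (hI : IsCS I) (hT : TrZ G W)
    (hB : ∀ x y, ⟪B x, y⟫_ℝ = ⟪x, B y⟫_ℝ) (hAB : ∀ x, B (B x) = A x)
    {φ : Cfg N → F} (hφ : ContDiff ℝ 2 φ) (hc : HasCompactSupport φ) :
    ∑ α, ∫ x, ‖chargeW M G W α φ x‖ ^ 2 =
      8 * (∫ x, ∑ k : Fin 9 × Fin (N ^ 2 - 1),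
        ‖fderiv ℝ φ x (EuclideanSpace.single k 1) + A x k • φ x‖ ^ 2) +
      1 / 2 * ∫ x, nsum M G I B (φ x) := by
  rw [lin_weitz h hI hT hB hAB hφ hc, osc_identity hB hAB (hφ.of_le (by norm_num)) hc]
  ring

end exact

end Crest.Agent.R330.LinEx674

end
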