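import Crest.Agent.R330.LinG_501
import Crest.Agent.R330.LinBind_674

/-!
# Row 330, S5c: kernel of `A` and neutrality, literal form (helper501)

`c` with `IsVacCfg b c`, `Y = Yc b c`, `Dat (Yc b c) P Q`.

* `A_ker_lit` : `A u = 0 ↔ ∃ om, u = brk b om c`.
* `neut_lit` : a vacuum of `I = Γ S` is fixed by the stabiliser of `c`.
-/

set_option autoImplicit false
set_option linter.unusedSectionVars false

open Crest.MathPhysics.MatrixQM
open Crest.Agent.R330.Defs478 Crest.Agent.R330.S5Defs798 Crest.Agent.R330.CoerCfg87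
  Crest.Agent.R330.NeutL45 Crest.Agent.R330.Lin561 Crest.Agent.R330.LinBind674
  Crest.Agent.R330.Om0331
open scoped InnerProductSpace BigOperators Kronecker Matrix

noncomputable section

namespace Crest.Agent.R330.LinG501

variable {N : ℕ}

theorem DvT_lit {b : ColorBasis N} {c : Cfg N} (h : IsVacCfg b c)
    (w : Fin 1 × Fin (N ^ 2 - 1) → ℝ) (k : Fin 9 × Fin (N ^ 2 - 1)) :
    ((Dv (Yc b c))ᵀ *ᵥ w) k = brk b (fun B => 3 * w (0, B)) c k := by
  obtain ⟨j, A⟩ := k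
  have hL : ((Dv (Yc b c))ᵀ *ᵥ w) (j, A) =
      ∑ B, (row 0 0 j * Yc b c 0 B A + row 1 0 j * Yc b c 1 B A + row 2 0 j * Yc b c 2 B A) *
        w (0, B) := by
    rw [Matrix.mulVec, dotProduct, Fintype.sum_prod_type, Fin.sum_univ_one]
    exact Finset.sum_congr rfl fun B _ => rfl
  have hY : ∀ (a : Fin 3), ∑ B, Yc b c a B A * w (0, B) =
      br b (fun B => 3 * w (0, B)) (comp c (Fin.castLE (by norm_num) a)) A := by
    intro a
    unfold Yc adE br comp
    refine Finset.sum_congr rfl fun B _ => ?_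
    rw [Finset.sum_mul]
    refine Finset.sum_congr rfl fun D _ => ?_
    rw [← Col962.f_cyc b D A B]
    ring
  have hR : brk b (fun B => 3 * w (0, B)) c (j, A) =
      br b (fun B => 3 * w (0, B)) (comp c j) A := rfl
  rw [hL, hR]
  rcases lt_or_ge (j : ℕ) 3 with hj | hj
  · obtain ⟨a, rfl⟩ : ∃ a : Fin 3, j = Fin.castLE (by norm_num) a := ⟨⟨j, hj⟩, rfl⟩
    rw [← hY a]
    refine Finset.sum_congr rfl fun B _ => ?_
    congr 1
    fin_cases a <;> simp [row]
  · have h0 : comp c j = fun _ => 0 := funext fun A => vac_hi h j hj A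
    have hr : ∀ a : Fin 3, row a 0 j = 0 := fun a => if_neg (by omega)
    rw [h0]
    simp [hr, br]

/-- **kernel of `A`, literal form** -/
theorem A_ker_lit {b : ColorBasis N} {c : Cfg N} (G : GammaNine) (h : IsVacCfg b c)
    {P Q : Matrix (Fin (N ^ 2 - 1)) (Fin (N ^ 2 - 1)) ℝ} (D : Dat (Yc b c) P Q) (u : Cfg N) :
    Am (Yc b c) P Q *ᵥ (fun k => u k) = 0 ↔ ∃ om, u = brk b om c := by
  rw [A_ker G D]
  constructor
  · rintro ⟨w, hw⟩
    refine ⟨fun B => 3 * w (0, B), ?_⟩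
    ext k
    rw [← DvT_lit h w k, ← hw]
  · rintro ⟨om, rfl⟩
    refine ⟨fun p => om p.2 / 3, ?_⟩
    funext k
    rw [DvT_lit h]
    have : (fun B => 3 * (om B / 3)) = om := by
      funext B
      ring
    rw [this]

/-! ### neutrality -/

theorem kr_eq (K : Matrix (Fin 16) (Fin 16) ℝ)
    (L : Matrix (Fin (N ^ 2 - 1)) (Fin (N ^ 2 - 1)) ℝ) : kr K L = K ⊗ₖ L := rfl

theorem GG_eq (G : GammaNine) : GG G (Fin (N ^ 2 - 1)) = tens N (Gam G) := by
  rw [tens_eq_kr]; rfl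

theorem Tm_eq (b : ColorBasis N) (G : GammaNine) (c : Cfg N) : Tm G (Yc b c) = fT b G c := by
  unfold Tm fT
  rw [Fin.sum_univ_three]
  rfl

theorem Yc_comm {b : ColorBasis N} {c : Cfg N} {h : Matrix.specialUnitaryGroup (Fin N) ℂ}
    (hc : b.act h c = c) (a : Fin 3) :
    Matrix.of (b.adjMat h) * Yc b c a = Yc b c a * Matrix.of (b.adjMat h) := by
  refine adE_comm b fun C => ?_
  have h1 : b.act h c (Fin.castLE (by decide) a, C) = c (Fin.castLE (by decide) a, C) := by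
    rw [hc]
  rw [Col962.act_apply] at h1
  calc ∑ A, b.adjMat h C A * (3 * c (Fin.castLE (by norm_num) a, A))
      = 3 * ∑ A, b.adjMat h C A * c (Fin.castLE (by decide) a, A) := by
        rw [Finset.mul_sum]
        exact Finset.sum_congr rfl fun A _ => by ring
    _ = 3 * c (Fin.castLE (by decide) a, C) := by rw [h1]

theorem Cas_adj {b : ColorBasis N} {c : Cfg N} {h : Matrix.specialUnitaryGroup (Fin N) ℂ}
    (hc : b.act h c = c) :
    Matrix.of (b.adjMat h) * Cas (Yc b c) = Cas (Yc b c) * Matrix.of (b.adjMat h) := by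
  have e : ∀ a, Matrix.of (b.adjMat h) * (Yc b c a * Yc b c a) =
      Yc b c a * Yc b c a * Matrix.of (b.adjMat h) := fun a => by
    rw [← Matrix.mul_assoc, Yc_comm hc, Matrix.mul_assoc, Yc_comm hc, Matrix.mul_assoc]
  unfold Cas
  rw [mul_neg, neg_mul, Matrix.mul_add, Matrix.mul_add, Matrix.add_mul, Matrix.add_mul, e, e, e]

variable {F : Type*} [NormedAddCommGroup F] [InnerProductSpace ℂ F] [FiniteDimensional ℂ F]
  {b : ColorBasis N} {M : FermionRep N F} (R : GaugeAction b M) (G : GammaNine)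

/-- `S` commutes with the stabiliser of `c` -/
theorem Sm_adI {c : Cfg N} {P Q : Matrix (Fin (N ^ 2 - 1)) (Fin (N ^ 2 - 1)) ℝ}
    (D : Dat (Yc b c) P Q) {h : Matrix.specialUnitaryGroup (Fin N) ℂ} (hc : b.act h c = c) :
    Sm G (Yc b c) Q * adI b h = adI b h * Sm G (Yc b c) Q := by
  have e1 : c16 (Q * Q) * adI b h = adI b h * c16 (Q * Q) := by
    have hQ := (D.comm _ (Cas_adj hc)).2
    have e : (Q * Q) * Matrix.of (b.adjMat h) = Matrix.of (b.adjMat h) * (Q * Q) := by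
      rw [Matrix.mul_assoc, ← hQ, ← Matrix.mul_assoc, ← hQ, Matrix.mul_assoc]
    rw [adI_eq_kr, kr_eq, c16, ← Matrix.mul_kronecker_mul, ← Matrix.mul_kronecker_mul, e]
  have e2 : (Tm G (Yc b c) + (1 / 2 : ℝ) • 1) * adI b h =
      adI b h * (Tm G (Yc b c) + (1 / 2 : ℝ) • 1) := by
    rw [Matrix.add_mul, Matrix.mul_add, Tm_eq, fT_adI b G hc, Matrix.smul_mul, Matrix.mul_smul,
      Matrix.one_mul, Matrix.mul_one]
  unfold Sm
  rw [Matrix.mul_assoc, e1, ← Matrix.mul_assoc, e2, Matrix.mul_assoc]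

/-- `S` commutes with `Γ' ⊗ 1` -/
theorem Sm_Gamp {c : Cfg N} {Q : Matrix (Fin (N ^ 2 - 1)) (Fin (N ^ 2 - 1)) ℝ} :
    Sm G (Yc b c) Q * tens N (Gamp G) = tens N (Gamp G) * Sm G (Yc b c) Q := by
  have e1 : c16 (Q * Q) * tens N (Gamp G) = tens N (Gamp G) * c16 (Q * Q) := by
    rw [tens_eq_kr, kr_eq, c16, ← Matrix.mul_kronecker_mul, ← Matrix.mul_kronecker_mul,
      Matrix.one_mul, Matrix.mul_one, Matrix.mul_one, Matrix.one_mul]
  have e2 : (Tm G (Yc b c) + (1 / 2 : ℝ) • 1) * tens N (Gamp G) =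
      tens N (Gamp G) * (Tm G (Yc b c) + (1 / 2 : ℝ) • 1) := by
    rw [Matrix.add_mul, Matrix.mul_add, Tm_eq, fT_Gamp b G, Matrix.smul_mul, Matrix.mul_smul,
      Matrix.one_mul, Matrix.mul_one]
  unfold Sm
  rw [Matrix.mul_assoc, e1, ← Matrix.mul_assoc, e2, Matrix.mul_assoc]

/-- **neutrality of the vacuum at `c`** -/
theorem neut_lit {c : Cfg N} {P Q : Matrix (Fin (N ^ 2 - 1)) (Fin (N ^ 2 - 1)) ℝ}
    (D : Dat (Yc b c) P Q) {h : Matrix.specialUnitaryGroup (Fin N) ℂ} (hc : b.act h c = c)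
    {Ω : F} (hΩ : ∀ k, tht M k Ω =
      Complex.I • ∑ l, (((Im G (Yc b c) Q) l k : ℝ) : ℂ) • tht M l Ω) : R.ρ h Ω = Ω := by
  refine NeutC45.neutral_closed R G (D.S_T G) (D.S_sq G) ?_ (Sm_Gamp G) (Sm_adI G D hc) ?_
  · rw [← GG_eq, D.S_GG G]
  · rw [← GG_eq]
    exact hΩ

end Crest.Agent.R330.LinG501

end
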