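import Crest.Agent.R330.LinG2_501
import Crest.Agent.R330.Par_478

/-!
# Row 330, S5c: the vacua at fuzzy spheres are even (helper501)

* `even_lit` : `P Ω = Ω` for every vacuum of `I = Γ S` and every parity `P`.
-/

set_option autoImplicit false
set_option linter.unusedSectionVars false

open Crest.MathPhysics.MatrixQM
open Crest.Agent.R330.Defs478 Crest.Agent.R330.S5Defs798 Crest.Agent.R330.CoerCfg87
  Crest.Agent.R330.NeutL45 Crest.Agent.R330.Lin561 Crest.Agent.R330.LinBind674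
  Crest.Agent.R330.Om0331 Crest.Agent.R330.SInd478
open scoped InnerProductSpace BigOperators Kronecker Matrix

noncomputable section

namespace Crest.Agent.R330.LinG501

variable {N : ℕ} {F : Type*} [NormedAddCommGroup F] [InnerProductSpace ℂ F]
  [FiniteDimensional ℂ F] [Nontrivial F] {b : ColorBasis N} {M : FermionRep N F} (G : GammaNine)

/-- `I = Γ S` anticommutes with `Γ' ⊗ 1` -/
theorem Im_Gamp {c : Cfg N} {Q : Matrix (Fin (N ^ 2 - 1)) (Fin (N ^ 2 - 1)) ℝ} :
    Im G (Yc b c) Q * tens N (Gamp G) = -(tens N (Gamp G) * Im G (Yc b c) Q) := by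
  unfold Im
  have e : tens N (Gam G) * tens N (Gamp G) = -(tens N (Gamp G) * tens N (Gam G)) := by
    rw [tens_mul, tens_mul, Gam_Gamp, tens_neg]
  rw [GG_eq, Matrix.mul_assoc, Sm_Gamp, ← Matrix.mul_assoc, e, neg_mul, Matrix.mul_assoc]

/-- **the vacua at fuzzy spheres are even** -/
theorem even_lit {P₀ : F →ₗ[ℂ] F} (hP : IsParity M G P₀) {c : Cfg N}
    {P Q : Matrix (Fin (N ^ 2 - 1)) (Fin (N ^ 2 - 1)) ℝ} (D : Dat (Yc b c) P Q) {Ω : F}
    (hΩ : ∀ k, tht M k Ω =
      Complex.I • ∑ l, (((Im G (Yc b c) Q) l k : ℝ) : ℂ) • tht M l Ω) : P₀ Ω = Ω := by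
  refine hP.even_of_anti (J := -Im G (Yc b c) Q) ?_ ?_ ((isVac_neg_iff _ _).2 hΩ)
  · rw [neg_mul_neg, D.I_sq G]
  · have h := Im_Gamp (b := b) (c := c) (Q := Q) G
    have e : tens N (Ovl693.G3 G) = tens N (Gamp G) := rfl
    rw [e, neg_mul, h, mul_neg]

end Crest.Agent.R330.LinG501

end
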