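import Crest.Agent.R330.LinF_561

/-!
# Row 330, S5c: linear model at a fuzzy vacuum, part G (helper501)

`Am Y P Q` is positive semidefinite and its kernel is the range of `Divᵀ`.
-/

set_option autoImplicit false
set_option linter.unusedSectionVars false
set_option linter.unusedDecidableInType false
set_option linter.unusedFintypeInType false

open Matrix Crest.MathPhysics.MatrixQM Crest.Agent.R330.Gam962 Crest.Agent.R330.Defs478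
open Crest.Agent.R330.Lin561
open scoped Kronecker

namespace Crest.Agent.R330.LinG501

noncomputable section

/-! ### elementary facts on quadratic forms -/

section gen

variable {m n : Type*} [Fintype m] [Fintype n] [DecidableEq m] [DecidableEq n]

theorem dot_sym {A : Matrix n n ℝ} (hA : Aᵀ = A) (u v : n → ℝ) :
    u ⬝ᵥ (A *ᵥ v) = (A *ᵥ u) ⬝ᵥ v := by
  rw [dotProduct_mulVec, ← mulVec_transpose, hA]

theorem dot_T (A : Matrix m n ℝ) (u : m → ℝ) (v : n → ℝ) :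
    u ⬝ᵥ (A *ᵥ v) = (Aᵀ *ᵥ u) ⬝ᵥ v := by
  rw [dotProduct_mulVec, ← mulVec_transpose]

theorem dot_nn (u : n → ℝ) : 0 ≤ u ⬝ᵥ u := Finset.sum_nonneg fun _ _ => mul_self_nonneg _

theorem dot_zero {u : n → ℝ} (h : u ⬝ᵥ u = 0) : u = 0 := dotProduct_self_eq_zero.1 h

/-- `u = Mᵀ w + z`, `M z = 0` -/
theorem exists_decomp (M : Matrix m n ℝ) (u : n → ℝ) :
    ∃ (w : m → ℝ) (z : n → ℝ), u = Mᵀ *ᵥ w + z ∧ M *ᵥ z = 0 := by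
  let K : Submodule ℝ (EuclideanSpace ℝ n) := LinearMap.range (Matrix.toEuclideanLin Mᵀ)
  obtain ⟨y, ⟨w, hw⟩, z, hz, hyz⟩ :=
    K.exists_add_mem_mem_orthogonal (WithLp.toLp 2 u : EuclideanSpace ℝ n)
  refine ⟨fun i => w i, fun i => z i, ?_, ?_⟩
  · funext i
    have h1 := congrArg (fun q : EuclideanSpace ℝ n => q i) hyz
    have h2 := congrArg (fun q : EuclideanSpace ℝ n => q i) hw
    simp only [PiLp.add_apply] at h1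
    have h3 : (Matrix.toEuclideanLin Mᵀ w) i = (Mᵀ *ᵥ (fun i => w i)) i := rfl
    rw [h3] at h2
    rw [Pi.add_apply, h2]
    exact h1
  · have key : ∀ w' : m → ℝ, w' ⬝ᵥ (M *ᵥ fun i => z i) = 0 := by
      intro w'
      have h4 := (Submodule.mem_orthogonal K z).1 hz
        (Matrix.toEuclideanLin Mᵀ (WithLp.toLp 2 w')) ⟨_, rfl⟩
      rw [PiLp.inner_apply] at h4
      rw [dot_T]
      rw [← h4]
      refine Finset.sum_congr rfl fun i _ => ?_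
      have h5 : (Matrix.toEuclideanLin Mᵀ (WithLp.toLp 2 w')) i = (Mᵀ *ᵥ w') i := rfl
      rw [h5]
      simp [mul_comm]
    exact dot_zero (key _)

end gen

variable (G : GammaNine) {κ : Type*} [Fintype κ] [DecidableEq κ] {Y : Fin 3 → Matrix κ κ ℝ}
  {P Q : Matrix κ κ ℝ}

/-! ### `A Divᵀ = 0`, `A P_b` -/

theorem Pa_DvT : Pa κ * (Dv Y)ᵀ = (Dv Y)ᵀ := by
  have h := congrArg transpose (Dv_Pa (Y := Y))
  rwa [transpose_mul, Pa_transpose] at h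

theorem Rm_DvT (D : Dat Y P Q) : Rm Y * (Dv Y)ᵀ = -(Dv Y)ᵀ := by
  have h := congrArg transpose (K2 D.so)
  rwa [transpose_mul, Rm_transpose D.so, transpose_neg] at h

theorem Aa_comm (D : Dat Y P Q) :
    Aa Y Q = c9 (Q * Q) * ((Rm Y + (1 / 2 : ℝ) • Pa κ) * (Pa κ + Rm Y)) := by
  have e1 : Rm Y * c9 (Q * Q) = c9 (Q * Q) * Rm Y := Rm_c9 D.YQQ
  have e2 : Pa κ * c9 (Q * Q) = c9 (Q * Q) * Pa κ := Pa_c9 _
  have e3 : (Pa κ + Rm Y) * (Rm Y + (1 / 2 : ℝ) • Pa κ) =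
      (Rm Y + (1 / 2 : ℝ) • Pa κ) * (Pa κ + Rm Y) := by
    simp only [Matrix.mul_add, Matrix.add_mul, Matrix.smul_mul, Matrix.mul_smul, Rm_Pa, Pa_Rm,
      Pa_Pa]
    module
  have e4 : (Rm Y + (1 / 2 : ℝ) • Pa κ) * c9 (Q * Q) =
      c9 (Q * Q) * (Rm Y + (1 / 2 : ℝ) • Pa κ) := by
    rw [Matrix.mul_add, Matrix.add_mul, e1, Matrix.mul_smul, Matrix.smul_mul, e2]
  have e5 : (Pa κ + Rm Y) * c9 (Q * Q) = c9 (Q * Q) * (Pa κ + Rm Y) := by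
    rw [Matrix.mul_add, Matrix.add_mul, e1, e2]
  unfold Aa
  rw [e3, Matrix.mul_assoc, e5, ← Matrix.mul_assoc, e4, Matrix.mul_assoc]

theorem Aa_DvT (D : Dat Y P Q) : Aa Y Q * (Dv Y)ᵀ = 0 := by
  rw [Aa_comm D, Matrix.mul_assoc, Matrix.mul_assoc, Matrix.add_mul (Pa κ), Pa_DvT, Rm_DvT D,
    add_neg_cancel, Matrix.mul_zero, Matrix.mul_zero]

theorem Ab_DvT : Lin561.Ab P * (Dv Y)ᵀ = 0 := by
  unfold Lin561.Ab
  rw [Pb_c9, Matrix.mul_assoc]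
  have : Pb κ * (Dv Y)ᵀ = 0 := by
    rw [← Pa_DvT, ← Matrix.mul_assoc, Pb_Pa, Matrix.zero_mul]
  rw [this, Matrix.mul_zero]

/-- **`A Divᵀ = 0`** -/
theorem A_DvT (D : Dat Y P Q) : Am Y P Q * (Dv Y)ᵀ = 0 := by
  unfold Am
  rw [Matrix.smul_mul, Matrix.add_mul, Aa_DvT D, Ab_DvT, add_zero, smul_zero]

theorem Aa_Pb (D : Dat Y P Q) : Aa Y Q * Pb κ = 0 := by
  rw [Aa_comm D, Matrix.mul_assoc, Matrix.mul_assoc, Matrix.add_mul (Pa κ), Pa_Pb, Rm_Pb,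
    add_zero, Matrix.mul_zero, Matrix.mul_zero]

/-- **`A P_b = (1/3) P_b P²`** -/
theorem A_Pb (D : Dat Y P Q) : Am Y P Q * Pb κ = (1 / 3 : ℝ) • (Pb κ * c9 (P * P)) := by
  unfold Am Lin561.Ab
  rw [Matrix.smul_mul, Matrix.add_mul, Aa_Pb D, zero_add, Matrix.mul_assoc, ← Pb_c9,
    ← Matrix.mul_assoc, Pb_Pb]

/-! ### the bound `P² ≥ 1/2` -/

theorem c9_Cas (D : Dat Y P Q) : c9 (Cas Y) =
    (c9 (Y 0))ᵀ * c9 (Y 0) + (c9 (Y 1))ᵀ * c9 (Y 1) + (c9 (Y 2))ᵀ * c9 (Y 2) := by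
  rw [Cas_eq D.so, c9_add, c9_add, ← c9_mul, ← c9_mul, ← c9_mul, c9_transpose, c9_transpose,
    c9_transpose]

theorem Cas_form (D : Dat Y P Q) (u : Fin 9 × κ → ℝ) : u ⬝ᵥ (c9 (Cas Y) *ᵥ u) =
    (c9 (Y 0) *ᵥ u) ⬝ᵥ (c9 (Y 0) *ᵥ u) + (c9 (Y 1) *ᵥ u) ⬝ᵥ (c9 (Y 1) *ᵥ u) +
      (c9 (Y 2) *ᵥ u) ⬝ᵥ (c9 (Y 2) *ᵥ u) := by
  have key : ∀ B : Matrix (Fin 9 × κ) (Fin 9 × κ) ℝ,
      u ⬝ᵥ ((Bᵀ * B) *ᵥ u) = (B *ᵥ u) ⬝ᵥ (B *ᵥ u) := fun B => by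
    rw [← mulVec_mulVec, dot_T, transpose_transpose]
  rw [c9_Cas D, Matrix.add_mulVec, Matrix.add_mulVec, dotProduct_add, dotProduct_add, key, key,
    key]

theorem Cas_nn (D : Dat Y P Q) (u : Fin 9 × κ → ℝ) : 0 ≤ u ⬝ᵥ (c9 (Cas Y) *ᵥ u) := by
  rw [Cas_form D]
  exact add_nonneg (add_nonneg (dot_nn _) (dot_nn _)) (dot_nn _)

theorem c9P_T (D : Dat Y P Q) : (c9 P)ᵀ = c9 P := by rw [c9_transpose, D.PT]
theorem c9PP_T (D : Dat Y P Q) : (c9 (P * P))ᵀ = c9 (P * P) := by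
  rw [c9_transpose, transpose_mul, D.PT]
theorem c9QQ_T (D : Dat Y P Q) : (c9 (Q * Q))ᵀ = c9 (Q * Q) := by
  rw [c9_transpose, transpose_mul, D.QT]

theorem PP_form (D : Dat Y P Q) (u : Fin 9 × κ → ℝ) :
    u ⬝ᵥ (c9 (P * P) *ᵥ u) = (c9 P *ᵥ u) ⬝ᵥ (c9 P *ᵥ u) := by
  rw [← c9_mul, ← mulVec_mulVec, dot_sym (c9P_T D)]

theorem CP (D : Dat Y P Q) : Cas Y * P = P * Cas Y := (D.comm _ rfl).1

theorem c9_isUnit {B B' : Matrix κ κ ℝ} (h : B' * B = 1) (u : Fin 9 × κ → ℝ) :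
    c9 B' *ᵥ (c9 B *ᵥ u) = u := by
  rw [mulVec_mulVec, c9_mul, h, c9_one, one_mulVec]

/-- `½ |u|² ≤ ⟨P² u, u⟩` -/
theorem PP_ge (D : Dat Y P Q) (u : Fin 9 × κ → ℝ) :
    1 / 2 * (u ⬝ᵥ u) ≤ u ⬝ᵥ (c9 (P * P) *ᵥ u) := by
  -- `Z = P² + 1/2` is invertible
  have hZ : (P * P + (1 / 2 : ℝ) • (1 : Matrix κ κ ℝ)).PosDef := by
    have h1 : (P * P).PosSemidef := by
      have := psd_TT P
      rwa [D.PT] at this
    exact PosDef.posSemidef_add h1 (PosDef.smul PosDef.one (by norm_num))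
  have hdet : IsUnit (P * P + (1 / 2 : ℝ) • (1 : Matrix κ κ ℝ)).det :=
    (Matrix.isUnit_iff_isUnit_det _).mp hZ.isUnit
  set Z := P * P + (1 / 2 : ℝ) • (1 : Matrix κ κ ℝ) with hZd
  obtain ⟨v, hu⟩ : ∃ v, u = c9 Z *ᵥ v := ⟨c9 Z⁻¹ *ᵥ u, by
    rw [mulVec_mulVec, c9_mul, mul_nonsing_inv _ hdet, c9_one, one_mulVec]⟩
  have hZT : (c9 Z)ᵀ = c9 Z := by
    rw [c9_transpose, hZd, transpose_add, transpose_smul, transpose_one, transpose_mul, D.PT]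
  have e1 : Z * (P * P - (1 / 2 : ℝ) • (1 : Matrix κ κ ℝ)) = Cas Y := by
    have : Z * (P * P - (1 / 2 : ℝ) • (1 : Matrix κ κ ℝ)) =
        P * P * (P * P) - (1 / 4 : ℝ) • (1 : Matrix κ κ ℝ) := by
      rw [hZd]
      simp only [Matrix.mul_sub, Matrix.add_mul, Matrix.smul_mul, Matrix.mul_smul, Matrix.mul_one,
        Matrix.one_mul]
      module
    rw [this, D.P4, Bm, add_sub_cancel_right]
  have e2 : u ⬝ᵥ (c9 (P * P) *ᵥ u) - 1 / 2 * (u ⬝ᵥ u) =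
      u ⬝ᵥ (c9 (P * P - (1 / 2 : ℝ) • (1 : Matrix κ κ ℝ)) *ᵥ u) := by
    have : c9 (P * P - (1 / 2 : ℝ) • (1 : Matrix κ κ ℝ)) =
        c9 (P * P) - (1 / 2 : ℝ) • 1 := by
      rw [← c9_one (κ := κ), ← c9_smul]
      exact kron_sub_right _ _ _
    rw [this, Matrix.sub_mulVec, dotProduct_sub, Matrix.smul_mulVec, one_mulVec, dotProduct_smul,
      smul_eq_mul]
  have e3 : u ⬝ᵥ (c9 (P * P - (1 / 2 : ℝ) • (1 : Matrix κ κ ℝ)) *ᵥ u) =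
      v ⬝ᵥ (c9 (Cas Y) *ᵥ (c9 Z *ᵥ v)) := by
    conv_lhs => rw [hu]
    rw [← dot_sym hZT, mulVec_mulVec, mulVec_mulVec, c9_mul, c9_mul, e1,
      ← c9_mul, mulVec_mulVec]
  have e4 : v ⬝ᵥ (c9 (Cas Y) *ᵥ (c9 Z *ᵥ v)) =
      (c9 P *ᵥ v) ⬝ᵥ (c9 (Cas Y) *ᵥ (c9 P *ᵥ v)) + 1 / 2 * (v ⬝ᵥ (c9 (Cas Y) *ᵥ v)) := by
    have f1 : c9 Z = c9 (P * P) + (1 / 2 : ℝ) • 1 := by
      rw [hZd, c9_add, c9_smul, c9_one]
    have f2 : Cas Y * (P * P) = P * (Cas Y * P) := by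
      rw [← Matrix.mul_assoc, CP D, Matrix.mul_assoc, CP D]
    rw [f1, Matrix.add_mulVec, mulVec_add, dotProduct_add, Matrix.smul_mulVec, one_mulVec,
      mulVec_smul, dotProduct_smul, smul_eq_mul]
    have f3 : c9 (Cas Y) *ᵥ (c9 (P * P) *ᵥ v) = c9 P *ᵥ (c9 (Cas Y) *ᵥ (c9 P *ᵥ v)) := by
      rw [mulVec_mulVec v, c9_mul, f2, ← c9_mul, ← c9_mul, ← mulVec_mulVec, ← mulVec_mulVec]
    rw [f3, dot_sym (c9P_T D)]
  have h5 := Cas_nn D (c9 P *ᵥ v)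
  have h6 := Cas_nn D v
  linarith

/-! ### the first three directions -/

include G in
/-- `(R² + R) u = C u` -/
theorem RR_vec (D : Dat Y P Q) {u : Fin 9 × κ → ℝ} (h1 : Pa κ *ᵥ u = u)
    (h2 : Dv Y *ᵥ u = 0) : Rm Y *ᵥ (Rm Y *ᵥ u) + Rm Y *ᵥ u = c9 (Cas Y) *ᵥ u := by
  have h3 : Pa κ * replicateCol Unit u = replicateCol Unit u := by
    rw [← replicateCol_mulVec, h1]
  have h4 : Dv Y * replicateCol Unit u = 0 := by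
    rw [← replicateCol_mulVec, h2]
    rfl
  have h5 := D.RR G h3 h4
  rw [← replicateCol_mulVec, ← replicateCol_mulVec, ← replicateCol_mulVec,
    ← replicateCol_add] at h5
  exact replicateCol_injective h5

/-- `s = Q² (R + 1/2) u` -/
def sv (Y : Fin 3 → Matrix κ κ ℝ) (Q : Matrix κ κ ℝ) (u : Fin 9 × κ → ℝ) : Fin 9 × κ → ℝ :=
  c9 (Q * Q) *ᵥ (Rm Y *ᵥ u + (1 / 2 : ℝ) • u)

theorem RQQ (D : Dat Y P Q) (u : Fin 9 × κ → ℝ) :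
    Rm Y *ᵥ (c9 (Q * Q) *ᵥ u) = c9 (Q * Q) *ᵥ (Rm Y *ᵥ u) := by
  rw [mulVec_mulVec, mulVec_mulVec, Rm_c9 D.YQQ]

include G in
/-- `(R + 1/2)² u = B u` -/
theorem RB_vec (D : Dat Y P Q) {u : Fin 9 × κ → ℝ} (h1 : Pa κ *ᵥ u = u)
    (h2 : Dv Y *ᵥ u = 0) :
    Rm Y *ᵥ (Rm Y *ᵥ u + (1 / 2 : ℝ) • u) + (1 / 2 : ℝ) • (Rm Y *ᵥ u + (1 / 2 : ℝ) • u) =
      c9 (Bm Y) *ᵥ u := by
  have h := RR_vec G D h1 h2
  rw [Bm, c9_add, c9_smul, c9_one, Matrix.add_mulVec, Matrix.smul_mulVec, one_mulVec, ← h,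
    mulVec_add, mulVec_smul]
  module

include G in
theorem sv_norm (D : Dat Y P Q) {u : Fin 9 × κ → ℝ} (h1 : Pa κ *ᵥ u = u)
    (h2 : Dv Y *ᵥ u = 0) : sv Y Q u ⬝ᵥ sv Y Q u = u ⬝ᵥ u := by
  have hRT := Rm_transpose D.so
  set x := Rm Y *ᵥ u + (1 / 2 : ℝ) • u with hx
  have e1 : sv Y Q u ⬝ᵥ sv Y Q u = x ⬝ᵥ (c9 (Q * Q * (Q * Q)) *ᵥ x) := by
    unfold sv
    rw [← c9_mul (Q * Q) (Q * Q), ← mulVec_mulVec, dot_sym (c9QQ_T D)]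
    exact dotProduct_comm _ _
  have e2 : x ⬝ᵥ (c9 (Q * Q * (Q * Q)) *ᵥ x) = u ⬝ᵥ (c9 (Q * Q * (Q * Q)) *ᵥ
      (Rm Y *ᵥ x + (1 / 2 : ℝ) • x)) := by
    have e3 : Rm Y *ᵥ (c9 (Q * Q * (Q * Q)) *ᵥ x) = c9 (Q * Q * (Q * Q)) *ᵥ (Rm Y *ᵥ x) := by
      rw [← c9_mul, ← mulVec_mulVec, ← mulVec_mulVec, RQQ D, RQQ D]
    conv_lhs => rw [hx]
    rw [add_dotProduct, ← dot_sym hRT, e3, mulVec_add (c9 (Q * Q * (Q * Q))) (Rm Y *ᵥ x),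
      dotProduct_add, mulVec_smul, dotProduct_smul, smul_dotProduct]
  rw [e1, e2, hx, RB_vec G D h1 h2, mulVec_mulVec, c9_mul]
  have e4 : Q * Q * (Q * Q) * Bm Y = 1 := by
    rw [← D.P4]
    calc Q * Q * (Q * Q) * (P * P * (P * P)) = Q * Q * (Q * Q * (P * P)) * (P * P) := by
          simp only [Matrix.mul_assoc]
      _ = 1 := by rw [D.QQPP, Matrix.mul_one, D.QQPP]
  rw [e4, c9_one, one_mulVec]

include G in
/-- `3 A u = P² u + ½ s` on `P_a u = u`, `Div u = 0` -/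
theorem A_u (D : Dat Y P Q) {u : Fin 9 × κ → ℝ} (h1 : Pa κ *ᵥ u = u)
    (h2 : Dv Y *ᵥ u = 0) :
    Am Y P Q *ᵥ u = (1 / 3 : ℝ) • (c9 (P * P) *ᵥ u + (1 / 2 : ℝ) • sv Y Q u) := by
  have hb : Lin561.Ab P *ᵥ u = 0 := by
    rw [← h1, mulVec_mulVec]
    have : Lin561.Ab P * Pa κ = 0 := by
      unfold Lin561.Ab
      rw [Pb_c9, Matrix.mul_assoc, Pb_Pa, Matrix.mul_zero]
    rw [this, zero_mulVec]
  have ha : Aa Y Q *ᵥ u = c9 (P * P) *ᵥ u + (1 / 2 : ℝ) • sv Y Q u := by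
    have e1 : ((Rm Y + (1 / 2 : ℝ) • Pa κ) * (Pa κ + Rm Y)) *ᵥ u =
        c9 (Bm Y) *ᵥ u + (1 / 2 : ℝ) • (Rm Y *ᵥ u + (1 / 2 : ℝ) • u) := by
      have f1 : (Pa κ + Rm Y) *ᵥ u = u + Rm Y *ᵥ u := by rw [Matrix.add_mulVec, h1]
      have f2 : Pa κ *ᵥ (u + Rm Y *ᵥ u) = u + Rm Y *ᵥ u := by
        rw [mulVec_add, h1, mulVec_mulVec, Pa_Rm]
      rw [← mulVec_mulVec, f1, Matrix.add_mulVec, Matrix.smul_mulVec, f2, ← RB_vec G D h1 h2,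
        mulVec_add, mulVec_add, mulVec_smul]
      module
    rw [Aa_comm D, ← mulVec_mulVec, e1, mulVec_add, mulVec_smul, mulVec_mulVec, c9_mul]
    have e2 : Q * Q * Bm Y = P * P := by
      rw [← D.P4, ← Matrix.mul_assoc, D.QQPP, Matrix.one_mul]
    rw [e2]
    rfl
  unfold Am
  rw [Matrix.smul_mulVec, Matrix.add_mulVec, hb, add_zero, ha]

include G in
theorem form_u (D : Dat Y P Q) {u : Fin 9 × κ → ℝ} (h1 : Pa κ *ᵥ u = u)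
    (h2 : Dv Y *ᵥ u = 0) : 0 ≤ u ⬝ᵥ (Am Y P Q *ᵥ u) := by
  rw [A_u G D h1 h2, dotProduct_smul, dotProduct_add, dotProduct_smul, smul_eq_mul, smul_eq_mul]
  have e1 := PP_ge D u
  have e2 := sv_norm G D h1 h2
  have e3 : 0 ≤ (u + sv Y Q u) ⬝ᵥ (u + sv Y Q u) := dot_nn _
  rw [add_dotProduct, dotProduct_add, dotProduct_add, e2, dotProduct_comm (sv Y Q u) u] at e3
  linarith

include G in
theorem ker_u (D : Dat Y P Q) {u : Fin 9 × κ → ℝ} (h1 : Pa κ *ᵥ u = u)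
    (h2 : Dv Y *ᵥ u = 0) (h3 : Am Y P Q *ᵥ u = 0) : u = 0 := by
  have hA := A_u G D h1 h2
  rw [h3] at hA
  have e0 : c9 (P * P) *ᵥ u = -((1 / 2 : ℝ) • sv Y Q u) := by
    have : c9 (P * P) *ᵥ u + (1 / 2 : ℝ) • sv Y Q u = 0 := by
      have h4 := congrArg (fun z => (3 : ℝ) • z) hA
      simp only [smul_zero, smul_smul] at h4
      norm_num at h4
      exact h4.symm
    exact eq_neg_of_add_eq_zero_left this
  have e1 : (c9 (P * P) *ᵥ u) ⬝ᵥ (c9 (P * P) *ᵥ u) = 1 / 4 * (u ⬝ᵥ u) := by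
    rw [e0, neg_dotProduct, dotProduct_neg, neg_neg, dotProduct_smul, smul_dotProduct,
      sv_norm G D h1 h2, smul_eq_mul, smul_eq_mul]
    ring
  have e2 : (c9 (P * P) *ᵥ u) ⬝ᵥ (c9 (P * P) *ᵥ u) = u ⬝ᵥ (c9 (Cas Y) *ᵥ u) +
      1 / 4 * (u ⬝ᵥ u) := by
    rw [← dot_sym (c9PP_T D), mulVec_mulVec, c9_mul, D.P4, Bm, c9_add, c9_smul, c9_one,
      Matrix.add_mulVec, dotProduct_add, Matrix.smul_mulVec, one_mulVec, dotProduct_smul,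
      smul_eq_mul]
  have e3 : u ⬝ᵥ (c9 (Cas Y) *ᵥ u) = 0 := by linarith
  rw [Cas_form D] at e3
  have n0 := dot_nn (c9 (Y 0) *ᵥ u)
  have n1 := dot_nn (c9 (Y 1) *ᵥ u)
  have n2 := dot_nn (c9 (Y 2) *ᵥ u)
  have z0 := dot_zero (le_antisymm (by linarith) n0 : (c9 (Y 0) *ᵥ u) ⬝ᵥ (c9 (Y 0) *ᵥ u) = 0)
  have z1 := dot_zero (le_antisymm (by linarith) n1 : (c9 (Y 1) *ᵥ u) ⬝ᵥ (c9 (Y 1) *ᵥ u) = 0)
  have z2 := dot_zero (le_antisymm (by linarith) n2 : (c9 (Y 2) *ᵥ u) ⬝ᵥ (c9 (Y 2) *ᵥ u) = 0)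
  have e4 : Rm Y *ᵥ u = 0 := by
    have f : ∀ (r : Matrix (Fin 9) (Fin 9) ℝ) (B : Matrix κ κ ℝ), r ⊗ₖ B =
        (r ⊗ₖ (1 : Matrix κ κ ℝ)) * c9 B := by
      intro r B
      unfold c9
      rw [← mul_kronecker_mul, Matrix.mul_one, Matrix.one_mul]
    unfold Rm
    rw [f _ (Y 0), f _ (Y 1), f _ (Y 2), Matrix.add_mulVec, Matrix.add_mulVec, ← mulVec_mulVec,
      ← mulVec_mulVec, ← mulVec_mulVec, z0, z1, z2, mulVec_zero, mulVec_zero, mulVec_zero,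
      add_zero, add_zero]
  have e5 : u ⬝ᵥ (c9 (P * P) *ᵥ u) = -(1 / 4) * ((c9 Q *ᵥ u) ⬝ᵥ (c9 Q *ᵥ u)) := by
    have hQT : (c9 Q)ᵀ = c9 Q := by rw [c9_transpose, D.QT]
    rw [e0]
    unfold sv
    rw [e4, zero_add, mulVec_smul, smul_smul, dotProduct_neg, dotProduct_smul, ← c9_mul,
      ← mulVec_mulVec, dot_sym hQT, smul_eq_mul]
    ring
  have e6 := PP_ge D u
  have e7 := dot_nn (c9 Q *ᵥ u)
  have e8 := dot_nn u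
  exact dot_zero (le_antisymm (by linarith) e8)

/-! ### the whole space -/

/-- decomposition of a vector -/
theorem split (u : Fin 9 × κ → ℝ) : ∃ (w : Fin 1 × κ → ℝ) (z : Fin 9 × κ → ℝ),
    u = Pb κ *ᵥ u + ((Dv Y)ᵀ *ᵥ w + z) ∧ Pa κ *ᵥ z = z ∧ Dv Y *ᵥ z = 0 := by
  obtain ⟨w, z, h1, h2⟩ := exists_decomp (Dv Y) (Pa κ *ᵥ u)
  have h3 : Pa κ *ᵥ z = z := by
    have e : z = Pa κ *ᵥ u - (Dv Y)ᵀ *ᵥ w := by rw [h1]; abel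
    rw [e, mulVec_sub, mulVec_mulVec, Pa_Pa, mulVec_mulVec, Pa_DvT]
  refine ⟨w, z, ?_, h3, h2⟩
  rw [← h1, ← Matrix.add_mulVec, add_comm, Pa_add_Pb, one_mulVec]

theorem A_Pb_vec (D : Dat Y P Q) (u : Fin 9 × κ → ℝ) :
    Am Y P Q *ᵥ (Pb κ *ᵥ u) = (1 / 3 : ℝ) • (Pb κ *ᵥ (c9 (P * P) *ᵥ u)) := by
  rw [mulVec_mulVec, A_Pb D, Matrix.smul_mulVec, mulVec_mulVec]

theorem A_split (D : Dat Y P Q) {u z : Fin 9 × κ → ℝ} {w : Fin 1 × κ → ℝ}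
    (h : u = Pb κ *ᵥ u + ((Dv Y)ᵀ *ᵥ w + z)) :
    Am Y P Q *ᵥ u = (1 / 3 : ℝ) • (Pb κ *ᵥ (c9 (P * P) *ᵥ u)) + Am Y P Q *ᵥ z := by
  conv_lhs => rw [h]
  rw [mulVec_add, mulVec_add, A_Pb_vec D, mulVec_mulVec w, A_DvT D, zero_mulVec, zero_add]

theorem Pb_z {z : Fin 9 × κ → ℝ} (h : Pa κ *ᵥ z = z) : Pb κ *ᵥ z = 0 := by
  rw [Pb_eq, Matrix.sub_mulVec, one_mulVec, h, sub_self]

theorem form_split (D : Dat Y P Q) {u z : Fin 9 × κ → ℝ} {w : Fin 1 × κ → ℝ}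
    (h : u = Pb κ *ᵥ u + ((Dv Y)ᵀ *ᵥ w + z)) (hz : Pa κ *ᵥ z = z) :
    u ⬝ᵥ (Am Y P Q *ᵥ u) = 1 / 3 * ((Pb κ *ᵥ u) ⬝ᵥ (c9 (P * P) *ᵥ (Pb κ *ᵥ u))) +
      z ⬝ᵥ (Am Y P Q *ᵥ z) := by
  have e1 : u ⬝ᵥ (Am Y P Q *ᵥ z) = z ⬝ᵥ (Am Y P Q *ᵥ z) := by
    rw [dot_sym D.A_T, A_split D h, add_dotProduct, smul_dotProduct, ← dot_sym Pb_transpose,
      Pb_z hz, dotProduct_zero, smul_zero, zero_add, dotProduct_comm]
  have e2 : u ⬝ᵥ (Pb κ *ᵥ (c9 (P * P) *ᵥ u)) =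
      (Pb κ *ᵥ u) ⬝ᵥ (c9 (P * P) *ᵥ (Pb κ *ᵥ u)) := by
    have f : c9 (P * P) *ᵥ (Pb κ *ᵥ u) = Pb κ *ᵥ (c9 (P * P) *ᵥ u) := by
      rw [mulVec_mulVec, mulVec_mulVec, Pb_c9]
    rw [f, ← dot_sym Pb_transpose, mulVec_mulVec _ (Pb κ) (Pb κ), Pb_Pb]
  conv_lhs => rw [A_split D h]
  rw [dotProduct_add, dotProduct_smul, smul_eq_mul, e1, e2]

include G in
theorem form_nn (D : Dat Y P Q) (u : Fin 9 × κ → ℝ) : 0 ≤ u ⬝ᵥ (Am Y P Q *ᵥ u) := by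
  obtain ⟨w, z, h1, h2, h3⟩ := split (Y := Y) u
  rw [form_split D h1 h2]
  have e1 := PP_ge D (Pb κ *ᵥ u)
  have e2 := dot_nn (Pb κ *ᵥ u)
  have e3 := form_u G D h2 h3
  linarith

include G in
/-- **`A` is positive semidefinite** -/
theorem A_posSemidef (D : Dat Y P Q) : (Am Y P Q).PosSemidef := by
  refine PosSemidef.of_dotProduct_mulVec_nonneg ?_ fun u => ?_
  · rw [IsHermitian, conjTranspose_eq_transpose_of_trivial, D.A_T]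
  · have := form_nn G D u
    simpa using this

include G in
/-- **the kernel of `A` is the range of `Divᵀ`** -/
theorem A_ker (D : Dat Y P Q) (u : Fin 9 × κ → ℝ) :
    Am Y P Q *ᵥ u = 0 ↔ ∃ w, u = (Dv Y)ᵀ *ᵥ w := by
  constructor
  · intro h
    obtain ⟨w, z, h1, h2, h3⟩ := split (Y := Y) u
    have e0 := form_split D h1 h2
    rw [h, dotProduct_zero] at e0
    have e1 := PP_ge D (Pb κ *ᵥ u)
    have e2 := dot_nn (Pb κ *ᵥ u)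
    have e3 := form_u G D h2 h3
    have e4 : Pb κ *ᵥ u = 0 := dot_zero (le_antisymm (by linarith) e2)
    have e5 := A_split D h1
    rw [h, mulVec_mulVec, Pb_c9, ← mulVec_mulVec, e4, mulVec_zero, smul_zero, zero_add] at e5
    have e6 := ker_u G D h2 h3 e5.symm
    refine ⟨w, ?_⟩
    rw [e4, e6, zero_add, add_zero] at h1
    exact h1
  · rintro ⟨w, rfl⟩
    rw [mulVec_mulVec, A_DvT D, zero_mulVec]

end

end Crest.Agent.R330.LinG501
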