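import Crest.Agent.R330.LinF_561

/-!
# Row 330, S5c: linear model at a fuzzy vacuum, part G: positivity and kernel of `A` (helper561)

* `exists_normal` : solvability of the normal equations.
* `A_DvT : A Divᵀ = 0`, `A_nonneg`, `A_ker : A u = 0 ↔ ∃ z, u = Divᵀ z`.
* `A_c9 : A` commutes with `1 ⊗ K` if `K` commutes with the `Y_a`.
-/

set_option autoImplicit false
set_option linter.unusedSectionVars false
set_option linter.unusedDecidableInType false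
set_option linter.unusedFintypeInType false

open Matrix Crest.MathPhysics.MatrixQM Crest.Agent.R330.Gam962 Crest.Agent.R330.Defs478
open scoped Kronecker

namespace Crest.Agent.R330.Lin561

noncomputable section

theorem exists_normal {m n : Type*} [Fintype m] [Fintype n] [DecidableEq m] [DecidableEq n]
    (D : Matrix m n ℝ) (u : n → ℝ) : ∃ z, D *ᵥ (u - Dᵀ *ᵥ z) = 0 := by
  have hle : LinearMap.range (D * Dᵀ).mulVecLin ≤ LinearMap.range D.mulVecLin := by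
    rw [Matrix.mulVecLin_mul]
    exact LinearMap.range_comp_le_range _ _
  have heq : LinearMap.range (D * Dᵀ).mulVecLin = LinearMap.range D.mulVecLin := by
    refine Submodule.eq_of_le_of_finrank_eq hle ?_
    exact rank_self_mul_transpose D
  have hu : D *ᵥ u ∈ LinearMap.range (D * Dᵀ).mulVecLin := by
    rw [heq]
    exact ⟨u, rfl⟩
  obtain ⟨z, hz⟩ := hu
  refine ⟨z, ?_⟩
  rw [mulVec_sub, mulVec_mulVec]
  rw [mulVecLin_apply] at hz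
  rw [hz, sub_self]

variable (G : GammaNine) {κ : Type*} [Fintype κ] [DecidableEq κ] {Y : Fin 3 → Matrix κ κ ℝ}
  {P Q : Matrix κ κ ℝ}

theorem dot_self_nonneg {n : Type*} [Fintype n] (v : n → ℝ) : 0 ≤ v ⬝ᵥ v :=
  Finset.sum_nonneg fun _ _ => mul_self_nonneg _

theorem dot_T {m n : Type*} [Fintype m] [Fintype n] (D : Matrix m n ℝ) (u : m → ℝ) (v : n → ℝ) :
    u ⬝ᵥ (D *ᵥ v) = (Dᵀ *ᵥ u) ⬝ᵥ v := by
  rw [dotProduct_mulVec, ← mulVec_transpose]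

theorem dot_symm {n : Type*} [Fintype n] {D : Matrix n n ℝ} (hD : Dᵀ = D) (u v : n → ℝ) :
    u ⬝ᵥ (D *ᵥ v) = (D *ᵥ u) ⬝ᵥ v := by
  rw [dot_T, hD]

theorem dot_TT {m n : Type*} [Fintype m] [Fintype n] (X : Matrix m n ℝ) (v : n → ℝ) :
    v ⬝ᵥ ((Xᵀ * X) *ᵥ v) = (X *ᵥ v) ⬝ᵥ (X *ᵥ v) := by
  rw [← mulVec_mulVec, dot_T, transpose_transpose]

/-- Cauchy-Schwarz. -/
theorem cs {n : Type*} [Fintype n] (u v : n → ℝ) : (u ⬝ᵥ v) ^ 2 ≤ (u ⬝ᵥ u) * (v ⬝ᵥ v) := by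
  have := Finset.sum_mul_sq_le_sq_mul_sq Finset.univ u v
  simpa only [dotProduct, pow_two] using this

namespace Dat

variable (D : Dat Y P Q)
include D

theorem A_DvT : Am Y P Q * (Dv Y)ᵀ = 0 := by
  have h1 : (Dv Y) * (Am Y P Q)ᵀ = 0 := by
    rw [D.A_T, Am, Matrix.mul_smul, Matrix.mul_add, D.Dv_Aa, Ab, ← Matrix.mul_assoc,
      show Dv Y * Pb κ = 0 by rw [Pb_eq, Matrix.mul_sub, Matrix.mul_one, Dv_Pa, sub_self],
      Matrix.zero_mul, add_zero, smul_zero]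
  have h2 := congrArg transpose h1
  rwa [transpose_mul, transpose_transpose, transpose_zero] at h2

omit D in
theorem dot_Cas (h : So3 Y) (v : Fin 9 × κ → ℝ) : v ⬝ᵥ (c9 (Cas Y) *ᵥ v) =
    (c9 (Y 0) *ᵥ v) ⬝ᵥ (c9 (Y 0) *ᵥ v) + (c9 (Y 1) *ᵥ v) ⬝ᵥ (c9 (Y 1) *ᵥ v) +
      (c9 (Y 2) *ᵥ v) ⬝ᵥ (c9 (Y 2) *ᵥ v) := by
  rw [Cas_eq h, c9_add, c9_add, ← c9_mul, ← c9_mul, ← c9_mul, ← c9_transpose, ← c9_transpose,
    ← c9_transpose, add_mulVec, add_mulVec, dotProduct_add, dotProduct_add, dot_TT, dot_TT, dot_TT]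

omit D in
theorem Rm_zero {v : Fin 9 × κ → ℝ} (h : ∀ a, c9 (Y a) *ᵥ v = 0) : Rm Y *ᵥ v = 0 := by
  have e : ∀ a, (rr a ⊗ₖ Y a) *ᵥ v = 0 := by
    intro a
    have : rr a ⊗ₖ Y a = (rr a ⊗ₖ (1 : Matrix κ κ ℝ)) * c9 (Y a) := by
      unfold c9
      rw [← mul_kronecker_mul, Matrix.mul_one, Matrix.one_mul]
    rw [this, ← mulVec_mulVec, h, mulVec_zero]
  unfold Rm
  rw [add_mulVec, add_mulVec, e, e, e, add_zero, add_zero]

include G in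
/-- vector form of `RR` -/
theorem RRv {v : Fin 9 × κ → ℝ} (h1 : Pa κ *ᵥ v = v) (h2 : Dv Y *ᵥ v = 0) :
    Rm Y *ᵥ (Rm Y *ᵥ v) + Rm Y *ᵥ v = c9 (Cas Y) *ᵥ v := by
  let X : Matrix (Fin 9 × κ) Unit ℝ := replicateCol Unit v
  have e1 : Pa κ * X = X := by
    rw [← replicateCol_mulVec, h1]
  have e2 : Dv Y * X = 0 := by
    rw [← replicateCol_mulVec, h2, replicateCol_zero]
  have e3 := D.RR G e1 e2
  simp only [X, ← replicateCol_mulVec, ← replicateCol_add] at e3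
  exact replicateCol_injective e3

include G in
/-- the quadratic form on the divergence-free vectors -/
theorem form {v : Fin 9 × κ → ℝ} (h1 : Pa κ *ᵥ v = v) (h2 : Dv Y *ᵥ v = 0) :
    0 ≤ v ⬝ᵥ (((Pa κ + Rm Y) * (Rm Y + (1 / 2 : ℝ) • Pa κ)) *ᵥ v) ∧
      (v ⬝ᵥ (((Pa κ + Rm Y) * (Rm Y + (1 / 2 : ℝ) • Pa κ)) *ᵥ v) = 0 → v = 0) := by
  have hRR := D.RRv G h1 h2
  have hR := Rm_transpose D.so
  set C := c9 (Cas Y) with hC
  set r := Rm Y *ᵥ v with hr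
  -- the value of the operator
  have e1 : ((Pa κ + Rm Y) * (Rm Y + (1 / 2 : ℝ) • Pa κ)) *ᵥ v =
      C *ᵥ v + (1 / 2 : ℝ) • r + (1 / 2 : ℝ) • v := by
    have e : (Pa κ + Rm Y) * (Rm Y + (1 / 2 : ℝ) • Pa κ) =
        Rm Y * Rm Y + Rm Y + (1 / 2 : ℝ) • Rm Y + (1 / 2 : ℝ) • Pa κ := by
      simp only [Matrix.mul_add, Matrix.add_mul, Matrix.mul_smul, Rm_Pa, Pa_Rm, Pa_Pa]
      module
    rw [e, add_mulVec, add_mulVec, add_mulVec, smul_mulVec, smul_mulVec, h1, ← mulVec_mulVec,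
      ← hRR]
  have hx := dot_Cas D.so v
  set x := v ⬝ᵥ (C *ᵥ v) with hxdef
  set n := v ⬝ᵥ v with hn
  set s := v ⬝ᵥ r with hs
  have hx0 : 0 ≤ x := by
    rw [hx]
    exact add_nonneg (add_nonneg (dot_self_nonneg _) (dot_self_nonneg _)) (dot_self_nonneg _)
  have hn0 : 0 ≤ n := dot_self_nonneg _
  have e2 : v ⬝ᵥ (((Pa κ + Rm Y) * (Rm Y + (1 / 2 : ℝ) • Pa κ)) *ᵥ v) = x + 1 / 2 * s + 1 / 2 * n := by
    rw [e1, dotProduct_add, dotProduct_add, dotProduct_smul, dotProduct_smul, smul_eq_mul,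
      smul_eq_mul]
  -- `|r + v/2|² = x + n/4`
  have e3 : r ⬝ᵥ r + s = x := by
    have : v ⬝ᵥ (Rm Y *ᵥ r + r) = x := by rw [hRR]
    rw [dotProduct_add, dot_symm hR, ← hr] at this
    exact this
  have hcs := cs v (r + (1 / 2 : ℝ) • v)
  have e4 : (r + (1 / 2 : ℝ) • v) ⬝ᵥ (r + (1 / 2 : ℝ) • v) = x + 1 / 4 * n := by
    rw [dotProduct_add, add_dotProduct, add_dotProduct, dotProduct_smul, smul_dotProduct,
      smul_dotProduct, dotProduct_smul, dotProduct_comm r v]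
    simp only [smul_eq_mul]
    rw [← hs, ← hn]
    linarith
  have e5 : v ⬝ᵥ (r + (1 / 2 : ℝ) • v) = s + 1 / 2 * n := by
    rw [dotProduct_add, dotProduct_smul, smul_eq_mul]
  rw [e4, e5] at hcs
  rw [e2]
  -- with `y = s + n/2`, `t = x + n/4`: value = t + y/2
  have ht : 0 ≤ x + 1 / 4 * n := by positivity
  have hval : 0 ≤ x + 1 / 2 * s + 1 / 2 * n := by
    by_contra hneg
    push Not at hneg
    have hy : s + 1 / 2 * n < -(2 * (x + 1 / 4 * n)) := by linarith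
    have : (2 * (x + 1 / 4 * n)) ^ 2 < (s + 1 / 2 * n) ^ 2 := by
      nlinarith
    nlinarith
  refine ⟨hval, fun h0 => ?_⟩
  have hy : s + 1 / 2 * n = -(2 * (x + 1 / 4 * n)) := by linarith
  rw [hy] at hcs
  have h4 : (x + 1 / 4 * n) * (4 * x) ≤ 0 := by nlinarith
  have hnz : n = 0 := by
    rcases eq_or_lt_of_le hn0 with h | h
    · exact h.symm
    · exfalso
      have ht' : 0 < x + 1 / 4 * n := by positivity
      have hx1 : x ≤ 0 := by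
        by_contra hx2
        push Not at hx2
        have : 0 < (x + 1 / 4 * n) * (4 * x) := by positivity
        linarith
      have hx00 : x = 0 := le_antisymm hx1 hx0
      rw [hx00] at hx
      have z0 := dot_self_nonneg (c9 (Y 0) *ᵥ v)
      have z1 := dot_self_nonneg (c9 (Y 1) *ᵥ v)
      have z2 := dot_self_nonneg (c9 (Y 2) *ᵥ v)
      have w : ∀ a, c9 (Y a) *ᵥ v = 0 := by
        intro a
        fin_cases a
        · exact dotProduct_self_eq_zero.1 (by show c9 (Y 0) *ᵥ v ⬝ᵥ c9 (Y 0) *ᵥ v = 0; linarith)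
        · exact dotProduct_self_eq_zero.1 (by show c9 (Y 1) *ᵥ v ⬝ᵥ c9 (Y 1) *ᵥ v = 0; linarith)
        · exact dotProduct_self_eq_zero.1 (by show c9 (Y 2) *ᵥ v ⬝ᵥ c9 (Y 2) *ᵥ v = 0; linarith)
      have hr0 : r = 0 := Rm_zero w
      have hs0 : s = 0 := by rw [hs, hr0, dotProduct_zero]
      rw [hx00, hs0] at h0
      linarith
  exact dotProduct_self_eq_zero.1 hnz

include G in
/-- positivity and kernel -/
theorem A_form (u : Fin 9 × κ → ℝ) :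
    0 ≤ u ⬝ᵥ (Am Y P Q *ᵥ u) ∧ (u ⬝ᵥ (Am Y P Q *ᵥ u) = 0 → ∃ z, u = (Dv Y)ᵀ *ᵥ z) := by
  obtain ⟨z, hz⟩ := exists_normal (Dv Y) u
  set w := u - (Dv Y)ᵀ *ᵥ z with hw
  have hu : u = w + (Dv Y)ᵀ *ᵥ z := by rw [hw, sub_add_cancel]
  have hAz : ∀ z', Am Y P Q *ᵥ ((Dv Y)ᵀ *ᵥ z') = 0 := by
    intro z'
    rw [mulVec_mulVec, D.A_DvT, zero_mulVec]
  have e1 : u ⬝ᵥ (Am Y P Q *ᵥ u) = w ⬝ᵥ (Am Y P Q *ᵥ w) := by
    rw [hu, mulVec_add, hAz, add_zero, add_dotProduct, dotProduct_comm ((Dv Y)ᵀ *ᵥ z),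
      ← dot_symm D.A_T, hAz, dotProduct_zero, add_zero]
  -- the second part
  have hb : w ⬝ᵥ (Ab P *ᵥ w) = (c9 P *ᵥ (Pb κ *ᵥ w)) ⬝ᵥ (c9 P *ᵥ (Pb κ *ᵥ w)) := by
    have : Ab P = Pb κ * (c9 P * (c9 P * Pb κ)) := by
      unfold Ab
      rw [← Matrix.mul_assoc (c9 P), c9_mul, ← Pb_c9, ← Matrix.mul_assoc, Pb_Pb]
    have hPT : (c9 P)ᵀ = c9 P := by rw [c9_transpose, D.PT]
    rw [this, ← mulVec_mulVec, dot_symm Pb_transpose, ← mulVec_mulVec, dot_symm hPT,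
      ← mulVec_mulVec]
  -- the first part
  set v := c9 Q *ᵥ (Pa κ *ᵥ w) with hv
  have hQT : (c9 Q)ᵀ = c9 Q := by rw [c9_transpose, D.QT]
  have hRQ : Rm Y * c9 Q = c9 Q * Rm Y := Rm_c9 D.YQ
  have hPQ : Pa κ * c9 Q = c9 Q * Pa κ := Pa_c9 Q
  obtain ⟨K, hK⟩ : ∃ K, K = (Pa κ + Rm Y) * (Rm Y + (1 / 2 : ℝ) • Pa κ) := ⟨_, rfl⟩
  have hKQ : K * c9 Q = c9 Q * K := by
    have a1 : (Pa κ + Rm Y) * c9 Q = c9 Q * (Pa κ + Rm Y) := by
      rw [Matrix.mul_add, Matrix.add_mul, hRQ, hPQ]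
    have a2 : (Rm Y + (1 / 2 : ℝ) • Pa κ) * c9 Q = c9 Q * (Rm Y + (1 / 2 : ℝ) • Pa κ) := by
      rw [Matrix.mul_add, Matrix.add_mul, hRQ, Matrix.mul_smul, Matrix.smul_mul, hPQ]
    rw [hK, Matrix.mul_assoc, a2, ← Matrix.mul_assoc, a1, Matrix.mul_assoc]
  have hPaK : Pa κ * K = K := by
    rw [hK, ← Matrix.mul_assoc (Pa κ)]
    congr 1
    rw [Matrix.mul_add, Pa_Pa, Pa_Rm]
  have hKPa : K * Pa κ = K := by
    rw [hK, Matrix.mul_assoc, Matrix.add_mul (Rm Y), Matrix.smul_mul, Pa_Pa, Rm_Pa]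
  have ha : w ⬝ᵥ (Aa Y Q *ᵥ w) = v ⬝ᵥ (K *ᵥ v) := by
    have : Aa Y Q = Pa κ * (c9 Q * (K * (c9 Q * Pa κ))) := by
      calc Aa Y Q = K * (c9 Q * c9 Q) := by rw [c9_mul, hK]; rfl
        _ = K * Pa κ * (c9 Q * c9 Q) := by rw [hKPa]
        _ = c9 Q * K * (c9 Q * Pa κ) := by
          rw [Matrix.mul_assoc, ← Matrix.mul_assoc (Pa κ), hPQ, Matrix.mul_assoc (c9 Q), hPQ,
            ← Matrix.mul_assoc K, hKQ]
        _ = c9 Q * (Pa κ * K) * (c9 Q * Pa κ) := by rw [hPaK]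
        _ = Pa κ * (c9 Q * (K * (c9 Q * Pa κ))) := by
          rw [← Matrix.mul_assoc (c9 Q), ← hPQ]
          simp only [Matrix.mul_assoc]
    rw [this, ← mulVec_mulVec, dot_symm Pa_transpose, ← mulVec_mulVec, dot_symm hQT,
      ← mulVec_mulVec, ← mulVec_mulVec]
  have hv1 : Pa κ *ᵥ v = v := by
    rw [hv, mulVec_mulVec, hPQ, ← mulVec_mulVec, mulVec_mulVec w (Pa κ) (Pa κ), Pa_Pa]
  have hv2 : Dv Y *ᵥ v = 0 := by
    have hDQ : Dv Y * c9 Q = ((1 : Matrix (Fin 1) (Fin 1) ℝ) ⊗ₖ Q) * Dv Y := by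
      unfold Dv c9
      simp only [Matrix.add_mul, Matrix.mul_add, ← mul_kronecker_mul, Matrix.mul_one,
        Matrix.one_mul, D.YQ]
    rw [hv, mulVec_mulVec, hDQ, ← mulVec_mulVec, mulVec_mulVec w (Dv Y) (Pa κ), Dv_Pa, hz,
      mulVec_zero]
  obtain ⟨f1, f2⟩ := D.form G hv1 hv2
  rw [← hK, ← ha] at f1 f2
  have e2 : w ⬝ᵥ (Am Y P Q *ᵥ w) = 1 / 3 * (w ⬝ᵥ (Aa Y Q *ᵥ w) + w ⬝ᵥ (Ab P *ᵥ w)) := by
    unfold Am
    rw [smul_mulVec, add_mulVec, dotProduct_smul, dotProduct_add, smul_eq_mul]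
  have f3 : 0 ≤ w ⬝ᵥ (Ab P *ᵥ w) := by rw [hb]; exact dot_self_nonneg _
  rw [e1, e2]
  refine ⟨by positivity, fun h0 => ?_⟩
  have g1 : w ⬝ᵥ (Aa Y Q *ᵥ w) = 0 := by linarith
  have g2 : w ⬝ᵥ (Ab P *ᵥ w) = 0 := by linarith
  have g3 : v = 0 := f2 g1
  rw [hb] at g2
  have g4 : c9 P *ᵥ (Pb κ *ᵥ w) = 0 := dotProduct_self_eq_zero.1 g2
  have g5 : Pa κ *ᵥ w = 0 := by
    have := congrArg (fun t => c9 P *ᵥ t) g3
    simp only [hv, mulVec_mulVec, ← Matrix.mul_assoc, c9_mul, D.PQ, c9_one, Matrix.one_mul,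
      mulVec_zero] at this
    exact this
  have g6 : Pb κ *ᵥ w = 0 := by
    have := congrArg (fun t => c9 Q *ᵥ t) g4
    simp only [mulVec_mulVec, ← Matrix.mul_assoc, c9_mul, D.QP, c9_one, Matrix.one_mul,
      mulVec_zero] at this
    exact this
  have g7 : w = 0 := by
    have : w = Pa κ *ᵥ w + Pb κ *ᵥ w := by rw [← add_mulVec, Pa_add_Pb, one_mulVec]
    rw [this, g5, g6, add_zero]
  exact ⟨z, by rw [hu, g7, zero_add]⟩

include G in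
theorem A_nonneg (u : Fin 9 × κ → ℝ) : 0 ≤ u ⬝ᵥ (Am Y P Q *ᵥ u) := (D.A_form G u).1

include G in
theorem A_ker (u : Fin 9 × κ → ℝ) : Am Y P Q *ᵥ u = 0 ↔ ∃ z, u = (Dv Y)ᵀ *ᵥ z := by
  constructor
  · intro h
    refine (D.A_form G u).2 ?_
    rw [h, dotProduct_zero]
  · rintro ⟨z, rfl⟩
    rw [mulVec_mulVec, D.A_DvT, zero_mulVec]

/-- gauge invariance of `A` -/
theorem A_c9 {K : Matrix κ κ ℝ} (hK : ∀ a, Y a * K = K * Y a) :
    Am Y P Q * c9 K = c9 K * Am Y P Q := by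
  have hC : K * Cas Y = Cas Y * K := by
    have h2 : ∀ a, K * (Y a * Y a) = Y a * Y a * K := by
      intro a
      rw [← Matrix.mul_assoc, ← hK, Matrix.mul_assoc, ← hK, Matrix.mul_assoc]
    unfold Cas
    simp only [Matrix.mul_neg, Matrix.neg_mul, Matrix.mul_add, Matrix.add_mul, h2]
  obtain ⟨hP, hQ⟩ := D.comm K hC
  have hPP : K * (P * P) = P * P * K := by
    rw [← Matrix.mul_assoc, hP, Matrix.mul_assoc, hP, Matrix.mul_assoc]
  have hQQ : K * (Q * Q) = Q * Q * K := by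
    rw [← Matrix.mul_assoc, hQ, Matrix.mul_assoc, hQ, Matrix.mul_assoc]
  have hR : Rm Y * c9 K = c9 K * Rm Y := Rm_c9 hK
  have hPa : Pa κ * c9 K = c9 K * Pa κ := Pa_c9 K
  have hPb : Pb κ * c9 K = c9 K * Pb κ := Pb_c9 K
  have a1 : (Pa κ + Rm Y) * c9 K = c9 K * (Pa κ + Rm Y) := by
    rw [Matrix.mul_add, Matrix.add_mul, hR, hPa]
  have a2 : (Rm Y + (1 / 2 : ℝ) • Pa κ) * c9 K = c9 K * (Rm Y + (1 / 2 : ℝ) • Pa κ) := by
    rw [Matrix.mul_add, Matrix.add_mul, hR, Matrix.mul_smul, Matrix.smul_mul, hPa]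
  have a3 : Aa Y Q * c9 K = c9 K * Aa Y Q := by
    unfold Aa
    rw [Matrix.mul_assoc _ (c9 (Q * Q)), c9_mul, ← hQQ, ← c9_mul, ← Matrix.mul_assoc _ (c9 K),
      Matrix.mul_assoc (Pa κ + Rm Y), a2, ← Matrix.mul_assoc (Pa κ + Rm Y), a1]
    simp only [Matrix.mul_assoc]
  have a4 : Ab P * c9 K = c9 K * Ab P := by
    unfold Ab
    rw [Matrix.mul_assoc, c9_mul, ← hPP, ← c9_mul, ← Matrix.mul_assoc, hPb, Matrix.mul_assoc]
  unfold Am
  rw [Matrix.smul_mul, Matrix.mul_smul, Matrix.add_mul, Matrix.mul_add, a3, a4]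

/-- gauge invariance of `S` -/
theorem S_c16 {K : Matrix κ κ ℝ} (hK : ∀ a, Y a * K = K * Y a) :
    Sm G Y Q * c16 K = c16 K * Sm G Y Q := by
  have hC : K * Cas Y = Cas Y * K := by
    have h2 : ∀ a, K * (Y a * Y a) = Y a * Y a * K := by
      intro a
      rw [← Matrix.mul_assoc, ← hK, Matrix.mul_assoc, ← hK, Matrix.mul_assoc]
    unfold Cas
    simp only [Matrix.mul_neg, Matrix.neg_mul, Matrix.mul_add, Matrix.add_mul, h2]
  obtain ⟨-, hQ⟩ := D.comm K hC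
  have hQQ : K * (Q * Q) = Q * Q * K := by
    rw [← Matrix.mul_assoc, hQ, Matrix.mul_assoc, hQ, Matrix.mul_assoc]
  have a1 : (Tm G Y + (1 / 2 : ℝ) • 1) * c16 K = c16 K * (Tm G Y + (1 / 2 : ℝ) • 1) := by
    rw [Matrix.add_mul, Matrix.mul_add, Tm_c16 G hK, Matrix.smul_mul, Matrix.mul_smul,
      Matrix.one_mul, Matrix.mul_one]
  unfold Sm
  rw [Matrix.mul_assoc, c16_mul, ← hQQ, ← c16_mul, ← Matrix.mul_assoc, a1, Matrix.mul_assoc]

/-- `S` commutes with every matrix on the first factor commuting with the `q_a` -/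
theorem S_kron {L : Matrix (Fin 16) (Fin 16) ℝ} (hL : ∀ a, q G a * L = L * q G a) :
    Sm G Y Q * (L ⊗ₖ (1 : Matrix κ κ ℝ)) = (L ⊗ₖ (1 : Matrix κ κ ℝ)) * Sm G Y Q := by
  have hT : Tm G Y * (L ⊗ₖ (1 : Matrix κ κ ℝ)) = (L ⊗ₖ (1 : Matrix κ κ ℝ)) * Tm G Y := by
    unfold Tm
    simp only [Matrix.mul_add, Matrix.add_mul, ← mul_kronecker_mul, Matrix.one_mul,
      Matrix.mul_one, hL]
  have h16 : c16 (Q * Q) * (L ⊗ₖ (1 : Matrix κ κ ℝ)) = (L ⊗ₖ (1 : Matrix κ κ ℝ)) * c16 (Q * Q) := by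
    unfold c16
    simp only [← mul_kronecker_mul, Matrix.one_mul, Matrix.mul_one]
  unfold Sm
  rw [Matrix.mul_assoc, h16, ← Matrix.mul_assoc, Matrix.add_mul, Matrix.smul_mul, Matrix.one_mul,
    hT, ← Matrix.mul_assoc, Matrix.mul_add, Matrix.mul_smul, Matrix.mul_one]

end Dat

end

end Crest.Agent.R330.Lin561
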