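import Crest.Agent.R330.LinG_561
import Crest.Agent.R330.NeutC_45
import Crest.Agent.R330.VacB_303
import Crest.Agent.R330.LinEx_674
import Crest.Agent.R330.WeitzG_726

/-!
# Row 330, S5c: linear model at a fuzzy vacuum, part H: the literal objects (helper561)

* `Yc b c a = ad(3 c_a)`; `so3_Yc : IsVacCfg b c → So3 (Yc b c)`.
* `wlin_mulVec : wlin b G c α β A u = (W_α u)_{βA}`.
* `brk_eq : brk b om c = Divᵀ (om/3)`.
* `ofM`, `AL`, `IL` : linear maps of matrices.
-/

set_option autoImplicit false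
set_option linter.unusedSectionVars false

open Matrix Crest.MathPhysics.MatrixQM Crest.Agent.R330.Gam962 Crest.Agent.R330.Defs478
open scoped Kronecker InnerProductSpace

namespace Crest.Agent.R330.Lin561

open Crest.Agent.R330.NeutL45 Crest.Agent.R330.CoerCfg87 Crest.Agent.R330.S5Defs798
open Crest.Agent.R330.Om0331 Crest.Agent.R330.Vacua303 Crest.Agent.R330.LinEx674
open Crest.Agent.R330.Weitz726

noncomputable section

variable {N : ℕ} (b : ColorBasis N)

theorem adE_mulVec (e v : Fin (N ^ 2 - 1) → ℝ) (C : Fin (N ^ 2 - 1)) :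
    (adE b e *ᵥ v) C = br b e v C := by
  unfold br
  rw [mulVec, dotProduct]
  simp only [adE, Finset.sum_mul]
  rw [Finset.sum_comm]
  refine Finset.sum_congr rfl fun A _ => Finset.sum_congr rfl fun B _ => ?_
  rw [structConst_cyc b C A B]

/-- `ad` is a representation. -/
theorem adE_br (u v : Fin (N ^ 2 - 1) → ℝ) :
    adE b u * adE b v - adE b v * adE b u = adE b (br b u v) := by
  ext D C
  rw [Matrix.sub_apply, mul_apply, mul_apply]
  have h1 : ∑ E, adE b u D E * adE b v E C =
      ∑ A, ∑ B, u A * v B * ∑ E, b.structConst A E D * b.structConst B C E := by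
    have e : ∀ E, adE b u D E * adE b v E C =
        ∑ A, ∑ B, u A * v B * (b.structConst A E D * b.structConst B C E) := by
      intro E
      unfold adE
      rw [Finset.sum_mul_sum]
      exact Finset.sum_congr rfl fun A _ => Finset.sum_congr rfl fun B _ => by ring
    simp only [e, Finset.mul_sum]
    rw [Finset.sum_comm]
    refine Finset.sum_congr rfl fun A _ => ?_
    rw [Finset.sum_comm]
  have h2 : ∑ E, adE b v D E * adE b u E C =
      ∑ A, ∑ B, u A * v B * ∑ E, b.structConst B E D * b.structConst A C E := by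
    have e : ∀ E, adE b v D E * adE b u E C =
        ∑ A, ∑ B, u A * v B * (b.structConst B E D * b.structConst A C E) := by
      intro E
      unfold adE
      rw [Finset.sum_mul_sum, Finset.sum_comm]
      exact Finset.sum_congr rfl fun A _ => Finset.sum_congr rfl fun B _ => by ring
    simp only [e, Finset.mul_sum]
    rw [Finset.sum_comm]
    refine Finset.sum_congr rfl fun A _ => ?_
    rw [Finset.sum_comm]
  have h3 : adE b (br b u v) D C =
      ∑ A, ∑ B, u A * v B * ∑ E, b.structConst A B E * b.structConst E C D := by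
    simp only [adE, br, Finset.mul_sum]
    rw [Finset.sum_comm]
    refine Finset.sum_congr rfl fun A _ => ?_
    rw [Finset.sum_comm]
    refine Finset.sum_congr rfl fun B _ => Finset.sum_congr rfl fun E _ => ?_
    rw [structConst_cyc b E A B]
    ring
  rw [h1, h2, h3, ← Finset.sum_sub_distrib]
  refine Finset.sum_congr rfl fun A _ => ?_
  rw [← Finset.sum_sub_distrib]
  refine Finset.sum_congr rfl fun B _ => ?_
  rw [← mul_sub, ← Finset.sum_sub_distrib]
  congr 1
  have hj := Col962.jacobi b A B C D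
  rw [Finset.sum_add_distrib, Finset.sum_add_distrib] at hj
  have e1 : ∑ E, (b.structConst A E D * b.structConst B C E - b.structConst B E D *
      b.structConst A C E) = -(∑ E, b.structConst B C E * b.structConst E A D) -
      ∑ E, b.structConst C A E * b.structConst E B D := by
    rw [← Finset.sum_neg_distrib, ← Finset.sum_sub_distrib]
    refine Finset.sum_congr rfl fun E _ => ?_
    rw [Col962.f_swap12 b A E D, Col962.f_swap12 b A C E, Col962.f_swap12 b B E D]
    ring
  rw [e1]
  linarith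

/-- `Y_a = ad(3 c_a)` -/
def Yc (c : Cfg N) (a : Fin 3) : Matrix (Fin (N ^ 2 - 1)) (Fin (N ^ 2 - 1)) ℝ :=
  adE b (fun A => 3 * comp c (lo a) A)

theorem so3_Yc {c : Cfg N} (hc : IsVacCfg b c) : So3 (Yc b c) := by
  rw [isVacCfg_iff] at hc
  have key : ∀ i : Fin 3, br b (fun A => 3 * comp c (lo (i + 1)) A)
      (fun A => 3 * comp c (lo (i + 2)) A) = fun A => 3 * comp c (lo i) A := by
    intro i
    funext A
    rw [br_smul_smul]
    have := hc.1 i A
    rw [one_mul] at this
    rw [← this]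
    ring
  refine ⟨fun a => adE_transpose b _, ?_, ?_, ?_⟩
  · exact (adE_br b _ _).trans (congrArg (adE b) (key 2))
  · exact (adE_br b _ _).trans (congrArg (adE b) (key 0))
  · exact (adE_br b _ _).trans (congrArg (adE b) (key 1))

theorem comp_hi {c : Cfg N} (hc : IsVacCfg b c) {j : Fin 9} (hj : 3 ≤ (j : ℕ))
    (A : Fin (N ^ 2 - 1)) : c (j, A) = 0 := by
  rw [isVacCfg_iff] at hc
  exact hc.2 j hj A

/-- sums over the nine directions of a function vanishing on the last six -/
theorem sum9 {f : Fin 9 → ℝ} (hf : ∀ j : Fin 9, 3 ≤ (j : ℕ) → f j = 0) :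
    ∑ j, f j = f (lo 0) + f (lo 1) + f (lo 2) := by
  rw [Fin.sum_univ_succ, Fin.sum_univ_succ, Fin.sum_univ_succ]
  rw [Finset.sum_eq_zero (s := Finset.univ) (f := fun i : Fin 6 => f i.succ.succ.succ)]
  · have e0 : (lo 0 : Fin 9) = 0 := rfl
    have e1 : (lo 1 : Fin 9) = Fin.succ 0 := rfl
    have e2 : (lo 2 : Fin 9) = Fin.succ (Fin.succ 0) := rfl
    rw [e0, e1, e2, add_zero, ← add_assoc]
  · intro i _
    exact hf _ (by simp)

variable (G : GammaNine)

theorem kron_mulVec {l m n p : Type*} [Fintype m] [Fintype p] (A : Matrix l m ℝ)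
    (B : Matrix n p ℝ) (u : m × p → ℝ) (i : l) (k : n) :
    ((A ⊗ₖ B) *ᵥ u) (i, k) = ∑ j, ∑ q, A i j * B k q * u (j, q) := by
  rw [mulVec, dotProduct, Fintype.sum_prod_type]
  rfl

theorem wlin_mulVec {c : Cfg N} (hc : IsVacCfg b c) (α β : Fin 16) (A : Fin (N ^ 2 - 1))
    (u : Cfg N) :
    wlin b G c α β A u = (Wm G (Yc b c) α *ᵥ (WithLp.ofLp u)) (β, A) := by
  rw [wlin_eq]
  -- the right hand side
  have hR : (Wm G (Yc b c) α *ᵥ (WithLp.ofLp u)) (β, A) =
      (1 / 3 : ℝ) * ((∑ j, ∑ C, ga G α 0 β j * Yc b c 0 A C * u (j, C)) +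
        (∑ j, ∑ C, ga G α 1 β j * Yc b c 1 A C * u (j, C)) +
        (∑ j, ∑ C, ga G α 2 β j * Yc b c 2 A C * u (j, C))) -
      ∑ j, cc j * u (j, A) * (Gam G * G.γ j) α β := by
    unfold Wm
    rw [sub_mulVec, smul_mulVec, add_mulVec, add_mulVec]
    simp only [Pi.sub_apply, Pi.smul_apply, Pi.add_apply, kron_mulVec, smul_eq_mul]
    congr 1
    refine Finset.sum_congr rfl fun j _ => ?_
    simp only [mc, one_apply, mul_ite, mul_one, mul_zero, ite_mul, zero_mul, Finset.sum_ite_eq,
      Finset.mem_univ, if_true]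
    ring
  rw [hR]
  congr 1
  -- the left hand side: the two terms agree
  have h1 : (∑ B : Fin (N ^ 2 - 1), ∑ C : Fin (N ^ 2 - 1), ∑ i : Fin 9, ∑ j : Fin 9,
      1 / 2 * b.structConst A B C * (c (i, B) * u (j, C) + u (i, B) * c (j, C)) * G.γ2 i j α β) =
      ∑ B : Fin (N ^ 2 - 1), ∑ C : Fin (N ^ 2 - 1), ∑ i : Fin 9, ∑ j : Fin 9,
        b.structConst A B C * c (i, B) * u (j, C) * G.γ2 i j α β := by
    have h2 : (∑ B : Fin (N ^ 2 - 1), ∑ C : Fin (N ^ 2 - 1), ∑ i : Fin 9, ∑ j : Fin 9,
        1 / 2 * b.structConst A B C * u (i, B) * c (j, C) * G.γ2 i j α β) =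
        ∑ B : Fin (N ^ 2 - 1), ∑ C : Fin (N ^ 2 - 1), ∑ i : Fin 9, ∑ j : Fin 9,
        1 / 2 * b.structConst A B C * c (i, B) * u (j, C) * G.γ2 i j α β := by
      rw [Finset.sum_comm]
      refine Finset.sum_congr rfl fun C _ => Finset.sum_congr rfl fun B _ => ?_
      rw [Finset.sum_comm]
      refine Finset.sum_congr rfl fun j _ => Finset.sum_congr rfl fun i _ => ?_
      rw [Col962.f_swap23 b A C B, show G.γ2 i j α β = -G.γ2 j i α β by
        rw [g2_swap G j i, neg_apply]]
      ring
    have h3 : ∀ B C : Fin (N ^ 2 - 1), ∀ i j : Fin 9,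
        1 / 2 * b.structConst A B C * (c (i, B) * u (j, C) + u (i, B) * c (j, C)) * G.γ2 i j α β =
        1 / 2 * b.structConst A B C * c (i, B) * u (j, C) * G.γ2 i j α β +
        1 / 2 * b.structConst A B C * u (i, B) * c (j, C) * G.γ2 i j α β := by
      intro B C i j; ring
    simp only [h3, Finset.sum_add_distrib]
    rw [h2]
    simp only [← Finset.sum_add_distrib]
    refine Finset.sum_congr rfl fun B _ => Finset.sum_congr rfl fun C _ =>
      Finset.sum_congr rfl fun i _ => Finset.sum_congr rfl fun j _ => ?_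
    ring
  rw [h1]
  -- reorganise: first the sum over `i`
  have h4 : (∑ B : Fin (N ^ 2 - 1), ∑ C : Fin (N ^ 2 - 1), ∑ i : Fin 9, ∑ j : Fin 9,
      b.structConst A B C * c (i, B) * u (j, C) * G.γ2 i j α β) =
      ∑ i : Fin 9, ∑ j : Fin 9, ∑ C : Fin (N ^ 2 - 1),
        (∑ B : Fin (N ^ 2 - 1), b.structConst A B C * c (i, B)) * u (j, C) * G.γ2 i j α β := by
    calc (∑ B : Fin (N ^ 2 - 1), ∑ C : Fin (N ^ 2 - 1), ∑ i : Fin 9, ∑ j : Fin 9,
          b.structConst A B C * c (i, B) * u (j, C) * G.γ2 i j α β)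
        = ∑ C : Fin (N ^ 2 - 1), ∑ i : Fin 9, ∑ j : Fin 9, ∑ B : Fin (N ^ 2 - 1),
          b.structConst A B C * c (i, B) * u (j, C) * G.γ2 i j α β := by
          rw [Finset.sum_comm]
          refine Finset.sum_congr rfl fun C _ => ?_
          rw [Finset.sum_comm]
          refine Finset.sum_congr rfl fun i _ => ?_
          rw [Finset.sum_comm]
      _ = ∑ i : Fin 9, ∑ C : Fin (N ^ 2 - 1), ∑ j : Fin 9, ∑ B : Fin (N ^ 2 - 1),
          b.structConst A B C * c (i, B) * u (j, C) * G.γ2 i j α β := Finset.sum_comm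
      _ = _ := by
          refine Finset.sum_congr rfl fun i _ => ?_
          rw [Finset.sum_comm]
          refine Finset.sum_congr rfl fun j _ => Finset.sum_congr rfl fun C _ => ?_
          rw [Finset.sum_mul, Finset.sum_mul]
  rw [h4, sum9 (f := fun i => ∑ j : Fin 9, ∑ C : Fin (N ^ 2 - 1),
        (∑ B : Fin (N ^ 2 - 1), b.structConst A B C * c (i, B)) * u (j, C) * G.γ2 i j α β)
      (fun i hi => by
        refine Finset.sum_eq_zero fun j _ => Finset.sum_eq_zero fun C _ => ?_
        rw [Finset.sum_eq_zero fun B _ => by rw [comp_hi b hc hi, mul_zero], zero_mul, zero_mul])]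
  have h5 : ∀ a : Fin 3, (∑ j : Fin 9, ∑ C : Fin (N ^ 2 - 1),
      (∑ B : Fin (N ^ 2 - 1), b.structConst A B C * c (lo a, B)) * u (j, C) * G.γ2 (lo a) j α β) =
      (1 / 3 : ℝ) * ∑ j, ∑ C, ga G α a β j * Yc b c a A C * u (j, C) := by
    intro a
    rw [Finset.mul_sum]
    refine Finset.sum_congr rfl fun j _ => ?_
    rw [Finset.mul_sum]
    refine Finset.sum_congr rfl fun C _ => ?_
    have e : Yc b c a A C = 3 * ∑ B : Fin (N ^ 2 - 1), b.structConst A B C * c (lo a, B) := by
      unfold Yc adE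
      rw [Finset.mul_sum]
      refine Finset.sum_congr rfl fun B _ => ?_
      rw [structConst_cyc b A B C]
      unfold CoerCfg87.comp
      ring
    rw [e]
    unfold ga
    change _ = 1 / 3 * (G.γ2 (lo a) j α β * _ * _)
    ring
  rw [h5, h5, h5]
  ring

/-- gauge directions -/
theorem brk_eq {c : Cfg N} (hc : IsVacCfg b c) (z : Fin 1 × Fin (N ^ 2 - 1) → ℝ) :
    WithLp.toLp 2 ((Dv (Yc b c))ᵀ *ᵥ z) = brk b (fun A => 3 * z (0, A)) c := by
  ext ⟨j, A⟩
  change ((Dv (Yc b c))ᵀ *ᵥ z) (j, A) = br b (fun A => 3 * z (0, A)) (comp c j) A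
  have h0 : ((Dv (Yc b c))ᵀ *ᵥ z) (j, A) =
      -(row 0 0 j * (Yc b c 0 *ᵥ fun B => z (0, B)) A + row 1 0 j * (Yc b c 1 *ᵥ fun B => z (0, B)) A
        + row 2 0 j * (Yc b c 2 *ᵥ fun B => z (0, B)) A) := by
    have hT : ∀ a, (Yc b c a)ᵀ = -Yc b c a := (so3_Yc b hc).anti
    have h00 : ∀ a, ((row a ⊗ₖ Yc b c a)ᵀ *ᵥ z) (j, A) =
        -(row a 0 j * (Yc b c a *ᵥ fun B => z (0, B)) A) := by
      intro a
      rw [kron_T, hT, kron_mulVec, Fin.sum_univ_one, mulVec, dotProduct, Finset.mul_sum,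
        ← Finset.sum_neg_distrib]
      refine Finset.sum_congr rfl fun B _ => ?_
      rw [transpose_apply, Matrix.neg_apply]
      ring
    unfold Dv
    rw [transpose_add, transpose_add, add_mulVec, add_mulVec, Pi.add_apply, Pi.add_apply, h00, h00,
      h00]
    ring
  have h1 : ∀ a : Fin 3, (Yc b c a *ᵥ fun B => z (0, B)) A =
      -br b (fun A => 3 * z (0, A)) (comp c (lo a)) A := by
    intro a
    unfold Yc
    rw [adE_mulVec]
    have e1 := br_smul_smul b 3 1 (comp c (lo a)) (fun B => z (0, B)) A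
    have e2 := br_smul_smul b 3 1 (fun B => z (0, B)) (comp c (lo a)) A
    simp only [one_mul] at e1 e2
    rw [e1, e2]
    have : br b (comp c (lo a)) (fun B => z (0, B)) A =
        -br b (fun B => z (0, B)) (comp c (lo a)) A := by
      unfold br
      rw [Finset.sum_comm, ← Finset.sum_neg_distrib]
      refine Finset.sum_congr rfl fun B _ => ?_
      rw [← Finset.sum_neg_distrib]
      refine Finset.sum_congr rfl fun C _ => ?_
      rw [Col962.f_swap23 b A B C]
      ring
    rw [this]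
    ring
  rw [h0, h1, h1, h1]
  by_cases hj : (j : ℕ) < 3
  · obtain rfl | rfl | rfl : j = lo 0 ∨ j = lo 1 ∨ j = lo 2 := by
      rcases j with ⟨j, hj'⟩
      simp only at hj
      interval_cases j
      · left; rfl
      · right; left; rfl
      · right; right; rfl
    all_goals simp [row, lo]
  · have h2 : comp c j = fun _ => 0 := by
      funext B
      exact comp_hi b hc (by omega) B
    have h3 : br b (fun A => 3 * z (0, A)) (comp c j) A = 0 := by
      rw [h2]
      unfold br
      simp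
    rw [h3]
    have r : ∀ a : Fin 3, row a 0 j = 0 := by
      intro a
      unfold row
      rw [if_neg]
      omega
    rw [r, r, r]
    ring

end

end Crest.Agent.R330.Lin561
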