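import Crest.Agent.R330.Link_973
import Crest.Agent.R330.PsiGeo_477

/-!
# Row 330 (helper973): 477's `Link` for the channels `Geo692.chn b P`
-/

set_option autoImplicit false

noncomputable section

open Crest.MathPhysics.MatrixQM

namespace Crest.Agent.R330.Link973

open Crest.Agent.R330.Parts879 Crest.Agent.R330.Geo692 Crest.Agent.R330.Psi477

variable {N : ℕ} (b : ColorBasis N) (P : Lam N) (bn : ∀ n, ColorBasis n)

/-- **The blocks of the channel of the partition `P`.** -/
theorem link : Link (chn b P) P.k (fun q => bn (P.k q)) (eps b P bn) where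
  ho := eps_ho b P bn
  br := eps_br b P bn
  br0 := eps_br0 b P bn
  cen0 := cen_eps b P bn
  mem := eps_mem b P bn
  span _ hu := exists_span b P bn hu

end Crest.Agent.R330.Link973

end
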