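import Crest.Agent.R330.TDefB_414
import Crest.Agent.R330.BlkSplit_837
import Crest.Agent.R330.Psi8_477

/-!
# Row 330, S8-PSI (helper693): the block coordinates of a channel

For `C : Chn b p S` and an 837 family `B : EmbFam b C.kk bs` orthogonal to the centre (`hc0`):
* `iBl : EY k ≃ₗᵢ[ℝ] C.Blk`, `Y ↦ Σ_q B.emb q (Y q)`; `pr_iBl`, `iBl_symm`; `integral_iBl`.
* `kin_iBl` : the kinetic contraction over `C.Blk` in block coordinates.
* `qblkB_iBl`, `qblk_iBl` : **the block charges are the sum of the charges of the blocks**.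
-/

set_option autoImplicit false
set_option linter.unusedSectionVars false

noncomputable section

namespace Crest.Agent.R330.LinkIso693

open MeasureTheory Filter Topology Crest.MathPhysics.MatrixQM
open Crest.Agent.R330.Defs478 Crest.Agent.R330.Frame839 Crest.Agent.R330.LS839
open Crest.Agent.R330.Clus839 Crest.Agent.R330.Bind6839 Crest.Agent.R330.BlkSplit837
open Crest.Agent.R330.TDef414 Crest.Agent.R330.Psi477 Crest.Agent.R330.Psi477.BD
open scoped ContDiff InnerProductSpace ENNReal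

variable {N p : ℕ} {b : ColorBasis N} {S : Type} [Group S] [Fintype S] (C : Chn b p S)
  {κ : Type*} [Fintype κ] [DecidableEq κ] {k : κ → ℕ} {bs : ∀ q, ColorBasis (k q)}
  (B : EmbFam b C.kk bs)

/-! ### the isometry -/

/-- The block embedding. -/
def iB0 : EY k →ₗᵢ[ℝ] Cfg N where
  toFun Y := ∑ q, B.emb q (Y q)
  map_add' Y Y' := by
    simp only [PiLp.add_apply, map_add, Finset.sum_add_distrib]
  map_smul' r Y := by
    simp only [PiLp.smul_apply, map_smul, Finset.smul_sum, RingHom.id_apply]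
  norm_map' Y := by
    have h : ‖∑ q, B.emb q (Y q)‖ ^ 2 = ‖Y‖ ^ 2 := by
      rw [PiLp.norm_sq_eq_of_L2 _ Y, ← real_inner_self_eq_norm_sq, sum_inner]
      refine Finset.sum_congr rfl fun q _ => ?_
      rw [inner_sum, Finset.sum_eq_single q]
      · rw [LinearIsometry.inner_map_map, real_inner_self_eq_norm_sq]
      · intro q' _ hq
        exact B.inner_emb_emb hq.symm _ _
      · simp
    exact (sq_eq_sq₀ (norm_nonneg _) (norm_nonneg _)).1 h

theorem iB0_apply (Y : EY k) : iB0 C B Y = ∑ q, B.emb q (Y q) := rfl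

theorem iB0_sg (q : κ) (a : Cfg (k q)) : iB0 C B (sg q a) = B.emb q a := by
  rw [iB0_apply, Finset.sum_eq_single q]
  · simp [sg]
  · intro q' _ hq
    have : (sg q a) q' = 0 := by simp [sg, hq]
    rw [this, map_zero]
  · simp

theorem pr_iB0 (q : κ) (Y : EY k) : B.pr q (iB0 C B Y) = Y q := by
  rw [iB0_apply, map_sum, Finset.sum_eq_single q]
  · exact B.pr_emb q _
  · intro q' _ hq
    exact B.pr_emb_ne hq.symm _
  · simp

theorem iB0_mem_Tup (Y : EY k) : iB0 C B Y ∈ Tup C.kk :=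
  Submodule.sum_mem _ fun q _ => B.emb_mem q _

section orth

variable {C B} (hc0 : ∀ q t u, ⟪C.cen t, B.eps q u⟫_ℝ = 0)

include hc0

theorem inner_cf_emb (X : Pos p) (q : κ) (y : Cfg (k q)) : ⟪C.cf X, B.emb q y⟫_ℝ = 0 := by
  rw [inner_comp]
  refine Finset.sum_eq_zero fun i _ => ?_
  rw [C.comp_cf, B.comp_emb]
  exact hc0 _ _ _

theorem inner_cf_iB0 (X : Pos p) (Y : EY k) : ⟪C.cf X, iB0 C B Y⟫_ℝ = 0 := by
  rw [iB0_apply, inner_sum]
  exact Finset.sum_eq_zero fun q _ => inner_cf_emb hc0 X q _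

theorem iB0_mem (Y : EY k) : iB0 C B Y ∈ C.Blk := by
  refine ⟨iB0_mem_Tup C B Y, (Submodule.mem_orthogonal _ _).2 ?_⟩
  rintro _ ⟨X, rfl⟩
  exact inner_cf_iB0 hc0 X Y

theorem cenp_eq_zero {x : Cfg N} (hx : x ∈ C.Blk) : B.cenp x = 0 := by
  have h1 := B.cenp_mem hx.1
  have h2 : ∀ i, ∃ t, C.cen t = comp (B.cenp x) i := fun i =>
    C.cen_all _ (h1 i).1 fun v hv => B.cen _ (h1 i).1 (h1 i).2 v hv
  choose t ht using h2
  have h3 : C.cf (mkp t) = B.cenp x := ext_comp fun i => by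
    rw [C.comp_cf, pcomp_mkp, ht]
  have h4 : ⟪C.cf (mkp t), x⟫_ℝ = 0 := (Submodule.mem_orthogonal _ _).1 hx.2 _ ⟨mkp t, rfl⟩
  have h5 : ⟪B.cenp x, ∑ q, B.emb q (B.pr q x)⟫_ℝ = 0 := by
    rw [inner_sum]
    exact Finset.sum_eq_zero fun q _ => B.inner_cen_emb h1 q _
  rw [h3, B.decomp x, inner_add_right] at h4
  rw [← B.decomp x, h5, add_zero, inner_self_eq_zero] at h4
  exact h4

theorem sum_emb_pr {x : Cfg N} (hx : x ∈ C.Blk) : ∑ q, B.emb q (B.pr q x) = x := by
  have h := B.decomp x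
  rw [cenp_eq_zero hc0 hx, zero_add] at h
  exact h.symm

end orth

variable (hc0 : ∀ q t u, ⟪C.cen t, B.eps q u⟫_ℝ = 0)

/-- The block embedding into `C.Blk`. -/
def iB1 : EY k →ₗᵢ[ℝ] C.Blk where
  toFun Y := ⟨iB0 C B Y, iB0_mem hc0 Y⟩
  map_add' _ _ := Subtype.ext (map_add _ _ _)
  map_smul' _ _ := Subtype.ext (map_smul _ _ _)
  norm_map' Y := (iB0 C B).norm_map Y

theorem iB1_surj : Function.Surjective (iB1 C B hc0) := fun x =>
  ⟨WithLp.toLp 2 fun q => B.pr q x, Subtype.ext (sum_emb_pr hc0 x.2)⟩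

/-- **The block coordinates of the channel.** -/
def iBl : EY k ≃ₗᵢ[ℝ] C.Blk := LinearIsometryEquiv.ofSurjective (iB1 C B hc0) (iB1_surj C B hc0)

theorem coe_iBl (Y : EY k) : (iBl C B hc0 Y : Cfg N) = ∑ q, B.emb q (Y q) := rfl

theorem coe_iBl_sg (q : κ) (a : Cfg (k q)) : (iBl C B hc0 (sg q a) : Cfg N) = B.emb q a :=
  iB0_sg C B q a

theorem comp_iBl (Y : EY k) (i : Fin 9) :
    comp (iBl C B hc0 Y : Cfg N) i = ∑ q, B.eps q (comp (Y q) i) := by
  rw [coe_iBl, EmbFam.comp_sum]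
  rfl

theorem pr_iBl (q : κ) (Y : EY k) : B.pr q (iBl C B hc0 Y : Cfg N) = Y q := pr_iB0 C B q Y

theorem iBl_symm_apply (x : C.Blk) (q : κ) : (iBl C B hc0).symm x q = B.pr q (x : Cfg N) := by
  conv_rhs => rw [← (iBl C B hc0).apply_symm_apply x]
  rw [pr_iBl]

theorem norm_sq_iBl (Y : EY k) : ‖(iBl C B hc0 Y : Cfg N)‖ ^ 2 = ∑ q, ‖Y q‖ ^ 2 := by
  have h : ‖(iBl C B hc0 Y : Cfg N)‖ = ‖Y‖ := (iBl C B hc0).norm_map Y
  rw [h, PiLp.norm_sq_eq_of_L2]

theorem measurePreserving_iBl : MeasurePreserving (iBl C B hc0) volume volume :=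
  (iBl C B hc0).measurePreserving

theorem measurableEmbedding_iBl : MeasurableEmbedding (iBl C B hc0) :=
  (iBl C B hc0).toHomeomorph.measurableEmbedding

theorem integral_iBl {E : Type*} [NormedAddCommGroup E] [NormedSpace ℝ E] (f : C.Blk → E) :
    ∫ Y : C.Blk, f Y = ∫ Y : EY k, f (iBl C B hc0 Y) :=
  ((measurePreserving_iBl C B hc0).integral_comp (measurableEmbedding_iBl C B hc0) f).symm

theorem setIntegral_iBl {E : Type*} [NormedAddCommGroup E] [NormedSpace ℝ E] (f : C.Blk → E)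
    (s : Set C.Blk) :
    ∫ Y in s, f Y = ∫ Y in (iBl C B hc0) ⁻¹' s, f (iBl C B hc0 Y) :=
  ((measurePreserving_iBl C B hc0).setIntegral_preimage_emb (measurableEmbedding_iBl C B hc0)
    f s).symm

theorem preimage_closedBall (δ : ℝ) : (iBl C B hc0) ⁻¹' Metric.closedBall (0 : C.Blk) δ =
    Metric.closedBall (0 : EY k) δ := by
  ext Y
  simp only [Set.mem_preimage, Metric.mem_closedBall, dist_zero_right, LinearIsometryEquiv.norm_map]

theorem integrable_iBl {E : Type*} [NormedAddCommGroup E] {f : C.Blk → E} :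
    Integrable (fun Y : EY k => f (iBl C B hc0 Y)) ↔ Integrable f :=
  (measurePreserving_iBl C B hc0).integrable_comp_emb (measurableEmbedding_iBl C B hc0)

include B hc0 in
theorem finrank_Blk : Module.finrank ℝ C.Blk = ∑ q, 9 * (k q ^ 2 - 1) := by
  rw [← (iBl C B hc0).toLinearEquiv.finrank_eq]
  have h : Module.finrank ℝ (EY k) = Module.finrank ℝ (∀ q, Cfg (k q)) :=
    (WithLp.linearEquiv 2 ℝ (∀ q, Cfg (k q))).finrank_eq
  rw [h, Module.finrank_pi_fintype]
  refine Finset.sum_congr rfl fun q _ => ?_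
  simp [Cfg, finrank_euclideanSpace]

/-! ### the charges -/

theorem resolB (x : C.Blk) : x = ∑ t : (Σ q : κ, Fin 9 × Fin (k q ^ 2 - 1)),
    ⟪iBl C B hc0 (sg t.1 (EuclideanSpace.single t.2 1)), x⟫_ℝ •
      iBl C B hc0 (sg t.1 (EuclideanSpace.single t.2 1)) := by
  obtain ⟨Y, rfl⟩ := (iBl C B hc0).surjective x
  simp only [LinearIsometryEquiv.inner_map_map]
  have h1 : ∀ t : (Σ q : κ, Fin 9 × Fin (k q ^ 2 - 1)),
      ⟪(sg t.1 (EuclideanSpace.single t.2 1) : EY k), Y⟫_ℝ = Y t.1 t.2 := by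
    rintro ⟨q, iA⟩
    rw [PiLp.inner_apply, Finset.sum_eq_single q]
    · simp [sg, EuclideanSpace.inner_single_left]
    · intro q' _ hq
      simp [sg, hq]
    · simp
  simp only [h1, ← map_smul, ← map_sum]
  congr 1
  rw [Fintype.sum_sigma]
  conv_lhs => rw [← sum_sg Y]
  refine Finset.sum_congr rfl fun q _ => ?_
  have h2 := (EuclideanSpace.basisFun (Fin 9 × Fin (k q ^ 2 - 1)) ℝ).sum_repr (Y q)
  simp only [EuclideanSpace.basisFun_apply, EuclideanSpace.basisFun_repr] at h2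
  have h3 : ∀ (s : Finset (Fin 9 × Fin (k q ^ 2 - 1))),
      sg q (∑ x ∈ s, Y q x • (EuclideanSpace.single x (1 : ℝ) : Cfg (k q))) =
        ∑ x ∈ s, Y q x • (sg q (EuclideanSpace.single x (1 : ℝ)) : EY k) := by
    intro s
    induction s using Finset.induction_on with
    | empty =>
      rw [Finset.sum_empty, Finset.sum_empty]
      ext q' : 1
      by_cases hq : q' = q
      · subst hq
        simp [sg]
      · simp [sg, hq]
    | insert a s ha ih =>
      rw [Finset.sum_insert ha, Finset.sum_insert ha, ← ih]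
      ext q' : 1
      by_cases hq : q' = q
      · subst hq
        simp [sg]
      · simp [sg, hq]
  rw [← h3, h2]

variable {F : Type*} [NormedAddCommGroup F] [InnerProductSpace ℂ F] [FiniteDimensional ℂ F]
  (M : FermionRep N F) (G : GammaNine) (g : ℝ) (α : Fin 16)

/-- **The kinetic contraction over `C.Blk` in block coordinates.** -/
theorem kin_iBl {ι : Type*} [Fintype ι] (u : OrthonormalBasis ι ℝ C.Blk) (L : C.Blk →ₗ[ℝ] F) :
    ∑ n, aA M G α (u n : Cfg N) (L (u n)) =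
      ∑ q, ∑ i : Fin 9, ∑ A : Fin (k q ^ 2 - 1), ∑ β : Fin 16,
        (-Complex.I * (G.γ i α β : ℂ)) • thv M β (B.eps q (EuclideanSpace.single A 1))
          (L (iBl C B hc0 (sg q (EuclideanSpace.single (i, A) 1)))) := by
  set T : C.Blk →ₗ[ℝ] C.Blk →ₗ[ℝ] F := LinearMap.mk₂ ℝ
    (fun e e' => aA M G α (e : Cfg N) (L e'))
    (fun e₁ e₂ e' => by
      simp only [aA, Submodule.coe_add, Theta_add, LinearMap.smul_apply, LinearMap.add_apply,
        smul_add])
    (fun r e e' => by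
      simp only [aA, Submodule.coe_smul, Theta_smul, LinearMap.smul_apply]
      rw [smul_comm, Complex.coe_smul])
    (fun e e₁ e₂ => by rw [map_add, map_add])
    (fun r e e' => by
      rw [map_smul, ← Complex.coe_smul, map_smul, Complex.coe_smul]) with hT
  have h := EmbFam.trace_change T u
    (fun t : (Σ q : κ, Fin 9 × Fin (k q ^ 2 - 1)) =>
      iBl C B hc0 (sg t.1 (EuclideanSpace.single t.2 1))) (resolB C B hc0)
  have e1 : ∀ e e', T e e' = aA M G α (e : Cfg N) (L e') := fun _ _ => rfl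
  simp only [e1, coe_iBl_sg] at h
  rw [h, Fintype.sum_sigma]
  refine Finset.sum_congr rfl fun q _ => ?_
  rw [Fintype.sum_prod_type]
  refine Finset.sum_congr rfl fun i _ => Finset.sum_congr rfl fun A _ => ?_
  rw [B.aA_emb M G α q i A]
  rfl

theorem wC_zero (x : Cfg N) : B.wC M G 0 α x = 0 := by
  unfold EmbFam.wC EmbFam.cvec
  refine Finset.sum_eq_zero fun β _ => ?_
  rw [zero_smul, neg_zero, ← EmbFam.thvL_apply, map_zero]

/-- **The massless potential on `C.Blk`.** -/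
theorem wA_iBl (Y : EY k) (f : F) : wA b M G g 0 α (iBl C B hc0 Y : Cfg N) f =
    ∑ q, ∑ A : Fin (k q ^ 2 - 1), ∑ β : Fin 16, ((wpot (bs q) G g 0 α β A (Y q) : ℝ) : ℂ) •
      thv M β (B.eps q (EuclideanSpace.single A 1)) f := by
  rw [B.wA_split M G g 0 α (iBl C B hc0 Y).2.1, wC_zero, zero_add, LinearMap.sum_apply]
  refine Finset.sum_congr rfl fun q _ => ?_
  rw [pr_iBl]
  unfold EmbFam.wQ EmbFam.thq
  simp only [LinearMap.sum_apply, LinearMap.smul_apply]

variable {Fb : κ → Type*} [∀ p, NormedAddCommGroup (Fb p)] [∀ p, InnerProductSpace ℂ (Fb p)]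
  [∀ p, FiniteDimensional ℂ (Fb p)] {M G} (D : BD M G k Fb) (hD : ∀ q, D.ε q = B.eps q)

include hD

/-- **The block charges are the sum of the charges of the blocks** (functions on `C.Blk`). -/
theorem qblkB_iBl (w : C.Blk → F) (Y : EY k) :
    qblkB M G g α w (iBl C B hc0 Y) =
      ∑ q, D.bch bs q α g 0 (fun Y => w (iBl C B hc0 Y)) Y := by
  have h1 : ∀ v, fderiv ℝ (fun Y => w (iBl C B hc0 Y)) Y v =
      fderiv ℝ w (iBl C B hc0 Y) (iBl C B hc0 v) := by
    intro v
    have h := (iBl C B hc0).toContinuousLinearEquiv.comp_right_fderiv (f := w) (x := Y)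
    have h2 := congrArg (fun L => L v) h
    exact h2
  unfold qblkB bch
  rw [Finset.sum_add_distrib]
  congr 1
  · have h := kin_iBl C B hc0 M G α (stdOrthonormalBasis ℝ C.Blk)
      (fderiv ℝ w (iBl C B hc0 Y)).toLinearMap
    simp only [ContinuousLinearMap.coe_coe] at h
    rw [h]
    simp only [h1, hD]
  · rw [wA_iBl]
    simp only [hD]

/-- **The block charges are the sum of the charges of the blocks** (functions on `Cfg N`). -/
theorem qblk_iBl {f : Cfg N → F} (Y : EY k) (hf : DifferentiableAt ℝ f (iBl C B hc0 Y : Cfg N)) :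
    qblk C M G g α f (iBl C B hc0 Y : Cfg N) =
      ∑ q, D.bch bs q α g 0 (fun Y => f (iBl C B hc0 Y : Cfg N)) Y := by
  rw [← qblkB_iBl C B hc0 g α D hD (fun Z : C.Blk => f (Z : Cfg N)) Y]
  unfold qblk qblkB
  congr 1
  refine Finset.sum_congr rfl fun n _ => ?_
  congr 1
  have h : HasFDerivAt (fun Z : C.Blk => f (Z : Cfg N))
      ((fderiv ℝ f (iBl C B hc0 Y : Cfg N)).comp C.Blk.subtypeL) (iBl C B hc0 Y) :=
    hf.hasFDerivAt.comp _ C.Blk.subtypeL.hasFDerivAt
  rw [h.fderiv]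
  rfl

end Crest.Agent.R330.LinkIso693

end
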