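import Crest.Agent.R330.Stab2_973
import Crest.Agent.R330.Chn_692
import Crest.Agent.R330.TCore_944

/-!
# Row 330 (helper973): the link between the channel `Geo692.chn b P` and the blocks of 317

`eps b P bn q : Colg (P.k q) →ₗᵢ Colg N` : 317's colour embedding of the block `q`.

* `eps_ho`, `eps_br`, `eps_br0`, `cen_eps`, `eps_mem`, `exists_span`.
* `cov` : if `act h (cf X) = cf X'` (`X`, `X'` regular), then `Ad(h) ε_q = ε_{σ q} Ad(a_q)` and
  `Ad(h)` maps the centre to the centre.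
* `stK_of_stab` : the stabiliser of a regular position.
-/

set_option autoImplicit false
set_option linter.unusedSectionVars false

noncomputable section

open Matrix
open Crest.MathPhysics.MatrixQM
open scoped InnerProductSpace BigOperators

namespace Crest.Agent.R330.Link973

open Crest.Agent.R330.Parts879 Crest.Agent.R330.Geo692 Crest.Agent.R330.LS839
open Crest.Agent.R330.Bind6839 (colAlg)
open Crest.Agent.R330.SlA314 Crest.Agent.R330.SlB314 Crest.Agent.R330.Blk317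
open Crest.Agent.R330.Stab2973
open Crest.Agent.R330.Stab973 (Fam bd bd_apply_eq bd_apply_ne ext_e blkOf blkOf_apply eq_bd bd_trace)
open Crest.Agent.R330.Char973 (SU)
open Crest.Agent.R330.TCore944 (adC)

/-! ### 1. Block diagonal matrices as sums -/

section bdsum

variable {ι : Type*} [Fintype ι] [DecidableEq ι] {N : ℕ} {k : ι → ℕ}
  (e : (Σ p : ι, Fin (k p)) ≃ Fin N)

theorem sum_embM (X : Fam k) : ∑ q, (Dec.ofEquiv e).embM q (X q) = bd e X := by
  refine ext_e e ?_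
  rintro ⟨p, i⟩ ⟨p', j⟩
  rw [Matrix.sum_apply]
  simp only [embM_ofEquiv]
  rw [Finset.sum_eq_single p]
  · by_cases h : p = p'
    · subst h
      rw [bd_apply_eq, bd_apply_eq, Pi.single_eq_same]
    · rw [bd_apply_ne e _ h, bd_apply_ne e _ h]
  · intro q _ hq
    by_cases h : p = p'
    · subst h
      rw [bd_apply_eq, Pi.single_eq_of_ne (Ne.symm hq)]
      rfl
    · rw [bd_apply_ne e _ h]
  · intro h
    exact absurd (Finset.mem_univ _) h

theorem cenM_eq (r : ι → ℝ) : (Dec.ofEquiv e).cenM r =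
    bd e fun q => ((r q : ℝ) : ℂ) • (1 : Matrix (Fin (k q)) (Fin (k q)) ℂ) := by
  rw [← sum_embM]
  unfold Dec.cenM
  refine Finset.sum_congr rfl fun q _ => ?_
  rw [Dec.embM_smul, Dec.embM_one]

end bdsum

variable {N : ℕ} (b : ColorBasis N) (P : Lam N) (bn : ∀ n, ColorBasis n)

/-! ### 2. The colour embeddings -/

/-- The colour embedding of the block `q`. -/
def eps (q : Fin P.m) : Colg (P.k q) →ₗᵢ[ℝ] Colg N := (dec P).emb b (fun p => bn (P.k p)) q

theorem cm_eps (q : Fin P.m) (u : Colg (P.k q)) :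
    cm b (eps b P bn q u) = (dec P).embM q (cm (bn (P.k q)) u) :=
  (dec P).cm_emb b (fun p => bn (P.k p)) q u

theorem eps_ho (q q' : Fin P.m) (h : q ≠ q') (u : Colg (P.k q)) (v : Colg (P.k q')) :
    ⟪eps b P bn q u, eps b P bn q' v⟫_ℝ = 0 :=
  (dec P).inner_emb_ne b (fun p => bn (P.k p)) h u v

theorem cm_colbr {n : ℕ} (b : ColorBasis n) (u v : Colg n) : cm b ((colAlg b).br u v) =
    (-Complex.I) • (cm b u * cm b v - cm b v * cm b u) := cm_br b u.ofLp v.ofLp

/-- **the embedding is a homomorphism** -/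
theorem eps_br (q : Fin P.m) (u v : Colg (P.k q)) :
    (colAlg b).br (eps b P bn q u) (eps b P bn q v) =
      eps b P bn q ((colAlg (bn (P.k q))).br u v) := by
  apply (cm_eq_iff b).1
  rw [cm_colbr, cm_eps, cm_eps, cm_eps, cm_colbr, Dec.embM_smul, Dec.embM_sub, Dec.embM_mul,
    Dec.embM_mul]

/-- **different blocks commute** -/
theorem eps_br0 (q q' : Fin P.m) (h : q ≠ q') (u : Colg (P.k q)) (v : Colg (P.k q')) :
    (colAlg b).br (eps b P bn q u) (eps b P bn q' v) = 0 := by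
  apply (cm_eq_iff b).1
  rw [cm_colbr, cm_eps, cm_eps, Dec.embM_mul_ne _ h, Dec.embM_mul_ne _ h.symm, sub_zero, smul_zero,
    Dec.cmE_zero]

theorem cm_cen (t : EuclideanSpace ℝ (Fin (P.m - 1))) :
    cm b (cen b P t) = (dec P).cenM (lab b P t) := by
  rw [← bsc_eq]
  exact hm_cen b P t

/-- the blocks are orthogonal to the centre -/
theorem cen_eps (q : Fin P.m) (t : EuclideanSpace ℝ (Fin (P.m - 1))) (u : Colg (P.k q)) :
    ⟪cen b P t, eps b P bn q u⟫_ℝ = 0 := by
  have h : ((⟪cen b P t, eps b P bn q u⟫_ℝ : ℝ) : ℂ) = ((0 : ℝ) : ℂ) := by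
    rw [inner_eq_trace b, cm_cen, cm_eps, Dec.cenM_mul_embM, Matrix.trace_smul, Dec.trace_embM,
      cm_trace, smul_zero, Complex.ofReal_zero]
  exact_mod_cast h

/-- the blocks commute with the centre -/
theorem cen_br_eps (q : Fin P.m) (t : EuclideanSpace ℝ (Fin (P.m - 1))) (u : Colg (P.k q)) :
    (colAlg b).br (cen b P t) (eps b P bn q u) = 0 := by
  apply (cm_eq_iff b).1
  rw [cm_colbr, cm_cen, cm_eps, Dec.cenM_mul_embM, Dec.embM_mul_cenM, sub_self, smul_zero,
    Dec.cmE_zero]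

/-- the blocks lie in the block algebra -/
theorem eps_mem (q : Fin P.m) (u : Colg (P.k q)) : eps b P bn q u ∈ kk b P := by
  intro a c hac
  change cm b (eps b P bn q u) a c = 0
  rw [cm_eps, embM_ofEquiv]
  obtain ⟨⟨p, i⟩, rfl⟩ := P.eqv.surjective a
  obtain ⟨⟨p', j⟩, rfl⟩ := P.eqv.surjective c
  rw [P.cl_eqv, P.cl_eqv] at hac
  exact bd_apply_ne P.eqv _ hac i j

theorem bd_of_kk {u : Colg N} (hu : u ∈ kk b P) :
    cm b u = bd P.eqv (blkOf P.eqv (cm b u)) := by
  refine eq_bd P.eqv fun p q i j hpq => hu _ _ ?_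
  rw [P.cl_eqv, P.cl_eqv]
  exact hpq

/-- **The block algebra is spanned by the centre and the blocks.** -/
theorem exists_span {u : Colg N} (hu : u ∈ kk b P) :
    ∃ (t : EuclideanSpace ℝ (Fin (P.m - 1))) (v : ∀ q, Colg (P.k q)),
      u = cen b P t + ∑ q, eps b P bn q (v q) := by
  set X : Fam P.k := blkOf P.eqv (cm b u) with hX
  have h1 : cm b u = bd P.eqv X := bd_of_kk b P hu
  have h2 : ∀ q, (X q).IsHermitian := fun q => by
    ext i j
    rw [Matrix.conjTranspose_apply, hX, blkOf_apply, blkOf_apply]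
    exact congrFun (congrFun (cm_herm b u) (P.eqv ⟨q, i⟩)) (P.eqv ⟨q, j⟩)
  set r : Fin P.m → ℝ := fun q => (X q).trace.re / (P.k q : ℝ) with hr
  have hk : ∀ q, (P.k q : ℝ) ≠ 0 := fun q => Nat.cast_ne_zero.2 (P.k_pos q).ne'
  have h3 : ∀ q, (X q).trace = (((X q).trace.re : ℝ) : ℂ) := fun q => by
    have h4 : star (X q).trace = (X q).trace := by
      rw [← Matrix.trace_conjTranspose, (h2 q).eq]
    exact (Complex.conj_eq_iff_re.1 h4).symm
  have h5 : r ∈ Val P := by
    rw [mem_Val]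
    have h6 : ((∑ q, (P.k q : ℝ) * r q : ℝ) : ℂ) = 0 := by
      rw [Complex.ofReal_sum]
      have h7 : ∀ q, (((P.k q : ℝ) * r q : ℝ) : ℂ) = (X q).trace := fun q => by
        rw [h3 q, hr]
        simp only
        rw [mul_div_cancel₀ _ (hk q)]
      simp only [h7]
      rw [← bd_trace P.eqv X, ← h1, cm_trace]
    exact_mod_cast h6
  obtain ⟨t, ht⟩ := exists_lab b P h5
  have h8 : ∀ q, (X q - ((r q : ℝ) : ℂ) • (1 : Matrix (Fin (P.k q)) (Fin (P.k q)) ℂ)).IsHermitian :=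
    fun q => by
      refine (h2 q).sub ?_
      rw [Matrix.IsHermitian, Matrix.conjTranspose_smul, Matrix.conjTranspose_one,
        Complex.star_def, Complex.conj_ofReal]
  have h9 : ∀ q, (X q - ((r q : ℝ) : ℂ) • (1 : Matrix (Fin (P.k q)) (Fin (P.k q)) ℂ)).trace = 0 :=
    fun q => by
      rw [Matrix.trace_sub, Matrix.trace_smul, Matrix.trace_one, Fintype.card_fin, smul_eq_mul,
        h3 q, hr]
      simp only
      have h10 := hk q
      rw [sub_eq_zero]
      norm_cast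
      rw [div_mul_cancel₀ _ h10]
  refine ⟨t, fun q => vec (bn (P.k q)) (X q - ((r q : ℝ) : ℂ) • 1), ?_⟩
  apply (cm_eq_iff b).1
  have h11 : ∀ s : Finset (Fin P.m), ∀ w : Fin P.m → Colg N,
      cm b (∑ q ∈ s, w q : Colg N) = ∑ q ∈ s, cm b (w q) := by
    intro s w
    induction s using Finset.induction_on with
    | empty => simpa using Dec.cmE_zero b
    | insert a s ha ih => rw [Finset.sum_insert ha, Finset.sum_insert ha, Dec.cmE_add, ih]
  rw [Dec.cmE_add, h11, cm_cen, ht]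
  have h12 : ∀ q, cm b (eps b P bn q (vec (bn (P.k q)) (X q - ((r q : ℝ) : ℂ) • 1))) =
      (dec P).embM q (X q - ((r q : ℝ) : ℂ) • 1) := fun q => by
    rw [cm_eps, cm_vec (bn (P.k q)) (h8 q) (h9 q)]
  simp only [h12]
  rw [sum_embM, cenM_eq, ← Stab973.bd_add, h1]
  congr 1
  funext q
  abel

/-! ### 3. Covariance -/

theorem adC_eq {n : ℕ} (b : ColorBasis n) (g : SU n) (u : Colg n) : adC b g u = adV b g u := rfl

/-- An element which permutes the blocks lies in 692's `KS`. -/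
theorem mem_KS_of_stW {w : SU N} {σ : Equiv.Perm (Fin P.m)} {hσ : ∀ p, P.k (σ p) = P.k p}
    (H : StW (dec P) w σ hσ) : w ∈ KS P σ := by
  intro a c hac
  have h1 := H.cj_cenM fun p => ((p : ℕ) : ℝ)
  rw [← bsc_eq, ← bsc_eq] at h1
  have h2 : (w : Matrix (Fin N) (Fin N) ℂ) * bsc P (fun p => ((p : ℕ) : ℝ)) =
      bsc P (fun p => ((σ.symm p : ℕ) : ℝ)) * (w : Matrix (Fin N) (Fin N) ℂ) := by
    rw [← h1, Matrix.mul_assoc, star_su, Matrix.mul_one]
  have h3 := congrFun (congrFun h2 a) c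
  unfold bsc at h3
  rw [Matrix.mul_diagonal, Matrix.diagonal_mul] at h3
  have h4 : (w : Matrix (Fin N) (Fin N) ℂ) a c *
      (((((P.cl c : ℕ) : ℝ) : ℂ)) - ((((σ.symm (P.cl a) : ℕ) : ℝ) : ℂ))) = 0 := by
    rw [mul_sub, h3]
    ring
  rcases mul_eq_zero.1 h4 with h5 | h5
  · exact h5
  · exfalso
    apply hac
    have h6 := Complex.ofReal_injective (sub_eq_zero.1 h5)
    have h7 : P.cl c = σ.symm (P.cl a) := Fin.ext (by exact_mod_cast h6)
    rw [h7, Equiv.apply_symm_apply]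

/-- **Elements which permute the blocks**: `Ad(h) ε_q = ε_{σ q} Ad(a_q)`. -/
theorem exists_of_KS {σ : Equiv.Perm (Fin P.m)} (hσ : ∀ q, P.k (σ q) = P.k q) {h : SU N}
    (hh : h ∈ KS P σ) : ∃ a : ∀ q, SU (P.k q), ∀ q (u : Colg (P.k q)),
      adC b h (eps b P bn q u) =
        eps b P bn (σ q) (castV (hσ q).symm (adC (bn (P.k q)) (a q) u)) := by
  set w : SU N := Stab2973.wS P.eqv hσ with hw
  have H : StW (dec P) w σ hσ := stW_wS P.eqv hσ
  have h1 : w⁻¹ * h ∈ Kst P := by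
    have h2 := KS_mul P (KS_inv P (mem_KS_of_stW P H)) hh
    rw [inv_mul_cancel, KS_one] at h2
    exact h2
  obtain ⟨a, ha⟩ := exists_stK P h1
  refine ⟨a, fun q u => ?_⟩
  have h3 : h = w * (w⁻¹ * h) := by rw [mul_inv_cancel_left]
  rw [adC_eq, h3, adV_mul]
  unfold eps
  rw [ha.adV_emb, H.adV_emb]
  rfl

/-- the action on the centre -/
theorem adC_cen {σ : Equiv.Perm (Fin P.m)} (hσ : σ ∈ Sw P) {h : SU N} (hh : h ∈ KS P σ)
    (t : EuclideanSpace ℝ (Fin (P.m - 1))) :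
    adC b h (cen b P t) = cen b P (oS b P ⟨σ, hσ⟩ t) := by
  rw [adC_eq]
  apply (cm_eq_iff b).1
  rw [cm_adV]
  have h1 : cm b (cen b P t) = bsc P (lab b P t) := hm_cen b P t
  have h2 : cm b (cen b P (oS b P ⟨σ, hσ⟩ t)) = bsc P (lab b P (oS b P ⟨σ, hσ⟩ t)) :=
    hm_cen b P _
  rw [h1, h2]
  have h3 := mul_diag P hh fun p => ((lab b P t p : ℝ) : ℂ)
  unfold bsc
  rw [h3, Matrix.mul_assoc, su_star, Matrix.mul_one]
  congr 1
  funext a
  rw [lab_oS]

/-- **Covariance of the blocks of the channel.** -/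
theorem cov (h : SU N) (X X' : XS P) (hX' : (chn b P).Reg X')
    (hh : b.act h ((chn b P).cf X) = (chn b P).cf X') :
    ∃ (σ : Equiv.Perm (Fin P.m)) (hσ : ∀ q, P.k (σ q) = P.k q) (a : ∀ q, SU (P.k q)),
      (∀ q (u : Colg (P.k q)), adC b h (eps b P bn q u) =
        eps b P bn (σ q) (castV (hσ q).symm (adC (bn (P.k q)) (a q) u))) ∧
      ∀ t, ∃ t', adC b h ((chn b P).cen t) = (chn b P).cen t' := by
  obtain ⟨σ, hσ, h1, -⟩ := exists_sw b P ((chn_Reg b P X').1 hX') hh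
  obtain ⟨a, ha⟩ := exists_of_KS b P bn hσ h1
  exact ⟨σ, hσ, a, ha, fun t => ⟨_, adC_cen b P hσ h1 t⟩⟩

/-- **The stabiliser of a regular position**: `Ad(h) ε_q = ε_q Ad(a_q)`, and the centre is fixed. -/
theorem cov_stab (h : SU N) (X : XS P) (hX : (chn b P).Reg X)
    (hh : b.act h ((chn b P).cf X) = (chn b P).cf X) :
    ∃ a : ∀ q, SU (P.k q), StK (dec P) h a ∧
      (∀ q (u : Colg (P.k q)), adC b h (eps b P bn q u) =
        eps b P bn q (adC (bn (P.k q)) (a q) u)) ∧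
      ∀ t, adC b h ((chn b P).cen t) = (chn b P).cen t := by
  obtain ⟨a, ha⟩ := exists_stK P ((chn_stab b P hX).1 hh)
  exact ⟨a, ha, fun q u => ha.adV_emb b (fun p => bn (P.k p)) q u,
    fun t => ha.adV_centre b (cm_cen b P t)⟩

end Crest.Agent.R330.Link973

end
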