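import Crest.Agent.R330.Agmon_350

/-!
Row 330 (helper350), leaf S5-LIOUVILLE, analytic half: Liouville theorem for zero modes of linear
charges satisfying helper674's inequality (EX), with flat directions.
-/

set_option autoImplicit false
set_option linter.unusedSectionVars false
set_option linter.deprecated false

noncomputable section

namespace Crest.Agent.R330.LiouEX350

open MeasureTheory Filter Topology Crest.Agent.R330.IBP837 Crest.Agent.R330.Moll350
  Crest.Agent.R330.Agmon350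
open scoped ContDiff InnerProductSpace ENNReal

/-! ### 1. The growth lemma, abstractly -/

section Growth

variable {X : Type*} [MeasurableSpace X] {μ : Measure X}

/-- closed shells of a function -/
def sh (r : X → ℝ) (m : ℕ) : Set X := {x | (m : ℝ) ≤ r x ∧ r x ≤ m + 1}

theorem measurableSet_sh {r : X → ℝ} (hr : Measurable r) (m : ℕ) : MeasurableSet (sh r m) :=
  (measurableSet_le measurable_const hr).inter (measurableSet_le hr measurable_const)

theorem mass_finite {r h : X → ℝ} {χ : ℕ → X → ℝ} {c C B G K : ℝ} (hc : 0 < c) (hB : 0 ≤ B)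
    (hK : 0 ≤ K) (hr : Measurable r) (hr0 : ∀ x, 0 ≤ r x) (hh : ∀ x, 0 ≤ h x)
    (hloc : ∀ n : ℕ, IntegrableOn h {x | r x ≤ n} μ) (hχm : ∀ n, Measurable (χ n))
    (h0 : ∀ n x, 0 ≤ χ n x) (h1 : ∀ n x, χ n x ≤ 1)
    (hone : ∀ (n : ℕ) x, r x ≤ n → χ n x = 1) (hzero : ∀ (n : ℕ) x, (n : ℝ) + 1 ≤ r x → χ n x = 0)
    (ineq : ∀ n : ℕ, ∫ x, (c * r x ^ 2 - C) * (χ n x ^ 2 * h x) ∂μ ≤
      B * ∫ x in sh r n, h x ∂μ)
    (grow : ∀ m : ℕ, ∫ x in sh r m, h x ∂μ ≤ G * Real.exp (K * (m + 1))) :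
    Integrable h μ ∧ Tendsto (fun m : ℕ => ∫ x in sh r m, h x ∂μ) atTop (𝓝 0) := by
  set J : ℕ → ℝ := fun m => ∫ x in sh r m, h x ∂μ with hJ
  have hJ0 : ∀ m, 0 ≤ J m := fun m => integral_nonneg fun x => hh x
  have hmB : ∀ n : ℕ, MeasurableSet {x | r x ≤ n} := fun n => measurableSet_le hr measurable_const
  have hshs : ∀ m : ℕ, sh r m ⊆ {x | r x ≤ ((m + 1 : ℕ) : ℝ)} := by
    intro m x hx
    have := hx.2
    simpa using this
  have hshI : ∀ m : ℕ, IntegrableOn h (sh r m) μ := fun m => (hloc (m + 1)).mono_set (hshs m)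
  have hindB : ∀ n : ℕ, Integrable ({x | r x ≤ n}.indicator h) μ := fun n =>
    (integrable_indicator_iff (hmB n)).mpr (hloc n)
  have hindS : ∀ m : ℕ, Integrable ((sh r m).indicator h) μ := fun m =>
    (integrable_indicator_iff (measurableSet_sh hr m)).mpr (hshI m)
  -- measurability of h
  have hhm : AEStronglyMeasurable h μ := by
    have h2 : ∀ x, Tendsto (fun n : ℕ => {x | r x ≤ n}.indicator h x) atTop (𝓝 (h x)) := by
      intro x
      refine tendsto_const_nhds.congr' ?_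
      obtain ⟨m₀, hm₀⟩ := exists_nat_gt (r x)
      filter_upwards [eventually_ge_atTop m₀] with m hm
      rw [Set.indicator_of_mem]
      have h2 : (m₀ : ℝ) ≤ m := by exact_mod_cast hm
      exact (hm₀.le.trans h2)
    exact aestronglyMeasurable_of_tendsto_ae atTop (fun n => (hindB n).1)
      (Eventually.of_forall h2)
  obtain ⟨n₀, hn₀⟩ : ∃ n₀ : ℕ, ∀ s : ℝ, (n₀ : ℝ) ≤ s → 1 ≤ c * s ^ 2 - C := by
    obtain ⟨n₀, hn₀⟩ := exists_nat_gt (max 1 ((|C| + 1) / c))
    refine ⟨n₀, fun s hs => ?_⟩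
    have h1 : 1 ≤ s := ((le_max_left _ _).trans hn₀.le).trans hs
    have h2 : (|C| + 1) / c ≤ s := ((le_max_right _ _).trans hn₀.le).trans hs
    rw [div_le_iff₀ hc] at h2
    have h3 : s * c ≤ c * s ^ 2 := by
      nlinarith [mul_nonneg hc.le (mul_nonneg (by linarith : (0:ℝ) ≤ s)
        (by linarith : (0:ℝ) ≤ s - 1))]
    have h4 := le_abs_self C
    linarith
  set S₀ : ℝ := ∫ x in {x | r x ≤ n₀}, h x ∂μ with hS₀
  have hS₀0 : 0 ≤ S₀ := integral_nonneg fun x => hh x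
  have hsqle : ∀ (n : ℕ) (x : X), χ n x ^ 2 * h x ≤ h x := by
    intro n x
    have h3 : χ n x ^ 2 ≤ 1 := by nlinarith [h0 n x, h1 n x]
    nlinarith [hh x]
  have hsq0 : ∀ (n : ℕ) (x : X), 0 ≤ χ n x ^ 2 * h x := fun n x =>
    mul_nonneg (sq_nonneg _) (hh x)
  have hLHS : ∀ n : ℕ, Integrable (fun x => (c * r x ^ 2 - C) * (χ n x ^ 2 * h x)) μ := by
    intro n
    refine ((hindB (n + 1)).const_mul (c * ((n : ℝ) + 1) ^ 2 + |C|)).mono'
      (((((hr.pow_const 2).const_mul c).sub_const C).aestronglyMeasurable).mul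
        ((((hχm n).pow_const 2).aestronglyMeasurable).mul hhm)) (Eventually.of_forall fun x => ?_)
    rw [norm_mul, Real.norm_of_nonneg (hsq0 n x)]
    by_cases hx : (n : ℝ) + 1 ≤ r x
    · rw [hzero n x hx]
      simp only [ne_eq, OfNat.ofNat_ne_zero, not_false_eq_true, zero_pow, zero_mul, mul_zero]
      exact mul_nonneg (by positivity) (Set.indicator_nonneg (fun _ _ => hh _) _)
    · push Not at hx
      rw [Set.indicator_of_mem (by
        show r x ≤ ((n + 1 : ℕ) : ℝ)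
        push_cast; exact hx.le)]
      refine mul_le_mul ?_ (hsqle n x) (hsq0 n x) (by positivity)
      rw [Real.norm_eq_abs]
      refine (abs_sub _ _).trans ?_
      rw [abs_of_nonneg (by positivity)]
      have h5 : r x ^ 2 ≤ ((n : ℝ) + 1) ^ 2 := by
        have := hr0 x
        gcongr
      nlinarith
  have hlow : ∀ (n : ℕ) (x : X), -(|C| * h x) ≤ (c * r x ^ 2 - C) * (χ n x ^ 2 * h x) := by
    intro n x
    have h1 : -|C| ≤ c * r x ^ 2 - C := by
      have := le_abs_self C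
      have h2 : 0 ≤ c * r x ^ 2 := by positivity
      linarith
    calc -(|C| * h x) ≤ -(|C| * (χ n x ^ 2 * h x)) := by
          have := mul_le_mul_of_nonneg_left (hsqle n x) (abs_nonneg C)
          linarith
      _ = -|C| * (χ n x ^ 2 * h x) := by ring
      _ ≤ _ := mul_le_mul_of_nonneg_right h1 (hsq0 n x)
  have hrec : ∀ m ≥ n₀, (c * (m : ℝ) ^ 2 - C) * J m ≤
      (B + 1) * J (m + 1) + (|C| + 1) * S₀ := by
    intro m hm
    have h1 : ∫ x, ((c * (m : ℝ) ^ 2 - C) * (sh r m).indicator h x -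
        |C| * {x | r x ≤ n₀}.indicator h x) ∂μ ≤
        ∫ x, (c * r x ^ 2 - C) * (χ (m + 1) x ^ 2 * h x) ∂μ := by
      refine integral_mono (((hindS m).const_mul _).sub ((hindB _).const_mul _)) (hLHS (m + 1))
        fun x => ?_
      simp only
      by_cases hx : x ∈ sh r m
      · rw [Set.indicator_of_mem hx]
        have e1 : χ (m + 1) x = 1 := hone _ _ (by push_cast; exact hx.2)
        rw [e1, one_pow, one_mul]
        have h2 : 0 ≤ |C| * {x | r x ≤ n₀}.indicator h x :=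
          mul_nonneg (abs_nonneg _) (Set.indicator_nonneg (fun _ _ => hh _) _)
        have h3 : (c * (m : ℝ) ^ 2 - C) * h x ≤ (c * r x ^ 2 - C) * h x := by
          refine mul_le_mul_of_nonneg_right ?_ (hh _)
          have := hx.1
          have : (m : ℝ) ^ 2 ≤ r x ^ 2 := by gcongr
          nlinarith
        linarith
      · rw [Set.indicator_of_notMem hx, mul_zero, zero_sub]
        by_cases hx2 : r x ≤ n₀
        · rw [Set.indicator_of_mem (show x ∈ {x | r x ≤ n₀} from hx2)]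
          exact hlow (m + 1) x
        · rw [Set.indicator_of_notMem (show x ∉ {x | r x ≤ n₀} from hx2), mul_zero, neg_zero]
          have := hn₀ (r x) (not_le.mp hx2).le
          exact mul_nonneg (by linarith) (hsq0 _ _)
    rw [integral_sub ((hindS m).const_mul _) ((hindB _).const_mul _), integral_const_mul,
      integral_const_mul, integral_indicator (measurableSet_sh hr m),
      integral_indicator (hmB n₀)] at h1
    have h2 := h1.trans (ineq (m + 1))
    have h3 := hJ0 (m + 1)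
    have h4 : (c * (m : ℝ) ^ 2 - C) * J m - |C| * S₀ ≤ B * J (m + 1) := h2
    nlinarith
  have ha : Tendsto (fun m : ℕ => c * (m : ℝ) ^ 2 - C) atTop atTop := by
    refine tendsto_atTop_add_const_right _ _ ?_
    exact (Tendsto.const_mul_atTop hc
      ((tendsto_pow_atTop (by norm_num)).comp tendsto_natCast_atTop_atTop))
  have hJev := discrete (J := J) (B := B + 1) (D := (|C| + 1) * S₀)
    (G := G) (K := K) (n₀ := n₀) (by positivity) (by positivity) hK hrec ha grow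
  have hmass : ∀ n : ℕ, n₀ ≤ n → ∫ x in {x | r x ≤ n}, h x ∂μ ≤ B * J n + (|C| + 1) * S₀ := by
    intro n hn
    have hn' : (n₀ : ℝ) ≤ n := by exact_mod_cast hn
    have h1 : ∫ x, ({x | r x ≤ n}.indicator h x -
        (|C| + 1) * {x | r x ≤ n₀}.indicator h x) ∂μ ≤
        ∫ x, (c * r x ^ 2 - C) * (χ n x ^ 2 * h x) ∂μ := by
      refine integral_mono ((hindB _).sub ((hindB _).const_mul _)) (hLHS n) fun x => ?_
      simp only
      by_cases hx : r x ≤ n₀
      · rw [Set.indicator_of_mem (show x ∈ {x | r x ≤ n} from hx.trans hn'),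
          Set.indicator_of_mem (show x ∈ {x | r x ≤ n₀} from hx)]
        have := hlow n x
        linarith
      · rw [Set.indicator_of_notMem (show x ∉ {x | r x ≤ n₀} from hx), mul_zero, sub_zero]
        have h2 := hn₀ (r x) (not_le.mp hx).le
        by_cases hx2 : r x ≤ n
        · rw [Set.indicator_of_mem (show x ∈ {x | r x ≤ n} from hx2), hone n x hx2, one_pow,
            one_mul]
          nlinarith [hh x]
        · rw [Set.indicator_of_notMem (show x ∉ {x | r x ≤ n} from hx2)]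
          exact mul_nonneg (by linarith) (hsq0 _ _)
    rw [integral_sub (hindB _) ((hindB _).const_mul _), integral_const_mul,
      integral_indicator (hmB _), integral_indicator (hmB _)] at h1
    have h2 := h1.trans (ineq n)
    linarith
  have hcover : AECover μ atTop fun n : ℕ => {x | r x ≤ n} := by
    refine ⟨Eventually.of_forall fun x => ?_, fun n => hmB n⟩
    obtain ⟨m₀, hm₀⟩ := exists_nat_gt (r x)
    filter_upwards [eventually_ge_atTop m₀] with m hm
    have h2 : (m₀ : ℝ) ≤ m := by exact_mod_cast hm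
    exact (hm₀.le.trans h2)
  have hfint : Integrable h μ := by
    refine hcover.integrable_of_integral_bounded_of_nonneg_ae
      (B * ((|C| + 1) * S₀) + (|C| + 1) * S₀) (fun n => hloc n)
      (Eventually.of_forall fun x => hh x) ?_
    filter_upwards [hJev, eventually_ge_atTop n₀] with n h1 h2
    refine (hmass n h2).trans ?_
    nlinarith
  refine ⟨hfint, ?_⟩
  have h1 : Tendsto (fun m : ℕ => ∫ x, (sh r m).indicator h x ∂μ)
      atTop (𝓝 (∫ _ : X, (0 : ℝ) ∂μ)) := by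
    refine tendsto_integral_of_dominated_convergence h
      (fun m => (hindS m).1) hfint (fun m => Eventually.of_forall fun x => ?_)
      (Eventually.of_forall fun x => ?_)
    · rw [Real.norm_of_nonneg (Set.indicator_nonneg (fun _ _ => hh _) _)]
      exact Set.indicator_le_self' (fun _ _ => hh _) x
    · refine tendsto_const_nhds.congr' ?_
      obtain ⟨m₀, hm₀⟩ := exists_nat_gt (r x)
      filter_upwards [eventually_ge_atTop m₀] with m hm
      rw [Set.indicator_of_notMem]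
      intro hx
      have h2 : (m₀ : ℝ) ≤ m := by exact_mod_cast hm
      have h3 : (m : ℝ) ≤ r x := hx.1
      linarith
  rw [integral_zero] at h1
  refine h1.congr fun m => ?_
  rw [integral_indicator (measurableSet_sh hr m)]

end Growth

/-! ### 2. Orthonormal bases -/

section ONB

variable {E : Type*} [NormedAddCommGroup E] [InnerProductSpace ℝ E] [FiniteDimensional ℝ E]
  {ν : Type*} [Fintype ν]

theorem sum_sq_onb (e : OrthonormalBasis ν ℝ E) (L : E →L[ℝ] ℝ) :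
    ∑ n, (L (e n)) ^ 2 = ‖L‖ ^ 2 := by
  have : CompleteSpace E := FiniteDimensional.complete ℝ E
  obtain ⟨w, rfl⟩ := (InnerProductSpace.toDual ℝ E).surjective L
  simp only [InnerProductSpace.toDual_apply_apply, LinearIsometryEquiv.norm_map]
  rw [← e.sum_sq_norm_inner_left w]
  simp only [Real.norm_eq_abs, sq_abs]

theorem hs_aux {F : Type*} [NormedAddCommGroup F] [InnerProductSpace ℝ F]
    [FiniteDimensional ℝ F] (e : OrthonormalBasis ν ℝ E) (L : E →L[ℝ] F) :
    ∑ n, ‖L (e n)‖ ^ 2 = ∑ j, ‖((innerSL ℝ (stdOrthonormalBasis ℝ F j)).comp L : E →L[ℝ] ℝ)‖ ^ 2 := by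
  let f := stdOrthonormalBasis ℝ F
  have h1 : ∀ j, ‖((innerSL ℝ (f j)).comp L : E →L[ℝ] ℝ)‖ ^ 2 =
      ∑ n, (⟪f j, L (e n)⟫_ℝ) ^ 2 := fun j => by
    rw [← sum_sq_onb e]
    rfl
  simp only [show ∀ j, stdOrthonormalBasis ℝ F j = f j from fun j => rfl, h1]
  rw [Finset.sum_comm]
  refine Finset.sum_congr rfl fun n _ => ?_
  rw [← f.sum_sq_norm_inner_right (L (e n))]
  simp only [Real.norm_eq_abs, sq_abs]

/-- The Hilbert-Schmidt norm does not depend on the orthonormal basis. -/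
theorem hs_onb {F : Type*} [NormedAddCommGroup F] [InnerProductSpace ℝ F]
    [FiniteDimensional ℝ F] {ν' : Type*} [Fintype ν'] (e : OrthonormalBasis ν ℝ E)
    (e' : OrthonormalBasis ν' ℝ E) (L : E →L[ℝ] F) :
    ∑ n, ‖L (e n)‖ ^ 2 = ∑ n, ‖L (e' n)‖ ^ 2 := by
  rw [hs_aux e, hs_aux e']

end ONB

/-! ### 3. One cut-off -/

section Main

variable {κ : Type*} [Fintype κ] [DecidableEq κ]
  {F : Type*} [NormedAddCommGroup F] [InnerProductSpace ℂ F] [FiniteDimensional ℂ F]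
  {ν : Type*} [Fintype ν] {ι : Type*} [Fintype ι] {β : Type*} [Fintype β]

/-- `∂_n φ + λ_n y_n φ` in an orthonormal basis. -/
def dn (e : OrthonormalBasis ν ℝ (EuclideanSpace ℝ κ)) (lam : ν → ℝ) (n : ν)
    (φ : EuclideanSpace ℝ κ → F) (y : EuclideanSpace ℝ κ) : F :=
  fderiv ℝ φ y (e n) + (lam n * ⟪e n, y⟫_ℝ) • φ y

variable {e : OrthonormalBasis ν ℝ (EuclideanSpace ℝ κ)} {lam : ν → ℝ}

theorem single_sum (v : EuclideanSpace ℝ κ) :
    v = ∑ k, v k • (EuclideanSpace.single k (1 : ℝ) : EuclideanSpace ℝ κ) := by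
  ext j
  simp [Finset.sum_apply, Pi.single_apply]

/-- the operators `-i ∂_v` as `dirac` -/
theorem dirac_const (v : EuclideanSpace ℝ κ) (φ : EuclideanSpace ℝ κ → F)
    (y : EuclideanSpace ℝ κ) :
    dirac (fun k => ((v k : ℝ) : ℂ) • (LinearMap.id : F →ₗ[ℂ] F)) (fun _ => 0) φ y =
      (-Complex.I) • fderiv ℝ φ y v := by
  unfold dirac
  conv_rhs => rw [single_sum v, map_sum]
  rw [Finset.smul_sum]
  simp only [LinearMap.zero_apply, add_zero, LinearMap.smul_apply, LinearMap.id_apply, map_smul,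
    Complex.coe_smul]

theorem cmt_const (v : EuclideanSpace ℝ κ) (χ : EuclideanSpace ℝ κ → ℝ)
    (f : EuclideanSpace ℝ κ → F) (y : EuclideanSpace ℝ κ) :
    cmt (fun k => ((v k : ℝ) : ℂ) • (LinearMap.id : F →ₗ[ℂ] F)) χ f y =
      (-Complex.I) • (fderiv ℝ χ y v) • f y := by
  unfold cmt
  conv_rhs => rw [single_sum v, map_sum]
  rw [Finset.sum_smul, Finset.smul_sum]
  refine Finset.sum_congr rfl fun k _ => ?_
  simp only [LinearMap.smul_apply, LinearMap.id_apply, map_smul, Complex.coe_smul, smul_eq_mul]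
  rw [smul_smul, mul_comm]

theorem continuous_dn (n : ν) {φ : EuclideanSpace ℝ κ → F} (hφ : ContDiff ℝ 1 φ) :
    Continuous (dn e lam n φ) := by
  unfold dn
  refine Continuous.add ((hφ.continuous_fderiv (by norm_num)).clm_apply continuous_const) ?_
  have h1 : Continuous fun y : EuclideanSpace ℝ κ => ⟪e n, y⟫_ℝ :=
    Continuous.inner continuous_const continuous_id
  exact (continuous_const.mul h1).smul hφ.continuous

theorem hasCompactSupport_dn (n : ν) {φ : EuclideanSpace ℝ κ → F} (hc : HasCompactSupport φ) :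
    HasCompactSupport (dn e lam n φ) := by
  unfold dn
  refine HasCompactSupport.add (hasCompactSupport_fderiv_apply hc (e n)) hc.smul_left

theorem memLp_dn (n : ν) {φ : EuclideanSpace ℝ κ → F} (hφ : ContDiff ℝ 1 φ)
    (hc : HasCompactSupport φ) : MemLp (dn e lam n φ) 2 volume :=
  (continuous_dn n hφ).memLp_of_hasCompactSupport (hasCompactSupport_dn n hc)

theorem integrable_sq_cc {u : EuclideanSpace ℝ κ → F} (hu : Continuous u)
    (hc : HasCompactSupport u) : Integrable (fun y => ‖u y‖ ^ 2) volume :=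
  (memLp_two_iff_integrable_sq_norm hu.aestronglyMeasurable).mp
    (hu.memLp_of_hasCompactSupport hc)

/-- change of orthonormal basis in the bosonic term -/
theorem sum_dn (T : EuclideanSpace ℝ κ →ₗ[ℝ] EuclideanSpace ℝ κ) (hTs : T.IsSymmetric)
    (he : ∀ n, T (e n) = lam n • e n) {φ : EuclideanSpace ℝ κ → F} (hφ : ContDiff ℝ 1 φ)
    (hc : HasCompactSupport φ) :
    ∑ k, ∫ y, ‖fderiv ℝ φ y (EuclideanSpace.single k 1) + (T y) k • φ y‖ ^ 2 =
      ∑ n, ∫ y, ‖dn e lam n φ y‖ ^ 2 := by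
  have : FiniteDimensional ℝ F := FiniteDimensional.complexToReal F
  have hT : Continuous T := LinearMap.continuous_of_finiteDimensional T
  have hi1 : ∀ k, Integrable (fun y => ‖fderiv ℝ φ y (EuclideanSpace.single k 1) +
      (T y) k • φ y‖ ^ 2) volume := by
    intro k
    refine integrable_sq_cc ?_ ?_
    · refine Continuous.add ((hφ.continuous_fderiv (by norm_num)).clm_apply continuous_const) ?_
      exact ((EuclideanSpace.proj k).continuous.comp hT).smul hφ.continuous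
    · exact HasCompactSupport.add (hasCompactSupport_fderiv_apply hc _) hc.smul_left
  have hi2 : ∀ n, Integrable (fun y => ‖dn e lam n φ y‖ ^ 2) volume := fun n =>
    integrable_sq_cc (continuous_dn n hφ) (hasCompactSupport_dn n hc)
  rw [← integral_finset_sum _ fun k _ => hi1 k, ← integral_finset_sum _ fun n _ => hi2 n]
  refine integral_congr_ae (Eventually.of_forall fun y => ?_)
  simp only
  let _ : InnerProductSpace ℝ F := InnerProductSpace.rclikeToReal ℂ F
  have h := hs_onb (F := F) (EuclideanSpace.basisFun κ ℝ) e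
    (fderiv ℝ φ y + (innerSL ℝ (T y)).smulRight (φ y) : EuclideanSpace ℝ κ →L[ℝ] F)
  simp only [ContinuousLinearMap.add_apply, ContinuousLinearMap.smulRight_apply,
    innerSL_apply_apply, EuclideanSpace.basisFun_apply] at h
  have e1 : ∀ k, ⟪T y, (EuclideanSpace.single k (1 : ℝ) : EuclideanSpace ℝ κ)⟫_ℝ = (T y) k := by
    intro k
    rw [EuclideanSpace.inner_single_right]
    simp
  have e2 : ∀ n, ⟪T y, e n⟫_ℝ = lam n * ⟪e n, y⟫_ℝ := by
    intro n
    rw [hTs y (e n), he n, inner_smul_right, real_inner_comm]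
  simp only [e1, e2] at h
  exact h

/-- The hypotheses. -/
structure Dat (A : ι → κ → F →ₗ[ℂ] F) (W : ι → EuclideanSpace ℝ κ → F →ₗ[ℂ] F)
    (Bv : β → F →ₗ[ℂ] F) (e : OrthonormalBasis ν ℝ (EuclideanSpace ℝ κ)) (lam : ν → ℝ)
    (C₀ cb L : ℝ) (f : EuclideanSpace ℝ κ → F) : Prop where
  c0 : 0 < C₀
  cb0 : 0 < cb
  lam0 : ∀ n, 0 ≤ lam n
  cl : ∀ (η : κ → ℝ) (v : F), ∑ α, ‖∑ k, η k • A α k v‖ ^ 2 = C₀ * (∑ k, η k ^ 2) * ‖v‖ ^ 2
  symA : ∀ α k, (A α k).IsSymmetric
  symW : ∀ α x, (W α x).IsSymmetric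
  lip : ∀ α, LipPot (W α) L
  ex : ∀ φ : EuclideanSpace ℝ κ → F, ContDiff ℝ ∞ φ → HasCompactSupport φ →
    C₀ * (∑ n, ∫ y, ‖dn e lam n φ y‖ ^ 2) + cb * (∑ j, ∫ y, ‖Bv j (φ y)‖ ^ 2) ≤
      ∑ α, ∫ y, ‖dirac (A α) (W α) φ y‖ ^ 2
  f2 : L2loc f
  weak : ∀ α, ∀ ψ : EuclideanSpace ℝ κ → F, ContDiff ℝ ∞ ψ → HasCompactSupport ψ →
    ∫ y, ⟪f y, dirac (A α) (W α) ψ y⟫_ℂ = 0
  flat : ∀ n, lam n = 0 → ∀ ψ : EuclideanSpace ℝ κ → F, ContDiff ℝ ∞ ψ → HasCompactSupport ψ →
    ∫ y, ⟪f y, fderiv ℝ ψ y (e n)⟫_ℂ = 0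

/-- flat directions -/
def vT (e : OrthonormalBasis ν ℝ (EuclideanSpace ℝ κ)) (lam : ν → ℝ) (n : ν) :
    EuclideanSpace ℝ κ := if lam n = 0 then e n else 0

/-- the transversal gradient energy of a cut-off -/
def EN (e : OrthonormalBasis ν ℝ (EuclideanSpace ℝ κ)) (lam : ν → ℝ)
    (f : EuclideanSpace ℝ κ → F) (χ : EuclideanSpace ℝ κ → ℝ) : ℝ :=
  ∫ y, (∑ n, if lam n = 0 then 0 else (fderiv ℝ χ y (e n)) ^ 2) * ‖f y‖ ^ 2

variable {A : ι → κ → F →ₗ[ℂ] F} {W : ι → EuclideanSpace ℝ κ → F →ₗ[ℂ] F}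
  {Bv : β → F →ₗ[ℂ] F} {C₀ cb L : ℝ} {f : EuclideanSpace ℝ κ → F}

/-- the extended family of charges -/
def extA (A : ι → κ → F →ₗ[ℂ] F) (e : OrthonormalBasis ν ℝ (EuclideanSpace ℝ κ)) (lam : ν → ℝ) :
    ι ⊕ ν → κ → F →ₗ[ℂ] F :=
  Sum.elim A fun n k => ((vT e lam n k : ℝ) : ℂ) • LinearMap.id

def extW (ν : Type*) (W : ι → EuclideanSpace ℝ κ → F →ₗ[ℂ] F) :
    ι ⊕ ν → EuclideanSpace ℝ κ → F →ₗ[ℂ] F :=
  Sum.elim W fun _ _ => 0

theorem inner_vT_le (n : ν) (η : EuclideanSpace ℝ κ) : ⟪vT e lam n, η⟫_ℝ ^ 2 ≤ ⟪e n, η⟫_ℝ ^ 2 := by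
  unfold vT
  split_ifs
  · exact le_rfl
  · rw [inner_zero_left]
    nlinarith [sq_nonneg (⟪e n, η⟫_ℝ)]

theorem cliff_ext (D : Dat A W Bv e lam C₀ cb L f) : CliffBd (extA A e lam) (C₀ + 1) := by
  intro η v
  rw [Fintype.sum_sum_type]
  simp only [extA, Sum.elim_inl, Sum.elim_inr]
  rw [D.cl η v, add_mul, add_mul, one_mul]
  refine add_le_add le_rfl ?_
  have h1 : ∀ n, ‖∑ k, η k • (((vT e lam n k : ℝ) : ℂ) • (LinearMap.id : F →ₗ[ℂ] F)) v‖ ^ 2 =
      ⟪vT e lam n, WithLp.toLp 2 η⟫_ℝ ^ 2 * ‖v‖ ^ 2 := by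
    intro n
    have h2 : ∑ k, η k • (((vT e lam n k : ℝ) : ℂ) • (LinearMap.id : F →ₗ[ℂ] F)) v =
        ⟪vT e lam n, WithLp.toLp 2 η⟫_ℝ • v := by
      rw [PiLp.inner_apply, Finset.sum_smul]
      refine Finset.sum_congr rfl fun k _ => ?_
      simp only [LinearMap.smul_apply, LinearMap.id_apply, Complex.coe_smul, smul_smul,
        RCLike.inner_apply, conj_trivial]
    rw [h2, norm_smul, mul_pow, Real.norm_eq_abs, sq_abs]
  simp only [h1]
  rw [← Finset.sum_mul]
  refine mul_le_mul_of_nonneg_right ?_ (sq_nonneg _)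
  calc ∑ n, ⟪vT e lam n, WithLp.toLp 2 η⟫_ℝ ^ 2 ≤ ∑ n, ⟪e n, WithLp.toLp 2 η⟫_ℝ ^ 2 :=
        Finset.sum_le_sum fun n _ => inner_vT_le n _
    _ = ‖(WithLp.toLp 2 η : EuclideanSpace ℝ κ)‖ ^ 2 := by
        rw [← e.sum_sq_norm_inner_right]
        simp only [Real.norm_eq_abs, sq_abs]
    _ = ∑ k, η k ^ 2 := by
        rw [EuclideanSpace.norm_sq_eq]
        simp

theorem key_seq (D : Dat A W Bv e lam C₀ cb L f) {χ : EuclideanSpace ℝ κ → ℝ}
    (hχ : ContDiff ℝ ∞ χ) {R : ℝ} (hχR : ∀ x, R < ‖x‖ → χ x = 0) (hχ1 : ∀ x, |χ x| ≤ 1) :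
    MemLp (fun x => χ x • f x) 2 volume ∧
    ∃ φ : ℕ → EuclideanSpace ℝ κ → F, (∀ m, ContDiff ℝ ∞ (φ m)) ∧
      (∀ m y, R + 1 < ‖y‖ → φ m y = 0) ∧ (∀ m, HasCompactSupport (φ m)) ∧
      Tendsto (fun m => eLpNorm (φ m - fun x => χ x • f x) 2 volume) atTop (𝓝 0) ∧
      ∃ ε : ℕ → ℝ, Tendsto ε atTop (𝓝 (EN e lam f χ)) ∧
        ∀ m, C₀ * (∑ n, if lam n = 0 then 0 else ∫ y, ‖dn e lam n (φ m) y‖ ^ 2) +
          cb * (∑ j, ∫ y, ‖Bv j (φ m y)‖ ^ 2) ≤ C₀ * ε m := by
  have hC0 := D.c0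
  -- the extended weak equations
  have hsA : ∀ α k, (extA A e lam α k).IsSymmetric := by
    rintro (α | n) k
    · exact D.symA α k
    · intro x y
      simp only [extA, Sum.elim_inr, LinearMap.smul_apply, LinearMap.id_apply, inner_smul_left,
        inner_smul_right, Complex.conj_ofReal]
  have hsW : ∀ α x, (extW ν W α x).IsSymmetric := by
    rintro (α | n) x
    · exact D.symW α x
    · intro u v
      simp [extW]
  have hLip : ∀ α, LipPot (extW ν W α) (max L 0) := by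
    rintro (α | n)
    · refine ⟨le_max_right _ _, fun x y v => (((D.lip α).2 x y v).trans ?_)⟩
      gcongr
      exact le_max_left _ _
    · refine ⟨le_max_right _ _, fun x y v => ?_⟩
      simp only [extW, Sum.elim_inr, LinearMap.zero_apply, sub_zero, norm_zero]
      positivity
  have hweak : ∀ α, ∀ ψ : EuclideanSpace ℝ κ → F, ContDiff ℝ ∞ ψ → HasCompactSupport ψ →
      ∫ x, ⟪f x, dirac (extA A e lam α) (extW ν W α) ψ x⟫_ℂ = 0 := by
    rintro (α | n) ψ hψ hψc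
    · exact D.weak α ψ hψ hψc
    · have h1 : ∀ x, dirac (extA A e lam (Sum.inr n)) (extW ν W (Sum.inr n)) ψ x =
          (-Complex.I) • fderiv ℝ ψ x (vT e lam n) := fun x => dirac_const (vT e lam n) ψ x
      simp only [h1, inner_smul_right, integral_const_mul]
      by_cases hn : lam n = 0
      · have h2 := D.flat n hn ψ hψ hψc
        simp only [vT, hn, if_true]
        rw [h2, mul_zero]
      · simp [vT, hn]
  obtain ⟨hg, hY, φ, p1, p2, p3, p4, p5⟩ := exists_seq (C₀ := C₀ + 1) (by linarith) (cliff_ext D)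
    hsA hsW hLip D.f2 hweak hχ hχR hχ1
  refine ⟨hg, φ, p1, p2, p3, p4, ?_⟩
  have hφ : ∀ m, ContDiff ℝ 1 (φ m) := fun m => (p1 m).of_le (by simp)
  have hV : ∀ α v, Continuous fun x => extW ν W α x v := fun α => (hLip α).continuous
  have hD : ∀ α m, MemLp (dirac (extA A e lam α) (extW ν W α) (φ m)) 2 volume := fun α m =>
    memLp_dirac (hV α) (hφ m) (p3 m)
  have hlim : ∀ α, Tendsto (fun m => ∫ y, ‖dirac (extA A e lam α) (extW ν W α) (φ m) y‖ ^ 2)
      atTop (𝓝 (∫ y, ‖cmt (extA A e lam α) χ f y‖ ^ 2)) := fun α =>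
    tendsto_int_sq (hD α) (hY α) (p5 α)
  have hYi : ∀ α, Integrable (fun y => ‖cmt (extA A e lam α) χ f y‖ ^ 2) volume := fun α =>
    (memLp_two_iff_integrable_sq_norm (hY α).1).mp (hY α)
  refine ⟨fun m => C₀⁻¹ * (∑ α, ∫ y, ‖dirac (A α) (W α) (φ m) y‖ ^ 2) -
    ∑ n, ∫ y, ‖dirac (extA A e lam (Sum.inr n)) (extW ν W (Sum.inr n)) (φ m) y‖ ^ 2, ?_, ?_⟩
  · have t1 := ((tendsto_finset_sum Finset.univ fun (α : ι) _ =>
      hlim (Sum.inl α)).const_mul C₀⁻¹).sub
      (tendsto_finset_sum Finset.univ fun (n : ν) _ => hlim (Sum.inr n))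
    have e1 : C₀⁻¹ * (∑ α : ι, ∫ y, ‖cmt (extA A e lam (Sum.inl α)) χ f y‖ ^ 2) -
        ∑ n : ν, ∫ y, ‖cmt (extA A e lam (Sum.inr n)) χ f y‖ ^ 2 = EN e lam f χ := by
      rw [← integral_finset_sum _ fun α _ => hYi (Sum.inl α),
        ← integral_finset_sum _ fun n _ => hYi (Sum.inr n), ← integral_const_mul,
        ← integral_sub ((integrable_finset_sum _ fun α _ => hYi (Sum.inl α)).const_mul _)
          (integrable_finset_sum _ fun n _ => hYi (Sum.inr n))]
      unfold EN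
      refine integral_congr_ae (Eventually.of_forall fun y => ?_)
      simp only
      have a1 : ∑ α : ι, ‖cmt (extA A e lam (Sum.inl α)) χ f y‖ ^ 2 =
          C₀ * (∑ n, (fderiv ℝ χ y (e n)) ^ 2) * ‖f y‖ ^ 2 := by
        simp only [norm_cmt, extA, Sum.elim_inl]
        rw [D.cl, sum_sq_onb e]
        have := sum_sq_onb (EuclideanSpace.basisFun κ ℝ) (fderiv ℝ χ y)
        simp only [EuclideanSpace.basisFun_apply] at this
        rw [this]
      have a2 : ∀ n : ν, ‖cmt (extA A e lam (Sum.inr n)) χ f y‖ ^ 2 =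
          (if lam n = 0 then (fderiv ℝ χ y (e n)) ^ 2 else 0) * ‖f y‖ ^ 2 := by
        intro n
        have : cmt (extA A e lam (Sum.inr n)) χ f y =
            (-Complex.I) • (fderiv ℝ χ y (vT e lam n)) • f y := cmt_const _ _ _ _
        rw [this, norm_smul, norm_smul]
        unfold vT
        split_ifs with hn
        · simp [mul_pow]
        · simp
      rw [a1]
      simp only [a2]
      rw [← Finset.sum_mul, ← mul_assoc, ← mul_assoc, inv_mul_cancel₀ hC0.ne', one_mul, ← sub_mul,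
        ← Finset.sum_sub_distrib]
      congr 1
      refine Finset.sum_congr rfl fun n _ => ?_
      split_ifs <;> simp
    rw [e1] at t1
    exact t1
  · intro m
    have h1 := D.ex (φ m) (p1 m) (p3 m)
    have h2 : ∀ n, ∫ y, ‖dirac (extA A e lam (Sum.inr n)) (extW ν W (Sum.inr n)) (φ m) y‖ ^ 2 =
        if lam n = 0 then ∫ y, ‖dn e lam n (φ m) y‖ ^ 2 else 0 := by
      intro n
      have h3 : ∀ x, dirac (extA A e lam (Sum.inr n)) (extW ν W (Sum.inr n)) (φ m) x =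
          (-Complex.I) • fderiv ℝ (φ m) x (vT e lam n) := fun x => dirac_const (vT e lam n) _ x
      simp only [h3]
      split_ifs with hn
      · refine integral_congr_ae (Eventually.of_forall fun y => ?_)
        simp only [vT, hn, if_true, dn, norm_smul, zero_mul, zero_smul, add_zero]
        simp
      · simp [vT, hn]
    have h4 : (∑ n, if lam n = 0 then 0 else ∫ y, ‖dn e lam n (φ m) y‖ ^ 2) =
        (∑ n, ∫ y, ‖dn e lam n (φ m) y‖ ^ 2) -
        ∑ n, ∫ y, ‖dirac (extA A e lam (Sum.inr n)) (extW ν W (Sum.inr n)) (φ m) y‖ ^ 2 := by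
      rw [← Finset.sum_sub_distrib]
      refine Finset.sum_congr rfl fun n _ => ?_
      rw [h2]
      split_ifs <;> simp
    rw [h4]
    simp only
    rw [mul_sub, mul_sub, ← mul_assoc, mul_inv_cancel₀ hC0.ne', one_mul]
    linarith

/-! ### 4. Consequences of the key inequality -/

theorem cs_real {X : Type*} [MeasurableSpace X] {μ : Measure X} {u v : X → F}
    (hu : MemLp u 2 μ) (hv : MemLp v 2 μ) :
    ‖∫ x, ⟪u x, v x⟫_ℂ ∂μ‖ ^ 2 ≤ (∫ x, ‖u x‖ ^ 2 ∂μ) * ∫ x, ‖v x‖ ^ 2 ∂μ := by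
  have h1 : ‖∫ x, ⟪u x, v x⟫_ℂ ∂μ‖ ≤ ∫ x, ‖u x‖ * ‖v x‖ ∂μ := by
    refine (norm_integral_le_integral_norm _).trans ?_
    refine integral_mono_of_nonneg (Eventually.of_forall fun x => norm_nonneg _)
      (hu.norm.integrable_mul hv.norm) (Eventually.of_forall fun x => ?_)
    exact norm_inner_le_norm _ _
  have h2 := integral_mul_le_Lp_mul_Lq_of_nonneg (μ := μ) (p := 2) (q := 2)
    (by constructor <;> norm_num) (f := fun x => ‖u x‖) (g := fun x => ‖v x‖)
    (Eventually.of_forall fun x => norm_nonneg _) (Eventually.of_forall fun x => norm_nonneg _)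
    (by simpa using hu.norm) (by simpa using hv.norm)
  have h3 : ‖∫ x, ⟪u x, v x⟫_ℂ ∂μ‖ ≤ (∫ x, ‖u x‖ ^ 2 ∂μ) ^ (1 / 2 : ℝ) *
      (∫ x, ‖v x‖ ^ 2 ∂μ) ^ (1 / 2 : ℝ) := by
    refine h1.trans (h2.trans (le_of_eq ?_))
    simp only [Real.rpow_ofNat]
  have hu0 : 0 ≤ ∫ x, ‖u x‖ ^ 2 ∂μ := integral_nonneg fun x => sq_nonneg _
  have hv0 : 0 ≤ ∫ x, ‖v x‖ ^ 2 ∂μ := integral_nonneg fun x => sq_nonneg _
  calc ‖∫ x, ⟪u x, v x⟫_ℂ ∂μ‖ ^ 2 ≤ ((∫ x, ‖u x‖ ^ 2 ∂μ) ^ (1 / 2 : ℝ) *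
      (∫ x, ‖v x‖ ^ 2 ∂μ) ^ (1 / 2 : ℝ)) ^ 2 := by gcongr
    _ = _ := by
      rw [mul_pow, ← Real.sqrt_eq_rpow, ← Real.sqrt_eq_rpow, Real.sq_sqrt hu0, Real.sq_sqrt hv0]

theorem fderiv_coord_smul (v : EuclideanSpace ℝ κ) {φ : EuclideanSpace ℝ κ → F}
    (hφ : Differentiable ℝ φ) (y w : EuclideanSpace ℝ κ) :
    fderiv ℝ (fun z => ⟪v, z⟫_ℝ • φ z) y w = ⟪v, y⟫_ℝ • fderiv ℝ φ y w + ⟪v, w⟫_ℝ • φ y := by
  have h1 : HasFDerivAt (fun z : EuclideanSpace ℝ κ => ⟪v, z⟫_ℝ) (innerSL ℝ v) y :=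
    (innerSL ℝ v).hasFDerivAt
  rw [fderiv_fun_smul h1.differentiableAt (hφ y), h1.fderiv]
  simp

theorem dn_weak (n : ν) {φ ψ : EuclideanSpace ℝ κ → F} (hφ : ContDiff ℝ 1 φ)
    (hψ : ContDiff ℝ 1 ψ) (hc : HasCompactSupport φ) :
    ∫ y, ⟪φ y, -(fderiv ℝ ψ y (e n)) + (lam n * ⟪e n, y⟫_ℝ) • ψ y⟫_ℂ =
      ∫ y, ⟪dn e lam n φ y, ψ y⟫_ℂ := by
  have hcont : Continuous fun y : EuclideanSpace ℝ κ => lam n * ⟪e n, y⟫_ℝ :=
    continuous_const.mul (Continuous.inner continuous_const continuous_id)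
  have i1 : Integrable (fun y => ⟪φ y, -(fderiv ℝ ψ y (e n))⟫_ℂ) volume :=
    integrable_inner_of_cont hφ.continuous (fderiv_apply_continuous hψ _).neg (Or.inl hc)
  have i2 : Integrable (fun y => ⟪φ y, (lam n * ⟪e n, y⟫_ℝ) • ψ y⟫_ℂ) volume :=
    integrable_inner_of_cont hφ.continuous (hcont.smul hψ.continuous) (Or.inl hc)
  have i3 : Integrable (fun y => ⟪fderiv ℝ φ y (e n), ψ y⟫_ℂ) volume :=
    integrable_inner_of_cont (fderiv_apply_continuous hφ _) hψ.continuous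
      (Or.inl (hasCompactSupport_fderiv_apply hc _))
  have i4 : Integrable (fun y => ⟪(lam n * ⟪e n, y⟫_ℝ) • φ y, ψ y⟫_ℂ) volume :=
    integrable_inner_of_cont (hcont.smul hφ.continuous) hψ.continuous (Or.inl hc.smul_left)
  simp only [dn, inner_add_left, inner_add_right]
  rw [integral_add i1 i2, integral_add i3 i4, ibp hφ hψ (Or.inl hc)]
  congr 1
  · rw [← integral_neg]
    refine integral_congr_ae (Eventually.of_forall fun y => ?_)
    simp only [inner_neg_right]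
  · refine integral_congr_ae (Eventually.of_forall fun y => ?_)
    simp only
    rw [inner_rs_left, inner_rs_right]

/-- confinement for one mode -/
theorem conf (n : ν) {φ : EuclideanSpace ℝ κ → F} (hφ : ContDiff ℝ 1 φ)
    (hc : HasCompactSupport φ) :
    ∫ y, (lam n ^ 2 * ⟪e n, y⟫_ℝ ^ 2 - lam n) * ‖φ y‖ ^ 2 ≤ ∫ y, ‖dn e lam n φ y‖ ^ 2 := by
  have hs : Continuous fun y : EuclideanSpace ℝ κ => ⟪e n, y⟫_ℝ :=
    Continuous.inner continuous_const continuous_id
  have hd : Continuous fun y => fderiv ℝ φ y (e n) := fderiv_apply_continuous hφ _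
  have hdc : HasCompactSupport fun y => fderiv ℝ φ y (e n) := hasCompactSupport_fderiv_apply hc _
  set I : ℂ := ∫ y, ⟪fderiv ℝ φ y (e n), ⟪e n, y⟫_ℝ • φ y⟫_ℂ with hI
  have hψ : ContDiff ℝ 1 fun y => ⟪e n, y⟫_ℝ • φ y :=
    (contDiff_const.inner ℝ contDiff_id).smul hφ
  have e1 : I = - (starRingEnd ℂ I) - ((∫ y, ‖φ y‖ ^ 2 : ℝ) : ℂ) := by
    have i1 : Integrable (fun y => ⟪φ y, ⟪e n, y⟫_ℝ • fderiv ℝ φ y (e n)⟫_ℂ) volume :=
      integrable_inner_of_cont hφ.continuous (hs.smul hd) (Or.inl hc)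
    have i2 : Integrable (fun y => ⟪φ y, φ y⟫_ℂ) volume :=
      integrable_inner_of_cont hφ.continuous hφ.continuous (Or.inl hc)
    conv_lhs => rw [hI, ibp hφ hψ (Or.inl hc)]
    have h2 : ∀ y, ⟪φ y, fderiv ℝ (fun z => ⟪e n, z⟫_ℝ • φ z) y (e n)⟫_ℂ =
        ⟪φ y, ⟪e n, y⟫_ℝ • fderiv ℝ φ y (e n)⟫_ℂ + ⟪φ y, φ y⟫_ℂ := by
      intro y
      rw [fderiv_coord_smul _ (hφ.differentiable (by norm_num)), inner_add_right,
        real_inner_self_eq_norm_sq, e.norm_eq_one, one_pow, one_smul]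
    simp only [h2]
    rw [integral_add i1 i2, int_inner_self]
    have h3 : ∫ y, ⟪φ y, ⟪e n, y⟫_ℝ • fderiv ℝ φ y (e n)⟫_ℂ = starRingEnd ℂ I := by
      rw [hI, ← integral_conj]
      refine integral_congr_ae (Eventually.of_forall fun y => ?_)
      simp only [inner_conj_symm]
      rw [inner_rs_left, inner_rs_right]
    rw [h3]
    ring
  have e2 : 2 * I.re = - ∫ y, ‖φ y‖ ^ 2 := by
    have := congrArg Complex.re e1
    simp only [Complex.sub_re, Complex.neg_re, Complex.conj_re, Complex.ofReal_re] at this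
    linarith
  have j1 : Integrable (fun y => ‖fderiv ℝ φ y (e n)‖ ^ 2) volume := integrable_sq_cc hd hdc
  have j2 : Integrable (fun y => ⟪fderiv ℝ φ y (e n), ⟪e n, y⟫_ℝ • φ y⟫_ℂ) volume :=
    integrable_inner_of_cont hd (hs.smul hφ.continuous) (Or.inl hdc)
  have j3 : Integrable (fun y => ⟪e n, y⟫_ℝ ^ 2 * ‖φ y‖ ^ 2) volume := by
    have := integrable_sq_cc (hs.smul hφ.continuous) hc.smul_left
    refine this.congr (Eventually.of_forall fun y => ?_)
    simp only [Pi.smul_apply', norm_smul, mul_pow, Real.norm_eq_abs, sq_abs]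
  have j4 : Integrable (fun y => ‖φ y‖ ^ 2) volume := integrable_sq_cc hφ.continuous hc
  have e3 : ∫ y, ‖dn e lam n φ y‖ ^ 2 = (∫ y, ‖fderiv ℝ φ y (e n)‖ ^ 2) +
      2 * lam n * I.re + lam n ^ 2 * ∫ y, ⟪e n, y⟫_ℝ ^ 2 * ‖φ y‖ ^ 2 := by
    have h1 : I.re = ∫ y, (⟪fderiv ℝ φ y (e n), ⟪e n, y⟫_ℝ • φ y⟫_ℂ).re := by
      rw [hI]
      exact (integral_re j2).symm
    have j5 : Integrable (fun y => 2 * lam n *
        (⟪fderiv ℝ φ y (e n), ⟪e n, y⟫_ℝ • φ y⟫_ℂ).re) volume := j2.re.const_mul _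
    have j6 : Integrable (fun y => ‖fderiv ℝ φ y (e n)‖ ^ 2 + 2 * lam n *
        (⟪fderiv ℝ φ y (e n), ⟪e n, y⟫_ℝ • φ y⟫_ℂ).re) volume := j1.add j5
    rw [h1, ← integral_const_mul, ← integral_const_mul, ← integral_add j1 j5,
      ← integral_add j6 (j3.const_mul _)]
    refine integral_congr_ae (Eventually.of_forall fun y => ?_)
    simp only [dn]
    rw [norm_add_sq (𝕜 := ℂ), norm_smul, mul_smul]
    have h2 : ⟪fderiv ℝ φ y (e n), lam n • ⟪e n, y⟫_ℝ • φ y⟫_ℂ =
        (lam n : ℂ) * ⟪fderiv ℝ φ y (e n), ⟪e n, y⟫_ℝ • φ y⟫_ℂ := inner_rs_right _ _ _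
    rw [h2]
    simp only [RCLike.re_to_complex, Complex.re_ofReal_mul, norm_mul, Real.norm_eq_abs]
    rw [mul_pow, mul_pow, sq_abs, sq_abs]
    ring
  have e4 : ∫ y, (lam n ^ 2 * ⟪e n, y⟫_ℝ ^ 2 - lam n) * ‖φ y‖ ^ 2 =
      lam n ^ 2 * (∫ y, ⟪e n, y⟫_ℝ ^ 2 * ‖φ y‖ ^ 2) - lam n * ∫ y, ‖φ y‖ ^ 2 := by
    rw [← integral_const_mul, ← integral_const_mul, ← integral_sub (j3.const_mul _)
      (j4.const_mul _)]
    refine integral_congr_ae (Eventually.of_forall fun y => ?_)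
    simp only
    ring
  have e5 : 0 ≤ ∫ y, ‖fderiv ℝ φ y (e n)‖ ^ 2 := integral_nonneg fun y => sq_nonneg _
  have e6 : 2 * lam n * I.re = -(lam n * ∫ y, ‖φ y‖ ^ 2) := by
    rw [show 2 * lam n * I.re = lam n * (2 * I.re) by ring, e2]
    ring
  rw [e3, e4, e6]
  linarith

/-- the transversal weight -/
def wt (e : OrthonormalBasis ν ℝ (EuclideanSpace ℝ κ)) (lam : ν → ℝ)
    (y : EuclideanSpace ℝ κ) : ℝ :=
  ∑ n, if lam n = 0 then 0 else (lam n ^ 2 * ⟪e n, y⟫_ℝ ^ 2 - lam n)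

theorem continuous_wt : Continuous (wt e lam) := by
  unfold wt
  refine continuous_finset_sum _ fun n _ => ?_
  have hs : Continuous fun y : EuclideanSpace ℝ κ => ⟪e n, y⟫_ℝ :=
    Continuous.inner continuous_const continuous_id
  split_ifs
  · exact continuous_const
  · exact (continuous_const.mul (hs.pow 2)).sub continuous_const

theorem K1 (D : Dat A W Bv e lam C₀ cb L f) {χ : EuclideanSpace ℝ κ → ℝ}
    (hχ : ContDiff ℝ ∞ χ) {R : ℝ} (hχR : ∀ x, R < ‖x‖ → χ x = 0) (hχ1 : ∀ x, |χ x| ≤ 1) :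
    ∫ y, wt e lam y * ‖χ y • f y‖ ^ 2 ≤ EN e lam f χ := by
  obtain ⟨hg, φ, p1, p2, p3, p4, ε, p5, p6⟩ := key_seq D hχ hχR hχ1
  have hφ : ∀ m, ContDiff ℝ 1 (φ m) := fun m => (p1 m).of_le (by simp)
  have hm : ∀ m, MemLp (φ m) 2 volume := fun m =>
    (hφ m).continuous.memLp_of_hasCompactSupport (p3 m)
  have t1 := tendsto_int_weight (w := wt e lam) continuous_wt (R := R + 1) hm hg p2
    (fun y hy => by rw [hχR y (by linarith), zero_smul]) p4
  refine le_of_tendsto_of_tendsto' t1 p5 fun m => ?_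
  have h1 : C₀ * (∑ n, if lam n = 0 then 0 else ∫ y, ‖dn e lam n (φ m) y‖ ^ 2) ≤ C₀ * ε m := by
    refine le_trans ?_ (p6 m)
    have : 0 ≤ cb * (∑ j, ∫ y, ‖Bv j (φ m y)‖ ^ 2) :=
      mul_nonneg D.cb0.le (Finset.sum_nonneg fun j _ => integral_nonneg fun y => sq_nonneg _)
    linarith
  have h2 := le_of_mul_le_mul_left h1 D.c0
  have h3 : ∫ y, wt e lam y * ‖φ m y‖ ^ 2 =
      ∑ n, ∫ y, (if lam n = 0 then 0 else (lam n ^ 2 * ⟪e n, y⟫_ℝ ^ 2 - lam n)) *
      ‖φ m y‖ ^ 2 := by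
    rw [← integral_finset_sum]
    · refine integral_congr_ae (Eventually.of_forall fun y => ?_)
      simp only [wt]
      rw [Finset.sum_mul]
    · intro n _
      have hs : Continuous fun y : EuclideanSpace ℝ κ => ⟪e n, y⟫_ℝ :=
        Continuous.inner continuous_const continuous_id
      refine Continuous.integrable_of_hasCompactSupport ?_ ?_
      · refine Continuous.mul ?_ ((hφ m).continuous.norm.pow 2)
        split_ifs
        · exact continuous_const
        · exact (continuous_const.mul (hs.pow 2)).sub continuous_const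
      · refine HasCompactSupport.mul_left ?_
        refine (p3 m).mono' fun x hx => subset_tsupport _ ?_
        intro h0; apply hx; simp [h0]
  rw [h3]
  refine (Finset.sum_le_sum fun n _ => ?_).trans h2
  split_ifs with hn
  · simp
  · exact conf n (hφ m) (p3 m)

theorem K2 (D : Dat A W Bv e lam C₀ cb L f) {χ : EuclideanSpace ℝ κ → ℝ}
    (hχ : ContDiff ℝ ∞ χ) {R : ℝ} (hχR : ∀ x, R < ‖x‖ → χ x = 0) (hχ1 : ∀ x, |χ x| ≤ 1)
    {n : ν} (hn : lam n ≠ 0) {ψ : EuclideanSpace ℝ κ → F} (hψ : ContDiff ℝ ∞ ψ)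
    (hψc : HasCompactSupport ψ) :
    ‖∫ y, ⟪χ y • f y, -(fderiv ℝ ψ y (e n)) + (lam n * ⟪e n, y⟫_ℝ) • ψ y⟫_ℂ‖ ^ 2 ≤
      EN e lam f χ * ∫ y, ‖ψ y‖ ^ 2 := by
  obtain ⟨hg, φ, p1, p2, p3, p4, ε, p5, p6⟩ := key_seq D hχ hχR hχ1
  have hφ : ∀ m, ContDiff ℝ 1 (φ m) := fun m => (p1 m).of_le (by simp)
  have hψ1 : ContDiff ℝ 1 ψ := hψ.of_le (by simp)
  have hm : ∀ m, MemLp (φ m) 2 volume := fun m =>
    (hφ m).continuous.memLp_of_hasCompactSupport (p3 m)
  have hcont : Continuous fun y : EuclideanSpace ℝ κ => lam n * ⟪e n, y⟫_ℝ :=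
    continuous_const.mul (Continuous.inner continuous_const continuous_id)
  have hu : MemLp (fun y => -(fderiv ℝ ψ y (e n)) + (lam n * ⟪e n, y⟫_ℝ) • ψ y) 2 volume :=
    Continuous.memLp_of_hasCompactSupport
      ((fderiv_apply_continuous hψ1 _).neg.add (hcont.smul hψ.continuous))
      ((hasCompactSupport_fderiv_apply hψc _).neg.add hψc.smul_left)
  have t1 := ((tendsto_integral_inner hm hg (fun _ : ℕ => hu) hu p4 (by simp)).norm.pow 2)
  have t2 := p5.mul_const (∫ y, ‖ψ y‖ ^ 2)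
  refine le_of_tendsto_of_tendsto' t1 t2 fun m => ?_
  rw [dn_weak n (hφ m) hψ1 (p3 m)]
  refine (cs_real (memLp_dn n (hφ m) (p3 m))
    (hψ.continuous.memLp_of_hasCompactSupport hψc)).trans ?_
  refine mul_le_mul_of_nonneg_right ?_ (integral_nonneg fun y => sq_nonneg _)
  have h1 : C₀ * (∑ n, if lam n = 0 then 0 else ∫ y, ‖dn e lam n (φ m) y‖ ^ 2) ≤ C₀ * ε m := by
    refine le_trans ?_ (p6 m)
    have : 0 ≤ cb * (∑ j, ∫ y, ‖Bv j (φ m y)‖ ^ 2) :=
      mul_nonneg D.cb0.le (Finset.sum_nonneg fun j _ => integral_nonneg fun y => sq_nonneg _)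
    linarith
  have h2 := le_of_mul_le_mul_left h1 D.c0
  refine le_trans ?_ h2
  have h3 := Finset.single_le_sum (f := fun n => if lam n = 0 then 0 else
    ∫ y, ‖dn e lam n (φ m) y‖ ^ 2) (fun n _ => by
      split_ifs
      · exact le_rfl
      · exact integral_nonneg fun y => sq_nonneg _) (Finset.mem_univ n)
  simpa [hn] using h3

theorem K3 (D : Dat A W Bv e lam C₀ cb L f) {χ : EuclideanSpace ℝ κ → ℝ}
    (hχ : ContDiff ℝ ∞ χ) {R : ℝ} (hχR : ∀ x, R < ‖x‖ → χ x = 0) (hχ1 : ∀ x, |χ x| ≤ 1)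
    (j : β) : cb * ∫ y, ‖Bv j (χ y • f y)‖ ^ 2 ≤ C₀ * EN e lam f χ := by
  obtain ⟨hg, φ, p1, p2, p3, p4, ε, p5, p6⟩ := key_seq D hχ hχR hχ1
  have hφ : ∀ m, ContDiff ℝ 1 (φ m) := fun m => (p1 m).of_le (by simp)
  have hm : ∀ m, MemLp (φ m) 2 volume := fun m =>
    (hφ m).continuous.memLp_of_hasCompactSupport (p3 m)
  set T : F →L[ℂ] F := LinearMap.toContinuousLinearMap (Bv j) with hT
  have hTm : ∀ {u : EuclideanSpace ℝ κ → F}, MemLp u 2 volume →
      MemLp (fun y => Bv j (u y)) 2 volume := fun hu => T.comp_memLp' hu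
  have hconv : Tendsto (fun m => eLpNorm ((fun y => Bv j (φ m y)) -
      fun y => Bv j (χ y • f y)) 2 volume) atTop (𝓝 0) := by
    have h1 : Tendsto (fun m => ENNReal.ofReal ‖T‖ *
        eLpNorm (φ m - fun x => χ x • f x) 2 volume) atTop (𝓝 0) := by
      have := ENNReal.Tendsto.const_mul (a := ENNReal.ofReal ‖T‖) p4
        (Or.inr ENNReal.ofReal_ne_top)
      simpa using this
    refine tendsto_of_tendsto_of_tendsto_of_le_of_le tendsto_const_nhds h1 (fun _ => zero_le)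
      fun m => ?_
    refine eLpNorm_le_mul_eLpNorm_of_ae_le_mul (Eventually.of_forall fun x => ?_) 2
    simp only [Pi.sub_apply]
    rw [← map_sub]
    exact T.le_opNorm _
  have t1 := (tendsto_int_sq (fun m => hTm (hm m)) (hTm hg) hconv).const_mul cb
  have t2 := p5.const_mul C₀
  refine le_of_tendsto_of_tendsto' t1 t2 fun m => ?_
  refine le_trans ?_ (p6 m)
  have h1 : 0 ≤ C₀ * (∑ n, if lam n = 0 then 0 else ∫ y, ‖dn e lam n (φ m) y‖ ^ 2) := by
    refine mul_nonneg D.c0.le (Finset.sum_nonneg fun n _ => ?_)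
    split_ifs
    · exact le_rfl
    · exact integral_nonneg fun y => sq_nonneg _
  have h3 := Finset.single_le_sum (f := fun j => ∫ y, ‖Bv j (φ m y)‖ ^ 2)
    (fun j _ => integral_nonneg fun y => sq_nonneg _) (Finset.mem_univ j)
  have h4 := mul_le_mul_of_nonneg_left h3 D.cb0.le
  linarith

/-! ### 5. Product cut-offs -/

/-- diagonal operators in the basis -/
def mulP (e : OrthonormalBasis ν ℝ (EuclideanSpace ℝ κ)) (s : ν → ℝ) :
    EuclideanSpace ℝ κ →L[ℝ] EuclideanSpace ℝ κ :=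
  ∑ n, s n • (innerSL ℝ (e n)).smulRight (e n)

theorem mulP_apply (s : ν → ℝ) (y : EuclideanSpace ℝ κ) :
    mulP e s y = ∑ n, (s n * ⟪e n, y⟫_ℝ) • e n := by
  unfold mulP
  simp only [ContinuousLinearMap.sum_apply, ContinuousLinearMap.smul_apply,
    ContinuousLinearMap.smulRight_apply, innerSL_apply_apply, smul_smul]

theorem inner_mulP (s : ν → ℝ) (m : ν) (y : EuclideanSpace ℝ κ) :
    ⟪e m, mulP e s y⟫_ℝ = s m * ⟪e m, y⟫_ℝ := by
  rw [mulP_apply, e.orthonormal.inner_right_fintype]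

theorem norm_mulP (s : ν → ℝ) (y : EuclideanSpace ℝ κ) :
    ‖mulP e s y‖ ^ 2 = ∑ n, s n ^ 2 * ⟪e n, y⟫_ℝ ^ 2 := by
  rw [← e.sum_sq_norm_inner_right]
  refine Finset.sum_congr rfl fun n _ => ?_
  rw [inner_mulP, Real.norm_eq_abs, sq_abs, mul_pow]

theorem mulP_basis (s : ν → ℝ) (n : ν) : mulP e s (e n) = s n • e n := by
  classical
  rw [mulP_apply]
  simp only [e.inner_eq_ite, mul_ite, mul_one, mul_zero, ite_smul, zero_smul]
  rw [Finset.sum_ite_eq' ]
  simp

/-- transversal indicator -/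
def sN (lam : ν → ℝ) (n : ν) : ℝ := if lam n = 0 then 0 else 1

/-- flat indicator -/
def sT (lam : ν → ℝ) (n : ν) : ℝ := if lam n = 0 then 1 else 0

theorem PQ (y : EuclideanSpace ℝ κ) : mulP e (sN lam) y + mulP e (sT lam) y = y := by
  rw [mulP_apply, mulP_apply, ← Finset.sum_add_distrib]
  conv_rhs => rw [← e.sum_repr' y]
  refine Finset.sum_congr rfl fun n _ => ?_
  rw [← add_smul]
  congr 1
  unfold sN sT
  split_ifs <;> simp

theorem norm_mulP_le {s : ν → ℝ} (hs : ∀ n, s n ^ 2 ≤ 1) (y : EuclideanSpace ℝ κ) :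
    ‖mulP e s y‖ ≤ ‖y‖ := by
  have h : ‖mulP e s y‖ ^ 2 ≤ ‖y‖ ^ 2 := by
    rw [norm_mulP, ← e.sum_sq_norm_inner_right y]
    refine Finset.sum_le_sum fun n _ => ?_
    rw [Real.norm_eq_abs, sq_abs]
    nlinarith [hs n, sq_nonneg (⟪e n, y⟫_ℝ)]
  exact le_of_sq_le_sq h (norm_nonneg _)

theorem sN_sq (n : ν) : sN lam n ^ 2 ≤ 1 := by unfold sN; split_ifs <;> norm_num
theorem sT_sq (n : ν) : sT lam n ^ 2 ≤ 1 := by unfold sT; split_ifs <;> norm_num

/-- product cut-off -/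
def cc2 (e : OrthonormalBasis ν ℝ (EuclideanSpace ℝ κ)) (lam : ν → ℝ) (R S : ℕ)
    (y : EuclideanSpace ℝ κ) : ℝ :=
  cut (R : ℝ) (mulP e (sN lam) y) * cut (S : ℝ) (mulP e (sT lam) y)

theorem cc2_contDiff (R S : ℕ) : ContDiff ℝ ∞ (cc2 e lam R S) :=
  ((cut_contDiff _).comp (mulP e (sN lam)).contDiff).mul
    ((cut_contDiff _).comp (mulP e (sT lam)).contDiff)

theorem cc2_zero {R S : ℕ} {y : EuclideanSpace ℝ κ} (hy : (R : ℝ) + S + 2 < ‖y‖) :
    cc2 e lam R S y = 0 := by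
  have h1 : ‖y‖ ≤ ‖mulP e (sN lam) y‖ + ‖mulP e (sT lam) y‖ := by
    conv_lhs => rw [← PQ (e := e) (lam := lam) y]
    exact norm_add_le _ _
  unfold cc2
  by_cases h2 : (R : ℝ) + 1 ≤ ‖mulP e (sN lam) y‖
  · rw [cut_zero (Nat.cast_nonneg R) h2, zero_mul]
  · have h3 : (S : ℝ) + 1 ≤ ‖mulP e (sT lam) y‖ := by
      push Not at h2
      linarith
    rw [cut_zero (Nat.cast_nonneg S) h3, mul_zero]

theorem cc2_nonneg (R S : ℕ) (y : EuclideanSpace ℝ κ) : 0 ≤ cc2 e lam R S y :=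
  mul_nonneg (cut_nonneg _ _) (cut_nonneg _ _)

theorem cc2_abs (R S : ℕ) (y : EuclideanSpace ℝ κ) : |cc2 e lam R S y| ≤ 1 := by
  rw [abs_of_nonneg (cc2_nonneg R S y)]
  exact mul_le_one₀ (cut_le_one _ _) (cut_nonneg _ _) (cut_le_one _ _)

theorem cc2_one {R S : ℕ} {y : EuclideanSpace ℝ κ} (hR : ‖y‖ ≤ R) (hS : ‖y‖ ≤ S) :
    cc2 e lam R S y = 1 := by
  unfold cc2
  rw [cut_one (Nat.cast_nonneg R) ((norm_mulP_le sN_sq y).trans hR),
    cut_one (Nat.cast_nonneg S) ((norm_mulP_le sT_sq y).trans hS), one_mul]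

theorem cc2_fderiv (R S : ℕ) (y : EuclideanSpace ℝ κ) {n : ν} (hn : lam n ≠ 0) :
    fderiv ℝ (cc2 e lam R S) y (e n) =
      fderiv ℝ (cut (R : ℝ)) (mulP e (sN lam) y) (e n) * cut (S : ℝ) (mulP e (sT lam) y) := by
  have d1 : DifferentiableAt ℝ (cut (E := EuclideanSpace ℝ κ) (R : ℝ)) (mulP e (sN lam) y) :=
    ((cut_contDiff (n := 1) _).differentiable (by norm_num)) _
  have d2 : DifferentiableAt ℝ (cut (E := EuclideanSpace ℝ κ) (S : ℝ)) (mulP e (sT lam) y) :=
    ((cut_contDiff (n := 1) _).differentiable (by norm_num)) _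
  have h1 : HasFDerivAt (fun y => cut (R : ℝ) (mulP e (sN lam) y))
      ((fderiv ℝ (cut (R : ℝ)) (mulP e (sN lam) y)).comp (mulP e (sN lam))) y :=
    d1.hasFDerivAt.comp y (mulP e (sN lam)).hasFDerivAt
  have h2 : HasFDerivAt (fun y => cut (S : ℝ) (mulP e (sT lam) y))
      ((fderiv ℝ (cut (S : ℝ)) (mulP e (sT lam) y)).comp (mulP e (sT lam))) y :=
    d2.hasFDerivAt.comp y (mulP e (sT lam)).hasFDerivAt
  have h3 := h1.mul h2
  have h4 : fderiv ℝ (cc2 e lam R S) y = cut (R : ℝ) (mulP e (sN lam) y) •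
      ((fderiv ℝ (cut (S : ℝ)) (mulP e (sT lam) y)).comp (mulP e (sT lam))) +
      cut (S : ℝ) (mulP e (sT lam) y) •
      ((fderiv ℝ (cut (R : ℝ)) (mulP e (sN lam) y)).comp (mulP e (sN lam))) := h3.fderiv
  rw [h4]
  simp only [ContinuousLinearMap.add_apply, ContinuousLinearMap.smul_apply,
    ContinuousLinearMap.comp_apply, mulP_basis, sN, sT, hn, if_false, zero_smul, one_smul,
    map_zero, smul_eq_mul, mul_zero, zero_add]
  ring

/-- the mass density cut off in the flat directions -/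
def hS (e : OrthonormalBasis ν ℝ (EuclideanSpace ℝ κ)) (lam : ν → ℝ)
    (f : EuclideanSpace ℝ κ → F) (S : ℕ) (y : EuclideanSpace ℝ κ) : ℝ :=
  cut (S : ℝ) (mulP e (sT lam) y) ^ 2 * ‖f y‖ ^ 2

theorem hS_nonneg (S : ℕ) (y : EuclideanSpace ℝ κ) : 0 ≤ hS e lam f S y := by
  unfold hS; positivity

theorem continuous_cutT (S : ℕ) :
    Continuous fun y : EuclideanSpace ℝ κ => cut (S : ℝ) (mulP e (sT lam) y) :=
  ((cut_contDiff (n := 0) (S : ℝ)).continuous).comp (mulP e (sT lam)).continuous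

theorem continuous_cutN (R : ℕ) :
    Continuous fun y : EuclideanSpace ℝ κ => cut (R : ℝ) (mulP e (sN lam) y) :=
  ((cut_contDiff (n := 0) (R : ℝ)).continuous).comp (mulP e (sN lam)).continuous

theorem hS_le_ind {S n : ℕ} {y : EuclideanSpace ℝ κ} (hy : ‖mulP e (sN lam) y‖ ≤ n) :
    hS e lam f S y ≤ (Metric.closedBall (0 : EuclideanSpace ℝ κ) ((n : ℝ) + S + 1)).indicator
      (fun y => ‖f y‖ ^ 2) y := by
  by_cases h2 : (S : ℝ) + 1 ≤ ‖mulP e (sT lam) y‖
  · unfold hS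
    rw [cut_zero (Nat.cast_nonneg S) h2]
    simp only [ne_eq, OfNat.ofNat_ne_zero, not_false_eq_true, zero_pow, zero_mul]
    exact Set.indicator_nonneg (fun _ _ => sq_nonneg _) _
  · have h1 : ‖y‖ ≤ ‖mulP e (sN lam) y‖ + ‖mulP e (sT lam) y‖ := by
      conv_lhs => rw [← PQ (e := e) (lam := lam) y]
      exact norm_add_le _ _
    push Not at h2
    rw [Set.indicator_of_mem (by simp only [Metric.mem_closedBall, dist_zero_right]; linarith)]
    unfold hS
    have h3 := cut_nonneg (S : ℝ) (mulP e (sT lam) y)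
    have h4 := cut_le_one (S : ℝ) (mulP e (sT lam) y)
    have h5 : cut (S : ℝ) (mulP e (sT lam) y) ^ 2 ≤ 1 := by nlinarith
    nlinarith [sq_nonneg ‖f y‖]

theorem aesm_hS (hf : L2loc f) (S : ℕ) : AEStronglyMeasurable (hS e lam f S) volume := by
  unfold hS
  exact (((continuous_cutT S).pow 2).aestronglyMeasurable).mul (hf.aesm.norm.pow 2)

theorem hS_integrableOn (hf : L2loc f) (S n : ℕ) :
    IntegrableOn (hS e lam f S) {y | ‖mulP e (sN lam) y‖ ≤ n} volume := by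
  have h1 : Integrable ((Metric.closedBall (0 : EuclideanSpace ℝ κ) ((n : ℝ) + S + 1)).indicator
      (fun y => ‖f y‖ ^ 2)) volume :=
    (integrable_indicator_iff Metric.isClosed_closedBall.measurableSet).mpr (hf.integrableOn _)
  refine h1.integrableOn.mono' (aesm_hS hf S).restrict ?_
  have hms : MeasurableSet {y : EuclideanSpace ℝ κ | ‖mulP e (sN lam) y‖ ≤ n} :=
    (isClosed_le ((mulP e (sN lam)).continuous.norm) continuous_const).measurableSet
  refine (ae_restrict_iff' hms).mpr (Eventually.of_forall fun y hy => ?_)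
  rw [Real.norm_of_nonneg (hS_nonneg S y)]
  exact hS_le_ind hy

/-- the gradient energy of the product cut-off is controlled by a shell mass -/
theorem EN_le (hf : L2loc f) {Kc : ℝ} (hKc : ∀ R : ℝ, 0 ≤ R → ∀ x : EuclideanSpace ℝ κ,
      ‖fderiv ℝ (cut R) x‖ ≤ Kc) (R S : ℕ) :
    EN e lam f (cc2 e lam R S) ≤
      Kc ^ 2 * ∫ y in sh (fun y => ‖mulP e (sN lam) y‖) R, hS e lam f S y := by
  have hKc0 : 0 ≤ Kc := (norm_nonneg _).trans (hKc 0 le_rfl 0)
  have hrm : Measurable fun y : EuclideanSpace ℝ κ => ‖mulP e (sN lam) y‖ :=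
    (mulP e (sN lam)).continuous.norm.measurable
  unfold EN
  rw [← integral_const_mul, ← integral_indicator (measurableSet_sh hrm R)]
  refine integral_mono_of_nonneg (Eventually.of_forall fun y => ?_) ?_
    (Eventually.of_forall fun y => ?_)
  · refine mul_nonneg (Finset.sum_nonneg fun n _ => ?_) (sq_nonneg _)
    split_ifs
    · exact le_rfl
    · exact sq_nonneg _
  · rw [integrable_indicator_iff (measurableSet_sh hrm R)]
    refine Integrable.const_mul ?_ _
    refine (hS_integrableOn hf S (R + 1)).mono_set fun y hy => ?_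
    have := hy.2
    simpa using this
  · simp only
    have h1 : (∑ n, if lam n = 0 then 0 else (fderiv ℝ (cc2 e lam R S) y (e n)) ^ 2) ≤
        ‖fderiv ℝ (cut (R : ℝ)) (mulP e (sN lam) y)‖ ^ 2 *
          cut (S : ℝ) (mulP e (sT lam) y) ^ 2 := by
      rw [← sum_sq_onb e, Finset.sum_mul]
      refine Finset.sum_le_sum fun n _ => ?_
      split_ifs with hn
      · positivity
      · rw [cc2_fderiv R S y hn, mul_pow]
    have h2 : (∑ n, if lam n = 0 then 0 else (fderiv ℝ (cc2 e lam R S) y (e n)) ^ 2) *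
        ‖f y‖ ^ 2 ≤ ‖fderiv ℝ (cut (R : ℝ)) (mulP e (sN lam) y)‖ ^ 2 * hS e lam f S y := by
      unfold hS
      rw [← mul_assoc]
      exact mul_le_mul_of_nonneg_right h1 (sq_nonneg _)
    refine h2.trans ?_
    by_cases hx : y ∈ sh (fun y => ‖mulP e (sN lam) y‖) R
    · rw [Set.indicator_of_mem hx]
      have := hS_nonneg (e := e) (lam := lam) (f := f) S y
      gcongr
      exact hKc R (Nat.cast_nonneg R) _
    · rw [Set.indicator_of_notMem hx]
      have : fderiv ℝ (cut (R : ℝ)) (mulP e (sN lam) y) = 0 := by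
        by_cases h1 : ‖mulP e (sN lam) y‖ < R
        · exact cut_fderiv_inner (Nat.cast_nonneg R) h1
        · refine cut_fderiv_outer (Nat.cast_nonneg R) ?_
          by_contra h2
          exact hx ⟨not_lt.mp h1, not_lt.mp h2⟩
      rw [this]; simp

theorem EN_nonneg (χ : EuclideanSpace ℝ κ → ℝ) : 0 ≤ EN e lam f χ := by
  unfold EN
  refine integral_nonneg fun y => mul_nonneg (Finset.sum_nonneg fun n _ => ?_) (sq_nonneg _)
  split_ifs
  · exact le_rfl
  · exact sq_nonneg _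

theorem integrable_weight {w : EuclideanSpace ℝ κ → ℝ} (hw : Continuous w) {R : ℝ}
    {u : EuclideanSpace ℝ κ → F} (hu : MemLp u 2 volume) (h0 : ∀ y, R < ‖y‖ → u y = 0) :
    Integrable (fun y => w y * ‖u y‖ ^ 2) volume := by
  obtain ⟨M, hM⟩ := (isCompact_closedBall (0 : EuclideanSpace ℝ κ) R).exists_bound_of_continuousOn
    hw.continuousOn
  have h1 : Integrable (fun y => ‖u y‖ ^ 2) volume := (memLp_two_iff_integrable_sq_norm hu.1).mp hu
  refine (h1.const_mul (max M 0)).mono' (hw.aestronglyMeasurable.mul h1.1)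
    (Eventually.of_forall fun y => ?_)
  rw [norm_mul, Real.norm_of_nonneg (sq_nonneg _)]
  by_cases hy : R < ‖y‖
  · rw [h0 y hy]; simp
  · refine mul_le_mul_of_nonneg_right ?_ (sq_nonneg _)
    exact (hM y (by simpa using hy)).trans (le_max_left _ _)

/-- the transversal cut-off energies tend to zero -/
theorem EN_tendsto (D : Dat A W Bv e lam C₀ cb L f) {K : ℝ} (hK : 0 ≤ K)
    (hg : Integrable fun x => Real.exp (-(K * ‖x‖)) * ‖f x‖ ^ 2) (S : ℕ) :
    Tendsto (fun R : ℕ => EN e lam f (cc2 e lam R S)) atTop (𝓝 0) := by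
  obtain ⟨Kc, hKc, hKb⟩ := cut_fderiv_bound (E := EuclideanSpace ℝ κ)
  have hf := D.f2
  set r : EuclideanSpace ℝ κ → ℝ := fun y => ‖mulP e (sN lam) y‖ with hr
  have hrc : Continuous r := (mulP e (sN lam)).continuous.norm
  -- the lower bound of the weight
  obtain ⟨c, hc, hcl⟩ : ∃ c : ℝ, 0 < c ∧ ∀ n, lam n ≠ 0 → c ≤ lam n ^ 2 := by
    by_cases hne : (Finset.univ.filter fun n => lam n ≠ 0).Nonempty
    · obtain ⟨n, hn, hmin⟩ := Finset.exists_min_image _ (fun n => lam n ^ 2) hne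
      refine ⟨lam n ^ 2, ?_, fun m hm => hmin m (by simp [hm])⟩
      have : lam n ≠ 0 := (Finset.mem_filter.mp hn).2
      positivity
    · refine ⟨1, one_pos, fun n hn => ?_⟩
      exact absurd ⟨n, by simp [hn]⟩ hne
  set C : ℝ := ∑ n, if lam n = 0 then 0 else lam n with hCd
  have hwt : ∀ y, c * r y ^ 2 - C ≤ wt e lam y := by
    intro y
    rw [hr]
    simp only
    rw [norm_mulP, Finset.mul_sum, hCd, ← Finset.sum_sub_distrib]
    unfold wt
    refine Finset.sum_le_sum fun n _ => ?_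
    unfold sN
    split_ifs with hn
    · simp
    · have := hcl n hn
      nlinarith [sq_nonneg (⟪e n, y⟫_ℝ)]
  have key := mass_finite (μ := (volume : Measure (EuclideanSpace ℝ κ))) (r := r)
    (h := hS e lam f S) (χ := fun n y => cut (n : ℝ) (mulP e (sN lam) y)) (c := c) (C := C)
    (B := Kc ^ 2) (G := (∫ x, Real.exp (-(K * ‖x‖)) * ‖f x‖ ^ 2) * Real.exp (K * (S + 1)))
    (K := K) hc (sq_nonneg _) hK hrc.measurable (fun y => norm_nonneg _) (fun y => hS_nonneg S y)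
    (fun n => hS_integrableOn hf S n) (fun n => (continuous_cutN n).measurable)
    (fun n y => cut_nonneg _ _) (fun n y => cut_le_one _ _)
    (fun n y hy => cut_one (Nat.cast_nonneg n) hy) (fun n y hy => cut_zero (Nat.cast_nonneg n) hy)
    ?_ ?_
  · -- conclusion
    have h1 := key.2.const_mul (Kc ^ 2)
    rw [mul_zero] at h1
    exact tendsto_of_tendsto_of_tendsto_of_le_of_le tendsto_const_nhds h1
      (fun R => EN_nonneg _) fun R => EN_le hf hKb R S
  · intro n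
    have hz : ∀ y, (n : ℝ) + S + 2 < ‖y‖ → cc2 e lam n S y = 0 := fun y hy => cc2_zero hy
    have h1 := K1 D (cc2_contDiff n S) hz (cc2_abs n S)
    obtain ⟨hgm, -⟩ := key_seq D (cc2_contDiff n S) hz (cc2_abs n S)
    refine le_trans ?_ (h1.trans (EN_le hf hKb n S))
    have e1 : ∀ y, cut (n : ℝ) (mulP e (sN lam) y) ^ 2 * hS e lam f S y =
        ‖cc2 e lam n S y • f y‖ ^ 2 := by
      intro y
      unfold hS cc2
      rw [norm_smul, mul_pow, Real.norm_eq_abs, sq_abs, mul_pow]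
      ring
    simp only [e1]
    refine integral_mono (integrable_weight (by fun_prop) (R := (n : ℝ) + S + 2) hgm fun y hy => ?_)
      (integrable_weight continuous_wt (R := (n : ℝ) + S + 2) hgm fun y hy => ?_) fun y => ?_
    · rw [hz y hy, zero_smul]
    · rw [hz y hy, zero_smul]
    · exact mul_le_mul_of_nonneg_right (hwt y) (sq_nonneg _)
  · intro m
    have hms : MeasurableSet (sh r m) := measurableSet_sh hrc.measurable m
    have hsub : sh r m ⊆ {y | r y ≤ ((m + 1 : ℕ) : ℝ)} := by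
      intro y hy
      have := hy.2
      simpa using this
    have h1 : ∫ y in sh r m, hS e lam f S y ≤
        ∫ y in sh r m, Real.exp (K * (S + 1)) * Real.exp (K * (m + 1)) *
          (Real.exp (-(K * ‖y‖)) * ‖f y‖ ^ 2) := by
      refine setIntegral_mono_on ((hS_integrableOn hf S (m + 1)).mono_set hsub)
        (hg.const_mul _).integrableOn hms fun y hy => ?_
      refine (hS_le_ind (n := m + 1) (hsub hy)).trans ?_
      by_cases hy3 : y ∈ Metric.closedBall (0 : EuclideanSpace ℝ κ) (((m + 1 : ℕ) : ℝ) + S + 1)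
      swap
      · rw [Set.indicator_of_notMem hy3]
        positivity
      rw [Set.indicator_of_mem hy3]
      have hy2 : ‖y‖ ≤ ((m + 1 : ℕ) : ℝ) + S + 1 := by simpa using hy3
      rw [← mul_assoc, ← Real.exp_add, ← Real.exp_add]
      have : (1 : ℝ) ≤ Real.exp (K * (S + 1) + K * (m + 1) + -(K * ‖y‖)) := by
        refine Real.one_le_exp ?_
        push_cast at hy2
        nlinarith
      nlinarith [sq_nonneg ‖f y‖]
    refine h1.trans ?_
    rw [integral_const_mul]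
    have h2 : ∫ y in sh r m, Real.exp (-(K * ‖y‖)) * ‖f y‖ ^ 2 ≤
        ∫ y, Real.exp (-(K * ‖y‖)) * ‖f y‖ ^ 2 :=
      setIntegral_le_integral hg (Eventually.of_forall fun x => by positivity)
    calc _ ≤ Real.exp (K * (S + 1)) * Real.exp (K * (m + 1)) *
          ∫ y, Real.exp (-(K * ‖y‖)) * ‖f y‖ ^ 2 :=
          mul_le_mul_of_nonneg_left h2 (by positivity)
      _ = _ := by ring

/-! ### 6. The weak equations of the limit -/

theorem weak_n (D : Dat A W Bv e lam C₀ cb L f) {K : ℝ} (hK : 0 ≤ K)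
    (hg : Integrable fun x => Real.exp (-(K * ‖x‖)) * ‖f x‖ ^ 2) (n : ν)
    {ψ : EuclideanSpace ℝ κ → F} (hψ : ContDiff ℝ ∞ ψ) (hψc : HasCompactSupport ψ) :
    ∫ y, ⟪f y, -(fderiv ℝ ψ y (e n)) + (lam n * ⟪e n, y⟫_ℝ) • ψ y⟫_ℂ = 0 := by
  by_cases hn : lam n = 0
  · simp only [hn, zero_mul, zero_smul, add_zero, inner_neg_right]
    rw [integral_neg, D.flat n hn ψ hψ hψc, neg_zero]
  obtain ⟨ρ, hρ⟩ := hψc.isCompact.isBounded.subset_closedBall 0
  obtain ⟨S, hS⟩ := exists_nat_ge ρ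
  have hu0 : ∀ y, ρ < ‖y‖ → -(fderiv ℝ ψ y (e n)) + (lam n * ⟪e n, y⟫_ℝ) • ψ y = 0 := by
    intro y hy
    have hy2 : y ∉ tsupport ψ := fun h => by
      have := hρ h
      simp only [Metric.mem_closedBall, dist_zero_right] at this
      linarith
    have h1 : ψ =ᶠ[𝓝 y] (0 : EuclideanSpace ℝ κ → F) := notMem_tsupport_iff_eventuallyEq.mp hy2
    rw [h1.fderiv_eq, h1.eq_of_nhds]
    simp
  have hev : ∀ᶠ R : ℕ in atTop,
      ‖∫ y, ⟪f y, -(fderiv ℝ ψ y (e n)) + (lam n * ⟪e n, y⟫_ℝ) • ψ y⟫_ℂ‖ ^ 2 ≤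
        EN e lam f (cc2 e lam R S) * ∫ y, ‖ψ y‖ ^ 2 := by
    filter_upwards [eventually_ge_atTop S] with R hR
    have hR' : (S : ℝ) ≤ R := by exact_mod_cast hR
    have hz : ∀ y, (R : ℝ) + S + 2 < ‖y‖ → cc2 e lam R S y = 0 := fun y hy => cc2_zero hy
    have h1 := K2 D (cc2_contDiff R S) (R := (R : ℝ) + S + 2) hz
      (cc2_abs R S) hn hψ hψc
    refine le_trans (le_of_eq ?_) h1
    congr 2
    refine integral_congr_ae (Eventually.of_forall fun y => ?_)
    simp only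
    by_cases hy : ρ < ‖y‖
    · rw [hu0 y hy]; simp
    · push Not at hy
      rw [cc2_one (by linarith) (by linarith), one_smul]
  have hlim : Tendsto (fun R : ℕ => EN e lam f (cc2 e lam R S) * ∫ y, ‖ψ y‖ ^ 2) atTop (𝓝 0) := by
    have := (EN_tendsto D hK hg S).mul_const (∫ y, ‖ψ y‖ ^ 2)
    rwa [zero_mul] at this
  have h0 : ‖∫ y, ⟪f y, -(fderiv ℝ ψ y (e n)) + (lam n * ⟪e n, y⟫_ℝ) • ψ y⟫_ℂ‖ ^ 2 ≤ 0 :=
    ge_of_tendsto hlim hev
  have h2 : ‖∫ y, ⟪f y, -(fderiv ℝ ψ y (e n)) + (lam n * ⟪e n, y⟫_ℝ) • ψ y⟫_ℂ‖ = 0 := by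
    nlinarith [norm_nonneg (∫ y, ⟪f y, -(fderiv ℝ ψ y (e n)) + (lam n * ⟪e n, y⟫_ℝ) • ψ y⟫_ℂ)]
  exact norm_eq_zero.mp h2

theorem bv_zero (D : Dat A W Bv e lam C₀ cb L f) {K : ℝ} (hK : 0 ≤ K)
    (hg : Integrable fun x => Real.exp (-(K * ‖x‖)) * ‖f x‖ ^ 2) (j : β) :
    ∀ᵐ y, Bv j (f y) = 0 := by
  have hball : ∀ S : ℕ, ∀ᵐ y ∂(volume.restrict (Metric.closedBall (0 : EuclideanSpace ℝ κ) S)),
      Bv j (f y) = 0 := by
    intro S
    set T : F →L[ℂ] F := LinearMap.toContinuousLinearMap (Bv j) with hT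
    have hmem : MemLp (fun y => Bv j (f y)) 2
        (volume.restrict (Metric.closedBall (0 : EuclideanSpace ℝ κ) S)) :=
      T.comp_memLp' (D.f2 S)
    have hint : Integrable (fun y => ‖Bv j (f y)‖ ^ 2)
        (volume.restrict (Metric.closedBall (0 : EuclideanSpace ℝ κ) S)) :=
      (memLp_two_iff_integrable_sq_norm hmem.1).mp hmem
    have hev : ∀ᶠ R : ℕ in atTop, cb * ∫ y in Metric.closedBall (0 : EuclideanSpace ℝ κ) S,
        ‖Bv j (f y)‖ ^ 2 ≤ C₀ * EN e lam f (cc2 e lam R S) := by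
      filter_upwards [eventually_ge_atTop S] with R hR
      have hR' : (S : ℝ) ≤ R := by exact_mod_cast hR
      have hz : ∀ y, (R : ℝ) + S + 2 < ‖y‖ → cc2 e lam R S y = 0 := fun y hy => cc2_zero hy
      refine le_trans ?_ (K3 D (cc2_contDiff R S) (R := (R : ℝ) + S + 2) hz (cc2_abs R S) j)
      refine mul_le_mul_of_nonneg_left ?_ D.cb0.le
      obtain ⟨hgm, -⟩ := key_seq D (cc2_contDiff R S) hz (cc2_abs R S)
      have hm2 : MemLp (fun y => Bv j (cc2 e lam R S y • f y)) 2 volume := T.comp_memLp' hgm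
      have hi2 : Integrable (fun y => ‖Bv j (cc2 e lam R S y • f y)‖ ^ 2) volume :=
        (memLp_two_iff_integrable_sq_norm hm2.1).mp hm2
      calc ∫ y in Metric.closedBall (0 : EuclideanSpace ℝ κ) S, ‖Bv j (f y)‖ ^ 2
          = ∫ y in Metric.closedBall (0 : EuclideanSpace ℝ κ) S,
            ‖Bv j (cc2 e lam R S y • f y)‖ ^ 2 := by
            refine setIntegral_congr_fun Metric.isClosed_closedBall.measurableSet fun y hy => ?_
            have hy' : ‖y‖ ≤ S := by simpa using hy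
            rw [cc2_one (hy'.trans hR') hy', one_smul]
        _ ≤ _ := setIntegral_le_integral hi2 (Eventually.of_forall fun y => sq_nonneg _)
    have hlim : Tendsto (fun R : ℕ => C₀ * EN e lam f (cc2 e lam R S)) atTop (𝓝 0) := by
      have := (EN_tendsto D hK hg S).const_mul C₀
      rwa [mul_zero] at this
    have h0 : cb * ∫ y in Metric.closedBall (0 : EuclideanSpace ℝ κ) S, ‖Bv j (f y)‖ ^ 2 ≤ 0 :=
      ge_of_tendsto hlim hev
    have h1 : 0 ≤ ∫ y in Metric.closedBall (0 : EuclideanSpace ℝ κ) S, ‖Bv j (f y)‖ ^ 2 :=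
      integral_nonneg fun y => sq_nonneg _
    have h2 : ∫ y in Metric.closedBall (0 : EuclideanSpace ℝ κ) S, ‖Bv j (f y)‖ ^ 2 = 0 := by
      refine le_antisymm ?_ h1
      by_contra hne
      push Not at hne
      have := mul_pos D.cb0 hne
      linarith
    rw [integral_eq_zero_iff_of_nonneg (fun y => sq_nonneg _) hint] at h2
    filter_upwards [h2] with y hy
    simpa using hy
  have hall : ∀ᵐ y : EuclideanSpace ℝ κ, ∀ S : ℕ,
      y ∈ Metric.closedBall (0 : EuclideanSpace ℝ κ) S → Bv j (f y) = 0 := by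
    rw [ae_all_iff]
    intro S
    exact (ae_restrict_iff' Metric.isClosed_closedBall.measurableSet).mp (hball S)
  filter_upwards [hall] with y hy
  obtain ⟨S, hS⟩ := exists_nat_ge ‖y‖
  exact hy S (by simpa using hS)

/-- A locally integrable function with zero weak gradient is constant. -/
theorem ae_const_of_weak {h : EuclideanSpace ℝ κ → F} (hloc : LocallyIntegrable h volume)
    (hw : ∀ v : EuclideanSpace ℝ κ, ∀ ψ : EuclideanSpace ℝ κ → F, ContDiff ℝ ∞ ψ →
      HasCompactSupport ψ → ∫ y, ⟪h y, fderiv ℝ ψ y v⟫_ℂ = 0) :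
    ∃ c : F, h =ᵐ[volume] fun _ => c := by
  have : CompleteSpace F := FiniteDimensional.complete ℂ F
  -- mollifications are constant
  have hconst : ∀ φ : ContDiffBump (0 : EuclideanSpace ℝ κ), ∀ x y, moll φ h x = moll φ h y := by
    intro φ
    refine is_const_of_fderiv_eq_zero (𝕜 := ℝ)
      ((contDiff_moll hloc).differentiable (by simp)) fun x => ?_
    ext v
    rw [fderiv_moll hloc]
    simp only [ContinuousLinearMap.zero_apply]
    refine ext_inner_right ℂ fun w => ?_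
    rw [inner_int_left (integrable_fderiv_bump_smul hloc x v), inner_zero_left]
    have hρs : ContDiff ℝ ∞ (φ.normed (volume : Measure (EuclideanSpace ℝ κ))) :=
      φ.contDiff_normed
    set ρ : EuclideanSpace ℝ κ → ℝ := φ.normed volume with hρ
    set ψ : EuclideanSpace ℝ κ → F := fun y => ρ (x - y) • w with hψ
    have hψs : ContDiff ℝ ∞ ψ := (hρs.comp (contDiff_const.sub contDiff_id)).smul contDiff_const
    have hψc : HasCompactSupport ψ := by
      refine HasCompactSupport.intro (isCompact_closedBall x φ.rOut) fun y hy => ?_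
      have : ρ (x - y) = 0 := by
        refine bump_eq_zero fun h => hy ?_
        rw [Metric.mem_closedBall, dist_comm, dist_eq_norm]
        exact h.le
      rw [hψ]
      simp only
      rw [this, zero_smul]
    have hψd : ∀ y, fderiv ℝ ψ y v = -(fderiv ℝ ρ (x - y) v) • w := by
      intro y
      have h1 : HasFDerivAt (fun y => ρ (x - y)) (-(fderiv ℝ ρ (x - y))) y := by
        have h2 : HasFDerivAt ρ (fderiv ℝ ρ (x - y)) (x - y) :=
          (hρs.differentiable (by simp) (x - y)).hasFDerivAt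
        exact (h2.comp y ((hasFDerivAt_const x y).sub (hasFDerivAt_id y))).congr_fderiv
          (by ext e; simp)
      have h4 := h1.smul_const w
      rw [hψ, h4.fderiv]
      simp
    have h0 := hw v ψ hψs hψc
    rw [← neg_eq_zero, ← integral_neg, ← h0]
    refine integral_congr_ae (Eventually.of_forall fun y => ?_)
    simp only
    rw [hψd, inner_rs_left, inner_rs_right]
    push_cast
    ring
  let φs : ℕ → ContDiffBump (0 : EuclideanSpace ℝ κ) := fun n =>
    ⟨1 / (2 * ((n : ℝ) + 1)), 1 / ((n : ℝ) + 1), by positivity, by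
      apply one_div_lt_one_div_of_lt
      · positivity
      · have : (0 : ℝ) < (n : ℝ) + 1 := by positivity
        linarith⟩
  have hrt : Tendsto (fun n => (φs n).rOut) atTop (𝓝 0) := tendsto_one_div_add_atTop_nhds_zero_nat
  have hae := ContDiffBump.ae_convolution_tendsto_right_of_locallyIntegrable (φ := φs) (K := 2)
    (μ := (volume : Measure (EuclideanSpace ℝ κ))) hrt (Eventually.of_forall fun n => by
      show 1 / ((n : ℝ) + 1) ≤ 2 * (1 / (2 * ((n : ℝ) + 1)))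
      apply le_of_eq
      field_simp) hloc
  have hae' : ∀ᵐ x, Tendsto (fun n => moll (φs n) h x) atTop (𝓝 (h x)) := by
    filter_upwards [hae] with x hx
    refine hx.congr fun n => ?_
    rw [moll_eq_conv]
  obtain ⟨x₀, hx₀⟩ := hae'.exists
  refine ⟨h x₀, ?_⟩
  filter_upwards [hae'] with x hx
  exact tendsto_nhds_unique hx (hx₀.congr fun n => hconst (φs n) x₀ x)

/-- half of the quadratic form -/
def qq (e : OrthonormalBasis ν ℝ (EuclideanSpace ℝ κ)) (lam : ν → ℝ)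
    (y : EuclideanSpace ℝ κ) : ℝ := (1 / 2) * ∑ n, lam n * ⟪e n, y⟫_ℝ ^ 2

theorem qq_contDiff : ContDiff ℝ ∞ (qq e lam) := by
  unfold qq
  refine contDiff_const.mul (ContDiff.sum fun n _ => contDiff_const.mul ?_)
  exact (contDiff_const.inner ℝ contDiff_id).pow 2

theorem qq_fderiv (n : ν) (y : EuclideanSpace ℝ κ) :
    fderiv ℝ (qq e lam) y (e n) = lam n * ⟪e n, y⟫_ℝ := by
  classical
  have h1 : ∀ m, HasFDerivAt (fun y : EuclideanSpace ℝ κ => lam m * ⟪e m, y⟫_ℝ ^ 2)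
      (lam m • ((2 * ⟪e m, y⟫_ℝ) • innerSL ℝ (e m))) y := by
    intro m
    have h2 : HasFDerivAt (fun z : EuclideanSpace ℝ κ => ⟪e m, z⟫_ℝ) (innerSL ℝ (e m)) y :=
      (innerSL ℝ (e m)).hasFDerivAt
    have h3 := (h2.pow 2).const_mul (lam m)
    simpa using h3
  have h2 : HasFDerivAt (qq e lam) ((1 / 2 : ℝ) • ∑ m, lam m • ((2 * ⟪e m, y⟫_ℝ) •
      innerSL ℝ (e m))) y := by
    unfold qq
    exact (HasFDerivAt.fun_sum fun m _ => h1 m).const_mul (1 / 2)
  rw [h2.fderiv]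
  simp only [ContinuousLinearMap.smul_apply, ContinuousLinearMap.sum_apply, innerSL_apply_apply,
    smul_eq_mul, e.inner_eq_ite, mul_ite, mul_one, mul_zero]
  rw [Finset.sum_ite_eq']
  simp
  ring

theorem conclusion (D : Dat A W Bv e lam C₀ cb L f) {K : ℝ} (hK : 0 ≤ K)
    (hg : Integrable fun x => Real.exp (-(K * ‖x‖)) * ‖f x‖ ^ 2) {Ω : F}
    (hB : ∀ v : F, (∀ j, Bv j v = 0) → ∃ c : ℂ, v = c • Ω) :
    ∃ c : ℂ, f =ᵐ[volume] fun y => c • (Real.exp (-(qq e lam y)) • Ω) := by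
  have hq : ContDiff ℝ ∞ (qq e lam) := qq_contDiff
  have hexp : ContDiff ℝ ∞ fun y => Real.exp (qq e lam y) := Real.contDiff_exp.comp hq
  have hloc : LocallyIntegrable (fun y => Real.exp (qq e lam y) • f y) volume := by
    rw [locallyIntegrable_iff]
    intro k hk
    exact (D.f2.locallyIntegrable.integrableOn_isCompact hk).continuousOn_smul
      hexp.continuous.continuousOn hk
  have hweak : ∀ v : EuclideanSpace ℝ κ, ∀ ψ : EuclideanSpace ℝ κ → F, ContDiff ℝ ∞ ψ →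
      HasCompactSupport ψ → ∫ y, ⟪Real.exp (qq e lam y) • f y, fderiv ℝ ψ y v⟫_ℂ = 0 := by
    intro v ψ hψ hψc
    have hbasis : ∀ n, ∫ y, ⟪Real.exp (qq e lam y) • f y, fderiv ℝ ψ y (e n)⟫_ℂ = 0 := by
      intro n
      have h1 := weak_n D hK hg n (ψ := fun y => Real.exp (qq e lam y) • ψ y)
        (hexp.smul hψ) hψc.smul_left
      rw [← neg_eq_zero, ← integral_neg, ← h1]
      refine integral_congr_ae (Eventually.of_forall fun y => ?_)
      simp only
      have h2 : fderiv ℝ (fun y => Real.exp (qq e lam y) • ψ y) y (e n) =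
          Real.exp (qq e lam y) • (fderiv ℝ ψ y (e n) + (lam n * ⟪e n, y⟫_ℝ) • ψ y) := by
        rw [fderiv_fun_smul (hexp.differentiable (by simp) y) (hψ.differentiable (by simp) y)]
        simp only [ContinuousLinearMap.add_apply, ContinuousLinearMap.smul_apply,
          ContinuousLinearMap.smulRight_apply]
        have h3 : fderiv ℝ (fun y => Real.exp (qq e lam y)) y (e n) =
            Real.exp (qq e lam y) * (lam n * ⟪e n, y⟫_ℝ) := by
          have h4 : HasFDerivAt (fun y => Real.exp (qq e lam y))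
              (Real.exp (qq e lam y) • fderiv ℝ (qq e lam) y) y :=
            (hq.differentiable (by simp) y).hasFDerivAt.exp
          rw [h4.fderiv]
          simp [qq_fderiv]
        rw [h3, smul_add, smul_smul]
      rw [h2, inner_rs_left, ← mul_neg, ← inner_neg_right, ← inner_rs_right]
      congr 1
      simp only [smul_neg, smul_add, smul_smul]
      have : (lam n * ⟪e n, y⟫_ℝ * Real.exp (qq e lam y)) • ψ y =
        (Real.exp (qq e lam y) * (lam n * ⟪e n, y⟫_ℝ)) • ψ y := by ring_nf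
      rw [this]
      abel
    have hexpand : ∀ y, fderiv ℝ ψ y v = ∑ n, ⟪e n, v⟫_ℝ • fderiv ℝ ψ y (e n) := by
      intro y
      conv_lhs => rw [← e.sum_repr' v, map_sum]
      simp only [map_smul]
    have hint : ∀ n, Integrable (fun y => ⟪Real.exp (qq e lam y) • f y,
        ⟪e n, v⟫_ℝ • fderiv ℝ ψ y (e n)⟫_ℂ) volume := by
      intro n
      exact integrable_inner_loc hloc
        ((fderiv_apply_continuous (hψ.of_le (by simp)) _).const_smul _)
        ((hasCompactSupport_fderiv_apply hψc _).smul_left (f := fun _ => ⟪e n, v⟫_ℝ))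
    simp only [hexpand, inner_sum]
    rw [integral_finset_sum _ fun n _ => hint n]
    refine Finset.sum_eq_zero fun n _ => ?_
    simp only [inner_rs_right]
    rw [integral_const_mul, hbasis n, mul_zero]
  obtain ⟨c, hc⟩ := ae_const_of_weak hloc hweak
  have hBc : ∀ j, Bv j c = 0 := by
    intro j
    obtain ⟨y, hy1, hy2⟩ := (hc.and (bv_zero D hK hg j)).exists
    have hy1' : Real.exp (qq e lam y) • f y = c := hy1
    rw [← hy1', map_rsmul, hy2, smul_zero]
  obtain ⟨z, hz⟩ := hB c hBc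
  refine ⟨z, ?_⟩
  filter_upwards [hc] with y hy
  have h1 : f y = Real.exp (-(qq e lam y)) • c := by
    have hy' : Real.exp (qq e lam y) • f y = c := hy
    rw [← hy', smul_smul, ← Real.exp_add]
    simp
  rw [h1, hz, smul_comm]

/-! ### 7. The theorem -/

/-- **LIOUVILLE THEOREM from (EX)** (flat directions allowed). -/
theorem liouville_EX {T : EuclideanSpace ℝ κ →ₗ[ℝ] EuclideanSpace ℝ κ} (hT : T.IsSymmetric)
    (hTp : ∀ u, 0 ≤ ⟪u, T u⟫_ℝ) (hC : 0 < C₀) (hcb : 0 < cb)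
    (CL : ∀ (η : κ → ℝ) (v : F), ∑ α, ‖∑ k, η k • A α k v‖ ^ 2 = C₀ * (∑ k, η k ^ 2) * ‖v‖ ^ 2)
    (hA : ∀ α k, (A α k).IsSymmetric) (hW : ∀ α x, (W α x).IsSymmetric)
    (hL : ∀ α, LipPot (W α) L)
    (EX : ∀ φ : EuclideanSpace ℝ κ → F, ContDiff ℝ ∞ φ → HasCompactSupport φ →
      C₀ * (∑ k, ∫ y, ‖fderiv ℝ φ y (EuclideanSpace.single k 1) + (T y) k • φ y‖ ^ 2) +
        cb * (∑ j, ∫ y, ‖Bv j (φ y)‖ ^ 2) ≤ ∑ α, ∫ y, ‖dirac (A α) (W α) φ y‖ ^ 2)
    {Ω : F} (hB : ∀ v : F, (∀ j, Bv j v = 0) → ∃ c : ℂ, v = c • Ω)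
    {K : ℝ} (hK : 0 ≤ K) (hfm : AEStronglyMeasurable f volume)
    (hg : Integrable fun x => Real.exp (-(K * ‖x‖)) * ‖f x‖ ^ 2)
    (hw : ∀ α, ∀ ψ : EuclideanSpace ℝ κ → F, ContDiff ℝ ∞ ψ → HasCompactSupport ψ →
      ∫ y, ⟪f y, dirac (A α) (W α) ψ y⟫_ℂ = 0)
    (hflat : ∀ v, T v = 0 → ∀ ψ : EuclideanSpace ℝ κ → F, ContDiff ℝ ∞ ψ → HasCompactSupport ψ →
      ∫ y, ⟪f y, fderiv ℝ ψ y v⟫_ℂ = 0) :
    ∃ c : ℂ, f =ᵐ[volume] fun y => c • (Real.exp (-(1 / 2) * ⟪y, T y⟫_ℝ) • Ω) := by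
  let e := hT.eigenvectorBasis (n := Module.finrank ℝ (EuclideanSpace ℝ κ)) rfl
  let lam := hT.eigenvalues (n := Module.finrank ℝ (EuclideanSpace ℝ κ)) rfl
  have he : ∀ n, T (e n) = lam n • e n := fun n => hT.apply_eigenvectorBasis rfl n
  have hlam : ∀ n, 0 ≤ lam n := by
    intro n
    have h1 := hTp (e n)
    rw [he, inner_smul_right, real_inner_self_eq_norm_sq, e.norm_eq_one] at h1
    simpa using h1
  have D : Dat A W Bv e lam C₀ cb L f :=
    { c0 := hC
      cb0 := hcb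
      lam0 := hlam
      cl := CL
      symA := hA
      symW := hW
      lip := hL
      ex := fun φ hφ hc => by
        rw [← sum_dn T hT he (hφ.of_le (by simp)) hc]
        exact EX φ hφ hc
      f2 := L2loc_of_growth hfm hg hK
      weak := hw
      flat := fun n hn ψ hψ hψc => hflat (e n) (by rw [he, hn, zero_smul]) ψ hψ hψc }
  obtain ⟨c, hc⟩ := conclusion D hK hg hB
  refine ⟨c, ?_⟩
  filter_upwards [hc] with y hy
  rw [hy]
  have h1 : ⟪y, T y⟫_ℝ = ∑ n, lam n * ⟪e n, y⟫_ℝ ^ 2 := by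
    rw [← e.sum_inner_mul_inner y (T y)]
    refine Finset.sum_congr rfl fun n _ => ?_
    rw [← hT (e n) y, he, inner_smul_left, real_inner_comm (e n) y]
    simp
    ring
  rw [h1]
  unfold qq
  congr 4
  ring

end Main

end Crest.Agent.R330.LiouEX350
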