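import Crest.Agent.R330.LiouP_350
import Crest.Agent.R330.LinB_674

/-!
# Row 330, S5: the Liouville theorem at every fuzzy vacuum (350 + 561 + 674)
-/

set_option autoImplicit false

namespace Crest.Agent.R330.LiouFin674

open Crest.Agent.R330.S5Defs798 Crest.Agent.R330.LiouP350

/-- LEAF S5-LIOUVILLE closed. -/
theorem liouvilleProp (N : ℕ) : LiouvilleProp N := by
  refine liouvilleProp_of fun F _ _ _ _ b M R G c hc => ?_
  obtain ⟨I, A, B, Ω, h1, h2, h3, h4, h5, h6, h7, h8, -⟩ := LinB674.exPack b M R G c hc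
  exact ⟨I, A, B, Ω, ⟨h1, h2, h3, h4, h5, ⟨8, h6⟩, h7, h8⟩⟩

end Crest.Agent.R330.LiouFin674
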