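import Crest.Agent.R330.LiouEX_350
import Crest.Agent.R330.LinEx2_674
import Crest.Agent.R330.Ims_714

/-!
Row 330 (helper350): binding of `liouville_EX` to helper798's `LiouvilleProp`, from one package
`EXPack` (complex structure, frequencies, vacuum) per vacuum configuration.
-/

set_option autoImplicit false
set_option linter.unusedSectionVars false

open MeasureTheory Filter Topology
open scoped ContDiff InnerProductSpace ENNReal
open Crest.MathPhysics.MatrixQM
open Crest.Agent.R330.IBP837 Crest.Agent.R330.Weitz726 Crest.Agent.R330.Defs478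
open Crest.Agent.R330.Moll350 Crest.Agent.R330.Agmon350 Crest.Agent.R330.LiouEX350

noncomputable section

namespace Crest.Agent.R330.LiouP350

open Crest.Agent.R330.S5Defs798 Crest.Agent.R330.LinEx674

variable {N : ℕ} {F : Type*} [NormedAddCommGroup F] [InnerProductSpace ℂ F]
  [FiniteDimensional ℂ F]

/-- `(CL)` for the kinetic symbols. -/
theorem cl_dco (M : FermionRep N F) (G : GammaNine) (η : Fin 9 × Fin (N ^ 2 - 1) → ℝ) (v : F) :
    ∑ α, ‖∑ k, η k • dco M G α k v‖ ^ 2 = 8 * (∑ k, η k ^ 2) * ‖v‖ ^ 2 := by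
  have h : ∀ α, ‖∑ k, η k • dco M G α k v‖ ^ 2 = 1 / 2 * (∑ k, η k ^ 2) * ‖v‖ ^ 2 := by
    intro α
    have h1 := Ims714.norm_kin_sq G M α (WithLp.toLp 2 η : Cfg N) v
    rw [EuclideanSpace.norm_sq_eq] at h1
    simp only [Real.norm_eq_abs, sq_abs] at h1
    have h2 : Ims714.kin G M α (WithLp.toLp 2 η : Cfg N) v =
        (-Complex.I) • ∑ k, η k • dco M G α k v := by
      rw [Ims714.kin_apply, Finset.smul_sum, Fintype.sum_prod_type]
      refine Finset.sum_congr rfl fun i _ => Finset.sum_congr rfl fun A _ => ?_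
      rw [dco_apply, Finset.smul_sum, Finset.smul_sum]
      refine Finset.sum_congr rfl fun β _ => ?_
      rw [← Complex.coe_smul (η (i, A)), smul_smul, smul_smul, smul_smul]
      congr 1
      ring
    rw [← h1, h2, norm_smul]
    simp
  simp only [h]
  rw [Finset.sum_const, Finset.card_univ, Fintype.card_fin]
  simp only [nsmul_eq_mul]
  push_cast
  ring

/-- linear potentials are Lipschitz -/
theorem lipPot_lin (M : FermionRep N F) (w : Fin 16 → Fin (N ^ 2 - 1) → Cfg N →ₗ[ℝ] ℝ) :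
    ∃ L, LipPot (fun x => vco M (fun β A => w β A x)) L := by
  refine ⟨∑ A : Fin (N ^ 2 - 1), ∑ β : Fin 16,
    ‖LinearMap.toContinuousLinearMap (w β A)‖ *
      ‖(LinearMap.toContinuousLinearMap (M.θ β A) : F →L[ℂ] F)‖, ?_, fun x y v => ?_⟩
  · positivity
  · have h : vco M (fun β A => w β A x) v - vco M (fun β A => w β A y) v =
        ∑ A : Fin (N ^ 2 - 1), ∑ β : Fin 16, ((w β A (x - y) : ℝ) : ℂ) • M.θ β A v := by
      rw [vco_apply, vco_apply, ← Finset.sum_sub_distrib]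
      refine Finset.sum_congr rfl fun A _ => ?_
      rw [← Finset.sum_sub_distrib]
      refine Finset.sum_congr rfl fun β _ => ?_
      rw [map_sub, ← sub_smul]
      push_cast
      rfl
    rw [h, Finset.sum_mul, Finset.sum_mul]
    refine (norm_sum_le _ _).trans (Finset.sum_le_sum fun A _ => ?_)
    rw [Finset.sum_mul, Finset.sum_mul]
    refine (norm_sum_le _ _).trans (Finset.sum_le_sum fun β _ => ?_)
    rw [norm_smul, Complex.norm_real]
    have h1 : ‖w β A (x - y)‖ ≤ ‖LinearMap.toContinuousLinearMap (w β A)‖ * ‖x - y‖ :=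
      (LinearMap.toContinuousLinearMap (w β A)).le_opNorm _
    have h2 : ‖M.θ β A v‖ ≤ ‖(LinearMap.toContinuousLinearMap (M.θ β A) : F →L[ℂ] F)‖ * ‖v‖ :=
      (LinearMap.toContinuousLinearMap (M.θ β A)).le_opNorm _
    calc _ ≤ (‖LinearMap.toContinuousLinearMap (w β A)‖ * ‖x - y‖) *
          (‖(LinearMap.toContinuousLinearMap (M.θ β A) : F →L[ℂ] F)‖ * ‖v‖) := by gcongr
      _ = _ := by ring

/-- One package per vacuum configuration. -/
structure EXPack (b : ColorBasis N) (M : FermionRep N F) (G : GammaNine) (c : Cfg N)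
    (I : VV N →ₗ[ℝ] VV N) (A B : Cfg N →ₗ[ℝ] Cfg N) (Ω : F) : Prop where
  cs : IsCS I
  linW : LinW G (wlin b G c) I A
  symB : ∀ x y, ⟪B x, y⟫_ℝ = ⟪x, B y⟫_ℝ
  sq : ∀ x, B (B x) = A x
  ker : ∀ u, A u = 0 → ∃ om, u = brk b om c
  full : ∃ j : Fin 9, ∀ a, ∃ w, B w = EuclideanSpace.single (j, a) 1
  vac0 : Ω ≠ 0
  vac : ∀ u, bop M I u Ω = 0

/-- the linearised coefficients as linear forms -/
theorem exists_lin {b : ColorBasis N} {G : GammaNine} {c : Cfg N} {I : VV N →ₗ[ℝ] VV N}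
    {A : Cfg N →ₗ[ℝ] Cfg N} (h : LinW G (wlin b G c) I A) (α : Fin 16) :
    ∃ w : Fin 16 → Fin (N ^ 2 - 1) → Cfg N →ₗ[ℝ] ℝ, ∀ β a x, wlin b G c α β a x = w β a x :=
  ⟨fun β a => lw G I A α β a, fun β a x => congrFun (congrFun (h α x) β) a⟩

/-- **Liouville at one vacuum.** -/
theorem liou_pack {b : ColorBasis N} {M : FermionRep N F} {G : GammaNine} {c : Cfg N}
    {I : VV N →ₗ[ℝ] VV N} {A B : Cfg N →ₗ[ℝ] Cfg N} {Ω : F} (h : EXPack b M G c I A B Ω)
    {f : Cfg N → F} {K : ℝ} (hK : 0 ≤ K) (hfm : AEStronglyMeasurable f volume)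
    (hg : Integrable fun x => Real.exp (-(K * ‖x‖)) * ‖f x‖ ^ 2)
    (hw : ∀ α, ∀ ψ : Cfg N → F, ContDiff ℝ ∞ ψ → HasCompactSupport ψ →
      ∫ y, ⟪f y, lcharge b M G c α ψ y⟫_ℂ = 0)
    (hflat : ∀ om, ∀ ψ : Cfg N → F, ContDiff ℝ ∞ ψ → HasCompactSupport ψ →
      ∫ y, ⟪f y, fderiv ℝ ψ y (brk b om c)⟫_ℂ = 0) :
    ∃ k : ℂ, f =ᵐ[volume] fun y => k • gau A Ω y := by
  have hAs : A.IsSymmetric := fun x y => by
    rw [← h.sq x, ← h.sq y, h.symB, h.symB]
  have hAp : ∀ u, 0 ≤ ⟪u, A u⟫_ℝ := fun u => by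
    rw [← h.sq u, ← h.symB, real_inner_self_eq_norm_sq]
    positivity
  have hLip : ∀ α, ∃ L, LipPot (fun x => vco M (fun β a => wlin b G c α β a x)) L := by
    intro α
    obtain ⟨w, hw'⟩ := exists_lin h.linW α
    simp only [hw']
    exact lipPot_lin M w
  choose L hL using hLip
  have hL' : ∀ α, LipPot (fun x => vco M (fun β a => wlin b G c α β a x)) (∑ α, L α) := by
    intro α
    refine ⟨Finset.sum_nonneg fun α _ => (hL α).1, fun x y v => ((hL α).2 x y v).trans ?_⟩
    have h1 : L α ≤ ∑ α, L α := Finset.single_le_sum (fun α _ => (hL α).1) (Finset.mem_univ α)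
    gcongr
  obtain ⟨j, hj⟩ := h.full
  obtain ⟨k, hk⟩ := liouville_EX (A := fun α => dco M G α)
    (W := fun α x => vco M (fun β a => wlin b G c α β a x))
    (Bv := fun j : Fin 16 × (Fin 9 × Fin (N ^ 2 - 1)) =>
      bop M I (gv G j.1 (B (EuclideanSpace.single j.2 1))))
    (C₀ := 8) (cb := 1 / 2) (L := ∑ α, L α) hAs hAp (by norm_num) (by norm_num)
    (cl_dco M G) (fun α k => dco_symm M G α k) (fun α x => vco_symm M _)
    hL'
    (fun φ hφ hc => ex_le h.linW h.cs h.symB h.sq hφ hc)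
    (fun v hv => bv_line hj h.vac0 h.vac hv) hK hfm hg
    (fun α ψ hψ hψc => by
      rw [← hw α ψ hψ hψc]
      refine integral_congr_ae (Eventually.of_forall fun y => ?_)
      simp only
      rw [lcharge_eq]
      rfl)
    (fun v hv ψ hψ hψc => by
      obtain ⟨om, rfl⟩ := h.ker v hv
      exact hflat om ψ hψ hψc)
  exact ⟨k, hk⟩

/-! ## Gaussians are zero modes -/

theorem hasFDerivAt_quad {A : Cfg N →ₗ[ℝ] Cfg N} (hs : ∀ u v, ⟪A u, v⟫_ℝ = ⟪u, A v⟫_ℝ)
    (u : Cfg N) : HasFDerivAt (fun u => ⟪u, A u⟫_ℝ) ((2 : ℝ) • innerSL ℝ (A u)) u := by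
  have h1 : HasFDerivAt (fun u : Cfg N => A u) (LinearMap.toContinuousLinearMap A) u :=
    (LinearMap.toContinuousLinearMap A).hasFDerivAt
  have h2 := (hasFDerivAt_id u).inner ℝ h1
  refine h2.congr_fderiv ?_
  ext v
  simp only [ContinuousLinearMap.comp_apply, ContinuousLinearMap.prod_apply,
    fderivInnerCLM_apply, _root_.smul_apply, innerSL_apply_apply, smul_eq_mul, id]
  have e1 : ⟪u, A v⟫_ℝ = ⟪A u, v⟫_ℝ := (hs u v).symm
  have e2 : ⟪v, A u⟫_ℝ = ⟪A u, v⟫_ℝ := real_inner_comm _ _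
  simp only [LinearMap.coe_toContinuousLinearMap', ContinuousLinearMap.coe_id', id_eq]
  rw [e1, e2]
  ring

theorem contDiff_gau (A : Cfg N →ₗ[ℝ] Cfg N) (Ω : F) : ContDiff ℝ ∞ (gau A Ω) := by
  have h : ContDiff ℝ ∞ fun u : Cfg N => Real.exp (-(1 / 2) * ⟪u, A u⟫_ℝ) :=
    Real.contDiff_exp.comp (contDiff_const.mul
      (contDiff_id.inner ℝ (LinearMap.toContinuousLinearMap A).contDiff))
  exact h.smul contDiff_const

theorem fderiv_gau {A : Cfg N →ₗ[ℝ] Cfg N} (hs : ∀ u v, ⟪A u, v⟫_ℝ = ⟪u, A v⟫_ℝ) (Ω : F)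
    {v : Cfg N} (hv : A v = 0) (u : Cfg N) : fderiv ℝ (gau A Ω) u v = 0 := by
  have h1 := (((hasFDerivAt_quad hs u).const_mul (-(1 / 2 : ℝ))).exp).smul_const Ω
  have h2 : fderiv ℝ (gau A Ω) u = _ := h1.fderiv
  rw [h2]
  simp only [ContinuousLinearMap.smulRight_apply, _root_.smul_apply,
    innerSL_apply_apply, smul_eq_mul]
  rw [hs, hv, inner_zero_right]
  simp

/-- exponentials of the norm are integrable -/
theorem integrable_exp_norm : Integrable fun x : Cfg N => Real.exp (-(2 * ‖x‖)) := by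
  set d := Module.finrank ℝ (Cfg N) with hd
  have h1 : Integrable fun x : Cfg N => (1 + ‖x‖) ^ (-((d + 1 : ℕ) : ℝ)) :=
    integrable_one_add_norm (by push_cast; linarith)
  have h2 := h1.const_mul (((d + 1).factorial : ℝ) * Real.exp 1)
  refine h2.mono' (by fun_prop) (Eventually.of_forall fun x => ?_)
  rw [Real.norm_of_nonneg (Real.exp_pos _).le]
  have h3 := Real.pow_div_factorial_le_exp (1 + ‖x‖) (by positivity) (d + 1)
  rw [div_le_iff₀ (by positivity)] at h3
  have hp : (0 : ℝ) < (1 + ‖x‖) ^ (d + 1) := by positivity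
  rw [Real.rpow_neg (by positivity), Real.rpow_natCast, ← div_eq_mul_inv, le_div_iff₀ hp]
  calc Real.exp (-(2 * ‖x‖)) * (1 + ‖x‖) ^ (d + 1)
      ≤ Real.exp (-(2 * ‖x‖)) * (Real.exp (1 + ‖x‖) * ((d + 1).factorial : ℝ)) := by gcongr
    _ = ((d + 1).factorial : ℝ) * (Real.exp (-(2 * ‖x‖)) * Real.exp (1 + ‖x‖)) := by ring
    _ = ((d + 1).factorial : ℝ) * Real.exp (1 - ‖x‖) := by
        rw [← Real.exp_add]
        ring_nf
    _ ≤ ((d + 1).factorial : ℝ) * Real.exp 1 := by
        gcongr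
        linarith [norm_nonneg x]

/-- **LEAF S5-LIOUVILLE** from one package per vacuum. -/
theorem liouvilleProp_of (hP : ∀ (F : Type) [NormedAddCommGroup F] [InnerProductSpace ℂ F]
    [FiniteDimensional ℂ F] [Nontrivial F] (b : ColorBasis N) (M : FermionRep N F)
    (_ : GaugeAction b M) (G : GammaNine) (c : Cfg N), IsVacCfg b c →
    ∃ I A B, ∃ Ω : F, EXPack b M G c I A B Ω) : LiouvilleProp N := by
  intro F _ _ _ _ b M R G c A' Ω' hc hV f hfm hgrow hw hflat
  obtain ⟨I, A, B, Ω, hE⟩ := hP F b M R G c hc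
  -- growth of f
  have hg : Integrable fun x => Real.exp (-(2 * ‖x‖)) * ‖f x‖ ^ 2 := by
    refine ⟨?_, ?_⟩
    · refine AEStronglyMeasurable.mul ?_ (hfm.norm.pow 2)
      exact (by fun_prop : Continuous fun x : Cfg N => Real.exp (-(2 * ‖x‖))).aestronglyMeasurable
    · rw [HasFiniteIntegral]
      refine lt_of_le_of_lt (le_of_eq ?_) hgrow
      refine lintegral_congr fun x => ?_
      rw [enorm_mul, Real.enorm_eq_ofReal (Real.exp_pos _).le, enorm_pow, enorm_norm]
      congr 3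
      ring_nf
  obtain ⟨k, hk⟩ := liou_pack hE (by norm_num : (0 : ℝ) ≤ 2) hfm hg (fun α ψ h1 h2 => hw ψ h1 h2 α)
    (fun om ψ h1 h2 => hflat ψ h1 h2 om)
  -- the given Gaussian is a zero mode
  have hs := hV.symm
  have hgc : ContDiff ℝ ∞ (gau A' Ω') := contDiff_gau A' Ω'
  have hg1 : ContDiff ℝ 1 (gau A' Ω') := hgc.of_le (by simp)
  have hbd : ∀ x, ‖gau A' Ω' x‖ ≤ 1 := by
    intro x
    unfold gau
    rw [norm_smul, hV.unit, mul_one, Real.norm_of_nonneg (Real.exp_pos _).le]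
    refine Real.exp_le_one_iff.mpr ?_
    have := hV.pos x
    linarith
  have hgg : Integrable fun x => Real.exp (-(2 * ‖x‖)) * ‖gau A' Ω' x‖ ^ 2 := by
    refine integrable_exp_norm.mono' ?_ (Eventually.of_forall fun x => ?_)
    · exact ((by fun_prop : Continuous fun x : Cfg N => Real.exp (-(2 * ‖x‖))).mul
        (hgc.continuous.norm.pow 2)).aestronglyMeasurable
    · rw [norm_mul, Real.norm_of_nonneg (Real.exp_pos _).le, norm_pow, norm_norm]
      have h1 : ‖gau A' Ω' x‖ ^ 2 ≤ 1 := by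
        have := hbd x
        have := norm_nonneg (gau A' Ω' x)
        nlinarith
      have := Real.exp_pos (-(2 * ‖x‖))
      nlinarith
  have hlin : ∀ α, ∀ v, Continuous fun x => vco M (fun β a => wlin b G c α β a x) v := by
    intro α
    obtain ⟨w, hw'⟩ := exists_lin hE.linW α
    simp only [hw']
    obtain ⟨L, hL⟩ := lipPot_lin M w
    exact hL.continuous
  obtain ⟨k', hk'⟩ := liou_pack hE (f := gau A' Ω') (by norm_num : (0 : ℝ) ≤ 2)
    hgc.continuous.aestronglyMeasurable hgg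
    (fun α ψ h1 h2 => by
      have e1 : ∫ y, ⟪gau A' Ω' y, lcharge b M G c α ψ y⟫_ℂ =
          ∫ y, ⟪gau A' Ω' y, dirac (dco M G α)
            (fun x => vco M (fun β a => wlin b G c α β a x)) ψ y⟫_ℂ := by
        refine integral_congr_ae (Eventually.of_forall fun y => ?_)
        simp only
        rw [lcharge_eq]
        rfl
      rw [e1, ← dirac_symm (fun k => dco_symm M G α k) (fun x => vco_symm M _) (hlin α) hg1
        (h1.of_le (by simp)) (Or.inr h2)]
      rw [← integral_zero (Cfg N) ℂ]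
      refine integral_congr_ae (Eventually.of_forall fun y => ?_)
      simp only
      have e2 : dirac (dco M G α) (fun x => vco M (fun β a => wlin b G c α β a x))
          (gau A' Ω') y = lcharge b M G c α (gau A' Ω') y := (lcharge_eq b M G c α _ y).symm
      rw [e2, hV.kill α y, inner_zero_left])
    (fun om ψ h1 h2 => by
      have e1 := ibp hg1 (h1.of_le (by simp) : ContDiff ℝ 1 ψ) (Or.inr h2) (brk b om c)
        (μ := (volume : Measure (Cfg N)))
      have e2 : A' (brk b om c) = 0 := (hV.ker _).mpr ⟨om, rfl⟩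
      have e3 : ∫ x, ⟪fderiv ℝ (gau A' Ω') x (brk b om c), ψ x⟫_ℂ = 0 := by
        rw [← integral_zero (Cfg N) ℂ]
        refine integral_congr_ae (Eventually.of_forall fun y => ?_)
        simp only
        rw [fderiv_gau hs Ω' e2, inner_zero_left]
      rw [e3] at e1
      exact neg_eq_zero.mp e1.symm)
  have hne : ∀ x, gau A' Ω' x ≠ 0 := by
    intro x hx
    have h0 : Ω' ≠ 0 := by
      intro h0
      have := hV.unit
      rw [h0, norm_zero] at this
      norm_num at this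
    unfold gau at hx
    rcases smul_eq_zero.mp hx with h1 | h1
    · exact (Real.exp_pos _).ne' h1
    · exact h0 h1
  have hk0 : k' ≠ 0 := by
    intro h0
    obtain ⟨x, hx⟩ := hk'.exists
    have hx' : gau A' Ω' x = k' • gau A Ω x := hx
    rw [h0, zero_smul] at hx'
    exact hne x hx'
  refine ⟨k / k', ?_⟩
  filter_upwards [hk, hk'] with x h1 h2
  rw [h1, h2, smul_smul, div_mul_cancel₀ _ hk0]

end Crest.Agent.R330.LiouP350
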