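import Crest.Agent.R330.PairF_424
import Crest.Agent.R330.LocD_8
import Crest.Agent.R330.Gs2_998
import Crest.Agent.R330.WeakV_756

/-!
# Row 330, S9-PAIRING (helper424): (I4), the amplitudes of a null sequence tend weakly to zero

`i4In` : `LocD8.I4In P σ ρ κ m` for every cut-off `κ` supported in a ball of radius `< σ.r / 4` on
which the retraction `ρ` is the identity.
-/

set_option autoImplicit false
set_option linter.unusedSectionVars false

open MeasureTheory Filter Topology Crest.MathPhysics.MatrixQM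
open scoped ContDiff InnerProductSpace ENNReal

noncomputable section

namespace Crest.Agent.R330.PairI424

open Crest.Agent.R330.Defs478 Crest.Agent.R330.LS839
  Crest.Agent.R330.Bind6839 Crest.Agent.R330.SlG944 Crest.Agent.R330.SlF944
  Crest.Agent.R330.TDef414 Crest.Agent.R330.PairD424 Crest.Agent.R330.PairC424
  Crest.Agent.R330.PairE424 Crest.Agent.R330.LocB8 Crest.Agent.R330.LocC8 Crest.Agent.R330.LocD8
  Crest.Agent.R330.LemA342 Crest.Agent.R330.SlQE87 Crest.Agent.R330.HBX450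
  Crest.Agent.R330.CapBind737 Crest.Agent.R330.TrialSys796 Crest.Agent.R330.FibProj837
open Crest.Agent.R330.SlB314 (Nor Tan br)
open Crest.Agent.R330.SlD314 (tube mem_tube_iff)

variable {N p : ℕ} {b : ColorBasis N} {S : Type} [Group S] [Fintype S] {C : Chn b p S}
  {F : Type*} [NormedAddCommGroup F] [InnerProductSpace ℂ F]
  [FiniteDimensional ℂ F] {M : FermionRep N F} {R : GaugeAction b M} {G : GammaNine}

theorem Zs_off (σ : Sl C) (z : Zs b (C.cf σ.X0)) : (z : Cfg N) ∈ Tup C.kkᗮ := by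
  have h : (z : Cfg N) ∈ C.Zt σ.X0 := by
    rw [← PairT245.Zs_eq (reg0 σ)]
    exact z.2
  exact Zt_le_off C _ h

/-- the positions of the support of the cut-off -/
theorem ks_ball {σ : Sl C} {κ : Sc b (C.cf σ.X0) → ℝ} {r1 : ℝ}
    (hball : ∀ x : Sc b (C.cf σ.X0), κ x ≠ 0 → ‖(x.1 : Cfg N) + x.2‖ ≤ r1) {X : Pos p}
    (hX : X ∈ ks κ) : ‖X - σ.X0‖ ≤ r1 := by
  obtain ⟨u, ⟨x, hx, rfl⟩, rfl⟩ := hX
  have hc : Continuous fun x : Sc b (C.cf σ.X0) => (x.1 : Cfg N) + x.2 :=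
    (continuous_subtype_val.comp continuous_fst).add (continuous_subtype_val.comp continuous_snd)
  have h1 : tsupport κ ⊆ {x | ‖(x.1 : Cfg N) + x.2‖ ≤ r1} :=
    closure_minimal (fun x hx => hball x hx) (isClosed_le hc.norm continuous_const)
  have h2 : ‖(x.1 : Cfg N) + x.2‖ ≤ r1 := h1 hx
  unfold posu
  rw [add_sub_cancel_left, ← cfT_add C (Zs_off σ x.2)]
  exact (TCore383.norm_cfT_le _).trans h2

/-- the Gaussian of 8 is the normalised Gaussian -/
theorem gsl_eq_gsn (P : TPack C M R G) (σ : Sl C) {ρ : Pos p → Pos p} {g : ℝ} (hg : 0 < g)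
    (x : Sc b (C.cf σ.X0)) (hρ : ρ (posu σ x.1) = posu σ x.1) (hr : ‖posu σ x.1 - σ.X0‖ < σ.r) :
    gsl P σ ρ g x = gsn P σ g (σ.X0 + C.cfT x.1) x.2 := by
  rw [Gs2998.gsl_lit hg x hρ hr]
  unfold gsn nI
  have h1 : ∀ {L L' : Submodule ℝ (Cfg N)}, L = L' → ∀ f : Cfg N → ℝ,
      ∫ z : L, f z = ∫ z : L', f z := by
    intro L L' h f
    subst h
    rfl
  have h2 := h1 (PairT245.Zs_eq (reg0 σ))
    fun z => Real.exp (-(g * ⟪P.A (posu σ x.1) z, z⟫_ℝ))
  rw [h2]
  rfl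

/-- the amplitude pairing is the slice pairing -/
theorem amp_slice (P : TPack C M R G) (σ : Sl C) {ρ : Pos p → Pos p}
    {κ : Sc b (C.cf σ.X0) → ℝ} (hρ : ContDiff ℝ ∞ ρ) (hr : ∀ X, ‖ρ X - σ.X0‖ < σ.r)
    (hκ : Cut σ κ) {r1 : ℝ} (h1 : r1 < σ.r)
    (hball : ∀ x : Sc b (C.cf σ.X0), κ x ≠ 0 → ‖(x.1 : Cfg N) + x.2‖ ≤ r1)
    (hid : ∀ X, ‖X - σ.X0‖ ≤ r1 → ρ X = X) (χ : Amp M G σ) {g : ℝ} (hg : 0 < g)
    (hΨ : Continuous (P.Psi g)) {φ : Cfg N → F} (hφ : IsCoreVec b R φ) :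
    ∫ X, ⟪(χ.fn X : F), ampX P g (LocC8.wB P σ ρ κ g φ) X⟫_ℂ =
      ∫ q : Uk b (C.cf σ.X0) × Zs b (C.cf σ.X0),
        ⟪gsn P σ g (σ.X0 + C.cfT q.1) q.2 • om P σ g χ.fn q.1,
          κ q • φ (C.cf σ.X0 + ((q.1 : Cfg N) + q.2))⟫_ℂ := by
  have h0 := reg0 σ
  have hw := wfam (P := P) (g := g) hρ hr hκ hφ
  set w := LocC8.wB P σ ρ κ g φ with hwd
  set Φ := half b (C.cf σ.X0) κ φ with hΦ
  have hΦc : ContDiff ℝ ∞ Φ := contDiff_half hκ.smooth hφ.1
  have hΦs : HasCompactSupport Φ := hcs_half hκ.supp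
  -- the light side
  have ho2 := PairT245.memLp_omU P hΨ h0 χ.smooth.continuous χ.compact χ.off 2
  -- step 1: Fubini in the blocks
  have e1 : ∫ X, ⟪(χ.fn X : F), ampX P g w X⟫_ℂ =
      ∫ u : Uk b (C.cf σ.X0), ⟪om P σ g χ.fn u, wf P σ ρ κ g φ u⟫_ℂ := by
    have hwc : Continuous (wf P σ ρ κ g φ) := (contDiff_wf hρ hr hκ hφ.1).continuous
    have hws : HasCompactSupport (wf P σ ρ κ g φ) := hcs_wf hκ.supp
    have hoc : Continuous fun u : Uk b (C.cf σ.X0) => om P σ g χ.fn u :=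
      (PairT245.continuous_omU P hΨ h0 χ.smooth.continuous χ.off)
    have hi : Integrable fun u : Uk b (C.cf σ.X0) =>
        ⟪om P σ g χ.fn u, wf P σ ρ κ g φ u⟫_ℂ :=
      (hoc.inner hwc).integrable_of_hasCompactSupport
        (hws.mono' fun u hu => subset_tsupport _ fun h => hu (by simp only [h, inner_zero_right]))
    rw [PairT245.integral_uk h0, Measure.volume_eq_prod,
      integral_prod _ (by
        have := (PairT245.integrable_uk h0 _).1 hi
        rwa [Measure.volume_eq_prod] at this),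
      ← integral_add_right_eq_self (fun X => ⟪(χ.fn X : F), ampX P g w X⟫_ℂ) σ.X0]
    refine integral_congr_ae (Eventually.of_forall fun X' => ?_)
    simp only
    rw [inner_ampX hw hΨ (χ.fn (X' + σ.X0)).2]
    refine integral_congr_ae (Eventually.of_forall fun Y => ?_)
    simp only
    have e2 : om P σ g χ.fn (PairT245.uE h0 (X', Y)) =
        P.U (X' + σ.X0) (P.Psi g Y (χ.fn (X' + σ.X0))) := by
      have h3 := PairT245.omU_uE P g h0 χ.fn (X', Y)
      rw [show om P σ g χ.fn (PairT245.uE h0 (X', Y)) =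
        PairT245.omU P g σ.X0 χ.fn (PairT245.uE h0 (X', Y)) from rfl, h3]
      unfold PairT245.omq
      rw [add_comm σ.X0 X']
    rw [e2, hwd]
    unfold LocC8.wB
    rw [add_sub_cancel_right]
  -- step 2: the Gaussian
  rw [e1]
  have e3 := integral_inner_fpr (ν := (volume : Measure (Uk b (C.cf σ.X0))))
    (μ := (volume : Measure (Zs b (C.cf σ.X0)))) (gs := gsl P σ ρ g)
    (p := fun u => pV P (posu σ (u : Cfg N))) (om' := fun u => om P σ g χ.fn u) (Φ := Φ)
    (contDiff_gsl hρ hr g).continuous.measurable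
    (fun u => by
      have h3 := memLp_gsl (P := P) (ρ := ρ) hr hg u
      have h4 : Integrable fun z : Zs b (C.cf σ.X0) => gsl P σ ρ g (u, z) ^ 2 :=
        (memLp_two_iff_integrable_sq h3.1).1 h3
      rw [← ofReal_integral_eq_lintegral_ofReal h4 (Eventually.of_forall fun z => sq_nonneg _),
        integral_gsl_sq hr hg u, ENNReal.ofReal_one])
    ho2 (hΦc.continuous.memLp_of_hasCompactSupport hΦs)
    (fun u => by
      have h3 : Continuous fun z : Zs b (C.cf σ.X0) => gsl P σ ρ g (u, z) • Φ (u, z) :=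
        ((contDiff_gsl hρ hr g).continuous.comp (continuous_const.prodMk continuous_id)).smul
          (hΦc.continuous.comp (continuous_const.prodMk continuous_id))
      refine h3.integrable_of_hasCompactSupport ?_
      refine HasCompactSupport.intro (hΦs.image continuous_snd) fun z hz => ?_
      have h4 : Φ (u, z) = 0 := by
        by_contra h5
        exact hz ⟨(u, z), subset_tsupport _ h5, rfl⟩
      rw [h4, smul_zero])
    (fun u v w' => pV_symm P _ v w')
    (Eventually.of_forall fun u => by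
      by_cases h3 : om P σ g χ.fn u = 0
      · rw [h3, map_zero]
      · obtain ⟨h4, -, -⟩ := om_supp P σ g χ h3
        refine pV_of_mem ?_
        exact U_mem_Vac P (χ.off _ h4) (P.Psi_mem g _ (PairD424.PY_mem C _) _ (χ.fn _).2))
  change ∫ u : Uk b (C.cf σ.X0), ⟪om P σ g χ.fn u, fpr volume (gsl P σ ρ g)
    (fun u : Uk b (C.cf σ.X0) => pV P (posu σ (u : Cfg N))) Φ u⟫_ℂ = _
  rw [← e3, ← Measure.volume_eq_prod]
  refine integral_congr_ae (Eventually.of_forall fun q => ?_)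
  simp only
  by_cases hq : κ q = 0
  · rw [hΦ]
    unfold half
    rw [hq, zero_smul, zero_smul, inner_zero_right, inner_zero_right]
  · have h3 : ‖posu σ q.1 - σ.X0‖ ≤ r1 := by
      unfold posu
      rw [add_sub_cancel_left, ← cfT_add C (Zs_off σ q.2)]
      exact (TCore383.norm_cfT_le _).trans (hball q hq)
    rw [gsl_eq_gsn P σ hg q (hid _ h3) (h3.trans_lt h1), hΦ]
    unfold half
    rw [add_assoc]

/-- **(I4).** -/
theorem i4In (P : TPack C M R G) (σ : Sl C) {ρ : Pos p → Pos p} {κ : Sc b (C.cf σ.X0) → ℝ}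
    (m : ℝ) (hρ : ContDiff ℝ ∞ ρ) (hr : ∀ X, ‖ρ X - σ.X0‖ < σ.r) (hκ : Cut σ κ) {r1 : ℝ}
    (h1 : r1 < σ.r / 4)
    (hball : ∀ x : Sc b (C.cf σ.X0), κ x ≠ 0 → ‖(x.1 : Cfg N) + x.2‖ ≤ r1)
    (hid : ∀ X, ‖X - σ.X0‖ ≤ r1 → ρ X = X) : I4In P σ ρ κ m := by
  intro g φ hn χ hχ hχc
  have hrp := σ.pos
  -- the localised amplitude
  have hW : IsOpen ({X | C.BReg X} ∩ Metric.ball σ.X0 (σ.r / 4)) :=
    C.isOpen_breg.inter Metric.isOpen_ball
  obtain ⟨ψ, hψ, hψc, hψW, hψ1, -⟩ := WeakV756.exists_cutoff (isCompact_ks hκ.supp) hW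
    (fun X hX => ⟨ks_breg hκ hX, by
      rw [Metric.mem_ball, dist_eq_norm]
      exact (ks_ball hball hX).trans_lt h1⟩)
  let χ' : Amp M G σ :=
    { fn := fun X => ((ψ X : ℝ) : ℂ) • χ X
      smooth := (Complex.ofRealCLM.contDiff.comp hψ).smul hχ
      supp := fun X hX => (hψW ((closure_mono (Function.support_subset_iff'.2 fun X hX => by
        rw [Function.notMem_support.1 hX, Complex.ofReal_zero, zero_smul])) hX)).2
      off := fun X hX => (hψW ((closure_mono (Function.support_subset_iff'.2 fun X hX => by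
        rw [Function.notMem_support.1 hX, Complex.ofReal_zero, zero_smul])) hX)).1 }
  obtain ⟨χ'', ε, hε, hP⟩ := PairF424.pair_cut P σ (PairT245.Uk_eq (reg0 σ))
    (PairT245.Zs_eq (reg0 σ)) χ' hκ.smooth hκ.supp (ρ := r1) (by linarith)
    (fun q hq => by
      by_contra h3
      exact absurd (hball q h3) (not_le.2 hq))
  obtain ⟨C0, hC0⟩ := hn.en
  have hpair := hn.pair ⟨σ, χ''⟩
  have hcomb := hn.g_top.eventually (hP.and ((eventually_gt_atTop 0).and P.Psi_smooth))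
  have hb : Tendsto (fun j => ‖∫ x, ⟪Tgen P σ (g j) χ''.fn x, φ j x⟫_ℂ‖ +
      |ε (g j)| * Real.sqrt C0) atTop (𝓝 0) := by
    have e1 : Tendsto (fun j => ‖∫ x, ⟪Tgen P σ (g j) χ''.fn x, φ j x⟫_ℂ‖) atTop (𝓝 0) := by
      simpa using hpair.norm
    have e2 : Tendsto (fun j => |ε (g j)| * Real.sqrt C0) atTop (𝓝 0) := by
      simpa using ((hε.comp hn.g_top).abs).mul_const (Real.sqrt C0)
    simpa using e1.add e2
  refine squeeze_zero_norm' ?_ hb
  filter_upwards [hcomb] with j hj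
  obtain ⟨hj, hg, hΨ⟩ := hj
  have hφ := hn.core j
  have hφ2 : MemLp (φ j) 2 volume := hφ.1.continuous.memLp_of_hasCompactSupport hφ.2.1
  have h3 := hj (φ j) hφ.1.continuous hφ.2.2 hφ2
  have hw := wfam (P := P) (g := g j) hρ hr hκ hφ
  have e1 : ∫ X, ⟪(χ X : F), ampX P (g j) (LocC8.wB P σ ρ κ (g j) (φ j)) X⟫_ℂ =
      ∫ X, ⟪(χ'.fn X : F), ampX P (g j) (LocC8.wB P σ ρ κ (g j) (φ j)) X⟫_ℂ := by
    refine integral_congr_ae (Eventually.of_forall fun X => ?_)
    simp only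
    by_cases hX : X ∈ ks κ
    · have h4 : χ'.fn X = χ X := by
        show ((ψ X : ℝ) : ℂ) • χ X = χ X
        rw [hψ1 X hX, Complex.ofReal_one, one_smul]
      rw [h4]
    · rw [ampX_off hw hΨ.continuous hX, inner_zero_right, inner_zero_right]
  rw [e1, amp_slice P σ hρ hr hκ (by linarith) hball hid χ' hg hΨ.continuous hφ]
  have h4 : ∫ x, ‖φ j x‖ ^ 2 ≤ C0 := by
    have h5 := hC0 j
    unfold En at h5
    have h6 : 0 ≤ qf b M G (g j) m (φ j) := by
      unfold qf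
      positivity
    linarith
  have h5 : ε (g j) * Real.sqrt (∫ x, ‖φ j x‖ ^ 2) ≤ |ε (g j)| * Real.sqrt C0 :=
    mul_le_mul (le_abs_self _) (Real.sqrt_le_sqrt h4) (Real.sqrt_nonneg _) (abs_nonneg _)
  have h6 : ∀ a c : ℂ, ‖c‖ ≤ ‖a‖ + ‖a - c‖ := fun a c => by
    have h7 := norm_sub_le a (a - c)
    rwa [sub_sub_cancel] at h7
  refine (h6 (∫ x, ⟪Tgen P σ (g j) χ''.fn x, φ j x⟫_ℂ) _).trans ?_
  exact add_le_add le_rfl (h3.trans h5)

end Crest.Agent.R330.PairI424

end
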