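import Crest.Agent.R330.LocE_8
import Crest.Agent.R330.SlEx_814
import Crest.Agent.R330.Gs2_998
import Crest.Agent.R330.PairI_424

/-!
# Row 330, S9: `LocAll` from the six local inputs (helper478)

* `Rt σ ρ s δ` : `ρ` is a retraction near the centre of `σ`, the identity on the ball `2 s`, and
  everything is smaller than `δ`.
* `Loc Q` : `Q σ ρ s` holds for all small charts, retractions and radii.
* `locAll_of` : `LocE8.LocAll P m` from the inputs in this form.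
-/

set_option autoImplicit false
set_option linter.unusedSectionVars false

open MeasureTheory Filter Topology Crest.MathPhysics.MatrixQM
open scoped ContDiff InnerProductSpace ENNReal

noncomputable section

namespace Crest.Agent.R330.LocF478

open Crest.Agent.R330.Defs478 Crest.Agent.R330.TDef414 Crest.Agent.R330.LocB8
  Crest.Agent.R330.LocC8 Crest.Agent.R330.LocD8 Crest.Agent.R330.LocE8 Crest.Agent.R330.LemA342

variable {N p : ℕ} {b : ColorBasis N} {S : Type} [Group S] [Fintype S] {C : Chn b p S}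
  {F : Type*} [NormedAddCommGroup F] [InnerProductSpace ℂ F] [FiniteDimensional ℂ F]
  {M : FermionRep N F} {R : GaugeAction b M} {G : GammaNine}

/-- A small retraction near the centre of the chart. -/
structure Rt (σ : Sl C) (ρ : Pos p → Pos p) (s δ : ℝ) : Prop where
  smooth : ContDiff ℝ ∞ ρ
  near : ∀ X, ‖ρ X - σ.X0‖ < σ.r
  small : ∀ X, ‖ρ X - σ.X0‖ < δ
  bd : ∃ B : ℝ, 0 ≤ B ∧ ∀ X, ‖fderiv ℝ ρ X‖ ≤ B
  fix : ∀ X, ‖X - σ.X0‖ ≤ 2 * s → ρ X = X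
  pos : 0 < s
  le : s ≤ δ
  le_r : s ≤ σ.r / 8

theorem Rt.mono {σ : Sl C} {ρ : Pos p → Pos p} {s δ δ' : ℝ} (h : Rt σ ρ s δ) (hd : δ ≤ δ') :
    Rt σ ρ s δ' :=
  ⟨h.smooth, h.near, fun X => (h.small X).trans_le hd, h.bd, h.fix, h.pos, h.le.trans hd, h.le_r⟩

/-- `Q` holds for all small charts and retractions. -/
def Loc (Q : ∀ (_ : Sl C) (_ : Pos p → Pos p) (_ : ℝ), Prop) : Prop :=
  ∀ X0 : Pos p, C.Reg X0 → ∃ δ : ℝ, 0 < δ ∧ ∀ σ : Sl C, σ.X0 = X0 → σ.r ≤ δ →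
    ∃ δ' : ℝ, 0 < δ' ∧ ∀ ρ s, Rt σ ρ s δ' → Q σ ρ s

variable {Q Q' : ∀ (_ : Sl C) (_ : Pos p → Pos p) (_ : ℝ), Prop}

theorem Loc.of_all (h : ∀ σ : Sl C, ∃ δ' : ℝ, 0 < δ' ∧ ∀ ρ s, Rt σ ρ s δ' → Q σ ρ s) : Loc Q :=
  fun _ _ => ⟨1, one_pos, fun σ _ _ => h σ⟩

theorem Loc.and (h : Loc Q) (h' : Loc Q') : Loc fun σ ρ s => Q σ ρ s ∧ Q' σ ρ s := by
  intro X0 hX
  obtain ⟨δ, hδ, h1⟩ := h X0 hX
  obtain ⟨ε, hε, h2⟩ := h' X0 hX
  refine ⟨min δ ε, lt_min hδ hε, fun σ hσ hr => ?_⟩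
  obtain ⟨a, ha, h3⟩ := h1 σ hσ (hr.trans (min_le_left _ _))
  obtain ⟨c, hc, h4⟩ := h2 σ hσ (hr.trans (min_le_right _ _))
  exact ⟨min a c, lt_min ha hc, fun ρ s hs =>
    ⟨h3 ρ s (hs.mono (min_le_left _ _)), h4 ρ s (hs.mono (min_le_right _ _))⟩⟩

/-- Small retractions exist. -/
theorem exists_rt (σ : Sl C) {δ : ℝ} (hδ : 0 < δ) : ∃ ρ s, Rt σ ρ s δ := by
  have hr := σ.pos
  have hε : 0 < min δ σ.r := lt_min hδ hr
  obtain ⟨ρ, B, h1, h2, h3, h4, h5⟩ := Gs2998.exists_retr_bd σ.X0 hε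
  refine ⟨ρ, min δ σ.r / 8, h1, fun X => (h3 X).trans_le (min_le_right _ _),
    fun X => (h3 X).trans_le (min_le_left _ _), ⟨B, h4, h5⟩, fun X hX => h2 X (hX.trans ?_), by
      positivity, ?_, ?_⟩
  · linarith
  · have := min_le_left δ σ.r
    linarith
  · have := min_le_right δ σ.r
    linarith

theorem Loc.exists (h : Loc Q) {X0 : Pos p} (hX : C.Reg X0) : ∃ σ : Sl C, σ.X0 = X0 ∧
    ∃ ρ s δ, Rt σ ρ s δ ∧ Q σ ρ s := by
  obtain ⟨δ, hδ, h1⟩ := h X0 hX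
  obtain ⟨σ, h2, h3⟩ := SlEx814.exists_Sl C hX hδ
  obtain ⟨ε, hε, h4⟩ := h1 σ h2 h3.le
  obtain ⟨ρ, s, h5⟩ := exists_rt σ hε
  exact ⟨σ, h2, ρ, s, ε, h5, h4 ρ s h5⟩

section glue

variable (P : TPack C M R G) (m : ℝ)

/-- `Q` for all the cut-offs of the assembly. -/
def LocK (Q : ∀ (σ : Sl C) (_ : Pos p → Pos p) (_ : Sc b (C.cf σ.X0) → ℝ), Prop) : Prop :=
  Loc (C := C) fun σ ρ s => ∀ ϑ : Pos p → ℝ, ContDiff ℝ ∞ ϑ → Cut σ (cutm σ ϑ (HQ998.rad s)) →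
    Q σ ρ (cutm σ ϑ (HQ998.rad s))

variable {P m}

/-- 424's (I4). -/
theorem i4_loc : LocK (C := C) fun σ ρ κ => I4In P σ ρ κ m :=
  Loc.of_all fun σ => ⟨1, one_pos, fun ρ s h ϑ _ hκ =>
    PairI424.i4In P σ m h.smooth h.near hκ (r1 := s) (by have := h.le_r; have := σ.pos; linarith)
      (fun x hx => by
        by_contra h1
        apply hx
        unfold cutm
        rw [HQ998.rad_zero h.pos (not_le.1 h1).le, mul_zero])
      (fun X hX => h.fix X (hX.trans (by have := h.pos; linarith)))⟩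

/-- **The inputs of the local capture estimate.** -/
theorem locAll_of
    (h1 : Loc (C := C) fun σ ρ s => I1In P σ ρ (HQ998.rad s) m)
    (ht : Loc (C := C) fun σ _ s => TailIn (R := R) (M := M) (G := G) σ (HQ998.rad s) m)
    (hm : LocK (C := C) fun σ ρ κ => MassIn P σ ρ κ m)
    (hq : LocK (C := C) fun σ ρ κ => HQIn P σ ρ κ m)
    (h3 : LocK (C := C) fun σ ρ κ => I3In P σ ρ κ m) : LocAll P m := by
  intro X0 hX0
  obtain ⟨σ, hσ, ρ, s, δ, hr, ⟨⟨a1, a2⟩, a3⟩, ⟨a4, a5⟩, a6⟩ :=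
    (((h1.and ht).and hm).and ((hq.and h3).and (i4_loc (P := P) (m := m)))).exists hX0
  refine ⟨σ, hσ, ρ, s, hr.pos, ⟨hr.smooth, hr.near, HQ998.contDiff_rad s, HQ998.hcs_rad hr.pos,
    a1, a2, fun ϑ hϑ hκ => ⟨a3 ϑ hϑ hκ, a4 ϑ hϑ hκ, a5 ϑ hϑ hκ, a6 ϑ hϑ hκ⟩⟩⟩

end glue

end Crest.Agent.R330.LocF478

end
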