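import Crest.Agent.R330.GapAllN_967
import Crest.Agent.R330.S5Defs_798
import Crest.Agent.R330.Lit_416

/-!
# Row 330, section 5 (helper967): the lower bound of the dimension from trial states

* `lower_of_gap : GapAll N → Trial N → Lower N`, `lower_of : Trial N → Lower N`.
-/

set_option autoImplicit false
set_option linter.unusedSectionVars false

open MeasureTheory Filter Topology Crest.MathPhysics.MatrixQM
open scoped ContDiff InnerProductSpace ENNReal Cardinal

noncomputable section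

namespace Crest.Agent.R330.Low967

open Crest.Agent.R330.Defs478 Crest.Agent.R330.Top478 Crest.Agent.R330.FA416
  Crest.Agent.R330.Dict416 Crest.Agent.R330.S5Defs798 Crest.Agent.R330.Lit416

/-- **lower bound of the dimension** : finitely many core vectors with disjoint supports and small
energy quotient. -/
theorem dimGe_of_disjoint {N : ℕ} {F : Type*} [NormedAddCommGroup F] [InnerProductSpace ℂ F]
    [FiniteDimensional ℂ F] {b : ColorBasis N} {M : FermionRep N F} {R : GaugeAction b M}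
    {G : GammaNine} {g m δ ε : ℝ} (hG : Sec478.GapZ b M R G g m δ) (hδ : 0 < δ) {ι₀ : Type*}
    [Fintype ι₀] (φ : ι₀ → Cfg N → F) (hφ : ∀ l, IsCoreVec b R (φ l))
    (hpos : ∀ l, 0 < ∫ x, ‖φ l x‖ ^ 2) (hq : ∀ l, qf b M G g m (φ l) ≤ ε * ∫ x, ‖φ l x‖ ^ 2)
    (hd : ∀ l l', l ≠ l' → Disjoint (tsupport (φ l)) (tsupport (φ l')))
    (hε : (Fintype.card ι₀ : ℝ) * ε < δ) : Sec478.DimGe b M R G g m (Fintype.card ι₀) := by
  classical
  rw [dimGe_iff]
  set k := Fintype.card ι₀ with hk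
  let e : Fin k ≃ ι₀ := (Fintype.equivFin ι₀).symm
  let v : ι₀ → core b R := fun l => ⟨φ l, hφ l⟩
  have hn : ∀ l, 0 < ‖ιC R (v l)‖ := fun l => by
    have h1 : ‖ιC R (v l)‖ ^ 2 = ∫ x, ‖φ l x‖ ^ 2 := norm_ιC_sq (v l)
    have h2 := hpos l
    rw [← h1] at h2
    refine (norm_nonneg _).lt_of_ne' fun h0 => ?_
    rw [h0] at h2
    norm_num at h2
  rcases Nat.eq_zero_or_pos k with hk0 | hk0
  · rw [hk0]
    exact dimGe_zero
  have hε0 : 0 ≤ ε := by
    have h1 := (qf_nonneg (b := b) (M := M) (G := G) (g := g) (m := m) (φ (e ⟨0, hk0⟩))).trans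
      (hq (e ⟨0, hk0⟩))
    exact nonneg_of_mul_nonneg_left h1 (hpos _)
  refine dimGe_of_gram (gapZ_iff.1 hG) (by positivity) (k := k)
    (fun i => ((‖ιC R (v (e i))‖⁻¹ : ℝ) : ℂ) • v (e i)) (ε := 0) (τ := Real.sqrt (16 * ε))
    (fun i j => ?_) (fun i => ?_) ?_
  · rw [map_smul, map_smul, inner_smul_left, inner_smul_right, Complex.conj_ofReal]
    by_cases hij : i = j
    · subst hij
      rw [if_pos rfl, inner_self_eq_norm_sq_to_K]
      have h1 : (‖ιC R (v (e i))‖ : ℂ) ≠ 0 := by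
        exact_mod_cast (hn (e i)).ne'
      have h2 : (((‖ιC R (v (e i))‖⁻¹ : ℝ) : ℂ)) * ((((‖ιC R (v (e i))‖⁻¹ : ℝ) : ℂ)) *
          ((‖ιC R (v (e i))‖ : ℂ)) ^ 2) = 1 := by
        push_cast
        field_simp
      have h3 : (((‖ιC R (v (e i))‖⁻¹ : ℝ) : ℂ)) * ((((‖ιC R (v (e i))‖⁻¹ : ℝ) : ℂ)) *
          ((RCLike.ofReal (‖ιC R (v (e i))‖) : ℂ)) ^ 2) = 1 := h2
      rw [h3]
      simp
    · rw [if_neg hij, inner_ιC]
      have h1 : ∀ x, ⟪(v (e i)).1 x, (v (e j)).1 x⟫_ℂ = 0 := by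
        intro x
        have h2 := hd (e i) (e j) (fun h => hij (e.injective h))
        by_cases hx : x ∈ tsupport (φ (e i))
        · have h3 : x ∉ tsupport (φ (e j)) := fun h => (Set.disjoint_left.1 h2) hx h
          have h4 : (v (e j)).1 x = 0 := image_eq_zero_of_notMem_tsupport h3
          rw [h4, inner_zero_right]
        · have h4 : (v (e i)).1 x = 0 := image_eq_zero_of_notMem_tsupport hx
          rw [h4, inner_zero_left]
      simp [h1]
  · refine Real.le_sqrt_of_sq_le ?_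
    have h1 := norm_QC_sq (b := b) (M := M) (R := R) G g m (v (e i))
    have h2 : ‖ιC R (v (e i))‖ ^ 2 = ∫ x, ‖φ (e i) x‖ ^ 2 := norm_ιC_sq (v (e i))
    rw [map_smul, norm_smul, mul_pow, h1]
    have h3 := hq (e i)
    rw [← h2] at h3
    have h4 : ‖((‖ιC R (v (e i))‖⁻¹ : ℝ) : ℂ)‖ ^ 2 = (‖ιC R (v (e i))‖ ^ 2)⁻¹ := by
      rw [Complex.norm_real, Real.norm_eq_abs, sq_abs, inv_pow]
    rw [h4]
    have h5 : 0 < ‖ιC R (v (e i))‖ ^ 2 := by have := hn (e i); positivity
    rw [inv_mul_le_iff₀ h5]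
    change 16 * qf b M G g m (φ (e i)) ≤ _
    linarith
  · rw [Real.sq_sqrt (by positivity), mul_zero, sub_zero, mul_one]
    linarith

theorem lower_of_gap {N : ℕ} (hG : Sec478.GapAll N) (hT : Trial N) : Lower N := by
  intro F _ _ _ _ b M R G
  obtain ⟨g₀, h0, h⟩ := hT F b M R G (1 / (24 * (pN N + 1))) (by positivity)
  refine ⟨g₀, h0, fun g hg hg' => ?_⟩
  obtain ⟨φ, h1, h2, h3, h4⟩ := h g hg hg'
  refine dimGe_of_disjoint (hG F b M R G g hg) (by norm_num) φ h1 h2 h3 h4 ?_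
  change (pN N : ℝ) * (1 / (24 * (pN N + 1))) < 1 / 24
  have h5 : (0 : ℝ) ≤ pN N := Nat.cast_nonneg _
  rw [mul_one_div, div_lt_div_iff₀ (by positivity) (by norm_num)]
  linarith

/-- **`Lower N` from `Trial N`** -/
theorem lower_of {N : ℕ} (hT : Trial N) : Lower N := lower_of_gap (GapAllN967.gapAll N) hT

end Crest.Agent.R330.Low967

end
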