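import Crest.Agent.R330.Moment_776
import Crest.Agent.R330.WeitzY_726
import Crest.Agent.R330.Brid_837

/-!
# Row 330, section 7: the moment lemma, unconditional (helper776)

`energy_holds : Energy b M G` from 726's (1.1); `V1_eq_pot : V1 b G x = pot b x`; `momentF`.
-/

set_option autoImplicit false
set_option linter.unusedSectionVars false

open MeasureTheory Filter Topology
open scoped ContDiff InnerProductSpace ENNReal
open Crest.MathPhysics.MatrixQM
open Crest.Agent.R330.Defs478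

noncomputable section

namespace Crest.Agent.R330.Moment776

variable {N : ℕ} {F : Type*} [NormedAddCommGroup F] [InnerProductSpace ℂ F]
  [FiniteDimensional ℂ F]

theorem Wsq_eq (b : ColorBasis N) (G : GammaNine) (g m : ℝ) (x : Cfg N) :
    Weitz726.Wsq (wpot b G g m) x / 32 = Vsq b G g m x := by
  unfold Weitz726.Wsq Weitz726.dp Vsq
  rw [div_eq_inv_mul]
  norm_num
  exact Finset.sum_congr rfl fun α _ => Finset.sum_congr rfl fun β _ =>
    Finset.sum_congr rfl fun A _ => by ring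

/-- The quartic potential is 186's `pot`. -/
theorem V1_eq_pot (b : ColorBasis N) (G : GammaNine) (x : Cfg N) : V1 b G x = Bar186.pot b x := by
  unfold V1
  rw [← Wsq_eq, ← Weitz726.wco_eq_wpot, Weitz726.Wsq_wco]
  ring

theorem energy_holds (b : ColorBasis N) (M : FermionRep N F) (G : GammaNine) :
    Energy b M G := by
  obtain ⟨C1, hC1, hY⟩ := Weitz726.Yop_bound b M G
  obtain ⟨C2, hC2, hI⟩ : ∃ C : ℝ, 0 ≤ C ∧ ∀ v : F, ‖Weitz726.IG M G v‖ ≤ C * ‖v‖ :=
    ⟨‖LinearMap.toContinuousLinearMap (Weitz726.IG M G)‖, norm_nonneg _, fun v =>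
      (LinearMap.toContinuousLinearMap (Weitz726.IG M G)).le_opNorm v⟩
  refine ⟨C1 + C2, by positivity, fun g m hg hm φ hφ hc => ?_⟩
  have h := Weitz726.energy b M G g m (φ := φ) (by exact_mod_cast contDiff_infty.1 hφ 2) hc
  have hq : qf b M G g m φ = (1 / 16 : ℝ) * ∑ α, ∫ x,
      ‖IBP837.chargeW M G (wpot b G g m) α φ x‖ ^ 2 := by
    unfold qf
    simp only [Brid837.dcharge_eq]
  have hφc := hφ.continuous
  have hgs : ∫ x, gsq φ x = ∑ k : Fin 9 × Fin (N ^ 2 - 1),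
      ∫ x, ‖fderiv ℝ φ x (EuclideanSpace.single k 1)‖ ^ 2 := by
    unfold gsq
    rw [integral_finsetSum]
    intro k _
    have h1 : ContDiff ℝ 1 φ := hφ.of_le (by simp)
    refine (((h1.continuous_fderiv one_ne_zero).clm_apply
      continuous_const).norm.pow 2).integrable_of_hasCompactSupport ?_
    refine (hc.fderiv (𝕜 := ℝ)).mono' fun x hx => subset_tsupport _ ?_
    intro h0
    exact hx (by simp [h0])
  have hV : ∀ x, Weitz726.Wsq (wpot b G g m) x / 32 * ‖φ x‖ ^ 2 =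
      Vsq b G g m x * ‖φ x‖ ^ 2 := fun x => by rw [Wsq_eq]
  simp only [hV] at h
  rw [hq, h, hgs]
  have hLb : ∀ x, -((C1 + C2) * (g * ‖x‖ + m) * ‖φ x‖ ^ 2) ≤
      (⟪φ x, ((g : ℂ) • Weitz726.Yop b M G x + ((m / 8 : ℝ) : ℂ) • Weitz726.IG M G) (φ x)⟫_ℂ).re := by
    intro x
    have h1 : ‖((g : ℂ) • Weitz726.Yop b M G x + ((m / 8 : ℝ) : ℂ) • Weitz726.IG M G) (φ x)‖ ≤
        (C1 + C2) * (g * ‖x‖ + m) * ‖φ x‖ := by
      rw [LinearMap.add_apply, LinearMap.smul_apply, LinearMap.smul_apply]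
      refine (norm_add_le _ _).trans ?_
      rw [norm_smul, norm_smul, Complex.norm_real, Complex.norm_real, Real.norm_of_nonneg hg,
        Real.norm_of_nonneg (by positivity)]
      have h2 := mul_le_mul_of_nonneg_left (hY x (φ x)) hg
      have h3 := mul_le_mul_of_nonneg_left (hI (φ x)) (show 0 ≤ m / 8 by positivity)
      have h4 : 0 ≤ C1 * m * ‖φ x‖ := by positivity
      have h5 : 0 ≤ C2 * (g * ‖x‖) * ‖φ x‖ := by positivity
      have h6 : 0 ≤ C2 * m * ‖φ x‖ := by positivity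
      nlinarith
    have h2 := norm_inner_le_norm (𝕜 := ℂ) (φ x)
      (((g : ℂ) • Weitz726.Yop b M G x + ((m / 8 : ℝ) : ℂ) • Weitz726.IG M G) (φ x))
    have h3 := (abs_le.1 (Complex.abs_re_le_norm
      (⟪φ x, ((g : ℂ) • Weitz726.Yop b M G x + ((m / 8 : ℝ) : ℂ) • Weitz726.IG M G) (φ x)⟫_ℂ))).1
    have h4 := mul_le_mul_of_nonneg_left h1 (norm_nonneg (φ x))
    nlinarith
  have iR : Integrable fun x => (C1 + C2) * (g * ‖x‖ + m) * ‖φ x‖ ^ 2 := by
    refine Continuous.integrable_of_hasCompactSupport (by fun_prop) ?_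
    refine hc.mono fun x hx h0 => hx ?_
    simp [h0]
  by_cases iL : Integrable fun x =>
      (⟪φ x, ((g : ℂ) • Weitz726.Yop b M G x + ((m / 8 : ℝ) : ℂ) • Weitz726.IG M G) (φ x)⟫_ℂ).re
  · have h5 := integral_mono iR.neg iL hLb
    rw [integral_neg' ] at h5
    linarith
  · rw [integral_undef iL]
    have h6 : 0 ≤ ∫ x, (C1 + C2) * (g * ‖x‖ + m) * ‖φ x‖ ^ 2 :=
      integral_nonneg fun x => by positivity
    linarith

/-- **The moment lemma**, unconditional, with `V1 = pot b`. -/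
theorem momentF (b : ColorBasis N) (M : FermionRep N F) (G : GammaNine) {ρ K : ℝ} (hρ : 0 ≤ ρ)
    (hK : 0 ≤ K) : ∃ C : ℝ, 0 ≤ C ∧
    ∀ g m : ℝ, 1 ≤ g → 0 ≤ m → m ^ 2 ≤ K * g → ∀ φ : Cfg N → F, ContDiff ℝ ∞ φ →
    (∀ x, ρ < ‖x‖ → φ x = 0) →
    (∫ x : Cfg N, Bar186.pot b x * gsq φ x) + g ^ 2 * (∫ x : Cfg N, Bar186.pot b x ^ 2 * ‖φ x‖ ^ 2) +
        g * (∫ x : Cfg N, Bar186.pot b x * ‖φ x‖ ^ 2) + g⁻¹ * (∫ x, gsq φ x) ≤
      C * (qf b M G g m φ + ∫ x, ‖φ x‖ ^ 2) := by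
  have h := moment (energy_holds b M G) hρ hK
  simpa only [V1_eq_pot] using h

end Crest.Agent.R330.Moment776

end
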