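import Crest.Agent.R330.EnLow_302
import Crest.Agent.R330.Esa_596
import Crest.Agent.R330.Amp_837
import Crest.Agent.R330.Lsc_441
import Crest.Agent.R330.ScaleD_423
import Crest.Agent.R330.TrialSys_796

/-!
# Row 330 (helper942), leaf NEAR0a of doc 92: no mass at the scale `g^{-1/3}`

* `weak_null` : core functions `f j`, bounded in `L²`, with `q_{1,m_j}(f j) → 0`, `m_j → 0` and
  asymptotically orthogonal to the zero states of `Q^{1,0}`, are weakly null in `L²`.
* `local_null` : they are strongly null on every ball.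
* `near0a` : the literal form at coupling `g_j → ∞`, mass `1`.
-/

set_option autoImplicit false
set_option linter.unusedSectionVars false

open MeasureTheory Filter Topology Crest.MathPhysics.MatrixQM
open scoped ContDiff InnerProductSpace ENNReal

noncomputable section

namespace Crest.Agent.R330.Near0a942

open Crest.Agent.R330.Defs478 Crest.Agent.R330.Dict416 Crest.Agent.R330.FA416
  Crest.Agent.R330.Scale423 Crest.Agent.R330.ScaleD423 Crest.Agent.R330.TrialSys796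
  Crest.Agent.R330.WSLit596 Crest.Agent.R330.Esa596 Crest.Agent.R330.Brid837
  Crest.Agent.R330.Off2302

variable {N : ℕ} {F : Type*} [NormedAddCommGroup F] [InnerProductSpace ℂ F]
  [FiniteDimensional ℂ F] {b : ColorBasis N} {M : FermionRep N F} {R : GaugeAction b M}
  {G : GammaNine}

/-- the charges are affine in the mass -/
theorem dcharge_mass (g m : ℝ) (α : Fin 16) (φ : Cfg N → F) (x : Cfg N) :
    dcharge b M G g m α φ x = dcharge b M G g 0 α φ x +
      (m : ℂ) • (dcharge b M G g 1 α φ x - dcharge b M G g 0 α φ x) := by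
  have h : ∀ (β : Fin 16) (A : Fin (N ^ 2 - 1)), wpot b G g m α β A x =
      wpot b G g 0 α β A x + m * (wpot b G g 1 α β A x - wpot b G g 0 α β A x) := by
    intro β A
    unfold wpot
    ring
  have h2 : dcharge b M G g 1 α φ x - dcharge b M G g 0 α φ x =
      ∑ A : Fin (N ^ 2 - 1), ∑ β : Fin 16,
        ((wpot b G g 1 α β A x - wpot b G g 0 α β A x : ℝ) : ℂ) • M.θ β A (φ x) := by
    unfold dcharge
    rw [add_sub_add_left_eq_sub, ← Finset.sum_sub_distrib]
    refine Finset.sum_congr rfl fun A _ => ?_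
    rw [← Finset.sum_sub_distrib]
    refine Finset.sum_congr rfl fun β _ => ?_
    rw [← sub_smul]
    push_cast
    rfl
  rw [h2]
  unfold dcharge
  rw [add_assoc]
  congr 1
  rw [Finset.smul_sum, ← Finset.sum_add_distrib]
  refine Finset.sum_congr rfl fun A _ => ?_
  rw [Finset.smul_sum, ← Finset.sum_add_distrib]
  refine Finset.sum_congr rfl fun β _ => ?_
  rw [h β A, smul_smul, ← add_smul]
  push_cast
  rfl

/-- **weak nullity** -/
theorem weak_null {f : ℕ → Cfg N → F} {m : ℕ → ℝ} {C : ℝ} (hf : ∀ j, IsCoreVec b R (f j))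
    (hC : ∀ j, ∫ x, ‖f j x‖ ^ 2 ≤ C) (hm : Tendsto m atTop (𝓝 0))
    (hq : Tendsto (fun j => qf b M G 1 (m j) (f j)) atTop (𝓝 0))
    (ho : ∀ ψ ∈ zset b M R G 1 0, Tendsto (fun j => ∫ x, ⟪ψ x, f j x⟫_ℂ) atTop (𝓝 0))
    {v : Cfg N → F} (hv : MemLp v 2 volume) :
    Tendsto (fun j => ∫ x, ⟪f j x, v x⟫_ℂ) atTop (𝓝 0) := by
  have hcomp : CompleteSpace F := complete_F F
  rw [tendsto_iff_ultrafilter]
  intro U hU
  -- the elements of L²
  set u : ℕ → L2 N F := fun j => (cv_memLp (hf j)).toLp (f j) with hu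
  have hun : ∀ j, ‖u j‖ ^ 2 ≤ C := fun j => by rw [hu]; simp only [norm_toLp_sq]; exact hC j
  have hC0 : 0 ≤ C := (sq_nonneg _).trans (hun 0)
  have hun' : ∀ j, ‖u j‖ ≤ Real.sqrt C := fun j => Real.le_sqrt_of_sq_le (hun j)
  -- the weak limit along the ultrafilter
  obtain ⟨w, -, hw, -⟩ := Lsc441.exists_limit U (LinearMap.id : L2 N F →ₗ[ℂ] L2 N F)
    (fun _ => LinearMap.id) (fun χ ε hε => Eventually.of_forall fun j => by
      simp only [LinearMap.id_apply]; linarith) u (Real.sqrt C) (Eventually.of_forall hun')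
  simp only [LinearMap.id_apply] at hw
  -- it is gauge invariant
  have hwi : InvAE R (w : Cfg N → F) := by
    rw [← mem_clo_iff_inv]
    have h1 : w ∈ (clo (ιC R))ᗮᗮ := by
      rw [Submodule.mem_orthogonal']
      intro z hz
      have h2 : Tendsto (fun j => ⟪u j, z⟫_ℂ) (U : Filter ℕ) (𝓝 0) := by
        refine tendsto_const_nhds.congr fun j => ?_
        have h3 : u j ∈ clo (ιC R) := mem_clo (ι := ιC R) (⟨f j, hf j⟩ : core b R)
        exact ((Submodule.mem_orthogonal _ _).1 hz _ h3).symm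
      exact tendsto_nhds_unique (hw z) h2
    have : (clo (ιC R)).HasOrthogonalProjection := by
      have : CompleteSpace (clo (ιC R)) := (isClosed_clo (ιC R)).completeSpace_coe
      infer_instance
    rwa [Submodule.orthogonal_orthogonal] at h1
  -- the weak equation
  have hz : (w : Cfg N → F) ∈ zset b M R G 1 0 := by
    refine mem_zset_iff_weak.2 ⟨Lp.memLp w, hwi, fun α ψ hψ => ?_⟩
    have hd0 : MemLp (dcharge b M G 1 0 α ψ) 2 volume := cv_memLp_dcharge G 1 0 α hψ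
    have hd1 : MemLp (fun x => dcharge b M G 1 1 α ψ x - dcharge b M G 1 0 α ψ x) 2 volume :=
      (cv_memLp_dcharge G 1 1 α hψ).sub (cv_memLp_dcharge G 1 0 α hψ)
    have h1 : Tendsto (fun j => ⟪u j, hd0.toLp _⟫_ℂ) (U : Filter ℕ) (𝓝 ⟪w, hd0.toLp _⟫_ℂ) :=
      hw _
    have h2 : ⟪w, hd0.toLp _⟫_ℂ = ∫ x, ⟪(w : Cfg N → F) x, dcharge b M G 1 0 α ψ x⟫_ℂ := by
      have := inner_toLp (Lp.memLp w) hd0
      rwa [Lp.toLp_coeFn] at this
    rw [← h2]
    refine tendsto_nhds_unique h1 ?_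
    -- the sequence
    have h3 : ∀ j, ⟪u j, hd0.toLp _⟫_ℂ =
        ⟪(cv_memLp_dcharge G 1 (m j) α (hf j)).toLp (dcharge b M G 1 (m j) α (f j)),
          (cv_memLp hψ).toLp ψ⟫_ℂ - (m j : ℂ) * ⟪u j, hd1.toLp _⟫_ℂ := by
      intro j
      rw [inner_toLp, inner_toLp, inner_toLp, dcharge_symm ((hf j).1.of_le (by norm_cast))
        (hψ.1.of_le (by norm_cast)) (Or.inl (hf j).2.1), ← integral_const_mul, ← integral_sub]
      · refine integral_congr_ae (Eventually.of_forall fun x => ?_)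
        simp only
        rw [dcharge_mass 1 (m j) α ψ x, inner_add_right, inner_smul_right]
        ring
      · exact IBP837.integrable_inner_of_memLp (cv_memLp (hf j)) (cv_memLp_dcharge G 1 (m j) α hψ)
      · exact (IBP837.integrable_inner_of_memLp (cv_memLp (hf j)) hd1).const_mul _
    have h4 : Tendsto (fun j => ‖(cv_memLp_dcharge G 1 (m j) α (hf j)).toLp
        (dcharge b M G 1 (m j) α (f j))‖) atTop (𝓝 0) := by
      have h5 : ∀ j, ‖(cv_memLp_dcharge G 1 (m j) α (hf j)).toLp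
          (dcharge b M G 1 (m j) α (f j))‖ ≤ Real.sqrt (16 * qf b M G 1 (m j) (f j)) := by
        intro j
        refine Real.le_sqrt_of_sq_le ?_
        rw [norm_toLp_sq]
        unfold qf
        have := Finset.single_le_sum (f := fun α => ∫ x, ‖dcharge b M G 1 (m j) α (f j) x‖ ^ 2)
          (fun i _ => integral_nonneg fun x => by positivity) (Finset.mem_univ α)
        linarith
      refine squeeze_zero (fun j => norm_nonneg _) h5 ?_
      have h6 : Tendsto (fun j => Real.sqrt (16 * qf b M G 1 (m j) (f j))) atTop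
          (𝓝 (Real.sqrt (16 * 0))) := (Real.continuous_sqrt.tendsto _).comp (hq.const_mul 16)
      simpa using h6
    have h7 : Tendsto (fun j => ⟪u j, hd0.toLp _⟫_ℂ) atTop (𝓝 0) := by
      refine squeeze_zero_norm (a := fun j => ‖(cv_memLp_dcharge G 1 (m j) α (hf j)).toLp
        (dcharge b M G 1 (m j) α (f j))‖ * ‖(cv_memLp hψ).toLp ψ‖ +
          |m j| * (Real.sqrt C * ‖hd1.toLp _‖)) (fun j => ?_) ?_
      · rw [h3 j]
        refine (norm_sub_le _ _).trans (add_le_add (norm_inner_le_norm _ _) ?_)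
        rw [norm_mul, Complex.norm_real, Real.norm_eq_abs]
        exact mul_le_mul_of_nonneg_left ((norm_inner_le_norm _ _).trans
          (mul_le_mul_of_nonneg_right (hun' j) (norm_nonneg _))) (abs_nonneg _)
      · have h8 : Tendsto (fun j => |m j|) atTop (𝓝 0) := by
          have := hm.abs
          simpa using this
        have := (h4.mul_const ‖(cv_memLp hψ).toLp ψ‖).add
          (h8.mul_const (Real.sqrt C * ‖hd1.toLp _‖))
        simpa using this
    exact h7.mono_left hU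
  -- the weak limit vanishes
  have hw0 : w = 0 := by
    have h1 := (ho _ hz).mono_left hU
    have h2 : ∀ j, ∫ x, ⟪(w : Cfg N → F) x, f j x⟫_ℂ = ⟪w, u j⟫_ℂ := by
      intro j
      have := inner_toLp (Lp.memLp w) (cv_memLp (hf j))
      rw [Lp.toLp_coeFn] at this
      exact this.symm
    simp only [h2] at h1
    have h3 : Tendsto (fun j => ⟪w, u j⟫_ℂ) (U : Filter ℕ) (𝓝 ⟪w, w⟫_ℂ) := by
      have h4 := (Complex.continuous_conj.tendsto _).comp (hw w)
      rw [show (starRingEnd ℂ) ⟪w, w⟫_ℂ = ⟪w, w⟫_ℂ from inner_conj_symm w w] at h4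
      refine h4.congr fun j => ?_
      exact inner_conj_symm w (u j)
    exact inner_self_eq_zero.1 (tendsto_nhds_unique h3 h1)
  have h1 := hw (hv.toLp v)
  rw [hw0, inner_zero_left] at h1
  refine h1.congr fun j => ?_
  exact inner_toLp (cv_memLp (hf j)) hv

/-! ### the cut-off -/

/-- radial cut-off, `1` on `|x| ≤ ρ`, `0` for `|x| ≥ 2ρ` -/
def cutf (N : ℕ) (ρ : ℝ) (x : Cfg N) : ℝ := Real.smoothTransition (2 - ‖x‖ ^ 2 / ρ ^ 2)

theorem cutf_contDiff (ρ : ℝ) : ContDiff ℝ ∞ (cutf N ρ) :=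
  Real.smoothTransition.contDiff.comp (contDiff_const.sub ((contDiff_norm_sq ℝ).div_const _))

theorem cutf_nonneg (ρ : ℝ) (x : Cfg N) : 0 ≤ cutf N ρ x := Real.smoothTransition.nonneg _

theorem cutf_le_one (ρ : ℝ) (x : Cfg N) : cutf N ρ x ≤ 1 := Real.smoothTransition.le_one _

theorem cutf_abs_le (ρ : ℝ) (x : Cfg N) : |cutf N ρ x| ≤ 1 := by
  rw [abs_of_nonneg (cutf_nonneg ρ x)]
  exact cutf_le_one ρ x

theorem cutf_eq_one {ρ : ℝ} (hρ : 0 < ρ) {x : Cfg N} (hx : ‖x‖ ≤ ρ) : cutf N ρ x = 1 := by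
  refine Real.smoothTransition.one_of_one_le ?_
  have : ‖x‖ ^ 2 / ρ ^ 2 ≤ 1 := by
    rw [div_le_one (by positivity)]
    exact pow_le_pow_left₀ (norm_nonneg _) hx 2
  linarith

theorem cutf_eq_zero {ρ : ℝ} (hρ : 0 < ρ) {x : Cfg N} (hx : 2 * ρ < ‖x‖) : cutf N ρ x = 0 := by
  refine Real.smoothTransition.zero_of_nonpos ?_
  have h3 : (2 * ρ) ^ 2 ≤ ‖x‖ ^ 2 := pow_le_pow_left₀ (by positivity) hx.le 2
  have h4 : 2 ≤ ‖x‖ ^ 2 / ρ ^ 2 := by
    rw [le_div_iff₀ (by positivity)]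
    nlinarith
  linarith

theorem cutf_compact {ρ : ℝ} (hρ : 0 < ρ) : HasCompactSupport (cutf N ρ) := by
  refine HasCompactSupport.intro (isCompact_closedBall (0 : Cfg N) (2 * ρ)) fun x hx => ?_
  rw [mem_closedBall_zero_iff, not_le] at hx
  exact cutf_eq_zero hρ hx

theorem Vsq_nonneg (g m : ℝ) (x : Cfg N) : 0 ≤ VId87.Vsq G b g m x := by
  unfold VId87.Vsq
  have : 0 ≤ ∑ α : Fin 16, ∑ β : Fin 16, ∑ A : Fin (N ^ 2 - 1), wpot b G g m α β A x ^ 2 :=
    Finset.sum_nonneg fun α _ => Finset.sum_nonneg fun β _ => Finset.sum_nonneg fun A _ =>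
      sq_nonneg _
  positivity

/-- **strong local nullity** -/
theorem local_null {f : ℕ → Cfg N → F} {m : ℕ → ℝ} {C : ℝ} (hf : ∀ j, IsCoreVec b R (f j))
    (hC : ∀ j, ∫ x, ‖f j x‖ ^ 2 ≤ C) (hm0 : ∀ j, 0 ≤ m j) (hm : Tendsto m atTop (𝓝 0))
    (hq : Tendsto (fun j => qf b M G 1 (m j) (f j)) atTop (𝓝 0))
    (ho : ∀ ψ ∈ zset b M R G 1 0, Tendsto (fun j => ∫ x, ⟪ψ x, f j x⟫_ℂ) atTop (𝓝 0)) (ρ : ℝ) :
    Tendsto (fun j => ∫ x in {x : Cfg N | ‖x‖ ≤ ρ}, ‖f j x‖ ^ 2) atTop (𝓝 0) := by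
  -- a positive radius is enough
  wlog hρ : 0 < ρ generalizing ρ
  · have h1 := this (max ρ 1) (lt_of_lt_of_le one_pos (le_max_right _ _))
    refine squeeze_zero (fun j => integral_nonneg fun x => by positivity) (fun j => ?_) h1
    refine setIntegral_mono_set (integrable_sq (hf j).1.continuous (hf j).2.1).integrableOn
      (Eventually.of_forall fun x => by positivity) (Eventually.of_forall fun x hx => ?_)
    exact le_trans (show ‖x‖ ≤ ρ from hx) (le_max_left _ _)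
  obtain ⟨C₁, hC₁, hEn⟩ := EnLow302.enLow b M G
  obtain ⟨Lg, hLg0, hLg⟩ := exists_grad_bound ((cutf_contDiff (N := N) ρ).of_le (by simp))
    (cutf_compact hρ)
  -- bounds of the sequences
  obtain ⟨Cq, hCq⟩ := hq.bddAbove_range
  obtain ⟨Cm, hCm⟩ := hm.bddAbove_range
  have hCq' : ∀ j, qf b M G 1 (m j) (f j) ≤ Cq := fun j => hCq ⟨j, rfl⟩
  have hCm' : ∀ j, m j ≤ Cm := fun j => hCm ⟨j, rfl⟩
  have hCm0 : 0 ≤ Cm := (hm0 0).trans (hCm' 0)
  have hC0 : 0 ≤ C := (integral_nonneg fun x => by positivity).trans (hC 0)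
  set u : ℕ → Cfg N → F := fun j x => cutf N ρ x • f j x with hu
  have hus : ∀ j, ContDiff ℝ ∞ (u j) := fun j => (cutf_contDiff ρ).smul (hf j).1
  have huc : ∀ j, HasCompactSupport (u j) := fun j => (hf j).2.1.smul_left
  have hun : ∀ j, ∫ x, ‖u j x‖ ^ 2 ≤ C := by
    intro j
    refine le_trans (integral_mono (integrable_sq (hus j).continuous (huc j))
      (integrable_sq (hf j).1.continuous (hf j).2.1) fun x => ?_) (hC j)
    simp only [hu]
    rw [norm_smul, Real.norm_eq_abs, mul_pow]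
    exact mul_le_of_le_one_left (by positivity)
      (pow_le_one₀ (abs_nonneg _) (cutf_abs_le ρ x))
  have hgr : ∀ j, ∫ x, ∑ i : Fin 9 × Fin (N ^ 2 - 1),
      ‖fderiv ℝ (u j) x (EuclideanSpace.single i 1)‖ ^ 2 ≤
        2 * ((2 * Cq + Lg ^ 2 * C) + C₁ * ((2 * ρ + Cm) * C)) := by
    intro j
    have hint : ∀ i : Fin 9 × Fin (N ^ 2 - 1),
        Integrable fun x => ‖fderiv ℝ (u j) x (EuclideanSpace.single i 1)‖ ^ 2 := by
      intro i
      have hc1 : Continuous fun x => fderiv ℝ (u j) x (EuclideanSpace.single i 1) :=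
        ((hus j).continuous_fderiv (by simp)).clm_apply continuous_const
      have hc2 : HasCompactSupport fun x => fderiv ℝ (u j) x (EuclideanSpace.single i 1) :=
        (huc j).fderiv_apply (𝕜 := ℝ) _
      exact integrable_sq hc1 hc2
    rw [integral_finsetSum _ fun i _ => hint i]
    have h1 := hEn 1 (m j) zero_le_one (hm0 j) (u j) (hus j) (huc j)
    have h2 : 0 ≤ ∫ x, VId87.Vsq G b 1 (m j) x * ‖u j x‖ ^ 2 :=
      integral_nonneg fun x => mul_nonneg (Vsq_nonneg _ _ _) (by positivity)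
    have h3 := qf_mul_le b M G 1 (m j) (χ := cutf N ρ) ((cutf_contDiff ρ).of_le (by simp))
      (cutf_abs_le ρ) hLg ((hf j).1.of_le (by norm_cast)) (hf j).2.1
    have h4 : Lg ^ 2 * ∫ x, ‖f j x‖ ^ 2 ≤ Lg ^ 2 * C :=
      mul_le_mul_of_nonneg_left (hC j) (sq_nonneg _)
    have h5 : ∫ x, (1 * ‖x‖ + m j) * ‖u j x‖ ^ 2 ≤ (2 * ρ + Cm) * C := by
      have h6 : ∫ x, (1 * ‖x‖ + m j) * ‖u j x‖ ^ 2 ≤ ∫ x, (2 * ρ + Cm) * ‖u j x‖ ^ 2 := by
        refine integral_mono (integrable_mul_sq (hus j).continuous (huc j)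
          ((continuous_const.mul continuous_norm).add continuous_const))
          ((integrable_sq (hus j).continuous (huc j)).const_mul _) fun x => ?_
        simp only
        by_cases hx : 2 * ρ < ‖x‖
        · simp [hu, cutf_eq_zero hρ hx]
        · rw [not_lt] at hx
          refine mul_le_mul_of_nonneg_right ?_ (by positivity)
          have := hCm' j
          linarith
      rw [integral_const_mul] at h6
      exact h6.trans (mul_le_mul_of_nonneg_left (hun j) (by positivity))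
    have h7 : C₁ * ∫ x, (1 * ‖x‖ + m j) * ‖u j x‖ ^ 2 ≤ C₁ * ((2 * ρ + Cm) * C) :=
      mul_le_mul_of_nonneg_left h5 hC₁
    have h8 := hCq' j
    have h9 : qf b M G 1 (m j) (u j) ≤ 2 * qf b M G 1 (m j) (f j) +
        Lg ^ 2 * ∫ x, ‖f j x‖ ^ 2 := h3
    linarith
  have hwk : ∀ χ : Cfg N → F, ContDiff ℝ ∞ χ → HasCompactSupport χ →
      Tendsto (fun j => ∫ x, ⟪u j x, χ x⟫_ℂ) atTop (𝓝 0) := by
    intro χ hχ hχc
    have hv : MemLp (fun x => cutf N ρ x • χ x) 2 volume :=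
      (((cutf_contDiff (N := N) ρ).smul hχ).continuous).memLp_of_hasCompactSupport hχc.smul_left
    refine (weak_null hf hC hm hq ho hv).congr fun j => ?_
    refine integral_congr_ae (Eventually.of_forall fun x => ?_)
    simp only [hu]
    rw [← Complex.coe_smul, ← Complex.coe_smul, inner_smul_right, inner_smul_left,
      Complex.conj_ofReal]
  set K : ℝ := max C (2 * ((2 * Cq + Lg ^ 2 * C) + C₁ * ((2 * ρ + Cm) * C))) with hK
  have hfin := Amp837.strong_null_of_weak (φ := u) hus huc (C := K) (ρ := 2 * ρ)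
    (fun j => (hun j).trans (le_max_left _ _)) (fun j => (hgr j).trans (le_max_right _ _))
    (fun j x hx => by simp [hu, cutf_eq_zero hρ hx]) hwk
  refine squeeze_zero (fun j => integral_nonneg fun x => by positivity) (fun j => ?_) hfin
  have h1 : ∫ x in {x : Cfg N | ‖x‖ ≤ ρ}, ‖f j x‖ ^ 2 =
      ∫ x in {x : Cfg N | ‖x‖ ≤ ρ}, ‖u j x‖ ^ 2 := by
    refine setIntegral_congr_fun (measurableSet_le measurable_norm measurable_const)
      fun x hx => ?_
    simp only [hu]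
    rw [cutf_eq_one hρ hx, one_smul]
  rw [h1]
  exact setIntegral_le_integral (integrable_sq (hus j).continuous (huc j))
    (Eventually.of_forall fun x => by positivity)

/-! ### scaling -/

/-- the mass of a scaled function in a ball -/
theorem integral_ball_Us {l : ℝ} (hl : 0 < l) (f : Cfg N → F) (r : ℝ) :
    ∫ x in {x : Cfg N | ‖x‖ ≤ r * l⁻¹}, ‖Us l f x‖ ^ 2 =
      ∫ x in {x : Cfg N | ‖x‖ ≤ r}, ‖f x‖ ^ 2 := by
  rw [← integral_indicator (measurableSet_le measurable_norm measurable_const),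
    ← integral_indicator (measurableSet_le measurable_norm measurable_const)]
  set k : Cfg N → ℝ := {x : Cfg N | ‖x‖ ≤ r}.indicator fun x => ‖f x‖ ^ 2 with hk
  have h1 : ∀ x : Cfg N, ({x : Cfg N | ‖x‖ ≤ r * l⁻¹}.indicator fun x => ‖Us l f x‖ ^ 2) x =
      nrm N l ^ 2 * k (l • x) := by
    intro x
    have h2 : (‖x‖ ≤ r * l⁻¹) ↔ ‖l • x‖ ≤ r := by
      rw [norm_smul, Real.norm_of_nonneg hl.le, ← div_eq_mul_inv, le_div_iff₀ hl, mul_comm]
    by_cases hx : ‖x‖ ≤ r * l⁻¹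
    · rw [Set.indicator_of_mem (show x ∈ {x : Cfg N | ‖x‖ ≤ r * l⁻¹} from hx), hk,
        Set.indicator_of_mem (show l • x ∈ {x : Cfg N | ‖x‖ ≤ r} from h2.1 hx)]
      simp only [Us, norm_smul, Complex.norm_real, Real.norm_of_nonneg (nrm_pos hl).le, mul_pow]
    · rw [Set.indicator_of_notMem (show x ∉ {x : Cfg N | ‖x‖ ≤ r * l⁻¹} from hx), hk,
        Set.indicator_of_notMem (show l • x ∉ {x : Cfg N | ‖x‖ ≤ r} from fun h => hx (h2.2 h)),
        mul_zero]
  simp only [h1]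
  rw [integral_const_mul, Measure.integral_comp_smul volume k l, nrm_sq hl,
    abs_of_pos (inv_pos.2 (pow_pos hl _)), smul_eq_mul, ← mul_assoc,
    mul_inv_cancel₀ (pow_pos hl _).ne', one_mul]

theorem qf_nonneg (g m : ℝ) (φ : Cfg N → F) : 0 ≤ qf b M G g m φ := by
  unfold qf
  have : 0 ≤ ∑ α : Fin 16, ∫ x, ‖dcharge b M G g m α φ x‖ ^ 2 :=
    Finset.sum_nonneg fun α _ => integral_nonneg fun x => by positivity
  positivity

/-- **NEAR0a**, any fixed mass: core functions of bounded energy at couplings `g j → ∞`,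
asymptotically orthogonal to the scaled zero states, have no mass at the scale `g^{-1/3}`. -/
theorem near0a_mass {g : ℕ → ℝ} {m : ℝ} (hm : 0 ≤ m) {φ : ℕ → Cfg N → F} {C : ℝ}
    (hg : Tendsto g atTop atTop) (hφ : ∀ j, IsCoreVec b R (φ j))
    (hE : ∀ j, En b M G (g j) m (φ j) ≤ C)
    (ho : ∀ ψ ∈ zset b M R G 1 0,
      Tendsto (fun j => ∫ x, ⟪Us (g j ^ ((1 : ℝ) / 3)) ψ x, φ j x⟫_ℂ) atTop (𝓝 0)) (r : ℝ) :
    Tendsto (fun j => ∫ x in {x : Cfg N | ‖x‖ ≤ r * (g j ^ ((1 : ℝ) / 3))⁻¹}, ‖φ j x‖ ^ 2)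
      atTop (𝓝 0) := by
  obtain ⟨j₀, hj₀⟩ := (hg.eventually_ge_atTop 1).exists_forall_of_atTop
  rw [← tendsto_add_atTop_iff_nat j₀]
  set l : ℕ → ℝ := fun j => g (j + j₀) ^ ((1 : ℝ) / 3) with hl
  have hg0 : ∀ j, 0 < g (j + j₀) := fun j => lt_of_lt_of_le one_pos (hj₀ _ (by omega))
  have hl0 : ∀ j, 0 < l j := fun j => Real.rpow_pos_of_pos (hg0 j) _
  have hl3 : ∀ j, l j ^ 3 = g (j + j₀) := fun j => by
    rw [hl]
    simp only
    rw [← Real.rpow_natCast, ← Real.rpow_mul (hg0 j).le]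
    norm_num
  have hlt : Tendsto l atTop atTop :=
    (tendsto_rpow_atTop (by norm_num : (0 : ℝ) < 1 / 3)).comp
      (hg.comp (tendsto_add_atTop_nat j₀))
  have hl2 : Tendsto (fun j => (l j ^ 2)⁻¹) atTop (𝓝 0) :=
    tendsto_inv_atTop_zero.comp ((tendsto_pow_atTop two_ne_zero).comp hlt)
  set f : ℕ → Cfg N → F := fun j => Us (l j)⁻¹ (φ (j + j₀)) with hf
  have hfφ : ∀ j, Us (l j) (f j) = φ (j + j₀) := fun j => Us_inv_right (hl0 j) _
  have hfc : ∀ j, IsCoreVec b R (f j) := fun j => core_Us (inv_pos.2 (hl0 j)) (hφ _)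
  have hfn : ∀ j, ∫ x, ‖f j x‖ ^ 2 = ∫ x, ‖φ (j + j₀) x‖ ^ 2 := fun j =>
    integral_norm_sq_Us (inv_pos.2 (hl0 j)) _
  have hfq : ∀ j, qf b M G 1 (m / l j ^ 2) (f j) =
      (l j ^ 2)⁻¹ * qf b M G (g (j + j₀)) m (φ (j + j₀)) := by
    intro j
    have h1 := qf_Us b M G (g (j + j₀)) m (hl0 j) (φ := f j) (cv_diff (hfc j))
    rw [hfφ j, hl3 j, div_self (hg0 j).ne'] at h1
    rw [h1, ← mul_assoc, inv_mul_cancel₀ (pow_pos (hl0 j) 2).ne', one_mul]
  have hI0 : ∀ j, 0 ≤ ∫ x, ‖φ j x‖ ^ 2 := fun j => integral_nonneg fun x => by positivity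
  have hC : ∀ j, ∫ x, ‖f j x‖ ^ 2 ≤ C := fun j => by
    have h1 := hE (j + j₀)
    unfold En at h1
    rw [hfn j]
    linarith [qf_nonneg (b := b) (M := M) (G := G) (g (j + j₀)) m (φ (j + j₀))]
  have hqb : ∀ j, qf b M G (g (j + j₀)) m (φ (j + j₀)) ≤ C := fun j => by
    have h1 := hE (j + j₀)
    unfold En at h1
    linarith [hI0 (j + j₀)]
  have hq : Tendsto (fun j => qf b M G 1 (m / l j ^ 2) (f j)) atTop (𝓝 0) := by
    refine squeeze_zero (fun j => qf_nonneg _ _ _) (fun j => ?_) (g := fun j => (l j ^ 2)⁻¹ * C)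
      (by simpa using hl2.mul_const C)
    rw [hfq j]
    exact mul_le_mul_of_nonneg_left (hqb j) (inv_nonneg.2 (sq_nonneg _))
  have ho' : ∀ ψ ∈ zset b M R G 1 0,
      Tendsto (fun j => ∫ x, ⟪ψ x, f j x⟫_ℂ) atTop (𝓝 0) := by
    intro ψ hψ
    have h1 := (ho ψ hψ).comp (tendsto_add_atTop_nat j₀)
    refine h1.congr fun j => ?_
    have h2 := integral_inner_Us (hl0 j) ψ (f j)
    rw [hfφ j] at h2
    exact h2
  have hfin := local_null (m := fun j => m / l j ^ 2) hfc hC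
    (fun j => div_nonneg hm (sq_nonneg _)) (by
      have := hl2.const_mul m
      simpa [div_eq_mul_inv] using this) hq ho' r
  refine hfin.congr fun j => ?_
  rw [← integral_ball_Us (hl0 j), hfφ j]

/-- **NEAR0a** (doc 92) -/
theorem near0a {g : ℕ → ℝ} {φ : ℕ → Cfg N → F} {C : ℝ}
    (hg : Tendsto g atTop atTop) (hφ : ∀ j, IsCoreVec b R (φ j))
    (hE : ∀ j, En b M G (g j) 1 (φ j) ≤ C)
    (ho : ∀ ψ ∈ zset b M R G 1 0,
      Tendsto (fun j => ∫ x, ⟪Us (g j ^ ((1 : ℝ) / 3)) ψ x, φ j x⟫_ℂ) atTop (𝓝 0)) (r : ℝ) :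
    Tendsto (fun j => ∫ x in {x : Cfg N | ‖x‖ ≤ r * (g j ^ ((1 : ℝ) / 3))⁻¹}, ‖φ j x‖ ^ 2)
      atTop (𝓝 0) :=
  near0a_mass zero_le_one hg hφ hE ho r

end Crest.Agent.R330.Near0a942

end
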