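import Crest.Agent.R330.Neut_45

/-!
# Vacua fixed by a symmetry (row 330, section 5.3), helper45

`θ` Clifford on the finite-dimensional space `F`, index set `κ`. `J0` a complex structure, `X`
antisymmetric with `X² = -1`, `X J0 = -J0 X`, `P` a symmetric projection commuting with `X`, `J0`.

* `conj_rot` : `exp ((π/2) B(X P)) θ(v) = θ((1 - P + X P) v) exp ((π/2) B(X P))`.
* `spinB_comm` : `B(K)` commutes with `ρ` if the rotation `R` of `ρ` commutes with `K`.
* `vac_fixed` : if `ρ` fixes every vacuum of `J0` then it fixes every vacuum of `J0 (1 - 2 P)`.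
-/

set_option autoImplicit false
set_option linter.unusedSectionVars false
set_option linter.unusedSimpArgs false

open scoped BigOperators ComplexOrder
open NormedSpace

noncomputable section

namespace Crest.Agent.R330.Neut45

section alg

variable {F : Type*} [AddCommGroup F] [Module ℂ F] {κ : Type*} [Fintype κ] [DecidableEq κ]
  {θ : κ → F →ₗ[ℂ] F}

/-- `θ(v) = Σ v_k θ_k`. -/
def th (θ : κ → F →ₗ[ℂ] F) (v : κ → ℝ) : F →ₗ[ℂ] F := ∑ k, ((v k : ℝ) : ℂ) • θ k

theorem th_apply (v : κ → ℝ) (x : F) : th θ v x = ∑ k, ((v k : ℝ) : ℂ) • θ k x := by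
  unfold th
  simp only [LinearMap.sum_apply, LinearMap.smul_apply]

theorem th_single (k : κ) : th θ (Pi.single k 1) = θ k := by
  unfold th
  rw [Finset.sum_eq_single k]
  · simp
  · intro j _ hj
    simp [Pi.single_apply, hj]
  · intro h
    exact absurd (Finset.mem_univ k) h

theorem th_add (u v : κ → ℝ) : th θ (u + v) = th θ u + th θ v := by
  unfold th
  rw [← Finset.sum_add_distrib]
  refine Finset.sum_congr rfl fun k _ => ?_
  rw [Pi.add_apply, Complex.ofReal_add, add_smul]

theorem th_smul (a : ℝ) (v : κ → ℝ) : th θ (a • v) = ((a : ℝ) : ℂ) • th θ v := by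
  unfold th
  rw [Finset.smul_sum]
  refine Finset.sum_congr rfl fun k _ => ?_
  rw [Pi.smul_apply, smul_eq_mul, Complex.ofReal_mul, smul_smul]

theorem th_neg (v : κ → ℝ) : th θ (-v) = -th θ v := by
  have h := th_smul (θ := θ) (-1) v
  rw [neg_one_smul] at h
  rw [h]
  simp

theorem th_mulVec (A : Matrix κ κ ℝ) (v : κ → ℝ) (x : F) :
    th θ (A.mulVec v) x = ∑ k, ((v k : ℝ) : ℂ) • ∑ l, ((A l k : ℝ) : ℂ) • θ l x := by
  rw [th_apply]
  simp only [Matrix.mulVec, dotProduct, Finset.smul_sum, smul_smul, Complex.ofReal_sum,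
    Finset.sum_smul]
  rw [Finset.sum_comm]
  refine Finset.sum_congr rfl fun k _ => Finset.sum_congr rfl fun l _ => ?_
  congr 1
  push_cast
  ring

/-- Vacuum condition for all vectors. -/
theorem IsVac.vec {J : Matrix κ κ ℝ} {Ω : F} (h : IsVac θ J Ω) (v : κ → ℝ) :
    th θ v Ω = -Complex.I • th θ (J.mulVec v) Ω := by
  rw [th_mulVec, th_apply, Finset.smul_sum]
  refine Finset.sum_congr rfl fun k _ => ?_
  rw [h k, smul_comm]

theorem isVac_of_vec {J : Matrix κ κ ℝ} {Ω : F}
    (h : ∀ v : κ → ℝ, th θ v Ω = -Complex.I • th θ (J.mulVec v) Ω) : IsVac θ J Ω := by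
  intro k
  have h1 := h (Pi.single k 1)
  rw [th_single, th_mulVec] at h1
  rw [h1]
  congr 1
  rw [Finset.sum_eq_single k]
  · simp
  · intro j _ hj
    simp [Pi.single_apply, hj]
  · intro h
    exact absurd (Finset.mem_univ k) h

/-- `[B(K), θ_l] = θ(K e_l)`. -/
theorem spinB_comm_theta (hθ : Cliff θ) {K : Matrix κ κ ℝ} (hK : K.transpose = -K) (v : κ → ℝ)
    (x : F) : spinB θ K (th θ v x) - th θ v (spinB θ K x) = th θ (K.mulVec v) x := by
  have hskew : ∀ j k, K k j = - K j k := by
    intro j k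
    have := congrFun (congrFun hK j) k
    rwa [Matrix.transpose_apply, Matrix.neg_apply] at this
  have hc : ∀ p q y, θ p (θ q y) = (if p = q then y else 0) - θ q (θ p y) := by
    intro p q y
    have := LinearMap.congr_fun (hθ p q) y
    simp only [LinearMap.add_apply, LinearMap.comp_apply] at this
    rw [eq_sub_iff_add_eq, this]
    split_ifs <;> rfl
  have key : ∀ l, spinB θ K (θ l x) - θ l (spinB θ K x) = ∑ j, ((K j l : ℝ) : ℂ) • θ j x := by
    intro l
    have e1 : spinB θ K (θ l x) = (1 / 2 : ℂ) • ∑ j, ∑ k, ((K j k : ℝ) : ℂ) • θ j (θ k (θ l x)) := by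
      unfold spinB
      simp only [LinearMap.smul_apply, LinearMap.sum_apply, LinearMap.comp_apply]
    have e2 : θ l (spinB θ K x) = (1 / 2 : ℂ) • ∑ j, ∑ k, ((K j k : ℝ) : ℂ) • θ l (θ j (θ k x)) := by
      unfold spinB
      simp only [LinearMap.smul_apply, LinearMap.sum_apply, LinearMap.comp_apply, map_smul, map_sum]
    have e3 : ∀ j k, θ j (θ k (θ l x)) - θ l (θ j (θ k x)) =
        (if k = l then θ j x else 0) - (if j = l then θ k x else 0) := by
      intro j k
      rw [hc k l x, map_sub, hc l j (θ k x)]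
      have e4 : θ j (if k = l then x else 0) = if k = l then θ j x else 0 := by
        split_ifs
        · rfl
        · exact map_zero _
      have e5 : (if l = j then θ k x else 0) = if j = l then θ k x else 0 := by
        by_cases h : j = l
        · rw [if_pos h, if_pos h.symm]
        · rw [if_neg h, if_neg fun h' => h h'.symm]
      rw [e4, e5]
      abel
    rw [e1, e2, ← smul_sub, ← Finset.sum_sub_distrib]
    simp only [← Finset.sum_sub_distrib, ← smul_sub, e3]
    simp only [smul_sub, smul_ite, smul_zero, Finset.sum_sub_distrib, Finset.sum_ite_eq',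
      Finset.mem_univ, if_true]
    have e6 : ∑ j, ∑ k, (if j = l then ((K j k : ℝ) : ℂ) • θ k x else 0) =
        -∑ j, ((K j l : ℝ) : ℂ) • θ j x := by
      rw [Finset.sum_eq_single l]
      · simp only [if_true]
        rw [← Finset.sum_neg_distrib]
        refine Finset.sum_congr rfl fun k _ => ?_
        rw [hskew k l, Complex.ofReal_neg, neg_smul]
      · intro j _ hj
        simp [hj]
      · intro h
        exact absurd (Finset.mem_univ l) h
    rw [e6, smul_neg, sub_neg_eq_add, ← smul_add, ← two_smul ℂ, smul_smul]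
    norm_num
  rw [th_mulVec, th_apply, th_apply, map_sum, ← Finset.sum_sub_distrib]
  refine Finset.sum_congr rfl fun l _ => ?_
  rw [map_smul, ← smul_sub, key l]

/-- A bilinear commutes with `ρ` if the rotation of `ρ` commutes with its matrix. -/
theorem spinB_comm {K R : Matrix κ κ ℝ} (hRR : R * R.transpose = 1) (hRK : R * K = K * R)
    {ρ : F →ₗ[ℂ] F} (hρ : ∀ k x, ρ (θ k x) = ∑ j, ((R j k : ℝ) : ℂ) • θ j (ρ x)) (x : F) :
    ρ (spinB θ K x) = spinB θ K (ρ x) := by
  have hKK : R * K * R.transpose = K := by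
    rw [hRK, Matrix.mul_assoc, hRR, Matrix.mul_one]
  have e1 : ∀ y, spinB θ K y = (1 / 2 : ℂ) • ∑ j, ∑ k, ((K j k : ℝ) : ℂ) • θ j (θ k y) := by
    intro y
    unfold spinB
    simp only [LinearMap.smul_apply, LinearMap.sum_apply, LinearMap.comp_apply]
  rw [e1, e1, map_smul]
  congr 1
  simp only [map_sum, map_smul, hρ]
  have e2 : ∀ j k, ((K j k : ℝ) : ℂ) • ∑ a, ((R a j : ℝ) : ℂ) • ∑ b, ((R b k : ℝ) : ℂ) • θ a (θ b (ρ x)) =
      ∑ a, ∑ b, ((R a j * K j k * R b k : ℝ) : ℂ) • θ a (θ b (ρ x)) := by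
    intro j k
    rw [Finset.smul_sum]
    refine Finset.sum_congr rfl fun a _ => ?_
    rw [Finset.smul_sum, Finset.smul_sum]
    refine Finset.sum_congr rfl fun b _ => ?_
    rw [smul_smul, smul_smul]
    congr 1
    push_cast
    ring
  simp only [e2]
  have e3 : ∑ j, ∑ k, ∑ a, ∑ b, ((R a j * K j k * R b k : ℝ) : ℂ) • θ a (θ b (ρ x)) =
      ∑ a, ∑ b, (((R * K * R.transpose) a b : ℝ) : ℂ) • θ a (θ b (ρ x)) := by
    have e4 : ∀ a b, (((R * K * R.transpose) a b : ℝ) : ℂ) • θ a (θ b (ρ x)) =
        ∑ k, ∑ j, ((R a j * K j k * R b k : ℝ) : ℂ) • θ a (θ b (ρ x)) := by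
      intro a b
      rw [Matrix.mul_apply]
      simp only [Matrix.mul_apply, Matrix.transpose_apply, Finset.sum_mul]
      simp only [Complex.ofReal_sum, Finset.sum_smul]
    simp only [e4]
    calc ∑ j, ∑ k, ∑ a, ∑ b, ((R a j * K j k * R b k : ℝ) : ℂ) • θ a (θ b (ρ x))
        = ∑ k, ∑ j, ∑ a, ∑ b, ((R a j * K j k * R b k : ℝ) : ℂ) • θ a (θ b (ρ x)) :=
          Finset.sum_comm
      _ = ∑ k, ∑ a, ∑ j, ∑ b, ((R a j * K j k * R b k : ℝ) : ℂ) • θ a (θ b (ρ x)) :=
          Finset.sum_congr rfl fun k _ => Finset.sum_comm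
      _ = ∑ a, ∑ k, ∑ j, ∑ b, ((R a j * K j k * R b k : ℝ) : ℂ) • θ a (θ b (ρ x)) :=
          Finset.sum_comm
      _ = ∑ a, ∑ k, ∑ b, ∑ j, ((R a j * K j k * R b k : ℝ) : ℂ) • θ a (θ b (ρ x)) :=
          Finset.sum_congr rfl fun a _ => Finset.sum_congr rfl fun k _ => Finset.sum_comm
      _ = ∑ a, ∑ b, ∑ k, ∑ j, ((R a j * K j k * R b k : ℝ) : ℂ) • θ a (θ b (ρ x)) :=
          Finset.sum_congr rfl fun a _ => Finset.sum_comm
  rw [e3, hKK]

end alg

section exp

variable {F : Type*} [NormedAddCommGroup F] [NormedSpace ℂ F] [FiniteDimensional ℂ F]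
  {κ : Type*} [Fintype κ] [DecidableEq κ] {θ : κ → F →ₗ[ℂ] F}

/-- The continuous version. -/
abbrev cl (A : F →ₗ[ℂ] F) : F →L[ℂ] F := LinearMap.toContinuousLinearMap A

omit [FiniteDimensional ℂ F] in
theorem exp_mul_inv (B : F →L[ℂ] F) [CompleteSpace F] (s : ℝ) :
    exp (s • B) * exp ((-s) • B) = 1 := by
  let _ : NormedAlgebra ℚ (F →L[ℂ] F) := NormedAlgebra.restrictScalars ℚ ℂ _
  rw [← exp_add_of_commute]
  · rw [← add_smul, add_neg_cancel, zero_smul, exp_zero]
  · exact ((Commute.refl B).smul_left _).smul_right _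

/-- **Rotation of the generators** by the exponential of a bilinear. -/
theorem conj_rot (hθ : Cliff θ) {X P : Matrix κ κ ℝ} (hX : X.transpose = -X) (hXX : X * X = -1)
    (hPs : P.transpose = P) (hPP : P * P = P) (hXP : X * P = P * X) (t : ℝ) (v : κ → ℝ) :
    exp (t • cl (spinB θ (X * P))) * cl (th θ v) =
      cl (th θ ((1 - P).mulVec v + Real.cos t • P.mulVec v + Real.sin t • (X * P).mulVec v)) *
        exp (t • cl (spinB θ (X * P))) := by
  set B : F →L[ℂ] F := cl (spinB θ (X * P)) with hB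
  have hK : (X * P).transpose = -(X * P) := by
    rw [Matrix.transpose_mul, hX, hPs, Matrix.mul_neg, hXP]
  set a := (1 - P).mulVec v
  set b := P.mulVec v
  set c := (X * P).mulVec v
  have ka : (X * P).mulVec a = 0 := by
    show (X * P).mulVec ((1 - P).mulVec v) = 0
    rw [Matrix.mulVec_mulVec, Matrix.mul_sub, Matrix.mul_one, Matrix.mul_assoc, hPP, sub_self,
      Matrix.zero_mulVec]
  have kb : (X * P).mulVec b = c := by
    show (X * P).mulVec (P.mulVec v) = _
    rw [Matrix.mulVec_mulVec, Matrix.mul_assoc, hPP]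
  have kc : (X * P).mulVec c = -b := by
    show (X * P).mulVec ((X * P).mulVec v) = -P.mulVec v
    rw [Matrix.mulVec_mulVec]
    have : X * P * (X * P) = -P := by
      calc X * P * (X * P) = X * (P * X) * P := by simp only [Matrix.mul_assoc]
        _ = X * (X * P) * P := by rw [hXP]
        _ = X * X * (P * P) := by simp only [Matrix.mul_assoc]
        _ = -P := by rw [hXX, hPP, Matrix.neg_mul, Matrix.one_mul]
    rw [this, Matrix.neg_mulVec]
  have hcomm : ∀ u, B * cl (th θ u) - cl (th θ u) * B = cl (th θ ((X * P).mulVec u)) := by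
    intro u
    refine ContinuousLinearMap.ext fun x => ?_
    exact spinB_comm_theta hθ hK u x
  set L : ℝ → F →L[ℂ] F := fun s => cl (th θ a) + Real.cos s • cl (th θ b) +
    Real.sin s • cl (th θ c) with hL
  have hLeq : ∀ s, cl (th θ (a + Real.cos s • b + Real.sin s • c)) = L s := by
    intro s
    refine ContinuousLinearMap.ext fun x => ?_
    show th θ (a + Real.cos s • b + Real.sin s • c) x = _
    rw [th_add, th_add, th_smul, th_smul]
    rfl
  have hLd : ∀ s, HasDerivAt L (B * L s - L s * B) s := by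
    intro s
    have h1 : B * L s - L s * B = -Real.sin s • cl (th θ b) + Real.cos s • cl (th θ c) := by
      have e1 := hcomm a
      have e2 := hcomm b
      have e3 := hcomm c
      rw [ka] at e1
      rw [kb] at e2
      rw [kc] at e3
      have e0 : cl (th θ (0 : κ → ℝ)) = 0 := by
        refine ContinuousLinearMap.ext fun x => ?_
        show th θ 0 x = 0
        rw [th_apply]
        simp
      have e4 : cl (th θ (-b)) = -cl (th θ b) := by
        refine ContinuousLinearMap.ext fun x => ?_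
        show th θ (-b) x = -(th θ b x)
        rw [th_neg]
        rfl
      rw [e0] at e1
      rw [e4] at e3
      calc B * L s - L s * B = (B * cl (th θ a) - cl (th θ a) * B) +
            Real.cos s • (B * cl (th θ b) - cl (th θ b) * B) +
            Real.sin s • (B * cl (th θ c) - cl (th θ c) * B) := by
              simp only [hL, mul_add, add_mul, mul_smul_comm, smul_mul_assoc, smul_sub]
              abel
        _ = -Real.sin s • cl (th θ b) + Real.cos s • cl (th θ c) := by
              rw [e1, e2, e3]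
              simp only [zero_add, smul_neg, neg_smul]
              abel
    rw [h1]
    have h2 : HasDerivAt (fun s => Real.cos s • cl (th θ b)) (-Real.sin s • cl (th θ b)) s :=
      HasDerivAt.smul_const (Real.hasDerivAt_cos s) (cl (th θ b))
    have h3 : HasDerivAt (fun s => Real.sin s • cl (th θ c)) (Real.cos s • cl (th θ c)) s :=
      HasDerivAt.smul_const (Real.hasDerivAt_sin s) (cl (th θ c))
    have h4 := ((hasDerivAt_const s (cl (th θ a))).add h2).add h3
    rw [zero_add] at h4
    exact h4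
  set g : ℝ → F →L[ℂ] F := fun s => exp (s • (-B)) * L s * exp (s • B) with hg
  have hgd : ∀ s, HasDerivAt g 0 s := by
    intro s
    have h1 := hasDerivAt_exp_smul_const (-B) s
    have h2 := hasDerivAt_exp_smul_const' B s
    have h3 := HasDerivAt.mul (HasDerivAt.mul h1 (hLd s)) h2
    have h4 : (exp (s • -B) * -B * L s + exp (s • -B) * (B * L s - L s * B)) * exp (s • B) +
        exp (s • -B) * L s * (B * exp (s • B)) = 0 := by
      noncomm_ring
    exact h3.congr_deriv h4
  have hconst : g t = g 0 := is_const_of_deriv_eq_zero (fun s => (hgd s).differentiableAt)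
    (fun s => (hgd s).deriv) t 0
  have hg0 : g 0 = cl (th θ v) := by
    simp only [hg, zero_smul, exp_zero, one_mul, mul_one]
    rw [← hLeq]
    congr 2
    simp only [Real.cos_zero, Real.sin_zero, one_smul, zero_smul, add_zero]
    show (1 - P).mulVec v + P.mulVec v = v
    rw [Matrix.sub_mulVec, Matrix.one_mulVec, sub_add_cancel]
  have hinv : exp (t • B) * exp (t • (-B)) = 1 := by
    have h := exp_mul_inv B t
    rwa [neg_smul, ← smul_neg] at h
  calc exp (t • B) * cl (th θ v) = exp (t • B) * g t := by rw [hconst, hg0]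
    _ = (exp (t • B) * exp (t • (-B))) * L t * exp (t • B) := by
        simp only [hg, mul_assoc]
    _ = _ := by rw [hinv, one_mul, hLeq]

/-- **Vacua fixed by a symmetry.** -/
theorem vac_fixed (hθ : Cliff θ) {J0 X P R : Matrix κ κ ℝ} (hX : X.transpose = -X)
    (hXX : X * X = -1) (hPs : P.transpose = P) (hPP : P * P = P) (hXP : X * P = P * X)
    (hJP : J0 * P = P * J0) (hXJ : X * J0 = -(J0 * X)) (hRR : R * R.transpose = 1)
    (hRX : R * X = X * R) (hRP : R * P = P * R) {ρ : F →ₗ[ℂ] F}
    (hρ : ∀ k x, ρ (θ k x) = ∑ j, ((R j k : ℝ) : ℂ) • θ j (ρ x))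
    (hfix : ∀ Ω0, IsVac θ J0 Ω0 → ρ Ω0 = Ω0) {Ω : F} (hΩ : IsVac θ (J0 * (1 - 2 * P)) Ω) :
    ρ Ω = Ω := by
  set B : F →L[ℂ] F := cl (spinB θ (X * P)) with hB
  set U : F →L[ℂ] F := exp ((Real.pi / 2) • B) with hU
  set V : F →L[ℂ] F := exp ((-(Real.pi / 2)) • B) with hV
  have hUV : U * V = 1 := exp_mul_inv B (Real.pi / 2)
  have hVU : V * U = 1 := by
    have h := exp_mul_inv B (-(Real.pi / 2))
    rwa [neg_neg] at h
  have hconj : ∀ v, U * cl (th θ v) = cl (th θ ((1 - P + X * P).mulVec v)) * U := by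
    intro v
    have h := conj_rot hθ hX hXX hPs hPP hXP (Real.pi / 2) v
    rw [Real.cos_pi_div_two, Real.sin_pi_div_two, zero_smul, add_zero, one_smul,
      ← Matrix.add_mulVec] at h
    exact h
  have hconj' : ∀ v (x : F), th θ v (V x) = V (th θ ((1 - P + X * P).mulVec v) x) := by
    intro v x
    have h1 : V * (U * cl (th θ v)) * V = V * (cl (th θ ((1 - P + X * P).mulVec v)) * U) * V := by
      rw [hconj v]
    have h2 : cl (th θ v) * V = V * cl (th θ ((1 - P + X * P).mulVec v)) := by
      calc cl (th θ v) * V = (V * U) * cl (th θ v) * V := by rw [hVU, one_mul]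
        _ = V * (U * cl (th θ v)) * V := by simp only [mul_assoc]
        _ = V * (cl (th θ ((1 - P + X * P).mulVec v)) * U) * V := h1
        _ = V * cl (th θ ((1 - P + X * P).mulVec v)) * (U * V) := by simp only [mul_assoc]
        _ = _ := by rw [hUV, mul_one]
    exact congrArg (fun A : F →L[ℂ] F => A x) h2
  have hvac : IsVac θ J0 (V Ω) := by
    refine isVac_of_vec fun v => ?_
    have hm : J0 * (1 - 2 * P) * (1 - P + X * P) = (1 - P + X * P) * J0 := by
      have e1 : (1 - 2 * P) * (1 - P + X * P) = 1 - P - X * P := by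
        have e2 : P * (X * P) = X * P := by
          rw [← Matrix.mul_assoc, ← hXP, Matrix.mul_assoc, hPP]
        calc (1 - 2 * P) * (1 - P + X * P)
            = 1 - P + X * P - 2 * P + 2 * (P * P) - 2 * (P * (X * P)) := by noncomm_ring
          _ = 1 - P - X * P := by rw [hPP, e2]; noncomm_ring
      have e3 : X * P * J0 = -(J0 * (X * P)) := by
        rw [Matrix.mul_assoc, ← hJP, ← Matrix.mul_assoc, hXJ, Matrix.neg_mul, Matrix.mul_assoc]
      rw [Matrix.mul_assoc, e1, Matrix.add_mul, e3, Matrix.sub_mul, Matrix.one_mul, ← hJP]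
      noncomm_ring
    rw [hconj', hconj', hΩ.vec, Matrix.mulVec_mulVec, Matrix.mulVec_mulVec, hm, map_smul]
  have hρB : ∀ x, ρ (B x) = B (ρ x) := by
    intro x
    refine spinB_comm hRR ?_ hρ x
    rw [← Matrix.mul_assoc, hRX, Matrix.mul_assoc, hRP, Matrix.mul_assoc]
  have hcB : Commute (cl ρ) B := by
    refine ContinuousLinearMap.ext fun x => ?_
    exact hρB x
  have hcU : Commute (cl ρ) U := by
    have h1 : Commute (cl ρ) ((Real.pi / 2) • B) := hcB.smul_right _
    exact h1.exp_right
  have h1 := hfix _ hvac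
  have h2 : U (V Ω) = Ω := congrArg (fun A : F →L[ℂ] F => A Ω) hUV
  calc ρ Ω = ρ (U (V Ω)) := by rw [h2]
    _ = U (ρ (V Ω)) := congrArg (fun A : F →L[ℂ] F => A (V Ω)) hcU.eq
    _ = Ω := by rw [h1, h2]

end exp

end Crest.Agent.R330.Neut45

end
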