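import Crest.Agent.R330.Even_522
import Crest.Agent.R330.Even2_478

/-!
# Row 330 (helper522): `Even2478.OddGap N` (field `odd` of `Step478.StepD`), unconditional
-/

set_option autoImplicit false

open MeasureTheory Crest.MathPhysics.MatrixQM

noncomputable section

namespace Crest.Agent.R330.OddGap522

/-- **Field `odd`**: odd core vectors have `q_{g,1}(φ) ≥ (1/6) ‖φ‖²`. -/
theorem oddGap (N : ℕ) : Even2478.OddGap N := by
  intro F _ _ _ _ b M R G
  exact ⟨1 / 6, by norm_num, fun g hg P hP φ hφ ho => Even522.oddBound N F b M R G g hg P hP φ hφ ho⟩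

end Crest.Agent.R330.OddGap522

end
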