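import Crest.Agent.R330.Chn_692

/-!
# Row 330, S9-S2C, partition half (helper692): diagonal configurations and channels

* `exists_permSU` : every permutation of the indices is implemented by an element of `SU(N)`;
  `act_dg_perm`.
* `exists_chn` : a diagonal configuration with two different positions is conjugate to a regular
  configuration `cfX b P X` of one channel; `exists_chn'` for `diagCfg`.
-/

set_option autoImplicit false
set_option linter.unusedSectionVars false

open MeasureTheory Filter Topology Crest.MathPhysics.MatrixQM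
open scoped ContDiff InnerProductSpace ENNReal BigOperators

noncomputable section

namespace Crest.Agent.R330.Geo692

open Crest.Agent.R330.Parts879 Crest.Agent.R330.LS839 Crest.Agent.R330.Bind6839
open Crest.Agent.R330.Frame839 (kc Tn)
open Crest.Agent.R330.Blk304 (hm cf hs)
open Crest.Agent.R330.Diag304 (dg)

variable {N : ℕ} (b : ColorBasis N)

/-- **Permutations are implemented by elements of `SU(N)`.** -/
theorem exists_permSU (τ : Equiv.Perm (Fin N)) : ∃ w : Matrix.specialUnitaryGroup (Fin N) ℂ,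
    ∀ f : Fin N → ℂ, (w : Matrix (Fin N) (Fin N) ℂ) * Matrix.diagonal f *
      star (w : Matrix (Fin N) (Fin N) ℂ) = Matrix.diagonal fun a => f (τ⁻¹ a) := by
  classical
  rcases Nat.eq_zero_or_pos N with rfl | hN
  · exact ⟨1, fun f => Subsingleton.elim _ _⟩
  set e : ℂ := (((Equiv.Perm.sign τ : ℤˣ) : ℤ) : ℂ) with he
  have hee : e * e = 1 := by
    rw [he]
    rcases Int.units_eq_one_or (Equiv.Perm.sign τ) with h | h <;> rw [h] <;> norm_num
  set d : Fin N → ℂ := fun a => if a = ⟨0, hN⟩ then e else 1 with hd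
  have hdd : ∀ a, d a * star (d a) = 1 := by
    intro a
    simp only [hd]
    split_ifs
    · have : star e = e := by
        rw [he]
        simp
      rw [this, hee]
    · simp
  set W : Matrix (Fin N) (Fin N) ℂ := Matrix.diagonal d * (Equiv.Perm.permMatrix ℂ τ⁻¹) with hW
  have hWapp : ∀ a c, W a c = if a = τ c then d a else 0 := by
    intro a c
    rw [hW, Matrix.diagonal_mul]
    have h1 : (Equiv.Perm.permMatrix ℂ τ⁻¹ : Matrix (Fin N) (Fin N) ℂ) a c =
        if τ⁻¹ a = c then 1 else 0 := by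
      rw [Equiv.Perm.permMatrix, PEquiv.toMatrix_apply]
      simp [Equiv.toPEquiv_apply, eq_comm]
    rw [h1]
    by_cases h : a = τ c
    · subst h
      simp
    · have h2 : ¬ (τ⁻¹ a = c) := fun h3 => h (by rw [← h3, sia])
      rw [if_neg h, if_neg h2, mul_zero]
  have hWD : ∀ f : Fin N → ℂ, W * Matrix.diagonal f * star W =
      Matrix.diagonal fun a => f (τ⁻¹ a) := by
    intro f
    ext a c
    rw [Matrix.mul_apply]
    simp only [Matrix.star_apply, Matrix.mul_diagonal, hWapp]
    by_cases hac : a = c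
    · subst hac
      rw [Matrix.diagonal_apply_eq, Finset.sum_eq_single (τ⁻¹ a)]
      · simp only [sia, if_true]
        calc d a * f (τ⁻¹ a) * star (d a) = f (τ⁻¹ a) * (d a * star (d a)) := by ring
          _ = f (τ⁻¹ a) := by rw [hdd, mul_one]
      · intro x _ hx
        have : ¬ (a = τ x) := fun h => hx (by rw [h, ias])
        simp [this]
      · intro h
        exact absurd (Finset.mem_univ _) h
    · rw [Matrix.diagonal_apply_ne _ hac]
      refine Finset.sum_eq_zero fun x _ => ?_
      by_cases h : a = τ x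
      · have h2 : ¬ (c = τ x) := fun h' => hac (h.trans h'.symm)
        simp [h2]
      · simp [h]
  have hWW : W * star W = 1 := by
    have h1 := hWD fun _ => 1
    rw [Matrix.diagonal_one, Matrix.mul_one] at h1
    exact h1
  have hdet : W.det = 1 := by
    rw [hW, Matrix.det_mul, Matrix.det_diagonal, Matrix.det_permutation]
    have h1 : ∏ a, d a = e := by
      rw [Finset.prod_eq_single (⟨0, hN⟩ : Fin N)]
      · simp [hd]
      · intro x _ hx
        simp [hd, hx]
      · intro h
        exact absurd (Finset.mem_univ _) h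
    rw [h1, Equiv.Perm.sign_inv]
    exact hee
  have hU : W ∈ Matrix.unitaryGroup (Fin N) ℂ := Matrix.mem_unitaryGroup_iff.2 hWW
  exact ⟨⟨W, Matrix.mem_specialUnitaryGroup_iff.2 ⟨hU, hdet⟩⟩, hWD⟩

/-- Permutation of the positions of a diagonal configuration. -/
theorem act_dg_perm (τ : Equiv.Perm (Fin N)) : ∃ w : Matrix.specialUnitaryGroup (Fin N) ℂ,
    ∀ r : Fin N → EuclideanSpace ℝ (Fin 9), ∑ a, r a = 0 →
      b.act w (dg b r) = dg b fun a => r (τ⁻¹ a) := by
  obtain ⟨w, hw⟩ := exists_permSU τ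
  refine ⟨w, fun r hr => ?_⟩
  have hr' : ∑ a, r (τ⁻¹ a) = 0 := by
    rw [Equiv.sum_comp τ⁻¹ r, hr]
  apply Blk304.mat_inj b
  intro i
  rw [Blk304.mat_act, Diag304.mat_dg b hr, Diag304.mat_dg b hr', hw]

/-- **Every diagonal configuration with two different positions belongs to a channel.** -/
theorem exists_chn {r : Fin N → EuclideanSpace ℝ (Fin 9)} (hr : ∑ a, r a = 0) {a c : Fin N}
    (hac : r a ≠ r c) : ∃ (P : Lam N) (X : XS P), X ∈ Reg b P ∧
      ∃ h : Matrix.specialUnitaryGroup (Fin N) ℂ, b.act h (dg b r) = cfX b P X := by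
  obtain ⟨P, s, τ, hs, hl⟩ := exists_label r ⟨a, c, hac⟩
  have h0 : ∑ p, (P.k p : ℝ) • s p = 0 := by
    have h1 : ∑ a, s (P.cl a) = 0 := by
      rw [← hr, ← Equiv.sum_comp τ r]
      exact Finset.sum_congr rfl fun a _ => (hl a).symm
    rw [← h1]
    ext i
    have h2 := sum_cl P fun p => s p i
    have h3 : (∑ p, (P.k p : ℝ) • s p) i = ∑ p, (P.k p : ℝ) * s p i := by simp
    have h4 : (∑ a, s (P.cl a)) i = ∑ a, s (P.cl a) i := by simp
    rw [h3, h4, h2]
  obtain ⟨X, hX⟩ := exists_pos b P h0
  refine ⟨P, X, fun p q hpq => hs ?_, ?_⟩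
  · rw [← hX p, ← hX q]
    exact hpq
  · obtain ⟨w, hw⟩ := act_dg_perm b τ⁻¹
    refine ⟨w, ?_⟩
    rw [hw r hr, cfX_eq_dg]
    congr 1
    funext a
    rw [inv_inv, hl, hX]

/-- The same for `diagCfg`. -/
theorem exists_chn' {p : Fin 9 → Fin N → ℝ} (hp : ∀ i, ∑ a, p i a = 0) {a c : Fin N}
    (hac : ∃ i, p i a ≠ p i c) : ∃ (P : Lam N) (X : XS P), X ∈ Reg b P ∧
      ∃ h : Matrix.specialUnitaryGroup (Fin N) ℂ,
        b.act h (AcomV302.diagCfg b p) = cfX b P X := by
  set r : Fin N → EuclideanSpace ℝ (Fin 9) := fun a => WithLp.toLp 2 fun i => p i a with hrd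
  have hr : ∑ a, r a = 0 := by
    ext i
    have h1 : (∑ a, r a) i = ∑ a, r a i := by simp
    rw [h1]
    exact hp i
  have hne : r a ≠ r c := by
    obtain ⟨i, hi⟩ := hac
    intro h
    exact hi (congrArg (fun v : EuclideanSpace ℝ (Fin 9) => v i) h)
  obtain ⟨P, X, hX, h, hh⟩ := exists_chn b hr hne
  exact ⟨P, X, hX, h, by rw [← hh, Diag304.dg_eq_diagCfg]⟩

end Crest.Agent.R330.Geo692

end
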