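import Crest.Agent.R330.CapGlue_737
import Crest.Agent.R330.S2P_692

/-!
# Row 330, S9-S2C (helper737): `OrbitT b` from helper692's `exists_chn'`
-/

set_option autoImplicit false

open Crest.MathPhysics.MatrixQM

namespace Crest.Agent.R330.CapGlue737

open Crest.Agent.R330.Strata737 Crest.Agent.R330.TDef414 Crest.Agent.R330.Parts879
  Crest.Agent.R330.Geo692

theorem orbitT {N : ℕ} (b : ColorBasis N) : OrbitT b := by
  intro q hq hn
  have hex : ∃ a c : Fin N, ∃ i, q i a ≠ q i c := by
    by_contra hcon
    push Not at hcon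
    have hsub : (Set.range (pt q)).Subsingleton := by
      rintro _ ⟨a, rfl⟩ _ ⟨c, rfl⟩
      funext i
      exact hcon a c i
    have h1 : nv q ≤ 1 := by
      unfold nv
      exact (Set.ncard_le_one hsub.finite).2 fun x hx y hy => hsub hx hy
    omega
  obtain ⟨a, c, hac⟩ := hex
  obtain ⟨P, X, hX, h, he⟩ := exists_chn' b hq hac
  exact ⟨P, X, h, (chn_Reg b P X).2 hX, he⟩

end Crest.Agent.R330.CapGlue737
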