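import Crest.Agent.R330.OrthT_815
import Crest.Agent.R330.Chn_692

/-!
# Row 330, S8-G2 (helper815): orthogonality of the channels `chn b P0`, `chn b Q0`
-/

set_option autoImplicit false
set_option linter.unusedSectionVars false

open MeasureTheory Filter Topology Crest.MathPhysics.MatrixQM
open scoped ContDiff InnerProductSpace ENNReal BigOperators

noncomputable section

namespace Crest.Agent.R330.OrthL815

open Crest.Agent.R330.Defs478 Crest.Agent.R330.Parts879 Crest.Agent.R330.Geo692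
  Crest.Agent.R330.GeoInj815 Crest.Agent.R330.Conc815 Crest.Agent.R330.Chan441
  Crest.Agent.R330.OrthCh815 Crest.Agent.R330.TDef414 Crest.Agent.R330.OrthT815

variable {N : ℕ} {F : Type*} [NormedAddCommGroup F] [InnerProductSpace ℂ F]
  [FiniteDimensional ℂ F] {b : ColorBasis N} {M : FermionRep N F} {R : GaugeAction b M}
  {G : GammaNine}

/-- The generator inputs of orthogonality: core vectors, (G1) and concentration. -/
structure GenIn {p : ℕ} {S : Type} [Group S] [Fintype S] {C : Chn b p S} (P : TPack C M R G) :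
    Prop where
  core : ∀ (σ : Sl C) (χ : Amp M G σ), ∀ᶠ g in atTop, IsCoreVec b R (Tgen P σ g χ.fn)
  iso : ∀ (σ : Sl C) (χ χ' : Amp M G σ),
    Tendsto (fun g => ∫ x, ⟪Tgen P σ g χ.fn x, Tgen P σ g χ'.fn x⟫_ℂ) atTop
      (𝓝 (∫ X, ⟪(χ.fn X : F), (χ'.fn X : F)⟫_ℂ))
  conc : ∀ (σ : Sl C) (χ : Amp M G σ), Conc atTop (fun g => Tgen P σ g χ.fn)
    {x | ∃ h, ∃ X ∈ tsupport χ.fn, b.act h (C.cf X) = x}

theorem GenIn.bdd {p : ℕ} {S : Type} [Group S] [Fintype S] {C : Chn b p S} {P : TPack C M R G}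
    (h : GenIn P) (x : XX C M G) : Bdd atTop (fun g => TT P g x) := TT_bdd P h.core h.iso x

theorem GenIn.concCh {P0 : Lam N} {P : TPack (chn b P0) M R G} (h : GenIn P) :
    ConcCh b P0 (fun g => TT P g) :=
  concCh_TT (fun X => chn_cf b P0 X) (fun X hX => (Reg_iff b P0 X).1 hX) P h.core h.iso h.conc

/-- **Orthogonality of the literal channels of two different partitions.** -/
theorem orth_chn {P0 Q0 : Lam N} (hPQ : P0 ≠ Q0) {P : TPack (chn b P0) M R G}
    {Q : TPack (chn b Q0) M R G} (hP : GenIn P) (hQ : GenIn Q) :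
    Orth (fun g => TT P g) (fun g => TT Q g) :=
  orth_TT hPQ P Q hP.concCh hQ.concCh hP.bdd hQ.bdd

end Crest.Agent.R330.OrthL815

end
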