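import Crest.Agent.R330.OrthCh_815
import Crest.Agent.R330.TDef_414

/-!
# Row 330, S8-G2 (helper815): orthogonality of different channels for the literal trial states

`concCh_TT`: from core, (G1) and concentration of the generators (167's `HCore`, `HIso`, `HConc`,
written out) the whole family `TT P g` concentrates on orbits of compact sets of regular positions.
`orth_TT`: the trial states of two channels of different partitions are asymptotically orthogonal.
-/

set_option autoImplicit false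
set_option linter.unusedSectionVars false

open MeasureTheory Filter Topology Crest.MathPhysics.MatrixQM
open scoped ContDiff InnerProductSpace ENNReal BigOperators

noncomputable section

namespace Crest.Agent.R330.OrthT815

open Crest.Agent.R330.Defs478 Crest.Agent.R330.Parts879 Crest.Agent.R330.Geo692
  Crest.Agent.R330.GeoInj815 Crest.Agent.R330.Conc815 Crest.Agent.R330.Chan441
  Crest.Agent.R330.OrthCh815 Crest.Agent.R330.TDef414

section bdd

variable {E : Type*} [NormedAddCommGroup E] [MeasureSpace E] [BorelSpace E]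
  {F : Type*} [NormedAddCommGroup F] {ι : Type*} {l : Filter ι}

theorem bdd_add {φ ψ : ι → E → F} (h1 : Bdd l φ) (h2 : Bdd l ψ) : Bdd l fun g => φ g + ψ g := by
  obtain ⟨C1, hC1, h1⟩ := h1
  obtain ⟨C2, hC2, h2⟩ := h2
  refine ⟨2 * C1 + 2 * C2, by positivity, ?_⟩
  filter_upwards [h1, h2] with g hg1 hg2
  refine ⟨hg1.1.add hg2.1, ?_⟩
  have h3 : ∫ x, ‖(φ g + ψ g) x‖ ^ 2 ≤ ∫ x, (2 * ‖φ g x‖ ^ 2 + 2 * ‖ψ g x‖ ^ 2) := by
    refine integral_mono_of_nonneg (Eventually.of_forall fun x => by positivity)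
      (((sq_int hg1.1).const_mul _).add ((sq_int hg2.1).const_mul _))
      (Eventually.of_forall fun x => ?_)
    have h4 : ‖φ g x + ψ g x‖ ≤ ‖φ g x‖ + ‖ψ g x‖ := norm_add_le _ _
    show ‖φ g x + ψ g x‖ ^ 2 ≤ 2 * ‖φ g x‖ ^ 2 + 2 * ‖ψ g x‖ ^ 2
    nlinarith [norm_nonneg (φ g x + ψ g x), sq_nonneg (‖φ g x‖ - ‖ψ g x‖)]
  rw [integral_add ((sq_int hg1.1).const_mul _) ((sq_int hg2.1).const_mul _),
    integral_const_mul, integral_const_mul] at h3
  linarith [hg1.2, hg2.2]

theorem bdd_smul [NormedSpace ℂ F] {φ : ι → E → F} (h : Bdd l φ) (c : ℂ) :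
    Bdd l fun g => c • φ g := by
  obtain ⟨C, hC, h⟩ := h
  refine ⟨‖c‖ ^ 2 * C, by positivity, ?_⟩
  filter_upwards [h] with g hg
  refine ⟨hg.1.const_smul c, ?_⟩
  have h3 : ∫ x, ‖(c • φ g) x‖ ^ 2 = ‖c‖ ^ 2 * ∫ x, ‖φ g x‖ ^ 2 := by
    rw [← integral_const_mul]
    refine integral_congr_ae (Eventually.of_forall fun x => ?_)
    show ‖c • φ g x‖ ^ 2 = ‖c‖ ^ 2 * ‖φ g x‖ ^ 2
    rw [norm_smul, mul_pow]
  rw [h3]
  exact mul_le_mul_of_nonneg_left hg.2 (by positivity)

theorem conc_smul [NormedSpace ℂ F] {φ : ι → E → F} {K : Set E} (h : Conc l φ K) (c : ℂ) :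
    Conc l (fun g => c • φ g) K := by
  intro ρ hρ
  have h1 : Tendsto (fun g => ‖c‖ ^ 2 * ∫ x in (Metric.thickening ρ K)ᶜ, ‖φ g x‖ ^ 2) l (𝓝 0) := by
    simpa using (h ρ hρ).const_mul (‖c‖ ^ 2)
  refine h1.congr fun g => ?_
  rw [← integral_const_mul]
  refine integral_congr_ae (Eventually.of_forall fun x => ?_)
  show ‖c‖ ^ 2 * ‖φ g x‖ ^ 2 = ‖c • φ g x‖ ^ 2
  rw [norm_smul, mul_pow]

end bdd

variable {N : ℕ} {F : Type*} [NormedAddCommGroup F] [InnerProductSpace ℂ F]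
  [FiniteDimensional ℂ F] {b : ColorBasis N} {M : FermionRep N F} {R : GaugeAction b M}
  {G : GammaNine}

/-- A generator is bounded in `L²`. -/
theorem bdd_gen {p : ℕ} {S : Type} [Group S] [Fintype S] {C : Chn b p S} (P : TPack C M R G)
    (σ : Sl C) (χ : Amp M G σ)
    (hcore : ∀ᶠ g in atTop, IsCoreVec b R (Tgen P σ g χ.fn))
    (hiso : Tendsto (fun g => ∫ x, ⟪Tgen P σ g χ.fn x, Tgen P σ g χ.fn x⟫_ℂ) atTop
      (𝓝 (∫ X, ⟪(χ.fn X : F), (χ.fn X : F)⟫_ℂ))) :
    Bdd atTop (fun g => Tgen P σ g χ.fn) := by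
  have h1 : Tendsto (fun g => ∫ x, ‖Tgen P σ g χ.fn x‖ ^ 2) atTop
      (𝓝 (∫ X, ⟪(χ.fn X : F), (χ.fn X : F)⟫_ℂ).re) := by
    refine ((Complex.continuous_re.tendsto _).comp hiso).congr fun g => ?_
    change (∫ x, ⟪Tgen P σ g χ.fn x, Tgen P σ g χ.fn x⟫_ℂ).re = _
    rw [integral_inner_self, Complex.ofReal_re]
  generalize (∫ X, ⟪(χ.fn X : F), (χ.fn X : F)⟫_ℂ).re = A at h1
  have h4 : ∀ᶠ g in atTop, ∫ x, ‖Tgen P σ g χ.fn x‖ ^ 2 < |A| + 1 :=
    h1.eventually_lt tendsto_const_nhds (by linarith [le_abs_self A])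
  refine ⟨|A| + 1, by positivity, ?_⟩
  filter_upwards [hcore, h4] with g hg1 hg2
  exact ⟨memLp_core hg1, hg2.le⟩

/-- Every element of a property closed under sums and multiples which holds for the generators. -/
theorem TT_bdd {p : ℕ} {S : Type} [Group S] [Fintype S] {C : Chn b p S} (P : TPack C M R G)
    (hcore : ∀ (σ : Sl C) (χ : Amp M G σ), ∀ᶠ g in atTop, IsCoreVec b R (Tgen P σ g χ.fn))
    (hiso : ∀ (σ : Sl C) (χ χ' : Amp M G σ),
      Tendsto (fun g => ∫ x, ⟪Tgen P σ g χ.fn x, Tgen P σ g χ'.fn x⟫_ℂ) atTop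
        (𝓝 (∫ X, ⟪(χ.fn X : F), (χ'.fn X : F)⟫_ℂ))) (x : XX C M G) :
    Bdd atTop (fun g => TT P g x) := by
  induction x using Finsupp.induction_linear with
  | zero =>
    refine ⟨0, le_rfl, Eventually.of_forall fun g => ?_⟩
    simp
  | add f f' hf hf' =>
    simp only [map_add]
    exact bdd_add hf hf'
  | single q c =>
    have h1 : ∀ g, TT P g (Finsupp.single q c) = c • Tgen P q.1 g q.2.fn := by
      intro g
      unfold TT
      rw [Finsupp.linearCombination_single]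
    simp only [h1]
    exact bdd_smul (bdd_gen P q.1 q.2 (hcore _ _) (hiso _ _ _)) c

/-- **Concentration of the trial states of a channel.** -/
theorem concCh_TT {P0 : Lam N} {S : Type} [Group S] [Fintype S] {C : Chn b (P0.m - 1) S}
    (hcf : ∀ X, C.cf X = cfX b P0 X) (hreg : ∀ X, C.Reg X → X ∈ Reg b P0)
    (P : TPack C M R G)
    (hcore : ∀ (σ : Sl C) (χ : Amp M G σ), ∀ᶠ g in atTop, IsCoreVec b R (Tgen P σ g χ.fn))
    (hiso : ∀ (σ : Sl C) (χ χ' : Amp M G σ),
      Tendsto (fun g => ∫ x, ⟪Tgen P σ g χ.fn x, Tgen P σ g χ'.fn x⟫_ℂ) atTop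
        (𝓝 (∫ X, ⟪(χ.fn X : F), (χ'.fn X : F)⟫_ℂ)))
    (hconc : ∀ (σ : Sl C) (χ : Amp M G σ), Conc atTop (fun g => Tgen P σ g χ.fn)
      {x | ∃ h, ∃ X ∈ tsupport χ.fn, b.act h (C.cf X) = x}) :
    ConcCh b P0 (fun g => TT P g) := by
  intro x
  change ∃ K : Set (XS P0), IsCompact K ∧ K ⊆ Reg b P0 ∧
    Conc atTop (fun g => TT P g x) (orbK b P0 K)
  induction x using Finsupp.induction_linear with
  | zero =>
    refine ⟨∅, isCompact_empty, Set.empty_subset _, conc_of_supp fun ρ hρ => ?_⟩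
    refine Eventually.of_forall fun g x _ => ?_
    rw [map_zero]
    rfl
  | add f f' hf hf' =>
    simp only [map_add]
    exact ConcCh.add hf hf' (TT_bdd P hcore hiso f) (TT_bdd P hcore hiso f')
  | single q c =>
    have h1 : ∀ g, TT P g (Finsupp.single q c) = c • Tgen P q.1 g q.2.fn := by
      intro g
      unfold TT
      rw [Finsupp.linearCombination_single]
    simp only [h1]
    refine ⟨tsupport q.2.fn, q.2.compact, fun X hX => ?_, conc_smul ?_ c⟩
    · refine hreg X (q.1.reg X ?_)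
      have h2 := q.2.supp hX
      rw [Metric.mem_ball, dist_eq_norm] at h2
      linarith [q.1.pos]
    · have h2 : {x | ∃ h, ∃ X ∈ tsupport q.2.fn, b.act h (C.cf X) = x} =
          orbK b P0 (tsupport q.2.fn) := by
        ext x
        simp only [orbK, Set.mem_ofPred_eq, hcf]
      rw [← h2]
      exact hconc q.1 q.2

/-- **Two channels of different partitions are asymptotically orthogonal.** -/
theorem orth_TT {P0 Q0 : Lam N} (hPQ : P0 ≠ Q0) {S S' : Type} [Group S] [Fintype S] [Group S']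
    [Fintype S'] {C : Chn b (P0.m - 1) S} {C' : Chn b (Q0.m - 1) S'}
    (P : TPack C M R G) (Q : TPack C' M R G)
    (hP : ConcCh b P0 (fun g => TT P g)) (hQ : ConcCh b Q0 (fun g => TT Q g))
    (hb : ∀ x, Bdd atTop (fun g => TT P g x)) (hb' : ∀ x, Bdd atTop (fun g => TT Q g x)) :
    Orth (fun g => TT P g) (fun g => TT Q g) :=
  orth_of_conc hPQ hP hQ hb hb'

end Crest.Agent.R330.OrthT815

end
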