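import Crest.Agent.R330.Trans_372
import Crest.Agent.R330.GPar_984

/-!
Row 330, S8-ISO (helper372): limit of the overlap integral of two trial functions given on two
slices `c + Nor c`, `c' + Nor c'` by the bare formula
`φ_g (c+u) = a_g A(u) exp(-g Q(X, z)/2) w(X, g^{1/3} Y)`, `u = (X - c) + Y + z`.
-/

set_option autoImplicit false
set_option linter.unusedSectionVars false
noncomputable section

open Matrix MeasureTheory Filter
open Crest.MathPhysics.MatrixQM
open Crest.Agent.R330.SlA314 Crest.Agent.R330.SlB314 Crest.Agent.R330.SlC314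
open Crest.Agent.R330.SlD314 Crest.Agent.R330.SlP314 Crest.Agent.R330.Trans372
open scoped ContDiff Topology InnerProductSpace

namespace Crest.Agent.R330.Ovl372

variable {N : ℕ}

/-- Orthogonal splitting `Cfg N = EX ⊕ EY ⊕ EM` (centre, semisimple part, off-diagonal part) by
three projections, with `[om, X] ∈ EM` for `X ∈ EX`. -/
structure Split (b : ColorBasis N) where
  /-- projection on `R^9 ⊗ centre` -/
  PX : Cfg N →L[ℝ] Cfg N
  /-- projection on `R^9 ⊗ su's` -/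
  PY : Cfg N →L[ℝ] Cfg N
  /-- projection on the off-diagonal part -/
  PM : Cfg N →L[ℝ] Cfg N
  sum : ∀ u, PX u + PY u + PM u = u
  XX : ∀ u, PX (PX u) = PX u
  YY : ∀ u, PY (PY u) = PY u
  MM : ∀ u, PM (PM u) = PM u
  XY : ∀ u, PX (PY u) = 0
  XM : ∀ u, PX (PM u) = 0
  YX : ∀ u, PY (PX u) = 0
  YM : ∀ u, PY (PM u) = 0
  MX : ∀ u, PM (PX u) = 0
  MY : ∀ u, PM (PY u) = 0
  symX : ∀ u v, ⟪PX u, v⟫_ℝ = ⟪u, PX v⟫_ℝ
  symY : ∀ u v, ⟪PY u, v⟫_ℝ = ⟪u, PY v⟫_ℝ
  br : ∀ om u, PM (brx b om (PX u)) = brx b om (PX u)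

namespace Split

variable {b : ColorBasis N} (S : Split b)

theorem brX (om : Fin (N ^ 2 - 1) → ℝ) {x : Cfg N} (hx : S.PX x = x) :
    S.PX (brx b om x) = 0 := by
  have h := S.br om x
  rw [hx] at h
  rw [← h, S.XM]

theorem brY (om : Fin (N ^ 2 - 1) → ℝ) {x : Cfg N} (hx : S.PX x = x) :
    S.PY (brx b om x) = 0 := by
  have h := S.br om x
  rw [hx] at h
  rw [← h, S.YM]

theorem X_mem_Nor {c : Cfg N} (hc : S.PX c = c) (u : Cfg N) : S.PX u ∈ Nor b c := by
  rw [mem_Nor]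
  intro om
  rw [real_inner_comm, S.symX, S.brX om hc, inner_zero_right]

theorem Y_mem_Nor {c : Cfg N} (hc : S.PX c = c) (u : Cfg N) : S.PY u ∈ Nor b c := by
  rw [mem_Nor]
  intro om
  rw [real_inner_comm, S.symY, S.brY om hc, inner_zero_right]

theorem M_mem_Nor {c : Cfg N} (hc : S.PX c = c) {u : Cfg N} (hu : u ∈ Nor b c) :
    S.PM u ∈ Nor b c := by
  have h : S.PM u = u - S.PX u - S.PY u := by
    have := S.sum u
    rw [eq_comm, sub_sub, sub_eq_iff_eq_add', this]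
  rw [h]
  exact (Nor b c).sub_mem ((Nor b c).sub_mem hu (S.X_mem_Nor hc u)) (S.Y_mem_Nor hc u)

theorem norm_sq (u : Cfg N) : ‖u‖ ^ 2 = ‖S.PX u‖ ^ 2 + ‖S.PY u‖ ^ 2 + ‖S.PM u‖ ^ 2 := by
  have h1 : ⟪S.PX u, S.PY u⟫_ℝ = 0 := by rw [S.symX, S.XY, inner_zero_right]
  have h2 : ⟪S.PX u, S.PM u⟫_ℝ = 0 := by rw [S.symX, S.XM, inner_zero_right]
  have h3 : ⟪S.PY u, S.PM u⟫_ℝ = 0 := by rw [S.symY, S.YM, inner_zero_right]
  conv_lhs => rw [← S.sum u]
  rw [← real_inner_self_eq_norm_sq, ← real_inner_self_eq_norm_sq, ← real_inner_self_eq_norm_sq,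
    ← real_inner_self_eq_norm_sq]
  simp only [inner_add_left, inner_add_right, h1, h2, h3, real_inner_comm (S.PX u) (S.PY u),
    real_inner_comm (S.PX u) (S.PM u), real_inner_comm (S.PY u) (S.PM u)]
  ring

theorem norm_X_le (u : Cfg N) : ‖S.PX u‖ ≤ ‖u‖ := by
  have := S.norm_sq u
  nlinarith [norm_nonneg u, norm_nonneg (S.PX u), sq_nonneg ‖S.PY u‖, sq_nonneg ‖S.PM u‖]

/-- the anisotropic dilation -/
def dil (s t : ℝ) : Cfg N →L[ℝ] Cfg N := S.PX + s • S.PY + t • S.PM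

theorem dil_apply (s t : ℝ) (u : Cfg N) : S.dil s t u = S.PX u + s • S.PY u + t • S.PM u := rfl

theorem X_dil (s t : ℝ) (u : Cfg N) : S.PX (S.dil s t u) = S.PX u := by
  rw [dil_apply, map_add, map_add, map_smul, map_smul, S.XX, S.XY, S.XM]; simp

theorem Y_dil (s t : ℝ) (u : Cfg N) : S.PY (S.dil s t u) = s • S.PY u := by
  rw [dil_apply, map_add, map_add, map_smul, map_smul, S.YX, S.YY, S.YM]; simp

theorem M_dil (s t : ℝ) (u : Cfg N) : S.PM (S.dil s t u) = t • S.PM u := by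
  rw [dil_apply, map_add, map_add, map_smul, map_smul, S.MX, S.MY, S.MM]; simp

theorem dil_dil (s t s' t' : ℝ) (u : Cfg N) :
    S.dil s t (S.dil s' t' u) = S.dil (s * s') (t * t') u := by
  rw [S.dil_apply, S.X_dil, S.Y_dil, S.M_dil, S.dil_apply, smul_smul, smul_smul]

theorem dil_one (u : Cfg N) : S.dil 1 1 u = u := by
  rw [dil_apply, one_smul, one_smul, S.sum]

theorem dil_mem {c : Cfg N} (hc : S.PX c = c) (s t : ℝ) {u : Cfg N} (hu : u ∈ Nor b c) :
    S.dil s t u ∈ Nor b c := by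
  rw [dil_apply]
  exact (Nor b c).add_mem ((Nor b c).add_mem (S.X_mem_Nor hc u)
    ((Nor b c).smul_mem _ (S.Y_mem_Nor hc u))) ((Nor b c).smul_mem _ (S.M_mem_Nor hc hu))

/-- the dilation on the slice space -/
def dilN {c : Cfg N} (hc : S.PX c = c) (s t : ℝ) : Nor b c →ₗ[ℝ] Nor b c :=
  (S.dil s t : Cfg N →ₗ[ℝ] Cfg N).restrict (fun _ hu => S.dil_mem hc s t hu)

theorem dilN_coe {c : Cfg N} (hc : S.PX c = c) (s t : ℝ) (u : Nor b c) :
    ((S.dilN hc s t u : Nor b c) : Cfg N) = S.dil s t u := rfl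

theorem dilN_comp {c : Cfg N} (hc : S.PX c = c) (s t s' t' : ℝ) :
    S.dilN hc s t ∘ₗ S.dilN hc s' t' = S.dilN hc (s * s') (t * t') := by
  ext1 u
  apply Subtype.ext
  rw [LinearMap.comp_apply, dilN_coe, dilN_coe, dilN_coe, dil_dil]

theorem dilN_one {c : Cfg N} (hc : S.PX c = c) : S.dilN hc 1 1 = LinearMap.id := by
  ext1 u
  apply Subtype.ext
  rw [dilN_coe, dil_one]
  rfl

theorem det_dilN_mul {c : Cfg N} (hc : S.PX c = c) (s t s' t' : ℝ) :
    LinearMap.det (S.dilN hc (s * s') (t * t')) =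
      LinearMap.det (S.dilN hc s t) * LinearMap.det (S.dilN hc s' t') := by
  rw [← S.dilN_comp hc, LinearMap.det_comp]

theorem det_dilN_ne {c : Cfg N} (hc : S.PX c = c) {s t : ℝ} (hs : s ≠ 0) (ht : t ≠ 0) :
    LinearMap.det (S.dilN hc s t) ≠ 0 := by
  intro h
  have h1 := S.det_dilN_mul hc s t s⁻¹ t⁻¹
  rw [mul_inv_cancel₀ hs, mul_inv_cancel₀ ht, S.dilN_one, LinearMap.det_id, h, zero_mul] at h1
  exact one_ne_zero h1

end Split

/-- linear change of variables -/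
theorem integral_lin {V E : Type*} [NormedAddCommGroup V] [InnerProductSpace ℝ V]
    [FiniteDimensional ℝ V] [MeasurableSpace V] [BorelSpace V] [NormedAddCommGroup E]
    [NormedSpace ℝ E] (D : V →ₗ[ℝ] V) (hD : LinearMap.det D ≠ 0) (f : V → E) :
    ∫ u, f u = |LinearMap.det D| • ∫ v, f (D v) := by
  have h1 := Measure.map_linearMap_addHaar_eq_smul_addHaar (volume : Measure V) hD
  set e : V ≃L[ℝ] V := (LinearEquiv.ofIsUnitDet
    (v := Module.finBasis ℝ V) (v' := Module.finBasis ℝ V) (f := D)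
    (by rw [LinearMap.det_toMatrix]; exact hD.isUnit)).toContinuousLinearEquiv with he
  have hcoe : ∀ v, e v = D v := fun v => rfl
  have h2 : ∫ v, f (D v) = ∫ u, f u ∂(Measure.map D volume) := by
    have h3 : Measure.map (D : V → V) volume = Measure.map e volume := by
      congr 1
    rw [h3]
    exact (e.toHomeomorph.measurableEmbedding.integral_map f).symm
  rw [h2, h1, integral_smul_measure, ENNReal.toReal_ofReal (abs_nonneg _), smul_smul, abs_inv,
    mul_inv_cancel₀ (abs_ne_zero.2 hD), one_smul]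

end Crest.Agent.R330.Ovl372
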