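import Crest.Agent.R330.WS_596
import Crest.Agent.R330.IBP_837

/-!
# Row 330 (helper868): Povzner-Wienholtz, the graph core of `H = -1/2 Δ + W`

`E` finite dimensional euclidean space, `e : ι → E` a finite family of vectors (orthonormal basis),
`Hop e W φ x = -(1/2) ∑ k, ∂_k ∂_k φ x + W x (φ x)`.

* `mol_lap_eq` : mollification of a distributional solution of `H u + u = 0`
* `energy` : the energy identity with a cut-off
* `pw` : if `H ≥ 0` on the core of smooth compactly supported equivariant functions, then the only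
  equivariant `u ∈ L²` with `∫ ⟪H ψ + ψ, u⟫ = 0` for all test functions is `u = 0`.
-/

set_option autoImplicit false
set_option linter.unusedSectionVars false
set_option linter.unusedVariables false

open MeasureTheory Set Filter Topology ENNReal
open scoped ContDiff InnerProductSpace Convolution

noncomputable section
namespace Crest.Agent.R330.PW868
open Moll596 WS596

variable {E : Type*} [NormedAddCommGroup E] [InnerProductSpace ℝ E] [FiniteDimensional ℝ E]
  [MeasurableSpace E] [BorelSpace E]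

/-! ### mollification with general smooth kernels -/

/-- smooth compactly supported kernel -/
structure Krn (η : E → ℝ) : Prop where
  smooth : ContDiff ℝ ∞ η
  supp : HasCompactSupport η

theorem Krn.of_molK {r : ℝ} {η : E → ℝ} (h : MolK r η) : Krn η := ⟨h.smooth, h.supp⟩

/-- directional derivative of a kernel -/
def pk (e : E) (η : E → ℝ) (z : E) : ℝ := fderiv ℝ η z e

theorem Krn.dir {η : E → ℝ} (h : Krn η) (e : E) : Krn (pk e η) :=
  ⟨(h.smooth.fderiv_right (m := ∞) (by simp)).clm_apply contDiff_const,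
    (h.supp.fderiv ℝ).comp_left (g := fun L : E →L[ℝ] ℝ => L e) rfl⟩

theorem Krn.comp_smooth {η : E → ℝ} (h : Krn η) (x : E) : ContDiff ℝ ∞ fun y => η (x - y) :=
  h.smooth.comp (contDiff_const.sub contDiff_id)

theorem Krn.comp_supp {η : E → ℝ} (h : Krn η) (x : E) : HasCompactSupport fun y => η (x - y) :=
  h.supp.comp_homeomorph (Homeomorph.subLeft x)

theorem Krn.fderiv_comp {η : E → ℝ} (h : Krn η) (x y e : E) :
    fderiv ℝ (fun y => η (x - y)) y e = -pk e η (x - y) := by
  have hd : HasFDerivAt η (fderiv ℝ η (x - y)) (x - y) :=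
    (h.smooth.differentiable (by simp) _).hasFDerivAt
  have h2 : HasFDerivAt (fun y => x - y) (-ContinuousLinearMap.id ℝ E) y :=
    (hasFDerivAt_id y).const_sub x
  have h4 : fderiv ℝ (fun y => η (x - y)) y = (fderiv ℝ η (x - y)).comp
    (-ContinuousLinearMap.id ℝ E) := (hd.comp y h2).fderiv
  rw [h4]
  simp [pk]

section one

variable {F : Type*} [NormedAddCommGroup F] [NormedSpace ℝ F] [CompleteSpace F]

theorem Krn.integrand {η : E → ℝ} (h : Krn η) {g : E → F} (hg : LocallyIntegrable g) (x : E) :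
    Integrable fun y => η (x - y) • g y :=
  hg.integrable_smul_left_of_hasCompactSupport (h.comp_smooth x).continuous (h.comp_supp x)

theorem Krn.contDiff {η : E → ℝ} (h : Krn η) {u : E → F} (hu : LocallyIntegrable u) :
    ContDiff ℝ ∞ (mol η u) := by
  rw [mol_eq_conv]
  exact h.supp.contDiff_convolution_right (n := ⊤) _ hu h.smooth

theorem Krn.fderiv_mol {η : E → ℝ} (h : Krn η) {u : E → F} (hu : LocallyIntegrable u) (x e : E) :
    fderiv ℝ (mol η u) x e = mol (pk e η) u x := by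
  have h1 : ContDiff ℝ 1 η := h.smooth.of_le (by norm_cast)
  have h2 := h.supp.hasFDerivAt_convolution_right (ContinuousLinearMap.lsmul ℝ ℝ).flip hu h1 x
  rw [mol_eq_conv η, h2.fderiv]
  rw [convolution_precompR_apply (ContinuousLinearMap.lsmul ℝ ℝ).flip hu (h.supp.fderiv ℝ)
    (h.smooth.continuous_fderiv (by simp)) x e, mol_eq_conv]
  rfl

end one

variable {F : Type*} [NormedAddCommGroup F] [InnerProductSpace ℂ F]
variable {ι : Type*} [Fintype ι]

/-- directional derivative -/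
def pd (e : E) (f : E → F) (x : E) : F := fderiv ℝ f x e

/-- the second order part -/
def lap (e : ι → E) (f : E → F) (x : E) : F := ∑ k, pd (e k) (pd (e k) f) x

/-- the operator `-1/2 Δ + W` -/
def Hop (e : ι → E) (W : E → F →L[ℂ] F) (φ : E → F) (x : E) : F :=
  -((1 / 2 : ℝ) • lap e φ x) + W x (φ x)

theorem pd_contDiff {f : E → F} (hf : ContDiff ℝ ∞ f) (e : E) : ContDiff ℝ ∞ (pd e f) :=
  (hf.fderiv_right (m := ∞) (by simp)).clm_apply contDiff_const

theorem pd_supp {f : E → F} (hf : HasCompactSupport f) (e : E) : HasCompactSupport (pd e f) :=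
  (hf.fderiv ℝ).comp_left (g := fun L : E →L[ℝ] F => L e) rfl

section weak

variable [CompleteSpace F]

theorem lap_mol {η : E → ℝ} (h : Krn η) {u : E → F} (hu : LocallyIntegrable u) (e : ι → E)
    (x : E) : lap e (mol η u) x = ∑ k, mol (pk (e k) (pk (e k) η)) u x := by
  unfold lap
  refine Finset.sum_congr rfl fun k _ => ?_
  have h1 : pd (e k) (mol η u) = mol (pk (e k) η) u := by
    funext z
    exact h.fderiv_mol hu z (e k)
  rw [h1]
  exact (h.dir (e k)).fderiv_mol hu x (e k)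

theorem lap_kernel {η : E → ℝ} (h : Krn η) (e : ι → E) (x y : E) (v : F) :
    lap e (fun y => η (x - y) • v) y =
      ∑ k, pk (e k) (pk (e k) η) (x - y) • v := by
  unfold lap
  refine Finset.sum_congr rfl fun k _ => ?_
  have h1 : pd (e k) (fun y => η (x - y) • v) = fun y => -(pk (e k) η (x - y) • v) := by
    funext z
    unfold pd
    rw [fderiv_smul_const ((h.comp_smooth x).differentiable (by simp) z)]
    rw [ContinuousLinearMap.smulRight_apply, h.fderiv_comp, neg_smul]
  rw [h1]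
  unfold pd
  have h2 := (h.dir (e k)).comp_smooth x
  have h3 : fderiv ℝ (fun y => -(pk (e k) η (x - y) • v)) y =
      -(fderiv ℝ (fun y => pk (e k) η (x - y)) y).smulRight v := by
    rw [fderiv_fun_neg, fderiv_smul_const (h2.differentiable (by simp) y)]
  rw [h3]
  rw [_root_.neg_apply, ContinuousLinearMap.smulRight_apply,
    (h.dir (e k)).fderiv_comp, neg_smul, neg_neg]

/-- mollification of a distributional solution of `H u + u = 0` -/
theorem mol_lap_eq {e : ι → E} {W : E → F →L[ℂ] F} (hW : Continuous W)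
    (hWs : ∀ x (v w : F), ⟪W x v, w⟫_ℂ = ⟪v, W x w⟫_ℂ)
    {u : E → F} (hu : LocallyIntegrable u)
    (hw : ∀ ψ : E → F, ContDiff ℝ ∞ ψ → HasCompactSupport ψ →
      ∫ x, ⟪Hop e W ψ x + ψ x, u x⟫_ℂ = 0) {η : E → ℝ} (h : Krn η) (x : E) :
    -((1 / 2 : ℝ) • lap e (mol η u) x) + mol η (fun y => W y (u y)) x + mol η u x = 0 := by
  refine ext_inner_left ℂ fun v => ?_
  rw [inner_zero_right]
  have hWR : Continuous fun y => (W y).restrictScalars ℝ :=
    (ContinuousLinearMap.restrictScalarsL ℂ F F ℝ ℝ).continuous.comp hW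
  have hWu : LocallyIntegrable fun y => W y (u y) := locInt_clm hWR hu
  have hψ : ContDiff ℝ ∞ fun y => η (x - y) • v := (h.comp_smooth x).smul contDiff_const
  have hψc : HasCompactSupport fun y => η (x - y) • v := (h.comp_supp x).smul_right
  have e0 := hw _ hψ hψc
  -- integrability of the pieces
  have i1 : ∀ k, Integrable fun y => pk (e k) (pk (e k) η) (x - y) • u y :=
    fun k => ((h.dir (e k)).dir (e k)).integrand hu x
  have i2 : Integrable fun y => η (x - y) • W y (u y) := h.integrand hWu x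
  have i3 : Integrable fun y => η (x - y) • u y := h.integrand hu x
  have e1 : ⟪v, lap e (mol η u) x⟫_ℂ =
      ∫ y, ∑ k, ((pk (e k) (pk (e k) η) (x - y) : ℝ) : ℂ) * ⟪v, u y⟫_ℂ := by
    rw [lap_mol h hu, inner_sum, integral_finsetSum]
    · refine Finset.sum_congr rfl fun k _ => ?_
      rw [mol, ← integral_inner (i1 k)]
      refine integral_congr_ae (Eventually.of_forall fun y => ?_)
      simp only
      rw [inner_rsmul_right]
    · intro k _
      refine ((i1 k).const_inner v).congr (Eventually.of_forall fun y => ?_)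
      simp only
      rw [inner_rsmul_right]
  have e2 : ⟪v, mol η (fun y => W y (u y)) x⟫_ℂ = ∫ y, (η (x - y) : ℂ) * ⟪v, W y (u y)⟫_ℂ := by
    rw [mol, ← integral_inner i2]
    refine integral_congr_ae (Eventually.of_forall fun y => ?_)
    simp only
    rw [inner_rsmul_right]
  have e3 : ⟪v, mol η u x⟫_ℂ = ∫ y, (η (x - y) : ℂ) * ⟪v, u y⟫_ℂ := by
    rw [mol, ← integral_inner i3]
    refine integral_congr_ae (Eventually.of_forall fun y => ?_)
    simp only
    rw [inner_rsmul_right]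
  have j1 : Integrable fun y =>
      ∑ k, ((pk (e k) (pk (e k) η) (x - y) : ℝ) : ℂ) * ⟪v, u y⟫_ℂ := by
    refine integrable_finsetSum _ fun k _ => ?_
    refine ((i1 k).const_inner v).congr (Eventually.of_forall fun y => ?_)
    simp only
    rw [inner_rsmul_right]
  have j2 : Integrable fun y => (η (x - y) : ℂ) * ⟪v, W y (u y)⟫_ℂ := by
    refine (i2.const_inner v).congr (Eventually.of_forall fun y => ?_)
    simp only
    rw [inner_rsmul_right]
  have j3 : Integrable fun y => (η (x - y) : ℂ) * ⟪v, u y⟫_ℂ := by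
    refine (i3.const_inner v).congr (Eventually.of_forall fun y => ?_)
    simp only
    rw [inner_rsmul_right]
  have j1' : Integrable fun y => -(((1 / 2 : ℝ) : ℂ) *
      ∑ k, ((pk (e k) (pk (e k) η) (x - y) : ℝ) : ℂ) * ⟪v, u y⟫_ℂ) := (j1.const_mul _).neg
  have j12 : Integrable fun y => -(((1 / 2 : ℝ) : ℂ) *
      ∑ k, ((pk (e k) (pk (e k) η) (x - y) : ℝ) : ℂ) * ⟪v, u y⟫_ℂ) +
      (η (x - y) : ℂ) * ⟪v, W y (u y)⟫_ℂ := j1'.add j2
  rw [inner_add_right, inner_add_right, inner_neg_right, inner_rsmul_right, e1, e2, e3,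
    ← integral_const_mul, ← integral_neg, ← integral_add j1' j2,
    ← integral_add j12 j3, ← e0]
  refine integral_congr_ae (Eventually.of_forall fun y => ?_)
  simp only
  rw [Hop, lap_kernel h, inner_add_left, inner_add_left, inner_neg_left, inner_rsmul_left,
    sum_inner]
  have e4 : ∀ k, ⟪pk (e k) (pk (e k) η) (x - y) • v, u y⟫_ℂ =
      ((pk (e k) (pk (e k) η) (x - y) : ℝ) : ℂ) * ⟪v, u y⟫_ℂ := fun k =>
    inner_rsmul_left _ _ _
  simp only [e4]
  have e5 : ⟪W y (η (x - y) • v), u y⟫_ℂ = (η (x - y) : ℂ) * ⟪v, W y (u y)⟫_ℂ := by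
    rw [hWs, inner_rsmul_left]
  rw [e5, inner_rsmul_left]

end weak

/-! ### the energy identity -/

/-- pointwise: `‖∂(c w)‖² = (∂c)² ‖w‖² + Re ⟪∂(c² w), ∂w⟫` -/
theorem norm_pd_smul_sq {c : E → ℝ} {w : E → F} (hc : ContDiff ℝ ∞ c) (hw : ContDiff ℝ ∞ w)
    (v : E) (x : E) : ‖pd v (fun x => c x • w x) x‖ ^ 2 =
      pk v c x ^ 2 * ‖w x‖ ^ 2 + (⟪pd v (fun x => (c x ^ 2) • w x) x, pd v w x⟫_ℂ).re := by
  have h1 : DifferentiableAt ℝ c x := hc.differentiable (by simp) x
  have h2 : DifferentiableAt ℝ w x := hw.differentiable (by simp) x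
  have h3 : DifferentiableAt ℝ (fun x => c x ^ 2) x := h1.pow 2
  have e1 : pd v (fun x => c x • w x) x = c x • pd v w x + pk v c x • w x := by
    unfold pd pk
    rw [fderiv_fun_smul h1 h2]
    simp
  have e3 : fderiv ℝ (fun x => c x ^ 2) x v = 2 * c x * pk v c x := by
    unfold pk
    rw [fderiv_fun_pow 2 h1]
    simp
  have e2 : pd v (fun x => (c x ^ 2) • w x) x = (c x ^ 2) • pd v w x + (2 * c x * pk v c x) • w x := by
    unfold pd
    rw [fderiv_fun_smul h3 h2, ← e3]
    simp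
  rw [e1, e2, inner_add_left, Complex.add_re]
  have e4 : ‖c x • pd v w x + pk v c x • w x‖ ^ 2 = (⟪c x • pd v w x + pk v c x • w x,
      c x • pd v w x + pk v c x • w x⟫_ℂ).re := by
    rw [inner_self_eq_norm_sq_to_K]
    norm_cast
  have e5 : (⟪pd v w x, w x⟫_ℂ).re = (⟪w x, pd v w x⟫_ℂ).re := inner_re_symm (𝕜 := ℂ) _ _
  have e6 : (⟪w x, w x⟫_ℂ).re = ‖w x‖ ^ 2 := by
    rw [inner_self_eq_norm_sq_to_K]
    norm_cast
  rw [e4]
  simp only [inner_add_left, inner_add_right, inner_rsmul_left, inner_rsmul_right, Complex.add_re,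
    Complex.re_ofReal_mul, e5, e6]
  ring

theorem cc_of_left {c : E → ℝ} (hc : Krn c) {f : E → ℝ} (hf : Continuous f)
    (h0 : ∀ x, c x = 0 → f x = 0) : Integrable f := by
  refine hf.integrable_of_hasCompactSupport (hc.supp.mono' fun x hx => subset_tsupport _ ?_)
  intro h
  exact hx (h0 x h)

theorem pk_continuous {c : E → ℝ} (hc : Krn c) (v : E) : Continuous (pk v c) :=
  (hc.dir v).smooth.continuous

/-- integration by parts for the cut-off identity -/
theorem energy_one {c : E → ℝ} {w : E → F} (hc : Krn c) (hw : ContDiff ℝ ∞ w) (v : E) :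
    ∫ x, ‖pd v (fun x => c x • w x) x‖ ^ 2 =
      (∫ x, pk v c x ^ 2 * ‖w x‖ ^ 2) - ∫ x, c x ^ 2 * (⟪w x, pd v (pd v w) x⟫_ℂ).re := by
  have hc2 : ContDiff ℝ ∞ fun x => (c x ^ 2) • w x := (hc.smooth.pow 2).smul hw
  have hc2s : HasCompactSupport fun x => (c x ^ 2) • w x := by
    refine hc.supp.mono' fun x hx => subset_tsupport _ ?_
    intro h
    apply hx
    simp only [h]
    simp
  have e1 := IBP837.ibp (μ := (volume : Measure E)) (hc2.of_le (by norm_cast))
    ((pd_contDiff hw v).of_le (by norm_cast)) (Or.inl hc2s) v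
  have i1 : Integrable fun x => ⟪pd v (fun x => (c x ^ 2) • w x) x, pd v w x⟫_ℂ :=
    IBP837.integrable_inner_of_cont (pd_contDiff hc2 v).continuous (pd_contDiff hw v).continuous
      (Or.inl (pd_supp hc2s v))
  have i2 : Integrable fun x => ⟪(c x ^ 2) • w x, pd v (pd v w) x⟫_ℂ :=
    IBP837.integrable_inner_of_cont hc2.continuous (pd_contDiff (pd_contDiff hw v) v).continuous
      (Or.inl hc2s)
  have i3 : Integrable fun x => pk v c x ^ 2 * ‖w x‖ ^ 2 := by
    refine cc_of_left (hc.dir v) (((pk_continuous hc v).pow 2).mul (hw.continuous.norm.pow 2)) ?_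
    intro x hx
    rw [hx]
    ring
  have i1r : Integrable fun x => (⟪pd v (fun x => (c x ^ 2) • w x) x, pd v w x⟫_ℂ).re := i1.re
  calc ∫ x, ‖pd v (fun x => c x • w x) x‖ ^ 2
      = ∫ x, (pk v c x ^ 2 * ‖w x‖ ^ 2 +
          (⟪pd v (fun x => (c x ^ 2) • w x) x, pd v w x⟫_ℂ).re) :=
        integral_congr_ae (Eventually.of_forall fun x => norm_pd_smul_sq hc.smooth hw v x)
    _ = (∫ x, pk v c x ^ 2 * ‖w x‖ ^ 2) +
          ∫ x, (⟪pd v (fun x => (c x ^ 2) • w x) x, pd v w x⟫_ℂ).re := integral_add i3 i1r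
    _ = (∫ x, pk v c x ^ 2 * ‖w x‖ ^ 2) +
          (∫ x, ⟪pd v (fun x => (c x ^ 2) • w x) x, pd v w x⟫_ℂ).re := by
        congr 1
        exact integral_re i1
    _ = (∫ x, pk v c x ^ 2 * ‖w x‖ ^ 2) -
          (∫ x, ⟪(c x ^ 2) • w x, pd v (pd v w) x⟫_ℂ).re := by
        have e2 : (∫ x, ⟪pd v (fun x => (c x ^ 2) • w x) x, pd v w x⟫_ℂ) =
            -∫ x, ⟪(c x ^ 2) • w x, pd v (pd v w) x⟫_ℂ := e1
        rw [e2, Complex.neg_re]
        ring
    _ = _ := by
        congr 1
        have e3 : (∫ x, ⟪(c x ^ 2) • w x, pd v (pd v w) x⟫_ℂ).re =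
            ∫ x, (⟪(c x ^ 2) • w x, pd v (pd v w) x⟫_ℂ).re := (integral_re i2).symm
        rw [e3]
        refine integral_congr_ae (Eventually.of_forall fun x => ?_)
        simp only
        rw [inner_rsmul_left, Complex.re_ofReal_mul]

/-- **energy inequality**: `w` smooth with `-1/2 Δ w + W w + w = r`, `c` a cut-off such that the form
is nonnegative on `c w` -/
theorem energy {e : ι → E} {W : E → F →L[ℂ] F} (hW : Continuous W) {w r : E → F}
    (hw : ContDiff ℝ ∞ w) {c : E → ℝ} (hc : Krn c)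
    (hr : ∀ x, -((1 / 2 : ℝ) • lap e w x) + W x (w x) + w x = r x)
    (hpos : 0 ≤ (1 / 2) * (∑ k, ∫ x, ‖pd (e k) (fun x => c x • w x) x‖ ^ 2) +
      ∫ x, (⟪c x • w x, W x (c x • w x)⟫_ℂ).re) :
    ∫ x, ‖c x • w x‖ ^ 2 ≤ (1 / 2) * (∑ k, ∫ x, pk (e k) c x ^ 2 * ‖w x‖ ^ 2) +
      ∫ x, (⟪c x • w x, c x • r x⟫_ℂ).re := by
  have hwc := hw.continuous
  have hcc := hc.smooth.continuous
  have hWR : Continuous fun y => (W y).restrictScalars ℝ :=
    (ContinuousLinearMap.restrictScalarsL ℂ F F ℝ ℝ).continuous.comp hW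
  have hWw : Continuous fun x => W x (w x) := hW.clm_apply hwc
  have hlap : Continuous (lap e w) := by
    unfold lap
    exact continuous_finsetSum _ fun k _ => (pd_contDiff (pd_contDiff hw (e k)) (e k)).continuous
  have hrc : Continuous r := by
    have : r = fun x => -((1 / 2 : ℝ) • lap e w x) + W x (w x) + w x := by
      funext x; exact (hr x).symm
    rw [this]
    exact ((hlap.const_smul _).neg.add hWw).add hwc
  have k1 : ∑ k, ∫ x, ‖pd (e k) (fun x => c x • w x) x‖ ^ 2 =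
      (∑ k, ∫ x, pk (e k) c x ^ 2 * ‖w x‖ ^ 2) - ∫ x, c x ^ 2 * (⟪w x, lap e w x⟫_ℂ).re := by
    simp only [energy_one hc hw]
    rw [Finset.sum_sub_distrib]
    congr 1
    rw [← integral_finsetSum]
    · refine integral_congr_ae (Eventually.of_forall fun x => ?_)
      simp only
      rw [lap, inner_sum, Complex.re_sum, Finset.mul_sum]
    · intro k _
      refine cc_of_left hc ((hcc.pow 2).mul ?_) (fun x hx => by rw [hx]; ring)
      exact Complex.continuous_re.comp
        (hwc.inner (pd_contDiff (pd_contDiff hw (e k)) (e k)).continuous)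
  have i1 : Integrable fun x => c x ^ 2 * (⟪w x, lap e w x⟫_ℂ).re :=
    cc_of_left hc ((hcc.pow 2).mul (Complex.continuous_re.comp (hwc.inner hlap)))
      (fun x hx => by rw [hx]; ring)
  have i2 : Integrable fun x => (⟪c x • w x, W x (c x • w x)⟫_ℂ).re := by
    refine cc_of_left hc (Complex.continuous_re.comp ((hcc.smul hwc).inner
      (hW.clm_apply (hcc.smul hwc)))) (fun x hx => by rw [hx]; simp)
  have i3 : Integrable fun x => (⟪c x • w x, c x • r x⟫_ℂ).re := by
    refine cc_of_left hc (Complex.continuous_re.comp ((hcc.smul hwc).inner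
      (hcc.smul hrc))) (fun x hx => by rw [hx]; simp)
  have i4 : Integrable fun x => ‖c x • w x‖ ^ 2 := by
    refine cc_of_left hc ((hcc.smul hwc).norm.pow 2) (fun x hx => by rw [hx]; simp)
  -- the pointwise relation
  have k2 : ∀ x, -(1 / 2) * (c x ^ 2 * (⟪w x, lap e w x⟫_ℂ).re) =
      (⟪c x • w x, c x • r x⟫_ℂ).re - (⟪c x • w x, W x (c x • w x)⟫_ℂ).re - ‖c x • w x‖ ^ 2 := by
    intro x
    have e0 : ‖c x • w x‖ ^ 2 = (⟪c x • w x, c x • w x⟫_ℂ).re := by
      rw [inner_self_eq_norm_sq_to_K]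
      norm_cast
    have e1 : W x (c x • w x) = c x • W x (w x) := by
      rw [← Complex.coe_smul, map_smul, Complex.coe_smul]
    rw [e0, e1, ← hr x]
    simp only [inner_add_right, inner_neg_right, inner_rsmul_left, inner_rsmul_right,
      Complex.add_re, Complex.neg_re, Complex.re_ofReal_mul, smul_add, smul_neg]
    ring
  have k3 : -(1 / 2) * ∫ x, c x ^ 2 * (⟪w x, lap e w x⟫_ℂ).re =
      (∫ x, (⟪c x • w x, c x • r x⟫_ℂ).re) - (∫ x, (⟪c x • w x, W x (c x • w x)⟫_ℂ).re) -
        ∫ x, ‖c x • w x‖ ^ 2 := by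
    have i32 : Integrable fun x => (⟪c x • w x, c x • r x⟫_ℂ).re -
        (⟪c x • w x, W x (c x • w x)⟫_ℂ).re := i3.sub i2
    rw [← integral_const_mul, ← integral_sub i3 i2, ← integral_sub i32 i4]
    exact integral_congr_ae (Eventually.of_forall k2)
  rw [k1] at hpos
  linarith

/-! ### limits -/

section limits

variable [CompleteSpace F]

theorem integral_norm_sq (f : E → F) : ∫ x, ‖f x‖ ^ 2 = (∫ x, ⟪f x, f x⟫_ℂ).re := by
  have h : ∀ x, ⟪f x, f x⟫_ℂ = ((‖f x‖ ^ 2 : ℝ) : ℂ) := fun x => by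
    rw [inner_self_eq_norm_sq_to_K]
    norm_cast
  simp only [h]
  have h2 : ∫ x, ((‖f x‖ ^ 2 : ℝ) : ℂ) = ((∫ x, ‖f x‖ ^ 2 : ℝ) : ℂ) := integral_ofReal
  rw [h2, Complex.ofReal_re]

/-- radii of mollifiers adapted to two functions -/
theorem exists_radii {g₁ g₂ : E → F} (h1 : MemLp g₁ 2 volume) (h2 : MemLp g₂ 2 volume) :
    ∃ r : ℕ → ℝ, (∀ n, 0 < r n ∧ r n ≤ 1) ∧
      Tendsto (fun n => eLpNorm (mol (ker (r n)) g₁ - g₁) 2 volume) atTop (𝓝 0) ∧
      Tendsto (fun n => eLpNorm (mol (ker (r n)) g₂ - g₂) 2 volume) atTop (𝓝 0) := by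
  have hδ : ∀ n : ℕ, ((n : ℝ≥0∞) + 1)⁻¹ ≠ 0 := fun n => by
    simp
  choose a ha0 ha using fun n : ℕ => exists_mol_close h1 (hδ n)
  choose b hb0 hb using fun n : ℕ => exists_mol_close h2 (hδ n)
  have hr : ∀ n, 0 < min (min (a n) (b n)) 1 := fun n => lt_min (lt_min (ha0 n) (hb0 n)) one_pos
  have ht : Tendsto (fun n : ℕ => ((n : ℝ≥0∞) + 1)⁻¹) atTop (𝓝 0) := by
    have := ENNReal.tendsto_inv_nat_nhds_zero.comp (tendsto_add_atTop_nat 1)
    refine this.congr fun n => ?_
    simp
  refine ⟨fun n => min (min (a n) (b n)) 1, fun n => ⟨hr n, min_le_right _ _⟩, ?_, ?_⟩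
  · refine tendsto_of_tendsto_of_tendsto_of_le_of_le tendsto_const_nhds ht (fun _ => zero_le)
      fun n => ?_
    exact ha n _ ((min_le_left _ _).trans (min_le_left _ _)) _ (molK_ker (hr n))
  · refine tendsto_of_tendsto_of_tendsto_of_le_of_le tendsto_const_nhds ht (fun _ => zero_le)
      fun n => ?_
    exact hb n _ ((min_le_left _ _).trans (min_le_right _ _)) _ (molK_ker (hr n))

/-- bounded multipliers preserve convergence to zero -/
theorem tendsto_bdd {B : E → F →L[ℝ] F} {M : ℝ} (hM : ∀ x, ‖B x‖ ≤ M) (hM0 : 0 ≤ M)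
    {f : ℕ → E → F} (hf : Tendsto (fun n => eLpNorm (f n) 2 (volume : Measure E)) atTop (𝓝 0)) :
    Tendsto (fun n => eLpNorm (fun x => B x (f n x)) 2 (volume : Measure E)) atTop (𝓝 0) := by
  have h1 : Tendsto (fun n => ENNReal.ofReal M * eLpNorm (f n) 2 (volume : Measure E)) atTop
      (𝓝 0) := by
    have := ENNReal.Tendsto.const_mul (a := ENNReal.ofReal M) hf (Or.inr (by simp))
    simpa using this
  exact tendsto_of_tendsto_of_tendsto_of_le_of_le tendsto_const_nhds h1 (fun _ => zero_le)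
    fun n => eLpNorm_clm_le (fun x _ => hM x) hM0

theorem exists_bound_clm {B : E → F →L[ℝ] F} (hB : Continuous B) (hc : HasCompactSupport B) :
    ∃ M : ℝ, 0 ≤ M ∧ ∀ x, ‖B x‖ ≤ M := by
  obtain ⟨M, hM⟩ := hc.exists_bound_of_continuous hB
  exact ⟨M, (norm_nonneg _).trans (hM 0), hM⟩

theorem memLp_bdd {B : E → F →L[ℝ] F} (hB : Continuous B) {M : ℝ} (hM : ∀ x, ‖B x‖ ≤ M)
    {f : E → F} (hf : MemLp f 2 volume) : MemLp (fun x => B x (f x)) 2 volume := by
  have hl : LocallyIntegrable f := hf.locallyIntegrable (by norm_num)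
  refine hf.of_le_mul (c := M) (locInt_clm hB hl).aestronglyMeasurable
    (Eventually.of_forall fun x => ?_)
  exact (ContinuousLinearMap.le_opNorm _ _).trans
    (mul_le_mul_of_nonneg_right (hM x) (norm_nonneg _))

/-- convergence of quadratic expressions with a compactly supported multiplier -/
theorem tendsto_mult {m : E → ℝ} (hm : Krn m) {f : ℕ → E → F} {f₀ : E → F}
    (hf : ∀ n, MemLp (f n) 2 volume) (hf₀ : MemLp f₀ 2 volume)
    (h : Tendsto (fun n => eLpNorm (f n - f₀) 2 volume) atTop (𝓝 0)) :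
    (∀ n, MemLp (fun x => m x • f n x) 2 volume) ∧ MemLp (fun x => m x • f₀ x) 2 volume ∧
      Tendsto (fun n => eLpNorm ((fun x => m x • f n x) - fun x => m x • f₀ x) 2 volume) atTop
        (𝓝 0) := by
  have hB : Continuous fun x => m x • ContinuousLinearMap.id ℝ F :=
    hm.smooth.continuous.smul continuous_const
  have hc : HasCompactSupport fun x => m x • ContinuousLinearMap.id ℝ F := hm.supp.smul_right
  obtain ⟨M, hM0, hM⟩ := exists_bound_clm hB hc
  refine ⟨fun n => memLp_bdd hB hM (hf n), memLp_bdd hB hM hf₀, ?_⟩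
  refine (tendsto_bdd hM hM0 h).congr fun n => ?_
  congr 1
  funext x
  simp [smul_sub]

end limits

/-! ### the theorem -/

section main

variable [CompleteSpace F]

variable {γ : Type*} (L : γ → E ≃ₗᵢ[ℝ] E) (T : γ → F →L[ℝ] F)

/-- the core: smooth, compactly supported, equivariant -/
structure Cor (φ : E → F) : Prop where
  smooth : ContDiff ℝ ∞ φ
  supp : HasCompactSupport φ
  equi : ∀ g x, φ (L g x) = T g (φ x)

/-- the quadratic form of `Hop` -/
def qf (e : ι → E) (W : E → F →L[ℂ] F) (φ : E → F) : ℝ :=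
  (1 / 2) * (∑ k, ∫ x, ‖pd (e k) φ x‖ ^ 2) + ∫ x, (⟪φ x, W x (φ x)⟫_ℂ).re

variable {L T}

/-- the limit of the energy inequality: `u` a distributional solution, `c = cut R` -/
theorem energy_limit {e : ι → E} {W : E → F →L[ℂ] F} (hW : Continuous W)
    (hWs : ∀ x (v w : F), ⟪W x v, w⟫_ℂ = ⟪v, W x w⟫_ℂ)
    (hpos : ∀ φ, Cor L T φ → 0 ≤ qf e W φ)
    {u : E → F} (hu : MemLp u 2 volume) (hue : ∀ g, ∀ᵐ x, u (L g x) = T g (u x))
    (hw : ∀ ψ : E → F, ContDiff ℝ ∞ ψ → HasCompactSupport ψ →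
      ∫ x, ⟪Hop e W ψ x + ψ x, u x⟫_ℂ = 0) {R : ℝ} (hR : 0 < R) :
    ∫ x, ‖cut R x • u x‖ ^ 2 ≤ (1 / 2) * ∑ k, ∫ x, pk (e k) (cut R) x ^ 2 * ‖u x‖ ^ 2 := by
  have hul : LocallyIntegrable u := hu.locallyIntegrable (by norm_num)
  have hc : Krn (cut R : E → ℝ) := ⟨cut_smooth R, cut_supp hR⟩
  have hWR : Continuous fun y => (W y).restrictScalars ℝ :=
    (ContinuousLinearMap.restrictScalarsL ℂ F F ℝ ℝ).continuous.comp hW
  have hWul : LocallyIntegrable fun y => W y (u y) := locInt_clm hWR hul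
  -- the truncation of `W u`
  set K : Set E := Metric.closedBall (0 : E) (2 * R + 1) with hK
  set g : E → F := K.indicator fun y => W y (u y) with hg
  obtain ⟨M, hM⟩ := (isCompact_closedBall (0 : E) (2 * R + 1)).exists_bound_of_continuousOn
    hWR.continuousOn
  have hgL : MemLp g 2 volume := by
    refine hu.of_le_mul (c := M) (hWul.aestronglyMeasurable.indicator
      Metric.isClosed_closedBall.measurableSet) (Eventually.of_forall fun x => ?_)
    by_cases hx : x ∈ K
    · rw [hg, Set.indicator_of_mem hx]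
      exact (ContinuousLinearMap.le_opNorm ((W x).restrictScalars ℝ) _).trans
        (mul_le_mul_of_nonneg_right (hM x hx) (norm_nonneg _))
    · rw [hg, Set.indicator_of_notMem hx, norm_zero]
      have : 0 ≤ M := (norm_nonneg _).trans (hM 0 (by simp; positivity))
      positivity
  obtain ⟨r, hr, t1, t2⟩ := exists_radii hu hgL
  set w : ℕ → E → F := fun n => mol (ker (r n)) u with hwdef
  have hk : ∀ n, MolK (r n) (ker (r n) : E → ℝ) := fun n => molK_ker (hr n).1
  have hws : ∀ n, ContDiff ℝ ∞ (w n) := fun n => mol_contDiff (hk n) hul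
  have hwL : ∀ n, MemLp (w n) 2 volume := fun n =>
    ⟨(hws n).continuous.aestronglyMeasurable, (eLpNorm_mol_le (hk n) hu.1).trans_lt hu.2⟩
  -- the remainders
  set rr : ℕ → E → F := fun n x => W x (w n x) - mol (ker (r n)) (fun y => W y (u y)) x with hrr
  have hrel : ∀ n x, -((1 / 2 : ℝ) • lap e (w n) x) + W x (w n x) + w n x = rr n x := by
    intro n x
    have h1 := mol_lap_eq hW hWs hul hw (Krn.of_molK (hk n)) x
    have h2 : -((1 / 2 : ℝ) • lap e (w n) x) + w n x =
        -mol (ker (r n)) (fun y => W y (u y)) x := by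
      rw [eq_neg_iff_add_eq_zero, ← h1]
      abel
    rw [hrr]
    simp only
    rw [sub_eq_add_neg, ← h2]
    abel
  have hcor : ∀ n, Cor L T fun x => cut R x • w n x := by
    intro n
    refine ⟨hc.smooth.smul (hws n), hc.supp.smul_right, fun g x => ?_⟩
    have h1 : w n (L g x) = T g (w n x) := mol_equivariant (hk n) hul (L g) (T g) (hue g) x
    rw [h1, map_smul, cut_radial R (x := L g x) (y := x) ((L g).norm_map x)]
  have hen : ∀ n, ∫ x, ‖cut R x • w n x‖ ^ 2 ≤
      (1 / 2) * (∑ k, ∫ x, pk (e k) (cut R) x ^ 2 * ‖w n x‖ ^ 2) +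
        ∫ x, (⟪cut R x • w n x, cut R x • rr n x⟫_ℂ).re := fun n =>
    energy hW (hws n) hc (hrel n) (hpos _ (hcor n))
  -- limit of the left hand side
  obtain ⟨a1, a2, a3⟩ := tendsto_mult hc hwL hu t1
  have l1 : Tendsto (fun n => ∫ x, ‖cut R x • w n x‖ ^ 2) atTop (𝓝 (∫ x, ‖cut R x • u x‖ ^ 2)) := by
    have h1 := IBP837.tendsto_integral_inner a1 a2 a1 a2 a3 a3
    simp only [integral_norm_sq]
    exact (Complex.continuous_re.tendsto _).comp h1
  -- limit of the gradient term
  have l2 : ∀ k, Tendsto (fun n => ∫ x, pk (e k) (cut R) x ^ 2 * ‖w n x‖ ^ 2) atTop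
      (𝓝 (∫ x, pk (e k) (cut R) x ^ 2 * ‖u x‖ ^ 2)) := by
    intro k
    obtain ⟨b1, b2, b3⟩ := tendsto_mult (hc.dir (e k)) hwL hu t1
    have h1 := IBP837.tendsto_integral_inner b1 b2 b1 b2 b3 b3
    have h2 : ∀ f : E → F, ∫ x, pk (e k) (cut R) x ^ 2 * ‖f x‖ ^ 2 =
        (∫ x, ⟪pk (e k) (cut R) x • f x, pk (e k) (cut R) x • f x⟫_ℂ).re := by
      intro f
      rw [← integral_norm_sq]
      refine integral_congr_ae (Eventually.of_forall fun x => ?_)
      simp only
      rw [norm_smul, mul_pow, Real.norm_eq_abs, sq_abs]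
    simp only [h2]
    exact (Complex.continuous_re.tendsto _).comp h1
  -- limit of the remainder
  have hs : ∀ n, (fun x => cut R x • rr n x) =
      (fun x => (cut R x • (W x).restrictScalars ℝ) ((w n - u) x)) -
        fun x => cut R x • (mol (ker (r n)) g - g) x := by
    intro n
    funext x
    simp only [hrr, Pi.sub_apply]
    by_cases hx : 2 * R ≤ ‖x‖
    · rw [cut_zero hR hx]
      simp
    · push Not at hx
      have hxK : x ∈ K := by
        rw [hK, mem_closedBall_zero_iff]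
        linarith
      have hgx : g x = W x (u x) := by rw [hg, Set.indicator_of_mem hxK]
      have hmol : mol (ker (r n)) (fun y => W y (u y)) x = mol (ker (r n)) g x := by
        unfold mol
        refine integral_congr_ae (Eventually.of_forall fun y => ?_)
        simp only
        by_cases hxy : r n ≤ ‖x - y‖
        · rw [(hk n).small _ hxy, zero_smul, zero_smul]
        · push Not at hxy
          have hyK : y ∈ K := by
            rw [hK, mem_closedBall_zero_iff]
            have h1 : ‖y‖ ≤ ‖x‖ + ‖x - y‖ := by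
              have := norm_sub_le x (x - y)
              simpa using this
            have h2 := (hr n).2
            linarith
          rw [hg, Set.indicator_of_mem hyK]
      rw [hmol, hgx, _root_.smul_apply, ContinuousLinearMap.coe_restrictScalars',
        map_sub]
      simp only [smul_sub]
      abel
  have hBc : Continuous fun x => cut R x • (W x).restrictScalars ℝ :=
    hc.smooth.continuous.smul hWR
  have hBs : HasCompactSupport fun x => cut R x • (W x).restrictScalars ℝ := hc.supp.smul_right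
  obtain ⟨M1, hM10, hM1⟩ := exists_bound_clm hBc hBs
  have hgm : ∀ n, MemLp (mol (ker (r n)) g) 2 volume := fun n =>
    ⟨(mol_contDiff (hk n) (hgL.locallyIntegrable (by norm_num))).continuous.aestronglyMeasurable,
      (eLpNorm_mol_le (hk n) hgL.1).trans_lt hgL.2⟩
  have hsL1 : ∀ n, MemLp (fun x => (cut R x • (W x).restrictScalars ℝ) ((w n - u) x)) 2 volume :=
    fun n => memLp_bdd hBc hM1 ((hwL n).sub hu)
  obtain ⟨c1, c2, c3⟩ := tendsto_mult hc hgm hgL t2
  have hsL2 : ∀ n, MemLp (fun x => cut R x • (mol (ker (r n)) g - g) x) 2 volume := by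
    intro n
    have : (fun x => cut R x • (mol (ker (r n)) g - g) x) =
        (fun x => cut R x • mol (ker (r n)) g x) - fun x => cut R x • g x := by
      funext x
      simp [smul_sub]
    rw [this]
    exact (c1 n).sub c2
  have hsL : ∀ n, MemLp (fun x => cut R x • rr n x) 2 volume := by
    intro n
    rw [hs n]
    exact (hsL1 n).sub (hsL2 n)
  have hst : Tendsto (fun n => eLpNorm ((fun x => cut R x • rr n x) - fun _ => (0 : F)) 2 volume)
      atTop (𝓝 0) := by
    have d1 := tendsto_bdd hM1 hM10 t1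
    have d3 := d1.add c3
    rw [add_zero] at d3
    refine tendsto_of_tendsto_of_tendsto_of_le_of_le tendsto_const_nhds d3 (fun _ => zero_le)
      fun n => ?_
    have e1 : ((fun x => cut R x • rr n x) - fun _ => (0 : F)) =
        (fun x => (cut R x • (W x).restrictScalars ℝ) ((w n - u) x)) -
          ((fun x => cut R x • mol (ker (r n)) g x) - fun x => cut R x • g x) := by
      rw [hs n]
      funext x
      simp [smul_sub]
    rw [e1]
    exact eLpNorm_sub_le (hsL1 n).1 ((c1 n).sub c2).1 (by norm_num)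
  have l3 : Tendsto (fun n => ∫ x, (⟪cut R x • w n x, cut R x • rr n x⟫_ℂ).re) atTop (𝓝 0) := by
    have h1 := IBP837.tendsto_integral_inner a1 a2 hsL (MemLp.zero' (p := 2)) a3 hst
    have h2 : ∀ n, ∫ x, (⟪cut R x • w n x, cut R x • rr n x⟫_ℂ).re =
        (∫ x, ⟪cut R x • w n x, cut R x • rr n x⟫_ℂ).re := fun n =>
      integral_re (IBP837.integrable_inner_of_memLp (a1 n) (hsL n))
    simp only [h2]
    have h3 := (Complex.continuous_re.tendsto _).comp h1
    have h4 : (∫ x, ⟪cut R x • u x, (fun _ : E => (0 : F)) x⟫_ℂ).re = 0 := by simp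
    rw [h4] at h3
    exact h3
  have l4 : Tendsto (fun n => (1 / 2) * (∑ k, ∫ x, pk (e k) (cut R) x ^ 2 * ‖w n x‖ ^ 2) +
        ∫ x, (⟪cut R x • w n x, cut R x • rr n x⟫_ℂ).re) atTop
      (𝓝 ((1 / 2) * (∑ k, ∫ x, pk (e k) (cut R) x ^ 2 * ‖u x‖ ^ 2) + 0)) :=
    ((tendsto_finsetSum _ fun k _ => l2 k).const_mul _).add l3
  have l5 := le_of_tendsto_of_tendsto' l1 l4 hen
  rwa [add_zero] at l5

/-- bound of the gradient of the cut-off -/
theorem exists_pk_bound (e : ι → E) : ∃ C : ℝ, 0 ≤ C ∧ ∀ (R : ℝ), 0 < R → ∀ k (x : E),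
    pk (e k) (cut R) x ^ 2 ≤ C / R ^ 2 := by
  obtain ⟨C, hC0, hC⟩ := exists_cut0_bound E
  refine ⟨∑ k, (C * ‖e k‖) ^ 2, Finset.sum_nonneg fun k _ => by positivity, ?_⟩
  intro R hR k x
  have h1 : |pk (e k) (cut R) x| ≤ R⁻¹ * (C * ‖e k‖) := by
    rw [← Real.norm_eq_abs, pk, fderiv_cut, _root_.smul_apply, norm_smul, norm_inv,
      Real.norm_of_nonneg hR.le]
    gcongr
    exact (ContinuousLinearMap.le_opNorm _ _).trans
      (mul_le_mul_of_nonneg_right (hC _) (norm_nonneg _))
  have h2 : pk (e k) (cut R) x ^ 2 ≤ (R⁻¹ * (C * ‖e k‖)) ^ 2 := by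
    rw [← sq_abs]
    gcongr
  have h3 : (C * ‖e k‖) ^ 2 ≤ ∑ k, (C * ‖e k‖) ^ 2 :=
    Finset.single_le_sum (f := fun k => (C * ‖e k‖) ^ 2) (fun i _ => by positivity)
      (Finset.mem_univ k)
  calc pk (e k) (cut R) x ^ 2 ≤ (R⁻¹ * (C * ‖e k‖)) ^ 2 := h2
    _ = (C * ‖e k‖) ^ 2 / R ^ 2 := by rw [mul_pow, inv_pow]; field_simp
    _ ≤ _ := by gcongr

/-- **Povzner-Wienholtz** -/
theorem pw {e : ι → E} {W : E → F →L[ℂ] F} (hW : Continuous W)
    (hWs : ∀ x (v w : F), ⟪W x v, w⟫_ℂ = ⟪v, W x w⟫_ℂ)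
    (hpos : ∀ φ, Cor L T φ → 0 ≤ qf e W φ)
    {u : E → F} (hu : MemLp u 2 volume) (hue : ∀ g, ∀ᵐ x, u (L g x) = T g (u x))
    (hw : ∀ ψ : E → F, ContDiff ℝ ∞ ψ → HasCompactSupport ψ →
      ∫ x, ⟪Hop e W ψ x + ψ x, u x⟫_ℂ = 0) : u =ᵐ[volume] 0 := by
  have hi : Integrable fun x => ‖u x‖ ^ 2 := hu.integrable_norm_pow (by norm_num)
  obtain ⟨C, hC0, hC⟩ := exists_pk_bound (E := E) e
  -- the inequality for every radius
  have h1 : ∀ n : ℕ, ∫ x, ‖cut ((n : ℝ) + 1) x • u x‖ ^ 2 ≤
      (1 / 2) * (Fintype.card ι * (C / ((n : ℝ) + 1) ^ 2 * ∫ x, ‖u x‖ ^ 2)) := by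
    intro n
    have hn : (0 : ℝ) < (n : ℝ) + 1 := by positivity
    refine (energy_limit hW hWs hpos hu hue hw hn).trans ?_
    gcongr
    have h2 : ∀ k, ∫ x, pk (e k) (cut ((n : ℝ) + 1)) x ^ 2 * ‖u x‖ ^ 2 ≤
        C / ((n : ℝ) + 1) ^ 2 * ∫ x, ‖u x‖ ^ 2 := by
      intro k
      rw [← integral_const_mul]
      refine integral_mono_of_nonneg (Eventually.of_forall fun x => by positivity)
        (hi.const_mul _) (Eventually.of_forall fun x => ?_)
      exact mul_le_mul_of_nonneg_right (hC _ hn k x) (by positivity)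
    calc ∑ k, ∫ x, pk (e k) (cut ((n : ℝ) + 1)) x ^ 2 * ‖u x‖ ^ 2
        ≤ ∑ k : ι, C / ((n : ℝ) + 1) ^ 2 * ∫ x, ‖u x‖ ^ 2 := Finset.sum_le_sum fun k _ => h2 k
      _ = _ := by rw [Finset.sum_const, Finset.card_univ, nsmul_eq_mul]
  have h2 : Tendsto (fun n : ℕ => ∫ x, ‖cut ((n : ℝ) + 1) x • u x‖ ^ 2) atTop
      (𝓝 (∫ x, ‖u x‖ ^ 2)) := by
    have hm : ∀ n : ℕ, MemLp (fun x => cut ((n : ℝ) + 1) x • u x) 2 volume := fun n =>
      (tendsto_mult ⟨cut_smooth _, cut_supp (by positivity)⟩ (fun _ => hu) hu (by simp)).2.1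
    have h3 := IBP837.tendsto_integral_inner hm hu hm hu (tendsto_cut hu) (tendsto_cut hu)
    simp only [integral_norm_sq]
    exact (Complex.continuous_re.tendsto _).comp h3
  have h3 : Tendsto (fun n : ℕ => (1 / 2) * (Fintype.card ι * (C / ((n : ℝ) + 1) ^ 2 *
      ∫ x, ‖u x‖ ^ 2))) atTop (𝓝 ((1 / 2) * (Fintype.card ι * (0 * ∫ x, ‖u x‖ ^ 2)))) := by
    refine Tendsto.const_mul _ (Tendsto.const_mul _ (Tendsto.mul_const _ ?_))
    refine tendsto_const_nhds.div_atTop ?_
    exact (tendsto_pow_atTop (by norm_num)).comp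
      (tendsto_atTop_add_const_right _ _ tendsto_natCast_atTop_atTop)
  have h4 := le_of_tendsto_of_tendsto' h2 h3 h1
  have h5 : ∫ x, ‖u x‖ ^ 2 = 0 := by
    refine le_antisymm (by linarith) (integral_nonneg fun x => by positivity)
  have h6 := (integral_eq_zero_iff_of_nonneg (fun x => by positivity) hi).mp h5
  filter_upwards [h6] with x hx
  simpa using hx

end main

end Crest.Agent.R330.PW868
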