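import Crest.Agent.R330.GapAllN_967
import Crest.Agent.R330.StrongLow_796

/-!
# Row 330 (helper967): the algebra package for all data, and D-low from the trial system

`packAll N : StrongLow796.PackAll N`, `dLow_of_trial : TrialAll N → Sec478.DLow N`.
-/

set_option autoImplicit false
set_option linter.unusedSectionVars false

open MeasureTheory Filter Topology Crest.MathPhysics.MatrixQM
open scoped ContDiff InnerProductSpace ENNReal

noncomputable section

namespace Crest.Agent.R330.PackAll967

open Crest.Agent.R330.Defs478 Crest.Agent.R330.StrongLow796 Crest.Agent.R330.JQ916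

theorem pack {N : ℕ} {F : Type} [NormedAddCommGroup F] [InnerProductSpace ℂ F]
    [FiniteDimensional ℂ F] [Nontrivial F] (b : ColorBasis N) (M : FermionRep N F)
    (R : GaugeAction b M) (G : GammaNine) (g m : ℝ) : Pack b M R G g m :=
  ⟨Qc R G g m, Hc R G g m, Jc R G, fun _ _ => rfl, SusyL916.susy R G g m,
    GapAllN967.dens R G g m⟩

theorem packAll (N : ℕ) : PackAll N := fun F _ _ _ _ b M R G g _ => pack b M R G g 1

/-- **D-low from the trial system** -/
theorem dLow_of_trial {N : ℕ} (hT : TrialSys796.TrialAll N) : Sec478.DLow N :=
  dLow_of hT (GapAllN967.gapAll N) (packAll N)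

end Crest.Agent.R330.PackAll967

end
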