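import Crest.Agent.R330.StrongLow_796
import Crest.Agent.R330.GapAllN_967

/-!
# Row 330 (helper796): the inputs of `D-low` which are proved

* `packAll N : PackAll N` (916, 868, 967).
* `dLow_of_trial : TrialAll N → DLow N`.
-/

set_option autoImplicit false

open MeasureTheory Filter Topology Crest.MathPhysics.MatrixQM
open scoped ContDiff InnerProductSpace ENNReal

noncomputable section

namespace Crest.Agent.R330.Pack796

open Crest.Agent.R330.Defs478 Crest.Agent.R330.Dict416 Crest.Agent.R330.GapAlg916
  Crest.Agent.R330.JQ916 Crest.Agent.R330.StrongLow796 Crest.Agent.R330.TrialSys796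

theorem pack {N : ℕ} {F : Type} [NormedAddCommGroup F] [InnerProductSpace ℂ F]
    [FiniteDimensional ℂ F] [Nontrivial F] {b : ColorBasis N} {M : FermionRep N F}
    (R : GaugeAction b M) (G : GammaNine) (g m : ℝ) : Pack b M R G g m :=
  ⟨_, _, _, fun α φ => Qc_coe R G g m α φ, SusyL916.susy R G g m, GapAllN967.dens R G g m⟩

theorem packAll (N : ℕ) : PackAll N := fun _ _ _ _ _ _ _ R G g _ => pack R G g 1

/-- **`DLow N` from the trial system.** -/
theorem dLow_of_trial {N : ℕ} (hT : TrialAll N) : Sec478.DLow N :=
  dLow_of hT (GapAllN967.gapAll N) (packAll N)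

end Crest.Agent.R330.Pack796

end
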