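import Crest.Agent.R330.Frame_839
import Crest.Agent.R330.IBP_837

/-!
# Row 330, S8-PAIR (P1): the exact pairing identity on the slice (helper547)

Abstract setting of `Frame_839`: `A ω x = [ω, x]`, base point `c`, `T = range (A · c)`,
`N = Tᗮ`, gauge frame `om`, horizontal remainder `nn`.  A charge is
`chg Θ W e φ x = Σ_s (-i) Θ(e_s) ∂_{e_s} φ + W x (φ x)`.

* `chg_basis`   : independence of the orthonormal basis.
* `chg_slice`   : (LS) the charge of an infinitesimally equivariant function through the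
  derivatives along `N` only.
* `Qd`          : the formal adjoint of the slice charge.
* `pairing`     : `∫_N ⟪(chg φ)(c+u), τ u⟫ = ∫_N ⟪φ (c+u), Qd τ u⟫`.
-/

set_option autoImplicit false
set_option linter.unusedSectionVars false

open MeasureTheory Filter Topology
open scoped ContDiff InnerProductSpace

noncomputable section

namespace Crest.Agent.R330.PairA547

open Crest.Agent.R330.Frame839 Crest.Agent.R330.IBP837

variable {V E : Type*} [NormedAddCommGroup V] [InnerProductSpace ℝ V] [FiniteDimensional ℝ V]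
  [NormedAddCommGroup E] [InnerProductSpace ℝ E] [FiniteDimensional ℝ E]
  {F : Type*} [NormedAddCommGroup F] [InnerProductSpace ℂ F] [FiniteDimensional ℂ F]
  {σ σ' ι κ : Type*} [Fintype σ] [Fintype σ'] [Fintype ι] [Fintype κ]

theorem map_rsmul (L : F →ₗ[ℂ] F) (r : ℝ) (v : F) : L (r • v) = r • L v :=
  (L.restrictScalars ℝ).map_smul r v

theorem inner_rsmul_left (r : ℝ) (v w : F) : ⟪r • v, w⟫_ℂ = (r : ℂ) * ⟪v, w⟫_ℂ := by
  rw [← Complex.coe_smul, inner_smul_left, Complex.conj_ofReal]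

theorem inner_rsmul_right' (r : ℝ) (v w : F) : ⟪v, r • w⟫_ℂ = (r : ℂ) * ⟪v, w⟫_ℂ := by
  rw [← Complex.coe_smul, inner_smul_right]

/-- The charge `Σ_s (-i) Θ(e_s) ∂_{e_s} φ + W φ`. -/
def chg (Θ : E →ₗ[ℝ] (F →ₗ[ℂ] F)) (W : E → (F →ₗ[ℂ] F)) (e : OrthonormalBasis σ ℝ E)
    (φ : E → F) (x : E) : F :=
  (∑ s, (-Complex.I) • Θ (e s) (fderiv ℝ φ x (e s))) + W x (φ x)

/-- The bilinear form of the kinetic term. -/
def kf (Θ : E →ₗ[ℝ] (F →ₗ[ℂ] F)) (D : E →L[ℝ] F) : E →ₗ[ℝ] E →ₗ[ℝ] F :=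
  LinearMap.mk₂ ℝ (fun v w => (-Complex.I) • Θ v (D w))
    (fun v v' w => by rw [map_add, LinearMap.add_apply, smul_add])
    (fun r v w => by
      rw [map_smul, LinearMap.smul_apply, smul_comm])
    (fun v w w' => by rw [map_add, map_add, smul_add])
    (fun r v w => by
      rw [map_smul, map_rsmul, smul_comm])

theorem kf_apply (Θ : E →ₗ[ℝ] (F →ₗ[ℂ] F)) (D : E →L[ℝ] F) (v w : E) :
    kf Θ D v w = (-Complex.I) • Θ v (D w) := rfl

theorem chg_basis (Θ : E →ₗ[ℝ] (F →ₗ[ℂ] F)) (W : E → (F →ₗ[ℂ] F))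
    (e : OrthonormalBasis σ ℝ E) (e' : OrthonormalBasis σ' ℝ E) (φ : E → F) (x : E) :
    chg Θ W e φ x = chg Θ W e' φ x := by
  unfold chg
  congr 1
  exact contraction_basis (kf Θ (fderiv ℝ φ x)) e e'

/-! ## Adapted bases -/

section adapted

variable (K : Submodule ℝ E)

/-- Orthonormal basis of `E` from bases of `K` and `Kᗮ`. -/
def bs (eT : OrthonormalBasis ι ℝ K) (eN : OrthonormalBasis κ ℝ Kᗮ) :
    OrthonormalBasis (ι ⊕ κ) ℝ E :=
  (eT.prod eN).map K.orthogonalDecomposition.symm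

theorem bs_inl (eT : OrthonormalBasis ι ℝ K) (eN : OrthonormalBasis κ ℝ Kᗮ) (i : ι) :
    bs K eT eN (Sum.inl i) = (eT i : E) := by
  unfold bs
  simp

theorem bs_inr (eT : OrthonormalBasis ι ℝ K) (eN : OrthonormalBasis κ ℝ Kᗮ) (i : κ) :
    bs K eT eN (Sum.inr i) = (eN i : E) := by
  unfold bs
  simp

theorem chg_split (Θ : E →ₗ[ℝ] (F →ₗ[ℂ] F)) (W : E → (F →ₗ[ℂ] F))
    (e : OrthonormalBasis σ ℝ E) (eT : OrthonormalBasis ι ℝ K) (eN : OrthonormalBasis κ ℝ Kᗮ)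
    (φ : E → F) (x : E) :
    chg Θ W e φ x = (∑ n, (-Complex.I) • Θ (eN n) (fderiv ℝ φ x (eN n))) +
      (∑ t, (-Complex.I) • Θ (eT t) (fderiv ℝ φ x (eT t))) + W x (φ x) := by
  rw [chg_basis Θ W e (bs K eT eN)]
  unfold chg
  rw [Fintype.sum_sum_type]
  simp only [bs_inl, bs_inr]
  rw [add_comm (∑ t, (-Complex.I) • Θ (eT t : E) (fderiv ℝ φ x (eT t : E)))]

end adapted

/-! ## The slice form of the charge -/

variable (A : V →L[ℝ] E →L[ℝ] E) (c : E)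

/-- **(LS).** -/
theorem chg_slice (Θ : E →ₗ[ℝ] (F →ₗ[ℂ] F)) (W : E → (F →ₗ[ℂ] F))
    (e : OrthonormalBasis σ ℝ E) (eT : OrthonormalBasis ι ℝ (Tn A c))
    (eN : OrthonormalBasis κ ℝ (Tn A c)ᗮ) {Bf : V →ₗ[ℝ] (F →ₗ[ℝ] F)} {φ : E → F} {x : E}
    (h : InfEq A Bf φ x) :
    chg Θ W e φ x = (∑ n, (-Complex.I) • Θ (eN n) (fderiv ℝ φ x (eN n))) +
      (∑ t, (-Complex.I) • Θ (eT t)
        (Bf (om A c x (eT t)) (φ x) - fderiv ℝ φ x (nn A c x (eT t)))) + W x (φ x) := by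
  rw [chg_split (Tn A c) Θ W e eT eN]
  simp only [vert h]

/-- Coefficients of the horizontal remainder. -/
def cf (eT : OrthonormalBasis ι ℝ (Tn A c)) (eN : OrthonormalBasis κ ℝ (Tn A c)ᗮ)
    (n : κ) (t : ι) (v : (Tn A c)ᗮ) : ℝ :=
  ⟪(eN n : E), nn A c (c + v) (eT t)⟫_ℝ

/-- The formal adjoint of the slice charge. -/
def Qd (Θ : E →ₗ[ℝ] (F →ₗ[ℂ] F)) (W : E → (F →ₗ[ℂ] F)) (Bf : V →ₗ[ℝ] (F →ₗ[ℝ] F))
    (eT : OrthonormalBasis ι ℝ (Tn A c)) (eN : OrthonormalBasis κ ℝ (Tn A c)ᗮ)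
    (τ : (Tn A c)ᗮ → F) (u : (Tn A c)ᗮ) : F :=
  (∑ n, (-Complex.I) • Θ (eN n) (fderiv ℝ τ u (eN n))) + W (c + u) (τ u) +
    (∑ t, (-Complex.I) • Bf (om A c (c + u) (eT t)) (Θ (eT t) (τ u))) +
    ∑ n, ∑ t, Complex.I • Θ (eT t) (fderiv ℝ (fun v => cf A c eT eN n t v • τ v) u (eN n))

/-- The flux field of the pairing. -/
def Xf (Θ : E →ₗ[ℝ] (F →ₗ[ℂ] F)) (eT : OrthonormalBasis ι ℝ (Tn A c))
    (eN : OrthonormalBasis κ ℝ (Tn A c)ᗮ) (τ : (Tn A c)ᗮ → F) (n : κ) (u : (Tn A c)ᗮ) : F :=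
  Complex.I • Θ (eN n) (τ u) +
    ∑ t, (-Complex.I) • Θ (eT t) (cf A c eT eN n t u • τ u)

variable {A c}

theorem conj_negI (v w : F) : ⟪(-Complex.I) • v, w⟫_ℂ = Complex.I * ⟪v, w⟫_ℂ := by
  rw [inner_smul_left]
  simp

theorem pointwise {Θ : E →ₗ[ℝ] (F →ₗ[ℂ] F)} (hΘ : ∀ v, (Θ v).IsSymmetric)
    {W : E → (F →ₗ[ℂ] F)} (hW : ∀ x, (W x).IsSymmetric) {Bf : V →ₗ[ℝ] (F →ₗ[ℝ] F)}
    (hBf : ∀ w v v', ⟪Bf w v, v'⟫_ℂ = - ⟪v, Bf w v'⟫_ℂ) (e : OrthonormalBasis σ ℝ E)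
    (eT : OrthonormalBasis ι ℝ (Tn A c)) (eN : OrthonormalBasis κ ℝ (Tn A c)ᗮ)
    {φ : E → F} {τ : (Tn A c)ᗮ → F} {u : (Tn A c)ᗮ} (h : InfEq A Bf φ (c + u))
    (hn : ∀ t, τ u ≠ 0 → nn A c (c + u) (eT t) ∈ (Tn A c)ᗮ) :
    ⟪chg Θ W e φ (c + u), τ u⟫_ℂ =
      (∑ n, ⟪fderiv ℝ φ (c + u) (eN n), Xf A c Θ eT eN τ n u⟫_ℂ) +
      ⟪φ (c + u), W (c + u) (τ u) +
        ∑ t, (-Complex.I) • Bf (om A c (c + u) (eT t)) (Θ (eT t) (τ u))⟫_ℂ := by
  classical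
  by_cases h0 : τ u = 0
  · simp [h0, Xf]
  rw [chg_slice A c Θ W e eT eN h]
  have h1 : ∀ n, ⟪(-Complex.I) • Θ (eN n) (fderiv ℝ φ (c + u) (eN n)), τ u⟫_ℂ =
      ⟪fderiv ℝ φ (c + u) (eN n), Complex.I • Θ (eN n) (τ u)⟫_ℂ := by
    intro n
    rw [conj_negI, hΘ, inner_smul_right]
  have h2 : ∀ t, ⟪(-Complex.I) • Θ (eT t) (Bf (om A c (c + u) (eT t)) (φ (c + u)) -
        fderiv ℝ φ (c + u) (nn A c (c + u) (eT t))), τ u⟫_ℂ =
      ⟪φ (c + u), (-Complex.I) • Bf (om A c (c + u) (eT t)) (Θ (eT t) (τ u))⟫_ℂ +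
      ∑ n, ⟪fderiv ℝ φ (c + u) (eN n),
        (-Complex.I) • Θ (eT t) (cf A c eT eN n t u • τ u)⟫_ℂ := by
    intro t
    have h3 : fderiv ℝ φ (c + u) (nn A c (c + u) (eT t)) =
        ∑ n, cf A c eT eN n t u • fderiv ℝ φ (c + u) (eN n) := by
      have h4 := eN.sum_repr' ⟨nn A c (c + u) (eT t), hn t h0⟩
      have h5 := congrArg (Subtype.val) h4
      rw [Submodule.coe_sum] at h5
      conv_lhs => rw [show nn A c (c + u) (eT t) = ((⟨nn A c (c + u) (eT t), hn t h0⟩ :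
        (Tn A c)ᗮ) : E) from rfl, ← h5]
      rw [map_sum]
      refine Finset.sum_congr rfl fun n _ => ?_
      rw [Submodule.coe_smul, map_smul]
      rfl
    rw [conj_negI, hΘ, inner_sub_left, hBf, h3, sum_inner, mul_sub, Finset.mul_sum,
      inner_smul_right, sub_eq_add_neg, ← Finset.sum_neg_distrib]
    congr 1
    · ring
    · refine Finset.sum_congr rfl fun n _ => ?_
      rw [inner_rsmul_left, inner_smul_right, map_rsmul, inner_rsmul_right']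
      ring
  have h6 : ⟪W (c + u) (φ (c + u)), τ u⟫_ℂ = ⟪φ (c + u), W (c + u) (τ u)⟫_ℂ := hW _ _ _
  rw [inner_add_left, inner_add_left, sum_inner, sum_inner, h6]
  simp only [h1, h2, Xf, inner_add_right, inner_sum, Finset.sum_add_distrib]
  rw [Finset.sum_comm]
  ring

/-! ## Regularity -/

variable {r B : ℝ}

theorem contDiffAt_cf (hr0 : 0 < r) (hr : GapAt A c r) (hB : ActBound A B)
    (eT : OrthonormalBasis ι ℝ (Tn A c)) (eN : OrthonormalBasis κ ℝ (Tn A c)ᗮ) (n : κ) (t : ι)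
    {u : (Tn A c)ᗮ} (hu : B * ‖u‖ ≤ r / 2) : ContDiffAt ℝ ∞ (cf A c eT eN n t) u := by
  have hx : B * ‖c + (u : E) - c‖ ≤ r / 2 := by
    rw [add_sub_cancel_left]
    exact hu
  have hlin : ContDiff ℝ ∞ (fun v : (Tn A c)ᗮ => c + (v : E)) :=
    contDiff_const.add ((Tn A c)ᗮ.subtypeL).contDiff
  have h1 : ContDiffAt ℝ ∞ (fun v : (Tn A c)ᗮ => om A c (c + (v : E))) u := by
    have h2 := contDiffAt_om (A := A) (c := c) hr0 hr hB hx
    exact ContDiffAt.comp (g := fun x => om A c x) u h2 hlin.contDiffAt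
  have h3 : ContDiffAt ℝ ∞ (fun v : (Tn A c)ᗮ => nn A c (c + (v : E)) (eT t)) u := by
    unfold nn
    have h4 : ContDiffAt ℝ ∞ (fun v : (Tn A c)ᗮ =>
        A ((om A c (c + (v : E)) (eT t) : (kc A c)ᗮ) : V)) u := by
      have h5 : ContDiffAt ℝ ∞ (fun v : (Tn A c)ᗮ => om A c (c + (v : E)) (eT t)) u :=
        h1.clm_apply contDiffAt_const
      have h6 : ContDiffAt ℝ ∞ (fun v : (Tn A c)ᗮ =>
          ((kc A c)ᗮ.subtypeL (om A c (c + (v : E)) (eT t)))) u :=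
        ContDiffAt.comp u ((kc A c)ᗮ.subtypeL.contDiff.contDiffAt) h5
      exact ContDiffAt.comp u A.contDiff.contDiffAt h6
    exact (h4.clm_apply hlin.contDiffAt).sub contDiffAt_const
  unfold cf
  exact contDiffAt_const.inner ℝ h3

theorem contDiff_cf_smul (hr0 : 0 < r) (hr : GapAt A c r) (hB : ActBound A B)
    (eT : OrthonormalBasis ι ℝ (Tn A c)) (eN : OrthonormalBasis κ ℝ (Tn A c)ᗮ) (n : κ) (t : ι)
    {m : ℕ∞} {τ : (Tn A c)ᗮ → F} (hτ : ContDiff ℝ m τ)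
    (hs : ∀ u ∈ tsupport τ, B * ‖u‖ ≤ r / 2) :
    ContDiff ℝ m (fun v => cf A c eT eN n t v • τ v) := by
  rw [contDiff_iff_contDiffAt]
  intro u
  by_cases hu : u ∈ tsupport τ
  · exact ((contDiffAt_cf hr0 hr hB eT eN n t (hs u hu)).of_le
      (by exact_mod_cast le_top)).smul hτ.contDiffAt
  · have h1 : (fun v => cf A c eT eN n t v • τ v) =ᶠ[𝓝 u] fun _ => 0 := by
      have h2 : τ =ᶠ[𝓝 u] 0 := notMem_tsupport_iff_eventuallyEq.mp hu
      filter_upwards [h2] with v hv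
      rw [hv]
      simp
    exact contDiffAt_const.congr_of_eventuallyEq h1

theorem hcs_cf_smul (eT : OrthonormalBasis ι ℝ (Tn A c)) (eN : OrthonormalBasis κ ℝ (Tn A c)ᗮ)
    (n : κ) (t : ι) {τ : (Tn A c)ᗮ → F} (hc : HasCompactSupport τ) :
    HasCompactSupport (fun v => cf A c eT eN n t v • τ v) := by
  refine hc.mono fun u hu => ?_
  rw [Function.mem_support] at hu ⊢
  intro h
  exact hu (by simp [h])

/-- Gluing by zero off the support. -/
theorem contDiff_glue {X G : Type*} [NormedAddCommGroup X] [NormedSpace ℝ X]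
    [NormedAddCommGroup G] [NormedSpace ℝ G] {m : ℕ∞} {f : X → G} {τ : X → F}
    (h : ∀ u ∈ tsupport τ, ContDiffAt ℝ m f u)
    (h0 : ∀ u, τ =ᶠ[𝓝 u] 0 → f =ᶠ[𝓝 u] fun _ => 0) : ContDiff ℝ m f := by
  rw [contDiff_iff_contDiffAt]
  intro u
  by_cases hu : u ∈ tsupport τ
  · exact h u hu
  · exact contDiffAt_const.congr_of_eventuallyEq
      (h0 u (notMem_tsupport_iff_eventuallyEq.mp hu))

/-- `Bf` as a continuous bilinear map. -/
def BfC (Bf : V →ₗ[ℝ] (F →ₗ[ℝ] F)) : V →L[ℝ] (F →L[ℝ] F) :=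
  haveI : FiniteDimensional ℝ F := FiniteDimensional.complexToReal F
  LinearMap.toContinuousLinearMap
    ((LinearMap.toContinuousLinearMap (𝕜 := ℝ) (E := F) (F' := F)).toLinearMap ∘ₗ Bf)

theorem BfC_apply (Bf : V →ₗ[ℝ] (F →ₗ[ℝ] F)) (w : V) (v : F) : BfC Bf w v = Bf w v := rfl

theorem contDiff_lin {X : Type*} [NormedAddCommGroup X] [NormedSpace ℝ X] {m : WithTop ℕ∞}
    (L : F →ₗ[ℂ] F) {f : X → F} (hf : ContDiff ℝ m f) : ContDiff ℝ m fun x => L (f x) :=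
  haveI : FiniteDimensional ℝ F := FiniteDimensional.complexToReal F
  ((LinearMap.toContinuousLinearMap (L.restrictScalars ℝ)).contDiff).comp hf

theorem fderiv_lin {X : Type*} [NormedAddCommGroup X] [NormedSpace ℝ X]
    (L : F →ₗ[ℂ] F) {f : X → F} {x : X} (hf : DifferentiableAt ℝ f x) (e : X) :
    fderiv ℝ (fun x => L (f x)) x e = L (fderiv ℝ f x e) := by
  haveI : FiniteDimensional ℝ F := FiniteDimensional.complexToReal F
  have h := ((LinearMap.toContinuousLinearMap (L.restrictScalars ℝ)).hasFDerivAt.comp x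
    hf.hasFDerivAt).fderiv
  have h2 : (fun x => L (f x)) =
      (LinearMap.toContinuousLinearMap (L.restrictScalars ℝ)) ∘ f := rfl
  rw [h2, h]
  rfl

theorem contDiff_Bom (hr0 : 0 < r) (hr : GapAt A c r) (hB : ActBound A B)
    (Bf : V →ₗ[ℝ] (F →ₗ[ℝ] F)) (t : Tn A c) {m : ℕ∞} {τ : (Tn A c)ᗮ → F}
    (hτ : ContDiff ℝ m τ) (hs : ∀ u ∈ tsupport τ, B * ‖u‖ ≤ r / 2) (L : F →ₗ[ℂ] F) :
    ContDiff ℝ m fun u : (Tn A c)ᗮ => Bf (om A c (c + u) t) (L (τ u)) := by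
  refine contDiff_glue (τ := τ) (fun u hu => ?_) (fun u hu => ?_)
  · have hx : B * ‖c + (u : E) - c‖ ≤ r / 2 := by
      rw [add_sub_cancel_left]
      exact hs u hu
    have hlin : ContDiff ℝ ∞ (fun v : (Tn A c)ᗮ => c + (v : E)) :=
      contDiff_const.add ((Tn A c)ᗮ.subtypeL).contDiff
    have h1 : ContDiffAt ℝ ∞ (fun v : (Tn A c)ᗮ => om A c (c + (v : E))) u :=
      ContDiffAt.comp (g := fun x => om A c x) u (contDiffAt_om (A := A) (c := c) hr0 hr hB hx)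
        hlin.contDiffAt
    have h5 : ContDiffAt ℝ ∞ (fun v : (Tn A c)ᗮ => om A c (c + (v : E)) t) u :=
      h1.clm_apply contDiffAt_const
    have h6 : ContDiffAt ℝ ∞ (fun v : (Tn A c)ᗮ =>
        ((kc A c)ᗮ.subtypeL (om A c (c + (v : E)) t))) u :=
      ContDiffAt.comp u ((kc A c)ᗮ.subtypeL.contDiff.contDiffAt) h5
    have h7 : ContDiffAt ℝ ∞ (fun v : (Tn A c)ᗮ =>
        BfC Bf ((kc A c)ᗮ.subtypeL (om A c (c + (v : E)) t))) u :=
      ContDiffAt.comp u (BfC Bf).contDiff.contDiffAt h6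
    exact (h7.of_le (by exact_mod_cast le_top)).clm_apply (contDiff_lin L hτ).contDiffAt
  · filter_upwards [hu] with v hv
    rw [hv]
    simp

section integral

variable [MeasurableSpace E] [BorelSpace E]

/-- **The exact pairing identity.** -/
theorem pairing (μ : Measure (Tn A c)ᗮ) [μ.IsAddHaarMeasure] (hr0 : 0 < r) (hr : GapAt A c r)
    (hB : ActBound A B) {Θ : E →ₗ[ℝ] (F →ₗ[ℂ] F)} (hΘ : ∀ v, (Θ v).IsSymmetric)
    {W : E → (F →ₗ[ℂ] F)} (hW : ∀ x, (W x).IsSymmetric)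
    (hWc : ∀ v, Continuous fun x => W x v) {Bf : V →ₗ[ℝ] (F →ₗ[ℝ] F)}
    (hBf : ∀ w v v', ⟪Bf w v, v'⟫_ℂ = - ⟪v, Bf w v'⟫_ℂ) (e : OrthonormalBasis σ ℝ E)
    (eT : OrthonormalBasis ι ℝ (Tn A c)) (eN : OrthonormalBasis κ ℝ (Tn A c)ᗮ)
    {φ : E → F} (hφ : ContDiff ℝ 1 φ) {τ : (Tn A c)ᗮ → F} (hτ : ContDiff ℝ 1 τ)
    (hc : HasCompactSupport τ) (hs : ∀ u ∈ tsupport τ, B * ‖u‖ ≤ r / 2)
    (h : ∀ u ∈ tsupport τ, InfEq A Bf φ (c + u)) :
    ∫ u, ⟪chg Θ W e φ (c + u), τ u⟫_ℂ ∂μ =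
      ∫ u, ⟪φ (c + u), Qd A c Θ W Bf eT eN τ u⟫_ℂ ∂μ := by
  set Φ : (Tn A c)ᗮ → F := fun u => φ (c + (u : E)) with hΦ
  have hlin : ContDiff ℝ 1 (fun v : (Tn A c)ᗮ => c + (v : E)) :=
    contDiff_const.add ((Tn A c)ᗮ.subtypeL).contDiff
  have hΦ1 : ContDiff ℝ 1 Φ := hφ.comp hlin
  have hΦd : ∀ (u : (Tn A c)ᗮ) (n : κ), fderiv ℝ φ (c + (u : E)) (eN n) = fderiv ℝ Φ u (eN n) := by
    intro u n
    have h1 : HasFDerivAt (fun v : (Tn A c)ᗮ => c + (v : E)) ((Tn A c)ᗮ.subtypeL) u :=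
      ((Tn A c)ᗮ.subtypeL.hasFDerivAt).const_add c
    have h2 : HasFDerivAt Φ ((fderiv ℝ φ (c + (u : E))).comp ((Tn A c)ᗮ.subtypeL)) u :=
      (((hφ.differentiable one_ne_zero) (c + (u : E))).hasFDerivAt).comp u h1
    rw [h2.fderiv]
    rfl
  -- regularity of the pieces
  have hX : ∀ n, ContDiff ℝ 1 (Xf A c Θ eT eN τ n) := by
    intro n
    unfold Xf
    exact ((contDiff_lin (Θ (eN n)) hτ).const_smul _).add (ContDiff.sum fun t _ =>
      (contDiff_lin (Θ (eT t)) (contDiff_cf_smul (m := 1) hr0 hr hB eT eN n t hτ hs)).const_smul _)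
  set R : (Tn A c)ᗮ → F := fun u => W (c + u) (τ u) +
        ∑ t, (-Complex.I) • Bf (om A c (c + u) (eT t)) (Θ (eT t) (τ u)) with hR
  have hRc : Continuous R := by
    rw [hR]
    refine Continuous.add ?_ (continuous_finsetSum _ fun t _ => ?_)
    · have hWL : Continuous fun x => LinearMap.toContinuousLinearMap (W x) := by
        rw [continuous_clm_apply]
        exact hWc
      exact (hWL.comp hlin.continuous).clm_apply hτ.continuous
    · exact (contDiff_Bom (m := 1) hr0 hr hB Bf (eT t) hτ hs (Θ (eT t))).continuous.const_smul _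
  have hRs : HasCompactSupport R := by
    refine hc.mono fun u hu => ?_
    rw [Function.mem_support] at hu ⊢
    intro h0
    exact hu (by simp [hR, h0])
  have hXs : ∀ n, HasCompactSupport (Xf A c Θ eT eN τ n) := by
    intro n
    refine hc.mono fun u hu => ?_
    rw [Function.mem_support] at hu ⊢
    intro h0
    exact hu (by simp [Xf, h0])
  have hpt : ∀ u : (Tn A c)ᗮ, ⟪chg Θ W e φ (c + u), τ u⟫_ℂ =
      (∑ n, ⟪fderiv ℝ Φ u (eN n), Xf A c Θ eT eN τ n u⟫_ℂ) + ⟪Φ u, R u⟫_ℂ := by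
    intro u
    by_cases hu : u ∈ tsupport τ
    · rw [pointwise hΘ hW hBf e eT eN (h u hu) (fun t _ => nn_mem hr0 hr hB (by
        rw [add_sub_cancel_left]
        exact hs u hu) _)]
      simp only [hΦd, hR, hΦ]
    · have h0 : τ u = 0 := image_eq_zero_of_notMem_tsupport hu
      simp [h0, Xf, hR]
  have hI1 : ∀ n, Integrable (fun u => ⟪fderiv ℝ Φ u (eN n), Xf A c Θ eT eN τ n u⟫_ℂ) μ :=
    fun n => integrable_inner_of_cont (fderiv_apply_continuous hΦ1 _) (hX n).continuous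
      (Or.inr (hXs n))
  have hI2 : Integrable (fun u => ⟪Φ u, R u⟫_ℂ) μ :=
    integrable_inner_of_cont hΦ1.continuous hRc (Or.inr hRs)
  have hI3 : ∀ n, Integrable (fun u => ⟪Φ u, fderiv ℝ (Xf A c Θ eT eN τ n) u (eN n)⟫_ℂ) μ :=
    fun n => integrable_inner_of_cont hΦ1.continuous (fderiv_apply_continuous (hX n) _)
      (Or.inr (hasCompactSupport_fderiv_apply (hXs n) _))
  have hQd : ∀ u, Qd A c Θ W Bf eT eN τ u =
      R u + ∑ n, (- fderiv ℝ (Xf A c Θ eT eN τ n) u (eN n)) := by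
    intro u
    have h1 : ∀ n, fderiv ℝ (Xf A c Θ eT eN τ n) u (eN n) =
        Complex.I • Θ (eN n) (fderiv ℝ τ u (eN n)) +
          ∑ t, (-Complex.I) • Θ (eT t)
            (fderiv ℝ (fun v => cf A c eT eN n t v • τ v) u (eN n)) := by
      intro n
      have hd1 : DifferentiableAt ℝ τ u := hτ.differentiable one_ne_zero u
      have hd2 : ∀ t, DifferentiableAt ℝ (fun v => cf A c eT eN n t v • τ v) u := fun t =>
        (contDiff_cf_smul (m := 1) hr0 hr hB eT eN n t hτ hs).differentiable one_ne_zero u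
      have hd3 : DifferentiableAt ℝ (fun v => Θ (eN n) (τ v)) u :=
        (contDiff_lin (Θ (eN n)) hτ).differentiable one_ne_zero u
      have hd4 : ∀ t, DifferentiableAt ℝ
          (fun v => Θ (eT t) (cf A c eT eN n t v • τ v)) u := fun t =>
        (contDiff_lin (Θ (eT t)) (contDiff_cf_smul (m := 1) hr0 hr hB eT eN n t hτ hs)
          ).differentiable one_ne_zero u
      have hH : HasFDerivAt (Xf A c Θ eT eN τ n)
          (Complex.I • fderiv ℝ (fun v => Θ (eN n) (τ v)) u +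
            ∑ t, (-Complex.I) • fderiv ℝ (fun v => Θ (eT t) (cf A c eT eN n t v • τ v)) u) u := by
        unfold Xf
        exact HasFDerivAt.fun_add (hd3.hasFDerivAt.fun_const_smul _)
          (HasFDerivAt.fun_sum fun t _ => (hd4 t).hasFDerivAt.fun_const_smul _)
      rw [hH.fderiv, ContinuousLinearMap.add_apply, ContinuousLinearMap.smul_apply,
        fderiv_lin _ hd1, ContinuousLinearMap.sum_apply]
      congr 1
      refine Finset.sum_congr rfl fun t _ => ?_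
      rw [ContinuousLinearMap.smul_apply, fderiv_lin _ (hd2 t)]
    simp only [h1, Qd, hR, neg_add, ← Finset.sum_neg_distrib, Finset.sum_add_distrib]
    simp only [neg_smul, neg_neg, Finset.sum_neg_distrib]
    abel
  calc ∫ u, ⟪chg Θ W e φ (c + u), τ u⟫_ℂ ∂μ
      = ∫ u, ((∑ n, ⟪fderiv ℝ Φ u (eN n), Xf A c Θ eT eN τ n u⟫_ℂ) + ⟪Φ u, R u⟫_ℂ) ∂μ :=
        integral_congr_ae (Eventually.of_forall hpt)
    _ = (∑ n, ∫ u, ⟪fderiv ℝ Φ u (eN n), Xf A c Θ eT eN τ n u⟫_ℂ ∂μ) + ∫ u, ⟪Φ u, R u⟫_ℂ ∂μ := by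
        rw [integral_add (integrable_finset_sum _ fun n _ => hI1 n) hI2,
          integral_finset_sum _ fun n _ => hI1 n]
    _ = (∑ n, - ∫ u, ⟪Φ u, fderiv ℝ (Xf A c Θ eT eN τ n) u (eN n)⟫_ℂ ∂μ) +
          ∫ u, ⟪Φ u, R u⟫_ℂ ∂μ := by
        congr 1
        refine Finset.sum_congr rfl fun n _ => ?_
        exact ibp hΦ1 (hX n) (Or.inr (hXs n)) (eN n)
    _ = ∫ u, (⟪Φ u, R u⟫_ℂ +
          ∑ n, - ⟪Φ u, fderiv ℝ (Xf A c Θ eT eN τ n) u (eN n)⟫_ℂ) ∂μ := by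
        have hI4 : ∀ n, Integrable
            (fun u => - ⟪Φ u, fderiv ℝ (Xf A c Θ eT eN τ n) u (eN n)⟫_ℂ) μ :=
          fun n => (hI3 n).neg
        rw [integral_add hI2 (integrable_finset_sum _ fun n _ => hI4 n),
          integral_finset_sum _ fun n _ => hI4 n, add_comm]
        congr 1
        exact Finset.sum_congr rfl fun n _ => (integral_neg _).symm
    _ = _ := by
        refine integral_congr_ae (Eventually.of_forall fun u => ?_)
        change ⟪Φ u, R u⟫_ℂ + ∑ n, - ⟪Φ u, fderiv ℝ (Xf A c Θ eT eN τ n) u (eN n)⟫_ℂ =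
          ⟪φ (c + u), Qd A c Θ W Bf eT eN τ u⟫_ℂ
        have h8 : ∀ n, ⟪φ (c + (u : E)), - fderiv ℝ (Xf A c Θ eT eN τ n) u (eN n)⟫_ℂ =
            - ⟪Φ u, fderiv ℝ (Xf A c Θ eT eN τ n) u (eN n)⟫_ℂ := fun n => inner_neg_right _ _
        rw [hQd u]
        generalize R u = ρ
        rw [inner_add_right, inner_sum, Finset.sum_congr rfl fun n _ => h8 n]

end integral

end Crest.Agent.R330.PairA547

end
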