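import Crest.Agent.R330.PairC_424

/-!
# Row 330, S9-PAIRING (helper424): a small multiplier gives a small pairing

`pairing_small` : `‖∫ ⟪th gs om, Φ⟫‖ ≤ sqrt (2 C² (δ² + κ) K) * ‖Φ‖₂` when
`|th| ≤ C (δ + s z)`, `∫ gs² ≤ 1`, `∫ s² gs² ≤ κ`, `∫ ‖om‖² ≤ K`.
-/

set_option autoImplicit false
set_option linter.unusedSectionVars false

open MeasureTheory Filter Topology Set
open scoped ContDiff InnerProductSpace ENNReal NNReal

noncomputable section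

namespace Crest.Agent.R330.PairC424

variable {U Z : Type*} [MeasurableSpace U] [MeasurableSpace Z] {ν : Measure U} {μ : Measure Z}
  [SFinite ν] [SFinite μ]
  {F : Type*} [NormedAddCommGroup F] [InnerProductSpace ℂ F]

theorem lint_gs_le {gs : U × Z → ℝ} {om : U → F} {K : ℝ≥0∞}
    (Hm : AEStronglyMeasurable (fun q => gs q • om q.1) (ν.prod μ))
    (h1 : ∀ u, om u ≠ 0 → ∫⁻ z, ENNReal.ofReal (gs (u, z) ^ 2) ∂μ ≤ 1)
    (hK : ∫⁻ u, ‖om u‖ₑ ^ 2 ∂ν ≤ K) :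
    ∫⁻ q, ‖gs q • om q.1‖ₑ ^ 2 ∂(ν.prod μ) ≤ K := by
  have e : ∀ q : U × Z, ‖gs q • om q.1‖ₑ ^ 2 = ‖om q.1‖ₑ ^ 2 * ENNReal.ofReal (gs q ^ 2) := by
    intro q
    rw [enorm_eq_ofReal, enorm_eq_ofReal, ← ENNReal.ofReal_mul (by positivity), norm_smul,
      mul_pow, Real.norm_eq_abs, sq_abs, mul_comm]
  refine le_trans ?_ hK
  rw [lintegral_prod _ (Hm.enorm.pow_const 2)]
  refine lintegral_mono fun u => ?_
  simp only [e]
  rw [lintegral_const_mul' _ _ (ENNReal.pow_ne_top enorm_ne_top)]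
  by_cases hu : om u = 0
  · simp [hu]
  · calc _ ≤ ‖om u‖ₑ ^ 2 * 1 := by gcongr; exact h1 u hu
      _ = _ := mul_one _

theorem memLp_of_lint {S : Type*} [MeasurableSpace S] {σ : Measure S} {f : S → F}
    (hm : AEStronglyMeasurable f σ) (h : ∫⁻ x, ‖f x‖ₑ ^ 2 ∂σ < ⊤) : MemLp f 2 σ := by
  refine ⟨hm, ?_⟩
  rw [eLpNorm_lt_top_iff_lintegral_rpow_enorm_lt_top (by norm_num) (by norm_num)]
  simpa using h

/-- **A small multiplier gives a small pairing.** -/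
theorem pairing_small {th gs : U × Z → ℝ} {om : U → F} {s : Z → ℝ} {C δ κ K : ℝ}
    {Φ : U × Z → F} (hκ : 0 ≤ κ) (hK0 : 0 ≤ K)
    (hth : ∀ u z, om u ≠ 0 → |th (u, z)| ≤ C * (δ + s z))
    (Hm : AEStronglyMeasurable (fun q => gs q • om q.1) (ν.prod μ))
    (Tm : AEStronglyMeasurable (fun q => (th q * gs q) • om q.1) (ν.prod μ))
    (hsm : Measurable s)
    (h1 : ∀ u, om u ≠ 0 → ∫⁻ z, ENNReal.ofReal (gs (u, z) ^ 2) ∂μ ≤ 1)
    (h2 : ∀ u, om u ≠ 0 →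
      ∫⁻ z, ENNReal.ofReal (s z ^ 2 * gs (u, z) ^ 2) ∂μ ≤ ENNReal.ofReal κ)
    (hK : ∫⁻ u, ‖om u‖ₑ ^ 2 ∂ν ≤ ENNReal.ofReal K) (hΦ : MemLp Φ 2 (ν.prod μ)) :
    ‖∫ q, ⟪(th q * gs q) • om q.1, Φ q⟫_ℂ ∂(ν.prod μ)‖ ≤
      Real.sqrt (2 * C ^ 2 * (δ ^ 2 + κ) * K) * Real.sqrt (∫ q, ‖Φ q‖ ^ 2 ∂(ν.prod μ)) := by
  -- the second moment
  have e2 : ∀ u z, ENNReal.ofReal (s z ^ 2) * ‖gs (u, z) • om u‖ₑ ^ 2 =
      ‖om u‖ₑ ^ 2 * ENNReal.ofReal (s z ^ 2 * gs (u, z) ^ 2) := by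
    intro u z
    rw [enorm_eq_ofReal, enorm_eq_ofReal, ← ENNReal.ofReal_mul (by positivity),
      ← ENNReal.ofReal_mul (by positivity), norm_smul, mul_pow, Real.norm_eq_abs, sq_abs]
    congr 1
    ring
  have m2 : AEMeasurable (fun q : U × Z => ENNReal.ofReal (s q.2 ^ 2) * ‖gs q • om q.1‖ₑ ^ 2)
      (ν.prod μ) :=
    ((hsm.comp measurable_snd).pow_const 2).ennreal_ofReal.aemeasurable.mul
      (Hm.enorm.pow_const 2)
  have l2 : ∫⁻ q, ENNReal.ofReal (s q.2 ^ 2) * ‖gs q • om q.1‖ₑ ^ 2 ∂(ν.prod μ) ≤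
      ENNReal.ofReal (κ * K) := by
    rw [lintegral_prod _ m2, ENNReal.ofReal_mul hκ]
    calc _ ≤ ∫⁻ u, ENNReal.ofReal κ * ‖om u‖ₑ ^ 2 ∂ν := by
          refine lintegral_mono fun u => ?_
          simp only [e2]
          rw [lintegral_const_mul' _ _ (ENNReal.pow_ne_top enorm_ne_top)]
          by_cases hu : om u = 0
          · simp [hu]
          · rw [mul_comm (ENNReal.ofReal κ)]
            gcongr
            exact h2 u hu
      _ = ENNReal.ofReal κ * ∫⁻ u, ‖om u‖ₑ ^ 2 ∂ν :=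
          lintegral_const_mul' _ _ ENNReal.ofReal_ne_top
      _ ≤ _ := by gcongr
  -- the product
  have hpt : ∀ q : U × Z, ‖(th q * gs q) • om q.1‖ₑ ^ 2 ≤
      ENNReal.ofReal (2 * C ^ 2) * (ENNReal.ofReal (δ ^ 2) * ‖gs q • om q.1‖ₑ ^ 2 +
        ENNReal.ofReal (s q.2 ^ 2) * ‖gs q • om q.1‖ₑ ^ 2) := by
    intro q
    rw [mul_smul, ← add_mul, ← mul_assoc, ← ENNReal.ofReal_add (by positivity) (by positivity),
      ← ENNReal.ofReal_mul (by positivity), enorm_eq_ofReal, enorm_eq_ofReal,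
      ← ENNReal.ofReal_mul (by positivity), norm_smul, mul_pow, Real.norm_eq_abs, sq_abs]
    refine ENNReal.ofReal_le_ofReal ?_
    by_cases hu : om q.1 = 0
    · simp [hu]
    · refine mul_le_mul_of_nonneg_right ?_ (by positivity)
      have h3 := hth q.1 q.2 hu
      have h4 : th q ^ 2 ≤ C ^ 2 * (δ + s q.2) ^ 2 := by
        rw [← sq_abs (th q), ← mul_pow]
        exact pow_le_pow_left₀ (abs_nonneg _) h3 2
      have h5 : (δ + s q.2) ^ 2 ≤ 2 * (δ ^ 2 + s q.2 ^ 2) := by nlinarith [sq_nonneg (δ - s q.2)]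
      calc _ ≤ C ^ 2 * (δ + s q.2) ^ 2 := h4
        _ ≤ C ^ 2 * (2 * (δ ^ 2 + s q.2 ^ 2)) := mul_le_mul_of_nonneg_left h5 (sq_nonneg C)
        _ = _ := by ring
  have ld : ∫⁻ q, ‖(th q * gs q) • om q.1‖ₑ ^ 2 ∂(ν.prod μ) ≤
      ENNReal.ofReal (2 * C ^ 2 * (δ ^ 2 + κ) * K) := by
    have mg : AEMeasurable (fun q : U × Z => ‖gs q • om q.1‖ₑ ^ 2) (ν.prod μ) :=
      Hm.enorm.pow_const 2
    have l1 := lint_gs_le Hm h1 hK
    calc _ ≤ ∫⁻ q, ENNReal.ofReal (2 * C ^ 2) * (ENNReal.ofReal (δ ^ 2) * ‖gs q • om q.1‖ₑ ^ 2 +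
          ENNReal.ofReal (s q.2 ^ 2) * ‖gs q • om q.1‖ₑ ^ 2) ∂(ν.prod μ) := lintegral_mono hpt
      _ = ENNReal.ofReal (2 * C ^ 2) * (ENNReal.ofReal (δ ^ 2) *
            ∫⁻ q, ‖gs q • om q.1‖ₑ ^ 2 ∂(ν.prod μ) +
            ∫⁻ q, ENNReal.ofReal (s q.2 ^ 2) * ‖gs q • om q.1‖ₑ ^ 2 ∂(ν.prod μ)) := by
          rw [lintegral_const_mul' _ _ ENNReal.ofReal_ne_top,
            lintegral_add_left' (mg.const_mul _), lintegral_const_mul' _ _ ENNReal.ofReal_ne_top]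
      _ ≤ ENNReal.ofReal (2 * C ^ 2) * (ENNReal.ofReal (δ ^ 2) * ENNReal.ofReal K +
            ENNReal.ofReal (κ * K)) := by gcongr
      _ = _ := by
          rw [← ENNReal.ofReal_mul (by positivity), ← ENNReal.ofReal_add (by positivity)
            (by positivity), ← ENNReal.ofReal_mul (by positivity)]
          congr 1
          ring
  have hd : MemLp (fun q : U × Z => (th q * gs q) • om q.1) 2 (ν.prod μ) :=
    memLp_of_lint Tm (ld.trans_lt ENNReal.ofReal_lt_top)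
  refine (norm_integral_inner_le hd hΦ).trans ?_
  refine mul_le_mul_of_nonneg_right (Real.sqrt_le_sqrt ?_) (Real.sqrt_nonneg _)
  rw [lint_eq_ofReal hd] at ld
  exact (ENNReal.ofReal_le_ofReal_iff (by positivity)).1 ld

end Crest.Agent.R330.PairC424

end
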