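import Crest.Agent.R330.SlInt_658
import Crest.Agent.R330.SlI_712
import Crest.Agent.R330.PairC2_424

/-!
# Row 330, S9-PAIRING (helper424): literal geometry of the slice and the light part

Coordinates `(u, z) ∈ Tup kk × Zt X0` on the slice `Nor b c`, `c = C.cf σ.X0`.

* `cfT_add`, `PY_add`, `PM_add`, `norm_sq_light`, `light_le_Nor`;
* `spl` : the measure preserving linear equivalence `Tup kk × Zt X0 ≃ Nor b c`;
* `om` : the light part of the trial function, `gsn` : the normalised Gaussian, `tau_eq`;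
* `continuous_om`, `continuous_gs_om`.
-/

set_option autoImplicit false
set_option linter.unusedSectionVars false

open MeasureTheory Filter Topology Crest.MathPhysics.MatrixQM
open scoped ContDiff InnerProductSpace ENNReal

noncomputable section

namespace Crest.Agent.R330.PairD424

open Crest.Agent.R330.Defs478 Crest.Agent.R330.LS839 Crest.Agent.R330.Frame839
  Crest.Agent.R330.Bind6839 Crest.Agent.R330.SlG944 Crest.Agent.R330.SlF944
  Crest.Agent.R330.TDef414 Crest.Agent.R330.SlI712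
open Crest.Agent.R330.SlB314 (Nor Tan br)
open Crest.Agent.R330.SlD314 (tube mem_tube_iff)

variable {N p : ℕ} {b : ColorBasis N} {S : Type} [Group S] [Fintype S]

/-! ## geometry -/

section geo

variable (C : Chn b p S)

theorem cf_mem (X : Pos p) : C.cf X ∈ Tup C.kk := by
  rw [mem_Tup]
  intro i
  rw [C.comp_cf]
  exact C.cen_mem _

theorem PK_light {u : Cfg N} (hu : u ∈ Tup C.kk) : C.PK u = u :=
  Submodule.starProjection_eq_self_iff.2 hu

theorem PK_off {z : Cfg N} (hz : z ∈ Tup C.kkᗮ) : C.PK z = 0 := by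
  rw [← Tup_orth] at hz
  exact (Submodule.starProjection_apply_eq_zero_iff _).2 hz

theorem inner_light_off {u z : Cfg N} (hu : u ∈ Tup C.kk) (hz : z ∈ Tup C.kkᗮ) :
    ⟪u, z⟫_ℝ = 0 := by
  rw [← Tup_orth] at hz
  exact (Submodule.mem_orthogonal _ _).1 hz u hu

theorem inner_cfT (u : Cfg N) (Z : Pos p) : ⟪C.cfT u, Z⟫_ℝ = ⟪u, C.cf Z⟫_ℝ := by
  unfold Chn.cfT
  rw [ContinuousLinearMap.adjoint_inner_left]
  rfl

theorem cfT_off {z : Cfg N} (hz : z ∈ Tup C.kkᗮ) : C.cfT z = 0 := by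
  refine ext_inner_right ℝ fun X => ?_
  rw [inner_cfT, inner_zero_left, real_inner_comm]
  exact inner_light_off C (cf_mem C X) hz

theorem cfT_add {u z : Cfg N} (hz : z ∈ Tup C.kkᗮ) : C.cfT (u + z) = C.cfT u := by
  rw [map_add, cfT_off C hz, add_zero]

theorem PK_add {u z : Cfg N} (hu : u ∈ Tup C.kk) (hz : z ∈ Tup C.kkᗮ) : C.PK (u + z) = u := by
  rw [map_add, PK_off C hz, PK_light C hu, add_zero]

theorem PY_add {u z : Cfg N} (hu : u ∈ Tup C.kk) (hz : z ∈ Tup C.kkᗮ) :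
    C.PY (u + z) = C.PY u := by
  unfold Chn.PY
  rw [PK_add C hu hz, cfT_add C hz, PK_light C hu]

theorem PM_add {u z : Cfg N} (hu : u ∈ Tup C.kk) (hz : z ∈ Tup C.kkᗮ) : C.PM (u + z) = z := by
  unfold Chn.PM
  rw [PK_add C hu hz, add_sub_cancel_left]

theorem PY_mem (u : Cfg N) : C.PY u ∈ C.Blk := by
  refine Submodule.mem_inf.2
    ⟨Submodule.sub_mem _ (Submodule.starProjection_apply_mem _ _) (cf_mem C _), ?_⟩
  rw [Submodule.mem_orthogonal']
  rintro _ ⟨Z, rfl⟩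
  have h1 : ⟪C.PK u, C.cf Z⟫_ℝ = ⟪u, C.cf Z⟫_ℝ := by
    have h : ⟪u - C.PK u, C.cf Z⟫_ℝ = 0 :=
      (Submodule.mem_orthogonal' _ _).1
        (Submodule.sub_starProjection_mem_orthogonal (K := Tup C.kk) u) _ (cf_mem C Z)
    rw [inner_sub_left] at h
    linarith
  have h2 : ⟪C.cf (C.cfT u), C.cf Z⟫_ℝ = ⟪u, C.cf Z⟫_ℝ := by
    rw [LinearIsometry.inner_map_map, inner_cfT]
  change ⟪C.PK u - C.cf (C.cfT u), C.cf Z⟫_ℝ = 0
  rw [inner_sub_left, h1, h2, sub_self]

theorem norm_sq_light {u : Cfg N} (hu : u ∈ Tup C.kk) :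
    ‖u‖ ^ 2 = ‖C.cfT u‖ ^ 2 + ‖C.PY u‖ ^ 2 := by
  have h0 : u = C.cf (C.cfT u) + C.PY u := by
    unfold Chn.PY
    rw [PK_light C hu, add_sub_cancel]
  have h2 : ⟪C.cf (C.cfT u), C.PY u⟫_ℝ = 0 := by
    have h := (PY_mem C u).2
    exact (Submodule.mem_orthogonal _ _).1 h _ (LinearMap.mem_range_self _ _)
  conv_lhs => rw [h0]
  rw [norm_add_sq_real, h2, LinearIsometry.norm_map]
  ring

theorem norm_sq_add {u z : Cfg N} (hu : u ∈ Tup C.kk) (hz : z ∈ Tup C.kkᗮ) :
    ‖u + z‖ ^ 2 = ‖C.cfT u‖ ^ 2 + ‖C.PY u‖ ^ 2 + ‖z‖ ^ 2 := by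
  rw [norm_add_sq_real, inner_light_off C hu hz, norm_sq_light C hu]
  ring

theorem continuous_PY : Continuous fun u : Cfg N => C.PY u := by
  unfold Chn.PY
  exact C.PK.continuous.sub (C.cf.continuous.comp C.cfT.continuous)

theorem light_le_Nor {X0 : Pos p} (h0 : C.Reg X0) : Tup C.kk ≤ Nor b (C.cf X0) := by
  intro u hu
  have h1 : u ∈ Uk b (C.cf X0) := by
    unfold Uk
    rw [show kc (actB b) (C.cf X0) = C.kk from h0]
    exact hu
  have h2 := Uk_le_Nor h1
  rwa [Nor_eq] at h2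

theorem Zt_le_Nor (X0 : Pos p) : C.Zt X0 ≤ Nor b (C.cf X0) := inf_le_right

theorem Zt_le_off (X0 : Pos p) : C.Zt X0 ≤ Tup C.kkᗮ := inf_le_left

/-- the inclusion of the light directions into the slice -/
def incL {X0 : Pos p} (h0 : C.Reg X0) : Tup C.kk →ₗᵢ[ℝ] Nor b (C.cf X0) where
  toLinearMap := Submodule.inclusion (light_le_Nor C h0)
  norm_map' _ := rfl

/-- the inclusion of the heavy directions into the slice -/
def incZ (X0 : Pos p) : C.Zt X0 →ₗᵢ[ℝ] Nor b (C.cf X0) where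
  toLinearMap := Submodule.inclusion (Zt_le_Nor C X0)
  norm_map' _ := rfl

theorem inc_orth {X0 : Pos p} (h0 : C.Reg X0) (u : Tup C.kk) (z : C.Zt X0) :
    ⟪incL C h0 u, incZ C X0 z⟫_ℝ = 0 :=
  inner_light_off C u.2 (Zt_le_off C X0 z.2)

theorem inc_span {X0 : Pos p} (h0 : C.Reg X0) (y : Nor b (C.cf X0)) :
    ∃ u z, y = incL C h0 u + incZ C X0 z := by
  have h1 : C.PK y ∈ Tup C.kk := Submodule.starProjection_apply_mem _ _
  have h2 : (y : Cfg N) - C.PK y ∈ C.Zt X0 := by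
    refine Submodule.mem_inf.2 ⟨?_, Submodule.sub_mem _ y.2 (light_le_Nor C h0 h1)⟩
    rw [← Tup_orth]
    exact Submodule.sub_starProjection_mem_orthogonal (K := Tup C.kk) (y : Cfg N)
  refine ⟨⟨_, h1⟩, ⟨_, h2⟩, Subtype.ext ?_⟩
  change (y : Cfg N) = C.PK y + ((y : Cfg N) - C.PK y)
  abel

/-- **The coordinates of the slice.** -/
def spl {X0 : Pos p} (h0 : C.Reg X0) : (Tup C.kk × C.Zt X0) ≃L[ℝ] Nor b (C.cf X0) :=
  splitL (incL C h0) (incZ C X0) (inc_orth C h0) (inc_span C h0)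

theorem spl_coe {X0 : Pos p} (h0 : C.Reg X0) (q : Tup C.kk × C.Zt X0) :
    ((spl C h0 q : Nor b (C.cf X0)) : Cfg N) = (q.1 : Cfg N) + (q.2 : Cfg N) := rfl

theorem spl_mp {X0 : Pos p} (h0 : C.Reg X0) :
    MeasurePreserving (spl C h0) (volume : Measure (Tup C.kk × C.Zt X0)) volume :=
  splitL_mp _ _ _ _

theorem integral_spl {X0 : Pos p} (h0 : C.Reg X0) {E : Type*} [NormedAddCommGroup E]
    [NormedSpace ℝ E] (f : Nor b (C.cf X0) → E) :
    ∫ q : Tup C.kk × C.Zt X0, f (spl C h0 q) = ∫ y, f y :=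
  (spl_mp C h0).integral_comp (spl C h0).toHomeomorph.measurableEmbedding f

end geo

/-! ## the light part and the Gaussian -/

section light

variable {C : Chn b p S} {F : Type*} [NormedAddCommGroup F] [InnerProductSpace ℂ F]
  [FiniteDimensional ℂ F] {M : FermionRep N F} {R : GaugeAction b M} {G : GammaNine}

/-- The light part of the trial function. -/
def om (P : TPack C M R G) (σ : Sl C) (g : ℝ) (χ : Pos p → C.Fx M G) (u : Cfg N) : F :=
  P.U (σ.X0 + C.cfT u) (P.Psi g (C.PY u) (χ (σ.X0 + C.cfT u) : F))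

/-- The normalised Gaussian on the slice. -/
def gsn (P : TPack C M R G) (σ : Sl C) (g : ℝ) (X : Pos p) (z : Cfg N) : ℝ :=
  Real.exp (-(g / 2 * ⟪P.A X z, z⟫_ℝ)) / Real.sqrt (nI P σ g X)

theorem om_add (P : TPack C M R G) (σ : Sl C) (g : ℝ) (χ : Pos p → C.Fx M G) {u z : Cfg N}
    (hu : u ∈ Tup C.kk) (hz : z ∈ Tup C.kkᗮ) : om P σ g χ (u + z) = om P σ g χ u := by
  unfold om
  rw [cfT_add C hz, PY_add C hu hz]

theorem nI_nonneg (P : TPack C M R G) (σ : Sl C) (g : ℝ) (X : Pos p) : 0 ≤ nI P σ g X :=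
  integral_nonneg fun _ => (Real.exp_pos _).le

/-- the trial function in the coordinates -/
theorem tau_eq (P : TPack C M R G) (σ : Sl C) (g : ℝ) (χ : Pos p → C.Fx M G) {u z : Cfg N}
    (hu : u ∈ Tup C.kk) (hz : z ∈ Tup C.kkᗮ) :
    tau P σ g χ (u + z) = (kap σ.r (‖z‖ ^ 2) * Real.sqrt (σ.j (C.cf (C.cfT u))) *
      gsn P σ g (σ.X0 + C.cfT u) z) • om P σ g χ u := by
  unfold tau nrm gsn om
  rw [cfT_add C hz, PY_add C hu hz, PM_add C hu hz, add_sub_cancel_left,
    Real.sqrt_div' _ (nI_nonneg P σ g _), Complex.coe_smul]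
  congr 1
  ring

theorem om_supp (P : TPack C M R G) (σ : Sl C) (g : ℝ) (χ : Amp M G σ) {u : Cfg N}
    (h : om P σ g χ.fn u ≠ 0) :
    σ.X0 + C.cfT u ∈ tsupport χ.fn ∧ ‖C.cfT u‖ < σ.r / 4 ∧ ‖C.PY u‖ < P.s g := by
  have h2 : σ.X0 + C.cfT u ∈ tsupport χ.fn := by
    by_contra hc
    apply h
    have h1 : χ.fn (σ.X0 + C.cfT u) = 0 := image_eq_zero_of_notMem_tsupport hc
    unfold om
    rw [h1, Submodule.coe_zero, map_zero, map_zero]
  refine ⟨h2, ?_, ?_⟩
  · have h3 := χ.supp h2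
    rwa [Metric.mem_ball, dist_eq_norm, add_sub_cancel_left] at h3
  · by_contra hc
    apply h
    unfold om
    rw [P.Psi_supp g _ (PY_mem C u) (not_lt.1 hc)]
    simp

theorem continuous_chi (σ : Sl C) (χ : Amp M G σ) :
    Continuous fun u : Cfg N => ((χ.fn (σ.X0 + C.cfT u) : C.Fx M G) : F) :=
  continuous_subtype_val.comp (χ.smooth.continuous.comp
    (continuous_const.add C.cfT.continuous))

theorem continuous_om (P : TPack C M R G) (σ : Sl C) {g : ℝ} (hg : ContDiff ℝ ∞ (P.Psi g))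
    (χ : Amp M G σ) : Continuous fun u : Cfg N => om P σ g χ.fn u := by
  rw [continuous_iff_continuousAt]
  intro u
  by_cases hu : σ.X0 + C.cfT u ∈ tsupport χ.fn
  · have h1 : ContinuousAt (fun u : Cfg N => P.U (σ.X0 + C.cfT u)) u :=
      ContinuousAt.comp (f := fun u : Cfg N => σ.X0 + C.cfT u) (g := P.U)
        (P.U_smooth _ (χ.off _ hu)).continuousAt
        (continuous_const.add C.cfT.continuous).continuousAt
    have h2 : Continuous fun u : Cfg N => P.Psi g (C.PY u) (χ.fn (σ.X0 + C.cfT u) : F) :=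
      (hg.continuous.comp (continuous_PY C)).clm_apply (continuous_chi σ χ)
    exact h1.clm_apply h2.continuousAt
  · have h1 : ∀ᶠ v in 𝓝 u, σ.X0 + C.cfT v ∉ tsupport χ.fn :=
      (continuous_const.add C.cfT.continuous).continuousAt.eventually
        ((isClosed_tsupport χ.fn).isOpen_compl.mem_nhds hu)
    have h2 : (fun u : Cfg N => om P σ g χ.fn u) =ᶠ[𝓝 u] fun _ => 0 := by
      filter_upwards [h1] with v hv
      by_contra h3
      exact hv (om_supp P σ g χ h3).1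
    exact continuousAt_const.congr h2.symm

theorem continuous_gs_om (P : TPack C M R G) (σ : Sl C) {g : ℝ} (hg : ContDiff ℝ ∞ (P.Psi g))
    (χ : Amp M G σ) (hpos : ∀ X, ‖X - σ.X0‖ < σ.r / 4 → 0 < nI P σ g X)
    (hc : ContinuousOn (nI P σ g) (Metric.ball σ.X0 (σ.r / 4))) :
    Continuous fun q : Tup C.kk × C.Zt σ.X0 =>
      gsn P σ g (σ.X0 + C.cfT q.1) q.2 • om P σ g χ.fn q.1 := by
  have ho : Continuous fun q : Tup C.kk × C.Zt σ.X0 => om P σ g χ.fn (q.1 : Cfg N) :=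
    (continuous_om P σ hg χ).comp (continuous_subtype_val.comp continuous_fst)
  have hX : Continuous fun q : Tup C.kk × C.Zt σ.X0 => σ.X0 + C.cfT (q.1 : Cfg N) :=
    continuous_const.add (C.cfT.continuous.comp (continuous_subtype_val.comp continuous_fst))
  rw [continuous_iff_continuousAt]
  intro q
  by_cases hu : σ.X0 + C.cfT (q.1 : Cfg N) ∈ tsupport χ.fn
  · have hB := χ.off _ hu
    have hball := χ.supp hu
    have hA : ContinuousAt (fun q : Tup C.kk × C.Zt σ.X0 =>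
        P.A (σ.X0 + C.cfT (q.1 : Cfg N))) q :=
      ContinuousAt.comp (f := fun q : Tup C.kk × C.Zt σ.X0 => σ.X0 + C.cfT (q.1 : Cfg N))
        (g := P.A) (P.A_smooth _ hB.reg).continuousAt hX.continuousAt
    have hz : Continuous fun q : Tup C.kk × C.Zt σ.X0 => (q.2 : Cfg N) :=
      continuous_subtype_val.comp continuous_snd
    have hI : ContinuousAt (fun q : Tup C.kk × C.Zt σ.X0 =>
        nI P σ g (σ.X0 + C.cfT (q.1 : Cfg N))) q :=
      ContinuousAt.comp (f := fun q : Tup C.kk × C.Zt σ.X0 => σ.X0 + C.cfT (q.1 : Cfg N))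
        (g := nI P σ g) (hc.continuousAt (Metric.isOpen_ball.mem_nhds hball)) hX.continuousAt
    have hgs : ContinuousAt (fun q : Tup C.kk × C.Zt σ.X0 =>
        gsn P σ g (σ.X0 + C.cfT (q.1 : Cfg N)) q.2) q := by
      unfold gsn
      refine ContinuousAt.div ?_ (Real.continuous_sqrt.continuousAt.comp hI) ?_
      · refine Real.continuous_exp.continuousAt.comp (ContinuousAt.neg ?_)
        exact continuousAt_const.mul
          (ContinuousAt.inner (𝕜 := ℝ) (hA.clm_apply hz.continuousAt) hz.continuousAt)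
      · have h1 : ‖σ.X0 + C.cfT (q.1 : Cfg N) - σ.X0‖ < σ.r / 4 := by
          rwa [Metric.mem_ball, dist_eq_norm] at hball
        exact (Real.sqrt_pos.2 (hpos _ h1)).ne'
    exact hgs.smul ho.continuousAt
  · have h1 : ∀ᶠ v in 𝓝 q, σ.X0 + C.cfT (v.1 : Cfg N) ∉ tsupport χ.fn :=
      hX.continuousAt.eventually ((isClosed_tsupport χ.fn).isOpen_compl.mem_nhds hu)
    have h2 : (fun q : Tup C.kk × C.Zt σ.X0 =>
        gsn P σ g (σ.X0 + C.cfT q.1) q.2 • om P σ g χ.fn q.1) =ᶠ[𝓝 q] fun _ => 0 := by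
      filter_upwards [h1] with v hv
      have h3 : om P σ g χ.fn (v.1 : Cfg N) = 0 := by
        by_contra h3
        exact hv (om_supp P σ g χ h3).1
      rw [h3, smul_zero]
    exact continuousAt_const.congr h2.symm

end light

end Crest.Agent.R330.PairD424

end
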