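import Mathlib

/-!
# Row 330, S8-PAIR (helper383 for 547): the final estimate

`Φ` of bounded energy on a product `U × Z`, errors `e1` (odd), `e2` (no component along the
fibrewise ground state), `e3` (small):

* `cs`, `cs_inner` : Cauchy-Schwarz.
* `fibre` : the fibrewise bound for `e2`.
* `pairF` : `|∫ ⟨Φ, e1 + e2 + e3⟩| ≤ √E₀ (g^{-1/2} ‖e1‖ + g^{-1/2} ‖e2‖ + ‖ρ e2‖ + ‖e3‖)`.
* `pairF_cont` : the same for continuous functions on inner product spaces.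
-/

set_option autoImplicit false
set_option linter.unusedSectionVars false

open MeasureTheory Filter
open scoped InnerProductSpace

noncomputable section

namespace Crest.Agent.R330.PairF383

section cs

variable {X : Type*} [MeasurableSpace X] {μ : Measure X}

/-- Cauchy-Schwarz for real functions. -/
theorem cs {f g : X → ℝ} (hf : MemLp f 2 μ) (hg : MemLp g 2 μ) :
    |∫ x, f x * g x ∂μ| ≤ √(∫ x, f x ^ 2 ∂μ) * √(∫ x, g x ^ 2 ∂μ) := by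
  have hf2 : Integrable (fun x => f x ^ 2) μ := hf.integrable_sq
  have hg2 : Integrable (fun x => g x ^ 2) μ := hg.integrable_sq
  have hfg : Integrable (fun x => f x * g x) μ := hf.integrable_mul hg
  have hA : 0 ≤ ∫ x, f x ^ 2 ∂μ := integral_nonneg fun x => sq_nonneg _
  have key : ∀ t : ℝ, 0 ≤ (∫ x, g x ^ 2 ∂μ) * (t * t) + (-2 * ∫ x, f x * g x ∂μ) * t +
      ∫ x, f x ^ 2 ∂μ := by
    intro t
    have h1 : 0 ≤ ∫ x, (f x - t * g x) ^ 2 ∂μ := integral_nonneg fun x => sq_nonneg _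
    have h2 : ∫ x, (f x - t * g x) ^ 2 ∂μ =
        (∫ x, f x ^ 2 ∂μ) - (2 * t) * (∫ x, f x * g x ∂μ) + t ^ 2 * ∫ x, g x ^ 2 ∂μ := by
      have e1 : ∀ x, (f x - t * g x) ^ 2 =
          (f x ^ 2 - (2 * t) * (f x * g x)) + t ^ 2 * g x ^ 2 := fun x => by ring
      have i1 : Integrable (fun x => f x ^ 2 - (2 * t) * (f x * g x)) μ :=
        hf2.sub (hfg.const_mul _)
      simp only [e1]
      rw [integral_add i1 (hg2.const_mul _), integral_sub hf2 (hfg.const_mul _),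
        integral_const_mul, integral_const_mul]
    rw [h2] at h1
    linarith
  have h3 := discrim_le_zero key
  rw [discrim] at h3
  rw [← Real.sqrt_mul hA]
  refine Real.abs_le_sqrt ?_
  nlinarith

variable {F : Type*} [NormedAddCommGroup F] [InnerProductSpace ℂ F]

theorem integrable_inner {f g : X → F} (hf : MemLp f 2 μ) (hg : MemLp g 2 μ) :
    Integrable (fun x => ⟪f x, g x⟫_ℂ) μ := by
  have h : Integrable (fun x => ‖f x‖ * ‖g x‖) μ := hf.norm.integrable_mul hg.norm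
  refine h.mono' (hf.1.inner hg.1) (Eventually.of_forall fun x => ?_)
  exact norm_inner_le_norm _ _

/-- Cauchy-Schwarz for vector valued functions. -/
theorem cs_inner {f g : X → F} (hf : MemLp f 2 μ) (hg : MemLp g 2 μ) :
    ‖∫ x, ⟪f x, g x⟫_ℂ ∂μ‖ ≤ √(∫ x, ‖f x‖ ^ 2 ∂μ) * √(∫ x, ‖g x‖ ^ 2 ∂μ) := by
  have h : Integrable (fun x => ‖f x‖ * ‖g x‖) μ := hf.norm.integrable_mul hg.norm
  refine (norm_integral_le_of_norm_le h (Eventually.of_forall fun x =>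
    norm_inner_le_norm _ _)).trans ?_
  exact (le_abs_self _).trans (cs hf.norm hg.norm)

end cs

section fibre

variable {Z : Type*} [MeasurableSpace Z] {ν : Measure Z}
  {F : Type*} [NormedAddCommGroup F] [InnerProductSpace ℂ F] [FiniteDimensional ℂ F]

/-- **The bound on one fibre.** -/
theorem fibre {gs : Z → ℝ} (hgs : MemLp gs 2 ν) {P : F →L[ℂ] F}
    (hP : ∀ v w, ⟪P v, w⟫_ℂ = ⟪v, P w⟫_ℂ) {φ e : Z → F} (hφ : MemLp φ 2 ν) (he : MemLp e 2 ν)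
    (hv : P (∫ z, gs z • e z ∂ν) = 0) {A B : ℝ} (hA : 0 ≤ A) (hB : 0 ≤ B)
    (h : ∫ z, ‖φ z - gs z • P (∫ z', gs z' • φ z' ∂ν)‖ ^ 2 ∂ν ≤ A ^ 2 + B ^ 2) :
    ‖∫ z, ⟪φ z, e z⟫_ℂ ∂ν‖ ≤ (A + B) * √(∫ z, ‖e z‖ ^ 2 ∂ν) := by
  set v : F := P (∫ z', gs z' • φ z' ∂ν) with hvdef
  have hgv : MemLp (fun z => gs z • v) 2 ν :=
    (ContinuousLinearMap.toSpanSingleton ℝ v).comp_memLp' hgs
  have hψ : MemLp (fun z => φ z - gs z • v) 2 ν := hφ.sub hgv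
  have hsplit : ∫ z, ⟪φ z, e z⟫_ℂ ∂ν = ∫ z, ⟪φ z - gs z • v, e z⟫_ℂ ∂ν := by
    have h1 : ∫ z, ⟪gs z • v, e z⟫_ℂ ∂ν = 0 := by
      have hint : Integrable (fun z => gs z • e z) ν := by
        have h2 : Integrable (fun z => |gs z| * ‖e z‖) ν := hgs.norm.integrable_mul he.norm
        refine h2.mono' (hgs.1.smul he.1) (Eventually.of_forall fun z => ?_)
        rw [norm_smul, Real.norm_eq_abs]
      have h3 : ∀ z, ⟪gs z • v, e z⟫_ℂ = ⟪v, gs z • e z⟫_ℂ := by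
        intro z
        have e1 : (gs z • v : F) = (gs z : ℂ) • v := (Complex.coe_smul _ _).symm
        have e2 : (gs z • e z : F) = (gs z : ℂ) • e z := (Complex.coe_smul _ _).symm
        rw [e1, e2, inner_smul_left, inner_smul_right, Complex.conj_ofReal]
      simp only [h3]
      have h4 : ∫ z, ⟪v, gs z • e z⟫_ℂ ∂ν = ⟪v, ∫ z, gs z • e z ∂ν⟫_ℂ :=
        integral_inner hint v
      rw [h4, hvdef, hP, hv, inner_zero_right]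
    have h5 : ∫ z, ⟪φ z - gs z • v, e z⟫_ℂ ∂ν =
        ∫ z, ⟪φ z, e z⟫_ℂ ∂ν - ∫ z, ⟪gs z • v, e z⟫_ℂ ∂ν := by
      rw [← integral_sub (integrable_inner hφ he) (integrable_inner hgv he)]
      exact integral_congr_ae (Eventually.of_forall fun z => inner_sub_left _ _ _)
    rw [h5, h1, sub_zero]
  rw [hsplit]
  refine (cs_inner hψ he).trans ?_
  refine mul_le_mul_of_nonneg_right ?_ (Real.sqrt_nonneg _)
  refine Real.sqrt_le_iff.2 ⟨by positivity, h.trans ?_⟩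
  nlinarith [mul_nonneg hA hB]

end fibre

section main

variable {U Z : Type*} [MeasurableSpace U] [MeasurableSpace Z] {μ : Measure U} {ν : Measure Z}
  [SFinite μ] [SFinite ν]
  {F : Type*} [NormedAddCommGroup F] [InnerProductSpace ℂ F] [FiniteDimensional ℂ F]

theorem memLp_slice {f : U × Z → F} (hf : MemLp f 2 (μ.prod ν)) :
    ∀ᵐ p ∂μ, MemLp (fun z => f (p, z)) 2 ν := by
  have h1 : Integrable (fun q => ‖f q‖ ^ 2) (μ.prod ν) := hf.integrable_norm_pow (by norm_num)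
  filter_upwards [h1.prod_right_ae, hf.1.prodMk_left] with p hp hm
  exact (memLp_two_iff_integrable_sq_norm hm).2 hp

/-- `L²` norms of the fibres. -/
theorem memLp_fibre {f : U × Z → F} (hf : MemLp f 2 (μ.prod ν)) :
    MemLp (fun p => √(∫ z, ‖f (p, z)‖ ^ 2 ∂ν)) 2 μ ∧
      ∫ p, √(∫ z, ‖f (p, z)‖ ^ 2 ∂ν) ^ 2 ∂μ = ∫ q, ‖f q‖ ^ 2 ∂(μ.prod ν) := by
  have h1 : Integrable (fun q => ‖f q‖ ^ 2) (μ.prod ν) := hf.integrable_norm_pow (by norm_num)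
  have h2 : Integrable (fun p => ∫ z, ‖f (p, z)‖ ^ 2 ∂ν) μ := h1.integral_prod_left
  have h3 : ∀ p, √(∫ z, ‖f (p, z)‖ ^ 2 ∂ν) ^ 2 = ∫ z, ‖f (p, z)‖ ^ 2 ∂ν := fun p =>
    Real.sq_sqrt (integral_nonneg fun z => sq_nonneg _)
  have h4 : AEStronglyMeasurable (fun p => √(∫ z, ‖f (p, z)‖ ^ 2 ∂ν)) μ :=
    Real.continuous_sqrt.comp_aestronglyMeasurable h2.1
  refine ⟨(memLp_two_iff_integrable_sq h4).2 ?_, ?_⟩
  · simp only [h3]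
    exact h2
  · simp only [h3]
    exact (integral_prod _ h1).symm

/-- **The final estimate.** -/
theorem pairF {gs : U → Z → ℝ} (hgs : ∀ p, MemLp (gs p) 2 ν) {P : U → F →L[ℂ] F}
    (hP : ∀ p v w, ⟪P p v, w⟫_ℂ = ⟪v, P p w⟫_ℂ) {Gam : F →ₗ[ℂ] F} (hG : Gam.IsSymmetric)
    {Φ e1 e2 e3 : U × Z → F} (hΦ : MemLp Φ 2 (μ.prod ν)) (h1 : MemLp e1 2 (μ.prod ν))
    (h2 : MemLp e2 2 (μ.prod ν)) (h3 : MemLp e3 2 (μ.prod ν)) {ρ : U → ℝ} (hρ : ∀ p, 0 ≤ ρ p)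
    (hρ2 : MemLp (fun q : U × Z => ρ q.1 • e2 q) 2 (μ.prod ν)) {g E₀ : ℝ} (hg : 0 < g)
    (odd : ∀ q, Gam (e1 q) = -e1 q) (vac : ∀ᵐ p ∂μ, P p (∫ z, gs p z • e2 (p, z) ∂ν) = 0)
    (b0 : ∫ q, ‖Φ q‖ ^ 2 ∂(μ.prod ν) ≤ E₀)
    (b1 : g * ∫ q, ‖(1 / 2 : ℂ) • (Φ q - Gam (Φ q))‖ ^ 2 ∂(μ.prod ν) ≤ E₀)
    {en : U → ℝ} (hen : ∀ p, 0 ≤ en p) (heni : Integrable en μ) (b2' : ∫ p, en p ∂μ ≤ E₀)
    (b2 : ∀ᵐ p ∂μ, g * ∫ z, ‖Φ (p, z) - gs p z • P p (∫ z', gs p z' • Φ (p, z') ∂ν)‖ ^ 2 ∂ν ≤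
      en p + g * ρ p ^ 2 * ∫ z, ‖Φ (p, z)‖ ^ 2 ∂ν) :
    ‖∫ q, ⟪Φ q, e1 q + e2 q + e3 q⟫_ℂ ∂(μ.prod ν)‖ ≤
      √E₀ * ((√g)⁻¹ * √(∫ q, ‖e1 q‖ ^ 2 ∂(μ.prod ν)) + (√g)⁻¹ * √(∫ q, ‖e2 q‖ ^ 2 ∂(μ.prod ν)) +
        √(∫ q, ‖ρ q.1 • e2 q‖ ^ 2 ∂(μ.prod ν)) + √(∫ q, ‖e3 q‖ ^ 2 ∂(μ.prod ν))) := by
  have hE0 : 0 ≤ E₀ := (integral_nonneg fun q => sq_nonneg _).trans b0
  have hsg : 0 < √g := Real.sqrt_pos.2 hg
  -- splitting
  have hsplit : ∫ q, ⟪Φ q, e1 q + e2 q + e3 q⟫_ℂ ∂(μ.prod ν) =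
      (∫ q, ⟪Φ q, e1 q⟫_ℂ ∂(μ.prod ν)) + (∫ q, ⟪Φ q, e2 q⟫_ℂ ∂(μ.prod ν)) +
        ∫ q, ⟪Φ q, e3 q⟫_ℂ ∂(μ.prod ν) := by
    have i1 : Integrable (fun q => ⟪Φ q, e1 q⟫_ℂ + ⟪Φ q, e2 q⟫_ℂ) (μ.prod ν) :=
      (integrable_inner hΦ h1).add (integrable_inner hΦ h2)
    simp only [inner_add_right]
    rw [integral_add i1 (integrable_inner hΦ h3),
      integral_add (integrable_inner hΦ h1) (integrable_inner hΦ h2)]
  -- small part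
  have t3 : ‖∫ q, ⟪Φ q, e3 q⟫_ℂ ∂(μ.prod ν)‖ ≤ √E₀ * √(∫ q, ‖e3 q‖ ^ 2 ∂(μ.prod ν)) :=
    (cs_inner hΦ h3).trans (mul_le_mul_of_nonneg_right (Real.sqrt_le_sqrt b0) (Real.sqrt_nonneg _))
  -- odd part
  have hGΦ : MemLp (fun q => (1 / 2 : ℂ) • (Φ q - Gam (Φ q))) 2 (μ.prod ν) :=
    (hΦ.sub ((LinearMap.toContinuousLinearMap Gam).comp_memLp' hΦ)).const_smul _
  have t1 : ‖∫ q, ⟪Φ q, e1 q⟫_ℂ ∂(μ.prod ν)‖ ≤
      √E₀ * ((√g)⁻¹ * √(∫ q, ‖e1 q‖ ^ 2 ∂(μ.prod ν))) := by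
    have e : ∀ q, ⟪Φ q, e1 q⟫_ℂ = ⟪(1 / 2 : ℂ) • (Φ q - Gam (Φ q)), e1 q⟫_ℂ := by
      intro q
      rw [inner_smul_left, inner_sub_left, hG (Φ q) (e1 q), odd, inner_neg_right]
      have : (starRingEnd ℂ) (1 / 2 : ℂ) = 1 / 2 := by rw [map_div₀, map_one, map_ofNat]
      rw [this]
      ring
    simp only [e]
    refine (cs_inner hGΦ h1).trans ?_
    have h4 : √(∫ q, ‖(1 / 2 : ℂ) • (Φ q - Gam (Φ q))‖ ^ 2 ∂(μ.prod ν)) ≤ √E₀ * (√g)⁻¹ := by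
      rw [← Real.sqrt_inv, ← Real.sqrt_mul hE0]
      refine Real.sqrt_le_sqrt ?_
      rw [← div_eq_mul_inv, le_div_iff₀ hg, mul_comm]
      exact b1
    calc _ ≤ √E₀ * (√g)⁻¹ * √(∫ q, ‖e1 q‖ ^ 2 ∂(μ.prod ν)) :=
          mul_le_mul_of_nonneg_right h4 (Real.sqrt_nonneg _)
      _ = _ := by ring
  -- even part
  set a : U → ℝ := fun p => √(∫ z, ‖e2 (p, z)‖ ^ 2 ∂ν) with ha
  set c : U → ℝ := fun p => √(∫ z, ‖Φ (p, z)‖ ^ 2 ∂ν) with hc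
  obtain ⟨ha2, ha3⟩ := memLp_fibre h2
  obtain ⟨hc2, hc3⟩ := memLp_fibre hΦ
  have hs2 : MemLp (fun p => √(en p) * (√g)⁻¹) 2 μ := by
    have h4 : AEStronglyMeasurable (fun p => √(en p)) μ :=
      Real.continuous_sqrt.comp_aestronglyMeasurable heni.1
    have h5 : MemLp (fun p => √(en p)) 2 μ := by
      refine (memLp_two_iff_integrable_sq h4).2 ?_
      simp only [Real.sq_sqrt (hen _)]
      exact heni
    exact h5.mul_const _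
  have hra : MemLp (fun p => ρ p * a p) 2 μ ∧
      ∫ p, (ρ p * a p) ^ 2 ∂μ = ∫ q, ‖ρ q.1 • e2 q‖ ^ 2 ∂(μ.prod ν) := by
    obtain ⟨h4, h5⟩ := memLp_fibre hρ2
    have h6 : ∀ p, √(∫ z, ‖ρ p • e2 (p, z)‖ ^ 2 ∂ν) = ρ p * a p := by
      intro p
      have : ∫ z, ‖ρ p • e2 (p, z)‖ ^ 2 ∂ν = ρ p ^ 2 * ∫ z, ‖e2 (p, z)‖ ^ 2 ∂ν := by
        rw [← integral_const_mul]
        refine integral_congr_ae (Eventually.of_forall fun z => ?_)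
        simp only [norm_smul, Real.norm_eq_abs, mul_pow, sq_abs]
      rw [this, Real.sqrt_mul (sq_nonneg _), Real.sqrt_sq (hρ p)]
    simp only [h6] at h4 h5
    exact ⟨h4, h5⟩
  have hfib : ∀ᵐ p ∂μ, ‖∫ z, ⟪Φ (p, z), e2 (p, z)⟫_ℂ ∂ν‖ ≤
      √(en p) * (√g)⁻¹ * a p + c p * (ρ p * a p) := by
    filter_upwards [memLp_slice hΦ, memLp_slice h2, vac, b2] with p hp1 hp2 hp3 hp4
    have h4 := fibre (hgs p) (hP p) hp1 hp2 hp3 (A := √(en p) * (√g)⁻¹) (B := ρ p * c p)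
      (by positivity) (mul_nonneg (hρ p) (Real.sqrt_nonneg _)) ?_
    · refine h4.trans (le_of_eq ?_)
      simp only [ha]
      ring
    · have h5 : (√(en p) * (√g)⁻¹) ^ 2 + (ρ p * c p) ^ 2 =
          (en p + g * ρ p ^ 2 * ∫ z, ‖Φ (p, z)‖ ^ 2 ∂ν) / g := by
        rw [mul_pow, mul_pow, Real.sq_sqrt (hen p), inv_pow, Real.sq_sqrt hg.le, hc,
          Real.sq_sqrt (integral_nonneg fun z => sq_nonneg _)]
        field_simp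
      rw [h5, le_div_iff₀ hg, mul_comm]
      exact hp4
  have hi1 : Integrable (fun p => √(en p) * (√g)⁻¹ * a p) μ := hs2.integrable_mul ha2
  have hi2 : Integrable (fun p => c p * (ρ p * a p)) μ := hc2.integrable_mul hra.1
  have t2 : ‖∫ q, ⟪Φ q, e2 q⟫_ℂ ∂(μ.prod ν)‖ ≤
      √E₀ * ((√g)⁻¹ * √(∫ q, ‖e2 q‖ ^ 2 ∂(μ.prod ν))) +
        √E₀ * √(∫ q, ‖ρ q.1 • e2 q‖ ^ 2 ∂(μ.prod ν)) := by
    rw [integral_prod _ (integrable_inner hΦ h2)]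
    refine (norm_integral_le_of_norm_le (hi1.add hi2) hfib).trans ?_
    rw [show ∫ p, ((fun p => √(en p) * (√g)⁻¹ * a p) + fun p => c p * (ρ p * a p)) p ∂μ =
      ∫ p, √(en p) * (√g)⁻¹ * a p ∂μ + ∫ p, c p * (ρ p * a p) ∂μ from integral_add hi1 hi2]
    refine add_le_add ?_ ?_
    · refine (le_abs_self _).trans ((cs hs2 ha2).trans ?_)
      rw [ha3]
      have h4 : √(∫ p, (√(en p) * (√g)⁻¹) ^ 2 ∂μ) ≤ √E₀ * (√g)⁻¹ := by
        have h5 : ∫ p, (√(en p) * (√g)⁻¹) ^ 2 ∂μ = (∫ p, en p ∂μ) * g⁻¹ := by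
          rw [← integral_mul_const]
          refine integral_congr_ae (Eventually.of_forall fun p => ?_)
          simp only
          rw [mul_pow, Real.sq_sqrt (hen p), inv_pow, Real.sq_sqrt hg.le]
        rw [h5, ← Real.sqrt_inv, ← Real.sqrt_mul hE0]
        exact Real.sqrt_le_sqrt (mul_le_mul_of_nonneg_right b2' (by positivity))
      calc _ ≤ √E₀ * (√g)⁻¹ * √(∫ q, ‖e2 q‖ ^ 2 ∂(μ.prod ν)) :=
            mul_le_mul_of_nonneg_right h4 (Real.sqrt_nonneg _)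
        _ = _ := by ring
    · refine (le_abs_self _).trans ((cs hc2 hra.1).trans ?_)
      rw [hc3, hra.2]
      exact mul_le_mul_of_nonneg_right (Real.sqrt_le_sqrt b0) (Real.sqrt_nonneg _)
  rw [hsplit]
  refine (norm_add_le _ _).trans ((add_le_add ((norm_add_le _ _).trans (add_le_add t1 t2)) t3).trans
    (le_of_eq ?_))
  ring

/-- A function with `∫ gs² = 1` is square integrable. -/
theorem memLp_of_norm_one {gs : Z → ℝ} (hm : AEStronglyMeasurable gs ν)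
    (h : ∫ z, gs z ^ 2 ∂ν = 1) : MemLp gs 2 ν := by
  refine (memLp_two_iff_integrable_sq hm).2 ?_
  by_contra hc
  rw [integral_undef hc] at h
  exact zero_ne_one h

end main

section cont

variable {U Z : Type*} [NormedAddCommGroup U] [InnerProductSpace ℝ U] [FiniteDimensional ℝ U]
  [MeasurableSpace U] [BorelSpace U] [NormedAddCommGroup Z] [InnerProductSpace ℝ Z]
  [FiniteDimensional ℝ Z] [MeasurableSpace Z] [BorelSpace Z]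
  {F : Type*} [NormedAddCommGroup F] [InnerProductSpace ℂ F] [FiniteDimensional ℂ F]

/-- **The final estimate**, continuous data on inner product spaces. -/
theorem pairF_cont {gs : U → Z → ℝ} (hgc : ∀ p, Continuous (gs p))
    (hgs : ∀ p, ∫ z, gs p z ^ 2 = 1) {P : U → F →L[ℂ] F}
    (hP : ∀ p v w, ⟪P p v, w⟫_ℂ = ⟪v, P p w⟫_ℂ) {Gam : F →ₗ[ℂ] F} (hG : Gam.IsSymmetric)
    {Φ e1 e2 e3 : U × Z → F} (hΦ : Continuous Φ) (hΦc : HasCompactSupport Φ)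
    (h1 : MemLp e1 2 volume) (h2 : MemLp e2 2 volume) (h3 : MemLp e3 2 volume) {ρ : U → ℝ}
    (hρ : ∀ p, 0 ≤ ρ p)
    (hρ2 : MemLp (fun q : U × Z => ρ q.1 • e2 q) 2 volume) {g E₀ : ℝ} (hg : 0 < g)
    (odd : ∀ q, Gam (e1 q) = -e1 q) (vac : ∀ p, P p (∫ z, gs p z • e2 (p, z)) = 0)
    (b0 : ∫ q, ‖Φ q‖ ^ 2 ≤ E₀)
    (b1 : g * ∫ q, ‖(1 / 2 : ℂ) • (Φ q - Gam (Φ q))‖ ^ 2 ≤ E₀)
    {en : U → ℝ} (hen : ∀ p, 0 ≤ en p) (heni : Integrable en) (b2' : ∫ p, en p ≤ E₀)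
    (b2 : ∀ p, g * ∫ z, ‖Φ (p, z) - gs p z • P p (∫ z', gs p z' • Φ (p, z'))‖ ^ 2 ≤
      en p + g * ρ p ^ 2 * ∫ z, ‖Φ (p, z)‖ ^ 2) :
    ‖∫ q, ⟪Φ q, e1 q + e2 q + e3 q⟫_ℂ‖ ≤
      √E₀ * ((√g)⁻¹ * √(∫ q, ‖e1 q‖ ^ 2) + (√g)⁻¹ * √(∫ q, ‖e2 q‖ ^ 2) +
        √(∫ q, ‖ρ q.1 • e2 q‖ ^ 2) + √(∫ q, ‖e3 q‖ ^ 2)) :=
  pairF (μ := volume) (ν := volume)
    (fun p => memLp_of_norm_one (hgc p).aestronglyMeasurable (hgs p)) hP hG
    (hΦ.memLp_of_hasCompactSupport hΦc) h1 h2 h3 hρ hρ2 hg odd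
    (Eventually.of_forall vac) b0 b1 hen heni b2' (Eventually.of_forall b2)

end cont

end Crest.Agent.R330.PairF383

end
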