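import Crest.Agent.R330.PairC_714
import Crest.Agent.R330.PairF_383

/-!
# R330/PairD_714 : the conclusion of S8-PAIR, abstract (helper714)

* `Adm` : what a test function `Φ` on `U × Z` satisfies with energy `E₀` ((h0), (h1), (h2)).
* `bloc` : for errors `e1` (odd), `e2` (no vacuum component), `e3` of the three classes of
  `PairC_714`: for every `ε > 0`, for large `g`, `|∫ ⟨Φ, e1 + e2 + e3⟩| ≤ ε √E₀` for all admissible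
  `Φ`.
-/

set_option autoImplicit false
set_option linter.unusedSectionVars false

open MeasureTheory Filter Topology
open scoped InnerProductSpace

noncomputable section

namespace Crest.Agent.R330.PairD714

open Crest.Agent.R330.PairC714 Crest.Agent.R330.PairF383

variable {U Z F : Type*} [MeasurableSpace U] [MeasurableSpace Z] [NormedAddCommGroup Z]
  [NormedAddCommGroup F] [InnerProductSpace ℂ F] [FiniteDimensional ℂ F]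
  {μ : Measure U} {ν : Measure Z}

/-- The test functions of energy `E₀`. -/
structure Adm (μ : Measure U) (ν : Measure Z) (S : Set U) (gs : U → Z → ℝ) (P : U → F →L[ℂ] F)
    (Gam : F →ₗ[ℂ] F) (y : U → ℝ) (K g : ℝ) (Φ : U × Z → F) (E₀ : ℝ) : Prop where
  mem : MemLp Φ 2 (μ.prod ν)
  b0 : ∫ q, ‖Φ q‖ ^ 2 ∂(μ.prod ν) ≤ E₀
  b1 : g * ∫ q, ‖(1 / 2 : ℂ) • (Φ q - Gam (Φ q))‖ ^ 2 ∂(μ.prod ν) ≤ E₀
  b2 : ∃ en : U → ℝ, (∀ p, 0 ≤ en p) ∧ Integrable en μ ∧ ∫ p, en p ∂μ ≤ E₀ ∧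
    ∀ᵐ p ∂μ, p ∈ S →
      g * ∫ z, ‖Φ (p, z) - gs p z • P p (∫ z', gs p z' • Φ (p, z') ∂ν)‖ ^ 2 ∂ν ≤
        en p + g * (K * y p) ^ 2 * ∫ z, ‖Φ (p, z)‖ ^ 2 ∂ν

theorem Adm.mono {S : Set U} {gs : U → Z → ℝ} {P : U → F →L[ℂ] F} {Gam : F →ₗ[ℂ] F} {y : U → ℝ}
    {K g : ℝ} {Φ : U × Z → F} {E₀ E₁ : ℝ} (h : Adm μ ν S gs P Gam y K g Φ E₀) (hE : E₀ ≤ E₁) :
    Adm μ ν S gs P Gam y K g Φ E₁ := by
  obtain ⟨en, h1, h2, h3, h4⟩ := h.b2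
  exact ⟨h.mem, h.b0.trans hE, h.b1.trans hE, en, h1, h2, h3.trans hE, h4⟩

variable [SFinite μ] [SFinite ν]

/-- **The final estimate at fixed coupling.** -/
theorem pairG {S : Set U} {gs : U → Z → ℝ} (hgs : ∀ p ∈ S, MemLp (gs p) 2 ν)
    {P : U → F →L[ℂ] F} (hP : ∀ p ∈ S, ∀ v w, ⟪P p v, w⟫_ℂ = ⟪v, P p w⟫_ℂ)
    {Gam : F →ₗ[ℂ] F} (hG : Gam.IsSymmetric) {y : U → ℝ} (hy : ∀ p, 0 ≤ y p) {K : ℝ}
    (hK : 0 ≤ K) {g : ℝ} (hg : 0 < g) {Φ e1 e2 e3 : U × Z → F} {E₀ : ℝ}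
    (hΦ : Adm μ ν S gs P Gam y K g Φ E₀) (h1 : MemLp e1 2 (μ.prod ν))
    (h2 : MemLp e2 2 (μ.prod ν)) (h3 : MemLp e3 2 (μ.prod ν))
    (h2y : MemLp (fun q : U × Z => y q.1 • e2 q) 2 (μ.prod ν))
    (hs : ∀ q : U × Z, q.1 ∉ S → e2 q = 0) (odd : ∀ q, Gam (e1 q) = -e1 q)
    (vac : ∀ p ∈ S, P p (∫ z, gs p z • e2 (p, z) ∂ν) = 0) :
    ‖∫ q, ⟪Φ q, e1 q + e2 q + e3 q⟫_ℂ ∂(μ.prod ν)‖ ≤
      √E₀ * ((√g)⁻¹ * √(∫ q, ‖e1 q‖ ^ 2 ∂(μ.prod ν)) + (√g)⁻¹ * √(∫ q, ‖e2 q‖ ^ 2 ∂(μ.prod ν)) +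
        K * √(∫ q, ‖y q.1 • e2 q‖ ^ 2 ∂(μ.prod ν)) + √(∫ q, ‖e3 q‖ ^ 2 ∂(μ.prod ν))) := by
  classical
  obtain ⟨en, hen, heni, hen2, hb2⟩ := hΦ.b2
  set gs' : U → Z → ℝ := fun p => if p ∈ S then gs p else 0 with hgs'
  set P' : U → F →L[ℂ] F := fun p => if p ∈ S then P p else 0 with hP'
  set ρ : U → ℝ := fun p => if p ∈ S then K * y p else 1 with hρ
  have hρe : (fun q : U × Z => ρ q.1 • e2 q) = fun q => K • (y q.1 • e2 q) := by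
    funext q
    by_cases hq : q.1 ∈ S
    · simp only [hρ, if_pos hq, mul_smul]
    · rw [hs q hq]
      simp
  have key := pairF (μ := μ) (ν := ν) (gs := gs') (P := P') (Gam := Gam) (Φ := Φ) (e1 := e1)
    (e2 := e2) (e3 := e3) (ρ := ρ) (g := g) (E₀ := E₀) (en := en)
    (fun p => by
      by_cases hp : p ∈ S
      · simp only [hgs', if_pos hp]
        exact hgs p hp
      · simp only [hgs', if_neg hp]
        exact MemLp.zero)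
    (fun p v w => by
      by_cases hp : p ∈ S
      · simp only [hP', if_pos hp]
        exact hP p hp v w
      · simp only [hP', if_neg hp]
        simp)
    hG hΦ.mem h1 h2 h3
    (fun p => by
      simp only [hρ]
      split_ifs
      · exact mul_nonneg hK (hy p)
      · exact zero_le_one)
    (by
      rw [hρe]
      exact h2y.const_smul K)
    hg odd
    (Eventually.of_forall fun p => by
      by_cases hp : p ∈ S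
      · simp only [hP', hgs', if_pos hp]
        exact vac p hp
      · simp only [hP', if_neg hp]
        simp)
    hΦ.b0 hΦ.b1 hen heni hen2
    (by
      filter_upwards [hb2] with p hp2
      by_cases hp : p ∈ S
      · simp only [hP', hgs', hρ, if_pos hp]
        exact hp2 hp
      · simp only [hP', hgs', hρ, if_neg hp]
        simp only [Pi.zero_apply, zero_smul, sub_zero, one_pow, mul_one]
        linarith [hen p])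
  refine key.trans (le_of_eq ?_)
  have h4 : √(∫ q : U × Z, ‖ρ q.1 • e2 q‖ ^ 2 ∂(μ.prod ν)) =
      K * √(∫ q : U × Z, ‖y q.1 • e2 q‖ ^ 2 ∂(μ.prod ν)) := by
    have h5 : ∀ q : U × Z, ‖ρ q.1 • e2 q‖ ^ 2 = K ^ 2 * ‖y q.1 • e2 q‖ ^ 2 := by
      intro q
      have := congrFun hρe q
      rw [this, norm_smul K, Real.norm_eq_abs, mul_pow, sq_abs]
    simp only [h5]
    rw [integral_const_mul, Real.sqrt_mul (sq_nonneg K), Real.sqrt_sq hK]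
  rw [h4]

/-- **The conclusion, abstract.** -/
theorem bloc {s : Sizes U} (hm : Moms μ s) {a : ℝ → U → Z → ℝ} {S : Set U}
    (hM : FibMom ν a S) (hS : s.Supp S) {e1 e2 e3 : ℝ → U × Z → F}
    (c1 : Cls a s.h1 e1) (c2 : Cls a s.h2 e2) (c3 : Cls a s.h3 e3)
    (m1 : ∀ᶠ g in atTop, AEStronglyMeasurable (e1 g) (μ.prod ν))
    (m2 : ∀ᶠ g in atTop, AEStronglyMeasurable (e2 g) (μ.prod ν))
    (m3 : ∀ᶠ g in atTop, AEStronglyMeasurable (e3 g) (μ.prod ν))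
    (my : AEStronglyMeasurable (fun x : U × Z => s.y x.1) (μ.prod ν))
    {gs : ℝ → U → Z → ℝ} (hgs : ∀ᶠ g in atTop, ∀ p ∈ S, MemLp (gs g p) 2 ν)
    {P : U → F →L[ℂ] F} (hP : ∀ p ∈ S, ∀ v w, ⟪P p v, w⟫_ℂ = ⟪v, P p w⟫_ℂ)
    {Gam : F →ₗ[ℂ] F} (hG : Gam.IsSymmetric) {K : ℝ} (hK : 0 ≤ K)
    (odd : ∀ᶠ g in atTop, ∀ q, Gam (e1 g q) = -e1 g q)
    (vac : ∀ᶠ g in atTop, ∀ p ∈ S, P p (∫ z, gs g p z • e2 g (p, z) ∂ν) = 0)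
    {ε : ℝ} (hε : 0 < ε) :
    ∀ᶠ g in atTop, ∀ (Φ : U × Z → F) (E₀ : ℝ), Adm μ ν S (gs g) P Gam s.y K g Φ E₀ →
      ‖∫ q, ⟪Φ q, e1 g q + e2 g q + e3 g q⟫_ℂ ∂(μ.prod ν)‖ ≤ ε * √E₀ := by
  obtain ⟨q1, q2⟩ := small hm hM hS c1 c2 c3 m1 m2 m3 my
  have hε' : 0 < ε / (K + 1) := by positivity
  have q3 := (tendsto_order.1 q2).2 _ hε'
  obtain ⟨K2, hK2, c2'⟩ := c2
  filter_upwards [q1, q3, hgs, odd, vac, c2', eventually_gt_atTop 0, hS]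
    with g g1 g3 g4 g5 g6 g7 g8 g9
  intro Φ E₀ hΦ
  obtain ⟨i1, i2, i2y, i3⟩ := g1
  have hs : ∀ q : U × Z, q.1 ∉ S → e2 g q = 0 := by
    rintro ⟨p, z⟩ hp
    have h1 := g7 p z
    obtain ⟨a0, -, a1, -⟩ := g9 p hp
    have h2 : s.h2 g p = 0 := by simp [Sizes.h2, a0, a1]
    rw [h2, mul_zero] at h1
    exact norm_le_zero_iff.1 h1
  refine (pairG g4 hP hG hm.y0 hK g8 hΦ i1 i2 i3 i2y hs g5 g6).trans ?_
  have l1 := l2_nonneg (μ.prod ν) (e1 g)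
  have l2' := l2_nonneg (μ.prod ν) (e2 g)
  have l3 := l2_nonneg (μ.prod ν) (fun x => s.y x.1 • e2 g x)
  have l4 := l2_nonneg (μ.prod ν) (e3 g)
  have sg : 0 ≤ (√g)⁻¹ := inv_nonneg.2 (Real.sqrt_nonneg _)
  unfold l2 at g3 l1 l2' l3 l4
  have h5 : (√g)⁻¹ * √(∫ q, ‖e1 g q‖ ^ 2 ∂(μ.prod ν)) +
      (√g)⁻¹ * √(∫ q, ‖e2 g q‖ ^ 2 ∂(μ.prod ν)) +
        K * √(∫ q, ‖s.y q.1 • e2 g q‖ ^ 2 ∂(μ.prod ν)) + √(∫ q, ‖e3 g q‖ ^ 2 ∂(μ.prod ν)) ≤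
      (K + 1) * (ε / (K + 1)) := by
    have n1 := mul_nonneg sg l1
    have n2 := mul_nonneg sg l2'
    have n3 : 0 ≤ K * ((√g)⁻¹ * √(∫ q, ‖e1 g q‖ ^ 2 ∂(μ.prod ν)) +
      (√g)⁻¹ * √(∫ q, ‖e2 g q‖ ^ 2 ∂(μ.prod ν)) + √(∫ q, ‖e3 g q‖ ^ 2 ∂(μ.prod ν))) := by
      positivity
    have n4 : (K + 1) * ((√g)⁻¹ * √(∫ q, ‖e1 g q‖ ^ 2 ∂(μ.prod ν)) +
      (√g)⁻¹ * √(∫ q, ‖e2 g q‖ ^ 2 ∂(μ.prod ν)) +
      √(∫ q, ‖s.y q.1 • e2 g q‖ ^ 2 ∂(μ.prod ν)) + √(∫ q, ‖e3 g q‖ ^ 2 ∂(μ.prod ν))) ≤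
      (K + 1) * (ε / (K + 1)) := mul_le_mul_of_nonneg_left g3.le (by positivity)
    nlinarith
  have h6 : (K + 1) * (ε / (K + 1)) = ε := by field_simp
  rw [h6] at h5
  calc _ ≤ √E₀ * ε := mul_le_mul_of_nonneg_left h5 (Real.sqrt_nonneg _)
    _ = ε * √E₀ := mul_comm _ _

end Crest.Agent.R330.PairD714

end
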