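import Crest.Agent.R330.PairE_547

/-!
# Row 330, S8-PAIR (P3): the error list in one pointwise theorem (helper547)

`QdP (a • ψ) x - a x • ψ' x.1 = e1 x + e2 x + e3 x`, with `e1` odd, `e2` the even part of order
one (frozen at the centre point, no cut-off), `e3` small.
-/

set_option autoImplicit false
set_option linter.unusedSectionVars false

open MeasureTheory Filter Topology
open scoped ContDiff InnerProductSpace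

noncomputable section

namespace Crest.Agent.R330.PairE547

open Crest.Agent.R330.Frame839 Crest.Agent.R330.IBP837 Crest.Agent.R330.PairA547
  Crest.Agent.R330.PairB547

variable {V E : Type*} [NormedAddCommGroup V] [InnerProductSpace ℝ V] [FiniteDimensional ℝ V]
  [NormedAddCommGroup E] [InnerProductSpace ℝ E] [FiniteDimensional ℝ E]
  {F : Type*} [NormedAddCommGroup F] [InnerProductSpace ℂ F] [FiniteDimensional ℂ F]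
  {ι κ η : Type*} [Fintype ι] [Fintype κ] [Fintype η]

variable {A : V →L[ℝ] E →L[ℝ] E} {c : E} {L Z : Submodule ℝ E}

/-! ## Parity -/

/-- even part -/
def evp (Γ : F →ₗ[ℂ] F) (f : F) : F := (1 / 2 : ℝ) • (f + Γ f)

/-- odd part -/
def odp (Γ : F →ₗ[ℂ] F) (f : F) : F := (1 / 2 : ℝ) • (f - Γ f)

theorem evp_add_odp (Γ : F →ₗ[ℂ] F) (f : F) : evp Γ f + odp Γ f = f := by
  unfold evp odp
  module

theorem evp_sub (Γ : F →ₗ[ℂ] F) (f f' : F) : evp Γ (f - f') = evp Γ f - evp Γ f' := by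
  unfold evp
  rw [map_sub]
  module

theorem odp_odd {Γ : F →ₗ[ℂ] F} (h2 : ∀ f, Γ (Γ f) = f) (f : F) : Γ (odp Γ f) = - odp Γ f := by
  unfold odp
  rw [map_rsmul, map_sub, h2]
  module

theorem evp_even {Γ : F →ₗ[ℂ] F} (h2 : ∀ f, Γ (Γ f) = f) (f : F) : Γ (evp Γ f) = evp Γ f := by
  unfold evp
  rw [map_rsmul, map_add, h2]
  module

theorem norm_evp_le {Γ : F →ₗ[ℂ] F} (h1 : ∀ f, ‖Γ f‖ ≤ ‖f‖) (f : F) : ‖evp Γ f‖ ≤ ‖f‖ := by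
  unfold evp
  rw [norm_smul]
  have := norm_add_le f (Γ f)
  have := h1 f
  rw [Real.norm_of_nonneg (by norm_num)]
  linarith

theorem norm_odp_le {Γ : F →ₗ[ℂ] F} (h1 : ∀ f, ‖Γ f‖ ≤ ‖f‖) (f : F) : ‖odp Γ f‖ ≤ ‖f‖ := by
  unfold odp
  rw [norm_smul]
  have := norm_sub_le f (Γ f)
  have := h1 f
  rw [Real.norm_of_nonneg (by norm_num)]
  linarith

/-- The heavy parity. -/
structure Par (A : V →L[ℝ] E →L[ℝ] E) (c : E) (L Z : Submodule ℝ E)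
    (Θ : E →ₗ[ℝ] (F →ₗ[ℂ] F)) (Wq : E →ₗ[ℝ] E →ₗ[ℝ] (F →ₗ[ℂ] F))
    (Wl : E →ₗ[ℝ] (F →ₗ[ℂ] F)) (Γ : F →ₗ[ℂ] F) : Prop where
  inv : ∀ f, Γ (Γ f) = f
  norm_le : ∀ f, ‖Γ f‖ ≤ ‖f‖
  ThL : ∀ (p : L) (f : F), Γ (Θ p f) = Θ p (Γ f)
  ThZ : ∀ (z : Z) (f : F), Γ (Θ z f) = - Θ z (Γ f)
  ThT : ∀ (t : Tn A c) (f : F), Γ (Θ t f) = - Θ t (Γ f)
  Wqz : ∀ (x : L) (z : Z) (f : F), Γ (Wq x z f) = - Wq x z (Γ f)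
  Wlz : ∀ (z : Z) (f : F), Γ (Wl z f) = - Wl z (Γ f)
  cL : c ∈ L

/-- Bounds of the coefficient maps. -/
structure Cst (Θ : E →ₗ[ℝ] (F →ₗ[ℂ] F)) (Wq : E →ₗ[ℝ] E →ₗ[ℝ] (F →ₗ[ℂ] F))
    (Wl : E →ₗ[ℝ] (F →ₗ[ℂ] F)) (Bf : V →ₗ[ℝ] (F →ₗ[ℝ] F)) (K : ℝ) : Prop where
  K0 : 0 ≤ K
  Th : ∀ e f, ‖Θ e f‖ ≤ K * ‖e‖ * ‖f‖
  Wq : ∀ x y f, ‖Wq x y f‖ ≤ K * ‖x‖ * ‖y‖ * ‖f‖
  Wl : ∀ x f, ‖Wl x f‖ ≤ K * ‖x‖ * ‖f‖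
  Bf : ∀ w f, ‖Bf w f‖ ≤ K * ‖w‖ * ‖f‖

/-- Geometry. -/
structure Geo (A : V →L[ℝ] E →L[ℝ] E) (c : E) (L Z : Submodule ℝ E) (PX : L →ₗ[ℝ] E)
    (r B ρ : ℝ) : Prop where
  dec : Dec A c L Z
  r0 : 0 < r
  gap : GapAt A c r
  act : ActBound A B
  B0 : 0 < B
  ρ0 : 0 < ρ
  ρ1 : ρ ≤ 1
  small : B * (2 * ρ) ≤ r / 2
  PX_le : ∀ p, ‖PX p‖ ≤ ‖p‖
  PX_mem : ∀ p, PX p ∈ L
  nnZ : ∀ p : L, B * ‖p‖ ≤ r / 2 → ∀ t, nn A c (c + p) t ∈ Z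

/-- Bounds of the Gaussian amplitude. -/
structure AmpOk (g K ρ : ℝ) (a₀ : L × Z → ℝ) : Prop where
  diff : Differentiable ℝ a₀
  nonneg : ∀ x, 0 ≤ a₀ x
  dL : ∀ x : L × Z, ‖x.1‖ ≤ ρ → ∀ w : L,
    |fderiv ℝ a₀ x (w, 0)| ≤ K * (1 + g * ‖x.2‖ ^ 2) * a₀ x * ‖w‖
  dZ : ∀ x : L × Z, ‖x.1‖ ≤ ρ → ∀ w : Z,
    |fderiv ℝ a₀ x (0, w)| ≤ K * (g * ‖x.2‖) * a₀ x * ‖w‖

/-- The cut-off. -/
structure CutOk (K ρ : ℝ) (ϰ : Z → ℝ) : Prop where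
  diff : Differentiable ℝ ϰ
  nonneg : ∀ z, 0 ≤ ϰ z
  le_one : ∀ z, ϰ z ≤ 1
  near : ∀ z, 1 - ϰ z ≤ K * ‖z‖ ^ 2
  der : ∀ z w, |fderiv ℝ ϰ z w| ≤ K * ‖w‖
  supp : ∀ z, ϰ z ≠ 0 → ‖z‖ ≤ ρ
  dsupp : ∀ z, fderiv ℝ ϰ z ≠ 0 → ‖z‖ ≤ ρ

section errors

variable (A c Z) (Θ : E →ₗ[ℝ] (F →ₗ[ℂ] F)) (Wq : E →ₗ[ℝ] E →ₗ[ℝ] (F →ₗ[ℂ] F))
  (Wl : E →ₗ[ℝ] (F →ₗ[ℂ] F)) (Bf : V →ₗ[ℝ] (F →ₗ[ℝ] F)) (Γ : F →ₗ[ℂ] F) (PX : L →ₗ[ℝ] E)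
  (eT : OrthonormalBasis η ℝ (Tn A c)) (u : OrthonormalBasis ι ℝ L) (v : OrthonormalBasis κ ℝ Z)
  (g m : ℝ)

variable {A c Z} in
/-- odd errors -/
def err1 (h : Dec A c L Z) (a : L × Z → ℝ) (ψ ρs : L → F) (x : L × Z) : F :=
  HM A c Z Θ Wq PX eT v g a ψ x + OD Θ Wq Wl PX eT u v h g m a ψ x +
    a x • odp Γ (MX A c Z Θ Wq Bf eT g (x.1 + x.2) x.2 (ψ x.1)) + a x • odp Γ (ρs x.1)

variable {A c Z} in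
/-- even errors of order one -/
def err2 (a₀ : L × Z → ℝ) (ψ ρe : L → F) (x : L × Z) : F :=
  EV Θ u a₀ ψ x + a₀ x • ρe x.1 + a₀ x • evp Γ (MX A c Z Θ Wq Bf eT g (PX x.1) x.2 (ψ x.1))

variable {A c Z} in
/-- small errors -/
def err3 (a₀ a : L × Z → ℝ) (ψ ρe ρs : L → F) (x : L × Z) : F :=
  (EV Θ u a ψ x - EV Θ u a₀ ψ x) + (a x - a₀ x) • ρe x.1 + a x • evp Γ (ρs x.1) +
    (a x • evp Γ (MX A c Z Θ Wq Bf eT g (x.1 + x.2) x.2 (ψ x.1)) -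
      a₀ x • evp Γ (MX A c Z Θ Wq Bf eT g (PX x.1) x.2 (ψ x.1)))

end errors

/-- **The error list.** -/
theorem err_eq (h : Dec A c L Z) (Θ : E →ₗ[ℝ] (F →ₗ[ℂ] F))
    {Wq : E →ₗ[ℝ] E →ₗ[ℝ] (F →ₗ[ℂ] F)} (hsym : ∀ x y, Wq x y = Wq y x)
    (Wl : E →ₗ[ℝ] (F →ₗ[ℂ] F)) (Bf : V →ₗ[ℝ] (F →ₗ[ℝ] F)) (Γ : F →ₗ[ℂ] F) (PX : L →ₗ[ℝ] E)
    (eT : OrthonormalBasis η ℝ (Tn A c)) (u : OrthonormalBasis ι ℝ L)
    (v : OrthonormalBasis κ ℝ Z) (g m : ℝ) {a₀ a : L × Z → ℝ} {ψ ψ' ρe ρs : L → F} {x : L × Z}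
    (ha : DifferentiableAt ℝ a x) (hψ : DifferentiableAt ℝ ψ x.1)
    (hLC : LC c Θ Wq Wl u g m ψ x.1 = ψ' x.1 + ρe x.1 + ρs x.1) :
    QdP h Θ (Wp Wq Wl g m) Bf eT u v (fun x : L × Z => a x • ψ x.1) x - a x • ψ' x.1 =
      err1 Θ Wq Wl Bf Γ PX eT u v g m h a ψ ρs x + err2 Θ Wq Bf Γ PX eT u g a₀ ψ ρe x +
        err3 Θ Wq Bf Γ PX eT u g a₀ a ψ ρe ρs x := by
  rw [expand h Θ hsym Wl Bf PX eT u v g m ha hψ, hLC]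
  unfold err1 err2 err3
  have e1 := evp_add_odp Γ (MX A c Z Θ Wq Bf eT g (x.1 + x.2) x.2 (ψ x.1))
  have e2 := evp_add_odp Γ (ρs x.1)
  conv_lhs => rw [← e1, ← e2]
  module

/-- **The odd errors are odd.** -/
theorem err1_odd {Θ : E →ₗ[ℝ] (F →ₗ[ℂ] F)} {Wq : E →ₗ[ℝ] E →ₗ[ℝ] (F →ₗ[ℂ] F)}
    {Wl : E →ₗ[ℝ] (F →ₗ[ℂ] F)} (Bf : V →ₗ[ℝ] (F →ₗ[ℝ] F)) {Γ : F →ₗ[ℂ] F} {PX : L →ₗ[ℝ] E}
    (hPX : ∀ p, PX p ∈ L) (hP : Par A c L Z Θ Wq Wl Γ)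
    (eT : OrthonormalBasis η ℝ (Tn A c)) (u : OrthonormalBasis ι ℝ L)
    (v : OrthonormalBasis κ ℝ Z) (g m : ℝ) (h : Dec A c L Z) (a : L × Z → ℝ)
    {ψ : L → F} (hψ : Differentiable ℝ ψ) (hΓψ : ∀ p, Γ (ψ p) = ψ p) (ρs : L → F) (x : L × Z) :
    Γ (err1 Θ Wq Wl Bf Γ PX eT u v g m h a ψ ρs x) =
      - err1 Θ Wq Wl Bf Γ PX eT u v g m h a ψ ρs x := by
  have hD : ∀ w, Γ (fderiv ℝ ψ x.1 w) = fderiv ℝ ψ x.1 w := by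
    intro w
    rw [← fderiv_lin Γ (hψ x.1) w]
    have : (fun y => Γ (ψ y)) = ψ := funext hΓψ
    rw [this]
  have hq : ∀ (y : E), y ∈ L → Γ (Wq y x.2 (ψ x.1)) = - Wq y x.2 (ψ x.1) := by
    intro y hy
    rw [hP.Wqz ⟨y, hy⟩ x.2 (ψ x.1), hΓψ]
  have h1 : Γ (HM A c Z Θ Wq PX eT v g a ψ x) = - HM A c Z Θ Wq PX eT v g a ψ x := by
    unfold HM
    have s1 : ∀ s, Γ ((-Complex.I) • Θ (v s) (fderiv ℝ a x (0, v s) • ψ x.1)) =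
        - ((-Complex.I) • Θ (v s) (fderiv ℝ a x (0, v s) • ψ x.1)) := fun s => by
      rw [map_smul, hP.ThZ, map_rsmul Γ, hΓψ, smul_neg]
    have s2 : ∀ t, Γ (Complex.I • Θ (eT t)
        (fderiv ℝ a x (0, nZ A c L Z PX (eT t) x.1) • ψ x.1)) =
        - (Complex.I • Θ (eT t) (fderiv ℝ a x (0, nZ A c L Z PX (eT t) x.1) • ψ x.1)) :=
      fun t => by rw [map_smul, hP.ThT, map_rsmul Γ, hΓψ, smul_neg]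
    have s3 := hq (c + PX x.1) (L.add_mem hP.cL (hPX _))
    rw [map_add, map_add, map_sum, map_sum, map_rsmul Γ, s3, Finset.sum_congr rfl fun s _ => s1 s,
      Finset.sum_congr rfl fun s _ => s2 s, Finset.sum_neg_distrib, Finset.sum_neg_distrib,
      smul_neg, neg_add, neg_add]
  have h2 : Γ (OD Θ Wq Wl PX eT u v h g m a ψ x) = - OD Θ Wq Wl PX eT u v h g m a ψ x := by
    unfold OD
    have s3 := hq (x.1 - PX x.1) (L.sub_mem x.1.2 (hPX _))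
    have s4 : Γ (Wl x.2 (ψ x.1)) = - Wl x.2 (ψ x.1) := by rw [hP.Wlz, hΓψ]
    have s5 : ∀ t, Γ (Complex.I • Θ (eT t) ((dvP h eT u v t x * a x) • ψ x.1 +
        fderiv ℝ a x (nP A c L Z (eT t) x - (0, nZ A c L Z PX (eT t) x.1)) • ψ x.1 +
        a x • fderiv ℝ ψ x.1 (nP A c L Z (eT t) x).1)) =
        - (Complex.I • Θ (eT t) ((dvP h eT u v t x * a x) • ψ x.1 +
        fderiv ℝ a x (nP A c L Z (eT t) x - (0, nZ A c L Z PX (eT t) x.1)) • ψ x.1 +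
        a x • fderiv ℝ ψ x.1 (nP A c L Z (eT t) x).1)) := fun t => by
      rw [map_smul, hP.ThT, map_add Γ, map_add Γ, map_rsmul Γ, map_rsmul Γ, map_rsmul Γ, hΓψ, hD,
        smul_neg]
    rw [map_add, map_sub, map_sum, map_rsmul Γ, map_rsmul Γ, s3, s4,
      Finset.sum_congr rfl fun s _ => s5 s, Finset.sum_neg_distrib, smul_neg, smul_neg]
    abel
  unfold err1
  rw [map_add, map_add, map_add, h1, h2, map_rsmul, map_rsmul, odp_odd hP.inv, odp_odd hP.inv]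
  simp only [smul_neg]
  abel

end Crest.Agent.R330.PairE547

end
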