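import Crest.Agent.R330.PairE2_547

/-!
# Row 330, S8-PAIR (P3): pointwise bounds of the error list (helper547)
-/

set_option autoImplicit false
set_option linter.unusedSectionVars false

open MeasureTheory Filter Topology
open scoped ContDiff InnerProductSpace

noncomputable section

namespace Crest.Agent.R330.PairE547

open Crest.Agent.R330.Frame839 Crest.Agent.R330.IBP837 Crest.Agent.R330.PairA547
  Crest.Agent.R330.PairB547

variable {V E : Type*} [NormedAddCommGroup V] [InnerProductSpace ℝ V] [FiniteDimensional ℝ V]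
  [NormedAddCommGroup E] [InnerProductSpace ℝ E] [FiniteDimensional ℝ E]
  {F : Type*} [NormedAddCommGroup F] [InnerProductSpace ℂ F] [FiniteDimensional ℂ F]
  {ι κ η : Type*} [Fintype ι] [Fintype κ] [Fintype η]

variable {A : V →L[ℝ] E →L[ℝ] E} {c : E} {L Z : Submodule ℝ E} {r B ρ K : ℝ}
  {Θ : E →ₗ[ℝ] (F →ₗ[ℂ] F)} {Wq : E →ₗ[ℝ] E →ₗ[ℝ] (F →ₗ[ℂ] F)}
  {Wl : E →ₗ[ℝ] (F →ₗ[ℂ] F)} {Bf : V →ₗ[ℝ] (F →ₗ[ℝ] F)} {Γ : F →ₗ[ℂ] F} {PX : L →ₗ[ℝ] E}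

theorem norm_I_one : ‖Complex.I‖ = 1 := Complex.norm_I

theorem norm_negI_one : ‖(-Complex.I)‖ = 1 := by rw [norm_neg, Complex.norm_I]

theorem sum_bound {S : Type*} [Fintype S] (hC : Cst Θ Wq Wl Bf K) {ζ : ℂ} (hζ : ‖ζ‖ = 1)
    {e : S → E} (he : ∀ s, ‖e s‖ = 1) {f : S → F} {M : ℝ} (hf : ∀ s, ‖f s‖ ≤ M) :
    ‖∑ s, ζ • Θ (e s) (f s)‖ ≤ Fintype.card S * (K * M) := by
  refine (norm_sum_le _ _).trans ?_
  have h1 : ∀ s ∈ (Finset.univ : Finset S), ‖ζ • Θ (e s) (f s)‖ ≤ K * M := by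
    intro s _
    rw [norm_smul, hζ, one_mul]
    refine (hC.Th _ _).trans ?_
    rw [he s, mul_one]
    exact mul_le_mul_of_nonneg_left (hf s) hC.K0
  refine (Finset.sum_le_sum h1).trans ?_
  rw [Finset.sum_const, Finset.card_univ, nsmul_eq_mul]

/-! ## Geometry -/

theorem Geo.dom (hG : Geo A c L Z PX r B ρ) {p : L} {z : Z} (hp : ‖p‖ ≤ ρ) (hz : ‖z‖ ≤ ρ) :
    B * ‖(p : E) + z‖ ≤ r / 2 := by
  refine le_trans ?_ hG.small
  refine mul_le_mul_of_nonneg_left ?_ hG.B0.le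
  refine (norm_add_le _ _).trans ?_
  have h1 : ‖(p : E)‖ ≤ ρ := hp
  have h2 : ‖(z : E)‖ ≤ ρ := hz
  linarith

theorem Geo.domL (hG : Geo A c L Z PX r B ρ) {p : L} (hp : ‖p‖ ≤ ρ) : B * ‖p‖ ≤ r / 2 := by
  have h := hG.dom (z := 0) hp (by rw [norm_zero]; exact hG.ρ0.le)
  simpa using h

theorem Geo.domX (hG : Geo A c L Z PX r B ρ) {p : L} (hp : ‖p‖ ≤ ρ) : B * ‖PX p‖ ≤ r / 2 :=
  (mul_le_mul_of_nonneg_left (hG.PX_le p) hG.B0.le).trans (hG.domL hp)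

theorem add_sub_c (c y : E) : c + y - c = y := by abel

/-- `‖P_L nn (c+p+z)‖ ≤ (4B/r) ‖z‖` -/
theorem Geo.nP_fst (hG : Geo A c L Z PX r B ρ) (t : Tn A c) (ht : ‖t‖ = 1) {x : L × Z}
    (hp : ‖x.1‖ ≤ ρ) (hz : ‖x.2‖ ≤ ρ) : ‖(nP A c L Z t x).1‖ ≤ 4 * B / r * ‖x.2‖ := by
  have hx := hG.dom hp hz
  have hx' : B * ‖(c + x.1 + x.2 : E) - c‖ ≤ r / 2 := by
    rw [show (c + x.1 + x.2 : E) - c = x.1 + x.2 by abel]
    exact hx
  have hy' : B * ‖(c + x.1 : E) - c‖ ≤ r / 2 := by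
    rw [add_sub_c]
    exact hG.domL hp
  have h0 : L.orthogonalProjectionOnto (nn A c (c + x.1) t) = 0 := by
    refine Submodule.orthogonalProjection_mem_subspace_orthogonalComplement_eq_zero ?_
    refine (Submodule.mem_orthogonal _ _).2 fun w hw => ?_
    exact hG.dec.orth w hw _ (hG.nnZ x.1 (hG.domL hp) t)
  have h1 : (nP A c L Z t x).1 =
      L.orthogonalProjectionOnto (nn A c (c + x.1 + x.2) t - nn A c (c + x.1) t) := by
    rw [map_sub, h0, sub_zero]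
    rfl
  rw [h1]
  have h2 : ‖L.orthogonalProjectionOnto (nn A c (c + x.1 + x.2) t - nn A c (c + x.1) t)‖ ≤
      ‖nn A c (c + x.1 + x.2) t - nn A c (c + x.1) t‖ :=
    Submodule.norm_orthogonalProjectionOnto_apply_le L _
  refine h2.trans ((nn_sub_bound hG.r0 hG.gap hG.act hG.B0.le hx' hy' t).trans ?_)
  rw [ht, mul_one, show (c + x.1 + x.2 : E) - (c + x.1) = x.2 by abel]
  exact le_of_eq rfl

/-- `‖P_Z nn (c+p+z) - nZ‖ ≤ (4B/r) (‖Y‖ + ‖z‖)` -/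
theorem Geo.nP_snd (hG : Geo A c L Z PX r B ρ) (t : Tn A c) (ht : ‖t‖ = 1) {x : L × Z}
    (hp : ‖x.1‖ ≤ ρ) (hz : ‖x.2‖ ≤ ρ) :
    ‖(nP A c L Z t x).2 - nZ A c L Z PX t x.1‖ ≤
      4 * B / r * (‖(x.1 : E) - PX x.1‖ + ‖x.2‖) := by
  have hx := hG.dom hp hz
  have hx' : B * ‖(c + x.1 + x.2 : E) - c‖ ≤ r / 2 := by
    rw [show (c + x.1 + x.2 : E) - c = x.1 + x.2 by abel]
    exact hx
  have hy' : B * ‖(c + PX x.1 : E) - c‖ ≤ r / 2 := by
    rw [add_sub_c]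
    exact hG.domX hp
  have h1 : (nP A c L Z t x).2 - nZ A c L Z PX t x.1 =
      Z.orthogonalProjectionOnto (nn A c (c + x.1 + x.2) t - nn A c (c + PX x.1) t) := by
    rw [map_sub]
    rfl
  rw [h1]
  have h2 : ‖Z.orthogonalProjectionOnto (nn A c (c + x.1 + x.2) t - nn A c (c + PX x.1) t)‖ ≤
      ‖nn A c (c + x.1 + x.2) t - nn A c (c + PX x.1) t‖ :=
    Submodule.norm_orthogonalProjectionOnto_apply_le Z _
  refine h2.trans ((nn_sub_bound hG.r0 hG.gap hG.act hG.B0.le hx' hy' t).trans ?_)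
  rw [ht, mul_one]
  have h0 := hG.B0.le
  have hr := hG.r0.le
  gcongr
  rw [show (c + x.1 + x.2 : E) - (c + PX x.1) = ((x.1 : E) - PX x.1) + x.2 by abel]
  exact norm_add_le _ _

theorem Geo.nZ_le (hG : Geo A c L Z PX r B ρ) (t : Tn A c) (ht : ‖t‖ = 1) {p : L}
    (hp : ‖p‖ ≤ ρ) : ‖nZ A c L Z PX t p‖ ≤ 1 := by
  have hy' : B * ‖(c + PX p : E) - c‖ ≤ r / 2 := by
    rw [add_sub_c]
    exact hG.domX hp
  have h2 : ‖nZ A c L Z PX t p‖ ≤ ‖nn A c (c + PX p) t‖ :=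
    Submodule.norm_orthogonalProjectionOnto_apply_le Z _
  refine h2.trans ((nn_bound hG.r0 hG.gap hG.act hG.B0.le hy' t).trans ?_)
  rw [ht, mul_one, add_sub_c]
  rw [add_sub_c] at hy'
  have hr := hG.r0
  calc 2 * B / r * ‖PX p‖ = 2 / r * (B * ‖PX p‖) := by ring
    _ ≤ 2 / r * (r / 2) := by gcongr
    _ = 1 := by field_simp

/-- The divergence is bounded. -/
theorem exists_dvP_bound (hG : Geo A c L Z PX r B ρ) (eT : OrthonormalBasis η ℝ (Tn A c))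
    (u : OrthonormalBasis ι ℝ L) (v : OrthonormalBasis κ ℝ Z) :
    ∃ Cd : ℝ, 0 ≤ Cd ∧ ∀ (t : η) (x : L × Z), ‖x.1‖ ≤ ρ → ‖x.2‖ ≤ ρ →
      |dvP hG.dec eT u v t x| ≤ Cd := by
  have hcp : IsCompact {w : (Tn A c)ᗮ | B * ‖w‖ ≤ r / 2} := by
    have h1 : {w : (Tn A c)ᗮ | B * ‖w‖ ≤ r / 2} = Metric.closedBall 0 (r / 2 / B) := by
      ext w
      rw [Set.mem_setOf_eq, mem_closedBall_zero_iff, le_div_iff₀ hG.B0, mul_comm]
    rw [h1]
    exact isCompact_closedBall _ _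
  have h2 : ∀ (t : η) (n : ι ⊕ κ), ∃ C, ∀ w ∈ {w : (Tn A c)ᗮ | B * ‖w‖ ≤ r / 2},
      ‖fderiv ℝ (cf A c eT (norB hG.dec u v) n t) w (norB hG.dec u v n)‖ ≤ C := by
    intro t n
    refine hcp.exists_bound_of_continuousOn ?_
    intro w hw
    have h3 := contDiffAt_cf hG.r0 hG.gap hG.act eT (norB hG.dec u v) n t (u := w) hw
    have h4 : ContinuousAt (fderiv ℝ (cf A c eT (norB hG.dec u v) n t)) w :=
      (h3.fderiv_right (m := 0) (by simp)).continuousAt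
    exact (h4.clm_apply continuousAt_const).continuousWithinAt
  choose C hC using h2
  refine ⟨∑ t, ∑ n, |C t n|, by positivity, fun t x hp hz => ?_⟩
  have hx : B * ‖eLZ hG.dec x‖ ≤ r / 2 := hG.dom hp hz
  unfold dvP
  refine (Finset.abs_sum_le_sum_abs _ _).trans ?_
  refine le_trans ?_ (Finset.single_le_sum (f := fun t => ∑ n, |C t n|)
    (fun _ _ => by positivity) (Finset.mem_univ t))
  exact Finset.sum_le_sum fun n _ => (hC t n _ hx).trans (le_abs_self _)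

/-! ## The pieces -/

theorem EV_bound (hC : Cst Θ Wq Wl Bf K) (u : OrthonormalBasis ι ℝ L) {a : L × Z → ℝ}
    {ψ : L → F} {x : L × Z} {M : ℝ} (hM : ∀ s, |fderiv ℝ a x (u s, 0)| ≤ M) :
    ‖EV Θ u a ψ x‖ ≤ Fintype.card ι * (K * (M * ‖ψ x.1‖)) := by
  unfold EV
  refine sum_bound (e := fun s => (u s : E)) hC norm_negI_one (fun s => u.orthonormal.1 s)
    fun s => ?_
  rw [norm_smul]
  exact mul_le_mul_of_nonneg_right (hM s) (norm_nonneg _)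

theorem MX_bound (hG : Geo A c L Z PX r B ρ) (hC : Cst Θ Wq Wl Bf K)
    (eT : OrthonormalBasis η ℝ (Tn A c)) {g : ℝ} (hg : 0 ≤ g) {y : E} (hy : B * ‖y‖ ≤ r / 2)
    (z : Z) (f : F) : ‖MX A c Z Θ Wq Bf eT g y z f‖ ≤
      (Fintype.card η * (K * (2 / r) * K) + K * (g * ‖z‖ ^ 2)) * ‖f‖ := by
  unfold MX
  have hy' : B * ‖(c + y : E) - c‖ ≤ r / 2 := by
    rw [add_sub_c]
    exact hy
  have hr := hG.r0.le
  have hK := hC.K0
  refine (norm_add_le _ _).trans ?_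
  rw [add_mul]
  refine add_le_add ?_ ?_
  · refine (norm_sum_le _ _).trans ?_
    have h1 : ∀ t ∈ (Finset.univ : Finset η),
        ‖(-Complex.I) • Bf (om A c (c + y) (eT t)) (Θ (eT t) f)‖ ≤ K * (2 / r) * K * ‖f‖ := by
      intro t _
      rw [norm_smul, norm_negI_one, one_mul]
      have ht : ‖eT t‖ = 1 := eT.orthonormal.1 t
      have h2 := om_bound hG.r0 hG.gap hG.act hy' (eT t)
      rw [ht, mul_one] at h2
      have h3 : ‖((om A c (c + y) (eT t) : (kc A c)ᗮ) : V)‖ ≤ 2 / r := h2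
      have h4 := hC.Th (eT t) f
      have ht' : ‖((eT t : Tn A c) : E)‖ = 1 := ht
      rw [ht', mul_one] at h4
      refine (hC.Bf _ _).trans ?_
      calc K * ‖((om A c (c + y) (eT t) : (kc A c)ᗮ) : V)‖ * ‖Θ (eT t) f‖
          ≤ K * (2 / r) * (K * ‖f‖) := by gcongr
        _ = _ := by ring
    refine (Finset.sum_le_sum h1).trans ?_
    rw [Finset.sum_const, Finset.card_univ, nsmul_eq_mul]
    exact le_of_eq (by ring)
  · rw [norm_smul, Real.norm_of_nonneg hg]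
    have h5 := hC.Wq z z f
    calc g * ‖Wq z z f‖ ≤ g * (K * ‖(z : E)‖ * ‖(z : E)‖ * ‖f‖) := by gcongr
      _ = K * (g * ‖z‖ ^ 2) * ‖f‖ := by
          rw [Submodule.coe_norm]
          ring

theorem MX_sub_bound (hG : Geo A c L Z PX r B ρ) (hC : Cst Θ Wq Wl Bf K)
    (eT : OrthonormalBasis η ℝ (Tn A c)) (g : ℝ) {y y' : E} (hy : B * ‖y‖ ≤ r / 2)
    (hy2 : B * ‖y'‖ ≤ r / 2) (z : Z) (f : F) :
    ‖MX A c Z Θ Wq Bf eT g y z f - MX A c Z Θ Wq Bf eT g y' z f‖ ≤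
      Fintype.card η * (K * (4 * B / r ^ 2) * K) * ‖y - y'‖ * ‖f‖ := by
  unfold MX
  have hyc : B * ‖(c + y : E) - c‖ ≤ r / 2 := by
    rw [add_sub_c]
    exact hy
  have hyc' : B * ‖(c + y' : E) - c‖ ≤ r / 2 := by
    rw [add_sub_c]
    exact hy2
  have hr := hG.r0.le
  have hK := hC.K0
  have hB := hG.B0.le
  rw [add_sub_add_right_eq_sub, ← Finset.sum_sub_distrib]
  refine (norm_sum_le _ _).trans ?_
  have h1 : ∀ t ∈ (Finset.univ : Finset η),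
      ‖(-Complex.I) • Bf (om A c (c + y) (eT t)) (Θ (eT t) f) -
        (-Complex.I) • Bf (om A c (c + y') (eT t)) (Θ (eT t) f)‖ ≤
        K * (4 * B / r ^ 2) * K * ‖y - y'‖ * ‖f‖ := by
    intro t _
    have e1 : (-Complex.I) • Bf (om A c (c + y) (eT t)) (Θ (eT t) f) -
        (-Complex.I) • Bf (om A c (c + y') (eT t)) (Θ (eT t) f) =
        (-Complex.I) • Bf ((om A c (c + y) (eT t) - om A c (c + y') (eT t) : (kc A c)ᗮ) : V)
          (Θ (eT t) f) := by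
      rw [Submodule.coe_sub, map_sub, LinearMap.sub_apply, smul_sub]
    rw [e1, norm_smul, norm_negI_one, one_mul]
    have ht : ‖eT t‖ = 1 := eT.orthonormal.1 t
    have h2 := om_sub_bound hG.r0 hG.gap hG.act hyc hyc' hB (eT t)
    rw [ht, mul_one, show c + y - (c + y') = y - y' by abel] at h2
    have h3 : ‖((om A c (c + y) (eT t) - om A c (c + y') (eT t) : (kc A c)ᗮ) : V)‖ ≤
      4 * B / r ^ 2 * ‖y - y'‖ := h2
    have h4 := hC.Th (eT t) f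
    have ht' : ‖((eT t : Tn A c) : E)‖ = 1 := ht
    rw [ht', mul_one] at h4
    refine (hC.Bf _ _).trans ?_
    calc K * ‖((om A c (c + y) (eT t) - om A c (c + y') (eT t) : (kc A c)ᗮ) : V)‖ *
          ‖Θ (eT t) f‖
        ≤ K * (4 * B / r ^ 2 * ‖y - y'‖) * (K * ‖f‖) := by gcongr
      _ = _ := by ring
  refine (Finset.sum_le_sum h1).trans ?_
  rw [Finset.sum_const, Finset.card_univ, nsmul_eq_mul]
  exact le_of_eq (by ring)

/-! ## The cut-off -/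

theorem fderiv_cut {a₀ : L × Z → ℝ} {ϰ : Z → ℝ} {x : L × Z} (ha : DifferentiableAt ℝ a₀ x)
    (hϰ : DifferentiableAt ℝ ϰ x.2) (w : L × Z) :
    fderiv ℝ (fun x : L × Z => ϰ x.2 * a₀ x) x w =
      ϰ x.2 * fderiv ℝ a₀ x w + fderiv ℝ ϰ x.2 w.2 * a₀ x := by
  have h1 : HasFDerivAt (fun x : L × Z => ϰ x.2)
      ((fderiv ℝ ϰ x.2).comp (ContinuousLinearMap.snd ℝ L Z)) x :=
    hϰ.hasFDerivAt.comp x hasFDerivAt_snd
  have h2 := h1.fun_mul ha.hasFDerivAt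
  rw [h2.fderiv]
  simp only [ContinuousLinearMap.add_apply, ContinuousLinearMap.smul_apply,
    ContinuousLinearMap.comp_apply, ContinuousLinearMap.coe_snd', smul_eq_mul]
  ring

theorem differentiable_cut {a₀ : L × Z → ℝ} {ϰ : Z → ℝ} {x : L × Z}
    (ha : DifferentiableAt ℝ a₀ x) (hϰ : DifferentiableAt ℝ ϰ x.2) :
    DifferentiableAt ℝ (fun x : L × Z => ϰ x.2 * a₀ x) x := by
  have h1 : HasFDerivAt (fun x : L × Z => ϰ x.2)
      ((fderiv ℝ ϰ x.2).comp (ContinuousLinearMap.snd ℝ L Z)) x :=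
    hϰ.hasFDerivAt.comp x hasFDerivAt_snd
  exact (h1.fun_mul ha.hasFDerivAt).differentiableAt

theorem EV_cut (u : OrthonormalBasis ι ℝ L) {a₀ : L × Z → ℝ} {ϰ : Z → ℝ} {x : L × Z}
    (ha : DifferentiableAt ℝ a₀ x) (hϰ : DifferentiableAt ℝ ϰ x.2) (ψ : L → F) :
    EV Θ u (fun x : L × Z => ϰ x.2 * a₀ x) ψ x = ϰ x.2 • EV Θ u a₀ ψ x := by
  unfold EV
  rw [Finset.smul_sum]
  refine Finset.sum_congr rfl fun s _ => ?_
  rw [fderiv_cut ha hϰ, map_zero, zero_mul, add_zero, mul_smul, map_rsmul,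
    smul_comm (-Complex.I) (ϰ x.2)]

theorem HM_cut (eT : OrthonormalBasis η ℝ (Tn A c)) (v : OrthonormalBasis κ ℝ Z) (g : ℝ)
    {a₀ : L × Z → ℝ} {ϰ : Z → ℝ} {x : L × Z}
    (ha : DifferentiableAt ℝ a₀ x) (hϰ : DifferentiableAt ℝ ϰ x.2) (ψ : L → F) :
    HM A c Z Θ Wq PX eT v g (fun x : L × Z => ϰ x.2 * a₀ x) ψ x =
      ϰ x.2 • HM A c Z Θ Wq PX eT v g a₀ ψ x +
      ((∑ s, (-Complex.I) • Θ (v s) ((fderiv ℝ ϰ x.2 (v s) * a₀ x) • ψ x.1)) +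
      ∑ t, Complex.I • Θ (eT t)
        ((fderiv ℝ ϰ x.2 (nZ A c L Z PX (eT t) x.1) * a₀ x) • ψ x.1)) := by
  unfold HM
  have e1 : (∑ s, (-Complex.I) • Θ (v s)
      (fderiv ℝ (fun x : L × Z => ϰ x.2 * a₀ x) x (0, v s) • ψ x.1)) =
      ϰ x.2 • (∑ s, (-Complex.I) • Θ (v s) (fderiv ℝ a₀ x (0, v s) • ψ x.1)) +
      ∑ s, (-Complex.I) • Θ (v s) ((fderiv ℝ ϰ x.2 (v s) * a₀ x) • ψ x.1) := by
    rw [Finset.smul_sum, ← Finset.sum_add_distrib]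
    refine Finset.sum_congr rfl fun s _ => ?_
    rw [fderiv_cut ha hϰ, add_smul, map_add, smul_add, mul_smul, map_rsmul _ (ϰ x.2),
      smul_comm (-Complex.I) (ϰ x.2)]
  have e2 : (∑ t, Complex.I • Θ (eT t)
      (fderiv ℝ (fun x : L × Z => ϰ x.2 * a₀ x) x (0, nZ A c L Z PX (eT t) x.1) • ψ x.1)) =
      ϰ x.2 • (∑ t, Complex.I • Θ (eT t)
        (fderiv ℝ a₀ x (0, nZ A c L Z PX (eT t) x.1) • ψ x.1)) +
      ∑ t, Complex.I • Θ (eT t)
        ((fderiv ℝ ϰ x.2 (nZ A c L Z PX (eT t) x.1) * a₀ x) • ψ x.1) := by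
    rw [Finset.smul_sum, ← Finset.sum_add_distrib]
    refine Finset.sum_congr rfl fun s _ => ?_
    rw [fderiv_cut ha hϰ, add_smul, map_add, smul_add, mul_smul, map_rsmul _ (ϰ x.2),
      smul_comm Complex.I (ϰ x.2)]
  rw [e1, e2]
  module

end Crest.Agent.R330.PairE547

end
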