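import Crest.Agent.R330.PairE3_547

/-!
# Row 330, S8-PAIR (P3): the pointwise error theorem (helper547)
-/

set_option autoImplicit false
set_option linter.unusedSectionVars false

open MeasureTheory Filter Topology
open scoped ContDiff InnerProductSpace

noncomputable section

namespace Crest.Agent.R330.PairE547

open Crest.Agent.R330.Frame839 Crest.Agent.R330.IBP837 Crest.Agent.R330.PairA547
  Crest.Agent.R330.PairB547

variable {V E : Type*} [NormedAddCommGroup V] [InnerProductSpace ℝ V] [FiniteDimensional ℝ V]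
  [NormedAddCommGroup E] [InnerProductSpace ℝ E] [FiniteDimensional ℝ E]
  {F : Type*} [NormedAddCommGroup F] [InnerProductSpace ℂ F] [FiniteDimensional ℂ F]
  {ι κ η : Type*} [Fintype ι] [Fintype κ] [Fintype η]

variable {A : V →L[ℝ] E →L[ℝ] E} {c : E} {L Z : Submodule ℝ E} {r B ρ K : ℝ}
  {Θ : E →ₗ[ℝ] (F →ₗ[ℂ] F)} {Wq : E →ₗ[ℝ] E →ₗ[ℝ] (F →ₗ[ℂ] F)}
  {Wl : E →ₗ[ℝ] (F →ₗ[ℂ] F)} {Bf : V →ₗ[ℝ] (F →ₗ[ℝ] F)} {Γ : F →ₗ[ℂ] F} {PX : L →ₗ[ℝ] E}

theorem Y_le (hG : Geo A c L Z PX r B ρ) {p : L} (hp : ‖p‖ ≤ ρ) : ‖(p : E) - PX p‖ ≤ 2 := by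
  have h1 : ‖(p : E)‖ ≤ ρ := hp
  have h2 := hG.PX_le p
  have h3 := norm_sub_le (p : E) (PX p)
  have h4 := hG.ρ1
  have h5 : ‖PX p‖ ≤ ρ := h2.trans hp
  linarith

/-- derivative of the amplitude in a general direction -/
theorem Da_bound {g K' : ℝ} (hg : 0 ≤ g) (hK' : 0 ≤ K') {a₀ : L × Z → ℝ} {ϰ : Z → ℝ}
    (ha : AmpOk g K' ρ a₀) (hϰ : CutOk K' ρ ϰ) {x : L × Z} (hp : ‖x.1‖ ≤ ρ) (w : L × Z) :
    |fderiv ℝ (fun x : L × Z => ϰ x.2 * a₀ x) x w| ≤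
      K' * (1 + g * ‖x.2‖ ^ 2) * a₀ x * ‖w.1‖ + K' * (g * ‖x.2‖ + 1) * a₀ x * ‖w.2‖ := by
  rw [fderiv_cut (ha.diff x) (hϰ.diff x.2)]
  have e1 : w = (w.1, 0) + (0, w.2) := by simp
  have e2 : fderiv ℝ a₀ x w = fderiv ℝ a₀ x (w.1, 0) + fderiv ℝ a₀ x (0, w.2) := by
    conv_lhs => rw [e1, map_add]
  rw [e2]
  have h1 := ha.dL x hp w.1
  have h2 := ha.dZ x hp w.2
  have h3 := hϰ.der x.2 w.2
  have h0 := hϰ.nonneg x.2
  have h4 := hϰ.le_one x.2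
  have ha0 := ha.nonneg x
  have n1 := norm_nonneg w.1
  have n2 := norm_nonneg w.2
  have n3 := norm_nonneg x.2
  have m1 : 0 ≤ K' * (1 + g * ‖x.2‖ ^ 2) * a₀ x * ‖w.1‖ := by positivity
  have m2 : 0 ≤ K' * (g * ‖x.2‖) * a₀ x * ‖w.2‖ := by positivity
  calc |ϰ x.2 * (fderiv ℝ a₀ x (w.1, 0) + fderiv ℝ a₀ x (0, w.2)) + fderiv ℝ ϰ x.2 w.2 * a₀ x|
      ≤ |ϰ x.2 * (fderiv ℝ a₀ x (w.1, 0) + fderiv ℝ a₀ x (0, w.2))| +
        |fderiv ℝ ϰ x.2 w.2 * a₀ x| := abs_add_le _ _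
    _ ≤ 1 * (K' * (1 + g * ‖x.2‖ ^ 2) * a₀ x * ‖w.1‖ + K' * (g * ‖x.2‖) * a₀ x * ‖w.2‖) +
        (K' * ‖w.2‖) * a₀ x := by
        rw [abs_mul, abs_mul, abs_of_nonneg h0, abs_of_nonneg ha0]
        gcongr
        exact (abs_add_le _ _).trans (add_le_add h1 h2)
    _ = _ := by ring

/-- bound of the odd list -/
theorem OD_bound (hG : Geo A c L Z PX r B ρ) (hC : Cst Θ Wq Wl Bf K)
    (eT : OrthonormalBasis η ℝ (Tn A c)) (u : OrthonormalBasis ι ℝ L)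
    (v : OrthonormalBasis κ ℝ Z) {K' m₀ Cd : ℝ} (hK' : 0 ≤ K') (hm₀ : 0 ≤ m₀) (hCd0 : 0 ≤ Cd)
    (hCd : ∀ (t : η) (x : L × Z), ‖x.1‖ ≤ ρ → ‖x.2‖ ≤ ρ → |dvP hG.dec eT u v t x| ≤ Cd)
    {g m : ℝ} (hg : 0 ≤ g) (hm : |m| ≤ m₀) {a₀ : L × Z → ℝ} {ϰ : Z → ℝ}
    (ha : AmpOk g K' ρ a₀) (hϰ : CutOk K' ρ ϰ) (ψ : L → F) {x : L × Z} (hp : ‖x.1‖ ≤ ρ)
    (hz : ‖x.2‖ ≤ ρ) :
    ‖OD Θ Wq Wl PX eT u v hG.dec g m (fun x : L × Z => ϰ x.2 * a₀ x) ψ x‖ ≤
      (2 * K + m₀ * K + Fintype.card η * K * (Cd + 16 * K' * (B / r)) +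
        Fintype.card η * K * (4 * (B / r))) *
        (a₀ x * ((1 + g * ‖x.2‖ ^ 2 + g * ‖(x.1 : E) - PX x.1‖ * ‖x.2‖) * ‖ψ x.1‖ +
          ‖x.2‖ * ‖fderiv ℝ ψ x.1‖)) := by
  have ha0 := ha.nonneg x
  have hϰ0 := hϰ.nonneg x.2
  have hϰ1 := hϰ.le_one x.2
  have hK := hC.K0
  have hr := hG.r0
  have hB := hG.B0.le
  have hy2 := Y_le hG hp
  have hz1 : ‖x.2‖ ≤ 1 := hz.trans hG.ρ1
  set y := ‖(x.1 : E) - PX x.1‖ with hy
  set n := ‖x.2‖ with hn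
  set q := ‖ψ x.1‖ with hq
  set D := ‖fderiv ℝ ψ x.1‖ with hD
  have hy0 : 0 ≤ y := norm_nonneg _
  have hn0 : 0 ≤ n := norm_nonneg _
  have hq0 : 0 ≤ q := norm_nonneg _
  have hD0 : 0 ≤ D := by rw [hD]; positivity
  have ha1 : ϰ x.2 * a₀ x ≤ a₀ x := by
    calc ϰ x.2 * a₀ x ≤ 1 * a₀ x := by gcongr
      _ = a₀ x := one_mul _
  have ha2 : 0 ≤ ϰ x.2 * a₀ x := by positivity
  have hBr : 0 ≤ B / r := by positivity
  have t1 : ‖(2 * g * (ϰ x.2 * a₀ x)) • Wq ((x.1 : E) - PX x.1) x.2 (ψ x.1)‖ ≤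
      2 * K * (a₀ x * (g * y * n * q)) := by
    rw [norm_smul, Real.norm_of_nonneg (by positivity)]
    have := hC.Wq ((x.1 : E) - PX x.1) x.2 (ψ x.1)
    have hn' : ‖((x.2 : Z) : E)‖ = n := rfl
    rw [hn'] at this
    calc 2 * g * (ϰ x.2 * a₀ x) * ‖Wq ((x.1 : E) - PX x.1) x.2 (ψ x.1)‖
        ≤ 2 * g * a₀ x * (K * y * n * q) := by gcongr
      _ = _ := by ring
  have t2 : ‖(m * (ϰ x.2 * a₀ x)) • Wl x.2 (ψ x.1)‖ ≤ m₀ * K * (a₀ x * q) := by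
    rw [norm_smul, norm_mul, Real.norm_of_nonneg ha2]
    have := hC.Wl x.2 (ψ x.1)
    have hn' : ‖((x.2 : Z) : E)‖ = n := rfl
    rw [hn'] at this
    have hm' : ‖m‖ ≤ m₀ := hm
    calc ‖m‖ * (ϰ x.2 * a₀ x) * ‖Wl x.2 (ψ x.1)‖ ≤ m₀ * a₀ x * (K * 1 * q) := by
          gcongr
          exact this.trans (by gcongr)
      _ = _ := by ring
  have t3 : ‖∑ t, Complex.I • Θ (eT t)
      ((dvP hG.dec eT u v t x * (ϰ x.2 * a₀ x)) • ψ x.1 +
      fderiv ℝ (fun x : L × Z => ϰ x.2 * a₀ x) x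
        (nP A c L Z (eT t) x - (0, nZ A c L Z PX (eT t) x.1)) • ψ x.1 +
      (ϰ x.2 * a₀ x) • fderiv ℝ ψ x.1 (nP A c L Z (eT t) x).1)‖ ≤
      Fintype.card η * (K * ((Cd + 16 * K' * (B / r)) * (a₀ x * ((1 + g * n ^ 2 + g * y * n) * q))
        + 4 * (B / r) * (a₀ x * (n * D)))) := by
    refine sum_bound (e := fun t => (eT t : E)) hC norm_I_one (fun s => eT.orthonormal.1 s)
      fun t => ?_
    have ht : ‖eT t‖ = 1 := eT.orthonormal.1 t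
    have w1 := hG.nP_fst (eT t) ht hp hz
    have w2 := hG.nP_snd (eT t) ht hp hz
    have q1 : ‖(dvP hG.dec eT u v t x * (ϰ x.2 * a₀ x)) • ψ x.1‖ ≤ Cd * (a₀ x * q) := by
      rw [norm_smul, norm_mul, Real.norm_of_nonneg ha2]
      have h5 : ‖dvP hG.dec eT u v t x‖ ≤ Cd := hCd t x hp hz
      calc ‖dvP hG.dec eT u v t x‖ * (ϰ x.2 * a₀ x) * ‖ψ x.1‖ ≤ Cd * a₀ x * q := by gcongr
        _ = _ := by ring
    have q2 : ‖fderiv ℝ (fun x : L × Z => ϰ x.2 * a₀ x) x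
        (nP A c L Z (eT t) x - (0, nZ A c L Z PX (eT t) x.1)) • ψ x.1‖ ≤
        16 * K' * (B / r) * (a₀ x * ((1 + g * n ^ 2 + g * y * n) * q)) := by
      rw [norm_smul]
      have h6 := Da_bound hg hK' ha hϰ hp
        (nP A c L Z (eT t) x - (0, nZ A c L Z PX (eT t) x.1))
      have e1 : (nP A c L Z (eT t) x - (0, nZ A c L Z PX (eT t) x.1)).1 =
        (nP A c L Z (eT t) x).1 := by simp
      have e2 : (nP A c L Z (eT t) x - (0, nZ A c L Z PX (eT t) x.1)).2 =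
        (nP A c L Z (eT t) x).2 - nZ A c L Z PX (eT t) x.1 := by simp
      rw [e1, e2] at h6
      have h7 : |fderiv ℝ (fun x : L × Z => ϰ x.2 * a₀ x) x
          (nP A c L Z (eT t) x - (0, nZ A c L Z PX (eT t) x.1))| ≤
          K' * (1 + g * n ^ 2) * a₀ x * (4 * B / r * n) +
            K' * (g * n + 1) * a₀ x * (4 * B / r * (y + n)) := by
        refine h6.trans ?_
        gcongr
      have h8 : K' * (1 + g * n ^ 2) * a₀ x * (4 * B / r * n) +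
            K' * (g * n + 1) * a₀ x * (4 * B / r * (y + n)) ≤
          16 * K' * (B / r) * (a₀ x * (1 + g * n ^ 2 + g * y * n)) := by
        have e3 : K' * (1 + g * n ^ 2) * a₀ x * (4 * B / r * n) +
            K' * (g * n + 1) * a₀ x * (4 * B / r * (y + n)) =
            (4 * K' * (B / r) * a₀ x) * ((1 + g * n ^ 2) * n + (g * n + 1) * (y + n)) := by
          ring
        rw [e3]
        have e4 : 16 * K' * (B / r) * (a₀ x * (1 + g * n ^ 2 + g * y * n)) =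
            (4 * K' * (B / r) * a₀ x) * (4 * (1 + g * n ^ 2 + g * y * n)) := by ring
        rw [e4]
        refine mul_le_mul_of_nonneg_left ?_ (by positivity)
        have a1 : 0 ≤ g * n ^ 2 := by positivity
        have a2 : 0 ≤ g * y * n := by positivity
        have a3 : (1 + g * n ^ 2) * n ≤ (1 + g * n ^ 2) * 1 := by gcongr
        nlinarith
      refine (mul_le_mul_of_nonneg_right (h7.trans h8) hq0).trans (le_of_eq ?_)
      ring
    have q3 : ‖(ϰ x.2 * a₀ x) • fderiv ℝ ψ x.1 (nP A c L Z (eT t) x).1‖ ≤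
        4 * (B / r) * (a₀ x * (n * D)) := by
      rw [norm_smul, Real.norm_of_nonneg ha2]
      have h9 := (fderiv ℝ ψ x.1).le_opNorm (nP A c L Z (eT t) x).1
      calc (ϰ x.2 * a₀ x) * ‖fderiv ℝ ψ x.1 (nP A c L Z (eT t) x).1‖
          ≤ a₀ x * (D * (4 * B / r * n)) := by
            gcongr
            exact h9.trans (by gcongr)
        _ = _ := by ring
    refine (norm_add_le _ _).trans ((add_le_add (norm_add_le _ _) le_rfl).trans ?_)
    have q4 : Cd * (a₀ x * q) ≤ Cd * (a₀ x * ((1 + g * n ^ 2 + g * y * n) * q)) := by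
      have a1 : 0 ≤ g * n ^ 2 := by positivity
      have a2 : 0 ≤ g * y * n := by positivity
      have a4 : q ≤ (1 + g * n ^ 2 + g * y * n) * q := by nlinarith
      gcongr
    exact (add_le_add (add_le_add (q1.trans q4) q2) q3).trans (le_of_eq (by ring))
  unfold OD
  refine (norm_add_le _ _).trans ((add_le_add ((norm_sub_le _ _).trans (add_le_add t1 t2))
    t3).trans ?_)
  have hη : (0 : ℝ) ≤ Fintype.card η := Nat.cast_nonneg _
  have a1 : 0 ≤ g * n ^ 2 := by positivity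
  have a2 : 0 ≤ g * y * n := by positivity
  have b1 : g * y * n * q ≤ (1 + g * n ^ 2 + g * y * n) * q + n * D := by
    have : 0 ≤ n * D := by positivity
    nlinarith
  have b2 : q ≤ (1 + g * n ^ 2 + g * y * n) * q + n * D := by
    have : 0 ≤ n * D := by positivity
    nlinarith
  have b3 : (1 + g * n ^ 2 + g * y * n) * q ≤ (1 + g * n ^ 2 + g * y * n) * q + n * D := by
    have : 0 ≤ n * D := by positivity
    linarith
  have b4 : n * D ≤ (1 + g * n ^ 2 + g * y * n) * q + n * D := by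
    have : 0 ≤ (1 + g * n ^ 2 + g * y * n) * q := by positivity
    linarith
  set R := (1 + g * n ^ 2 + g * y * n) * q + n * D with hR
  calc 2 * K * (a₀ x * (g * y * n * q)) + m₀ * K * (a₀ x * q) +
      Fintype.card η * (K * ((Cd + 16 * K' * (B / r)) * (a₀ x * ((1 + g * n ^ 2 + g * y * n) * q))
        + 4 * (B / r) * (a₀ x * (n * D))))
      ≤ 2 * K * (a₀ x * R) + m₀ * K * (a₀ x * R) +
      Fintype.card η * (K * ((Cd + 16 * K' * (B / r)) * (a₀ x * R)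
        + 4 * (B / r) * (a₀ x * R))) := by gcongr
    _ = _ := by ring

end Crest.Agent.R330.PairE547

end
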