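import Crest.Agent.R330.PairE4_547

/-!
# Row 330, S8-PAIR (P3): the pointwise error theorem, conclusion (helper547)
-/

set_option autoImplicit false
set_option linter.unusedSectionVars false

open MeasureTheory Filter Topology
open scoped ContDiff InnerProductSpace

noncomputable section

namespace Crest.Agent.R330.PairE547

open Crest.Agent.R330.Frame839 Crest.Agent.R330.IBP837 Crest.Agent.R330.PairA547
  Crest.Agent.R330.PairB547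

variable {V E : Type*} [NormedAddCommGroup V] [InnerProductSpace ℝ V] [FiniteDimensional ℝ V]
  [NormedAddCommGroup E] [InnerProductSpace ℝ E] [FiniteDimensional ℝ E]
  {F : Type*} [NormedAddCommGroup F] [InnerProductSpace ℂ F] [FiniteDimensional ℂ F]
  {ι κ η : Type*} [Fintype ι] [Fintype κ] [Fintype η]

variable {A : V →L[ℝ] E →L[ℝ] E} {c : E} {L Z : Submodule ℝ E} {r B ρ K : ℝ}
  {Θ : E →ₗ[ℝ] (F →ₗ[ℂ] F)} {Wq : E →ₗ[ℝ] E →ₗ[ℝ] (F →ₗ[ℂ] F)}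
  {Wl : E →ₗ[ℝ] (F →ₗ[ℂ] F)} {Bf : V →ₗ[ℝ] (F →ₗ[ℝ] F)} {Γ : F →ₗ[ℂ] F} {PX : L →ₗ[ℝ] E}

theorem HM_zero_of (eT : OrthonormalBasis η ℝ (Tn A c)) (v : OrthonormalBasis κ ℝ Z) (g : ℝ)
    (a : L × Z → ℝ) {ψ : L → F} {x : L × Z} (h : ψ x.1 = 0) :
    HM A c Z Θ Wq PX eT v g a ψ x = 0 := by
  unfold HM
  simp [h]

theorem EV_zero_of (u : OrthonormalBasis ι ℝ L) (a : L × Z → ℝ) {ψ : L → F} {x : L × Z}
    (h : ψ x.1 = 0) : EV Θ u a ψ x = 0 := by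
  unfold EV
  simp [h]

theorem MX_zero (eT : OrthonormalBasis η ℝ (Tn A c)) (g : ℝ) (y : E) (z : Z) :
    MX A c Z Θ Wq Bf eT g y z 0 = 0 := by
  unfold MX
  simp

theorem OD_zero_of (h : Dec A c L Z) (eT : OrthonormalBasis η ℝ (Tn A c))
    (u : OrthonormalBasis ι ℝ L) (v : OrthonormalBasis κ ℝ Z) (g m : ℝ) (a : L × Z → ℝ)
    {ψ : L → F} {x : L × Z} (h1 : ψ x.1 = 0) (h2 : fderiv ℝ ψ x.1 = 0) :
    OD Θ Wq Wl PX eT u v h g m a ψ x = 0 := by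
  unfold OD
  simp [h1, h2]

theorem OD_zero_cut (h : Dec A c L Z) (eT : OrthonormalBasis η ℝ (Tn A c))
    (u : OrthonormalBasis ι ℝ L) (v : OrthonormalBasis κ ℝ Z) (g m : ℝ) {a₀ : L × Z → ℝ}
    {ϰ : Z → ℝ} {ψ : L → F} {x : L × Z} (ha : DifferentiableAt ℝ a₀ x)
    (hϰ : DifferentiableAt ℝ ϰ x.2) (h1 : ϰ x.2 = 0) (h2 : fderiv ℝ ϰ x.2 = 0) :
    OD Θ Wq Wl PX eT u v h g m (fun x : L × Z => ϰ x.2 * a₀ x) ψ x = 0 := by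
  unfold OD
  simp only [fderiv_cut ha hϰ, h1, h2]
  simp

/-- **Pointwise bounds of the error list**, uniform in the coupling. -/
theorem exists_bounds (hG : Geo A c L Z PX r B ρ) (hC : Cst Θ Wq Wl Bf K)
    (hΓ : ∀ f, ‖Γ f‖ ≤ ‖f‖) (eT : OrthonormalBasis η ℝ (Tn A c)) (u : OrthonormalBasis ι ℝ L)
    (v : OrthonormalBasis κ ℝ Z) {K' m₀ : ℝ} (hK' : 0 ≤ K') (hm₀ : 0 ≤ m₀) :
    ∃ C : ℝ, 0 ≤ C ∧ ∀ (g m : ℝ), 0 ≤ g → |m| ≤ m₀ → ∀ (a₀ : L × Z → ℝ) (ϰ : Z → ℝ),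
      AmpOk g K' ρ a₀ → CutOk K' ρ ϰ → ∀ (ψ ρe ρs : L → F), (∀ p, ρ < ‖p‖ → ψ p = 0) →
      (∀ p, ρ < ‖p‖ → fderiv ℝ ψ p = 0) →
      (∀ x : L × Z, ‖x.1‖ ≤ ρ → HM A c Z Θ Wq PX eT v g a₀ ψ x = 0) → ∀ x : L × Z,
      ‖err1 Θ Wq Wl Bf Γ PX eT u v g m hG.dec (fun x : L × Z => ϰ x.2 * a₀ x) ψ ρs x‖ ≤
        C * a₀ x * ((1 + g * ‖x.2‖ ^ 2 + g * ‖(x.1 : E) - PX x.1‖ * ‖x.2‖) * ‖ψ x.1‖ +
          ‖x.2‖ * ‖fderiv ℝ ψ x.1‖ + ‖ρs x.1‖) ∧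
      ‖err2 Θ Wq Bf Γ PX eT u g a₀ ψ ρe x‖ ≤
        C * a₀ x * ((1 + g * ‖x.2‖ ^ 2) * ‖ψ x.1‖ + ‖ρe x.1‖) ∧
      ‖err3 Θ Wq Bf Γ PX eT u g a₀ (fun x : L × Z => ϰ x.2 * a₀ x) ψ ρe ρs x‖ ≤
        C * a₀ x * ((‖x.2‖ ^ 2 * (1 + g * ‖x.2‖ ^ 2) + ‖(x.1 : E) - PX x.1‖ + ‖x.2‖) *
          ‖ψ x.1‖ + ‖x.2‖ ^ 2 * ‖ρe x.1‖ + ‖ρs x.1‖) := by
  obtain ⟨Cd, hCd0, hCd⟩ := exists_dvP_bound hG eT u v
  have hK := hC.K0
  have hr := hG.r0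
  have hB := hG.B0.le
  have hη : (0 : ℝ) ≤ Fintype.card η := Nat.cast_nonneg _
  have hκ : (0 : ℝ) ≤ Fintype.card κ := Nat.cast_nonneg _
  have hι : (0 : ℝ) ≤ Fintype.card ι := Nat.cast_nonneg _
  set C1 : ℝ := 2 * K + m₀ * K + Fintype.card η * K * (Cd + 16 * K' * (B / r)) +
        Fintype.card η * K * (4 * (B / r)) with hC1
  set C2 : ℝ := Fintype.card κ * (K * K') + Fintype.card η * (K * K') with hC2
  set C3 : ℝ := Fintype.card η * (K * (2 / r) * K) + K with hC3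
  set C4 : ℝ := Fintype.card ι * (K * K') with hC4
  set C5 : ℝ := Fintype.card η * (K * (4 * B / r ^ 2) * K) with hC5
  have hC1' : 0 ≤ C1 := by positivity
  have hC2' : 0 ≤ C2 := by positivity
  have hC3' : 0 ≤ C3 := by positivity
  have hC4' : 0 ≤ C4 := by positivity
  have hC5' : 0 ≤ C5 := by positivity
  refine ⟨(C1 + C2 + C3 + 1) + (C4 + 1 + C3) + (K' * C4 + K' + 1 + C5 + K' * C3),
    by positivity, ?_⟩
  intro g m hg hm a₀ ϰ ha hϰ ψ ρe ρs hψ hψ' hHM x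
  have ha0 := ha.nonneg x
  have hϰ0 := hϰ.nonneg x.2
  have hϰ1 := hϰ.le_one x.2
  have hϰn := hϰ.near x.2
  have hz0 : 0 ≤ ‖x.2‖ := norm_nonneg _
  have hy0 : 0 ≤ ‖(x.1 : E) - PX x.1‖ := norm_nonneg _
  have hq0 : 0 ≤ ‖ψ x.1‖ := norm_nonneg _
  have hD0 : 0 ≤ ‖fderiv ℝ ψ x.1‖ := by positivity
  have hs0 : 0 ≤ ‖ρs x.1‖ := norm_nonneg _
  have he0 : 0 ≤ ‖ρe x.1‖ := norm_nonneg _
  have ha1 : ϰ x.2 * a₀ x ≤ a₀ x := by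
    calc ϰ x.2 * a₀ x ≤ 1 * a₀ x := by gcongr
      _ = a₀ x := one_mul _
  have ha2 : 0 ≤ ϰ x.2 * a₀ x := by positivity
  have hgz : 0 ≤ g * ‖x.2‖ ^ 2 := by positivity
  have hgy : 0 ≤ g * ‖(x.1 : E) - PX x.1‖ * ‖x.2‖ := by positivity
  -- outside the support of `ϰ`
  have hout : ρ < ‖x.2‖ → ϰ x.2 = 0 ∧ fderiv ℝ ϰ x.2 = 0 := fun hz =>
    ⟨by
      by_contra hne
      exact absurd (hϰ.supp _ hne) (not_le.2 hz), by
      by_contra hne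
      exact absurd (hϰ.dsupp _ hne) (not_le.2 hz)⟩
  -- MX at the centre point
  have hMX0 : ‖MX A c Z Θ Wq Bf eT g (PX x.1) x.2 (ψ x.1)‖ ≤
      C3 * ((1 + g * ‖x.2‖ ^ 2) * ‖ψ x.1‖) := by
    by_cases hp : ‖x.1‖ ≤ ρ
    · refine (MX_bound hG hC eT hg (hG.domX hp) x.2 (ψ x.1)).trans ?_
      rw [← mul_assoc C3]
      refine mul_le_mul_of_nonneg_right ?_ hq0
      have e1 : 0 ≤ Fintype.card η * (K * (2 / r) * K) := by positivity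
      have e2 := mul_nonneg e1 hgz
      rw [hC3]
      linarith
    · rw [hψ _ (not_le.1 hp), MX_zero]
      simp
  have hMX : ‖x.2‖ ≤ ρ → ‖MX A c Z Θ Wq Bf eT g (x.1 + x.2) x.2 (ψ x.1)‖ ≤
      C3 * ((1 + g * ‖x.2‖ ^ 2) * ‖ψ x.1‖) := by
    intro hz
    by_cases hp : ‖x.1‖ ≤ ρ
    · refine (MX_bound hG hC eT hg (hG.dom hp hz) x.2 (ψ x.1)).trans ?_
      rw [← mul_assoc C3]
      refine mul_le_mul_of_nonneg_right ?_ hq0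
      have e1 : 0 ≤ Fintype.card η * (K * (2 / r) * K) := by positivity
      have e2 := mul_nonneg e1 hgz
      rw [hC3]
      linarith
    · rw [hψ _ (not_le.1 hp), MX_zero]
      simp
  have hMXd : ‖x.2‖ ≤ ρ → ‖MX A c Z Θ Wq Bf eT g (x.1 + x.2) x.2 (ψ x.1) -
      MX A c Z Θ Wq Bf eT g (PX x.1) x.2 (ψ x.1)‖ ≤
      C5 * ((‖(x.1 : E) - PX x.1‖ + ‖x.2‖) * ‖ψ x.1‖) := by
    intro hz
    by_cases hp : ‖x.1‖ ≤ ρ
    · refine (MX_sub_bound hG hC eT g (hG.dom hp hz) (hG.domX hp) x.2 (ψ x.1)).trans ?_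
      rw [← mul_assoc C5]
      have e1 : ‖(x.1 : E) + x.2 - PX x.1‖ ≤ ‖(x.1 : E) - PX x.1‖ + ‖x.2‖ := by
        rw [show (x.1 : E) + x.2 - PX x.1 = ((x.1 : E) - PX x.1) + x.2 by abel]
        exact norm_add_le _ _
      exact mul_le_mul_of_nonneg_right (mul_le_mul_of_nonneg_left e1 hC5') hq0
    · rw [hψ _ (not_le.1 hp), MX_zero, MX_zero]
      simp
  have hEV : ‖EV Θ u a₀ ψ x‖ ≤ C4 * (a₀ x * ((1 + g * ‖x.2‖ ^ 2) * ‖ψ x.1‖)) := by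
    by_cases hp : ‖x.1‖ ≤ ρ
    · refine (EV_bound hC u (M := K' * (1 + g * ‖x.2‖ ^ 2) * a₀ x) fun s => ?_).trans ?_
      · have h1 := ha.dL x hp (u s)
        have h2 : ‖u s‖ = 1 := u.orthonormal.1 s
        rwa [h2, mul_one] at h1
      · rw [hC4]
        exact le_of_eq (by ring)
    · rw [EV_zero_of u a₀ (hψ _ (not_le.1 hp)), norm_zero]
      positivity
  have hEVc : EV Θ u (fun x : L × Z => ϰ x.2 * a₀ x) ψ x = ϰ x.2 • EV Θ u a₀ ψ x :=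
    EV_cut u (ha.diff x) (hϰ.diff x.2) ψ
  have hOD : ‖OD Θ Wq Wl PX eT u v hG.dec g m (fun x : L × Z => ϰ x.2 * a₀ x) ψ x‖ ≤
      C1 * (a₀ x * ((1 + g * ‖x.2‖ ^ 2 + g * ‖(x.1 : E) - PX x.1‖ * ‖x.2‖) * ‖ψ x.1‖ +
          ‖x.2‖ * ‖fderiv ℝ ψ x.1‖)) := by
    by_cases hp : ‖x.1‖ ≤ ρ
    · by_cases hz : ‖x.2‖ ≤ ρ
      · exact OD_bound hG hC eT u v hK' hm₀ hCd0 hCd hg hm ha hϰ ψ hp hz
      · have h1 := hout (not_le.1 hz)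
        rw [OD_zero_cut hG.dec eT u v g m (ha.diff x) (hϰ.diff x.2) h1.1 h1.2, norm_zero]
        positivity
    · rw [OD_zero_of hG.dec eT u v g m _ (hψ _ (not_le.1 hp)) (hψ' _ (not_le.1 hp)), norm_zero]
      positivity
  have hHMb : ‖HM A c Z Θ Wq PX eT v g (fun x : L × Z => ϰ x.2 * a₀ x) ψ x‖ ≤
      C2 * (a₀ x * ‖ψ x.1‖) := by
    by_cases hp : ‖x.1‖ ≤ ρ
    · rw [HM_cut eT v g (ha.diff x) (hϰ.diff x.2) ψ, hHM x hp, smul_zero, zero_add, hC2, add_mul]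
      refine (norm_add_le _ _).trans (add_le_add ?_ ?_)
      · refine (sum_bound (e := fun s => (v s : E)) (M := K' * (a₀ x * ‖ψ x.1‖)) hC norm_negI_one
          (fun s => v.orthonormal.1 s) fun s => ?_).trans (le_of_eq (by ring))
        have h1 := hϰ.der x.2 (v s)
        have h2 : ‖v s‖ = 1 := v.orthonormal.1 s
        rw [h2, mul_one] at h1
        rw [norm_smul, norm_mul, Real.norm_of_nonneg ha0]
        have h1' : ‖fderiv ℝ ϰ x.2 (v s)‖ ≤ K' := h1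
        calc ‖fderiv ℝ ϰ x.2 (v s)‖ * a₀ x * ‖ψ x.1‖ ≤ K' * a₀ x * ‖ψ x.1‖ := by gcongr
          _ = _ := by ring
      · refine (sum_bound (e := fun s => (eT s : E)) (M := K' * (a₀ x * ‖ψ x.1‖)) hC norm_I_one
          (fun s => eT.orthonormal.1 s) fun s => ?_).trans (le_of_eq (by ring))
        have h1 := hϰ.der x.2 (nZ A c L Z PX (eT s) x.1)
        have h2 := hG.nZ_le (eT s) (eT.orthonormal.1 s) hp
        rw [norm_smul, norm_mul, Real.norm_of_nonneg ha0]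
        have h1' : ‖fderiv ℝ ϰ x.2 (nZ A c L Z PX (eT s) x.1)‖ ≤ K' * 1 :=
          le_trans h1 (by gcongr)
        rw [mul_one] at h1'
        calc ‖fderiv ℝ ϰ x.2 (nZ A c L Z PX (eT s) x.1)‖ * a₀ x * ‖ψ x.1‖
            ≤ K' * a₀ x * ‖ψ x.1‖ := by gcongr
          _ = _ := by ring
    · rw [HM_zero_of eT v g _ (hψ _ (not_le.1 hp)), norm_zero]
      positivity
  refine ⟨?_, ?_, ?_⟩
  · -- err1
    set R := (1 + g * ‖x.2‖ ^ 2 + g * ‖(x.1 : E) - PX x.1‖ * ‖x.2‖) * ‖ψ x.1‖ +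
          ‖x.2‖ * ‖fderiv ℝ ψ x.1‖ + ‖ρs x.1‖ with hR
    have b0 : 0 ≤ ‖x.2‖ * ‖fderiv ℝ ψ x.1‖ := by positivity
    have r1 : (1 + g * ‖x.2‖ ^ 2 + g * ‖(x.1 : E) - PX x.1‖ * ‖x.2‖) * ‖ψ x.1‖ +
        ‖x.2‖ * ‖fderiv ℝ ψ x.1‖ ≤ R := by linarith
    have hgzq := mul_nonneg hgz hq0
    have hgyq := mul_nonneg hgy hq0
    have hR2 : R = ‖ψ x.1‖ + g * ‖x.2‖ ^ 2 * ‖ψ x.1‖ +
        g * ‖(x.1 : E) - PX x.1‖ * ‖x.2‖ * ‖ψ x.1‖ + ‖x.2‖ * ‖fderiv ℝ ψ x.1‖ + ‖ρs x.1‖ := by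
      rw [hR]
      ring
    have r2 : ‖ψ x.1‖ ≤ R := by linarith
    have r3 : (1 + g * ‖x.2‖ ^ 2) * ‖ψ x.1‖ ≤ R := by linarith
    have r4 : ‖ρs x.1‖ ≤ R := by linarith
    have hR0 : 0 ≤ R := hq0.trans r2
    have c1 : ‖(ϰ x.2 * a₀ x) • odp Γ (MX A c Z Θ Wq Bf eT g (x.1 + x.2) x.2 (ψ x.1))‖ ≤
        C3 * (a₀ x * R) := by
      by_cases hz : ‖x.2‖ ≤ ρ
      · rw [norm_smul, Real.norm_of_nonneg ha2]
        calc (ϰ x.2 * a₀ x) * ‖odp Γ (MX A c Z Θ Wq Bf eT g (x.1 + x.2) x.2 (ψ x.1))‖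
            ≤ a₀ x * (C3 * R) := by
              gcongr
              exact (norm_odp_le hΓ _).trans ((hMX hz).trans (by gcongr))
          _ = _ := by ring
      · rw [(hout (not_le.1 hz)).1]
        simp only [zero_mul, zero_smul, norm_zero]
        positivity
    have c2 : ‖(ϰ x.2 * a₀ x) • odp Γ (ρs x.1)‖ ≤ a₀ x * R := by
      rw [norm_smul, Real.norm_of_nonneg ha2]
      gcongr
      exact (norm_odp_le hΓ _).trans r4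
    unfold err1
    refine (norm_add_le _ _).trans ((add_le_add ((norm_add_le _ _).trans
      (add_le_add ((norm_add_le _ _).trans (add_le_add hHMb hOD)) c1)) c2).trans ?_)
    have c3 : C2 * (a₀ x * ‖ψ x.1‖) ≤ C2 * (a₀ x * R) := by gcongr
    have c4 : C1 * (a₀ x * ((1 + g * ‖x.2‖ ^ 2 + g * ‖(x.1 : E) - PX x.1‖ * ‖x.2‖) * ‖ψ x.1‖ +
          ‖x.2‖ * ‖fderiv ℝ ψ x.1‖)) ≤ C1 * (a₀ x * R) := by gcongr
    have c5 : 0 ≤ ((C4 + 1 + C3) + (K' * C4 + K' + 1 + C5 + K' * C3)) * (a₀ x * R) := by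
      positivity
    have c6 : ((C1 + C2 + C3 + 1) + (C4 + 1 + C3) + (K' * C4 + K' + 1 + C5 + K' * C3)) *
        a₀ x * R = C2 * (a₀ x * R) + C1 * (a₀ x * R) + C3 * (a₀ x * R) + a₀ x * R +
        ((C4 + 1 + C3) + (K' * C4 + K' + 1 + C5 + K' * C3)) * (a₀ x * R) := by ring
    rw [c6]
    linarith
  · -- err2
    set R := (1 + g * ‖x.2‖ ^ 2) * ‖ψ x.1‖ + ‖ρe x.1‖ with hR
    have r1 : (1 + g * ‖x.2‖ ^ 2) * ‖ψ x.1‖ ≤ R := by linarith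
    have hgzq : 0 ≤ (1 + g * ‖x.2‖ ^ 2) * ‖ψ x.1‖ := by positivity
    have r2 : ‖ρe x.1‖ ≤ R := by linarith
    have hR0 : 0 ≤ R := he0.trans r2
    have c1 : ‖a₀ x • ρe x.1‖ ≤ a₀ x * R := by
      rw [norm_smul, Real.norm_of_nonneg ha0]
      gcongr
    have c2 : ‖a₀ x • evp Γ (MX A c Z Θ Wq Bf eT g (PX x.1) x.2 (ψ x.1))‖ ≤
        C3 * (a₀ x * R) := by
      rw [norm_smul, Real.norm_of_nonneg ha0]
      calc a₀ x * ‖evp Γ (MX A c Z Θ Wq Bf eT g (PX x.1) x.2 (ψ x.1))‖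
          ≤ a₀ x * (C3 * R) := by
            gcongr
            exact (norm_evp_le hΓ _).trans (hMX0.trans (by gcongr))
        _ = _ := by ring
    unfold err2
    refine (norm_add_le _ _).trans ((add_le_add ((norm_add_le _ _).trans
      (add_le_add hEV c1)) c2).trans ?_)
    have c3 : C4 * (a₀ x * ((1 + g * ‖x.2‖ ^ 2) * ‖ψ x.1‖)) ≤ C4 * (a₀ x * R) := by gcongr
    have c5 : 0 ≤ ((C1 + C2 + C3 + 1) + (K' * C4 + K' + 1 + C5 + K' * C3)) * (a₀ x * R) := by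
      positivity
    have c6 : ((C1 + C2 + C3 + 1) + (C4 + 1 + C3) + (K' * C4 + K' + 1 + C5 + K' * C3)) *
        a₀ x * R = C4 * (a₀ x * R) + a₀ x * R + C3 * (a₀ x * R) +
        ((C1 + C2 + C3 + 1) + (K' * C4 + K' + 1 + C5 + K' * C3)) * (a₀ x * R) := by ring
    rw [c6]
    linarith
  · -- err3
    set R := (‖x.2‖ ^ 2 * (1 + g * ‖x.2‖ ^ 2) + ‖(x.1 : E) - PX x.1‖ + ‖x.2‖) *
          ‖ψ x.1‖ + ‖x.2‖ ^ 2 * ‖ρe x.1‖ + ‖ρs x.1‖ with hR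
    have hz2 : 0 ≤ ‖x.2‖ ^ 2 := by positivity
    have b1 : 0 ≤ ‖x.2‖ ^ 2 * (1 + g * ‖x.2‖ ^ 2) * ‖ψ x.1‖ := by positivity
    have b2 : 0 ≤ (‖(x.1 : E) - PX x.1‖ + ‖x.2‖) * ‖ψ x.1‖ := by positivity
    have b3 : 0 ≤ ‖x.2‖ ^ 2 * ‖ρe x.1‖ := by positivity
    have hR' : R = ‖x.2‖ ^ 2 * (1 + g * ‖x.2‖ ^ 2) * ‖ψ x.1‖ +
        (‖(x.1 : E) - PX x.1‖ + ‖x.2‖) * ‖ψ x.1‖ + ‖x.2‖ ^ 2 * ‖ρe x.1‖ + ‖ρs x.1‖ := by
      rw [hR]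
      ring
    have r1 : ‖x.2‖ ^ 2 * (1 + g * ‖x.2‖ ^ 2) * ‖ψ x.1‖ ≤ R := by linarith
    have r2 : (‖(x.1 : E) - PX x.1‖ + ‖x.2‖) * ‖ψ x.1‖ ≤ R := by linarith
    have r3 : ‖x.2‖ ^ 2 * ‖ρe x.1‖ ≤ R := by linarith
    have r4 : ‖ρs x.1‖ ≤ R := by linarith
    have hR0 : 0 ≤ R := hs0.trans r4
    have hd : |ϰ x.2 - 1| ≤ K' * ‖x.2‖ ^ 2 := by
      rw [abs_sub_comm, abs_of_nonneg (by linarith)]
      exact hϰn
    have c1 : ‖EV Θ u (fun x : L × Z => ϰ x.2 * a₀ x) ψ x - EV Θ u a₀ ψ x‖ ≤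
        K' * C4 * (a₀ x * R) := by
      rw [hEVc]
      have e1 : ϰ x.2 • EV Θ u a₀ ψ x - EV Θ u a₀ ψ x = (ϰ x.2 - 1) • EV Θ u a₀ ψ x := by
        module
      rw [e1, norm_smul]
      calc ‖ϰ x.2 - 1‖ * ‖EV Θ u a₀ ψ x‖
          ≤ (K' * ‖x.2‖ ^ 2) * (C4 * (a₀ x * ((1 + g * ‖x.2‖ ^ 2) * ‖ψ x.1‖))) := by
            gcongr
            exact hd
        _ = K' * C4 * (a₀ x * (‖x.2‖ ^ 2 * (1 + g * ‖x.2‖ ^ 2) * ‖ψ x.1‖)) := by ring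
        _ ≤ _ := by gcongr
    have c2 : ‖(ϰ x.2 * a₀ x - a₀ x) • ρe x.1‖ ≤ K' * (a₀ x * R) := by
      rw [norm_smul, show ϰ x.2 * a₀ x - a₀ x = (ϰ x.2 - 1) * a₀ x by ring, norm_mul,
        Real.norm_of_nonneg ha0]
      calc ‖ϰ x.2 - 1‖ * a₀ x * ‖ρe x.1‖ ≤ (K' * ‖x.2‖ ^ 2) * a₀ x * ‖ρe x.1‖ := by
            gcongr
            exact hd
        _ = K' * (a₀ x * (‖x.2‖ ^ 2 * ‖ρe x.1‖)) := by ring
        _ ≤ _ := by gcongr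
    have c3 : ‖(ϰ x.2 * a₀ x) • evp Γ (ρs x.1)‖ ≤ a₀ x * R := by
      rw [norm_smul, Real.norm_of_nonneg ha2]
      gcongr
      exact (norm_evp_le hΓ _).trans r4
    have c4 : ‖(ϰ x.2 * a₀ x) • evp Γ (MX A c Z Θ Wq Bf eT g (x.1 + x.2) x.2 (ψ x.1)) -
        a₀ x • evp Γ (MX A c Z Θ Wq Bf eT g (PX x.1) x.2 (ψ x.1))‖ ≤
        (C5 + K' * C3) * (a₀ x * R) := by
      have e1 : (ϰ x.2 * a₀ x) • evp Γ (MX A c Z Θ Wq Bf eT g (x.1 + x.2) x.2 (ψ x.1)) -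
          a₀ x • evp Γ (MX A c Z Θ Wq Bf eT g (PX x.1) x.2 (ψ x.1)) =
          (ϰ x.2 * a₀ x) • evp Γ (MX A c Z Θ Wq Bf eT g (x.1 + x.2) x.2 (ψ x.1) -
            MX A c Z Θ Wq Bf eT g (PX x.1) x.2 (ψ x.1)) +
          ((ϰ x.2 - 1) * a₀ x) • evp Γ (MX A c Z Θ Wq Bf eT g (PX x.1) x.2 (ψ x.1)) := by
        rw [evp_sub]
        module
      rw [e1, add_mul]
      refine (norm_add_le _ _).trans (add_le_add ?_ ?_)
      · by_cases hz : ‖x.2‖ ≤ ρ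
        · rw [norm_smul, Real.norm_of_nonneg ha2]
          calc (ϰ x.2 * a₀ x) * ‖evp Γ (MX A c Z Θ Wq Bf eT g (x.1 + x.2) x.2 (ψ x.1) -
                MX A c Z Θ Wq Bf eT g (PX x.1) x.2 (ψ x.1))‖
              ≤ a₀ x * (C5 * R) := by
                gcongr
                exact (norm_evp_le hΓ _).trans ((hMXd hz).trans (by gcongr))
            _ = _ := by ring
        · rw [(hout (not_le.1 hz)).1]
          simp only [zero_mul, zero_smul, norm_zero]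
          positivity
      · rw [norm_smul, norm_mul, Real.norm_of_nonneg ha0]
        calc ‖ϰ x.2 - 1‖ * a₀ x * ‖evp Γ (MX A c Z Θ Wq Bf eT g (PX x.1) x.2 (ψ x.1))‖
            ≤ (K' * ‖x.2‖ ^ 2) * a₀ x * (C3 * ((1 + g * ‖x.2‖ ^ 2) * ‖ψ x.1‖)) := by
              gcongr
              · exact hd
              · exact (norm_evp_le hΓ _).trans hMX0
          _ = K' * C3 * (a₀ x * (‖x.2‖ ^ 2 * (1 + g * ‖x.2‖ ^ 2) * ‖ψ x.1‖)) := by ring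
          _ ≤ _ := by gcongr
    unfold err3
    refine (norm_add_le _ _).trans ((add_le_add ((norm_add_le _ _).trans
      (add_le_add ((norm_add_le _ _).trans (add_le_add c1 c2)) c3)) c4).trans ?_)
    have c5 : 0 ≤ ((C1 + C2 + C3 + 1) + (C4 + 1 + C3)) * (a₀ x * R) := by
      positivity
    have c6 : ((C1 + C2 + C3 + 1) + (C4 + 1 + C3) + (K' * C4 + K' + 1 + C5 + K' * C3)) *
        a₀ x * R = K' * C4 * (a₀ x * R) + K' * (a₀ x * R) + a₀ x * R +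
        (C5 + K' * C3) * (a₀ x * R) + ((C1 + C2 + C3 + 1) + (C4 + 1 + C3)) * (a₀ x * R) := by
      ring
    rw [c6]
    linarith

end Crest.Agent.R330.PairE547

end
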