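import Crest.Agent.R330.PairD_424
import Crest.Agent.R330.TCore_383

/-!
# Row 330, S9-PAIRING (helper424): pairing of a core vector with a trial state

* `slice_L2` : `∫_{‖y‖ ≤ ρ} ‖φ (c + y)‖² ≤ K ∫ ‖φ‖²` for equivariant `φ`.
* `pair_coord` : `∫ ⟪Tgen, φ⟫` in the coordinates `(u, z) ∈ Tup kk × Zt X0`.
* `ampE` : the amplitude `X ↦ e (X - X0) / sqrt (j (X)) • χ X`.
* `pair_final` : `∫ ⟪T_{ampE χ}, φ⟫ = ∫ ⟪gs • om, η • φ (c + u + z)⟫ + O (ε_g) ‖φ‖`, for a Lipschitz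
  cut-off `η` with `e X = η (X, 0)`.
-/

set_option autoImplicit false
set_option linter.unusedSectionVars false

open MeasureTheory Filter Topology Crest.MathPhysics.MatrixQM
open scoped ContDiff InnerProductSpace ENNReal

noncomputable section

namespace Crest.Agent.R330.PairE424

open Crest.Agent.R330.Defs478 Crest.Agent.R330.LS839
  Crest.Agent.R330.Bind6839 Crest.Agent.R330.SlG944 Crest.Agent.R330.SlF944
  Crest.Agent.R330.TDef414 Crest.Agent.R330.PairD424 Crest.Agent.R330.PairC424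
open Crest.Agent.R330.SlB314 (Nor Tan br)
open Crest.Agent.R330.SlD314 (tube mem_tube_iff)

variable {N p : ℕ} {b : ColorBasis N} {S : Type} [Group S] [Fintype S] {C : Chn b p S}
  {F : Type*} [NormedAddCommGroup F] [InnerProductSpace ℂ F]
  [FiniteDimensional ℂ F] {M : FermionRep N F} {R : GaugeAction b M} {G : GammaNine}

/-! ## the slice bound -/

/-- The density is bounded below on smaller balls. -/
theorem exists_jlow (σ : Sl C) {ρ : ℝ} (hρ0 : 0 ≤ ρ) (hρ : ρ < σ.r) : ∃ j0 : ℝ, 0 < j0 ∧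
    ∀ y ∈ Nor b (C.cf σ.X0), ‖y‖ ≤ ρ → j0 ≤ σ.j y := by
  set K : Set (Cfg N) := Metric.closedBall 0 ρ ∩ (Nor b (C.cf σ.X0) : Set (Cfg N)) with hK
  have hKc : IsCompact K := (isCompact_closedBall (0 : Cfg N) ρ).inter_right
    (Submodule.closed_of_finiteDimensional _)
  have hcont : ContinuousOn σ.j K := fun y hy => by
    have h1 : ‖y‖ ≤ ρ := by simpa using hy.1
    exact (σ.smooth y hy.2 (by linarith)).continuousAt.continuousWithinAt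
  have h0 : (0 : Cfg N) ∈ K := ⟨by simpa using hρ0, Submodule.zero_mem _⟩
  obtain ⟨y0, hy0, hmin⟩ := hKc.exists_isMinOn ⟨0, h0⟩ hcont
  have h1 : ‖y0‖ ≤ ρ := by simpa using hy0.1
  refine ⟨σ.j y0, σ.jpos y0 hy0.2 (by linarith), fun y hy hn => ?_⟩
  exact hmin (⟨by simpa using hn, hy⟩ : y ∈ K)

/-- **The slice bound.** -/
theorem slice_L2 (R : GaugeAction b M) (σ : Sl C) {ρ : ℝ} (hρ0 : 0 ≤ ρ) (hρ : ρ < σ.r) :
    ∃ K : ℝ, 0 ≤ K ∧ ∀ φ : Cfg N → F, Continuous φ → (∀ h x, φ (b.act h x) = R.ρ h (φ x)) →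
      ∫⁻ y in Metric.closedBall (0 : Nor b (C.cf σ.X0)) ρ, ‖φ (C.cf σ.X0 + y)‖ₑ ^ 2 ≤
        ENNReal.ofReal K * ∫⁻ x, ‖φ x‖ₑ ^ 2 := by
  obtain ⟨j0, hj0, hj⟩ := exists_jlow σ hρ0 hρ
  refine ⟨j0⁻¹, by positivity, fun φ hφ he => ?_⟩
  have h1 : ∫⁻ x in tube b (C.cf σ.X0) σ.r, ‖φ x‖ₑ ^ 2 =
      ∫⁻ y in Metric.ball (0 : Nor b (C.cf σ.X0)) σ.r,
        ENNReal.ofReal (σ.j y) * ‖φ (C.cf σ.X0 + y)‖ₑ ^ 2 :=
    σ.int _ (hφ.enorm.measurable.pow_const 2) fun k x => by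
      rw [he, enorm_eq_ofReal, enorm_eq_ofReal, Cov837.norm_rho]
  have hsub : Metric.closedBall (0 : Nor b (C.cf σ.X0)) ρ ⊆ Metric.ball 0 σ.r :=
    Metric.closedBall_subset_ball hρ
  calc ∫⁻ y in Metric.closedBall (0 : Nor b (C.cf σ.X0)) ρ, ‖φ (C.cf σ.X0 + y)‖ₑ ^ 2
      ≤ ∫⁻ y in Metric.closedBall (0 : Nor b (C.cf σ.X0)) ρ,
        ENNReal.ofReal j0⁻¹ * (ENNReal.ofReal (σ.j y) * ‖φ (C.cf σ.X0 + y)‖ₑ ^ 2) := by
        refine setLIntegral_mono' Metric.isClosed_closedBall.measurableSet fun y hy => ?_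
        have h2 : ‖(y : Cfg N)‖ ≤ ρ := by simpa using hy
        have h3 := hj y y.2 h2
        rw [← mul_assoc, ← ENNReal.ofReal_mul (by positivity)]
        have h4 : (1 : ℝ) ≤ j0⁻¹ * σ.j y := by
          rw [inv_mul_eq_div, le_div_iff₀ hj0]
          linarith
        calc ‖φ (C.cf σ.X0 + y)‖ₑ ^ 2 = 1 * ‖φ (C.cf σ.X0 + y)‖ₑ ^ 2 := (one_mul _).symm
          _ ≤ ENNReal.ofReal (j0⁻¹ * σ.j y) * ‖φ (C.cf σ.X0 + y)‖ₑ ^ 2 := by
            gcongr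
            rw [← ENNReal.ofReal_one]
            exact ENNReal.ofReal_le_ofReal h4
    _ ≤ ∫⁻ y in Metric.ball (0 : Nor b (C.cf σ.X0)) σ.r,
        ENNReal.ofReal j0⁻¹ * (ENNReal.ofReal (σ.j y) * ‖φ (C.cf σ.X0 + y)‖ₑ ^ 2) :=
        lintegral_mono_set hsub
    _ = ENNReal.ofReal j0⁻¹ * ∫⁻ x in tube b (C.cf σ.X0) σ.r, ‖φ x‖ₑ ^ 2 := by
        rw [lintegral_const_mul' _ _ ENNReal.ofReal_ne_top, h1]
    _ ≤ _ := mul_le_mul_right (setLIntegral_le_lintegral _ _) _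

/-! ## the pairing in coordinates -/

theorem tau_far (P : TPack C M R G) (σ : Sl C) {g : ℝ} (hg : P.s g < σ.r / 4) (χ : Amp M G σ)
    {y : Cfg N} (h : σ.r ≤ ‖y‖) : tau P σ g χ.fn y = 0 := by
  by_contra h3
  obtain ⟨-, h5, h6, h7⟩ := TCore383.tau_ne P σ g χ h3
  have h8 := TCore383.norm_le_sum (C := C) y
  have := σ.pos
  linarith

theorem reg0 (σ : Sl C) : C.Reg σ.X0 := σ.reg σ.X0 (by simpa using σ.pos)

theorem pair_coord (P : TPack C M R G) (σ : Sl C) {g : ℝ} (hg : P.s g < σ.r / 4) (χ : Amp M G σ)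
    (hT : Continuous (Tgen P σ g χ.fn)) {φ : Cfg N → F} (hφ : Continuous φ)
    (he : ∀ h x, φ (b.act h x) = R.ρ h (φ x)) :
    ∫ x, ⟪Tgen P σ g χ.fn x, φ x⟫_ℂ = ∫ q : Tup C.kk × C.Zt σ.X0,
      ⟪tau P σ g χ.fn ((q.1 : Cfg N) + q.2), φ (C.cf σ.X0 + ((q.1 : Cfg N) + q.2))⟫_ℂ := by
  have hτ : IsSliceFun R (C.cf σ.X0) σ.r (tau P σ g χ.fn) := fun k y hk hy hr =>
    TCore383.tau_act P σ g χ hk (TCore383.cfT_ball σ hr)
  have h1 := SlInt658.integral_pair σ R he hφ.stronglyMeasurable hτ hT.stronglyMeasurable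
  have h2 : ∫ x, ⟪Tgen P σ g χ.fn x, φ x⟫_ℂ =
      ∫ y in Metric.ball (0 : Nor b (C.cf σ.X0)) σ.r,
        ⟪tau P σ g χ.fn y, φ (C.cf σ.X0 + y)⟫_ℂ := by
    have h3 := congrArg (starRingEnd ℂ) h1
    rw [← integral_conj, ← integral_conj] at h3
    simp only [inner_conj_symm] at h3
    exact h3
  rw [h2, setIntegral_eq_integral_of_forall_compl_eq_zero, ← integral_spl C (reg0 σ)]
  · rfl
  · intro y hy
    have h4 : σ.r ≤ ‖(y : Cfg N)‖ := by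
      rw [Metric.mem_ball, dist_zero_right, not_lt] at hy
      exact hy
    rw [tau_far P σ hg χ h4, inner_zero_left]

/-! ## the amplitude -/

theorem contDiffAt_amp (σ : Sl C) {e : Pos p → ℝ} (he : ContDiff ℝ ∞ e) {X : Pos p}
    (hX : ‖X - σ.X0‖ < σ.r) :
    ContDiffAt ℝ ∞ (fun X => e (X - σ.X0) / Real.sqrt (σ.j (C.cf (X - σ.X0)))) X := by
  obtain ⟨h1, h2⟩ := TCore383.cf_ball σ hX
  have h3 : ContDiffAt ℝ ∞ (fun X : Pos p => C.cf (X - σ.X0)) X :=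
    C.cf.toContinuousLinearMap.contDiff.contDiffAt.comp X
      (contDiffAt_id.sub contDiffAt_const)
  have h4 : ContDiffAt ℝ ∞ (fun X : Pos p => σ.j (C.cf (X - σ.X0))) X :=
    (σ.smooth _ h1 h2).comp X h3
  have h5 := σ.jpos _ h1 h2
  refine ContDiffAt.div ?_ (h4.sqrt h5.ne') (Real.sqrt_pos.2 h5).ne'
  exact he.contDiffAt.comp X (contDiffAt_id.sub contDiffAt_const)

/-- The amplitude `X ↦ e (X - X0) / sqrt (j (X)) • χ X`. -/
def ampE (σ : Sl C) {e : Pos p → ℝ} (he : ContDiff ℝ ∞ e) (χ : Amp M G σ) : Amp M G σ where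
  fn X := (((e (X - σ.X0) / Real.sqrt (σ.j (C.cf (X - σ.X0))) : ℝ)) : ℂ) • χ.fn X
  smooth := by
    rw [contDiff_iff_contDiffAt]
    intro X
    by_cases hX : X ∈ tsupport χ.fn
    · have h1 : ‖X - σ.X0‖ < σ.r := by
        have h2 := χ.supp hX
        rw [Metric.mem_ball, dist_eq_norm] at h2
        have := σ.pos
        linarith
      exact (Complex.ofRealCLM.contDiff.contDiffAt.comp X (contDiffAt_amp σ he h1)).smul
        χ.smooth.contDiffAt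
    · have h1 : (fun X => (((e (X - σ.X0) / Real.sqrt (σ.j (C.cf (X - σ.X0))) : ℝ)) : ℂ) •
          χ.fn X) =ᶠ[𝓝 X] fun _ => 0 := by
        filter_upwards [(isClosed_tsupport χ.fn).isOpen_compl.mem_nhds hX] with v hv
        rw [image_eq_zero_of_notMem_tsupport hv, smul_zero]
      exact contDiffAt_const.congr_of_eventuallyEq h1
  supp := (closure_mono (Function.support_subset_iff'.2 fun X hX => by
    rw [Function.notMem_support.1 hX, smul_zero])).trans χ.supp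
  off X hX := χ.off X ((closure_mono (Function.support_subset_iff'.2 fun X hX => by
    rw [Function.notMem_support.1 hX, smul_zero])) hX)

theorem om_smul (P : TPack C M R G) (σ : Sl C) (g : ℝ) (a : Pos p → ℝ)
    (χ : Pos p → C.Fx M G) (u : Cfg N) :
    om P σ g (fun X => ((a X : ℝ) : ℂ) • χ X) u = a (σ.X0 + C.cfT u) • om P σ g χ u := by
  unfold om
  rw [Submodule.coe_smul, map_smul, map_smul, Complex.coe_smul]

/-- the trial function of `ampE` in coordinates -/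
theorem tau_ampE (P : TPack C M R G) (σ : Sl C) (g : ℝ) {e : Pos p → ℝ} (he : ContDiff ℝ ∞ e)
    (χ : Amp M G σ) {u z : Cfg N} (hu : u ∈ Tup C.kk) (hz : z ∈ Tup C.kkᗮ) :
    tau P σ g (ampE σ he χ).fn (u + z) = (kap σ.r (‖z‖ ^ 2) * e (C.cfT u) *
      gsn P σ g (σ.X0 + C.cfT u) z) • om P σ g χ.fn u := by
  by_cases h0 : om P σ g χ.fn u = 0
  · rw [tau_eq P σ g _ hu hz]
    unfold ampE
    rw [om_smul, h0]
    simp
  · obtain ⟨-, h1, -⟩ := om_supp P σ g χ h0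
    have h2 : ‖σ.X0 + C.cfT u - σ.X0‖ < σ.r := by
      rw [add_sub_cancel_left]
      have := σ.pos
      linarith
    obtain ⟨h3, h4⟩ := TCore383.cf_ball σ h2
    rw [add_sub_cancel_left] at h3 h4
    have h5 := Real.sqrt_pos.2 (σ.jpos _ h3 h4)
    rw [tau_eq P σ g _ hu hz]
    unfold ampE
    rw [om_smul, add_sub_cancel_left, smul_smul]
    congr 1
    field_simp

/-! ## the final estimate -/

theorem inner_rs (r : ℝ) (x y : F) : ⟪r • x, y⟫_ℂ = ⟪x, r • y⟫_ℂ := by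
  rw [← Complex.coe_smul, ← Complex.coe_smul, inner_smul_left, inner_smul_right,
    Complex.conj_ofReal]

theorem kap_close {r t : ℝ} (hr : 0 < r) (ht : 0 ≤ t) : |kap r (t ^ 2) - 1| ≤ 8 / r * t := by
  by_cases h : t ^ 2 ≤ r ^ 2 / 64
  · rw [kap_one hr h, sub_self, abs_zero]
    positivity
  · have h1 : r / 8 < t := by
      by_contra h2
      apply h
      have h3 := not_lt.1 h2
      nlinarith
    have h4 : 1 ≤ 8 / r * t := by
      rw [div_mul_eq_mul_div, le_div_iff₀ hr]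
      linarith
    have h5 := kap_nonneg r (t ^ 2)
    have h6 := kap_le_one r (t ^ 2)
    rw [abs_le]
    constructor <;> linarith

theorem gsn_sq (P : TPack C M R G) (σ : Sl C) (g : ℝ) (X : Pos p) (z : Cfg N) :
    gsn P σ g X z ^ 2 = Real.exp (-(g * ⟪P.A X z, z⟫_ℝ)) / nI P σ g X := by
  unfold gsn
  rw [div_pow, Real.sq_sqrt (nI_nonneg P σ g X), ← Real.exp_nat_mul]
  congr 2
  push_cast
  ring

/-- the Gaussian is normalised -/
theorem lint_gsn (P : TPack C M R G) (σ : Sl C) {g : ℝ} (hg : 0 < g) {X : Pos p}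
    (hX : ‖X - σ.X0‖ < σ.r) :
    ∫⁻ z : C.Zt σ.X0, ENNReal.ofReal (gsn P σ g X z ^ 2) ≤ 1 := by
  have h1 := TCore383.nI_pos P σ hg hX
  have h2 : Integrable fun z : C.Zt σ.X0 => Real.exp (-(g * ⟪P.A X z, z⟫_ℝ)) := by
    by_contra h3
    unfold nI at h1
    rw [integral_undef h3] at h1
    exact lt_irrefl _ h1
  simp only [gsn_sq]
  rw [← ofReal_integral_eq_lintegral_ofReal (h2.div_const _)
    (Eventually.of_forall fun z => by positivity), integral_div]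
  unfold nI at h1 ⊢
  rw [div_self h1.ne', ENNReal.ofReal_one]

theorem norm_light_le {u z : Cfg N} (hu : u ∈ Tup C.kk) (hz : z ∈ Tup C.kkᗮ) :
    ‖u‖ ≤ ‖u + z‖ ∧ ‖z‖ ≤ ‖u + z‖ := by
  have h1 : ‖u + z‖ ^ 2 = ‖u‖ ^ 2 + ‖z‖ ^ 2 := by
    rw [norm_sq_add C hu hz, norm_sq_light C hu]
  constructor <;> refine le_of_sq_le_sq ?_ (norm_nonneg _) <;> nlinarith [sq_nonneg ‖u‖, sq_nonneg ‖z‖]

theorem hcs_ball {X0 : Pos p} {E : Type*} [Zero E] {f : Tup C.kk × C.Zt X0 → E} {ρ : ℝ}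
    (h : ∀ q, ρ < ‖(q.1 : Cfg N) + q.2‖ → f q = 0) : HasCompactSupport f := by
  refine HasCompactSupport.of_support_subset_isCompact (isCompact_closedBall 0 ρ) fun q hq => ?_
  have h1 : ‖(q.1 : Cfg N) + q.2‖ ≤ ρ := by
    by_contra h2
    exact hq (h q (not_le.1 h2))
  obtain ⟨h2, h3⟩ := norm_light_le (C := C) q.1.2 (Zt_le_off C X0 q.2.2)
  rw [mem_closedBall_zero_iff]
  exact max_le (h2.trans h1) (h3.trans h1)

/-- the multiplier is small -/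
theorem th_le (P : TPack C M R G) (σ : Sl C) (χ : Amp M G σ) {η : Tup C.kk × C.Zt σ.X0 → ℝ}
    {e : Pos p → ℝ} {Lq B : ℝ} (hLq : 0 ≤ Lq)
    (hLip : ∀ q q', |η q - η q'| ≤ Lq * (‖q.1 - q'.1‖ + ‖q.2 - q'.2‖)) (hB : ∀ q, |η q| ≤ B)
    (hηe : ∀ (X : Pos p) (h : C.cf X ∈ Tup C.kk), e X = η (⟨C.cf X, h⟩, 0)) (g : ℝ)
    (u : Tup C.kk) (z : C.Zt σ.X0) (hu : om P σ g χ.fn u ≠ 0) :
    |kap σ.r (‖(z : Cfg N)‖ ^ 2) * e (C.cfT (u : Cfg N)) - η (u, z)| ≤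
      (8 / σ.r * B + Lq) * (P.s g + ‖z‖) := by
  have hr := σ.pos
  have hB0 : 0 ≤ B := (abs_nonneg _).trans (hB 0)
  obtain ⟨h1, h2, h3⟩ := om_supp P σ g χ hu
  have h4 := hηe (C.cfT (u : Cfg N)) (cf_mem C _)
  have h5 := hLip (⟨C.cf (C.cfT (u : Cfg N)), cf_mem C _⟩, 0) (u, z)
  have h6 : ‖(⟨C.cf (C.cfT (u : Cfg N)), cf_mem C _⟩ : Tup C.kk) - u‖ = ‖C.PY u‖ := by
    rw [← norm_neg, neg_sub]
    change ‖(u : Cfg N) - C.cf (C.cfT (u : Cfg N))‖ = _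
    unfold Chn.PY
    rw [PK_light C u.2]
  have h7 : ‖(0 : C.Zt σ.X0) - z‖ = ‖z‖ := by rw [zero_sub, norm_neg]
  simp only at h5
  rw [h6, h7, ← h4] at h5
  have h8 := kap_close hr (norm_nonneg (z : Cfg N))
  have h9 : |e (C.cfT (u : Cfg N))| ≤ B := by rw [h4]; exact hB _
  have h10 : kap σ.r (‖(z : Cfg N)‖ ^ 2) * e (C.cfT (u : Cfg N)) - η (u, z) =
      (kap σ.r (‖(z : Cfg N)‖ ^ 2) - 1) * e (C.cfT (u : Cfg N)) +
      (e (C.cfT (u : Cfg N)) - η (u, z)) := by ring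
  have h11 : ‖(z : Cfg N)‖ = ‖z‖ := rfl
  rw [h11] at h8 h10 ⊢
  rw [h10]
  calc _ ≤ |(kap σ.r (‖z‖ ^ 2) - 1) * e (C.cfT (u : Cfg N))| +
        |e (C.cfT (u : Cfg N)) - η (u, z)| := abs_add_le _ _
    _ ≤ 8 / σ.r * ‖z‖ * B + Lq * (‖C.PY u‖ + ‖z‖) := by
        rw [abs_mul]
        exact add_le_add (mul_le_mul h8 h9 (abs_nonneg _) (by positivity)) h5
    _ ≤ 8 / σ.r * B * (P.s g + ‖z‖) + Lq * (P.s g + ‖z‖) := by
        have h12 := P.s_pos g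
        have h13 : 0 ≤ 8 / σ.r * B := by positivity
        have h15 : 8 / σ.r * ‖z‖ * B ≤ 8 / σ.r * B * (P.s g + ‖z‖) := by nlinarith
        have h16 : Lq * (‖C.PY u‖ + ‖z‖) ≤ Lq * (P.s g + ‖z‖) :=
          mul_le_mul_of_nonneg_left (by linarith) hLq
        linarith
    _ = (8 / σ.r * B + Lq) * (P.s g + ‖z‖) := by ring

/-- the truncated slice restriction of a core vector -/
def trn (σ : Sl C) (ρ : ℝ) (φ : Cfg N → F) : Tup C.kk × C.Zt σ.X0 → F :=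
  {q : Tup C.kk × C.Zt σ.X0 | ‖(q.1 : Cfg N) + q.2‖ ≤ ρ}.indicator fun q =>
    φ (C.cf σ.X0 + ((q.1 : Cfg N) + q.2))

theorem continuous_sum (σ : Sl C) :
    Continuous fun q : Tup C.kk × C.Zt σ.X0 => (q.1 : Cfg N) + q.2 :=
  (continuous_subtype_val.comp continuous_fst).add (continuous_subtype_val.comp continuous_snd)

theorem lint_trn (σ : Sl C) (ρ : ℝ) (φ : Cfg N → F) :
    ∫⁻ q, ‖trn σ ρ φ q‖ₑ ^ 2 =
      ∫⁻ y in Metric.closedBall (0 : Nor b (C.cf σ.X0)) ρ, ‖φ (C.cf σ.X0 + y)‖ₑ ^ 2 := by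
  rw [← lintegral_indicator Metric.isClosed_closedBall.measurableSet,
    ← (spl_mp C (reg0 σ)).lintegral_comp_emb (spl C (reg0 σ)).toHomeomorph.measurableEmbedding]
  refine lintegral_congr fun q => ?_
  unfold trn
  by_cases hq : ‖(q.1 : Cfg N) + q.2‖ ≤ ρ
  · have h1 : spl C (reg0 σ) q ∈ Metric.closedBall (0 : Nor b (C.cf σ.X0)) ρ := by
      rw [mem_closedBall_zero_iff]
      exact hq
    rw [Set.indicator_of_mem h1, Set.indicator_of_mem (by exact hq), spl_coe]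
  · have h1 : spl C (reg0 σ) q ∉ Metric.closedBall (0 : Nor b (C.cf σ.X0)) ρ := by
      rw [mem_closedBall_zero_iff]
      exact hq
    rw [Set.indicator_of_notMem h1, Set.indicator_of_notMem (by exact hq)]
    simp

theorem memLp_trn (σ : Sl C) {ρ K : ℝ} (hK : 0 ≤ K) {φ : Cfg N → F} (hφ : Continuous φ)
    (hφ2 : MemLp φ 2 volume) (h : ∫⁻ y in Metric.closedBall (0 : Nor b (C.cf σ.X0)) ρ,
      ‖φ (C.cf σ.X0 + y)‖ₑ ^ 2 ≤ ENNReal.ofReal K * ∫⁻ x, ‖φ x‖ₑ ^ 2) :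
    MemLp (trn σ ρ φ) 2 volume ∧ ∫ q, ‖trn σ ρ φ q‖ ^ 2 ≤ K * ∫ x, ‖φ x‖ ^ 2 := by
  rw [← lint_trn] at h
  have l2 : ∫⁻ x, ‖φ x‖ₑ ^ 2 = ENNReal.ofReal (∫ x, ‖φ x‖ ^ 2) := lint_eq_ofReal hφ2
  have hm : AEStronglyMeasurable (trn σ ρ φ) volume :=
    ((hφ.comp (continuous_const.add (continuous_sum σ))).aestronglyMeasurable).indicator
      (isClosed_le (continuous_sum σ).norm continuous_const).measurableSet
  have h2 : MemLp (trn σ ρ φ) 2 volume := by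
    refine memLp_of_lint hm (h.trans_lt ?_)
    rw [l2]
    exact ENNReal.mul_lt_top ENNReal.ofReal_lt_top ENNReal.ofReal_lt_top
  refine ⟨h2, ?_⟩
  rw [lint_eq_ofReal h2, l2, ← ENNReal.ofReal_mul hK] at h
  exact (ENNReal.ofReal_le_ofReal_iff (mul_nonneg hK (integral_nonneg fun _ =>
    by positivity))).1 h

/-- the difference of the two pairings -/
theorem pair_diff (P : TPack C M R G) (σ : Sl C) (χ : Amp M G σ)
    {η : Tup C.kk × C.Zt σ.X0 → ℝ} {e : Pos p → ℝ} (he : ContDiff ℝ ∞ e) (hη : Continuous η)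
    {ρ : ℝ} (hρ : 3 * σ.r / 4 ≤ ρ)
    (hsupp : ∀ q : Tup C.kk × C.Zt σ.X0, ρ < ‖(q.1 : Cfg N) + q.2‖ → η q = 0)
    {g : ℝ} (hg : 0 < g) (hΨ : ContDiff ℝ ∞ (P.Psi g)) (hsg : P.s g < σ.r / 4)
    (hTc : Continuous (Tgen P σ g (ampE σ he χ).fn)) {φ : Cfg N → F} (hφ : Continuous φ)
    (heq : ∀ h x, φ (b.act h x) = R.ρ h (φ x)) :
    (Continuous fun q : Tup C.kk × C.Zt σ.X0 =>
      gsn P σ g (σ.X0 + C.cfT q.1) q.2 • om P σ g χ.fn q.1) ∧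
    (∫ x, ⟪Tgen P σ g (ampE σ he χ).fn x, φ x⟫_ℂ) -
      ∫ q : Tup C.kk × C.Zt σ.X0, ⟪gsn P σ g (σ.X0 + C.cfT q.1) q.2 • om P σ g χ.fn q.1,
        η q • φ (C.cf σ.X0 + ((q.1 : Cfg N) + q.2))⟫_ℂ =
    ∫ q : Tup C.kk × C.Zt σ.X0,
      ⟪((kap σ.r (‖(q.2 : Cfg N)‖ ^ 2) * e (C.cfT (q.1 : Cfg N)) - η q) *
        gsn P σ g (σ.X0 + C.cfT q.1) q.2) • om P σ g χ.fn q.1, trn σ ρ φ q⟫_ℂ := by
  have hr := σ.pos
  have hball : ∀ X, ‖X - σ.X0‖ < σ.r / 4 → ‖X - σ.X0‖ < σ.r := fun X hX => by linarith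
  have hgo : Continuous fun q : Tup C.kk × C.Zt σ.X0 =>
      gsn P σ g (σ.X0 + C.cfT q.1) q.2 • om P σ g χ.fn q.1 :=
    continuous_gs_om P σ hΨ χ (fun X hX => TCore383.nI_pos P σ hg (hball X hX)) fun X hX => by
      rw [Metric.mem_ball, dist_eq_norm] at hX
      exact (TCore383.contDiffAt_nI P σ hg (hball X hX)).continuousAt.continuousWithinAt
  refine ⟨hgo, ?_⟩
  have hφq : Continuous fun q : Tup C.kk × C.Zt σ.X0 =>
      φ (C.cf σ.X0 + ((q.1 : Cfg N) + q.2)) := hφ.comp (continuous_const.add (continuous_sum σ))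
  have hkap : Continuous fun q : Tup C.kk × C.Zt σ.X0 => kap σ.r (‖(q.2 : Cfg N)‖ ^ 2) :=
    (contDiff_kap σ.r).continuous.comp
      (((continuous_subtype_val.comp continuous_snd).norm).pow 2)
  have hex : Continuous fun q : Tup C.kk × C.Zt σ.X0 => e (C.cfT (q.1 : Cfg N)) :=
    he.continuous.comp (C.cfT.continuous.comp (continuous_subtype_val.comp continuous_fst))
  -- far away
  have hfar1 : ∀ q : Tup C.kk × C.Zt σ.X0, ρ < ‖(q.1 : Cfg N) + q.2‖ →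
      (kap σ.r (‖(q.2 : Cfg N)‖ ^ 2) * e (C.cfT (q.1 : Cfg N)) *
        gsn P σ g (σ.X0 + C.cfT q.1) q.2) • om P σ g χ.fn q.1 = 0 := by
    intro q hq
    by_contra h3
    have h4 : tau P σ g (ampE σ he χ).fn ((q.1 : Cfg N) + q.2) ≠ 0 := by
      rw [tau_ampE P σ g he χ q.1.2 (Zt_le_off C _ q.2.2)]
      exact h3
    obtain ⟨-, h5, h6, h7⟩ := TCore383.tau_ne P σ g (ampE σ he χ) h4
    have h8 := TCore383.norm_le_sum (C := C) ((q.1 : Cfg N) + q.2)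
    linarith
  -- the two integrals
  have e1 : ∫ x, ⟪Tgen P σ g (ampE σ he χ).fn x, φ x⟫_ℂ = ∫ q : Tup C.kk × C.Zt σ.X0,
      ⟪(kap σ.r (‖(q.2 : Cfg N)‖ ^ 2) * e (C.cfT (q.1 : Cfg N)) *
        gsn P σ g (σ.X0 + C.cfT q.1) q.2) • om P σ g χ.fn q.1,
        φ (C.cf σ.X0 + ((q.1 : Cfg N) + q.2))⟫_ℂ := by
    rw [pair_coord P σ hsg (ampE σ he χ) hTc hφ heq]
    refine integral_congr_ae (Eventually.of_forall fun q => ?_)
    simp only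
    rw [tau_ampE P σ g he χ q.1.2 (Zt_le_off C _ q.2.2)]
  have i1 : Integrable fun q : Tup C.kk × C.Zt σ.X0 =>
      ⟪(kap σ.r (‖(q.2 : Cfg N)‖ ^ 2) * e (C.cfT (q.1 : Cfg N)) *
        gsn P σ g (σ.X0 + C.cfT q.1) q.2) • om P σ g χ.fn q.1,
        φ (C.cf σ.X0 + ((q.1 : Cfg N) + q.2))⟫_ℂ := by
    have hc : Continuous fun q : Tup C.kk × C.Zt σ.X0 =>
        ⟪(kap σ.r (‖(q.2 : Cfg N)‖ ^ 2) * e (C.cfT (q.1 : Cfg N)) *
          gsn P σ g (σ.X0 + C.cfT q.1) q.2) • om P σ g χ.fn q.1,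
          φ (C.cf σ.X0 + ((q.1 : Cfg N) + q.2))⟫_ℂ := by
      simp only [mul_smul _ (gsn _ _ _ _ _)]
      exact ((hkap.mul hex).smul hgo).inner hφq
    exact hc.integrable_of_hasCompactSupport (hcs_ball (ρ := ρ) fun q hq => by
      rw [hfar1 q hq, inner_zero_left])
  have i2 : Integrable fun q : Tup C.kk × C.Zt σ.X0 =>
      ⟪gsn P σ g (σ.X0 + C.cfT q.1) q.2 • om P σ g χ.fn q.1,
        η q • φ (C.cf σ.X0 + ((q.1 : Cfg N) + q.2))⟫_ℂ :=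
    (hgo.inner (hη.smul hφq)).integrable_of_hasCompactSupport (hcs_ball (ρ := ρ) fun q hq => by
      rw [hsupp q hq, zero_smul, inner_zero_right])
  rw [e1, ← integral_sub i1 i2]
  refine integral_congr_ae (Eventually.of_forall fun q => ?_)
  simp only
  unfold trn
  by_cases hq : ‖(q.1 : Cfg N) + q.2‖ ≤ ρ
  · rw [Set.indicator_of_mem (by exact hq), sub_mul, sub_smul, inner_sub_left, mul_smul (η q),
      inner_rs (η q)]
  · have h1 : ρ < ‖(q.1 : Cfg N) + q.2‖ := not_le.1 hq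
    rw [hfar1 q h1, hsupp q h1, Set.indicator_of_notMem (by exact hq)]
    simp

/-- the small pairing at one coupling -/
theorem pair_small_g (P : TPack C M R G) (σ : Sl C) (χ : Amp M G σ)
    {η : Tup C.kk × C.Zt σ.X0 → ℝ} {e : Pos p → ℝ} (he : ContDiff ℝ ∞ e) (hη : Continuous η)
    {Lq B K1 K2 : ℝ} (hLq : 0 ≤ Lq) (hK1 : 0 ≤ K1) (hK2 : 0 ≤ K2)
    (hLip : ∀ q q', |η q - η q'| ≤ Lq * (‖q.1 - q'.1‖ + ‖q.2 - q'.2‖)) (hB : ∀ q, |η q| ≤ B)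
    (hηe : ∀ (X : Pos p) (h : C.cf X ∈ Tup C.kk), e X = η (⟨C.cf X, h⟩, 0))
    {g : ℝ} (hg : 0 < g)
    (hgo : Continuous fun q : Tup C.kk × C.Zt σ.X0 =>
      gsn P σ g (σ.X0 + C.cfT q.1) q.2 • om P σ g χ.fn q.1)
    (hm1 : ∀ X, ‖X - σ.X0‖ ≤ σ.r / 4 → ∫⁻ z : C.Zt σ.X0,
      ENNReal.ofReal (‖z‖ ^ 2 * gsn P σ g X z ^ 2) ≤ ENNReal.ofReal (K1 / g))
    (hm2 : ∫⁻ u : Tup C.kk, ‖om P σ g χ.fn u‖ₑ ^ 2 ≤ ENNReal.ofReal K2)
    {Φ : Tup C.kk × C.Zt σ.X0 → F} (hΦ : MemLp Φ 2 volume) :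
    ‖∫ q : Tup C.kk × C.Zt σ.X0,
      ⟪((kap σ.r (‖(q.2 : Cfg N)‖ ^ 2) * e (C.cfT (q.1 : Cfg N)) - η q) *
        gsn P σ g (σ.X0 + C.cfT q.1) q.2) • om P σ g χ.fn q.1, Φ q⟫_ℂ‖ ≤
      Real.sqrt (2 * (8 / σ.r * B + Lq) ^ 2 * (P.s g ^ 2 + K1 / g) * K2) *
        Real.sqrt (∫ q, ‖Φ q‖ ^ 2) := by
  have hr := σ.pos
  have hthc : Continuous fun q : Tup C.kk × C.Zt σ.X0 =>
      kap σ.r (‖(q.2 : Cfg N)‖ ^ 2) * e (C.cfT (q.1 : Cfg N)) - η q :=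
    (((contDiff_kap σ.r).continuous.comp
      (((continuous_subtype_val.comp continuous_snd).norm).pow 2)).mul
      (he.continuous.comp (C.cfT.continuous.comp
        (continuous_subtype_val.comp continuous_fst)))).sub hη
  refine pairing_small (ν := (volume : Measure (Tup C.kk)))
    (μ := (volume : Measure (C.Zt σ.X0)))
    (th := fun q => kap σ.r (‖(q.2 : Cfg N)‖ ^ 2) * e (C.cfT (q.1 : Cfg N)) - η q)
    (gs := fun q => gsn P σ g (σ.X0 + C.cfT q.1) q.2)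
    (om := fun u : Tup C.kk => om P σ g χ.fn u)
    (s := fun z => ‖z‖) (div_nonneg hK1 hg.le) hK2 ?_ hgo.aestronglyMeasurable ?_
    measurable_norm ?_ ?_ hm2 hΦ
  · intro u z hu
    exact th_le P σ χ hLq hLip hB hηe g u z hu
  · have h1 : Continuous fun q : Tup C.kk × C.Zt σ.X0 =>
        ((kap σ.r (‖(q.2 : Cfg N)‖ ^ 2) * e (C.cfT (q.1 : Cfg N)) - η q) *
        gsn P σ g (σ.X0 + C.cfT q.1) q.2) • om P σ g χ.fn q.1 := by
      simp only [mul_smul]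
      exact hthc.smul hgo
    exact h1.aestronglyMeasurable
  · intro u hu
    obtain ⟨-, h2, -⟩ := om_supp P σ g χ hu
    exact lint_gsn P σ (X := σ.X0 + C.cfT u) hg (by rw [add_sub_cancel_left]; linarith)
  · intro u hu
    obtain ⟨-, h2, -⟩ := om_supp P σ g χ hu
    exact hm1 (σ.X0 + C.cfT u) (by rw [add_sub_cancel_left]; exact h2.le)

/-- **Pairing of a core vector with a trial state.** -/
theorem pair_final {L Z : Submodule ℝ (Cfg N)} (P : TPack C M R G) (σ : Sl C)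
    (hL : L = Tup C.kk) (hZ : Z = C.Zt σ.X0) (χ : Amp M G σ) {η : L × Z → ℝ} {e : Pos p → ℝ}
    (he : ContDiff ℝ ∞ e) (hη : Continuous η) {Lp B ρ : ℝ}
    (hLip : ∀ q q', |η q - η q'| ≤ Lp * (‖q.1 - q'.1‖ + ‖q.2 - q'.2‖)) (hB : ∀ q, |η q| ≤ B)
    (hsupp : ∀ q : L × Z, ρ < ‖(q.1 : Cfg N) + q.2‖ → η q = 0) (hρ : ρ < σ.r)
    (hηe : ∀ (X : Pos p) (h : C.cf X ∈ L), e X = η (⟨C.cf X, h⟩, 0))
    (hcont : ∀ᶠ g in atTop, Continuous (Tgen P σ g (ampE σ he χ).fn))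
    (hmom : ∃ K : ℝ, ∀ᶠ g in atTop, ∀ X, ‖X - σ.X0‖ ≤ σ.r / 4 →
      ∫⁻ z : C.Zt σ.X0, ENNReal.ofReal (‖z‖ ^ 2 * gsn P σ g X z ^ 2) ≤ ENNReal.ofReal (K / g))
    (hom : ∃ K : ℝ, ∀ᶠ g in atTop,
      ∫⁻ u : Tup C.kk, ‖om P σ g χ.fn u‖ₑ ^ 2 ≤ ENNReal.ofReal K) :
    ∃ ε : ℝ → ℝ, Tendsto ε atTop (𝓝 0) ∧ ∀ᶠ g in atTop, ∀ φ : Cfg N → F, Continuous φ →
      (∀ h x, φ (b.act h x) = R.ρ h (φ x)) → MemLp φ 2 volume →
      ‖(∫ x, ⟪Tgen P σ g (ampE σ he χ).fn x, φ x⟫_ℂ) -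
        ∫ q : L × Z, ⟪gsn P σ g (σ.X0 + C.cfT q.1) q.2 • om P σ g χ.fn q.1,
          η q • φ (C.cf σ.X0 + ((q.1 : Cfg N) + q.2))⟫_ℂ‖ ≤
        ε g * Real.sqrt (∫ x, ‖φ x‖ ^ 2) := by
  subst hL hZ
  obtain ⟨K1, hK1⟩ := hmom
  obtain ⟨K2, hK2⟩ := hom
  have hr := σ.pos
  have hρ0 : 0 ≤ max (3 * σ.r / 4) ρ := le_max_of_le_left (by linarith)
  have hρr : max (3 * σ.r / 4) ρ < σ.r := max_lt (by linarith) hρ
  obtain ⟨K3, hK30, hK3⟩ := slice_L2 R σ hρ0 hρr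
  have hLip' : ∀ q q', |η q - η q'| ≤ max Lp 0 * (‖q.1 - q'.1‖ + ‖q.2 - q'.2‖) := fun q q' =>
    (hLip q q').trans (mul_le_mul_of_nonneg_right (le_max_left _ _) (by positivity))
  refine ⟨fun g => Real.sqrt (2 * (8 / σ.r * B + max Lp 0) ^ 2 *
    (P.s g ^ 2 + max K1 0 / g) * max K2 0) * Real.sqrt K3, ?_, ?_⟩
  · have h1 : Tendsto (fun g : ℝ => max K1 0 / g) atTop (𝓝 0) :=
      tendsto_const_nhds.div_atTop tendsto_id
    have h2 : Tendsto (fun g => P.s g ^ 2 + max K1 0 / g) atTop (𝓝 (0 ^ 2 + 0)) :=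
      (P.s_lim.pow 2).add h1
    have h3 : Tendsto (fun g => Real.sqrt (2 * (8 / σ.r * B + max Lp 0) ^ 2 *
        (P.s g ^ 2 + max K1 0 / g) * max K2 0) * Real.sqrt K3) atTop
        (𝓝 (Real.sqrt (2 * (8 / σ.r * B + max Lp 0) ^ 2 *
        (0 ^ 2 + 0) * max K2 0) * Real.sqrt K3)) :=
      (((h2.const_mul _).mul_const _).sqrt).mul_const _
    simpa using h3
  have hs : ∀ᶠ g in atTop, P.s g < σ.r / 4 :=
    P.s_lim.eventually (isOpen_Iio.mem_nhds (by simp only [Set.mem_Iio]; linarith))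
  filter_upwards [P.Psi_smooth, hs, eventually_gt_atTop 0, hK1, hK2, hcont]
    with g hΨ hsg hg hm1 hm2 hTc φ hφ heq hφ2
  obtain ⟨hgo, e2⟩ := pair_diff P σ χ he hη (le_max_left _ ρ)
    (fun q hq => hsupp q ((le_max_right _ _).trans_lt hq)) hg hΨ hsg hTc hφ heq
  obtain ⟨hΦ2, l3⟩ := memLp_trn σ hK30 hφ hφ2 (hK3 φ hφ heq)
  have key := pair_small_g P σ χ he hη (le_max_right Lp 0) (le_max_right K1 0)
    (le_max_right K2 0) hLip' hB hηe hg hgo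
    (fun X hX => (hm1 X hX).trans
      (ENNReal.ofReal_le_ofReal (div_le_div_of_nonneg_right (le_max_left _ _) hg.le)))
    (hm2.trans (ENNReal.ofReal_le_ofReal (le_max_left _ _))) hΦ2
  rw [e2]
  refine key.trans ?_
  rw [mul_assoc (Real.sqrt _) (Real.sqrt _)]
  refine mul_le_mul_of_nonneg_left ?_ (Real.sqrt_nonneg _)
  rw [← Real.sqrt_mul hK30]
  exact Real.sqrt_le_sqrt l3

end Crest.Agent.R330.PairE424

end
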