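import Crest.Agent.R330.PairB_547

/-!
# Row 330, S8-PAIR (P2/P3): exact expansion of `QdP (a • ψ)` (helper547)

`τ (p,z) = a (p,z) • ψ p`, potential `W x = g Wq(x,x) - m Wl x`.
-/

set_option autoImplicit false
set_option linter.unusedSectionVars false

open MeasureTheory Filter Topology
open scoped ContDiff InnerProductSpace

noncomputable section

namespace Crest.Agent.R330.PairE547

open Crest.Agent.R330.Frame839 Crest.Agent.R330.IBP837 Crest.Agent.R330.PairA547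
  Crest.Agent.R330.PairB547

variable {V E : Type*} [NormedAddCommGroup V] [InnerProductSpace ℝ V] [FiniteDimensional ℝ V]
  [NormedAddCommGroup E] [InnerProductSpace ℝ E] [FiniteDimensional ℝ E]
  {F : Type*} [NormedAddCommGroup F] [InnerProductSpace ℂ F] [FiniteDimensional ℂ F]
  {ι κ η : Type*} [Fintype ι] [Fintype κ] [Fintype η]

variable {A : V →L[ℝ] E →L[ℝ] E} {c : E} {L Z : Submodule ℝ E}

/-- The potential. -/
def Wp (Wq : E →ₗ[ℝ] E →ₗ[ℝ] (F →ₗ[ℂ] F)) (Wl : E →ₗ[ℝ] (F →ₗ[ℂ] F)) (g m : ℝ) (x : E) :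
    F →ₗ[ℂ] F := g • Wq x x - m • Wl x

theorem Wp_apply (Wq : E →ₗ[ℝ] E →ₗ[ℝ] (F →ₗ[ℂ] F)) (Wl : E →ₗ[ℝ] (F →ₗ[ℂ] F)) (g m : ℝ)
    (x : E) (f : F) : Wp Wq Wl g m x f = g • Wq x x f - m • Wl x f := rfl

/-- light charge on functions of `p ∈ L` -/
def LC (c : E) (Θ : E →ₗ[ℝ] (F →ₗ[ℂ] F)) (Wq : E →ₗ[ℝ] E →ₗ[ℝ] (F →ₗ[ℂ] F))
    (Wl : E →ₗ[ℝ] (F →ₗ[ℂ] F)) (u : OrthonormalBasis ι ℝ L) (g m : ℝ) (ψ : L → F) (p : L) : F :=
  (∑ s, (-Complex.I) • Θ (u s) (fderiv ℝ ψ p (u s))) + Wp Wq Wl g m (c + p) (ψ p)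

variable (A c L Z) in
/-- transverse component of the horizontal remainder at the centre point `c + X` -/
def nZ (PX : L →ₗ[ℝ] E) (t : Tn A c) (p : L) : Z :=
  Z.orthogonalProjectionOnto (nn A c (c + PX p) t)

section defs

variable (A c Z) (Θ : E →ₗ[ℝ] (F →ₗ[ℂ] F)) (Wq : E →ₗ[ℝ] E →ₗ[ℝ] (F →ₗ[ℂ] F))
  (Wl : E →ₗ[ℝ] (F →ₗ[ℂ] F)) (Bf : V →ₗ[ℝ] (F →ₗ[ℝ] F)) (PX : L →ₗ[ℝ] E)
  (eT : OrthonormalBasis η ℝ (Tn A c)) (u : OrthonormalBasis ι ℝ L) (v : OrthonormalBasis κ ℝ Z)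

/-- heavy main part at the centre point -/
def HM (g : ℝ) (a : L × Z → ℝ) (ψ : L → F) (x : L × Z) : F :=
  (∑ s, (-Complex.I) • Θ (v s) (fderiv ℝ a x (0, v s) • ψ x.1)) +
    (∑ t, Complex.I • Θ (eT t) (fderiv ℝ a x (0, nZ A c L Z PX (eT t) x.1) • ψ x.1)) +
    (2 * g * a x) • Wq (c + PX x.1) x.2 (ψ x.1)

variable {A c Z} in
/-- derivative of the amplitude along `L` -/
def EV (a : L × Z → ℝ) (ψ : L → F) (x : L × Z) : F :=
  ∑ s, (-Complex.I) • Θ (u s) (fderiv ℝ a x (u s, 0) • ψ x.1)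

/-- mixed part, evaluated with the gauge frame at `c + y` -/
def MX (g : ℝ) (y : E) (z : Z) (f : F) : F :=
  (∑ t, (-Complex.I) • Bf (om A c (c + y) (eT t)) (Θ (eT t) f)) + g • Wq z z f

variable {A c Z} in
/-- odd part -/
def OD (h : Dec A c L Z) (g m : ℝ) (a : L × Z → ℝ) (ψ : L → F) (x : L × Z) : F :=
  (2 * g * a x) • Wq (x.1 - PX x.1) x.2 (ψ x.1) - (m * a x) • Wl x.2 (ψ x.1) +
    ∑ t, Complex.I • Θ (eT t) ((dvP h eT u v t x * a x) • ψ x.1 +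
      fderiv ℝ a x (nP A c L Z (eT t) x - (0, nZ A c L Z PX (eT t) x.1)) • ψ x.1 +
      a x • fderiv ℝ ψ x.1 (nP A c L Z (eT t) x).1)

end defs

theorem fderiv_tau {a : L × Z → ℝ} {ψ : L → F} {x : L × Z} (ha : DifferentiableAt ℝ a x)
    (hψ : DifferentiableAt ℝ ψ x.1) (w : L × Z) :
    fderiv ℝ (fun x : L × Z => a x • ψ x.1) x w =
      fderiv ℝ a x w • ψ x.1 + a x • fderiv ℝ ψ x.1 w.1 := by
  have h1 : HasFDerivAt (fun x : L × Z => ψ x.1)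
      ((fderiv ℝ ψ x.1).comp (ContinuousLinearMap.fst ℝ L Z)) x :=
    hψ.hasFDerivAt.comp x hasFDerivAt_fst
  have h2 := ha.hasFDerivAt.fun_smul h1
  rw [h2.fderiv]
  simp only [ContinuousLinearMap.add_apply, ContinuousLinearMap.smul_apply,
    ContinuousLinearMap.smulRight_apply, ContinuousLinearMap.comp_apply,
    ContinuousLinearMap.coe_fst']
  rw [add_comm]

theorem differentiable_tau {a : L × Z → ℝ} {ψ : L → F} {x : L × Z}
    (ha : DifferentiableAt ℝ a x) (hψ : DifferentiableAt ℝ ψ x.1) :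
    DifferentiableAt ℝ (fun x : L × Z => a x • ψ x.1) x := by
  have h1 : HasFDerivAt (fun x : L × Z => ψ x.1)
      ((fderiv ℝ ψ x.1).comp (ContinuousLinearMap.fst ℝ L Z)) x :=
    hψ.hasFDerivAt.comp x hasFDerivAt_fst
  exact (ha.hasFDerivAt.fun_smul h1).differentiableAt

theorem Wp_expand {Wq : E →ₗ[ℝ] E →ₗ[ℝ] (F →ₗ[ℂ] F)} (hsym : ∀ x y, Wq x y = Wq y x)
    (Wl : E →ₗ[ℝ] (F →ₗ[ℂ] F)) (g m r' : ℝ) (X Y z : E) (f : F) :
    Wp Wq Wl g m (X + Y + z) (r' • f) = r' • Wp Wq Wl g m (X + Y) f +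
      (2 * g * r') • Wq X z f + (2 * g * r') • Wq Y z f + r' • (g • Wq z z f) -
      (m * r') • Wl z f := by
  simp only [Wp_apply, map_add, LinearMap.add_apply, map_rsmul, hsym z X, hsym z Y, hsym Y X]
  module

/-- **Exact expansion.** -/
theorem expand (h : Dec A c L Z) (Θ : E →ₗ[ℝ] (F →ₗ[ℂ] F))
    {Wq : E →ₗ[ℝ] E →ₗ[ℝ] (F →ₗ[ℂ] F)} (hsym : ∀ x y, Wq x y = Wq y x)
    (Wl : E →ₗ[ℝ] (F →ₗ[ℂ] F)) (Bf : V →ₗ[ℝ] (F →ₗ[ℝ] F)) (PX : L →ₗ[ℝ] E)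
    (eT : OrthonormalBasis η ℝ (Tn A c)) (u : OrthonormalBasis ι ℝ L)
    (v : OrthonormalBasis κ ℝ Z) (g m : ℝ) {a : L × Z → ℝ} {ψ : L → F} {x : L × Z}
    (ha : DifferentiableAt ℝ a x) (hψ : DifferentiableAt ℝ ψ x.1) :
    QdP h Θ (Wp Wq Wl g m) Bf eT u v (fun x : L × Z => a x • ψ x.1) x =
      a x • LC c Θ Wq Wl u g m ψ x.1 + HM A c Z Θ Wq PX eT v g a ψ x + EV Θ u a ψ x +
      a x • MX A c Z Θ Wq Bf eT g (x.1 + x.2) x.2 (ψ x.1) +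
      OD Θ Wq Wl PX eT u v h g m a ψ x := by
  unfold QdP LC HM EV MX OD
  simp only [fderiv_tau ha hψ, map_zero, smul_zero, add_zero]
  have e1 : (c + (x.1 : E) + (x.2 : E)) =
      (c + PX x.1) + ((x.1 : E) - PX x.1) + (x.2 : E) := by abel
  have e2 : (c + PX x.1) + ((x.1 : E) - PX x.1) = c + (x.1 : E) := by abel
  have e3 : c + ((x.1 : E) + (x.2 : E)) = c + (x.1 : E) + (x.2 : E) := by abel
  have e4 : Wp Wq Wl g m (c + (x.1 : E) + (x.2 : E)) (a x • ψ x.1) =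
      a x • Wp Wq Wl g m (c + (x.1 : E)) (ψ x.1) +
      (2 * g * a x) • Wq (c + PX x.1) x.2 (ψ x.1) +
      (2 * g * a x) • Wq ((x.1 : E) - PX x.1) x.2 (ψ x.1) +
      a x • (g • Wq x.2 x.2 (ψ x.1)) - (m * a x) • Wl x.2 (ψ x.1) := by
    conv_lhs => rw [e1]
    rw [Wp_expand hsym, e2]
  rw [e4, e3]
  have e5 : (∑ s, (-Complex.I) • Θ (u s) (fderiv ℝ a x (u s, 0) • ψ x.1 +
      a x • fderiv ℝ ψ x.1 (u s))) =
      (∑ s, (-Complex.I) • Θ (u s) (fderiv ℝ a x (u s, 0) • ψ x.1)) +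
      a x • ∑ s, (-Complex.I) • Θ (u s) (fderiv ℝ ψ x.1 (u s)) := by
    rw [Finset.smul_sum, ← Finset.sum_add_distrib]
    refine Finset.sum_congr rfl fun s _ => ?_
    rw [map_add, map_rsmul, map_rsmul, smul_add, smul_comm (-Complex.I) (a x)]
  have e6 : (∑ t, (-Complex.I) • Bf (om A c (c + (x.1 : E) + (x.2 : E)) (eT t))
      (Θ (eT t) (a x • ψ x.1))) =
      a x • ∑ t, (-Complex.I) • Bf (om A c (c + (x.1 : E) + (x.2 : E)) (eT t))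
        (Θ (eT t) (ψ x.1)) := by
    rw [Finset.smul_sum]
    refine Finset.sum_congr rfl fun t _ => ?_
    rw [map_rsmul, map_smul, smul_comm (-Complex.I) (a x)]
  have e7 : (∑ t, Complex.I • Θ (eT t) (dvP h eT u v t x • (a x • ψ x.1) +
      (fderiv ℝ a x (nP A c L Z (eT t) x) • ψ x.1 +
        a x • fderiv ℝ ψ x.1 (nP A c L Z (eT t) x).1))) =
      (∑ t, Complex.I • Θ (eT t) (fderiv ℝ a x (0, nZ A c L Z PX (eT t) x.1) • ψ x.1)) +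
      ∑ t, Complex.I • Θ (eT t) ((dvP h eT u v t x * a x) • ψ x.1 +
        fderiv ℝ a x (nP A c L Z (eT t) x - (0, nZ A c L Z PX (eT t) x.1)) • ψ x.1 +
        a x • fderiv ℝ ψ x.1 (nP A c L Z (eT t) x).1) := by
    rw [← Finset.sum_add_distrib]
    refine Finset.sum_congr rfl fun t _ => ?_
    rw [← smul_add, ← map_add]
    congr 2
    rw [map_sub]
    module
  rw [e5, e6, e7]
  module

end Crest.Agent.R330.PairE547

end
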