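import Crest.Agent.R330.PairA_547

/-!
# Row 330, S8-PAIR: expansion of the formal adjoint `Qd` (helper839)

On top of `PairA_547` (abstract `V, E, A, c` of `Frame_839`).

* `fderiv_nn_bound`, `abs_fderiv_cf_le`, `dv`, `abs_dv_le` : derivative and divergence of the
  horizontal remainder.
* `Qd_eq` : `Qd τ u = Σ_n (-i) Θ(e_n) Dτ(u) e_n + W (c+u) τ + Σ_t (-i) Bf (om_t) Θ(t) τ
  + Σ_t i Θ(t) Dτ(u)[nn_t] + Σ_t i (div nn_t) Θ(t) τ`.
* `obl` : `Σ_t ⟪v, nn_X(t)⟫ Θ(t) = -Θ(P_T v)` if `v` is orthogonal to `[V, X]`; `obl_full` : the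
  transverse gradient plus the oblique term give `Θ(v)`.
-/

set_option autoImplicit false
set_option linter.unusedSectionVars false

open MeasureTheory Filter Topology
open scoped ContDiff InnerProductSpace

noncomputable section

namespace Crest.Agent.R330.PairE839

open Crest.Agent.R330.Frame839 Crest.Agent.R330.IBP837 Crest.Agent.R330.PairA547

variable {V E : Type*} [NormedAddCommGroup V] [InnerProductSpace ℝ V] [FiniteDimensional ℝ V]
  [NormedAddCommGroup E] [InnerProductSpace ℝ E] [FiniteDimensional ℝ E]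
  {F : Type*} [NormedAddCommGroup F] [InnerProductSpace ℂ F] [FiniteDimensional ℂ F]
  {ι κ : Type*} [Fintype ι] [Fintype κ]
  {A : V →L[ℝ] E →L[ℝ] E} {c : E} {r B : ℝ}

/-! ## Derivatives of the horizontal remainder -/

theorem ball_le (hB0 : 0 ≤ B) {u v : (Tn A c)ᗮ} (hu : B * ‖u‖ < r / 2)
    (hv : v ∈ Metric.ball u ((r / 2 - B * ‖u‖) / (B + 1))) : B * ‖v‖ ≤ r / 2 := by
  have h1 : ‖v‖ ≤ ‖u‖ + (r / 2 - B * ‖u‖) / (B + 1) := by
    have h2 : ‖v - u‖ < (r / 2 - B * ‖u‖) / (B + 1) := by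
      rwa [← dist_eq_norm]
    have h3 := norm_sub_norm_le v u
    linarith
  have h4 : 0 ≤ (r / 2 - B * ‖u‖) / (B + 1) := by
    have : 0 < r / 2 - B * ‖u‖ := by linarith
    positivity
  have h5 : (B + 1) * ((r / 2 - B * ‖u‖) / (B + 1)) = r / 2 - B * ‖u‖ := by
    field_simp
  calc B * ‖v‖ ≤ B * (‖u‖ + (r / 2 - B * ‖u‖) / (B + 1)) := by gcongr
    _ ≤ B * ‖u‖ + (B + 1) * ((r / 2 - B * ‖u‖) / (B + 1)) := by nlinarith
    _ = r / 2 := by rw [h5]; ring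

theorem hx_of {u : (Tn A c)ᗮ} (hu : B * ‖u‖ ≤ r / 2) : B * ‖c + (u : E) - c‖ ≤ r / 2 := by
  rw [add_sub_cancel_left]
  exact hu

/-- The derivative of `nn_t` along the slice. -/
theorem fderiv_nn_bound (hr0 : 0 < r) (hr : GapAt A c r) (hB : ActBound A B) (hB0 : 0 ≤ B)
    (t : Tn A c) {u : (Tn A c)ᗮ} (hu : B * ‖u‖ < r / 2) :
    ‖fderiv ℝ (fun v : (Tn A c)ᗮ => nn A c (c + (v : E)) t) u‖ ≤ 4 * B / r * ‖t‖ := by
  have hd : 0 < (r / 2 - B * ‖u‖) / (B + 1) := by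
    have : 0 < r / 2 - B * ‖u‖ := by linarith
    positivity
  refine norm_fderiv_le_of_lip' ℝ (by positivity) ?_
  filter_upwards [Metric.ball_mem_nhds u hd] with v hv
  have h := nn_sub_bound hr0 hr hB hB0 (hx_of (ball_le hB0 hu hv)) (hx_of hu.le) t
  refine h.trans (le_of_eq ?_)
  have h2 : c + (v : E) - (c + (u : E)) = ((v - u : (Tn A c)ᗮ) : E) := by
    rw [Submodule.coe_sub]
    abel
  rw [h2]
  have h3 : ‖((v - u : (Tn A c)ᗮ) : E)‖ = ‖v - u‖ := rfl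
  rw [h3]
  ring

theorem differentiableAt_nn (hr0 : 0 < r) (hr : GapAt A c r) (hB : ActBound A B)
    (t : Tn A c) {u : (Tn A c)ᗮ} (hu : B * ‖u‖ ≤ r / 2) :
    DifferentiableAt ℝ (fun v : (Tn A c)ᗮ => nn A c (c + (v : E)) t) u := by
  have hx := hx_of hu
  have hlin : ContDiff ℝ ∞ (fun v : (Tn A c)ᗮ => c + (v : E)) :=
    contDiff_const.add ((Tn A c)ᗮ.subtypeL).contDiff
  have h1 : ContDiffAt ℝ ∞ (fun v : (Tn A c)ᗮ => om A c (c + (v : E))) u := by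
    have h2 := contDiffAt_om (A := A) (c := c) hr0 hr hB hx
    exact ContDiffAt.comp (g := fun x => om A c x) u h2 hlin.contDiffAt
  have h5 : ContDiffAt ℝ ∞ (fun v : (Tn A c)ᗮ => om A c (c + (v : E)) t) u :=
    h1.clm_apply contDiffAt_const
  have h6 : ContDiffAt ℝ ∞ (fun v : (Tn A c)ᗮ =>
      ((kc A c)ᗮ.subtypeL (om A c (c + (v : E)) t))) u :=
    ContDiffAt.comp u ((kc A c)ᗮ.subtypeL.contDiff.contDiffAt) h5
  have h4 : ContDiffAt ℝ ∞ (fun v : (Tn A c)ᗮ =>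
      A ((om A c (c + (v : E)) t : (kc A c)ᗮ) : V)) u :=
    ContDiffAt.comp u A.contDiff.contDiffAt h6
  have h7 : ContDiffAt ℝ ∞ (fun v : (Tn A c)ᗮ => nn A c (c + (v : E)) t) u := by
    unfold nn
    exact (h4.clm_apply hlin.contDiffAt).sub contDiffAt_const
  exact h7.differentiableAt (by simp)

theorem fderiv_cf (hr0 : 0 < r) (hr : GapAt A c r) (hB : ActBound A B)
    (eT : OrthonormalBasis ι ℝ (Tn A c)) (eN : OrthonormalBasis κ ℝ (Tn A c)ᗮ) (n : κ) (t : ι)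
    {u : (Tn A c)ᗮ} (hu : B * ‖u‖ ≤ r / 2) (v : (Tn A c)ᗮ) :
    fderiv ℝ (cf A c eT eN n t) u v =
      ⟪(eN n : E), fderiv ℝ (fun v : (Tn A c)ᗮ => nn A c (c + (v : E)) (eT t)) u v⟫_ℝ := by
  have hd := (differentiableAt_nn hr0 hr hB (eT t) hu).hasFDerivAt
  have h1 : HasFDerivAt (cf A c eT eN n t)
      ((innerSL ℝ (eN n : E)).comp
        (fderiv ℝ (fun v : (Tn A c)ᗮ => nn A c (c + (v : E)) (eT t)) u)) u :=
    (innerSL ℝ (eN n : E)).hasFDerivAt.comp u hd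
  rw [h1.fderiv]
  rfl

/-- The divergence of `nn_t` along the slice. -/
def dv (A : V →L[ℝ] E →L[ℝ] E) (c : E) (eT : OrthonormalBasis ι ℝ (Tn A c))
    (eN : OrthonormalBasis κ ℝ (Tn A c)ᗮ) (t : ι) (u : (Tn A c)ᗮ) : ℝ :=
  ∑ n, fderiv ℝ (cf A c eT eN n t) u (eN n)

theorem abs_fderiv_cf_le (hr0 : 0 < r) (hr : GapAt A c r) (hB : ActBound A B) (hB0 : 0 ≤ B)
    (eT : OrthonormalBasis ι ℝ (Tn A c)) (eN : OrthonormalBasis κ ℝ (Tn A c)ᗮ) (n : κ) (t : ι)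
    {u : (Tn A c)ᗮ} (hu : B * ‖u‖ < r / 2) (v : (Tn A c)ᗮ) :
    |fderiv ℝ (cf A c eT eN n t) u v| ≤ 4 * B / r * ‖v‖ := by
  rw [fderiv_cf hr0 hr hB eT eN n t hu.le]
  refine (abs_real_inner_le_norm _ _).trans ?_
  have h1 : ‖((eN n : (Tn A c)ᗮ) : E)‖ = 1 := eN.orthonormal.1 n
  have h2 : ‖eT t‖ = 1 := eT.orthonormal.1 t
  have h3 := fderiv_nn_bound hr0 hr hB hB0 (eT t) hu
  rw [h2, mul_one] at h3
  rw [h1, one_mul]
  exact (ContinuousLinearMap.le_opNorm _ _).trans (by gcongr)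

theorem abs_dv_le (hr0 : 0 < r) (hr : GapAt A c r) (hB : ActBound A B) (hB0 : 0 ≤ B)
    (eT : OrthonormalBasis ι ℝ (Tn A c)) (eN : OrthonormalBasis κ ℝ (Tn A c)ᗮ) (t : ι)
    {u : (Tn A c)ᗮ} (hu : B * ‖u‖ < r / 2) :
    |dv A c eT eN t u| ≤ 4 * B / r * Fintype.card κ := by
  unfold dv
  refine (Finset.abs_sum_le_sum_abs _ _).trans ?_
  have h : ∀ n, |fderiv ℝ (cf A c eT eN n t) u (eN n)| ≤ 4 * B / r := by
    intro n
    refine (abs_fderiv_cf_le hr0 hr hB hB0 eT eN n t hu (eN n)).trans (le_of_eq ?_)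
    rw [eN.orthonormal.1 n, mul_one]
  refine (Finset.sum_le_sum fun n _ => h n).trans (le_of_eq ?_)
  rw [Finset.sum_const, Finset.card_univ, nsmul_eq_mul]
  ring

/-! ## The expansion -/

/-- `nn_t` as a vector of the normal space. -/
def nv (A : V →L[ℝ] E →L[ℝ] E) (c : E) (u : (Tn A c)ᗮ) (t : Tn A c) : (Tn A c)ᗮ :=
  (Tn A c)ᗮ.orthogonalProjectionOnto (nn A c (c + (u : E)) t)

theorem nv_coe (hr0 : 0 < r) (hr : GapAt A c r) (hB : ActBound A B) (t : Tn A c)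
    {u : (Tn A c)ᗮ} (hu : B * ‖u‖ ≤ r / 2) :
    ((nv A c u t : (Tn A c)ᗮ) : E) = nn A c (c + (u : E)) t := by
  have h : nn A c (c + (u : E)) t ∈ (Tn A c)ᗮ := nn_mem hr0 hr hB (hx_of hu) t
  exact Submodule.starProjection_eq_self_iff.2 h

theorem cf_sum (eT : OrthonormalBasis ι ℝ (Tn A c)) (eN : OrthonormalBasis κ ℝ (Tn A c)ᗮ)
    (t : ι) (u : (Tn A c)ᗮ) : ∑ n, cf A c eT eN n t u • eN n = nv A c u (eT t) := by
  have h := eN.sum_repr' (nv A c u (eT t))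
  rw [← h]
  refine Finset.sum_congr rfl fun n _ => ?_
  congr 1
  unfold cf nv
  rw [Submodule.inner_orthogonalProjectionOnto_eq_of_mem_left]

theorem Qd_eq (hr0 : 0 < r) (hr : GapAt A c r) (hB : ActBound A B)
    (Θ : E →ₗ[ℝ] (F →ₗ[ℂ] F)) (W : E → (F →ₗ[ℂ] F)) (Bf : V →ₗ[ℝ] (F →ₗ[ℝ] F))
    (eT : OrthonormalBasis ι ℝ (Tn A c)) (eN : OrthonormalBasis κ ℝ (Tn A c)ᗮ)
    {τ : (Tn A c)ᗮ → F} {u : (Tn A c)ᗮ} (hτ : DifferentiableAt ℝ τ u)
    (hu : B * ‖u‖ ≤ r / 2) :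
    Qd A c Θ W Bf eT eN τ u =
      (∑ n, (-Complex.I) • Θ (eN n) (fderiv ℝ τ u (eN n))) + W (c + u) (τ u) +
      (∑ t, (-Complex.I) • Bf (om A c (c + u) (eT t)) (Θ (eT t) (τ u))) +
      (∑ t, Complex.I • Θ (eT t) (fderiv ℝ τ u (nv A c u (eT t)))) +
      ∑ t, Complex.I • (dv A c eT eN t u • Θ (eT t) (τ u)) := by
  have h1 : ∀ n t, fderiv ℝ (fun v => cf A c eT eN n t v • τ v) u (eN n) =
      cf A c eT eN n t u • fderiv ℝ τ u (eN n) +
        fderiv ℝ (cf A c eT eN n t) u (eN n) • τ u := by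
    intro n t
    have hc : DifferentiableAt ℝ (cf A c eT eN n t) u :=
      (contDiffAt_cf hr0 hr hB eT eN n t hu).differentiableAt (by simp)
    rw [(hc.hasFDerivAt.fun_smul hτ.hasFDerivAt).fderiv]
    rfl
  have h2 : ∀ t, fderiv ℝ τ u (nv A c u (eT t)) =
      ∑ n, cf A c eT eN n t u • fderiv ℝ τ u (eN n) := by
    intro t
    rw [← cf_sum eT eN t u, map_sum]
    exact Finset.sum_congr rfl fun n _ => map_smul _ _ _
  unfold Qd dv
  rw [Finset.sum_comm (s := (Finset.univ : Finset κ)) (t := (Finset.univ : Finset ι))]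
  simp only [h1, h2, map_add, map_sum, map_rsmul, smul_add, Finset.smul_sum, Finset.sum_smul,
    Finset.sum_add_distrib]
  abel

/-! ## The oblique term -/

/-- If `v` is orthogonal to `[V, X]` then `Σ_t ⟪v, nn_X(t)⟫ Θ(t) = -Θ(P_T v)`. -/
theorem obl (Θ : E →ₗ[ℝ] (F →ₗ[ℂ] F)) (eT : OrthonormalBasis ι ℝ (Tn A c)) {v X : E}
    (hv : ∀ w, ⟪v, A w X⟫_ℝ = 0) :
    ∑ t, ⟪v, nn A c X (eT t)⟫_ℝ • Θ (eT t) = -Θ ((Tn A c).starProjection v) := by
  have h1 : ∀ t, ⟪v, nn A c X (eT t)⟫_ℝ = -⟪((eT t : Tn A c) : E), v⟫_ℝ := by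
    intro t
    unfold nn
    rw [inner_sub_right, hv, zero_sub, real_inner_comm]
  have h2 : (Tn A c).starProjection v = ∑ t, ⟪((eT t : Tn A c) : E), v⟫_ℝ • (eT t : E) := by
    have h3 := eT.sum_repr' ((Tn A c).orthogonalProjectionOnto v)
    have h4 := congrArg (fun w : Tn A c => (w : E)) h3
    simp only [Submodule.coe_sum, Submodule.coe_smul] at h4
    rw [Submodule.starProjection_apply, ← h4]
    refine Finset.sum_congr rfl fun t _ => ?_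
    rw [Submodule.inner_orthogonalProjectionOnto_eq_of_mem_left]
  rw [h2, map_sum, ← Finset.sum_neg_distrib]
  refine Finset.sum_congr rfl fun t _ => ?_
  rw [h1, map_smul, neg_smul]

/-- Transverse gradient plus oblique term: `Θ(P_Z v) - Σ_t ⟪v, nn_X(t)⟫ Θ(t) = Θ(v)` for
`v ∈ T ⊕ Z` orthogonal to `[V, X]`. -/
theorem obl_full (Θ : E →ₗ[ℝ] (F →ₗ[ℂ] F)) (eT : OrthonormalBasis ι ℝ (Tn A c)) {v X : E}
    {Z : Submodule ℝ E} {σ : Type*} [Fintype σ] (z : OrthonormalBasis σ ℝ Z)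
    (hv : ∀ w, ⟪v, A w X⟫_ℝ = 0)
    (hTZ : v = (Tn A c).starProjection v + Z.starProjection v) :
    ∑ s, ⟪v, (z s : E)⟫_ℝ • Θ (z s) - ∑ t, ⟪v, nn A c X (eT t)⟫_ℝ • Θ (eT t) = Θ v := by
  rw [obl Θ eT hv]
  have h2 : Z.starProjection v = ∑ s, ⟪v, (z s : E)⟫_ℝ • (z s : E) := by
    have h3 := z.sum_repr' (Z.orthogonalProjectionOnto v)
    have h4 := congrArg (fun w : Z => (w : E)) h3
    simp only [Submodule.coe_sum, Submodule.coe_smul] at h4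
    rw [Submodule.starProjection_apply, ← h4]
    refine Finset.sum_congr rfl fun t _ => ?_
    rw [Submodule.inner_orthogonalProjectionOnto_eq_of_mem_left, real_inner_comm]
  have h5 : ∑ s, ⟪v, (z s : E)⟫_ℝ • Θ (z s) = Θ (Z.starProjection v) := by
    rw [h2, map_sum]
    exact Finset.sum_congr rfl fun s _ => (map_smul _ _ _).symm
  rw [h5, sub_neg_eq_add, add_comm, ← map_add, ← hTZ]

end Crest.Agent.R330.PairE839

end
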