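import Crest.Agent.R330.PairI_424
import Crest.Agent.R330.HQ_8X_998

/-!
# Row 330, S9-PAIRING (helper424): (I4) for the cut-offs `ϑ (X) rad s`

`i4In_rad`, `i4In_chart` : `LocD8.I4In P σ ρ (cutm σ ϑ (HQ998.rad s)) m` for `s < σ.r / 4`.
-/

set_option autoImplicit false
set_option linter.unusedSectionVars false

open MeasureTheory Filter Topology Crest.MathPhysics.MatrixQM
open scoped ContDiff InnerProductSpace ENNReal

noncomputable section

namespace Crest.Agent.R330.PairI424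

open Crest.Agent.R330.Defs478 Crest.Agent.R330.LS839
  Crest.Agent.R330.Bind6839 Crest.Agent.R330.TDef414 Crest.Agent.R330.LocB8
  Crest.Agent.R330.LocC8 Crest.Agent.R330.LocD8 Crest.Agent.R330.LemA342

variable {N p : ℕ} {b : ColorBasis N} {S : Type} [Group S] [Fintype S] {C : Chn b p S}
  {F : Type*} [NormedAddCommGroup F] [InnerProductSpace ℂ F]
  [FiniteDimensional ℂ F] {M : FermionRep N F} {R : GaugeAction b M} {G : GammaNine}

/-- (I4) for the cut-off `ϑ (X) rad s`. -/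
theorem i4In_rad (P : TPack C M R G) (σ : Sl C) {ρ : Pos p → Pos p} {ϑ : Pos p → ℝ} {s : ℝ}
    (m : ℝ) (hρ : ContDiff ℝ ∞ ρ) (hr : ∀ X, ‖ρ X - σ.X0‖ < σ.r) (hs0 : 0 < s)
    (hs : s < σ.r / 4) (hid : ∀ X, ‖X - σ.X0‖ ≤ s → ρ X = X)
    (hκ : Cut σ (cutm σ ϑ (HQ998.rad s))) : I4In P σ ρ (cutm σ ϑ (HQ998.rad s)) m :=
  i4In P σ m hρ hr hκ hs (fun x hx => by
    by_contra h
    apply hx
    unfold cutm
    rw [HQ998.rad_zero hs0 (not_le.1 h).le, mul_zero]) hid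

/-- (I4), existential form: every small radius `s`. -/
theorem i4In_chart (P : TPack C M R G) (σ : Sl C) (m : ℝ) : ∃ δ : ℝ, 0 < δ ∧
    ∀ ρ : Pos p → Pos p, ContDiff ℝ ∞ ρ → (∀ X, ‖ρ X - σ.X0‖ < σ.r) → ∀ s, 0 < s → s ≤ δ →
      (∀ X, ‖X - σ.X0‖ ≤ s → ρ X = X) → ∀ ϑ : Pos p → ℝ, Cut σ (cutm σ ϑ (HQ998.rad s)) →
        I4In P σ ρ (cutm σ ϑ (HQ998.rad s)) m := by
  have h := σ.pos
  exact ⟨σ.r / 8, by linarith, fun ρ hρ hr s hs0 hs hid ϑ hκ =>
    i4In_rad P σ m hρ hr hs0 (by linarith) hid hκ⟩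

end Crest.Agent.R330.PairI424

end
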