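import Mathlib
import Crest.Agent.R330.TCore_383
import Crest.Agent.R330.PairC_424
import Crest.Agent.R330.SlInt_658

/-!
# Row 330, I4 (helper365): the multiplier of the pairing

For a chart `σ` of 414's `Sl`, on the slice `Nor b (C.cf σ.X0)`:

* `j_bounds` : on `‖y‖ ≤ 3r/4` the density is bounded, bounded below and Lipschitz.
* `mult_close` : `|kap r (‖z‖²) √j(cf X') / √j(cf X' + Y + z) - 1| ≤ K (‖Y‖ + ‖z‖)`, and the
  multiplier is bounded (`mult_bdd`), for `‖X'‖, ‖Y‖, ‖z‖ ≤ r/4`.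
* `mult_close'` : the same with `u ∈ Nor`, `‖u‖ ≤ 3r/4`, coordinates `cfT u`, `PY u`, `PM u`.
* `continuousOn_jc` : the density in the coordinates (measurability: `SlInt658.aemeasurable_j`).
-/

set_option autoImplicit false
set_option linter.unusedSectionVars false

open MeasureTheory Filter Topology Set Crest.MathPhysics.MatrixQM
open scoped ContDiff InnerProductSpace ENNReal

noncomputable section

namespace Crest.Agent.R330.PairM365

open Crest.Agent.R330.Defs478 Crest.Agent.R330.LS839 Crest.Agent.R330.Frame839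
  Crest.Agent.R330.Bind6839 Crest.Agent.R330.SlF944 Crest.Agent.R330.TDef414
  Crest.Agent.R330.TCore383 Crest.Agent.R330.PairC424
open Crest.Agent.R330.SlB314 (Nor Tan br)

variable {N p : ℕ} {b : ColorBasis N} {S : Type} [Group S] [Fintype S] {C : Chn b p S}

/-- The closed ball of radius `ρ` of the slice. -/
def NB (σ : Sl C) (ρ : ℝ) : Set (Cfg N) := {y | y ∈ Nor b (C.cf σ.X0) ∧ ‖y‖ ≤ ρ}

theorem NB_eq (σ : Sl C) (ρ : ℝ) :
    NB σ ρ = (Nor b (C.cf σ.X0) : Set (Cfg N)) ∩ Metric.closedBall 0 ρ := by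
  ext y
  simp only [NB, mem_ofPred_eq, mem_inter_iff, SetLike.mem_coe, mem_closedBall_zero_iff]

theorem isCompact_NB (σ : Sl C) (ρ : ℝ) : IsCompact (NB σ ρ) := by
  rw [NB_eq]
  exact (isCompact_closedBall 0 ρ).inter_left (Submodule.closed_of_finiteDimensional _)

theorem convex_NB (σ : Sl C) (ρ : ℝ) : Convex ℝ (NB σ ρ) := by
  rw [NB_eq]
  exact (Submodule.convex _).inter (convex_closedBall 0 ρ)

/-- Bounds of the density. -/
theorem j_bounds (σ : Sl C) {ρ : ℝ} (hρ : ρ < σ.r) : ∃ m L B : ℝ, 0 < m ∧ 0 ≤ L ∧ 0 < B ∧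
    (∀ x ∈ NB σ ρ, m ≤ σ.j x) ∧ (∀ x ∈ NB σ ρ, σ.j x ≤ B) ∧
    ∀ x ∈ NB σ ρ, ∀ y ∈ NB σ ρ, |σ.j x - σ.j y| ≤ L * ‖x - y‖ := by
  have hs : ∀ y ∈ NB σ ρ, ContDiffAt ℝ ∞ σ.j y := fun y hy => σ.smooth y hy.1 (hy.2.trans_lt hρ)
  have hc : ContinuousOn σ.j (NB σ ρ) := fun y hy => (hs y hy).continuousAt.continuousWithinAt
  have hp : ∀ y ∈ NB σ ρ, 0 < σ.j y := fun y hy => σ.jpos y hy.1 (hy.2.trans_lt hρ)
  have hd : ContinuousOn (fderiv ℝ σ.j) (NB σ ρ) := fun y hy =>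
    ((hs y hy).fderiv_right (m := 0) (by simp)).continuousAt.continuousWithinAt
  obtain ⟨L, hL⟩ := (isCompact_NB σ ρ).exists_bound_of_continuousOn hd
  obtain ⟨B, hB⟩ := (isCompact_NB σ ρ).exists_bound_of_continuousOn hc
  have hm : ∃ m : ℝ, 0 < m ∧ ∀ x ∈ NB σ ρ, m ≤ σ.j x := by
    rcases (NB σ ρ).eq_empty_or_nonempty with h0 | hne
    · exact ⟨1, one_pos, fun x hx => absurd (h0 ▸ hx) (notMem_empty x)⟩
    · obtain ⟨x0, hx0, hmin⟩ := (isCompact_NB σ ρ).exists_isMinOn hne hc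
      exact ⟨σ.j x0, hp x0 hx0, fun x hx => hmin hx⟩
  obtain ⟨m, hm0, hm⟩ := hm
  refine ⟨m, max L 0, max B 1, hm0, le_max_right _ _, lt_max_of_lt_right one_pos, hm,
    fun x hx => ?_, fun x hx y hy => ?_⟩
  · exact (le_abs_self _).trans ((Real.norm_eq_abs _ ▸ hB x hx).trans (le_max_left _ _))
  · have h1 := (convex_NB σ ρ).norm_image_sub_le_of_norm_fderiv_le (𝕜 := ℝ)
      (fun z hz => (hs z hz).differentiableAt (by simp))
      (fun z hz => (hL z hz).trans (le_max_left L 0)) hy hx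
    rwa [Real.norm_eq_abs] at h1

/-- **The multiplier is close to one.** -/
theorem mult_close' (σ : Sl C) : ∃ K : ℝ, 0 ≤ K ∧ ∀ u ∈ Nor b (C.cf σ.X0), ‖u‖ ≤ 3 * σ.r / 4 →
    |kap σ.r (‖C.PM u‖ ^ 2) * (Real.sqrt (σ.j (C.cf (C.cfT u))) / Real.sqrt (σ.j u)) - 1| ≤
      K * (‖C.PY u‖ + ‖C.PM u‖) ∧
    |kap σ.r (‖C.PM u‖ ^ 2) * (Real.sqrt (σ.j (C.cf (C.cfT u))) / Real.sqrt (σ.j u))| ≤ K := by
  have hr := σ.pos
  have hρ : 3 * σ.r / 4 < σ.r := by linarith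
  have h0 : C.Reg σ.X0 := σ.reg σ.X0 (by rw [sub_self, norm_zero]; exact hr)
  obtain ⟨m, L, B, hm, hL, hB, h1, h2, h3⟩ := j_bounds σ hρ
  refine ⟨L / m + 8 / σ.r + (1 + L / m * (3 * σ.r / 2)), by positivity, fun u hu hur => ?_⟩
  set k := kap σ.r (‖C.PM u‖ ^ 2) with hk
  have hk0 : 0 ≤ k := kap_nonneg _ _
  have hk1 : k ≤ 1 := kap_le_one _ _
  set q := Real.sqrt (σ.j (C.cf (C.cfT u))) / Real.sqrt (σ.j u) with hq
  have hX : C.cf (C.cfT u) ∈ NB σ (3 * σ.r / 4) :=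
    ⟨cf_mem_Nor h0 (cf_mem _), by rw [C.cf.norm_map]; exact (norm_cfT_le u).trans hur⟩
  have hU : u ∈ NB σ (3 * σ.r / 4) := ⟨hu, hur⟩
  have hq1 : |q - 1| ≤ L / m * ‖C.cf (C.cfT u) - u‖ := sqrt_quot_close hm h1 h3 hX hU
  have hd : ‖C.cf (C.cfT u) - u‖ ≤ ‖C.PY u‖ + ‖C.PM u‖ := by
    have e : C.cf (C.cfT u) - u = -(C.PY u + C.PM u) := by
      have := C.decomp u
      nth_rewrite 2 [this]
      abel
    rw [e, norm_neg]
    exact norm_add_le _ _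
  have hY := norm_PY_le (C := C) u
  have hM := norm_PM_le (C := C) u
  have hYM : ‖C.PY u‖ + ‖C.PM u‖ ≤ 3 * σ.r / 2 := by linarith
  have hLm : 0 ≤ L / m := by positivity
  have hq2 : |q - 1| ≤ L / m * (‖C.PY u‖ + ‖C.PM u‖) :=
    hq1.trans (mul_le_mul_of_nonneg_left hd hLm)
  have hk2 : |k - 1| ≤ 8 / σ.r * ‖C.PM u‖ := by
    by_cases h : ‖C.PM u‖ ^ 2 ≤ σ.r ^ 2 / 64
    · rw [hk, kap_one hr h, sub_self, abs_zero]
      positivity
    · have h4 : σ.r / 8 ≤ ‖C.PM u‖ := by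
        by_contra h5
        rw [not_le] at h5
        apply h
        have h6 := norm_nonneg (C.PM u)
        nlinarith
      have h5 : 1 ≤ 8 / σ.r * ‖C.PM u‖ := by
        rw [div_mul_eq_mul_div, le_div_iff₀ hr]
        linarith
      have h6 : |k - 1| ≤ 1 := by
        rw [abs_le]
        constructor <;> linarith
      exact h6.trans h5
  have hy0 := norm_nonneg (C.PY u)
  have hm0 := norm_nonneg (C.PM u)
  have h8 : 0 ≤ 8 / σ.r := by positivity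
  constructor
  · have e : k * q - 1 = k * (q - 1) + (k - 1) := by ring
    rw [e]
    calc |k * (q - 1) + (k - 1)| ≤ |k * (q - 1)| + |k - 1| := abs_add_le _ _
      _ ≤ 1 * |q - 1| + |k - 1| := by
          rw [abs_mul, abs_of_nonneg hk0]
          gcongr
      _ ≤ 1 * (L / m * (‖C.PY u‖ + ‖C.PM u‖)) + 8 / σ.r * ‖C.PM u‖ := by gcongr
      _ ≤ (L / m + 8 / σ.r + (1 + L / m * (3 * σ.r / 2))) * (‖C.PY u‖ + ‖C.PM u‖) := by
          have h9 : 8 / σ.r * ‖C.PM u‖ ≤ 8 / σ.r * (‖C.PY u‖ + ‖C.PM u‖) :=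
            mul_le_mul_of_nonneg_left (by linarith) h8
          have h10 : 0 ≤ (1 + L / m * (3 * σ.r / 2)) * (‖C.PY u‖ + ‖C.PM u‖) := by positivity
          nlinarith
  · have hq3 : |q| ≤ 1 + L / m * (3 * σ.r / 2) := by
      have h9 : |q| ≤ |q - 1| + 1 := by
        calc |q| = |(q - 1) + 1| := by ring_nf
          _ ≤ |q - 1| + |1| := abs_add_le _ _
          _ = |q - 1| + 1 := by rw [abs_one]
      have h10 : |q - 1| ≤ L / m * (3 * σ.r / 2) :=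
        hq2.trans (mul_le_mul_of_nonneg_left hYM hLm)
      linarith
    rw [abs_mul, abs_of_nonneg hk0]
    calc k * |q| ≤ 1 * |q| := by gcongr
      _ = |q| := one_mul _
      _ ≤ 1 + L / m * (3 * σ.r / 2) := hq3
      _ ≤ _ := by linarith

/-- The sum of the coordinates is in the slice. -/
theorem sum_mem_Nor (σ : Sl C) (X : Pos p) {Y : Cfg N} (hY : Y ∈ C.Blk) {z : Cfg N}
    (hz : z ∈ C.Zt σ.X0) : C.cf X + Y + z ∈ Nor b (C.cf σ.X0) := by
  have h0 : C.Reg σ.X0 := σ.reg σ.X0 (by rw [sub_self, norm_zero]; exact σ.pos)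
  exact Submodule.add_mem _ (Submodule.add_mem _ (cf_mem_Nor h0 (cf_mem _))
    (cf_mem_Nor h0 (Submodule.mem_inf.1 hY).1)) (Submodule.mem_inf.1 hz).2

/-- **The multiplier in coordinates.** -/
theorem mult_close (σ : Sl C) : ∃ K : ℝ, 0 ≤ K ∧ ∀ (X : Pos p) (Y z : Cfg N), Y ∈ C.Blk →
    z ∈ C.Zt σ.X0 → ‖X‖ ≤ σ.r / 4 → ‖Y‖ ≤ σ.r / 4 → ‖z‖ ≤ σ.r / 4 →
    |kap σ.r (‖z‖ ^ 2) * (Real.sqrt (σ.j (C.cf X)) / Real.sqrt (σ.j (C.cf X + Y + z))) - 1| ≤
      K * (‖Y‖ + ‖z‖) ∧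
    |kap σ.r (‖z‖ ^ 2) * (Real.sqrt (σ.j (C.cf X)) / Real.sqrt (σ.j (C.cf X + Y + z)))| ≤ K := by
  obtain ⟨K, hK0, hK⟩ := mult_close' σ
  refine ⟨K, hK0, fun X Y z hY hz hX hYn hzn => ?_⟩
  have hzT : z ∈ Tup C.kkᗮ := (Submodule.mem_inf.1 hz).1
  have hn : ‖C.cf X + Y + z‖ ≤ 3 * σ.r / 4 := by
    calc ‖C.cf X + Y + z‖ ≤ ‖C.cf X + Y‖ + ‖z‖ := norm_add_le _ _
      _ ≤ ‖C.cf X‖ + ‖Y‖ + ‖z‖ := by gcongr; exact norm_add_le _ _
      _ ≤ σ.r / 4 + σ.r / 4 + σ.r / 4 := by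
          gcongr
          rw [C.cf.norm_map]
          exact hX
      _ = 3 * σ.r / 4 := by ring
  have h := hK _ (sum_mem_Nor σ X hY hz) hn
  rwa [cfT_add hY hzT, PY_add hY hzT, PM_add hY hzT] at h

/-- The density is continuous on the open ball of the slice. -/
theorem continuousOn_jc (σ : Sl C) :
    ContinuousOn (fun y : Nor b (C.cf σ.X0) => σ.j y) (Metric.ball 0 σ.r) := by
  intro y hy
  rw [mem_ball_zero_iff] at hy
  exact ((σ.smooth y y.2 hy).continuousAt.comp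
    (continuous_subtype_val.continuousAt)).continuousWithinAt

end Crest.Agent.R330.PairM365

end
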