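import Crest.Agent.R330.Ovl2_693
import Crest.Agent.R330.Col_962
import Crest.Agent.R330.NeutL_45

/-!
# Row 330, S8: pair operators on spinor ⊗ colour (helper693)

Colour vectors with a spinor index are families `X α` of traceless Hermitian matrices
(`mt b v α = ∑_A v (α, A) T_A`).  A pair array `c a d : Matrix (Fin 16) (Fin 16) ℂ` with
`c d a = conj (c a d)` and constant diagonal acts by `(c X)_α,ad = ∑_β (c a d)_αβ X_β,ad`;
`pop b c` is its (real) matrix.

* `mt_pop`, `pop_mul`, `pop_transpose`, `pop_add`, `pop_one`, `pop_tens`.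
* `adI_pop` : `adI b g * pop c = pop c' * adI b g` as soon as
  `g a a' ≠ 0 → g d d' ≠ 0 → c a' d' = c' a d`.
-/

set_option autoImplicit false

noncomputable section

open scoped InnerProductSpace BigOperators

namespace Crest.Agent.R330.PairOp693

open Crest.MathPhysics.MatrixQM Crest.Agent.R330 Crest.Agent.R330.Om0331 Crest.Agent.R330.Neut45

variable {N : ℕ} (b : ColorBasis N)

/-- pair arrays -/
abbrev PA (N : ℕ) := Fin N → Fin N → Matrix (Fin 16) (Fin 16) ℂ

/-- Entrywise conjugate symmetric arrays with constant diagonal. -/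
structure Good (c : PA N) : Prop where
  herm : ∀ a d α β, c d a α β = star (c a d α β)
  diag : ∀ a d, c a a = c d d

/-- Hadamard product. -/
def had (c : PA N) (α β : Fin 16) (X : Matrix (Fin N) (Fin N) ℂ) : Matrix (Fin N) (Fin N) ℂ :=
  Matrix.of fun a d => c a d α β * X a d

theorem had_apply (c : PA N) (α β : Fin 16) (X : Matrix (Fin N) (Fin N) ℂ) (a d : Fin N) :
    had c α β X a d = c a d α β * X a d := rfl

theorem had_herm {c : PA N} (hc : Good c) (α β : Fin 16) {X : Matrix (Fin N) (Fin N) ℂ}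
    (hX : X.IsHermitian) : (had c α β X).IsHermitian := by
  ext a d
  rw [Matrix.conjTranspose_apply, had_apply, had_apply, star_mul', hc.herm a d, star_star]
  have := congrFun (congrFun hX a) d
  rw [Matrix.conjTranspose_apply] at this
  rw [this]

theorem had_trace {c : PA N} (hc : Good c) (α β : Fin 16) {X : Matrix (Fin N) (Fin N) ℂ}
    (hX : X.trace = 0) : (had c α β X).trace = 0 := by
  unfold Matrix.trace at hX ⊢
  simp only [Matrix.diag_apply, had_apply] at hX ⊢
  rcases isEmpty_or_nonempty (Fin N) with h | ⟨⟨a0⟩⟩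
  · exact Finset.sum_of_isEmpty _
  · have : ∀ a, c a a α β = c a0 a0 α β := fun a => by rw [hc.diag a a0]
    simp only [this, ← Finset.mul_sum, hX, mul_zero]

/-- the colour matrices of a vector -/
def mt (v : Idx N → ℝ) (α : Fin 16) : Matrix (Fin N) (Fin N) ℂ :=
  ∑ A, ((v (α, A) : ℝ) : ℂ) • b.T A

theorem mt_herm (v : Idx N → ℝ) (α : Fin 16) : (mt b v α).IsHermitian := by
  unfold mt Matrix.IsHermitian
  rw [Matrix.conjTranspose_sum]
  refine Finset.sum_congr rfl fun A _ => ?_
  rw [Matrix.conjTranspose_smul, (b.herm A).eq, Complex.star_def, Complex.conj_ofReal]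

theorem mt_trace (v : Idx N → ℝ) (α : Fin 16) : (mt b v α).trace = 0 := by
  unfold mt
  rw [Matrix.trace_sum]
  exact Finset.sum_eq_zero fun A _ => by rw [Matrix.trace_smul, b.traceless, smul_zero]

theorem mt_inj {v w : Idx N → ℝ} (h : ∀ α, mt b v α = mt b w α) : v = w := by
  funext p
  have h1 := Col962.T_ext (b := b) (h p.1)
  have h2 := h1
  have := congrFun h2 p.2
  exact_mod_cast this

theorem mt_add (v w : Idx N → ℝ) (α : Fin 16) : mt b (v + w) α = mt b v α + mt b w α := by
  simp only [mt, Pi.add_apply, Complex.ofReal_add, add_smul, Finset.sum_add_distrib]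

theorem mt_smul (r : ℝ) (v : Idx N → ℝ) (α : Fin 16) :
    mt b (r • v) α = ((r : ℝ) : ℂ) • mt b v α := by
  simp only [mt, Pi.smul_apply, smul_eq_mul, Complex.ofReal_mul, mul_smul, Finset.smul_sum]

/-- The real matrix of a pair array. -/
def pop (c : PA N) : Matrix (Idx N) (Idx N) ℝ :=
  fun p q => (b.T p.2 * had c p.1 q.1 (b.T q.2)).trace.re

theorem had_sum (c : PA N) (α β : Fin 16) {ι : Type*} (s : Finset ι)
    (X : ι → Matrix (Fin N) (Fin N) ℂ) : had c α β (∑ i ∈ s, X i) = ∑ i ∈ s, had c α β (X i) := by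
  ext a d
  simp only [had_apply, Matrix.sum_apply, Finset.mul_sum]

theorem had_smul (c : PA N) (α β : Fin 16) (z : ℂ) (X : Matrix (Fin N) (Fin N) ℂ) :
    had c α β (z • X) = z • had c α β X := by
  ext a d
  simp only [had_apply, Matrix.smul_apply, smul_eq_mul]
  ring

/-- **The action of a pair array.** -/
theorem mt_pop {c : PA N} (hc : Good c) (v : Idx N → ℝ) (α : Fin 16) :
    mt b ((pop b c).mulVec v) α = ∑ β, had c α β (mt b v β) := by
  have hH : (∑ β, had c α β (mt b v β)).IsHermitian := by
    unfold Matrix.IsHermitian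
    rw [Matrix.conjTranspose_sum]
    exact Finset.sum_congr rfl fun β _ => (had_herm hc α β (mt_herm b v β)).eq
  have hT : (∑ β, had c α β (mt b v β)).trace = 0 := by
    rw [Matrix.trace_sum]
    exact Finset.sum_eq_zero fun β _ => had_trace hc α β (mt_trace b v β)
  rw [Col962.expand_herm b hT hH]
  unfold mt
  refine Finset.sum_congr rfl fun A _ => ?_
  congr 2
  simp only [Matrix.mulVec, dotProduct, pop, Fintype.sum_prod_type]
  rw [Finset.mul_sum, Matrix.trace_sum, Complex.re_sum]
  refine Finset.sum_congr rfl fun β _ => ?_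
  rw [had_sum, Finset.mul_sum, Matrix.trace_sum, Complex.re_sum]
  refine Finset.sum_congr rfl fun B _ => ?_
  rw [had_smul, Matrix.mul_smul, Matrix.trace_smul, smul_eq_mul, Complex.re_ofReal_mul]
  ring

/-- equality of real matrices from the action on colour matrices -/
theorem mat_ext {K L : Matrix (Idx N) (Idx N) ℝ}
    (h : ∀ v α, mt b (K.mulVec v) α = mt b (L.mulVec v) α) : K = L := by
  refine Matrix.ext_of_mulVec_single fun i => ?_
  exact mt_inj b fun α => h _ α

theorem Good.mul {c c' : PA N} (hc : Good c) (hc' : Good c') :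
    Good (fun a d => c a d * c' a d) where
  herm a d α β := by
    simp only [Matrix.mul_apply, star_sum, star_mul']
    exact Finset.sum_congr rfl fun x _ => by rw [hc.herm a d, hc'.herm a d]
  diag a d := by rw [hc.diag a d, hc'.diag a d]

theorem Good.add {c c' : PA N} (hc : Good c) (hc' : Good c') :
    Good (fun a d => c a d + c' a d) where
  herm a d α β := by
    simp only [Matrix.add_apply, star_add]
    rw [hc.herm a d, hc'.herm a d]
  diag a d := by rw [hc.diag a d, hc'.diag a d]

theorem Good.neg {c : PA N} (hc : Good c) : Good (fun a d => -c a d) where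
  herm a d α β := by
    simp only [Matrix.neg_apply, star_neg]
    rw [hc.herm a d]
  diag a d := by rw [hc.diag a d]

/-- entrywise complex matrix of a real matrix -/
def rc (K : Matrix (Fin 16) (Fin 16) ℝ) : Matrix (Fin 16) (Fin 16) ℂ := K.map Complex.ofReal

theorem rc_apply (K : Matrix (Fin 16) (Fin 16) ℝ) (α β : Fin 16) : rc K α β = (K α β : ℂ) := rfl

theorem rc_mul (K L : Matrix (Fin 16) (Fin 16) ℝ) : rc (K * L) = rc K * rc L := by
  ext α β
  simp [rc_apply, Matrix.mul_apply]

theorem rc_one : rc 1 = 1 := by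
  ext α β
  rw [rc_apply]
  by_cases h : α = β <;> simp [Matrix.one_apply, h]

theorem rc_add (K L : Matrix (Fin 16) (Fin 16) ℝ) : rc (K + L) = rc K + rc L := by
  ext α β
  simp [rc_apply]

theorem rc_neg (K : Matrix (Fin 16) (Fin 16) ℝ) : rc (-K) = -rc K := by
  ext α β
  simp [rc_apply]

theorem rc_smul (r : ℝ) (K : Matrix (Fin 16) (Fin 16) ℝ) : rc (r • K) = (r : ℂ) • rc K := by
  ext α β
  simp [rc_apply]

theorem rc_sum {ι : Type*} (s : Finset ι) (K : ι → Matrix (Fin 16) (Fin 16) ℝ) :
    rc (∑ i ∈ s, K i) = ∑ i ∈ s, rc (K i) := by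
  ext α β
  simp [rc_apply, Matrix.sum_apply]

theorem good_const (K : Matrix (Fin 16) (Fin 16) ℝ) : Good (N := N) (fun _ _ => rc K) where
  herm a d α β := by rw [rc_apply, Complex.star_def, Complex.conj_ofReal]
  diag _ _ := rfl

/-- **Multiplicativity.** -/
theorem pop_mul {c c' : PA N} (hc : Good c) (hc' : Good c') :
    pop b c * pop b c' = pop b (fun a d => c a d * c' a d) := by
  refine mat_ext b fun v α => ?_
  rw [← Matrix.mulVec_mulVec, mt_pop b hc, mt_pop b (hc.mul hc')]
  ext a d
  simp only [Matrix.sum_apply, had_apply, mt_pop b hc', Matrix.mul_apply, Finset.mul_sum,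
    Finset.sum_mul]
  rw [Finset.sum_comm]
  exact Finset.sum_congr rfl fun x _ => Finset.sum_congr rfl fun y _ => by ring

theorem pop_add (c c' : PA N) : pop b (fun a d => c a d + c' a d) = pop b c + pop b c' := by
  ext p q
  simp only [pop, Matrix.add_apply]
  rw [← Complex.add_re, ← Matrix.trace_add, ← Matrix.mul_add]
  congr 4
  ext a d
  simp only [had_apply, Matrix.add_apply]
  ring

theorem pop_neg (c : PA N) : pop b (fun a d => -c a d) = -pop b c := by
  ext p q
  simp only [pop, Matrix.neg_apply]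
  rw [← Complex.neg_re, ← Matrix.trace_neg, ← Matrix.mul_neg]
  congr 3
  ext a d
  simp only [had_apply, Matrix.neg_apply]
  ring

theorem pop_zero : pop b (fun _ _ => 0) = 0 := by
  ext p q
  have h0 : had (N := N) (fun _ _ => (0 : Matrix (Fin 16) (Fin 16) ℂ)) p.1 q.1 (b.T q.2) = 0 := by
    ext a d
    rw [had_apply, Matrix.zero_apply, zero_mul, Matrix.zero_apply]
  simp only [pop]
  rw [h0, mul_zero, Matrix.trace_zero, Complex.zero_re, Matrix.zero_apply]

/-- `K ⊗ 1`. -/
theorem pop_tens (K : Matrix (Fin 16) (Fin 16) ℝ) :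
    pop b (fun _ _ => rc K) = tens N K := by
  refine mat_ext b fun v α => ?_
  rw [mt_pop b (good_const K)]
  ext a d
  simp only [Matrix.sum_apply, had_apply, mt, Matrix.smul_apply, smul_eq_mul, Matrix.mulVec,
    dotProduct, tens, Fintype.sum_prod_type, rc_apply]
  push_cast
  rw [Finset.sum_congr rfl fun (β : Fin 16) _ => Finset.mul_sum Finset.univ
    (fun A => ((v (β, A) : ℝ) : ℂ) * b.T A a d) ((K α β : ℝ) : ℂ), Finset.sum_comm]
  refine Finset.sum_congr rfl fun A _ => ?_
  rw [Finset.sum_mul]
  refine Finset.sum_congr rfl fun β _ => ?_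
  rw [Finset.sum_eq_single A]
  · simp only [if_true]
    push_cast
    ring
  · intro B _ hB
    rw [if_neg (Ne.symm hB)]
    simp
  · intro h
    exact absurd (Finset.mem_univ A) h

theorem pop_one : pop b (fun _ _ => 1) = 1 := by
  have h1 := pop_tens b (1 : Matrix (Fin 16) (Fin 16) ℝ)
  rw [rc_one] at h1
  rw [h1]
  ext p q
  simp only [tens, Matrix.one_apply, Prod.ext_iff]
  by_cases h2 : p.2 = q.2 <;> by_cases h3 : p.1 = q.1 <;> simp [h2, h3]

/-- Transposition. -/
theorem pop_transpose {c : PA N} (hc : Good c) :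
    (pop b c).transpose = pop b (fun a d => (c a d).conjTranspose) := by
  ext p q
  simp only [pop, Matrix.transpose_apply, Matrix.trace, Matrix.diag_apply, Matrix.mul_apply,
    had_apply, Matrix.conjTranspose_apply]
  rw [Finset.sum_comm]
  congr 1
  refine Finset.sum_congr rfl fun a _ => Finset.sum_congr rfl fun d _ => ?_
  rw [← hc.herm d a]
  ring

/-- The adjoint action on colour matrices. -/
theorem mt_adI (g : Matrix.specialUnitaryGroup (Fin N) ℂ) (v : Idx N → ℝ) (α : Fin 16) :
    mt b ((adI b g).mulVec v) α =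
      (g : Matrix (Fin N) (Fin N) ℂ) * mt b v α * star (g : Matrix (Fin N) (Fin N) ℂ) := by
  unfold mt
  rw [Col962.conj_sum]
  refine Finset.sum_congr rfl fun A _ => ?_
  congr 1
  simp only [Matrix.mulVec, dotProduct, adI, Fintype.sum_prod_type]
  push_cast
  rw [Finset.sum_eq_single α]
  · refine Finset.sum_congr rfl fun B _ => ?_
    simp
  · intro β _ hβ
    refine Finset.sum_eq_zero fun B _ => ?_
    rw [if_neg (Ne.symm hβ)]
    simp
  · intro h
    exact absurd (Finset.mem_univ α) h

/-- **Gauge covariance.** -/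
theorem adI_pop {c c' : PA N} (hc : Good c) (hc' : Good c')
    (g : Matrix.specialUnitaryGroup (Fin N) ℂ)
    (h : ∀ a a' d d', (g : Matrix (Fin N) (Fin N) ℂ) a a' ≠ 0 →
      (g : Matrix (Fin N) (Fin N) ℂ) d d' ≠ 0 → c a' d' = c' a d) :
    adI b g * pop b c = pop b c' * adI b g := by
  refine mat_ext b fun v α => ?_
  rw [← Matrix.mulVec_mulVec, ← Matrix.mulVec_mulVec, mt_adI, mt_pop b hc, mt_pop b hc',
    Finset.mul_sum, Finset.sum_mul]
  refine Finset.sum_congr rfl fun β _ => ?_
  rw [mt_adI]
  ext a d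
  simp only [Matrix.mul_apply, had_apply, Matrix.star_apply, Finset.mul_sum, Finset.sum_mul]
  refine Finset.sum_congr rfl fun x _ => Finset.sum_congr rfl fun y _ => ?_
  by_cases h1 : (g : Matrix (Fin N) (Fin N) ℂ) a y = 0
  · rw [h1]
    ring
  · by_cases h2 : (g : Matrix (Fin N) (Fin N) ℂ) d x = 0
    · rw [h2, star_zero]
      ring
    · rw [h a y d x h1 h2]
      ring

end Crest.Agent.R330.PairOp693

end
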