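import Crest.Agent.R330.PairI2_658

/-!
# Row 330, S8-T5: `rhoE`, `rhoS` are continuous (helper658)

`continuous_rhoE`, `continuous_rhoS`, and their restrictions to `L`: `sm_rhoE`, `sm_rhoS`, `sm_om`.
-/

set_option autoImplicit false
set_option linter.unusedSectionVars false

open MeasureTheory Filter Topology Crest.MathPhysics.MatrixQM
open scoped ContDiff InnerProductSpace ENNReal

noncomputable section

namespace Crest.Agent.R330.PairI658

open Crest.Agent.R330.Defs478 Crest.Agent.R330.LS839 Crest.Agent.R330.Frame839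
  Crest.Agent.R330.Clus839 Crest.Agent.R330.Bind6839 Crest.Agent.R330.TDef414
  Crest.Agent.R330.SlG944 Crest.Agent.R330.IBP837 Crest.Agent.R330.PairA547
  Crest.Agent.R330.PairB547 Crest.Agent.R330.PairE547 Crest.Agent.R330.PairL_862
  Crest.Agent.R330.BrT5658 Crest.Agent.R330.BrT5b658 Crest.Agent.R330.BrT5c658
open LightC916 (rhoE rhoS fderiv_om)

variable {N p : ℕ} {b : ColorBasis N} {S : Type} [Group S] [Fintype S] {C : Chn b p S}
  {F : Type*} [NormedAddCommGroup F] [InnerProductSpace ℂ F] [FiniteDimensional ℂ F]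
  {M : FermionRep N F} {R : GaugeAction b M} {G : GammaNine}

theorem rhoE_zero (P : TPack C M R G) (X0 : Pos p) (g : ℝ) (α : Fin 16) {χ : Pos p → C.Fx M G}
    {q : Cfg N} (h : χ (X0 + C.cfT q) = 0) : rhoE P X0 g α χ q = 0 := by
  unfold LightC916.rhoE
  rw [h]
  simp

theorem rhoS_zero (P : TPack C M R G) (X0 : Pos p) (g m : ℝ) (α : Fin 16) {χ : Pos p → C.Fx M G}
    {q : Cfg N} (h : χ (X0 + C.cfT q) = 0) : rhoS P X0 g m α χ q = 0 := by
  have h3 : qblk C M G g α (fun Y => P.Psi g Y ((χ (X0 + C.cfT q) : C.Fx M G) : F)) =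
      fun _ => 0 := by
    funext Y
    rw [h]
    unfold qblk
    simp
  unfold LightC916.rhoS
  rw [h3, om_zero P X0 g h]
  simp

theorem continuous_of_tsupport (σ : Sl C) (χ : Amp M G σ) {f : Cfg N → F}
    (h0 : ∀ q, χ.fn (σ.X0 + C.cfT q) = 0 → f q = 0)
    (h1 : ∀ q, σ.X0 + C.cfT q ∈ tsupport χ.fn → ContinuousAt f q) : Continuous f := by
  rw [continuous_iff_continuousAt]
  intro q
  by_cases h : σ.X0 + C.cfT q ∈ tsupport χ.fn
  · exact h1 q h
  · have h2 : ContinuousAt (fun u : Cfg N => σ.X0 + C.cfT u) q :=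
      continuousAt_const.add C.cfT.continuous.continuousAt
    have h3 : f =ᶠ[𝓝 q] fun _ => 0 := by
      filter_upwards [h2.eventually ((isClosed_tsupport χ.fn).isOpen_compl.mem_nhds h)] with u hu
      exact h0 u (image_eq_zero_of_notMem_tsupport hu)
    exact (continuousAt_const (y := (0 : F))).congr h3.symm

theorem continuous_rhoE (P : TPack C M R G) (σ : Sl C) {g : ℝ} (hP : ContDiff ℝ 1 (P.Psi g))
    (α : Fin 16) (χ : Amp M G σ) : Continuous (rhoE P σ.X0 g α χ.fn) := by
  refine continuous_of_tsupport σ χ (fun q h => rhoE_zero P σ.X0 g α h) fun q hq => ?_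
  unfold LightC916.rhoE
  have hX : ContinuousAt (fun u : Cfg N => σ.X0 + C.cfT u) q :=
    continuousAt_const.add C.cfT.continuous.continuousAt
  have hU : ContinuousAt (fun u : Cfg N => fderiv ℝ P.U (σ.X0 + C.cfT u)) q :=
    ContinuousAt.comp (f := fun u : Cfg N => σ.X0 + C.cfT u) (g := fderiv ℝ P.U)
      (((P.U_smooth _ (χ.off _ hq)).fderiv_right (m := 0) (by simp)).continuousAt) hX
  have hY : Continuous fun u : Cfg N => P.Psi g (C.PY u) := by
    refine hP.continuous.comp ?_
    exact (LightC916.PYL C).continuous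
  have hχ : Continuous fun u : Cfg N => ((χ.fn (σ.X0 + C.cfT u) : C.Fx M G) : F) :=
    continuous_subtype_val.comp (χ.smooth.continuous.comp
      (continuous_const.add C.cfT.continuous))
  have hψ : ContinuousAt (fun u : Cfg N => P.Psi g (C.PY u)
      ((χ.fn (σ.X0 + C.cfT u) : C.Fx M G) : F)) q := (hY.clm_apply hχ).continuousAt
  refine tendsto_finsetSum _ fun j _ => ?_
  refine (LinearMap.continuous_of_finiteDimensional
    (aA M G α (C.cf (EuclideanSpace.single j 1)))).continuousAt.comp ?_
  have h1 : ContinuousAt (fun u : Cfg N =>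
      fderiv ℝ P.U (σ.X0 + C.cfT u) (EuclideanSpace.single j 1)) q :=
    hU.clm_apply continuousAt_const
  exact h1.clm_apply hψ

theorem continuous_rhoS (P : TPack C M R G) (σ : Sl C) {g : ℝ} (hP : ContDiff ℝ 1 (P.Psi g))
    (m : ℝ) (α : Fin 16) (χ : Amp M G σ) : Continuous (rhoS P σ.X0 g m α χ.fn) := by
  refine continuous_of_tsupport σ χ (fun q h => rhoS_zero P σ.X0 g m α h) fun q hq => ?_
  unfold LightC916.rhoS
  have hX : ContinuousAt (fun u : Cfg N => σ.X0 + C.cfT u) q :=
    continuousAt_const.add C.cfT.continuous.continuousAt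
  have hU : ContinuousAt (fun u : Cfg N => P.U (σ.X0 + C.cfT u)) q :=
    ContinuousAt.comp (f := fun u : Cfg N => σ.X0 + C.cfT u) (g := P.U)
      (P.U_smooth _ (χ.off _ hq)).continuousAt hX
  have hPY : Continuous fun u : Cfg N => C.PY u := (LightC916.PYL C).continuous
  have hY : Continuous fun u : Cfg N => P.Psi g (C.PY u) := hP.continuous.comp hPY
  have hχ : Continuous fun u : Cfg N => ((χ.fn (σ.X0 + C.cfT u) : C.Fx M G) : F) :=
    continuous_subtype_val.comp (χ.smooth.continuous.comp
      (continuous_const.add C.cfT.continuous))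
  have hψ : Continuous fun u : Cfg N => P.Psi g (C.PY u)
      ((χ.fn (σ.X0 + C.cfT u) : C.Fx M G) : F) := hY.clm_apply hχ
  have hw : ∀ (g' m' : ℝ) {f : Cfg N → F}, ContinuousAt f q →
      ContinuousAt (fun u => wA b M G g' m' α (C.PY u) (f u)) q := by
    intro g' m' f hf
    have h1 : Continuous fun Y : Cfg N => LinearMap.toContinuousLinearMap
        (Wp (WqL b M G α) (WlL M G α) g' m' Y) := by
      rw [continuous_clm_apply]
      exact fun f => continuous_Wp b M G g' m' α f
    have h2 := (h1.comp hPY).continuousAt.clm_apply hf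
    refine h2.congr (Filter.Eventually.of_forall fun u => ?_)
    show Wp (WqL b M G α) (WlL M G α) g' m' (C.PY u) (f u) = _
    rw [Wp_lit]
    rfl
  refine ContinuousAt.add ?_ ?_
  · refine hU.clm_apply ?_
    unfold qblk
    refine ContinuousAt.add ?_ ?_
    · refine tendsto_finsetSum _ fun j _ => ?_
      refine (LinearMap.continuous_of_finiteDimensional
        (aA M G α ((stdOrthonormalBasis ℝ C.Blk j : C.Blk) : Cfg N))).continuousAt.comp ?_
      have h2 : ∀ (f : F) (Y v : Cfg N), fderiv ℝ (fun Y => P.Psi g Y f) Y v =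
          (fderiv ℝ (P.Psi g) Y v) f := by
        intro f Y v
        have h3 := (hP.differentiable (by simp) Y).hasFDerivAt
        have h4 : HasFDerivAt (fun Y => P.Psi g Y f)
            (((ContinuousLinearMap.apply ℂ F f).restrictScalars ℝ).comp
              (fderiv ℝ (P.Psi g) Y)) Y :=
          ((ContinuousLinearMap.apply ℂ F f).restrictScalars ℝ).hasFDerivAt.comp Y h3
        rw [h4.fderiv]
        rfl
      simp only [h2]
      have h4 : Continuous fun u : Cfg N => fderiv ℝ (P.Psi g) (C.PY u)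
          ((stdOrthonormalBasis ℝ C.Blk j : C.Blk) : Cfg N) :=
        ((hP.continuous_fderiv (by simp)).comp hPY).clm_apply continuous_const
      exact (h4.clm_apply hχ).continuousAt
    · exact hw g 0 hψ.continuousAt
  · refine hw 0 m ?_
    unfold LightC916.om
    exact hU.clm_apply hψ.continuousAt

theorem sm_rhoE (P : TPack C M R G) (σ : Sl C) {g : ℝ} (hP : ContDiff ℝ 1 (P.Psi g))
    (α : Fin 16) (χ : Amp M G σ) (L : Submodule ℝ (Cfg N)) :
    StronglyMeasurable fun q : L => rhoE P σ.X0 g α χ.fn (q : Cfg N) :=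
  ((continuous_rhoE P σ hP α χ).comp continuous_subtype_val).stronglyMeasurable

theorem sm_rhoS (P : TPack C M R G) (σ : Sl C) {g : ℝ} (hP : ContDiff ℝ 1 (P.Psi g))
    (m : ℝ) (α : Fin 16) (χ : Amp M G σ) (L : Submodule ℝ (Cfg N)) :
    StronglyMeasurable fun q : L => rhoS P σ.X0 g m α χ.fn (q : Cfg N) :=
  ((continuous_rhoS P σ hP m α χ).comp continuous_subtype_val).stronglyMeasurable

theorem sm_om (P : TPack C M R G) (σ : Sl C) {g : ℝ} (hΨ : ContDiff ℝ ∞ (P.Psi g))
    (χ : Amp M G σ) (L : Submodule ℝ (Cfg N)) :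
    StronglyMeasurable fun q : L => LightC916.om P σ.X0 g χ.fn (q : Cfg N) :=
  (contDiff_omL P σ hΨ χ L).continuous.stronglyMeasurable

end Crest.Agent.R330.PairI658

end
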