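import Crest.Agent.R330.PairE5_547
import Crest.Agent.R330.PairC_714

/-!
# Row 330, S8-PAIR: the three classes and the measurability of the errors (helper547)

* `classes` : `err1, err2, err3` of `PairE2_547` are in 714's classes.
* `sm_err1, sm_err2, sm_err3` : strong measurability on `L × Z` (no support condition).
-/

set_option autoImplicit false
set_option linter.unusedSectionVars false

open MeasureTheory Filter Topology
open scoped ContDiff InnerProductSpace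

noncomputable section

namespace Crest.Agent.R330.PairE547

open Crest.Agent.R330.Frame839 Crest.Agent.R330.IBP837 Crest.Agent.R330.PairA547
  Crest.Agent.R330.PairB547 Crest.Agent.R330.PairC714

variable {V E : Type*} [NormedAddCommGroup V] [InnerProductSpace ℝ V] [FiniteDimensional ℝ V]
  [NormedAddCommGroup E] [InnerProductSpace ℝ E] [FiniteDimensional ℝ E]
  {F : Type*} [NormedAddCommGroup F] [InnerProductSpace ℂ F] [FiniteDimensional ℂ F]
  {ι κ η : Type*} [Fintype ι] [Fintype κ] [Fintype η]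

variable {A : V →L[ℝ] E →L[ℝ] E} {c : E} {L Z : Submodule ℝ E} {r B ρ K : ℝ}
  {Θ : E →ₗ[ℝ] (F →ₗ[ℂ] F)} {Wq : E →ₗ[ℝ] E →ₗ[ℝ] (F →ₗ[ℂ] F)}
  {Wl : E →ₗ[ℝ] (F →ₗ[ℂ] F)} {Bf : V →ₗ[ℝ] (F →ₗ[ℝ] F)} {Γ : F →ₗ[ℂ] F} {PX : L →ₗ[ℝ] E}

/-! ## The weights -/

section weights

variable {g z : ℝ}

theorem wt_aux (hg : 1 ≤ g) (hz : 0 ≤ z) :
    1 + g * z ^ 2 ≤ (1 + Real.sqrt g * z) ^ 4 ∧
      g * z ≤ Real.sqrt g * (1 + Real.sqrt g * z) ^ 4 ∧
      z ≤ (Real.sqrt g)⁻¹ * (1 + Real.sqrt g * z) ^ 4 ∧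
      z ^ 2 * (1 + g * z ^ 2) + z ≤ (Real.sqrt g)⁻¹ * (1 + Real.sqrt g * z) ^ 4 ∧
      z ^ 2 ≤ (Real.sqrt g)⁻¹ * (1 + Real.sqrt g * z) ^ 4 := by
  have hs1 : 1 ≤ Real.sqrt g := Real.one_le_sqrt.2 hg
  set s := Real.sqrt g with hs
  have hs0 : 0 < s := by linarith
  have hgs : g = s ^ 2 := (Real.sq_sqrt (by linarith)).symm
  set t := s * z with ht
  have ht0 : 0 ≤ t := by positivity
  have hz' : z = s⁻¹ * t := by rw [ht, ← mul_assoc, inv_mul_cancel₀ hs0.ne', one_mul]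
  have hi1 : s⁻¹ ≤ 1 := inv_le_one_of_one_le₀ hs1
  have hi0 : 0 ≤ s⁻¹ := inv_nonneg.2 hs0.le
  have e : (1 + t) ^ 4 = 1 + 4 * t + 6 * t ^ 2 + 4 * t ^ 3 + t ^ 4 := by ring
  have p2 : 0 ≤ t ^ 2 := by positivity
  have p3 : 0 ≤ t ^ 3 := by positivity
  have p4 : 0 ≤ t ^ 4 := by positivity
  have hgz : g * z ^ 2 = t ^ 2 := by rw [hgs, ht]; ring
  have hzz : z ^ 2 ≤ s⁻¹ * t ^ 2 := by
    rw [hz', mul_pow]
    refine mul_le_mul_of_nonneg_right ?_ p2
    calc s⁻¹ ^ 2 = s⁻¹ * s⁻¹ := by ring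
      _ ≤ s⁻¹ * 1 := mul_le_mul_of_nonneg_left hi1 hi0
      _ = s⁻¹ := mul_one _
  refine ⟨by rw [hgz, e]; linarith, ?_, ?_, ?_, ?_⟩
  · have : g * z = s * t := by rw [hgs, ht]; ring
    rw [this, e]
    exact mul_le_mul_of_nonneg_left (by linarith) hs0.le
  · calc z = s⁻¹ * t := hz'
      _ ≤ s⁻¹ * (1 + t) ^ 4 := mul_le_mul_of_nonneg_left (by rw [e]; linarith) hi0
  · calc z ^ 2 * (1 + g * z ^ 2) + z ≤ (s⁻¹ * t ^ 2) * (1 + t ^ 2) + s⁻¹ * t := by
          rw [hgz]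
          refine add_le_add (mul_le_mul_of_nonneg_right hzz (by positivity)) (le_of_eq hz')
      _ = s⁻¹ * (t ^ 2 + t ^ 4 + t) := by ring
      _ ≤ s⁻¹ * (1 + t) ^ 4 := mul_le_mul_of_nonneg_left (by rw [e]; linarith) hi0
  · calc z ^ 2 ≤ s⁻¹ * t ^ 2 := hzz
      _ ≤ s⁻¹ * (1 + t) ^ 4 := mul_le_mul_of_nonneg_left (by rw [e]; linarith) hi0

theorem wt_one (hz : 0 ≤ z) : 1 ≤ (1 + Real.sqrt g * z) ^ 4 :=
  one_le_pow₀ (by have := mul_nonneg (Real.sqrt_nonneg g) hz; linarith)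

end weights

/-- **The errors are in 714's classes.** -/
theorem classes (hG : Geo A c L Z PX r B ρ) (hC : Cst Θ Wq Wl Bf K)
    (hΓ : ∀ f, ‖Γ f‖ ≤ ‖f‖) (eT : OrthonormalBasis η ℝ (Tn A c)) (u : OrthonormalBasis ι ℝ L)
    (v : OrthonormalBasis κ ℝ Z) {K' m : ℝ} (hK' : 0 ≤ K') {a₀ : ℝ → L × Z → ℝ} {ϰ : Z → ℝ}
    (hA : ∀ᶠ g in atTop, AmpOk g K' ρ (a₀ g)) (hϰ : CutOk K' ρ ϰ) {ψ ρe ρs : ℝ → L → F}
    {s : Sizes L} (hy : ∀ p : L, ‖(p : E) - PX p‖ ≤ s.y p) (h0 : ∀ g p, ‖ψ g p‖ ≤ s.n0 g p)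
    (h1 : ∀ g p, ‖fderiv ℝ (ψ g) p‖ ≤ s.n1 g p) (hE : ∀ g p, ‖ρe g p‖ ≤ s.nE g p)
    (hS : ∀ g p, ‖ρs g p‖ ≤ s.nS g p)
    (hψ : ∀ᶠ g in atTop, ∀ p, ρ < ‖p‖ → ψ g p = 0)
    (hHM : ∀ᶠ g in atTop, ∀ x : L × Z, ‖x.1‖ ≤ ρ → HM A c Z Θ Wq PX eT v g (a₀ g) (ψ g) x = 0) :
    Cls (fun g p z => a₀ g (p, z)) s.h1 (fun g =>
        err1 Θ Wq Wl Bf Γ PX eT u v g m hG.dec (fun x : L × Z => ϰ x.2 * a₀ g x) (ψ g) (ρs g)) ∧
      Cls (fun g p z => a₀ g (p, z)) s.h2 (fun g =>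
        err2 Θ Wq Bf Γ PX eT u g (a₀ g) (ψ g) (ρe g)) ∧
      Cls (fun g p z => a₀ g (p, z)) s.h3 (fun g =>
        err3 Θ Wq Bf Γ PX eT u g (a₀ g) (fun x : L × Z => ϰ x.2 * a₀ g x) (ψ g) (ρe g)
          (ρs g)) := by
  obtain ⟨C, hC0, hb⟩ := exists_bounds (Γ := Γ) hG hC hΓ eT u v hK' (abs_nonneg m)
  have key : ∀ᶠ g in atTop, 1 ≤ g ∧ ∀ x : L × Z, 0 ≤ a₀ g x ∧
      ‖err1 Θ Wq Wl Bf Γ PX eT u v g m hG.dec (fun x : L × Z => ϰ x.2 * a₀ g x) (ψ g) (ρs g) x‖ ≤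
        C * a₀ g x * ((1 + g * ‖x.2‖ ^ 2 + g * ‖(x.1 : E) - PX x.1‖ * ‖x.2‖) * ‖ψ g x.1‖ +
          ‖x.2‖ * ‖fderiv ℝ (ψ g) x.1‖ + ‖ρs g x.1‖) ∧
      ‖err2 Θ Wq Bf Γ PX eT u g (a₀ g) (ψ g) (ρe g) x‖ ≤
        C * a₀ g x * ((1 + g * ‖x.2‖ ^ 2) * ‖ψ g x.1‖ + ‖ρe g x.1‖) ∧
      ‖err3 Θ Wq Bf Γ PX eT u g (a₀ g) (fun x : L × Z => ϰ x.2 * a₀ g x) (ψ g) (ρe g)
          (ρs g) x‖ ≤
        C * a₀ g x * ((‖x.2‖ ^ 2 * (1 + g * ‖x.2‖ ^ 2) + ‖(x.1 : E) - PX x.1‖ + ‖x.2‖) *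
          ‖ψ g x.1‖ + ‖x.2‖ ^ 2 * ‖ρe g x.1‖ + ‖ρs g x.1‖) := by
    filter_upwards [hA, hψ, hHM, eventually_ge_atTop 1] with g g1 g2 g3 g4
    refine ⟨g4, fun x => ⟨g1.nonneg x, ?_⟩⟩
    refine hb g m (by linarith) le_rfl (a₀ g) ϰ g1 hϰ (ψ g) (ρe g) (ρs g) g2 ?_ g3 x
    intro p hp
    have h2 : ψ g =ᶠ[𝓝 p] fun _ => 0 := by
      have h3 : ∀ᶠ q in 𝓝 p, ρ < ‖q‖ := continuous_norm.continuousAt.eventually_const_lt hp
      filter_upwards [h3] with q hq
      exact g2 q hq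
    rw [h2.fderiv_eq]
    simp
  refine ⟨⟨C, hC0, ?_⟩, ⟨C, hC0, ?_⟩, ⟨C, hC0, ?_⟩⟩
  · filter_upwards [key] with g g1 p z
    obtain ⟨g1, g2⟩ := g1
    obtain ⟨ha, hb1, -, -⟩ := g2 (p, z)
    refine hb1.trans ?_
    have hq : 0 ≤ C * a₀ g (p, z) := mul_nonneg hC0 ha
    have hzn : 0 ≤ ‖z‖ := norm_nonneg _
    obtain ⟨w1, w2, w3, w4, w5⟩ := wt_aux g1 hzn
    have w0 : 1 ≤ (1 + Real.sqrt g * ‖z‖) ^ 4 := wt_one hzn
    have n0 : 0 ≤ s.n0 g p := (norm_nonneg _).trans (h0 g p)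
    have n1 : 0 ≤ s.n1 g p := le_trans (by positivity) (h1 g p)
    have nE : 0 ≤ s.nE g p := (norm_nonneg _).trans (hE g p)
    have nS : 0 ≤ s.nS g p := (norm_nonneg _).trans (hS g p)
    have ny : 0 ≤ s.y p := (norm_nonneg _).trans (hy p)
    have hg0 : 0 ≤ g := by linarith
    set w := (1 + Real.sqrt g * ‖z‖) ^ 4 with hw
    have hw0 : 0 ≤ w := by linarith
    have k1 : (1 + g * ‖z‖ ^ 2) * ‖ψ g p‖ ≤ w * s.n0 g p :=
      mul_le_mul w1 (h0 g p) (norm_nonneg _) hw0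
    have k2 : g * ‖(p : E) - PX p‖ * ‖z‖ * ‖ψ g p‖ ≤ w * (Real.sqrt g * s.y p * s.n0 g p) := by
      calc g * ‖(p : E) - PX p‖ * ‖z‖ * ‖ψ g p‖ = (g * ‖z‖) * (‖(p : E) - PX p‖ * ‖ψ g p‖) := by
            ring
        _ ≤ (Real.sqrt g * w) * (s.y p * s.n0 g p) := by
            refine mul_le_mul w2 (mul_le_mul (hy p) (h0 g p) (norm_nonneg _) ny) (by positivity)
              (mul_nonneg (Real.sqrt_nonneg _) hw0)
        _ = _ := by ring
    have k3 : ‖z‖ * ‖fderiv ℝ (ψ g) p‖ ≤ w * ((Real.sqrt g)⁻¹ * s.n1 g p) := by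
      calc ‖z‖ * ‖fderiv ℝ (ψ g) p‖ ≤ ((Real.sqrt g)⁻¹ * w) * s.n1 g p :=
            mul_le_mul w3 (h1 g p) (by positivity) (mul_nonneg (inv_nonneg.2 (Real.sqrt_nonneg _))
              hw0)
        _ = _ := by ring
    have k4 : ‖ρs g p‖ ≤ w * s.nS g p := by
      calc ‖ρs g p‖ ≤ 1 * s.nS g p := by rw [one_mul]; exact hS g p
        _ ≤ w * s.nS g p := mul_le_mul_of_nonneg_right w0 nS
    have k5 : 0 ≤ w * s.nE g p := mul_nonneg hw0 nE
    have hK : (1 + g * ‖z‖ ^ 2 + g * ‖(p : E) - PX p‖ * ‖z‖) * ‖ψ g p‖ +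
        ‖z‖ * ‖fderiv ℝ (ψ g) p‖ + ‖ρs g p‖ ≤ w * s.h1 g p := by
      have e1 : w * s.h1 g p = w * (Real.sqrt g * s.y p * s.n0 g p) + w * s.n0 g p +
          w * ((Real.sqrt g)⁻¹ * s.n1 g p) + w * s.nE g p + w * s.nS g p := by
        unfold Sizes.h1
        ring
      have e2 : (1 + g * ‖z‖ ^ 2 + g * ‖(p : E) - PX p‖ * ‖z‖) * ‖ψ g p‖ =
          (1 + g * ‖z‖ ^ 2) * ‖ψ g p‖ + g * ‖(p : E) - PX p‖ * ‖z‖ * ‖ψ g p‖ := by ring
      rw [e1, e2]
      linarith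
    calc C * a₀ g (p, z) * ((1 + g * ‖z‖ ^ 2 + g * ‖(p : E) - PX p‖ * ‖z‖) * ‖ψ g p‖ +
          ‖z‖ * ‖fderiv ℝ (ψ g) p‖ + ‖ρs g p‖) ≤ C * a₀ g (p, z) * (w * s.h1 g p) :=
          mul_le_mul_of_nonneg_left hK hq
      _ = C * (a₀ g (p, z) * wt g z) * s.h1 g p := by rw [hw]; unfold wt; ring
  · filter_upwards [key] with g g1 p z
    obtain ⟨g1, g2⟩ := g1
    obtain ⟨ha, -, hb1, -⟩ := g2 (p, z)
    refine hb1.trans ?_
    have hq : 0 ≤ C * a₀ g (p, z) := mul_nonneg hC0 ha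
    have hzn : 0 ≤ ‖z‖ := norm_nonneg _
    obtain ⟨w1, w2, w3, w4, w5⟩ := wt_aux g1 hzn
    have w0 : 1 ≤ (1 + Real.sqrt g * ‖z‖) ^ 4 := wt_one hzn
    have nE : 0 ≤ s.nE g p := (norm_nonneg _).trans (hE g p)
    set w := (1 + Real.sqrt g * ‖z‖) ^ 4 with hw
    have hw0 : 0 ≤ w := by linarith
    have k1 : (1 + g * ‖z‖ ^ 2) * ‖ψ g p‖ ≤ w * s.n0 g p :=
      mul_le_mul w1 (h0 g p) (norm_nonneg _) hw0
    have k4 : ‖ρe g p‖ ≤ w * s.nE g p := by
      calc ‖ρe g p‖ ≤ 1 * s.nE g p := by rw [one_mul]; exact hE g p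
        _ ≤ w * s.nE g p := mul_le_mul_of_nonneg_right w0 nE
    have hK : (1 + g * ‖z‖ ^ 2) * ‖ψ g p‖ + ‖ρe g p‖ ≤ w * s.h2 g p := by
      have e1 : w * s.h2 g p = w * s.n0 g p + w * s.nE g p := by
        unfold Sizes.h2
        ring
      rw [e1]
      linarith
    calc C * a₀ g (p, z) * ((1 + g * ‖z‖ ^ 2) * ‖ψ g p‖ + ‖ρe g p‖) ≤
          C * a₀ g (p, z) * (w * s.h2 g p) := mul_le_mul_of_nonneg_left hK hq
      _ = C * (a₀ g (p, z) * wt g z) * s.h2 g p := by rw [hw]; unfold wt; ring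
  · filter_upwards [key] with g g1 p z
    obtain ⟨g1, g2⟩ := g1
    obtain ⟨ha, -, -, hb1⟩ := g2 (p, z)
    refine hb1.trans ?_
    have hq : 0 ≤ C * a₀ g (p, z) := mul_nonneg hC0 ha
    have hzn : 0 ≤ ‖z‖ := norm_nonneg _
    obtain ⟨w1, w2, w3, w4, w5⟩ := wt_aux g1 hzn
    have w0 : 1 ≤ (1 + Real.sqrt g * ‖z‖) ^ 4 := wt_one hzn
    have n0 : 0 ≤ s.n0 g p := (norm_nonneg _).trans (h0 g p)
    have n1 : 0 ≤ s.n1 g p := le_trans (by positivity) (h1 g p)
    have nE : 0 ≤ s.nE g p := (norm_nonneg _).trans (hE g p)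
    have nS : 0 ≤ s.nS g p := (norm_nonneg _).trans (hS g p)
    have ny : 0 ≤ s.y p := (norm_nonneg _).trans (hy p)
    have hi : 0 ≤ (Real.sqrt g)⁻¹ := inv_nonneg.2 (Real.sqrt_nonneg _)
    set w := (1 + Real.sqrt g * ‖z‖) ^ 4 with hw
    have hw0 : 0 ≤ w := by linarith
    have k1 : (‖z‖ ^ 2 * (1 + g * ‖z‖ ^ 2) + ‖z‖) * ‖ψ g p‖ ≤
        w * ((Real.sqrt g)⁻¹ * s.n0 g p) := by
      calc (‖z‖ ^ 2 * (1 + g * ‖z‖ ^ 2) + ‖z‖) * ‖ψ g p‖ ≤
            ((Real.sqrt g)⁻¹ * w) * s.n0 g p :=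
            mul_le_mul w4 (h0 g p) (norm_nonneg _) (mul_nonneg hi hw0)
        _ = _ := by ring
    have k2 : ‖(p : E) - PX p‖ * ‖ψ g p‖ ≤ w * (s.y p * s.n0 g p) := by
      calc ‖(p : E) - PX p‖ * ‖ψ g p‖ ≤ s.y p * s.n0 g p :=
            mul_le_mul (hy p) (h0 g p) (norm_nonneg _) ny
        _ = 1 * (s.y p * s.n0 g p) := (one_mul _).symm
        _ ≤ w * (s.y p * s.n0 g p) := mul_le_mul_of_nonneg_right w0 (mul_nonneg ny n0)
    have k3 : ‖z‖ ^ 2 * ‖ρe g p‖ ≤ w * ((Real.sqrt g)⁻¹ * s.nE g p) := by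
      calc ‖z‖ ^ 2 * ‖ρe g p‖ ≤ ((Real.sqrt g)⁻¹ * w) * s.nE g p :=
            mul_le_mul w5 (hE g p) (norm_nonneg _) (mul_nonneg hi hw0)
        _ = _ := by ring
    have k4 : ‖ρs g p‖ ≤ w * s.nS g p := by
      calc ‖ρs g p‖ ≤ 1 * s.nS g p := by rw [one_mul]; exact hS g p
        _ ≤ w * s.nS g p := mul_le_mul_of_nonneg_right w0 nS
    have k5 : 0 ≤ w * ((Real.sqrt g)⁻¹ * s.n1 g p) := mul_nonneg hw0 (mul_nonneg hi n1)
    have hK : (‖z‖ ^ 2 * (1 + g * ‖z‖ ^ 2) + ‖(p : E) - PX p‖ + ‖z‖) * ‖ψ g p‖ +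
        ‖z‖ ^ 2 * ‖ρe g p‖ + ‖ρs g p‖ ≤ w * s.h3 g p := by
      have e1 : w * s.h3 g p = w * (s.y p * s.n0 g p) + w * ((Real.sqrt g)⁻¹ * s.n0 g p) +
          w * s.nS g p + w * ((Real.sqrt g)⁻¹ * s.n1 g p) +
          w * ((Real.sqrt g)⁻¹ * s.nE g p) := by
        unfold Sizes.h3
        ring
      have e2 : (‖z‖ ^ 2 * (1 + g * ‖z‖ ^ 2) + ‖(p : E) - PX p‖ + ‖z‖) * ‖ψ g p‖ =
          (‖z‖ ^ 2 * (1 + g * ‖z‖ ^ 2) + ‖z‖) * ‖ψ g p‖ + ‖(p : E) - PX p‖ * ‖ψ g p‖ := by ring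
      rw [e1, e2]
      linarith
    calc C * a₀ g (p, z) * ((‖z‖ ^ 2 * (1 + g * ‖z‖ ^ 2) + ‖(p : E) - PX p‖ + ‖z‖) *
          ‖ψ g p‖ + ‖z‖ ^ 2 * ‖ρe g p‖ + ‖ρs g p‖) ≤ C * a₀ g (p, z) * (w * s.h3 g p) :=
          mul_le_mul_of_nonneg_left hK hq
      _ = C * (a₀ g (p, z) * wt g z) * s.h3 g p := by rw [hw]; unfold wt; ring

/-! ## Measurability -/

section meas

theorem measurable_inverse {X Y : Type*} [NormedAddCommGroup X] [NormedSpace ℝ X]
    [NormedAddCommGroup Y] [NormedSpace ℝ Y] [CompleteSpace X] :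
    Measurable (ContinuousLinearMap.inverse : (X →L[ℝ] Y) → Y →L[ℝ] X) := by
  classical
  set S : Set (X →L[ℝ] Y) := Set.range (fun e : X ≃L[ℝ] Y => (e : X →L[ℝ] Y)) with hS
  have hop : IsOpen S := ContinuousLinearEquiv.isOpen
  have h1 : ContinuousOn (ContinuousLinearMap.inverse : (X →L[ℝ] Y) → Y →L[ℝ] X) S := by
    rintro _ ⟨e, rfl⟩
    exact (contDiffAt_map_inverse (𝕜 := ℝ) (n := 0) e).continuousAt.continuousWithinAt
  have h2 : ContinuousOn (ContinuousLinearMap.inverse : (X →L[ℝ] Y) → Y →L[ℝ] X) Sᶜ := by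
    refine continuousOn_const (c := (0 : Y →L[ℝ] X)) |>.congr ?_
    intro f hf
    refine ContinuousLinearMap.inverse_of_not_isInvertible ?_
    rintro ⟨e, he⟩
    exact hf ⟨e, he⟩
  have h3 := h1.measurable_piecewise h2 hop.measurableSet
  have h4 : S.piecewise (ContinuousLinearMap.inverse : (X →L[ℝ] Y) → Y →L[ℝ] X)
      ContinuousLinearMap.inverse = ContinuousLinearMap.inverse := by
    funext x
    by_cases hx : x ∈ S <;> simp [Set.piecewise, hx]
  rwa [h4] at h3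

variable [MeasurableSpace E] [BorelSpace E]

theorem sm_omL {X : Type*} [MeasurableSpace X] {y : X → E} (hy : Measurable y) :
    StronglyMeasurable (fun x => om A c (y x)) := by
  have hsc : SecondCountableTopology (Tn A c →L[ℝ] (kc A c)ᗮ) := by
    have := FiniteDimensional.proper_real (Tn A c →L[ℝ] (kc A c)ᗮ)
    infer_instance
  have h1 : Measurable (fun x => om A c x) := by
    unfold om
    exact measurable_inverse.comp (contDiff_S (A := A) (c := c)).continuous.measurable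
  exact (h1.comp hy).stronglyMeasurable

theorem sm_om {X : Type*} [MeasurableSpace X] {y : X → E} (hy : Measurable y) (t : Tn A c) :
    StronglyMeasurable (fun x => ((om A c (y x) t : (kc A c)ᗮ) : V)) :=
  ((kc A c)ᗮ.subtypeL.continuous.comp
    (ContinuousLinearMap.apply ℝ (kc A c)ᗮ t).continuous).comp_stronglyMeasurable (sm_omL hy)

theorem sm_nn {X : Type*} [MeasurableSpace X] {y : X → E} (hy : Measurable y) (t : Tn A c) :
    StronglyMeasurable (fun x => nn A c (y x) t) := by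
  have : ProperSpace E := FiniteDimensional.proper_real _
  have h1 := sm_om (A := A) (c := c) hy t
  have h2 : StronglyMeasurable y := hy.stronglyMeasurable
  have h3 : Continuous (fun q : V × E => A q.1 q.2) :=
    A.isBoundedBilinearMap.continuous
  unfold nn
  exact (h3.comp_stronglyMeasurable (h1.prodMk h2)).sub stronglyMeasurable_const

theorem sm_lin {X : Type*} [MeasurableSpace X] {f : X → F} (hf : StronglyMeasurable f)
    (T : F →ₗ[ℂ] F) : StronglyMeasurable (fun x => T (f x)) := by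
  have : FiniteDimensional ℝ F := FiniteDimensional.complexToReal F
  exact (LinearMap.toContinuousLinearMap (T.restrictScalars ℝ)).continuous.comp_stronglyMeasurable
    hf

theorem sm_Bf {X : Type*} [MeasurableSpace X] {w : X → V} {f : X → F}
    (hw : StronglyMeasurable w) (hf : StronglyMeasurable f) :
    StronglyMeasurable (fun x => Bf (w x) (f x)) := by
  have h3 : Continuous (fun q : V × F => BfC Bf q.1 q.2) :=
    (BfC Bf).isBoundedBilinearMap.continuous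
  exact h3.comp_stronglyMeasurable (hw.prodMk hf)

/-- a bilinear map into the operators on `F` -/
theorem sm_bil {X : Type*} [MeasurableSpace X] {y z : X → E} {f : X → F}
    (hy : StronglyMeasurable y) (hz : StronglyMeasurable z) (hf : StronglyMeasurable f) :
    StronglyMeasurable (fun x => Wq (y x) (z x) (f x)) := by
  have : FiniteDimensional ℝ F := FiniteDimensional.complexToReal F
  set T1 : (F →ₗ[ℂ] F) →ₗ[ℝ] (F →L[ℝ] F) :=
    { toFun := fun T => LinearMap.toContinuousLinearMap (T.restrictScalars ℝ)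
      map_add' := fun _ _ => by ext; rfl
      map_smul' := fun _ _ => by ext; rfl } with hT1
  set T2 : E →L[ℝ] E →L[ℝ] F →L[ℝ] F :=
    LinearMap.toContinuousLinearMap
      ((LinearMap.toContinuousLinearMap (𝕜 := ℝ) (E := E) (F' := F →L[ℝ] F)).toLinearMap ∘ₗ
        (LinearMap.llcomp ℝ E (F →ₗ[ℂ] F) (F →L[ℝ] F) T1) ∘ₗ Wq) with hT2
  have h2 : ∀ a b f, T2 a b f = Wq a b f := fun _ _ _ => rfl
  have h3 : Continuous (fun q : (E × E) × F => T2 q.1.1 q.1.2 q.2) := by fun_prop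
  have h4 := h3.comp_stronglyMeasurable ((hy.prodMk hz).prodMk hf)
  exact h4

theorem sm_linE {X : Type*} [MeasurableSpace X] {z : X → E} {f : X → F}
    (hz : StronglyMeasurable z) (hf : StronglyMeasurable f) :
    StronglyMeasurable (fun x => Wl (z x) (f x)) := by
  have : FiniteDimensional ℝ F := FiniteDimensional.complexToReal F
  set T1 : (F →ₗ[ℂ] F) →ₗ[ℝ] (F →L[ℝ] F) :=
    { toFun := fun T => LinearMap.toContinuousLinearMap (T.restrictScalars ℝ)
      map_add' := fun _ _ => by ext; rfl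
      map_smul' := fun _ _ => by ext; rfl } with hT1
  set T2 : E →L[ℝ] F →L[ℝ] F := LinearMap.toContinuousLinearMap (T1 ∘ₗ Wl) with hT2
  have h3 : Continuous (fun q : E × F => T2 q.1 q.2) := by fun_prop
  have h4 := h3.comp_stronglyMeasurable (hz.prodMk hf)
  exact h4

/-- derivatives are strongly measurable -/
theorem sm_fderiv {X G : Type*} [NormedAddCommGroup X] [NormedSpace ℝ X] [FiniteDimensional ℝ X]
    [MeasurableSpace X] [OpensMeasurableSpace X] [NormedAddCommGroup G] [NormedSpace ℝ G]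
    [FiniteDimensional ℝ G] {f : X → G} {w : X → X} (hw : StronglyMeasurable w) :
    StronglyMeasurable (fun x => fderiv ℝ f x (w x)) := by
  have : CompleteSpace G := FiniteDimensional.complete ℝ G
  have hsc : SecondCountableTopology (X →L[ℝ] G) := by
    have := FiniteDimensional.proper_real (X →L[ℝ] G)
    infer_instance
  have h1 : StronglyMeasurable (fderiv ℝ f) := (measurable_fderiv ℝ f).stronglyMeasurable
  exact isBoundedBilinearMap_apply.continuous.comp_stronglyMeasurable (h1.prodMk hw)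

section errs

variable (eT : OrthonormalBasis η ℝ (Tn A c)) (u : OrthonormalBasis ι ℝ L)
  (v : OrthonormalBasis κ ℝ Z) (g m : ℝ) {a a₀ : L × Z → ℝ} {ψ ρe ρs : L → F}

theorem sm_smulI {X : Type*} [MeasurableSpace X] {f : X → F} (hf : StronglyMeasurable f)
    (w : ℂ) : StronglyMeasurable (fun x => w • f x) := hf.const_smul w

theorem meas_PX : Measurable (fun x : L × Z => c + PX x.1) :=
  ((LinearMap.continuous_of_finiteDimensional PX).measurable.comp measurable_fst).const_add c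

theorem meas_sum : Measurable (fun x : L × Z => c + ((x.1 : E) + (x.2 : E))) :=
  ((measurable_subtype_coe.comp measurable_fst).add
    (measurable_subtype_coe.comp measurable_snd)).const_add c

theorem meas_sum' : Measurable (fun x : L × Z => c + (x.1 : E) + (x.2 : E)) :=
  ((measurable_subtype_coe.comp measurable_fst).const_add c).add
    (measurable_subtype_coe.comp measurable_snd)

theorem sm_snd : StronglyMeasurable (fun x : L × Z => (x.2 : E)) := by
  have : ProperSpace E := FiniteDimensional.proper_real _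
  exact (measurable_subtype_coe.comp measurable_snd).stronglyMeasurable

theorem sm_nZ (t : Tn A c) :
    StronglyMeasurable (fun x : L × Z => nZ A c L Z PX t x.1) := by
  unfold nZ
  exact (Z.orthogonalProjectionOnto).continuous.comp_stronglyMeasurable
    (sm_nn (meas_PX (PX := PX)) t)

theorem sm_nP (t : Tn A c) : StronglyMeasurable (fun x : L × Z => nP A c L Z t x) := by
  unfold nP
  have h := sm_nn (A := A) (c := c) (meas_sum' (c := c) (L := L) (Z := Z)) t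
  exact ((L.orthogonalProjection).continuous.comp_stronglyMeasurable h).prodMk
    ((Z.orthogonalProjection).continuous.comp_stronglyMeasurable h)

theorem sm_fst {G : Type*} [TopologicalSpace G] {ψ : L → G} (hψ : StronglyMeasurable ψ) :
    StronglyMeasurable (fun x : L × Z => ψ x.1) := hψ.comp_measurable measurable_fst

theorem sm_HM (ha : StronglyMeasurable a) (hψ : StronglyMeasurable ψ) :
    StronglyMeasurable (HM A c Z Θ Wq PX eT v g a ψ) := by
  have hψ1 : StronglyMeasurable (fun x : L × Z => ψ x.1) := sm_fst hψ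
  refine StronglyMeasurable.add (StronglyMeasurable.add ?_ ?_) ?_
  · refine Finset.stronglyMeasurable_fun_sum _ fun s _ => ?_
    exact (sm_lin ((sm_fderiv (f := a) stronglyMeasurable_const).smul hψ1) (Θ (v s))).const_smul _
  · refine Finset.stronglyMeasurable_fun_sum _ fun t _ => ?_
    exact (sm_lin ((sm_fderiv (f := a) (stronglyMeasurable_const.prodMk
      (sm_nZ (eT t)))).smul hψ1) (Θ (eT t))).const_smul _
  · have : ProperSpace E := FiniteDimensional.proper_real _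
    exact (ha.const_mul (2 * g)).smul
      (sm_bil (meas_PX (PX := PX)).stronglyMeasurable sm_snd hψ1)

theorem sm_EV (hψ : StronglyMeasurable ψ) : StronglyMeasurable (EV (Z := Z) Θ u a ψ) := by
  have hψ1 : StronglyMeasurable (fun x : L × Z => ψ x.1) := sm_fst hψ
  refine Finset.stronglyMeasurable_fun_sum _ fun s _ => ?_
  exact (sm_lin ((sm_fderiv (f := a) stronglyMeasurable_const).smul hψ1) (Θ (u s))).const_smul _

theorem sm_MX {y : L × Z → E} (hy : Measurable (fun x => c + y x)) (hψ : StronglyMeasurable ψ) :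
    StronglyMeasurable (fun x : L × Z => MX A c Z Θ Wq Bf eT g (y x) x.2 (ψ x.1)) := by
  have hψ1 : StronglyMeasurable (fun x : L × Z => ψ x.1) := sm_fst hψ
  refine StronglyMeasurable.add ?_ ?_
  · refine Finset.stronglyMeasurable_fun_sum _ fun t _ => ?_
    exact (sm_Bf (sm_om hy (eT t)) (sm_lin hψ1 (Θ (eT t)))).const_smul _
  · exact (sm_bil sm_snd sm_snd hψ1).const_smul g

theorem sm_dvP (h : Dec A c L Z) (t : η) : StronglyMeasurable (dvP h eT u v t) := by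
  unfold dvP
  refine Finset.stronglyMeasurable_fun_sum _ fun n _ => ?_
  have h1 : StronglyMeasurable (fun w => fderiv ℝ (cf A c eT (norB h u v) n t) w
      (norB h u v n)) := sm_fderiv stronglyMeasurable_const
  exact h1.comp_measurable (eLZ h).continuous.measurable

theorem sm_OD (h : Dec A c L Z) (ha : StronglyMeasurable a) (hψ : StronglyMeasurable ψ) :
    StronglyMeasurable (OD Θ Wq Wl PX eT u v h g m a ψ) := by
  have : ProperSpace E := FiniteDimensional.proper_real _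
  have hψ1 : StronglyMeasurable (fun x : L × Z => ψ x.1) := sm_fst hψ
  have hy : StronglyMeasurable (fun x : L × Z => (x.1 : E) - PX x.1) :=
    ((measurable_subtype_coe.comp measurable_fst).sub
      ((LinearMap.continuous_of_finiteDimensional PX).measurable.comp
        measurable_fst)).stronglyMeasurable
  have hDψ : ∀ t, StronglyMeasurable (fun x : L × Z =>
      fderiv ℝ ψ x.1 (nP A c L Z (eT t) x).1) := fun t => by
    have hF : FiniteDimensional ℝ F := FiniteDimensional.complexToReal F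
    have hC : CompleteSpace F := FiniteDimensional.complete ℝ F
    have hsc : SecondCountableTopology (L →L[ℝ] F) := by
      have := FiniteDimensional.proper_real (L →L[ℝ] F)
      infer_instance
    have h1 : StronglyMeasurable (fderiv ℝ ψ) := (measurable_fderiv ℝ ψ).stronglyMeasurable
    exact isBoundedBilinearMap_apply.continuous.comp_stronglyMeasurable
      ((h1.comp_measurable measurable_fst).prodMk
        (continuous_fst.comp_stronglyMeasurable (sm_nP (eT t))))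
  refine StronglyMeasurable.add (StronglyMeasurable.sub ?_ ?_) ?_
  · exact (ha.const_mul (2 * g)).smul (sm_bil hy sm_snd hψ1)
  · exact (ha.const_mul m).smul (sm_linE sm_snd hψ1)
  · refine Finset.stronglyMeasurable_fun_sum _ fun t _ => ?_
    refine (sm_lin ?_ (Θ (eT t))).const_smul _
    refine StronglyMeasurable.add (StronglyMeasurable.add ?_ ?_) ?_
    · exact ((sm_dvP eT u v h t).mul ha).smul hψ1
    · exact (sm_fderiv (f := a) ((sm_nP (eT t)).sub
        (stronglyMeasurable_const.prodMk (sm_nZ (eT t))))).smul hψ1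
    · exact ha.smul (hDψ t)

theorem sm_evp {X : Type*} [MeasurableSpace X] {f : X → F} (hf : StronglyMeasurable f) :
    StronglyMeasurable (fun x => evp Γ (f x)) := by
  unfold evp
  exact (hf.add (sm_lin hf Γ)).const_smul _

theorem sm_odp {X : Type*} [MeasurableSpace X] {f : X → F} (hf : StronglyMeasurable f) :
    StronglyMeasurable (fun x => odp Γ (f x)) := by
  unfold odp
  exact (hf.sub (sm_lin hf Γ)).const_smul _

theorem sm_err1 (h : Dec A c L Z) (ha : StronglyMeasurable a) (hψ : StronglyMeasurable ψ)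
    (hs : StronglyMeasurable ρs) :
    StronglyMeasurable (err1 Θ Wq Wl Bf Γ PX eT u v g m h a ψ ρs) := by
  refine StronglyMeasurable.add (StronglyMeasurable.add (StronglyMeasurable.add ?_ ?_) ?_) ?_
  · exact sm_HM eT v g ha hψ
  · exact sm_OD eT u v g m h ha hψ
  · exact ha.smul (sm_odp (sm_MX eT g meas_sum hψ))
  · exact ha.smul (sm_odp (sm_fst hs))

theorem sm_err2 (ha : StronglyMeasurable a₀) (hψ : StronglyMeasurable ψ)
    (he : StronglyMeasurable ρe) :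
    StronglyMeasurable (err2 Θ Wq Bf Γ PX eT u g a₀ ψ ρe) := by
  refine StronglyMeasurable.add (StronglyMeasurable.add ?_ ?_) ?_
  · exact sm_EV u hψ
  · exact ha.smul (sm_fst he)
  · exact ha.smul (sm_evp (sm_MX eT g meas_PX hψ))

theorem sm_err3 (ha₀ : StronglyMeasurable a₀) (ha : StronglyMeasurable a)
    (hψ : StronglyMeasurable ψ) (he : StronglyMeasurable ρe) (hs : StronglyMeasurable ρs) :
    StronglyMeasurable (err3 Θ Wq Bf Γ PX eT u g a₀ a ψ ρe ρs) := by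
  refine StronglyMeasurable.add (StronglyMeasurable.add (StronglyMeasurable.add ?_ ?_) ?_) ?_
  · exact (sm_EV u hψ).sub (sm_EV u hψ)
  · exact (ha.sub ha₀).smul (sm_fst he)
  · exact ha.smul (sm_evp (sm_fst hs))
  · exact (ha.smul (sm_evp (sm_MX eT g meas_sum hψ))).sub
      (ha₀.smul (sm_evp (sm_MX eT g meas_PX hψ)))

end errs

end meas

end Crest.Agent.R330.PairE547

end
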