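import Crest.Agent.R330.Par_522
import Crest.Agent.R330.Par_478
import Crest.Agent.R330.Per_967
import Crest.Agent.R330.Rot_149
import Crest.Agent.R330.QM0_363
import Crest.Agent.R330.Close_478

/-!
# Row 330 (helper522): the parity of the zero modes is even, part 2

* `isParity_eS` : the spin rotation by `2 π` in the plane `(0,1)` is the fermion parity.
* `U_two_pi` : the rotation by `2 π` of a wave function is the parity.
* `OddBound N` : `q_{g,1} ≥ (1/6) ‖φ‖²` for odd core vectors.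
* `evenAll_of` : `EvenAll N` from `OddBound N` (no induction hypothesis).
* `oddBound_of` : `OddBound` from the algebra on the core and the circle `J₁₂`.
-/

set_option autoImplicit false
set_option linter.unusedSectionVars false
set_option maxHeartbeats 400000

open Filter Topology Set MeasureTheory Crest.MathPhysics.MatrixQM
open scoped InnerProductSpace Matrix ENNReal

noncomputable section

namespace Crest.Agent.R330.Par522

open Crest.Agent.R330.Defs478 Crest.Agent.R330.SInd478 Crest.Agent.R330.Par478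
open Crest.Agent.R330.SDefs726
open Complex (I)

/-! ## 1. The rotation by `2 π` -/

section exp3

variable {𝔸 : Type*} [NormedRing 𝔸] [NormedAlgebra ℝ 𝔸] [CompleteSpace 𝔸]

theorem exp_cube (X : 𝔸) (hX : X * X * X = -X) (t : ℝ) :
    NormedSpace.exp (t • X) = 1 + Real.sin t • X + (1 - Real.cos t) • (X * X) := by
  set g : ℝ → 𝔸 := fun u => NormedSpace.exp (u • (-X)) *
    (1 + Real.sin u • X + (1 - Real.cos u) • (X * X)) with hg
  have hd : ∀ u, HasDerivAt g 0 u := by
    intro u
    have h1 : HasDerivAt (fun u : ℝ => NormedSpace.exp (u • (-X)))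
        (NormedSpace.exp (u • (-X)) * (-X)) u := hasDerivAt_exp_smul_const (-X) u
    have h2 : HasDerivAt (fun u : ℝ => (1 : 𝔸) + Real.sin u • X + (1 - Real.cos u) • (X * X))
        (0 + Real.cos u • X + (0 - -Real.sin u) • (X * X)) u :=
      ((hasDerivAt_const u (1 : 𝔸)).add ((Real.hasDerivAt_sin u).smul_const X)).add
        (((hasDerivAt_const u (1 : ℝ)).sub (Real.hasDerivAt_cos u)).smul_const (X * X))
    have h4 := h1.mul h2
    refine h4.congr_deriv ?_
    have e1 : -X * (1 + Real.sin u • X + (1 - Real.cos u) • (X * X)) +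
        (0 + Real.cos u • X + (0 - -Real.sin u) • (X * X)) = 0 := by
      rw [mul_add, mul_add, mul_one, mul_smul_comm, mul_smul_comm, neg_mul, neg_mul, ← mul_assoc,
        hX]
      module
    rw [mul_assoc, ← mul_add, e1, mul_zero]
  have hc : g t = g 0 := is_const_of_deriv_eq_zero (fun x => (hd x).differentiableAt)
    (fun x => (hd x).deriv) t 0
  have h0 : g 0 = 1 := by simp [hg]
  have h1 : NormedSpace.exp (t • X) * NormedSpace.exp (t • (-X)) = 1 := by
    have := Lift406.exp_mul_exp_neg X t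
    rwa [smul_neg]
  calc NormedSpace.exp (t • X) = NormedSpace.exp (t • X) * g t := by rw [hc, h0, mul_one]
    _ = (NormedSpace.exp (t • X) * NormedSpace.exp (t • (-X))) *
        (1 + Real.sin t • X + (1 - Real.cos t) • (X * X)) := by rw [hg, mul_assoc]
    _ = _ := by rw [h1, one_mul]

end exp3

section matrix

open scoped Matrix.Norms.Operator

theorem exp_rot_two_pi {j k : Fin 9} (h : j ≠ k) :
    NormedSpace.exp ((2 * Real.pi) • rot j k) = (1 : Matrix (Fin 9) (Fin 9) ℝ) := by
  have h1 : rot j k * rot j k = -Rot149.PP j k := Rot149.KK_mul_KK h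
  have h2 : rot j k * rot j k * rot j k = -rot j k := by
    rw [h1, neg_mul]
    congr 1
    exact Rot149.PP_mul_KK h
  have h3 := exp_cube (rot j k) h2 (2 * Real.pi)
  refine Eq.trans h3 ?_
  rw [Real.sin_two_pi, Real.cos_two_pi]
  simp

end matrix

section par

variable {N : ℕ} {F : Type*} [NormedAddCommGroup F] [InnerProductSpace ℂ F]
  [FiniteDimensional ℂ F] {M : FermionRep N F} {G : GammaNine}

theorem Sp_vac {Ω : F} (h : IsGVac M G Ω) : Sp M G (rot 0 1) Ω = 0 := by
  have h1 := B12_vac M G h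
  have e : Sp M G (rot 0 1) Ω = (1 / 2 : ℂ) • B12 M G Ω := by
    have h2 := congrArg (fun f : F →L[ℂ] F => f Ω) (Per967.Sp_rot (G := G) M
      (show (0 : Fin 9) ≠ 1 by decide))
    simp only [LinearMap.coe_toContinuousLinearMap'] at h2
    rw [h2]
    have h3 : B12 M G Ω = (1 / 2 : ℂ) • ∑ j : Om0331.Idx N, ∑ k : Om0331.Idx N,
        ((X12 N G j k : ℝ) : ℂ) • Om0331.tht M j (Om0331.tht M k Ω) := by
      show Neut45.spinB (Om0331.tht M) (X12 N G) Ω = _
      unfold Neut45.spinB
      simp only [LinearMap.smul_apply, LinearMap.sum_apply, LinearMap.comp_apply]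
    have h4 : Lift406.spin M (Per967.aK (G.γ 0 * G.γ 1)) Ω = (1 / 2 : ℂ) •
        ∑ j : Om0331.Idx N, ∑ k : Om0331.Idx N,
        ((Per967.aK (N := N) (G.γ 0 * G.γ 1) j k : ℝ) : ℂ) •
          Om0331.tht M j (Om0331.tht M k Ω) := by
      unfold Lift406.spin
      simp only [_root_.smul_apply, _root_.sum_apply]
      rfl
    rw [h3, h4, smul_smul, Finset.smul_sum, Finset.smul_sum]
    refine Finset.sum_congr rfl fun j _ => ?_
    rw [Finset.smul_sum, Finset.smul_sum]
    refine Finset.sum_congr rfl fun k _ => ?_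
    rw [smul_smul, smul_smul]
    congr 1
    rw [Per967.aK_apply]
    unfold X12 Om0331.tens
    split_ifs <;> push_cast <;> ring
  rw [e, h1, smul_zero]

/-- **The spin rotation by `2 π` is the parity.** -/
theorem isParity_eS : IsParity M G (eS M G (rot 0 1) (2 * Real.pi) : F →ₗ[ℂ] F) := by
  have e : eS M G (rot 0 1) (2 * Real.pi) = NormedSpace.exp ((2 * Real.pi) •
      Lift406.spin M (Per967.aK (G.γ 0 * G.γ 1))) := by
    unfold eS
    rw [Per967.Sp_rot M (by decide)]
    congr 1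
  refine ⟨fun α A v => ?_, fun Ω hΩ => ?_⟩
  · have h1 := Per967.exp_spin_L M (Per967.gg_transpose' G (show (0 : Fin 9) ≠ 1 by decide))
      (Per967.gg_sq' G (show (0 : Fin 9) ≠ 1 by decide)) (2 * Real.pi)
      (Pi.single ((α, A) : Lift406.Idx N) 1)
    have h2 : 2 * Real.pi / 2 = Real.pi := by ring
    rw [h2, Real.cos_pi, Real.sin_pi, mul_zero, zero_smul, add_zero, neg_one_smul, map_neg,
      Per967.L_single, ← e] at h1
    have h3 := congrArg (fun f : F →L[ℂ] F => f v) h1
    simp only [mul_apply_eq_comp, _root_.neg_apply, Lift406.th_apply] at h3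
    exact h3.symm
  · have h1 := Lift406.exp_eigen (LinearMap.toContinuousLinearMap (Sp M G (rot 0 1))) 0 Ω
      (by rw [zero_smul]; exact Sp_vac hΩ) (2 * Real.pi)
    rw [mul_zero, Complex.exp_zero, one_smul] at h1
    exact h1

/-- The rotation by `2 π` of a wave function is the parity. -/
theorem U_two_pi [Nontrivial F] {P : F →ₗ[ℂ] F} (hP : IsParity M G P) (φ : Cfg N → F) :
    U M G (rot 0 1) (2 * Real.pi) φ = fun x => P (φ x) := by
  have h := parity_unique hP (isParity_eS (M := M) (G := G))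
  funext x
  show eS M G (rot 0 1) (2 * Real.pi) (φ (vf (NormedSpace.exp ((2 * Real.pi) • rot 0 1)) x)) = _
  rw [exp_rot_two_pi (by decide), vf_one, h]
  rfl

end par

/-! ## 2. Even zero states from the bound on odd core vectors -/

/-- `q_{g,1} ≥ (1/6) ‖φ‖²` for odd core vectors. -/
def OddBound (N : ℕ) : Prop :=
  ∀ (F : Type) [NormedAddCommGroup F] [InnerProductSpace ℂ F] [FiniteDimensional ℂ F]
    [Nontrivial F] (b : ColorBasis N) (M : FermionRep N F) (R : GaugeAction b M) (G : GammaNine)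
    (g : ℝ), 0 < g → ∀ P : F →ₗ[ℂ] F, IsParity M G P → ∀ φ : Cfg N → F, IsCoreVec b R φ →
    (∀ x, P (φ x) = -φ x) → 1 / 6 * ∫ x, ‖φ x‖ ^ 2 ≤ qf b M G g 1 φ

section even

variable {N : ℕ} {F : Type*} [NormedAddCommGroup F] [InnerProductSpace ℂ F]
  [FiniteDimensional ℂ F] [Nontrivial F] {b : ColorBasis N} {M : FermionRep N F}
  {R : GaugeAction b M} {G : GammaNine} {P : F →ₗ[ℂ] F}

/-- the odd part -/
def odd (P : F →ₗ[ℂ] F) (φ : Cfg N → F) : Cfg N → F := (1 / 2 : ℂ) • (φ + (-1 : ℂ) • fun x => P (φ x))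

theorem odd_apply (P : F →ₗ[ℂ] F) (φ : Cfg N → F) (x : Cfg N) :
    odd P φ x = (1 / 2 : ℂ) • (φ x - P (φ x)) := by
  simp [odd, sub_eq_add_neg]

theorem odd_core (hP : IsParity M G P) {φ : Cfg N → F} (h : IsCoreVec b R φ) :
    IsCoreVec b R (odd P φ) := cv_smul _ (cv_add h (cv_smul _ (core_P (hP.rho R) h)))

theorem odd_odd (hP : IsParity M G P) (φ : Cfg N → F) (x : Cfg N) :
    P (odd P φ x) = -odd P φ x := by
  rw [odd_apply, map_smul, map_sub, hP.sq, ← smul_neg, neg_sub]

theorem qf_odd_le (hP : IsParity M G P) {φ : Cfg N → F} (h : IsCoreVec b R φ) (g m : ℝ) :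
    qf b M G g m (odd P φ) ≤ qf b M G g m φ := by
  unfold qf
  refine mul_le_mul_of_nonneg_left (Finset.sum_le_sum fun α _ => ?_) (by norm_num)
  refine integral_mono (QM0363.int_sq_dcharge G g m α (odd_core hP h))
    (QM0363.int_sq_dcharge G g m α h) fun x => ?_
  have hd := cv_diff h
  have hd' : Differentiable ℝ fun x => P (φ x) := cv_diff (core_P (hP.rho R) h)
  have hd'' : Differentiable ℝ ((-1 : ℂ) • fun x => P (φ x)) := hd'.const_smul (-1 : ℂ)
  have e : dcharge b M G g m α (odd P φ) x =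
      (1 / 2 : ℂ) • (dcharge b M G g m α φ x + P (dcharge b M G g m α φ x)) := by
    unfold odd
    rw [dcharge_smul b M G g m α _ (hd.add hd''), dcharge_add b M G g m α hd hd'',
      dcharge_smul b M G g m α _ hd']
    simp only [Pi.smul_apply, Pi.add_apply]
    rw [dcharge_P b hP.anti g m α (hd x)]
    simp
  have h1 : ‖dcharge b M G g m α (odd P φ) x‖ ≤ ‖dcharge b M G g m α φ x‖ := by
    rw [e, norm_smul]
    have h2 := norm_add_le (dcharge b M G g m α φ x) (P (dcharge b M G g m α φ x))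
    rw [hP.norm] at h2
    have h3 : ‖(1 / 2 : ℂ)‖ = 1 / 2 := by norm_num
    rw [h3]
    linarith
  exact pow_le_pow_left₀ (norm_nonneg _) h1 2

/-- **All zero states are even.** -/
theorem evenAll_of {N : ℕ} (hO : OddBound N) : Close478.EvenAll N := by
  intro F _ _ _ _ b M R G ψ hψ P hP
  set ψ' : Cfg N → F := ψ + (-1 : ℂ) • fun x => P (ψ x) with hψ'
  have hz : ψ' ∈ zset b M R G 1 0 := zset_add hψ (zset_smul _ (zset_P hP hψ))
  have happ : ∀ x, ψ' x = ψ x - P (ψ x) := fun x => by simp [hψ', sub_eq_add_neg]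
  have hodd : ∀ x, P (ψ' x) = -ψ' x := fun x => by
    rw [happ, map_sub, hP.sq, neg_sub]
  have hI0 : ∫ x, ‖ψ' x‖ ^ 2 = 0 := by
    by_contra hne
    have hpos : 0 < ∫ x, ‖ψ' x‖ ^ 2 :=
      lt_of_le_of_ne (integral_nonneg fun _ => sq_nonneg _) (Ne.symm hne)
    set S := ∫ x, ‖ψ' x‖ ^ 2 with hS
    obtain ⟨ρ, hρ, h1⟩ := QM0363.quasi_g hz (ε := S / 28) (by positivity)
    obtain ⟨g, hg, h2⟩ := h1 ρ hρ le_rfl
    obtain ⟨φ, hφ, -, h3, h4⟩ := h2 g le_rfl
    set l := g ^ ((1 : ℝ) / 3) with hl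
    have hl0 : 0 < l := by positivity
    set u := Scale423.Us l ψ' with hu
    have huP : ∀ x, P (u x) = -u x := fun x => by
      rw [hu, Scale423.Us_apply, map_smul, hodd, smul_neg]
    have huM : MemLp u 2 volume := Scale423.Us_memLp hl0 hz.1
    have hφo := odd_core (G := G) hP hφ
    have h5 := hO F b M R G g hg P hP (odd P φ) hφo (odd_odd hP φ)
    have h6 := h5.trans ((qf_odd_le hP hφ g 1).trans h4)
    -- distance of the odd parts
    have hMs : MemLp (fun x => φ x - u x) 2 volume := (Dict416.cv_memLp hφ).sub huM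
    have hMo : MemLp (fun x => odd P φ x - u x) 2 volume := (Dict416.cv_memLp hφo).sub huM
    have h7 : ∫ x, ‖odd P φ x - u x‖ ^ 2 ≤ ∫ x, ‖φ x - u x‖ ^ 2 := by
      refine integral_mono (QM0363.int_sq_memLp hMo) (QM0363.int_sq_memLp hMs) fun x => ?_
      have e : odd P φ x - u x = (1 / 2 : ℂ) • ((φ x - u x) - P (φ x - u x)) := by
        rw [odd_apply, map_sub, huP]
        module
      have h8 : ‖odd P φ x - u x‖ ≤ ‖φ x - u x‖ := by
        rw [e, norm_smul]
        have h9 := norm_sub_le (φ x - u x) (P (φ x - u x))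
        rw [hP.norm] at h9
        have h10 : ‖(1 / 2 : ℂ)‖ = 1 / 2 := by norm_num
        rw [h10]
        linarith
      exact pow_le_pow_left₀ (norm_nonneg _) h8 2
    -- the norm of `u`
    have h8 : ∫ x, ‖u x‖ ^ 2 ≤ 2 * (∫ x, ‖odd P φ x - u x‖ ^ 2) +
        2 * (∫ x, ‖odd P φ x‖ ^ 2) := by
      rw [← integral_const_mul, ← integral_const_mul, ← integral_add
        ((QM0363.int_sq_memLp hMo).const_mul 2)
        ((QM0363.int_sq_memLp (Dict416.cv_memLp hφo)).const_mul 2)]
      refine integral_mono (QM0363.int_sq_memLp huM)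
        (((QM0363.int_sq_memLp hMo).const_mul 2).add
          ((QM0363.int_sq_memLp (Dict416.cv_memLp hφo)).const_mul 2)) fun x => ?_
      show ‖u x‖ ^ 2 ≤ 2 * ‖odd P φ x - u x‖ ^ 2 + 2 * ‖odd P φ x‖ ^ 2
      have h9 : ‖u x‖ ≤ ‖odd P φ x - u x‖ + ‖odd P φ x‖ := by
        have h10 := norm_sub_le (odd P φ x) (odd P φ x - u x)
        rw [sub_sub_cancel] at h10
        linarith
      nlinarith [norm_nonneg (u x), norm_nonneg (odd P φ x - u x), norm_nonneg (odd P φ x),
        sq_nonneg (‖odd P φ x - u x‖ - ‖odd P φ x‖)]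
    have h9 : ∫ x, ‖u x‖ ^ 2 = S := by
      have e1 := Dict416.norm_toLp_sq huM
      have e2 := Dict416.norm_toLp_sq hz.1
      rw [← e1, hS, ← e2, Lp.norm_toLp, Lp.norm_toLp, hu, Scale423.eLpNorm_Us hl0]
    linarith
  have h1 : (fun x => ‖ψ' x‖ ^ 2) =ᵐ[volume] 0 :=
    (integral_eq_zero_iff_of_nonneg (fun _ => sq_nonneg _) (QM0363.int_sq_memLp hz.1)).1 hI0
  filter_upwards [h1] with x hx
  have h2 : ‖ψ' x‖ ^ 2 = 0 := hx
  have h3 : ψ' x = 0 := by simpa using h2
  rw [happ] at h3
  exact (sub_eq_zero.1 h3).symm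

end even

/-! ## 3. The bound from the algebra and the circle -/

section bound

open Crest.Agent.R330.GapAlg916 Crest.Agent.R330.GapTor967 Crest.Agent.R330.Dict416

variable {N : ℕ} {F : Type*} [NormedAddCommGroup F] [InnerProductSpace ℂ F]
  [FiniteDimensional ℂ F] [Nontrivial F] {b : ColorBasis N} {M : FermionRep N F}
  {R : GaugeAction b M} {G : GammaNine}

/-- The bound for the literal charges. -/
theorem odd_bound_lit {g m : ℝ} (hm : 0 ≤ m) {Q : Fin 16 → core b R →ₗ[ℂ] core b R}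
    (hQ : ∀ α φ, (Q α φ : Cfg N → F) = dcharge b M G g m α (φ : Cfg N → F))
    {Ham : core b R →ₗ[ℂ] core b R} {J : Fin 9 × Fin 9 → core b R →ₗ[ℂ] core b R}
    (h : Susy G m (ιC R) Q Ham J) {V : ℝ → core b R →ₗ[ℂ] core b R}
    (hV : Rot (ιC R) Ham V (J (0, 1)) (8 * Real.pi)) (hp : HasProj (ιC R) V (8 * Real.pi))
    (hVU : ∀ φ : core b R, (V (2 * Real.pi) φ : Cfg N → F) = U M G (rot 0 1) (2 * Real.pi) φ)
    {P : F →ₗ[ℂ] F} (hP : IsParity M G P) {φ : Cfg N → F} (hφ : IsCoreVec b R φ)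
    (hodd : ∀ x, P (φ x) = -φ x) : m / 6 * ∫ x, ‖φ x‖ ^ 2 ≤ qf b M G g m φ := by
  have h1 := odd_bound_rot h hm GapFin967.ιC_injective hV hp
    (φ := (⟨φ, hφ⟩ : core b R)) (by
      apply Subtype.ext
      rw [hVU, U_two_pi hP]
      funext x
      exact hodd x)
  rw [norm_ιC_sq, ← h.form_self] at h1
  refine h1.trans_eq ?_
  unfold qf
  congr 1
  refine Finset.sum_congr rfl fun α _ => ?_
  rw [norm_ιC_sq, hQ]

end bound

end Crest.Agent.R330.Par522

end
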