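import Crest.Agent.R330.GaugeEx_973
import Crest.Agent.R330.Alg_962
import Crest.Agent.R330.LS_839

/-!
# R330/ParK_342 (leaf S7-R, part R0) : fermion parity of a colour splitting

For a submodule `K` of colour space: `Rk K = R⁹ ⊗ K`, and a symmetric involution `Γ` of `F` which
commutes with all fermions `θ(v)`, `v ∈ R¹⁶ ⊗ K`, and anticommutes with all `θ(v)`,
`v ∈ R¹⁶ ⊗ Kᗮ` (`exists_parity`).  If `K` is closed under the bracket then
`[K,K] ⊆ K`, `[K,Kᗮ] ⊆ Kᗮ` and the coefficients of the charges split (`rows` lemmas).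
-/

set_option autoImplicit false
set_option linter.unusedSectionVars false

open MeasureTheory Filter Topology Crest.MathPhysics.MatrixQM
open Crest.Agent.R330.IBP837 Crest.Agent.R330.Defs478 Crest.Agent.R330.LS839
open Crest.Agent.R330.Vac973 Crest.Agent.R330.GaugeEx973
open scoped ContDiff InnerProductSpace ENNReal Matrix

noncomputable section

namespace Crest.Agent.R330.ParK342

variable {N : ℕ}

/-! ### 1. Rows -/

/-- colour vector from its coordinates -/
def cv (w : Fin (N ^ 2 - 1) → ℝ) : Colg N := WithLp.toLp 2 w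

theorem cv_apply (w : Fin (N ^ 2 - 1) → ℝ) (A : Fin (N ^ 2 - 1)) : cv w A = w A := rfl

/-- the `i`-th row of a configuration -/
def row (x : Cfg N) (i : Fin 9) : Colg N := cv fun A => x (i, A)

theorem row_apply (x : Cfg N) (i : Fin 9) (A : Fin (N ^ 2 - 1)) : row x i A = x (i, A) := rfl

theorem row_add (x y : Cfg N) (i : Fin 9) : row (x + y) i = row x i + row y i := by
  ext A; simp [row, cv]

theorem row_smul (r : ℝ) (x : Cfg N) (i : Fin 9) : row (r • x) i = r • row x i := by
  ext A; simp [row, cv]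

theorem row_zero (i : Fin 9) : row (0 : Cfg N) i = 0 := by
  ext A; simp [row, cv]

/-- `R⁹ ⊗ K` -/
def Rk (K : Submodule ℝ (Colg N)) : Submodule ℝ (Cfg N) where
  carrier := {x | ∀ i, row x i ∈ K}
  add_mem' hx hy i := by rw [row_add]; exact K.add_mem (hx i) (hy i)
  zero_mem' i := by rw [row_zero]; exact K.zero_mem
  smul_mem' r x hx i := by rw [row_smul]; exact K.smul_mem r (hx i)

theorem mem_Rk {K : Submodule ℝ (Colg N)} {x : Cfg N} : x ∈ Rk K ↔ ∀ i, row x i ∈ K := Iff.rfl

theorem inner_row (x y : Cfg N) : ⟪x, y⟫_ℝ = ∑ i, ⟪row x i, row y i⟫_ℝ := by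
  simp only [PiLp.inner_apply, Fintype.sum_prod_type]
  rfl

theorem inner_colg (u v : Colg N) : ⟪u, v⟫_ℝ = ∑ A, u A * v A := by
  simp [PiLp.inner_apply, mul_comm]

theorem Rk_orth {K : Submodule ℝ (Colg N)} {x y : Cfg N} (hx : x ∈ Rk K) (hy : y ∈ Rk Kᗮ) :
    ⟪x, y⟫_ℝ = 0 := by
  rw [inner_row]
  exact Finset.sum_eq_zero fun i _ => (Submodule.mem_orthogonal _ _).1 (hy i) _ (hx i)

/-- configuration with a single nonzero row -/
def unrow (i : Fin 9) (w : Colg N) : Cfg N := WithLp.toLp 2 fun k => if k.1 = i then w k.2 else 0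

theorem row_unrow (i j : Fin 9) (w : Colg N) : row (unrow i w) j = if j = i then w else 0 := by
  ext A
  show (if j = i then w A else 0) = _
  split_ifs <;> simp

theorem mem_Rk_orthogonal {K : Submodule ℝ (Colg N)} {x : Cfg N} :
    x ∈ (Rk K)ᗮ ↔ x ∈ Rk Kᗮ := by
  constructor
  · intro h i
    rw [Submodule.mem_orthogonal]
    intro w hw
    have h1 : unrow i w ∈ Rk K := by
      intro j
      rw [row_unrow]
      split_ifs
      · exact hw
      · exact K.zero_mem
    have h2 := (Submodule.mem_orthogonal _ _).1 h _ h1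
    rw [inner_row, Finset.sum_eq_single i] at h2
    · rwa [row_unrow, if_pos rfl] at h2
    · intro j _ hj
      rw [row_unrow, if_neg hj, inner_zero_left]
    · intro h3; exact absurd (Finset.mem_univ i) h3
  · intro h
    rw [Submodule.mem_orthogonal]
    intro y hy
    exact Rk_orth hy h

/-- a coefficient family whose rows are in `K` -/
def In (K : Submodule ℝ (Colg N)) (w : Fin 16 → Fin (N ^ 2 - 1) → ℝ) : Prop := ∀ β, cv (w β) ∈ K

variable {F : Type*} [NormedAddCommGroup F] [InnerProductSpace ℂ F]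

theorem in_add {K : Submodule ℝ (Colg N)} {w w' : Fin 16 → Fin (N ^ 2 - 1) → ℝ}
    (h : In K w) (h' : In K w') : In K (fun β A => w β A + w' β A) := fun β =>
  K.add_mem (h β) (h' β)

theorem in_smul {K : Submodule ℝ (Colg N)} {w : Fin 16 → Fin (N ^ 2 - 1) → ℝ} (r : ℝ)
    (h : In K w) : In K (fun β A => r * w β A) := fun β => K.smul_mem r (h β)

theorem in_sub {K : Submodule ℝ (Colg N)} {w w' : Fin 16 → Fin (N ^ 2 - 1) → ℝ}
    (h : In K w) (h' : In K w') : In K (fun β A => w β A - w' β A) := fun β =>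
  K.sub_mem (h β) (h' β)

variable [FiniteDimensional ℂ F]

/-- `Θ_α(e)` as a real combination of the fermions -/
theorem Theta_eq_vco (M : FermionRep N F) (G : GammaNine) (α : Fin 16) (e : Cfg N) :
    Theta M G α e = vco M (fun β A => ∑ i, G.γ i α β * e (i, A)) := by
  ext v
  unfold Theta
  rw [LinearMap.sum_apply, vco_apply]
  simp only [LinearMap.smul_apply, dco_apply, Fintype.sum_prod_type, Finset.smul_sum, smul_smul]
  rw [Finset.sum_comm]
  refine Finset.sum_congr rfl fun A _ => ?_
  rw [Finset.sum_comm]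
  refine Finset.sum_congr rfl fun β _ => ?_
  push_cast
  rw [Finset.sum_smul]
  refine Finset.sum_congr rfl fun i _ => ?_
  rw [mul_comm]

theorem in_Theta {K : Submodule ℝ (Colg N)} (G : GammaNine) (α : Fin 16) {e : Cfg N}
    (he : e ∈ Rk K) : In K (fun β A => ∑ i, G.γ i α β * e (i, A)) := by
  intro β
  have h : cv (fun A => ∑ i, G.γ i α β * e (i, A)) = ∑ i, G.γ i α β • row e i := by
    ext A
    simp [cv, row]
  rw [h]
  exact K.sum_mem fun i _ => K.smul_mem _ (he i)

/-- orthogonal coefficient families anticommute -/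
theorem vco_anti {K : Submodule ℝ (Colg N)} (M : FermionRep N F)
    {w w' : Fin 16 → Fin (N ^ 2 - 1) → ℝ} (h : In K w) (h' : In Kᗮ w') (v : F) :
    vco M w (vco M w' v) = -(vco M w' (vco M w v)) := by
  have h1 := Alg962.vco_anticomm M w w' v
  have h2 : ∑ A, ∑ β, w β A * w' β A = 0 := by
    rw [Finset.sum_comm]
    refine Finset.sum_eq_zero fun β _ => ?_
    have h3 := (Submodule.mem_orthogonal _ _).1 (h' β) _ (h β)
    rw [inner_colg] at h3
    exact h3
  rw [h2] at h1
  rw [Complex.ofReal_zero, zero_smul] at h1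
  exact eq_neg_of_add_eq_zero_left h1

/-! ### 2. The parity -/

/-- the reflection matrix `2 P_K - 1` -/
def rm (K : Submodule ℝ (Colg N)) : Matrix (Fin (N ^ 2 - 1)) (Fin (N ^ 2 - 1)) ℝ :=
  Matrix.of fun A B => K.reflection (EuclideanSpace.single B 1) A

theorem rm_apply (K : Submodule ℝ (Colg N)) (w : Colg N) (A : Fin (N ^ 2 - 1)) :
    ∑ B, rm K A B * w B = K.reflection w A := by
  have h : w = ∑ B, w B • (EuclideanSpace.single B (1 : ℝ) : Colg N) := by
    ext A
    simp [Pi.single_apply]
  conv_rhs => rw [h]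
  rw [map_sum]
  simp only [map_smul, rm, Matrix.of_apply]
  have h2 : ∀ f : Fin (N ^ 2 - 1) → Colg N, (∑ B, f B) A = ∑ B, f B A := by
    intro f
    simp
  rw [h2]
  refine Finset.sum_congr rfl fun B _ => ?_
  rw [PiLp.smul_apply, smul_eq_mul, mul_comm]

theorem rm_orth (K : Submodule ℝ (Colg N)) : (rm K)ᵀ * rm K = 1 := by
  ext A B
  rw [Matrix.mul_apply]
  simp only [Matrix.transpose_apply]
  have h1 : ∑ C, rm K C A * rm K C B =
      ⟪K.reflection (EuclideanSpace.single A (1 : ℝ)),
        K.reflection (EuclideanSpace.single B (1 : ℝ))⟫_ℝ := by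
    rw [inner_colg]; rfl
  rw [h1, LinearIsometryEquiv.inner_map_map, Matrix.one_apply]
  rw [EuclideanSpace.inner_single_left]
  simp [Pi.single_apply]

theorem rm_sq (K : Submodule ℝ (Colg N)) : rm K * rm K = 1 := by
  ext A B
  rw [Matrix.mul_apply]
  have h1 := rm_apply K (K.reflection (EuclideanSpace.single B (1 : ℝ))) A
  rw [Submodule.reflection_reflection] at h1
  have h2 : ∀ C, rm K C B = K.reflection (EuclideanSpace.single B (1 : ℝ)) C := fun C => rfl
  simp only [h2]
  rw [h1, Matrix.one_apply]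
  simp [Pi.single_apply]

/-- **Fermion parity of a colour splitting.** -/
theorem exists_parity (M : FermionRep N F) (K : Submodule ℝ (Colg N)) :
    ∃ Γ : F →ₗ[ℂ] F, Γ.IsSymmetric ∧ (∀ v, Γ (Γ v) = v) ∧
      (∀ w v, In K w → Γ (vco M w v) = vco M w (Γ v)) ∧
      (∀ w v, In Kᗮ w → Γ (vco M w v) = -(vco M w (Γ v))) := by
  rcases subsingleton_or_nontrivial F with hF | hF
  · refine ⟨LinearMap.id, fun x y => rfl, fun v => rfl, fun w v _ => rfl, fun w v _ => ?_⟩
    exact Subsingleton.elim _ _
  obtain ⟨Ω, h⟩ := exists_vac (M := M)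
  have hO := rm_orth K
  have hm : (rm K * rm K)ᵀ * (rm K * rm K) = 1 := by rw [rm_sq]; simp
  have hinv : ∀ v, lift h hO (lift h hO v) = v := by
    intro v
    have h1 : lift h hm = lift h hO ∘ₗ lift h hO := lift_mul h hO hO hm
    have h2 : lift h hm = LinearMap.id := by
      refine (lift_unique h hm rfl fun α A v => ?_).symm
      rw [rm_sq, Finset.sum_eq_single A]
      · rw [Matrix.one_apply_eq, Complex.ofReal_one, one_smul]
        rfl
      · intro B _ hB
        rw [Matrix.one_apply_ne hB, Complex.ofReal_zero, zero_smul]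
      · intro h2
        exact absurd (Finset.mem_univ A) h2
    rw [h2] at h1
    exact (congrArg (fun L : F →ₗ[ℂ] F => L v) h1).symm
  have hv : ∀ (w : Fin 16 → Fin (N ^ 2 - 1) → ℝ) (v : F), lift h hO (vco M w v) =
      vco M (fun β A => K.reflection (cv (w β)) A) (lift h hO v) := by
    intro w v
    rw [vco_apply, vco_apply, map_sum]
    simp only [map_sum, map_smul, lift_theta, ← rm_apply]
    push_cast
    simp only [Finset.sum_smul, Finset.smul_sum, smul_smul]
    rw [Finset.sum_comm]
    conv_rhs => rw [Finset.sum_comm]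
    refine Finset.sum_congr rfl fun β _ => ?_
    rw [Finset.sum_comm]
    refine Finset.sum_congr rfl fun B _ => Finset.sum_congr rfl fun A _ => ?_
    rw [cv_apply, mul_comm]
  refine ⟨lift h hO, fun x y => ?_, hinv, fun w v hw => ?_, fun w v hw => ?_⟩
  · have h1 := inner_lift h hO x (lift h hO y)
    rwa [hinv] at h1
  · rw [hv]
    congr 2
    funext β A
    rw [Submodule.reflection_mem_subspace_eq_self (hw β)]
    rfl
  · rw [hv]
    have h2 : (fun β A => K.reflection (cv (w β)) A) = fun β A => -(w β A) := by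
      funext β A
      rw [Submodule.reflection_mem_subspace_orthogonalComplement_eq_neg (hw β)]
      rfl
    rw [h2, vco_apply, vco_apply]
    simp only [← Finset.sum_neg_distrib]
    refine Finset.sum_congr rfl fun A _ => Finset.sum_congr rfl fun β _ => ?_
    push_cast
    rw [neg_smul]

/-! ### 3. Brackets and the splitting of the potential -/

/-- the bracket on colour space -/
def cbr (b : ColorBasis N) (u v : Colg N) : Colg N := cv (SlB314.br b u.ofLp v.ofLp)

/-- `K` is closed under the bracket -/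
def Closed (b : ColorBasis N) (K : Submodule ℝ (Colg N)) : Prop :=
  ∀ u ∈ K, ∀ v ∈ K, cbr b u v ∈ K

end Crest.Agent.R330.ParK342
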