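import Crest.Agent.R330.GapTor_967
import Crest.Agent.R330.SInd_478
import Crest.Agent.R330.Om0_331
import Crest.Agent.R330.NeutU_45
import Crest.Agent.R330.Lift_406
import Crest.Agent.R330.SDefs_726

/-!
# Row 330 (helper522): the parity of the zero modes is even, part 1

`exp (2 π J₁₂)` is the fermion parity, so odd core vectors have half-integral `J₁₂`-weight.

* `J01_bound` : `q ≥ (m/3) |μ| ‖ψ‖²` for a `J₁₂`-weight vector (only one circle is used).
* `odd_bound_abs` : `q ≥ (m/6) ‖φ‖²` if all `J₁₂`-weights of `φ` are at least `1/2`.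
* `par M G` : `exp (π · (1/2) Σ (γ¹γ² ⊗ 1) θ θ)`; `isParity_par`, `isParity_unique`, `par_par`,
  `par_rho`.
-/

set_option autoImplicit false
set_option linter.unusedSectionVars false

open Filter Topology Set MeasureTheory Crest.MathPhysics.MatrixQM
open scoped InnerProductSpace Matrix

noncomputable section

namespace Crest.Agent.R330.Par522

open Crest.Agent.R330.GapAbs967 Crest.Agent.R330.GapAlg916 Crest.Agent.R330.GapTor967
open Complex (I)

/-! ## 1. The bound -/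

section abs

variable {V H : Type*} [AddCommGroup V] [Module ℂ V]
  [NormedAddCommGroup H] [InnerProductSpace ℂ H]
  {G : GammaNine} {m : ℝ} {ι : V →ₗ[ℂ] H} {Q : Fin 16 → V →ₗ[ℂ] V} {Ham : V →ₗ[ℂ] V}
  {J : Fin 9 × Fin 9 → V →ₗ[ℂ] V}

/-- the bound for one sign -/
theorem J01_sign (h : Susy G m ι Q Ham J) {ψ : V} {μ : ℝ} (h01 : J (0, 1) ψ = (I * μ) • ψ)
    {e0 : ℝ} (he0 : e0 = 1 ∨ e0 = -1) :
    0 ≤ 16 * (⟪ι ψ, ι (Ham ψ)⟫_ℂ).re + 16 / 3 * m * (e0 * μ) * ‖ι ψ‖ ^ 2 := by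
  obtain ⟨s, hs, hex⟩ := exists_eig G
  have o1 : (1 : ℝ) = 1 ∨ (1 : ℝ) = -1 := Or.inl rfl
  have o2 : (-1 : ℝ) = 1 ∨ (-1 : ℝ) = -1 := Or.inr rfl
  obtain ⟨a1, ha1⟩ := hex e0 s 1 1 he0 hs o1 o1 (by ring)
  obtain ⟨a2, ha2⟩ := hex e0 s (-1) (-1) he0 hs o2 o2 (by ring)
  obtain ⟨a3, ha3⟩ := hex e0 (-s) 1 (-1) he0 (neg_sign hs) o1 o2 (by ring)
  obtain ⟨a4, ha4⟩ := hex e0 (-s) (-1) 1 he0 (neg_sign hs) o2 o1 (by ring)
  have p1 := h.Hv_nonneg ha1 he0 hs o1 o1 ψ
  have p2 := h.Hv_nonneg ha2 he0 hs o2 o2 ψ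
  have p3 := h.Hv_nonneg ha3 he0 (neg_sign hs) o1 o2 ψ
  have p4 := h.Hv_nonneg ha4 he0 (neg_sign hs) o2 o1 ψ
  have hsum : ((4 : ℂ) • Ham ψ + (2 * m : ℂ) • Lop J e0 s 1 1 ψ) +
      ((4 : ℂ) • Ham ψ + (2 * m : ℂ) • Lop J e0 s (-1) (-1) ψ) +
      ((4 : ℂ) • Ham ψ + (2 * m : ℂ) • Lop J e0 (-s) 1 (-1) ψ) +
      ((4 : ℂ) • Ham ψ + (2 * m : ℂ) • Lop J e0 (-s) (-1) 1 ψ) =
      ((16 : ℝ) : ℂ) • Ham ψ + ((16 / 3 * m * (e0 * μ) : ℝ) : ℂ) • ψ := by
    have hI : (-2 * I) * ((1 / 3 * e0 : ℝ) : ℂ) * (I * μ) = ((2 / 3 * (e0 * μ) : ℝ) : ℂ) := by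
      push_cast
      linear_combination (-(2 / 3 : ℂ) * e0 * μ) * Complex.I_mul_I
    have hL : Lop J e0 s 1 1 ψ + Lop J e0 s (-1) (-1) ψ + Lop J e0 (-s) 1 (-1) ψ +
        Lop J e0 (-s) (-1) 1 ψ = (4 * ((2 / 3 * (e0 * μ) : ℝ) : ℂ)) • ψ := by
      rw [← hI]
      simp only [Lop, h01]
      push_cast
      module
    have e1 : ((4 : ℂ) • Ham ψ + (2 * m : ℂ) • Lop J e0 s 1 1 ψ) +
      ((4 : ℂ) • Ham ψ + (2 * m : ℂ) • Lop J e0 s (-1) (-1) ψ) +
      ((4 : ℂ) • Ham ψ + (2 * m : ℂ) • Lop J e0 (-s) 1 (-1) ψ) +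
      ((4 : ℂ) • Ham ψ + (2 * m : ℂ) • Lop J e0 (-s) (-1) 1 ψ) =
      (16 : ℂ) • Ham ψ + (2 * m : ℂ) • (Lop J e0 s 1 1 ψ + Lop J e0 s (-1) (-1) ψ +
        Lop J e0 (-s) 1 (-1) ψ + Lop J e0 (-s) (-1) 1 ψ) := by module
    rw [e1, hL]
    push_cast
    module
  have p5 := add_nonneg (add_nonneg (add_nonneg p1 p2) p3) p4
  rw [← Complex.add_re, ← Complex.add_re, ← Complex.add_re, ← inner_add_right, ← inner_add_right,
    ← inner_add_right, ← map_add, ← map_add, ← map_add, hsum, map_add, map_smul, map_smul,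
    inner_add_right, Complex.add_re, re_inner_real_smul, inner_smul_right,
    Complex.re_ofReal_mul] at p5
  exact p5

/-- **`q ≥ (m/3) |μ| ‖ψ‖²`** for a `J₁₂`-weight vector. -/
theorem J01_bound (h : Susy G m ι Q Ham J) {ψ : V} {μ : ℝ} (h01 : J (0, 1) ψ = (I * μ) • ψ) :
    m / 3 * |μ| * ‖ι ψ‖ ^ 2 ≤ (⟪ι ψ, ι (Ham ψ)⟫_ℂ).re := by
  rcases le_total 0 μ with h0 | h0
  · have := J01_sign h h01 (e0 := -1) (Or.inr rfl)
    rw [abs_of_nonneg h0]
    linarith
  · have := J01_sign h h01 (e0 := 1) (Or.inl rfl)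
    rw [abs_of_nonpos h0]
    linarith

/-- **`q ≥ (m/6) ‖φ‖²`** if the `J₁₂`-weights of `φ` are at least `1/2`. -/
theorem odd_bound_abs (h : Susy G m ι Q Ham J) (hm : 0 ≤ m) {P : ℤ → V →ₗ[ℂ] V}
    (hP : Circ ι Ham P) {μ : ℤ → ℝ} {φ : V}
    (hJ : ∀ n, J (0, 1) (P n φ) = (I * ((μ n : ℝ) : ℂ)) • P n φ)
    (hw : ∀ n, P n φ ≠ 0 → 1 / 2 ≤ |μ n|) :
    m / 6 * ‖ι φ‖ ^ 2 ≤ (⟪ι φ, ι (Ham φ)⟫_ℂ).re := by
  have h5 : 0 ≤ K ι Ham (m / 6) φ := by
    refine hP.K_nonneg fun n => ?_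
    by_cases hn : P n φ = 0
    · rw [hn]
      simp [K]
    · have h1 := J01_bound h (hJ n)
      have h2 := hw n hn
      unfold K
      have h3 : m / 6 * ‖ι (P n φ)‖ ^ 2 ≤ m / 3 * |μ n| * ‖ι (P n φ)‖ ^ 2 := by
        refine mul_le_mul_of_nonneg_right ?_ (by positivity)
        nlinarith
      linarith
  unfold K at h5
  linarith

/-- **`q ≥ (m/6) ‖φ‖²`** if the rotation by `2 π` changes the sign of `φ`. -/
theorem odd_bound_rot (h : Susy G m ι Q Ham J) (hm : 0 ≤ m) (hι : Function.Injective ι)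
    {U : ℝ → V →ₗ[ℂ] V} (hU : Rot ι Ham U (J (0, 1)) (8 * Real.pi))
    (hp : HasProj ι U (8 * Real.pi)) {φ : V} (hodd : U (2 * Real.pi) φ = -φ) :
    m / 6 * ‖ι φ‖ ^ 2 ≤ (⟪ι φ, ι (Ham φ)⟫_ℂ).re := by
  obtain ⟨P, hg, hc, hJ⟩ := hU.exists_circ hι h.Ham_symm hp
  have hpi : (Real.pi : ℂ) ≠ 0 := by exact_mod_cast Real.pi_pos.ne'
  refine odd_bound_abs h hm hc (μ := fun n : ℤ => (n : ℝ) / 4) (φ := φ) (fun n => ?_)
    fun n hn => ?_
  · rw [hJ]
    congr 1
    push_cast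
    field_simp
    ring
  · -- `U (2π)` on `P n φ`
    by_contra hlt
    rw [not_le] at hlt
    apply hn
    have hcomm : U (2 * Real.pi) (P n φ) = -P n φ := by
      refine eq_of_weak hι fun χ => ?_
      have h1 : ⟪ι χ, ι (U (2 * Real.pi) (P n φ))⟫_ℂ = ⟪ι χ, ι (P n (U (2 * Real.pi) φ))⟫_ℂ := by
        rw [← hg.neg_left, hg.proj, hg.proj]
        congr 1
        funext s
        rw [hg.neg_left, ← hg.add, ← hg.add, add_comm]
      rw [h1, hodd, map_neg]
    have h2 : ∀ χ, (1 + ch (8 * Real.pi) n (2 * Real.pi)) * ⟪ι χ, ι (P n φ)⟫_ℂ = 0 := fun χ => by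
      have h3 := hg.U_P n (2 * Real.pi) χ φ
      rw [hcomm, map_neg, inner_neg_right] at h3
      linear_combination -h3
    have h4 : (1 + ch (8 * Real.pi) n (2 * Real.pi)) ≠ 0 := by
      have hn1 : |(n : ℝ)| < 2 := by
        rw [abs_div, abs_of_pos (show (0 : ℝ) < 4 by norm_num)] at hlt
        linarith
      have hn2 : n = -1 ∨ n = 0 ∨ n = 1 := by
        have h5 : |n| < 2 := by exact_mod_cast hn1
        rw [abs_lt] at h5
        omega
      have e : ch (8 * Real.pi) n (2 * Real.pi) = Complex.exp ((Real.pi / 2 : ℝ) * I * n) := by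
        unfold ch
        congr 1
        push_cast
        field_simp
        ring
      rw [e]
      rcases hn2 with rfl | rfl | rfl
      · have : Complex.exp ((Real.pi / 2 : ℝ) * I * ((-1 : ℤ) : ℂ)) = -I := by
          have h6 : ((Real.pi / 2 : ℝ) : ℂ) * I * ((-1 : ℤ) : ℂ) = -(Real.pi / 2 * I) := by
            push_cast; ring
          rw [h6, Complex.exp_neg, Complex.exp_pi_div_two_mul_I]
          simp
        rw [this]
        intro h7
        have := congrArg Complex.re h7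
        simp at this
      · simp
      · have : Complex.exp ((Real.pi / 2 : ℝ) * I * ((1 : ℤ) : ℂ)) = I := by
          have h6 : ((Real.pi / 2 : ℝ) : ℂ) * I * ((1 : ℤ) : ℂ) = Real.pi / 2 * I := by
            push_cast; ring
          rw [h6, Complex.exp_pi_div_two_mul_I]
        rw [this]
        intro h7
        have := congrArg Complex.re h7
        simp at this
    refine eq_of_weak hι fun χ => ?_
    rw [map_zero, inner_zero_right]
    exact (mul_eq_zero.1 (h2 χ)).resolve_left h4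

end abs

/-! ## 2. The parity operator -/

section par

open Crest.Agent.R330.Defs478 Crest.Agent.R330.SInd478 Crest.Agent.R330.Om0331
open Crest.Agent.R330.Neut45 (IsVac Cliff spinB)

variable {N : ℕ} {F : Type*} [NormedAddCommGroup F] [InnerProductSpace ℂ F]
  [FiniteDimensional ℂ F] (M : FermionRep N F) (G : GammaNine)

/-- `γ¹ γ² ⊗ 1` -/
def X12 (N : ℕ) (G : GammaNine) : Matrix (Om0331.Idx N) (Om0331.Idx N) ℝ :=
  tens N (G.γ 0 * G.γ 1)

/-- the bilinear `(1/2) Σ (γ¹γ² ⊗ 1) θ θ`, twice the spin part of `J₁₂` -/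
def B12 : F →L[ℂ] F := LinearMap.toContinuousLinearMap (spinB (tht M) (X12 N G))

/-- the parity operator `exp (2 π (1/4) θ γ¹γ² θ)` -/
def par : F →L[ℂ] F := NormedSpace.exp (Real.pi • B12 M G)

theorem X12_transpose : (X12 N G)ᵀ = -X12 N G := by
  have h := gg_transpose G (p := (0, 1)) mem01
  unfold gg at h
  unfold X12
  rw [tens_transpose, h, tens_neg]

theorem X12_sq : X12 N G * X12 N G = -1 := by
  have h1 : G.γ 0 * G.γ 1 * (G.γ 0 * G.γ 1) = -1 := by
    have h := gg_transpose G (p := (0, 1)) mem01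
    unfold gg at h
    have h2 : (G.γ 0 * G.γ 1)ᵀ * (G.γ 0 * G.γ 1) = 1 := by
      have := W_transpose_mul G [0, 1]
      simpa [W] using this
    rw [h] at h2
    have h3 : G.γ 0 * G.γ 1 * (G.γ 0 * G.γ 1) = -(-(G.γ 0 * G.γ 1) * (G.γ 0 * G.γ 1)) := by
      rw [neg_mul, neg_neg]
    simpa using h3.trans (congrArg Neg.neg h2)
  unfold X12
  rw [tens_mul, h1, tens_neg, tens_one]

/-- `IsGVac` in the convention of `Neut_45`. -/
theorem isGVac_iff (Ω : F) : IsGVac M G Ω ↔ IsVac (tht M) (tens N (-(Defs478.Gam G))) Ω := by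
  have e : ∀ p : Om0331.Idx N, -I • ∑ l : Om0331.Idx N,
      ((tens N (-(Defs478.Gam G)) l p : ℝ) : ℂ) • tht M l Ω =
      I • ∑ β : Fin 16, ((Defs478.Gam G β p.1 : ℝ) : ℂ) • M.θ β p.2 Ω := by
    intro p
    rw [Fintype.sum_prod_type]
    have h1 : ∀ x : Fin 16, ∑ y : Fin (N ^ 2 - 1),
        ((tens N (-(Defs478.Gam G)) (x, y) p : ℝ) : ℂ) • tht M (x, y) Ω =
        -(((Defs478.Gam G x p.1 : ℝ) : ℂ) • M.θ x p.2 Ω) := by
      intro x
      rw [Finset.sum_eq_single p.2]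
      · simp [tens, tht]
      · intro y _ hy
        simp [tens, hy]
      · intro h
        exact absurd (Finset.mem_univ _) h
    simp only [h1]
    rw [Finset.sum_neg_distrib, smul_neg, neg_smul, neg_neg]
  constructor
  · intro h p
    rw [e p]
    exact h p.1 p.2
  · intro h α A
    have := h (α, A)
    rw [e (α, A)] at this
    exact this

theorem par_theta (p : Om0331.Idx N) (v : F) :
    par M G (tht M p v) = -tht M p (par M G v) := by
  have h := Neut45.conj_rot (cliff_tht M) (X12_transpose G) (X12_sq G)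
    (P := (1 : Matrix (Om0331.Idx N) (Om0331.Idx N) ℝ)) (by simp) (by simp) (by simp)
    Real.pi (Pi.single p 1)
  have e1 : X12 N G * (1 : Matrix (Om0331.Idx N) (Om0331.Idx N) ℝ) = X12 N G := mul_one _
  rw [e1] at h
  have e2 : (1 - (1 : Matrix (Om0331.Idx N) (Om0331.Idx N) ℝ)).mulVec (Pi.single p 1) +
      Real.cos Real.pi • (1 : Matrix (Om0331.Idx N) (Om0331.Idx N) ℝ).mulVec (Pi.single p 1) +
      Real.sin Real.pi • (X12 N G).mulVec (Pi.single p 1) = -Pi.single p (1 : ℝ) := by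
    rw [sub_self, Matrix.zero_mulVec, Matrix.one_mulVec, Real.cos_pi, Real.sin_pi, zero_smul,
      zero_add, add_zero, neg_one_smul]
  rw [e2] at h
  have h1 := congrArg (fun f : F →L[ℂ] F => f v) h
  simp only [mul_apply_eq_comp] at h1
  have e3 : ∀ u : Om0331.Idx N → ℝ, ∀ w : F,
      (LinearMap.toContinuousLinearMap (Neut45.th (tht M) u) : F →L[ℂ] F) w =
        Neut45.th (tht M) u w := fun u w => rfl
  rw [e3, e3, Neut45.th_neg, LinearMap.neg_apply, Neut45.th_single] at h1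
  exact h1

theorem B12_vac {Ω : F} (h : IsGVac M G Ω) : B12 M G Ω = 0 := by
  rw [isGVac_iff] at h
  have hG := GapAlg916.Gam_transpose G
  have hS : ∀ i, G.γ i * G.γ i = 1 := fun i => GapAlg916.γ_sq G i
  refine Neut45.spinB_vac_zero (cliff_tht M) (J := tens N (-(Defs478.Gam G))) (K := X12 N G)
    (S := tens N (G.γ 3)) (S' := tens N (G.γ 3)) ?_ (X12_transpose G) ?_ ?_ ?_ ?_ h
  · rw [tens_transpose, Matrix.transpose_neg, hG, tens_neg]
  · have := gg_comm_Gam G (p := (0, 1)) mem01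
    unfold gg at this
    unfold X12
    rw [tens_mul, tens_mul, mul_neg, neg_mul]
    congr 2
  · rw [tens_mul, hS, tens_one]
  · have h1 : W G [3] * W G [0, 1] = W G [0, 1] * W G [3] := W_comm G (by decide)
    simp only [W, List.map_cons, List.map_nil, List.prod_cons, List.prod_nil, mul_one] at h1
    unfold X12
    rw [tens_mul, tens_mul, h1]
  · have h1 : W G [3] * W G [0, 1, 2] = -(W G [0, 1, 2] * W G [3]) := W_anti G (by decide)
    rw [← Gam_eq] at h1
    simp only [W, List.map_cons, List.map_nil, List.prod_cons, List.prod_nil, mul_one] at h1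
    rw [tens_mul, tens_mul, mul_neg, h1, neg_neg, neg_mul, tens_neg, neg_neg]

theorem par_vac {Ω : F} (h : IsGVac M G Ω) : par M G Ω = Ω := by
  have h1 := Lift406.exp_eigen (B12 M G) 0 Ω (by rw [B12_vac M G h, zero_smul]) Real.pi
  rw [mul_zero, Complex.exp_zero, one_smul] at h1
  exact h1

/-- **`par` is the parity.** -/
theorem isParity_par : IsParity M G (par M G : F →ₗ[ℂ] F) :=
  ⟨fun α A v => par_theta M G (α, A) v, fun _ h => par_vac M G h⟩

theorem exists_gVac [Nontrivial F] : ∃ Ω : F, Ω ≠ 0 ∧ IsGVac M G Ω := by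
  obtain ⟨Ω, h0, h⟩ := Neut45.exists_vac (cliff_tht M) (J := tens N (-(Defs478.Gam G)))
    (by rw [tens_transpose, Matrix.transpose_neg, GapAlg916.Gam_transpose, tens_neg])
    (by rw [tens_mul, neg_mul_neg, GapAlg916.Gam_sq, tens_neg, tens_one])
  exact ⟨Ω, h0, (isGVac_iff M G Ω).2 h⟩

variable {M G}

/-- The product of two parities is the identity. -/
theorem parity_comp [Nontrivial F] {P P' : F →ₗ[ℂ] F} (h : IsParity M G P)
    (h' : IsParity M G P') (v : F) : P (P' v) = v := by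
  obtain ⟨Ω, h0, hΩ⟩ := exists_gVac M G
  obtain ⟨c, hc⟩ := Lift406.schur M (LinearMap.toContinuousLinearMap (P ∘ₗ P')) (by
    intro p
    ext v
    simp only [mul_apply_eq_comp, LinearMap.coe_toContinuousLinearMap',
      LinearMap.comp_apply, Lift406.th_apply]
    rw [h'.anti, map_neg, h.anti, neg_neg])
  have h1 : ∀ w, P (P' w) = c • w := fun w => by
    have := congrArg (fun f : F →L[ℂ] F => f w) hc
    simpa using this
  have h2 : c = 1 := by
    have h3 := h1 Ω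
    rw [h'.vac Ω hΩ, h.vac Ω hΩ] at h3
    by_contra hne
    apply h0
    have h4 : (1 - c) • Ω = 0 := by rw [sub_smul, one_smul, ← h3, sub_self]
    exact (smul_eq_zero.1 h4).resolve_left (sub_ne_zero.2 (Ne.symm hne))
  rw [h1, h2, one_smul]

/-- **Uniqueness of the parity.** -/
theorem parity_unique [Nontrivial F] {P P' : F →ₗ[ℂ] F} (h : IsParity M G P)
    (h' : IsParity M G P') : P = P' := by
  ext v
  have h1 := parity_comp h h (P' v)
  rw [parity_comp h h' v] at h1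
  exact h1

theorem par_par [Nontrivial F] (v : F) : par M G (par M G v) = v :=
  parity_comp (isParity_par M G) (isParity_par M G) v

end par

end Crest.Agent.R330.Par522

end
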