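import Crest.Agent.R330.Top_478

/-!
# Row 330, S8-SUM: the index set of the channels (helper879)

* `Lam N` : partitions of `N` with at least two parts; `card_Lam : card (Lam N) = pN N - 1`.
* `P.m`, `P.k : Fin P.m → ℕ` : number and sizes of the clusters (sorted, non-increasing);
  `sum_k`, `k_pos`, `k_lt`, `two_le_m`, `map_k` (the multiset of sizes is the partition).
* `P.eqv : (Σ p, Fin (P.k p)) ≃ Fin N`, `P.cl : Fin N → Fin P.m` (label of the cluster),
  `card_cl`, `cl_surj`.
* `exists_label` : every `f : Fin N → ι` with two different values is `r ∘ P.cl` up to a permutation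
  of `Fin N`, with `r` injective, for some `P : Lam N`; `label_unique` : `P` is unique.
* `Sw P` : permutations of the clusters which preserve the sizes; `lift σ : Perm (Fin N)` moves the
  clusters accordingly (`cl_lift`, `lift_eqv`).
-/

set_option autoImplicit false

noncomputable section

namespace Crest.Agent.R330.Parts879

open Crest.Agent.R330.Top478

/-- Partitions of `N` with at least two parts. -/
def Lam (N : ℕ) : Type := {P : Nat.Partition N // 2 ≤ P.parts.card}

variable {N : ℕ}

instance : DecidableEq (Lam N) := Classical.decEq _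

instance : Fintype (Lam N) := by
  unfold Lam
  exact Subtype.fintype _

theorem parts_card_eq_zero (P : Nat.Partition N) (h : P.parts.card = 0) : N = 0 := by
  have h1 := P.parts_sum
  rw [Multiset.card_eq_zero.1 h] at h1
  simpa using h1.symm

theorem card_lt_two_iff (P : Nat.Partition N) :
    ¬ 2 ≤ P.parts.card ↔ P = Nat.Partition.indiscrete N := by
  constructor
  · intro h
    rcases Nat.eq_zero_or_pos N with rfl | hN
    · exact Subsingleton.elim _ _
    have h1 : P.parts.card ≠ 0 := fun h0 => hN.ne' (parts_card_eq_zero P h0)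
    have h2 : P.parts.card = 1 := by omega
    obtain ⟨a, ha⟩ := Multiset.card_eq_one.1 h2
    have h3 := P.parts_sum
    rw [ha, Multiset.sum_singleton] at h3
    subst h3
    apply Nat.Partition.ext
    rw [ha, Nat.Partition.indiscrete_parts hN.ne']
  · rintro rfl h
    rcases Nat.eq_zero_or_pos N with rfl | hN
    · have h0 : (Nat.Partition.indiscrete 0).parts = 0 := by
        have h1 := (Nat.Partition.indiscrete 0).parts_sum
        rw [Multiset.sum_eq_zero_iff] at h1
        refine Multiset.eq_zero_of_forall_notMem fun a ha => ?_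
        have h2 := h1 a ha
        have h3 := (Nat.Partition.indiscrete 0).parts_pos ha
        omega
      rw [h0] at h
      simp at h
    · rw [Nat.Partition.indiscrete_parts hN.ne'] at h
      simp at h

theorem card_Lam (N : ℕ) : Fintype.card (Lam N) = pN N - 1 := by
  classical
  have h1 : Fintype.card (Lam N) =
      Fintype.card {P : Nat.Partition N // ¬ P = Nat.Partition.indiscrete N} := by
    refine Fintype.card_congr (Equiv.subtypeEquivRight fun P => ?_)
    rw [← card_lt_two_iff, not_not]
  rw [h1, Fintype.card_subtype_compl, Fintype.card_subtype_eq]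
  rfl

namespace Lam

variable (P : Lam N)

/-- The number of clusters. -/
def m : ℕ := P.1.parts.card

/-- The list of the sizes, non-increasing. -/
def list : List ℕ := P.1.parts.sort (· ≥ ·)

theorem length_list : P.list.length = P.m := by
  unfold list m
  exact Multiset.length_sort _

/-- The sizes of the clusters. -/
def k (p : Fin P.m) : ℕ := P.list.get (p.cast P.length_list.symm)

theorem two_le_m : 2 ≤ P.m := P.2

theorem m_pos : 0 < P.m := lt_of_lt_of_le two_pos P.2

theorem coe_list : (P.list : Multiset ℕ) = P.1.parts := Multiset.sort_eq _ _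

theorem ofFn_k : List.ofFn P.k = P.list := by
  apply List.ext_get
  · rw [List.length_ofFn, P.length_list]
  · intro n h1 h2
    simp [k]

theorem map_k : (Finset.univ : Finset (Fin P.m)).val.map P.k = P.1.parts := by
  rw [← P.coe_list, ← P.ofFn_k]
  rw [Fin.univ_val_map]

theorem sum_k : ∑ p, P.k p = N := by
  have h := P.1.parts_sum
  rw [← P.map_k] at h
  exact h

theorem k_mem (p : Fin P.m) : P.k p ∈ P.1.parts := by
  rw [← P.map_k]
  exact Multiset.mem_map_of_mem _ (Finset.mem_univ_val p)

theorem k_pos (p : Fin P.m) : 0 < P.k p := P.1.parts_pos (P.k_mem p)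

theorem one_le_k (p : Fin P.m) : 1 ≤ P.k p := P.k_pos p

theorem k_antitone : Antitone P.k := by
  intro p q hpq
  rcases hpq.eq_or_lt with rfl | h
  · exact le_rfl
  have h1 : P.list.Pairwise (· ≥ ·) := Multiset.pairwise_sort _ _
  exact List.pairwise_iff_get.1 h1 _ _ (by simpa using h)

/-- Every cluster is smaller than `N`. -/
theorem k_lt (p : Fin P.m) : P.k p < N := by
  obtain ⟨q, hq⟩ : ∃ q : Fin P.m, q ≠ p := by
    have : Nontrivial (Fin P.m) := Fin.nontrivial_iff_two_le.2 P.two_le_m
    exact exists_ne p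
  have h1 : P.k p + P.k q ≤ ∑ r, P.k r := by
    have h2 : ∑ r ∈ ({p, q} : Finset (Fin P.m)), P.k r ≤ ∑ r, P.k r :=
      Finset.sum_le_sum_of_subset (Finset.subset_univ _)
    rwa [Finset.sum_pair hq.symm] at h2
  rw [P.sum_k] at h1
  have := P.k_pos q
  omega

theorem two_le (P : Lam N) : 2 ≤ N := by
  have h1 : ∑ _p : Fin P.m, 1 ≤ ∑ p, P.k p := Finset.sum_le_sum fun p _ => P.one_le_k p
  rw [P.sum_k] at h1
  simp only [Finset.sum_const, Finset.card_univ, Fintype.card_fin, smul_eq_mul, mul_one] at h1
  exact P.two_le_m.trans h1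

/-- The identification of the disjoint union of the clusters with `Fin N`. -/
def eqv : (Σ p : Fin P.m, Fin (P.k p)) ≃ Fin N := finSigmaFinEquiv.trans (finCongr P.sum_k)

/-- The label of the cluster. -/
def cl (a : Fin N) : Fin P.m := (P.eqv.symm a).1

theorem cl_eqv (x : Σ p : Fin P.m, Fin (P.k p)) : P.cl (P.eqv x) = x.1 := by
  rw [cl, Equiv.symm_apply_apply]

theorem fib_bij (p : Fin P.m) : Function.Bijective
    (fun i : Fin (P.k p) => (⟨P.eqv ⟨p, i⟩, P.cl_eqv _⟩ : {a : Fin N // P.cl a = p})) := by
  constructor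
  · intro i j hij
    have h1 := P.eqv.injective (congrArg Subtype.val hij)
    simpa using h1
  · rintro ⟨a, rfl⟩
    refine ⟨(P.eqv.symm a).2, Subtype.ext ?_⟩
    change P.eqv (P.eqv.symm a) = a
    rw [Equiv.apply_symm_apply]

/-- The cluster of label `p`. -/
def fib (p : Fin P.m) : Fin (P.k p) ≃ {a : Fin N // P.cl a = p} := Equiv.ofBijective _ (P.fib_bij p)

theorem fib_coe (p : Fin P.m) (i : Fin (P.k p)) : (P.fib p i : Fin N) = P.eqv ⟨p, i⟩ := rfl

theorem card_cl (p : Fin P.m) : Fintype.card {a : Fin N // P.cl a = p} = P.k p := by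
  classical
  rw [← Fintype.card_congr (P.fib p), Fintype.card_fin]

theorem card_filter_cl (p : Fin P.m) :
    (Finset.univ.filter fun a : Fin N => P.cl a = p).card = P.k p := by
  classical
  rw [← P.card_cl p, Fintype.card_subtype]

theorem cl_surj (p : Fin P.m) : ∃ a : Fin N, P.cl a = p :=
  ⟨P.eqv ⟨p, ⟨0, P.k_pos p⟩⟩, P.cl_eqv _⟩

end Lam

/-! ### Equivalences from equal multisets of values -/

theorem card_fiber {α ν : Type*} [Fintype α] [DecidableEq ν] (f : α → ν) (n : ν)
    [Fintype {a // f a = n}] :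
    Fintype.card {a // f a = n} = Multiset.count n ((Finset.univ : Finset α).val.map f) := by
  rw [Fintype.card_subtype, Multiset.count_map, Finset.card_def, Finset.filter_val]
  congr 1
  exact Multiset.filter_congr fun a _ => eq_comm

/-- An equivalence which matches two functions with the same multiset of values. -/
theorem exists_equiv_of_map_eq {α β ν : Type*} [Fintype α] [Fintype β] (f : α → ν) (g : β → ν)
    (h : (Finset.univ : Finset α).val.map f = (Finset.univ : Finset β).val.map g) :
    ∃ e : α ≃ β, ∀ a, g (e a) = f a := by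
  classical
  have h1 : ∀ n, Nonempty ({a // f a = n} ≃ {b // g b = n}) := fun n =>
    Fintype.card_eq.1 (by rw [card_fiber, card_fiber, h])
  let E := fun n => (h1 n).some
  refine ⟨(Equiv.sigmaFiberEquiv f).symm.trans ((Equiv.sigmaCongrRight E).trans
    (Equiv.sigmaFiberEquiv g)), fun a => ?_⟩
  exact (E (f a) ⟨a, rfl⟩).2

/-- Labellings with matching fibre sizes differ by permutations. -/
theorem exists_perm_of_card {α ι κ : Type*} [Fintype α] [DecidableEq ι] [DecidableEq κ]
    (f : α → ι) (g : α → κ) (e : ι ≃ κ)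
    (h : ∀ y, Fintype.card {a // f a = y} = Fintype.card {a // g a = e y}) :
    ∃ τ : Equiv.Perm α, ∀ a, g (τ a) = e (f a) := by
  classical
  have h1 : ∀ y, Nonempty ({a // f a = y} ≃ {a // g a = e y}) := fun y => Fintype.card_eq.1 (h y)
  let E := fun n => (h1 n).some
  let T : (Σ y, {a // f a = y}) ≃ Σ z, {a // g a = z} :=
    (Equiv.sigmaCongrRight E).trans (Equiv.sigmaCongrLeft (β := fun z => {a // g a = z}) e)
  refine ⟨(Equiv.sigmaFiberEquiv f).symm.trans (T.trans (Equiv.sigmaFiberEquiv g)), fun a => ?_⟩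
  exact (E (f a) ⟨a, rfl⟩).2

/-- Every labelling of `Fin N` with at least two values is a cluster labelling, up to a permutation
and an injective renaming of the labels. -/
theorem exists_label {ι : Type*} (f : Fin N → ι) (hf : ∃ a b, f a ≠ f b) :
    ∃ (P : Lam N) (r : Fin P.m → ι) (τ : Equiv.Perm (Fin N)), Function.Injective r ∧
      ∀ a, f (τ a) = r (P.cl a) := by
  classical
  obtain ⟨a₀, b₀, hab⟩ := hf
  set S : Finset ι := Finset.univ.image f with hS
  let sz : S → ℕ := fun y => Fintype.card {a // f a = y.1}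
  have hfS : ∀ a, f a ∈ S := fun a => Finset.mem_image_of_mem _ (Finset.mem_univ a)
  let fS : Fin N → S := fun a => ⟨f a, hfS a⟩
  have hsz : ∀ y : S, sz y = Fintype.card {a // fS a = y} := fun y =>
    Fintype.card_congr (Equiv.subtypeEquivRight fun a => by
      simp only [fS, Subtype.ext_iff])
  have hpos : ∀ y : S, 0 < sz y := fun y => by
    obtain ⟨a, -, ha⟩ := Finset.mem_image.1 y.2
    exact Fintype.card_pos_iff.2 ⟨⟨a, ha⟩⟩
  have hsum : ∑ y : S, sz y = N := by
    have h1 : Fintype.card (Σ y : S, {a // fS a = y}) = N := by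
      rw [Fintype.card_congr (Equiv.sigmaFiberEquiv fS), Fintype.card_fin]
    rw [Fintype.card_sigma] at h1
    rw [← h1]
    exact Finset.sum_congr rfl fun y _ => hsz y
  have hcard : 2 ≤ Fintype.card S := by
    have h2 : (⟨f a₀, hfS a₀⟩ : S) ≠ ⟨f b₀, hfS b₀⟩ := fun h => hab (congrArg Subtype.val h)
    exact Fintype.one_lt_card_iff.2 ⟨_, _, h2⟩
  let P : Lam N := ⟨{
    parts := (Finset.univ : Finset S).val.map sz
    parts_pos := by
      intro i hi
      obtain ⟨y, -, rfl⟩ := Multiset.mem_map.1 hi
      exact hpos y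
    parts_sum := hsum }, by
      rw [Multiset.card_map]
      exact hcard⟩
  obtain ⟨e, he⟩ := exists_equiv_of_map_eq P.k sz P.map_k
  have hfib : ∀ p, Fintype.card {a // P.cl a = p} = Fintype.card {a // fS a = e p} := fun p => by
    rw [P.card_cl, ← he p]
    exact hsz _
  obtain ⟨τ, hτ⟩ := exists_perm_of_card P.cl fS e hfib
  refine ⟨P, fun p => (e p).1, τ, fun p q hpq => e.injective (Subtype.ext hpq), fun a => ?_⟩
  exact congrArg Subtype.val (hτ a)

/-- The partition is determined by the labelling. -/
theorem label_unique {ι : Type*} {P Q : Lam N} {r : Fin P.m → ι} {s : Fin Q.m → ι}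
    (hr : Function.Injective r) (hs : Function.Injective s) (τ : Equiv.Perm (Fin N))
    (h : ∀ a, r (P.cl a) = s (Q.cl (τ a))) : P = Q := by
  classical
  -- the bijection of the labels
  have h1 : ∀ p : Fin P.m, ∃ q : Fin Q.m, s q = r p := fun p => by
    obtain ⟨a, ha⟩ := P.cl_surj p
    exact ⟨Q.cl (τ a), by rw [← h a, ha]⟩
  choose e he using h1
  have he_inj : Function.Injective e := fun p q hpq => hr (by rw [← he p, ← he q, hpq])
  have he_surj : Function.Surjective e := fun q => by
    obtain ⟨a, ha⟩ := Q.cl_surj q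
    refine ⟨P.cl (τ.symm a), hs ?_⟩
    rw [he, h, Equiv.apply_symm_apply, ha]
  let E : Fin P.m ≃ Fin Q.m := Equiv.ofBijective e ⟨he_inj, he_surj⟩
  have hk : ∀ p, Q.k (E p) = P.k p := fun p => by
    rw [← P.card_cl, ← Q.card_cl]
    refine Fintype.card_congr (Equiv.subtypeEquiv τ.symm fun a => ?_)
    have h2 := h (τ.symm a)
    rw [Equiv.apply_symm_apply] at h2
    constructor
    · intro ha
      exact hr (by rw [h2, ha]; exact he p)
    · intro ha
      refine hs ?_
      rw [← h2, ha]
      exact (he p).symm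
  apply Subtype.ext
  apply Nat.Partition.ext
  rw [← P.map_k, ← Q.map_k]
  have h3 : (Finset.univ : Finset (Fin Q.m)).val = (Finset.univ : Finset (Fin P.m)).val.map E :=
    (Multiset.map_univ_val_equiv E).symm
  rw [h3, Multiset.map_map]
  exact Multiset.map_congr rfl fun p _ => (hk p).symm

/-! ### Permutations of clusters of equal size -/

/-- The permutations of the clusters which preserve the sizes. -/
def Sw (P : Lam N) : Subgroup (Equiv.Perm (Fin P.m)) where
  carrier := {σ | ∀ p, P.k (σ p) = P.k p}
  mul_mem' := by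
    intro σ τ hσ hτ p
    change P.k (σ (τ p)) = P.k p
    rw [hσ, hτ]
  one_mem' := fun p => rfl
  inv_mem' := by
    intro σ hσ p
    have h := hσ (σ⁻¹ p)
    rw [← h]
    congr 1
    exact σ.apply_symm_apply p

theorem mem_Sw {P : Lam N} {σ : Equiv.Perm (Fin P.m)} : σ ∈ Sw P ↔ ∀ p, P.k (σ p) = P.k p :=
  Iff.rfl

/-- The permutation of `Fin N` which moves the clusters. -/
def lift {P : Lam N} (σ : Equiv.Perm (Fin P.m)) (hσ : σ ∈ Sw P) : Equiv.Perm (Fin N) :=
  P.eqv.symm.trans (((Equiv.sigmaCongrRight fun p => finCongr (hσ p).symm).trans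
    (Equiv.sigmaCongrLeft (β := fun p => Fin (P.k p)) σ)).trans P.eqv)

theorem cl_lift {P : Lam N} (σ : Equiv.Perm (Fin P.m)) (hσ : σ ∈ Sw P) (a : Fin N) :
    P.cl (lift σ hσ a) = σ (P.cl a) := by
  unfold lift
  simp only [Equiv.trans_apply]
  rw [P.cl_eqv]
  rfl

theorem lift_eqv {P : Lam N} (σ : Equiv.Perm (Fin P.m)) (hσ : σ ∈ Sw P) (p : Fin P.m)
    (i : Fin (P.k p)) : lift σ hσ (P.eqv ⟨p, i⟩) = P.eqv ⟨σ p, Fin.cast (hσ p).symm i⟩ := by
  unfold lift
  simp only [Equiv.trans_apply, Equiv.symm_apply_apply]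
  rfl

end Crest.Agent.R330.Parts879

end
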