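import Crest.Agent.R330.Pkg_915
import Crest.Agent.R330.Par_478
import Crest.Agent.R330.SInd_478
import Crest.Agent.R330.Ims2_714
import Crest.Agent.R330.WeitzY_726
import Crest.Agent.R330.ScaleD_423

/-!
# R330/Pkg2_915 : core approximants of the ground state, literal forms (leaf S9-PKG)

* `hKin_wend` : the kinetic bound for every `Q^{g,m}`;
* `exists_even_seq` : even core approximants of a `Ground` state;
* `ground_pkg` : the package for a ground state, every `s < 5/2`.
-/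

set_option autoImplicit false
set_option linter.unusedSectionVars false

open MeasureTheory Filter Topology
open scoped ContDiff InnerProductSpace ENNReal
open Crest.MathPhysics.MatrixQM
open Crest.Agent.R330.Ims714
open Crest.Agent.R330.Defs478 (wpot dcharge qf zset cc Gam)
open Crest.Agent.R330.SInd478 (Ground IsParity)
open Crest.Agent.R330.Ims2714 (wend dcharge_eq_dop)

namespace Crest.Agent.R330.Pkg915

variable {N : ℕ} {F : Type*} [NormedAddCommGroup F] [InnerProductSpace ℂ F]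
  [FiniteDimensional ℂ F]

/-! ## the kinetic bound -/

theorem norm_le_jw (x : Cfg N) : ‖x‖ ≤ jw (1 / 2) x := by
  unfold jw
  rw [← Real.sqrt_eq_rpow]
  exact Real.le_sqrt_of_sq_le (by nlinarith [sq_nonneg ‖x‖])

theorem continuous_wend (b : ColorBasis N) (M : FermionRep N F) (G : GammaNine) (g m : ℝ)
    (α : Fin 16) {φ : Cfg N → F} (hφ : Continuous φ) :
    Continuous fun x => wend b M G g m α x (φ x) := by
  simp only [wend, LinearMap.sum_apply, LinearMap.smul_apply]
  refine continuous_finsetSum _ fun A _ => continuous_finsetSum _ fun β _ => ?_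
  exact (Complex.continuous_ofReal.comp (Defs478.continuous_wpot b G g m α β A)).smul
    ((LinearMap.continuous_of_finiteDimensional (M.θ β A)).comp hφ)

theorem integral_dsq {φ : Cfg N → F} (hφ : ContDiff ℝ 1 φ) (hc : HasCompactSupport φ) :
    ∫ x, dsq φ x = ∑ k : Fin 9 × Fin (N ^ 2 - 1),
      ∫ x, ‖fderiv ℝ φ x (EuclideanSpace.single k 1)‖ ^ 2 := by
  unfold dsq
  refine integral_finsetSum _ fun k _ => ?_
  refine (((hφ.continuous_fderiv one_ne_zero).clm_apply
    continuous_const).norm.pow 2).integrable_of_hasCompactSupport ?_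
  refine hasCompactSupport_of_tsupport hc fun x h => ?_
  have : fderiv ℝ φ x = 0 := by
    by_contra h1
    exact h (support_fderiv_subset ℝ h1)
  simp [this]

/-- **the kinetic bound** -/
theorem hKin_wend (b : ColorBasis N) (M : FermionRep N F) (G : GammaNine) (g m : ℝ) :
    HKin G M (wend b M G g m) := by
  obtain ⟨C, hC, hY⟩ := Weitz726.Yop_bound b M G
  set D := ‖LinearMap.toContinuousLinearMap (Weitz726.IG M G)‖ with hD
  have hD0 : 0 ≤ D := norm_nonneg _
  refine ⟨1 / 8 + 2 * (|g| * C + |m| / 8 * D), by positivity, fun φ hφ hc => ?_⟩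
  have h2 : ContDiff ℝ 2 φ := contDiff_infty.1 hφ 2
  have h1 : ContDiff ℝ 1 φ := hφ.of_le (by exact_mod_cast le_top)
  have hE := Weitz726.energy b M G g m h2 hc
  have e1 : ∀ α, (∫ x, ‖IBP837.chargeW M G (wpot b G g m) α φ x‖ ^ 2) =
      ∫ x, ‖dop G M α (wend b M G g m α) φ x‖ ^ 2 := by
    intro α
    simp only [← Brid837.dcharge_eq, dcharge_eq_dop]
  simp only [e1] at hE
  rw [← integral_dsq h1 hc] at hE
  have hV : 0 ≤ ∫ x, Weitz726.Wsq (wpot b G g m) x / 32 * ‖φ x‖ ^ 2 := by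
    refine integral_nonneg fun x => mul_nonneg (div_nonneg ?_ (by norm_num)) (by positivity)
    unfold Weitz726.Wsq
    exact Finset.sum_nonneg fun _ _ => Finset.sum_nonneg fun _ _ => Finset.sum_nonneg fun _ _ =>
      mul_self_nonneg _
  have hYi : -((|g| * C + |m| / 8 * D) * ∫ x, jw (1 / 2) x * ‖φ x‖ ^ 2) ≤
      ∫ x, (⟪φ x, ((g : ℂ) • Weitz726.Yop b M G x + ((m / 8 : ℝ) : ℂ) • Weitz726.IG M G)
        (φ x)⟫_ℂ).re := by
    rw [← integral_const_mul]
    have hi := (integrable_jw_norm (1 / 2) h1.continuous hc).const_mul (|g| * C + |m| / 8 * D)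
    have hb : ‖∫ x, (⟪φ x, ((g : ℂ) • Weitz726.Yop b M G x + ((m / 8 : ℝ) : ℂ) •
        Weitz726.IG M G) (φ x)⟫_ℂ).re‖ ≤
        ∫ x, (|g| * C + |m| / 8 * D) * (jw (1 / 2) x * ‖φ x‖ ^ 2) := by
      refine norm_integral_le_of_norm_le hi (Eventually.of_forall fun x => ?_)
      have hj1 : 1 ≤ jw (1 / 2) x := one_le_jw (by norm_num) x
      have hj2 := norm_le_jw x
      rw [Real.norm_eq_abs]
      refine (Complex.abs_re_le_norm _).trans ((norm_inner_le_norm _ _).trans ?_)
      have h3 : ‖((g : ℂ) • Weitz726.Yop b M G x + ((m / 8 : ℝ) : ℂ) • Weitz726.IG M G) (φ x)‖ ≤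
          (|g| * C + |m| / 8 * D) * jw (1 / 2) x * ‖φ x‖ := by
        rw [LinearMap.add_apply, LinearMap.smul_apply, LinearMap.smul_apply]
        refine (norm_add_le _ _).trans ?_
        rw [norm_smul, norm_smul, Complex.norm_real, Complex.norm_real, Real.norm_eq_abs,
          Real.norm_eq_abs, abs_div, abs_of_pos (by norm_num : (0 : ℝ) < 8)]
        have h4 := hY x (φ x)
        have h5 : ‖Weitz726.IG M G (φ x)‖ ≤ D * ‖φ x‖ :=
          (LinearMap.toContinuousLinearMap (Weitz726.IG M G)).le_opNorm (φ x)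
        have hn := norm_nonneg (φ x)
        calc |g| * ‖Weitz726.Yop b M G x (φ x)‖ + |m| / 8 * ‖Weitz726.IG M G (φ x)‖
            ≤ |g| * (C * ‖x‖ * ‖φ x‖) + |m| / 8 * (D * ‖φ x‖) := by gcongr
          _ ≤ |g| * (C * jw (1 / 2) x * ‖φ x‖) + |m| / 8 * (D * (jw (1 / 2) x * ‖φ x‖)) := by
              have : ‖φ x‖ ≤ jw (1 / 2) x * ‖φ x‖ := by nlinarith
              gcongr
          _ = _ := by ring
      calc ‖φ x‖ * ‖((g : ℂ) • Weitz726.Yop b M G x + ((m / 8 : ℝ) : ℂ) • Weitz726.IG M G)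
            (φ x)‖ ≤ ‖φ x‖ * ((|g| * C + |m| / 8 * D) * jw (1 / 2) x * ‖φ x‖) := by
            gcongr
        _ = _ := by ring
    rw [Real.norm_eq_abs] at hb
    exact neg_le_of_abs_le hb
  have hQ : 0 ≤ ∑ α, ∫ x, ‖dop G M α (wend b M G g m α) φ x‖ ^ 2 :=
    Finset.sum_nonneg fun _ _ => integral_nonneg fun _ => by positivity
  have hJ : 0 ≤ ∫ x, jw (1 / 2) x * ‖φ x‖ ^ 2 :=
    integral_nonneg fun x => mul_nonneg (jw_pos _ x).le (by positivity)
  have hc0 : 0 ≤ |g| * C + |m| / 8 * D := by positivity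
  nlinarith [mul_nonneg hc0 hQ]

/-! ## moments -/

theorem jw_le_pow {s : ℝ} (hs : 0 ≤ s) (x : Cfg N) : jw s x ≤ 2 ^ s * (1 + ‖x‖ ^ (2 * s)) := by
  unfold jw
  have hn := norm_nonneg x
  have hp : 0 ≤ ‖x‖ ^ (2 * s) := Real.rpow_nonneg hn _
  have h2 : (0 : ℝ) ≤ 2 ^ s := Real.rpow_nonneg (by norm_num) s
  rcases le_total ‖x‖ 1 with h | h
  · have h1 : (1 + ‖x‖ ^ 2) ^ s ≤ 2 ^ s :=
      Real.rpow_le_rpow (base_pos x).le (by nlinarith) hs
    nlinarith
  · have h1 : (1 + ‖x‖ ^ 2) ^ s ≤ (2 * ‖x‖ ^ 2) ^ s :=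
      Real.rpow_le_rpow (base_pos x).le (by nlinarith) hs
    rw [Real.mul_rpow (by norm_num) (by positivity)] at h1
    have h3 : (‖x‖ ^ 2) ^ s = ‖x‖ ^ (2 * s) := by
      rw [← Real.rpow_natCast, ← Real.rpow_mul hn]
      norm_num
    rw [h3] at h1
    nlinarith

theorem integrable_jw_of_moment {Ψ : Cfg N → F} (hΨ : MemLp Ψ 2 volume) {s : ℝ} (hs : 0 ≤ s)
    (h : Integrable fun x => ‖x‖ ^ (2 * s) * ‖Ψ x‖ ^ 2) :
    Integrable fun x => jw s x * ‖Ψ x‖ ^ 2 := by
  have h0 : Integrable fun x => ‖Ψ x‖ ^ 2 := Rel893.integrable_norm_sq_of_memLp hΨ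
  refine Integrable.mono' ((h0.add h).const_mul (2 ^ s))
    ((jw_smooth s).continuous.aestronglyMeasurable.mul (hΨ.1.norm.pow 2))
    (Eventually.of_forall fun x => ?_)
  have hj := (jw_pos s x).le
  rw [Real.norm_of_nonneg (by positivity)]
  have h1 := jw_le_pow hs x
  simp only [Pi.add_apply]
  calc jw s x * ‖Ψ x‖ ^ 2 ≤ (2 ^ s * (1 + ‖x‖ ^ (2 * s))) * ‖Ψ x‖ ^ 2 := by gcongr
    _ = _ := by ring

theorem half_two (x : ℝ≥0∞) : ENNReal.ofReal (1 / 2) * (x + x) = x := by
  have h : ENNReal.ofReal (1 / 2) + ENNReal.ofReal (1 / 2) = 1 := by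
    rw [← ENNReal.ofReal_add (by norm_num) (by norm_num)]
    norm_num
  rw [mul_add, ← add_mul, h, one_mul]

/-! ## even approximants -/

section even

variable [Nontrivial F] {b : ColorBasis N} {M : FermionRep N F} {R : GaugeAction b M}
  {G : GammaNine} {ψ : Cfg N → F}

theorem parity_unique {P P' : F →ₗ[ℂ] F} (hP : IsParity M G P) (hP' : IsParity M G P') :
    P = P' := by
  obtain ⟨Ω, h0, h⟩ := Par478.exists_gvac M G
  obtain ⟨c, hc⟩ := Par478.schur (M := M) (T := P ∘ₗ P') fun α A v => by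
    simp only [LinearMap.comp_apply]
    rw [hP'.anti, map_neg, hP.anti, neg_neg]
  have h1 := hc Ω
  simp only [LinearMap.comp_apply] at h1
  rw [hP'.vac Ω h, hP.vac Ω h] at h1
  have h2 : c = 1 := by
    by_contra hne
    have h3 : (c - 1) • Ω = 0 := by rw [sub_smul, one_smul, ← h1, sub_self]
    rcases smul_eq_zero.1 h3 with h4 | h4
    · exact hne (sub_eq_zero.1 h4)
    · exact h0 h4
  ext v
  have h3 := hc (P' v)
  simp only [LinearMap.comp_apply, h2, one_smul] at h3
  rw [hP'.sq] at h3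
  exact h3

theorem exists_even_seq (h : ψ ∈ zset b M R G 1 0)
    (he : ∀ P : F →ₗ[ℂ] F, IsParity M G P → ∀ᵐ x, P (ψ x) = ψ x) :
    ∃ φ : ℕ → Cfg N → F, (∀ n, IsCoreVec b R (φ n)) ∧
      (∀ n, ∀ P : F →ₗ[ℂ] F, IsParity M G P → ∀ x, P (φ n x) = φ n x) ∧
      Tendsto (fun n => eLpNorm (φ n - ψ) 2 volume) atTop (𝓝 0) ∧
      ∀ α, Tendsto (fun n => eLpNorm (dcharge b M G 1 0 α (φ n)) 2 volume) atTop (𝓝 0) := by
  obtain ⟨hm, φ, hφ, h1, h2⟩ := h
  by_cases hP : ∃ P : F →ₗ[ℂ] F, IsParity M G P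
  · obtain ⟨P, hP⟩ := hP
    have hPφ : ∀ n, IsCoreVec b R fun x => P (φ n x) := fun n => Par478.core_P (hP.rho R) (hφ n)
    refine ⟨fun n => (1 / 2 : ℂ) • (φ n + fun x => P (φ n x)), fun n =>
      Defs478.cv_smul _ (Defs478.cv_add (hφ n) (hPφ n)), fun n P' hP' x => ?_, ?_, fun α => ?_⟩
    · rw [parity_unique hP' hP]
      simp only [Pi.smul_apply, Pi.add_apply, map_smul, map_add, hP.sq]
      rw [add_comm]
    · have e1 : ∀ n, eLpNorm ((1 / 2 : ℂ) • (φ n + fun x => P (φ n x)) - ψ) 2 volume ≤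
          eLpNorm (φ n - ψ) 2 volume := by
        intro n
        have e2 : eLpNorm ((1 / 2 : ℂ) • (φ n + fun x => P (φ n x)) - ψ) 2 volume =
            eLpNorm ((1 / 2 : ℂ) • ((φ n - ψ) + fun x => P ((φ n - ψ) x))) 2 volume := by
          refine eLpNorm_congr_ae ?_
          filter_upwards [he P hP] with x hx
          simp only [Pi.sub_apply, Pi.smul_apply, Pi.add_apply, map_sub, hx, smul_add, smul_sub]
          have : ψ x = (1 / 2 : ℂ) • ψ x + (1 / 2 : ℂ) • ψ x := by
            rw [← add_smul]; norm_num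
          nth_rewrite 1 [this]
          abel
        rw [e2, eLpNorm_const_smul]
        have hmn : AEStronglyMeasurable (φ n - ψ) volume :=
          (Defs478.cv_aesm (hφ n)).sub hm.1
        have hmP : AEStronglyMeasurable (fun x => P ((φ n - ψ) x)) volume :=
          (LinearMap.continuous_of_finiteDimensional P).comp_aestronglyMeasurable hmn
        have e3 := eLpNorm_add_le hmn hmP (by norm_num : (1 : ℝ≥0∞) ≤ 2)
        rw [Par478.eLpNorm_P hP] at e3
        have e4 : ‖(1 / 2 : ℂ)‖ₑ = ENNReal.ofReal (1 / 2) := by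
          rw [← ofReal_norm]; norm_num
        rw [e4]
        calc _ ≤ ENNReal.ofReal (1 / 2) * (eLpNorm (φ n - ψ) 2 volume +
              eLpNorm (φ n - ψ) 2 volume) := by gcongr
          _ = eLpNorm (φ n - ψ) 2 volume := half_two _
      exact tendsto_of_tendsto_of_tendsto_of_le_of_le tendsto_const_nhds h1 (fun n => bot_le) e1
    · have e1 : ∀ n, eLpNorm (dcharge b M G 1 0 α ((1 / 2 : ℂ) • (φ n + fun x => P (φ n x)))) 2
          volume ≤ eLpNorm (dcharge b M G 1 0 α (φ n)) 2 volume := by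
        intro n
        have d1 := Defs478.cv_diff (hφ n)
        have d2 := Defs478.cv_diff (hPφ n)
        have e2 : dcharge b M G 1 0 α ((1 / 2 : ℂ) • (φ n + fun x => P (φ n x))) =
            (1 / 2 : ℂ) • (dcharge b M G 1 0 α (φ n) -
              fun x => P (dcharge b M G 1 0 α (φ n) x)) := by
          rw [Defs478.dcharge_smul b M G 1 0 α _ (d1.add d2), Defs478.dcharge_add b M G 1 0 α d1 d2]
          congr 1
          funext x
          simp only [Pi.add_apply, Pi.sub_apply]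
          rw [Par478.dcharge_P b hP.anti 1 0 α (d1 x)]
          abel
        rw [e2, eLpNorm_const_smul]
        have hmn : AEStronglyMeasurable (dcharge b M G 1 0 α (φ n)) volume :=
          Defs478.cv_aesm_dcharge (hφ n) _ _ _ _
        have hmP : AEStronglyMeasurable (fun x => P (dcharge b M G 1 0 α (φ n) x)) volume :=
          (LinearMap.continuous_of_finiteDimensional P).comp_aestronglyMeasurable hmn
        have e3 := eLpNorm_sub_le hmn hmP (by norm_num : (1 : ℝ≥0∞) ≤ 2)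
        rw [Par478.eLpNorm_P hP] at e3
        have e4 : ‖(1 / 2 : ℂ)‖ₑ = ENNReal.ofReal (1 / 2) := by
          rw [← ofReal_norm]; norm_num
        rw [e4]
        calc _ ≤ ENNReal.ofReal (1 / 2) * (eLpNorm (dcharge b M G 1 0 α (φ n)) 2 volume +
              eLpNorm (dcharge b M G 1 0 α (φ n)) 2 volume) := by gcongr
          _ = eLpNorm (dcharge b M G 1 0 α (φ n)) 2 volume := half_two _
      exact tendsto_of_tendsto_of_tendsto_of_le_of_le tendsto_const_nhds (h2 α)
        (fun n => bot_le) e1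
  · exact ⟨φ, hφ, fun n P hP' => absurd ⟨P, hP'⟩ hP, h1, h2⟩

/-- **the package for a ground state** -/
theorem ground_pkg (h : Ground b M R G ψ) {s : ℝ} (hs : 0 ≤ s) (hs2 : s < 5 / 2) :
    ∃ C : ℝ, 0 ≤ C ∧ ∀ L : ℝ, 1 ≤ L → ∀ ε : ℝ, 0 < ε → ∃ φ : Cfg N → F,
      Pk b R G (wend b M G 1 0) ψ s C L ε φ ∧
        ∀ P : F →ₗ[ℂ] F, IsParity M G P → ∀ x, P (φ x) = φ x := by
  obtain ⟨φ, hφ, hev, h1, h2⟩ := exists_even_seq h.mem h.even
  have h2' : ∀ α, Tendsto (fun n => eLpNorm (dop G M α (wend b M G 1 0 α) (φ n)) 2 volume) atTop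
      (𝓝 0) := by
    intro α
    have e : (fun n => eLpNorm (dop G M α (wend b M G 1 0 α) (φ n)) 2 volume) =
        fun n => eLpNorm (dcharge b M G 1 0 α (φ n)) 2 volume := by
      funext n
      refine congrArg (fun f => eLpNorm f 2 volume) ?_
      exact (dcharge_eq_dop b M G 1 0 α (φ n)).symm
    rw [e]
    exact h2 α
  obtain ⟨C, hC, hp⟩ := pkg (fun α φ hφ => continuous_wend b M G 1 0 α hφ) h.memLp hφ h1 h2' hs
    (integrable_jw_of_moment h.memLp hs (h.moment s hs hs2)) (hKin_wend b M G 1 0)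
  refine ⟨C, hC, fun L hL ε hε => ?_⟩
  obtain ⟨n, hn⟩ := (hp L hL ε hε).exists
  refine ⟨_, hn, fun P hP x => ?_⟩
  have hr : ∀ (c : ℝ) (f : F), c • f = (c : ℂ) • f := fun c f => (Complex.coe_smul c f).symm
  rw [hr, map_smul, hev n P hP x]

end even

end Crest.Agent.R330.Pkg915
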