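import Crest.Agent.R330.Gauss1_151

/-!
# Tensorisation of spectral gaps (helper151)

`Poinc F μ v a H C`: for all `C¹_c` functions `f : E → F`
`C (∫ ‖f‖² - ‖∫ H f‖²) ≤ ∫ ∑ k, ‖∂_{v k} f + a k f‖²`.

* `Poinc.prod` : products.
* `Poinc.equiv` : transport along measure preserving linear equivalences.
-/

set_option autoImplicit false
set_option linter.unusedSectionVars false

open MeasureTheory Filter Topology Set Real
open scoped InnerProductSpace ENNReal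

noncomputable section

namespace Crest.Agent.R330.Poinc151

section one

variable {E F : Type*} [NormedAddCommGroup E] [MeasurableSpace E] [BorelSpace E] {μ : Measure E}
  [IsFiniteMeasureOnCompacts μ] [NormedAddCommGroup F] [InnerProductSpace ℝ F] [CompleteSpace F]

theorem integrable_cc {G : Type*} [NormedAddCommGroup G] {u : E → F} (hc : HasCompactSupport u)
    {g : E → G} (hg : Continuous g) (h0 : ∀ x, u x = 0 → g x = 0) : Integrable g μ :=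
  hg.integrable_of_hasCompactSupport (hc.mono fun x hx h => hx (h0 x h))

/-- Distance to the line of `h`. -/
theorem dist_line {h : E → ℝ} {u : E → F} (hh : Continuous h) (hu : Continuous u)
    (hc : HasCompactSupport u) (h2 : Integrable (fun x => h x ^ 2) μ)
    (h1 : ∫ x, h x ^ 2 ∂μ = 1) :
    ∫ x, ‖u x - h x • ∫ y, h y • u y ∂μ‖ ^ 2 ∂μ =
      (∫ x, ‖u x‖ ^ 2 ∂μ) - ‖∫ y, h y • u y ∂μ‖ ^ 2 := by
  obtain ⟨m, hm⟩ : ∃ m : F, m = ∫ x, h x • u x ∂μ := ⟨_, rfl⟩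
  rw [← hm]
  have i1 : Integrable (fun x => ‖u x‖ ^ 2) μ :=
    integrable_cc hc (hu.norm.pow 2) fun x hx => by rw [hx]; simp
  have i2 : Integrable (fun x => h x • u x) μ :=
    integrable_cc hc (hh.smul hu) fun x hx => by rw [hx, smul_zero]
  have e1 : ∀ x, ‖u x - h x • m‖ ^ 2 = ‖u x‖ ^ 2 - 2 * ⟪m, h x • u x⟫_ℝ + h x ^ 2 * ‖m‖ ^ 2 := by
    intro x
    rw [norm_sub_sq_real, inner_smul_right, inner_smul_right, norm_smul, mul_pow,
      Real.norm_eq_abs, sq_abs, real_inner_comm]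
  have i12 : Integrable (fun x => ‖u x‖ ^ 2 - 2 * ⟪m, h x • u x⟫_ℝ) μ :=
    i1.sub ((i2.const_inner m).const_mul 2)
  simp only [e1]
  rw [integral_add i12 (h2.mul_const _), integral_sub i1 ((i2.const_inner m).const_mul 2),
    integral_mul_const, h1, integral_const_mul, integral_inner i2, ← hm,
    real_inner_self_eq_norm_sq]
  ring

/-- Cauchy–Schwarz. -/
theorem norm_integral_smul_le {h : E → ℝ} {u : E → F}
    (h2 : Integrable (fun x => h x ^ 2) μ) (hu : Integrable (fun x => ‖u x‖ ^ 2) μ)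
    (h3 : Integrable (fun x => h x • u x) μ)
    (h1 : ∫ x, h x ^ 2 ∂μ = 1) :
    ‖∫ x, h x • u x ∂μ‖ ^ 2 ≤ ∫ x, ‖u x‖ ^ 2 ∂μ := by
  obtain ⟨m, hm⟩ : ∃ m : F, m = ∫ x, h x • u x ∂μ := ⟨_, rfl⟩
  rw [← hm]
  have e1 : ∀ x, ‖u x - h x • m‖ ^ 2 = ‖u x‖ ^ 2 - 2 * ⟪m, h x • u x⟫_ℝ + h x ^ 2 * ‖m‖ ^ 2 := by
    intro x
    rw [norm_sub_sq_real, inner_smul_right, inner_smul_right, norm_smul, mul_pow,
      Real.norm_eq_abs, sq_abs, real_inner_comm]
  have i12 : Integrable (fun x => ‖u x‖ ^ 2 - 2 * ⟪m, h x • u x⟫_ℝ) μ :=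
    hu.sub ((h3.const_inner m).const_mul 2)
  have h0 : 0 ≤ ∫ x, ‖u x - h x • m‖ ^ 2 ∂μ := integral_nonneg fun x => sq_nonneg _
  simp only [e1] at h0
  rw [integral_add i12 (h2.mul_const _), integral_sub hu ((h3.const_inner m).const_mul 2),
    integral_mul_const, h1, integral_const_mul, integral_inner h3, ← hm,
    real_inner_self_eq_norm_sq] at h0
  linarith

end one

section two

variable {E₁ E₂ F : Type*} [NormedAddCommGroup E₁] [NormedSpace ℝ E₁] [FiniteDimensional ℝ E₁]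
  [MeasurableSpace E₁] [BorelSpace E₁]
  [NormedAddCommGroup E₂] [NormedSpace ℝ E₂] [FiniteDimensional ℝ E₂]
  [MeasurableSpace E₂] [BorelSpace E₂]
  {μ₁ : Measure E₁} {μ₂ : Measure E₂} [IsFiniteMeasureOnCompacts μ₁] [IsFiniteMeasureOnCompacts μ₂]
  [SigmaFinite μ₁] [SigmaFinite μ₂]
  [NormedAddCommGroup F] [InnerProductSpace ℝ F] [CompleteSpace F]

/-- Slices of compactly supported functions. -/
theorem slice_left {f : E₁ × E₂ → F} (hc : HasCompactSupport f) (y : E₂) :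
    HasCompactSupport fun x => f (x, y) := by
  refine HasCompactSupport.of_support_subset_isCompact (hc.image continuous_fst)
    fun x hx => ⟨(x, y), subset_tsupport f hx, rfl⟩

theorem slice_right {f : E₁ × E₂ → F} (hc : HasCompactSupport f) (x : E₁) :
    HasCompactSupport fun y => f (x, y) := by
  refine HasCompactSupport.of_support_subset_isCompact (hc.image continuous_snd)
    fun y hy => ⟨(x, y), subset_tsupport f hy, rfl⟩

/-- Partial averages are continuous with compact support. -/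
theorem continuous_avg {f : E₁ × E₂ → F} (hf : Continuous f) (hc : HasCompactSupport f) {H : E₁ → ℝ}
    (hH : Continuous H) : Continuous fun y => ∫ x, H x • f (x, y) ∂μ₁ := by
  have : ProperSpace E₂ := FiniteDimensional.proper ℝ E₂
  have hK : IsCompact (Prod.fst '' tsupport f) := hc.image continuous_fst
  have h1 : (fun y => ∫ x, H x • f (x, y) ∂μ₁) =
      fun y => ∫ x in Prod.fst '' tsupport f, H x • f (x, y) ∂μ₁ := by
    funext y
    refine (setIntegral_eq_integral_of_forall_compl_eq_zero fun x hx => ?_).symm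
    have : f (x, y) = 0 := by
      by_contra h
      exact hx ⟨(x, y), subset_tsupport f h, rfl⟩
    rw [this, smul_zero]
  rw [h1]
  have h2 : Continuous (Function.uncurry fun (y : E₂) (x : E₁) => H x • f (x, y)) := by
    have h3 : (Function.uncurry fun (y : E₂) (x : E₁) => H x • f (x, y)) =
        fun q : E₂ × E₁ => H q.2 • f (q.2, q.1) := by
      funext q
      rfl
    rw [h3]
    exact (hH.comp continuous_snd).smul (hf.comp (continuous_snd.prodMk continuous_fst))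
  exact continuous_parametric_integral_of_continuous h2 hK

theorem compact_avg {f : E₁ × E₂ → F} (hc : HasCompactSupport f) {H : E₁ → ℝ} :
    HasCompactSupport fun y => ∫ x, H x • f (x, y) ∂μ₁ := by
  refine HasCompactSupport.of_support_subset_isCompact (hc.image continuous_snd) fun y hy => ?_
  by_contra h
  refine hy ?_
  have h1 : ∀ x, f (x, y) = 0 := fun x => by
    by_contra h2
    exact h ⟨(x, y), subset_tsupport f h2, rfl⟩
  simp only [h1, smul_zero, integral_zero]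

/-- **Tensorisation** of the variance. -/
theorem tens {f : E₁ × E₂ → F} (hf : Continuous f) (hc : HasCompactSupport f)
    {H₁ : E₁ → ℝ} {H₂ : E₂ → ℝ} (hH₁ : Continuous H₁) (hH₂ : Continuous H₂)
    (i₁ : Integrable (fun x => H₁ x ^ 2) μ₁) (i₂ : Integrable (fun x => H₂ x ^ 2) μ₂)
    (n₁ : ∫ x, H₁ x ^ 2 ∂μ₁ = 1) (n₂ : ∫ x, H₂ x ^ 2 ∂μ₂ = 1) :
    (∫ p, ‖f p‖ ^ 2 ∂(μ₁.prod μ₂)) - ‖∫ p, (H₁ p.1 * H₂ p.2) • f p ∂(μ₁.prod μ₂)‖ ^ 2 ≤
      (∫ y, ((∫ x, ‖f (x, y)‖ ^ 2 ∂μ₁) - ‖∫ x, H₁ x • f (x, y) ∂μ₁‖ ^ 2) ∂μ₂) +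
      ∫ x, ((∫ y, ‖f (x, y)‖ ^ 2 ∂μ₂) - ‖∫ y, H₂ y • f (x, y) ∂μ₂‖ ^ 2) ∂μ₁ := by
  -- the swapped function
  have hfs : Continuous fun q : E₂ × E₁ => f (q.2, q.1) :=
    hf.comp (continuous_snd.prodMk continuous_fst)
  have hcs : HasCompactSupport fun q : E₂ × E₁ => f (q.2, q.1) := by
    refine HasCompactSupport.of_support_subset_isCompact
      (hc.image (continuous_snd.prodMk continuous_fst)) fun q hq =>
        ⟨(q.2, q.1), subset_tsupport f hq, rfl⟩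
  have hA1 : Continuous fun y => ∫ x, H₁ x • f (x, y) ∂μ₁ := continuous_avg hf hc hH₁
  have hB1 : HasCompactSupport fun y => ∫ x, H₁ x • f (x, y) ∂μ₁ := compact_avg hc
  have hA2 : Continuous fun x => ∫ y, H₂ y • f (x, y) ∂μ₂ := continuous_avg hfs hcs hH₂
  have hB2 : HasCompactSupport fun x => ∫ y, H₂ y • f (x, y) ∂μ₂ := compact_avg hcs
  obtain ⟨F1, hF1⟩ : ∃ F1 : E₂ → F, F1 = fun y => ∫ x, H₁ x • f (x, y) ∂μ₁ := ⟨_, rfl⟩
  obtain ⟨F2, hF2⟩ : ∃ F2 : E₁ → F, F2 = fun x => ∫ y, H₂ y • f (x, y) ∂μ₂ := ⟨_, rfl⟩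
  rw [← hF1] at hA1 hB1
  rw [← hF2] at hA2 hB2
  have e1 : ∀ y, ∫ x, H₁ x • f (x, y) ∂μ₁ = F1 y := fun y => by rw [hF1]
  have e2 : ∀ x, ∫ y, H₂ y • f (x, y) ∂μ₂ = F2 x := fun x => by rw [hF2]
  simp only [e1, e2]
  -- integrability
  have hsl : ∀ y, Continuous fun x => f (x, y) := fun y => hf.comp (continuous_id.prodMk continuous_const)
  have hsr : ∀ x, Continuous fun y => f (x, y) := fun x => hf.comp (continuous_const.prodMk continuous_id)
  have j0 : Integrable (fun p => ‖f p‖ ^ 2) (μ₁.prod μ₂) :=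
    integrable_cc hc (hf.norm.pow 2) fun x hx => by rw [hx]; simp
  have hHH : Continuous fun p : E₁ × E₂ => H₁ p.1 * H₂ p.2 :=
    (hH₁.comp continuous_fst).mul (hH₂.comp continuous_snd)
  have j1 : Integrable (fun p => (H₁ p.1 * H₂ p.2) • f p) (μ₁.prod μ₂) :=
    integrable_cc hc (hHH.smul hf) fun x hx => by rw [hx, smul_zero]
  have j2 : Integrable (fun y => ‖F1 y‖ ^ 2) μ₂ :=
    integrable_cc hB1 (hA1.norm.pow 2) fun x hx => by rw [hx]; simp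
  have j3 : Integrable (fun x => ‖F2 x‖ ^ 2) μ₁ :=
    integrable_cc hB2 (hA2.norm.pow 2) fun x hx => by rw [hx]; simp
  have j4 : Integrable (fun y => ∫ x, ‖f (x, y)‖ ^ 2 ∂μ₁) μ₂ := j0.integral_prod_right
  have j5 : Integrable (fun x => ∫ y, ‖f (x, y)‖ ^ 2 ∂μ₂) μ₁ := j0.integral_prod_left
  -- the total mean
  have hm1 : ∫ p, (H₁ p.1 * H₂ p.2) • f p ∂(μ₁.prod μ₂) = ∫ y, H₂ y • F1 y ∂μ₂ := by
    rw [integral_prod_symm _ j1]
    refine integral_congr_ae (ae_of_all _ fun y => ?_)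
    simp only [← e1, ← integral_smul, smul_smul]
    refine integral_congr_ae (ae_of_all _ fun x => ?_)
    show (H₁ x * H₂ y) • f (x, y) = (H₂ y * H₁ x) • f (x, y)
    rw [mul_comm]
  have hm2 : ∫ p, (H₁ p.1 * H₂ p.2) • f p ∂(μ₁.prod μ₂) = ∫ x, H₁ x • F2 x ∂μ₁ := by
    rw [integral_prod _ j1]
    refine integral_congr_ae (ae_of_all _ fun x => ?_)
    simp only [← e2, ← integral_smul, smul_smul]
  obtain ⟨m, hm⟩ : ∃ m : F, m = ∫ p, (H₁ p.1 * H₂ p.2) • f p ∂(μ₁.prod μ₂) := ⟨_, rfl⟩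
  rw [← hm] at hm1 hm2 ⊢
  -- distances
  have d1 := dist_line hH₂ hA1 hB1 i₂ n₂
  rw [← hm1] at d1
  have d2 : ∀ x, ∫ y, ‖f (x, y) - H₂ y • F2 x‖ ^ 2 ∂μ₂ =
      (∫ y, ‖f (x, y)‖ ^ 2 ∂μ₂) - ‖F2 x‖ ^ 2 := by
    intro x
    have h := dist_line hH₂ (hsr x) (slice_right hc x) i₂ n₂
    rw [e2 x] at h
    exact h
  have k1 : ∀ y, Continuous fun x => f (x, y) - H₂ y • F2 x := fun y =>
    (hsl y).sub (continuous_const.smul hA2)
  have k2 : ∀ y, HasCompactSupport fun x => f (x, y) - H₂ y • F2 x := fun y =>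
    (slice_left hc y).sub (hB2.mono fun x hx h => hx (by
      show H₂ y • F2 x = 0
      rw [h, smul_zero]))
  have d3 : ∀ y, ‖F1 y - H₂ y • m‖ ^ 2 ≤ ∫ x, ‖f (x, y) - H₂ y • F2 x‖ ^ 2 ∂μ₁ := by
    intro y
    have h1 : F1 y - H₂ y • m = ∫ x, H₁ x • (f (x, y) - H₂ y • F2 x) ∂μ₁ := by
      simp only [smul_sub]
      rw [integral_sub, e1, hm2, ← integral_smul]
      · congr 1
        refine integral_congr_ae (ae_of_all _ fun x => ?_)
        show H₂ y • H₁ x • F2 x = H₁ x • H₂ y • F2 x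
        rw [smul_smul, smul_smul, mul_comm]
      · exact integrable_cc (slice_left hc y) (hH₁.smul (hsl y)) fun x hx => by rw [hx, smul_zero]
      · exact integrable_cc hB2 (hH₁.smul (continuous_const.smul hA2)) fun x hx => by
          rw [hx, smul_zero, smul_zero]
    rw [h1]
    refine norm_integral_smul_le i₁ ?_ ?_ n₁
    · exact integrable_cc (k2 y) ((k1 y).norm.pow 2) fun x hx => by rw [hx]; simp
    · exact integrable_cc (k2 y) (hH₁.smul (k1 y)) fun x hx => by rw [hx, smul_zero]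
  -- integrability on the product
  have hcross : Continuous fun p : E₁ × E₂ => 2 * ⟪f p, H₂ p.2 • F2 p.1⟫_ℝ :=
    continuous_const.mul (hf.inner ((hH₂.comp continuous_snd).smul (hA2.comp continuous_fst)))
  have j6 : Integrable (fun p : E₁ × E₂ => 2 * ⟪f p, H₂ p.2 • F2 p.1⟫_ℝ) (μ₁.prod μ₂) :=
    integrable_cc hc hcross fun p hp => by rw [hp, inner_zero_left, mul_zero]
  have j7 : Integrable (fun p : E₁ × E₂ => ‖F2 p.1‖ ^ 2 * H₂ p.2 ^ 2) (μ₁.prod μ₂) :=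
    j3.mul_prod i₂
  have j8 : Integrable (fun p : E₁ × E₂ => ‖f p - H₂ p.2 • F2 p.1‖ ^ 2) (μ₁.prod μ₂) := by
    refine ((j0.sub j6).add j7).congr (ae_of_all _ fun p => ?_)
    show ‖f p‖ ^ 2 - 2 * ⟪f p, H₂ p.2 • F2 p.1⟫_ℝ + ‖F2 p.1‖ ^ 2 * H₂ p.2 ^ 2 =
      ‖f p - H₂ p.2 • F2 p.1‖ ^ 2
    rw [norm_sub_sq_real, norm_smul, mul_pow, Real.norm_eq_abs, sq_abs]
    ring
  have s1 : ∫ y, ‖F1 y - H₂ y • m‖ ^ 2 ∂μ₂ ≤
      ∫ x, ((∫ y, ‖f (x, y)‖ ^ 2 ∂μ₂) - ‖F2 x‖ ^ 2) ∂μ₁ := by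
    calc ∫ y, ‖F1 y - H₂ y • m‖ ^ 2 ∂μ₂
        ≤ ∫ y, ∫ x, ‖f (x, y) - H₂ y • F2 x‖ ^ 2 ∂μ₁ ∂μ₂ := by
          refine integral_mono_of_nonneg (ae_of_all _ fun y => sq_nonneg _)
            j8.integral_prod_right (ae_of_all _ d3)
      _ = ∫ x, ∫ y, ‖f (x, y) - H₂ y • F2 x‖ ^ 2 ∂μ₂ ∂μ₁ :=
          (integral_prod_symm _ j8).symm.trans (integral_prod _ j8)
      _ = _ := by simp only [d2]
  rw [d1] at s1
  rw [integral_sub j4 j2, integral_prod_symm _ j0]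
  linarith

/-- Spectral gap `C` above the line of `H` for the operators `∂_{v k} + a k`. -/
def Poinc (F : Type*) [NormedAddCommGroup F] [InnerProductSpace ℝ F]
    {E : Type*} [NormedAddCommGroup E] [NormedSpace ℝ E] [MeasurableSpace E] (μ : Measure E)
    {κ : Type*} [Fintype κ] (v : κ → E) (a : κ → E → ℝ) (H : E → ℝ) (C : ℝ) : Prop :=
  ∀ f : E → F, ContDiff ℝ 1 f → HasCompactSupport f →
    C * ((∫ x, ‖f x‖ ^ 2 ∂μ) - ‖∫ x, H x • f x ∂μ‖ ^ 2) ≤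
      ∫ x, ∑ k, ‖fderiv ℝ f x (v k) + a k x • f x‖ ^ 2 ∂μ

variable {κ₁ κ₂ : Type*} [Fintype κ₁] [Fintype κ₂] {v₁ : κ₁ → E₁} {v₂ : κ₂ → E₂}
  {a₁ : κ₁ → E₁ → ℝ} {a₂ : κ₂ → E₂ → ℝ} {H₁ : E₁ → ℝ} {H₂ : E₂ → ℝ} {C : ℝ}

/-- **Products.** -/
theorem Poinc.prod (hC : 0 ≤ C) (h₁ : Poinc F μ₁ v₁ a₁ H₁ C) (h₂ : Poinc F μ₂ v₂ a₂ H₂ C)
    (ha₁ : ∀ k, Continuous (a₁ k)) (ha₂ : ∀ k, Continuous (a₂ k))
    (hH₁ : Continuous H₁) (hH₂ : Continuous H₂)
    (i₁ : Integrable (fun x => H₁ x ^ 2) μ₁) (i₂ : Integrable (fun x => H₂ x ^ 2) μ₂)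
    (n₁ : ∫ x, H₁ x ^ 2 ∂μ₁ = 1) (n₂ : ∫ x, H₂ x ^ 2 ∂μ₂ = 1) :
    Poinc F (μ₁.prod μ₂) (Sum.elim (fun k => (v₁ k, (0 : E₂))) fun k => ((0 : E₁), v₂ k))
      (Sum.elim (fun k p => a₁ k p.1) fun k p => a₂ k p.2) (fun p => H₁ p.1 * H₂ p.2) C := by
  intro f hf hc
  have hfc : Continuous f := hf.continuous
  have hfd : ∀ v, Continuous fun p => fderiv ℝ f p v := fun v =>
    (hf.continuous_fderiv one_ne_zero).clm_apply continuous_const
  have h0 : ∀ p, p ∉ tsupport f → f p = 0 ∧ fderiv ℝ f p = 0 := fun p hp =>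
    ⟨image_eq_zero_of_notMem_tsupport hp, by
      by_contra h'
      exact hp (support_fderiv_subset ℝ h')⟩
  -- derivatives of slices
  have dl : ∀ x y v, fderiv ℝ (fun x => f (x, y)) x v = fderiv ℝ f (x, y) (v, 0) := by
    intro x y v
    have h1 : HasFDerivAt f (fderiv ℝ f (x, y)) (x, y) :=
      (hf.differentiable one_ne_zero (x, y)).hasFDerivAt
    have h2 := HasFDerivAt.comp (𝕜 := ℝ) (g := f) (f := fun x' : E₁ => (x', y)) x h1
      (hasFDerivAt_prodMk_left (𝕜 := ℝ) x y)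
    have h3 : fderiv ℝ (fun x => f (x, y)) x =
        (fderiv ℝ f (x, y)).comp (ContinuousLinearMap.inl ℝ E₁ E₂) := h2.fderiv
    rw [h3]
    simp
  have dr : ∀ x y v, fderiv ℝ (fun y => f (x, y)) y v = fderiv ℝ f (x, y) (0, v) := by
    intro x y v
    have h1 : HasFDerivAt f (fderiv ℝ f (x, y)) (x, y) :=
      (hf.differentiable one_ne_zero (x, y)).hasFDerivAt
    have h2 := HasFDerivAt.comp (𝕜 := ℝ) (g := f) (f := fun y' : E₂ => (x, y')) y h1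
      (hasFDerivAt_prodMk_right (𝕜 := ℝ) x y)
    have h3 : fderiv ℝ (fun y => f (x, y)) y =
        (fderiv ℝ f (x, y)).comp (ContinuousLinearMap.inr ℝ E₁ E₂) := h2.fderiv
    rw [h3]
    simp
  have cl : ∀ y, ContDiff ℝ 1 fun x => f (x, y) := fun y =>
    hf.comp (contDiff_id.prodMk contDiff_const)
  have cr : ∀ x, ContDiff ℝ 1 fun y => f (x, y) := fun x =>
    hf.comp (contDiff_const.prodMk contDiff_id)
  -- the two energies
  have c1 : Continuous fun p : E₁ × E₂ => ∑ k, ‖fderiv ℝ f p (v₁ k, 0) + a₁ k p.1 • f p‖ ^ 2 :=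
    continuous_finsetSum _ fun k _ =>
      ((hfd _).add (((ha₁ k).comp continuous_fst).smul hfc)).norm.pow 2
  have c2 : Continuous fun p : E₁ × E₂ => ∑ k, ‖fderiv ℝ f p (0, v₂ k) + a₂ k p.2 • f p‖ ^ 2 :=
    continuous_finsetSum _ fun k _ =>
      ((hfd _).add (((ha₂ k).comp continuous_snd).smul hfc)).norm.pow 2
  have g1 : Integrable (fun p : E₁ × E₂ =>
      ∑ k, ‖fderiv ℝ f p (v₁ k, 0) + a₁ k p.1 • f p‖ ^ 2) (μ₁.prod μ₂) := by
    refine c1.integrable_of_hasCompactSupport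
      (HasCompactSupport.of_support_subset_isCompact hc fun p hp => ?_)
    by_contra h
    refine hp ?_
    show ∑ k, ‖fderiv ℝ f p (v₁ k, 0) + a₁ k p.1 • f p‖ ^ 2 = 0
    rw [(h0 p h).1, (h0 p h).2]
    simp
  have g2 : Integrable (fun p : E₁ × E₂ =>
      ∑ k, ‖fderiv ℝ f p (0, v₂ k) + a₂ k p.2 • f p‖ ^ 2) (μ₁.prod μ₂) := by
    refine c2.integrable_of_hasCompactSupport
      (HasCompactSupport.of_support_subset_isCompact hc fun p hp => ?_)
    by_contra h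
    refine hp ?_
    show ∑ k, ‖fderiv ℝ f p (0, v₂ k) + a₂ k p.2 • f p‖ ^ 2 = 0
    rw [(h0 p h).1, (h0 p h).2]
    simp
  have e0 : ∀ p : E₁ × E₂, ∑ k : κ₁ ⊕ κ₂, ‖fderiv ℝ f p
      (Sum.elim (fun k => (v₁ k, (0 : E₂))) (fun k => ((0 : E₁), v₂ k)) k) +
      (Sum.elim (fun k (p : E₁ × E₂) => a₁ k p.1) (fun k p => a₂ k p.2) k) p • f p‖ ^ 2 =
      (∑ k, ‖fderiv ℝ f p (v₁ k, 0) + a₁ k p.1 • f p‖ ^ 2) +
        ∑ k, ‖fderiv ℝ f p (0, v₂ k) + a₂ k p.2 • f p‖ ^ 2 := by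
    intro p
    rw [Fintype.sum_sum_type]
    simp only [Sum.elim_inl, Sum.elim_inr]
  simp only [e0]
  rw [integral_add g1 g2]
  -- integrability of slices
  have hc1 : HasCompactSupport fun y => ∫ x, H₁ x • f (x, y) ∂μ₁ := compact_avg hc
  have ht1 : Continuous fun y => ∫ x, H₁ x • f (x, y) ∂μ₁ := continuous_avg hfc hc hH₁
  have hfs : Continuous fun q : E₂ × E₁ => f (q.2, q.1) :=
    hfc.comp (continuous_snd.prodMk continuous_fst)
  have hcs : HasCompactSupport fun q : E₂ × E₁ => f (q.2, q.1) := by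
    refine HasCompactSupport.of_support_subset_isCompact
      (hc.image (continuous_snd.prodMk continuous_fst)) fun q hq =>
        ⟨(q.2, q.1), subset_tsupport f hq, rfl⟩
  have hc2 : HasCompactSupport fun x => ∫ y, H₂ y • f (x, y) ∂μ₂ := compact_avg hcs
  have ht2 : Continuous fun x => ∫ y, H₂ y • f (x, y) ∂μ₂ := continuous_avg hfs hcs hH₂
  have j0 : Integrable (fun p => ‖f p‖ ^ 2) (μ₁.prod μ₂) :=
    integrable_cc hc (hfc.norm.pow 2) fun x hx => by rw [hx]; simp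
  have j1 : Integrable (fun y => (∫ x, ‖f (x, y)‖ ^ 2 ∂μ₁) - ‖∫ x, H₁ x • f (x, y) ∂μ₁‖ ^ 2) μ₂ :=
    j0.integral_prod_right.sub (integrable_cc hc1 (ht1.norm.pow 2) fun x hx => by rw [hx]; simp)
  have j2 : Integrable (fun x => (∫ y, ‖f (x, y)‖ ^ 2 ∂μ₂) - ‖∫ y, H₂ y • f (x, y) ∂μ₂‖ ^ 2) μ₁ :=
    j0.integral_prod_left.sub (integrable_cc hc2 (ht2.norm.pow 2) fun x hx => by rw [hx]; simp)
  have t := tens (μ₁ := μ₁) (μ₂ := μ₂) hfc hc hH₁ hH₂ i₁ i₂ n₁ n₂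
  have b1 : C * ∫ y, ((∫ x, ‖f (x, y)‖ ^ 2 ∂μ₁) - ‖∫ x, H₁ x • f (x, y) ∂μ₁‖ ^ 2) ∂μ₂ ≤
      ∫ p : E₁ × E₂, ∑ k, ‖fderiv ℝ f p (v₁ k, 0) + a₁ k p.1 • f p‖ ^ 2 ∂(μ₁.prod μ₂) := by
    rw [integral_prod_symm _ g1, ← integral_const_mul]
    refine integral_mono (j1.const_mul C) g1.integral_prod_right fun y => ?_
    have h := h₁ (fun x => f (x, y)) (cl y) (slice_left hc y)
    simp only [dl] at h
    exact h
  have b2 : C * ∫ x, ((∫ y, ‖f (x, y)‖ ^ 2 ∂μ₂) - ‖∫ y, H₂ y • f (x, y) ∂μ₂‖ ^ 2) ∂μ₁ ≤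
      ∫ p : E₁ × E₂, ∑ k, ‖fderiv ℝ f p (0, v₂ k) + a₂ k p.2 • f p‖ ^ 2 ∂(μ₁.prod μ₂) := by
    rw [integral_prod _ g2, ← integral_const_mul]
    refine integral_mono (j2.const_mul C) g2.integral_prod_left fun x => ?_
    have h := h₂ (fun y => f (x, y)) (cr x) (slice_right hc x)
    simp only [dr] at h
    exact h
  have t2 := mul_le_mul_of_nonneg_left t hC
  rw [mul_add] at t2
  linarith

/-- Transport along a measure preserving linear equivalence. -/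
theorem Poinc.equiv (e : E₁ ≃L[ℝ] E₂) (he : MeasurePreserving e μ₁ μ₂)
    (h : Poinc F μ₂ v₂ a₂ H₂ C) :
    Poinc F μ₁ (fun k => e.symm (v₂ k)) (fun k x => a₂ k (e x)) (fun x => H₂ (e x)) C := by
  intro f hf hc
  have hemb : MeasurableEmbedding e := e.toHomeomorph.measurableEmbedding
  have h1 := h (fun y => f (e.symm y)) (hf.comp e.symm.contDiff)
    (hc.comp_homeomorph e.symm.toHomeomorph)
  have e1 : ∫ y, ‖f (e.symm y)‖ ^ 2 ∂μ₂ = ∫ x, ‖f x‖ ^ 2 ∂μ₁ := by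
    rw [← he.integral_comp hemb]
    simp
  have e2 : ∫ y, H₂ y • f (e.symm y) ∂μ₂ = ∫ x, H₂ (e x) • f x ∂μ₁ := by
    rw [← he.integral_comp hemb]
    simp
  have e3 : ∀ x, ∀ v, fderiv ℝ (fun y => f (e.symm y)) (e x) v = fderiv ℝ f x (e.symm v) := by
    intro x v
    have h2 : HasFDerivAt f (fderiv ℝ f x) (e.symm (e x)) := by
      rw [e.symm_apply_apply]
      exact (hf.differentiable one_ne_zero x).hasFDerivAt
    have h3 := h2.comp (e x) e.symm.hasFDerivAt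
    have h4 : fderiv ℝ (fun y => f (e.symm y)) (e x) =
        (fderiv ℝ f x).comp (e.symm : E₂ →L[ℝ] E₁) := h3.fderiv
    rw [h4]
    simp
  have e4 : ∫ y, ∑ k, ‖fderiv ℝ (fun y => f (e.symm y)) y (v₂ k) + a₂ k y • f (e.symm y)‖ ^ 2 ∂μ₂ =
      ∫ x, ∑ k, ‖fderiv ℝ f x (e.symm (v₂ k)) + a₂ k (e x) • f x‖ ^ 2 ∂μ₁ := by
    rw [← he.integral_comp hemb]
    simp only [e3, e.symm_apply_apply]
  rw [e1, e2, e4] at h1
  exact h1

/-- Reindexing. -/
theorem Poinc.reindex (σ : κ₁ ≃ κ₂) (h : Poinc F μ₂ v₂ a₂ H₂ C) :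
    Poinc F μ₂ (fun k => v₂ (σ k)) (fun k => a₂ (σ k)) H₂ C := by
  intro f hf hc
  have h1 := h f hf hc
  have e : ∀ x, ∑ k, ‖fderiv ℝ f x (v₂ k) + a₂ k x • f x‖ ^ 2 =
      ∑ k, ‖fderiv ℝ f x (v₂ (σ k)) + a₂ (σ k) x • f x‖ ^ 2 := fun x =>
    (Equiv.sum_comp σ fun k => ‖fderiv ℝ f x (v₂ k) + a₂ k x • f x‖ ^ 2).symm
  simp only [e] at h1
  exact h1

end two

end Crest.Agent.R330.Poinc151

end
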