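import Crest.Agent.R330.Prod9_494

/-!
# Row 330 (helper494): block Hardy inequality on the block coordinates

* `psi_sub_le` : `∫ |Ψ f - Ψ' f|² ≤ 2 |κ| η |f|²` if `∫ |ψ_p - ψ'_p|² ≤ η²`.
* `amp_le`, `psi_amp_sub_le` : `∫ |Ψ a - Ψ' a'|² ≤ 8 |κ| η ∫ |φ|²` for the amplitudes.
* `exists_even_rep` : everywhere even representatives of the scaled ground states.
* **`psi_hardy`** : for approximants `φ' p` of the scaled ground states,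
  `∫_{‖Y p‖ ≤ δ} |w - Ψ' a'|² ≤ K (g^{-2/3} + δ²) Σ_α ∫ |Σ_p bch_p w|² + K η ∫ |w|²`.
-/

set_option autoImplicit false
set_option linter.unusedSectionVars false

open MeasureTheory Filter Topology Crest.MathPhysics.MatrixQM
open scoped ContDiff InnerProductSpace ENNReal

noncomputable section

namespace Crest.Agent.R330.Prod494

open Crest.Agent.R330.Cliff442 Crest.Agent.R330.Cliff442.CRep Crest.Agent.R330.Fact161
  Crest.Agent.R330.FactI161 Crest.Agent.R330.Psi477 Crest.Agent.R330.Defs478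
  Crest.Agent.R330.LS839 Crest.Agent.R330.Bind6839 Crest.Agent.R330.Scale423
  Crest.Agent.R330.ScaleD423 Crest.Agent.R330.SInd478
open Crest.Agent.R330.Psi477.BD (sg)

theorem norm_one_sub_prod_le {κ : Type*} (s : Finset κ) (c : κ → ℂ) (h : ∀ p ∈ s, ‖c p‖ ≤ 1) :
    ‖1 - ∏ p ∈ s, c p‖ ≤ ∑ p ∈ s, ‖1 - c p‖ := by
  classical
  induction s using Finset.induction_on with
  | empty => simp
  | insert a s ha ih =>
    rw [Finset.prod_insert ha, Finset.sum_insert ha]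
    have e : (1 : ℂ) - c a * ∏ p ∈ s, c p = (1 - c a) + c a * (1 - ∏ p ∈ s, c p) := by ring
    rw [e]
    refine (norm_add_le _ _).trans (add_le_add le_rfl ?_)
    rw [norm_mul]
    have h1 := ih fun p hp => h p (Finset.mem_insert_of_mem hp)
    have h2 := h a (Finset.mem_insert_self a s)
    calc ‖c a‖ * ‖1 - ∏ p ∈ s, c p‖ ≤ 1 * ‖1 - ∏ p ∈ s, c p‖ :=
          mul_le_mul_of_nonneg_right h2 (norm_nonneg _)
      _ ≤ _ := by rw [one_mul]; exact h1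

section cs

variable {X V : Type*} [MeasurableSpace X] {μ : Measure X} [NormedAddCommGroup V]
  [InnerProductSpace ℂ V] {f h : X → V}

theorem cs_sqrt (hf : MemLp f 2 μ) (hh : MemLp h 2 μ) :
    ‖∫ x, ⟪f x, h x⟫_ℂ ∂μ‖ ≤ √(∫ x, ‖f x‖ ^ 2 ∂μ) * √(∫ x, ‖h x‖ ^ 2 ∂μ) := by
  have h1 := cs_int hf hh
  have h0 : 0 ≤ ∫ x, ‖f x‖ ^ 2 ∂μ := integral_nonneg fun _ => sq_nonneg _
  have h0' : 0 ≤ ∫ x, ‖h x‖ ^ 2 ∂μ := integral_nonneg fun _ => sq_nonneg _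
  rw [← Real.sqrt_mul h0]
  exact Real.le_sqrt_of_sq_le h1

theorem norm_inner_le_one (hf : MemLp f 2 μ) (hh : MemLp h 2 μ) (hf1 : ∫ x, ‖f x‖ ^ 2 ∂μ = 1)
    (hh1 : ∫ x, ‖h x‖ ^ 2 ∂μ = 1) : ‖∫ x, ⟪f x, h x⟫_ℂ ∂μ‖ ≤ 1 := by
  have := cs_sqrt hf hh
  rwa [hf1, hh1, Real.sqrt_one, one_mul] at this

theorem norm_one_sub_inner (hf : MemLp f 2 μ) (hh : MemLp h 2 μ) (hf1 : ∫ x, ‖f x‖ ^ 2 ∂μ = 1) :
    ‖1 - ∫ x, ⟪f x, h x⟫_ℂ ∂μ‖ ≤ √(∫ x, ‖f x - h x‖ ^ 2 ∂μ) := by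
  have e : (1 : ℂ) - ∫ x, ⟪f x, h x⟫_ℂ ∂μ = ∫ x, ⟪f x, f x - h x⟫_ℂ ∂μ := by
    simp only [inner_sub_right]
    rw [integral_sub (integrable_inner_of_memLp hf hf) (integrable_inner_of_memLp hf hh),
      integral_inner_self, hf1, Complex.ofReal_one]
  rw [e]
  have := cs_sqrt hf (hf.sub hh)
  rw [hf1, Real.sqrt_one, one_mul] at this
  exact this

theorem norm_sq_sub_int (hf : MemLp f 2 μ) (hh : MemLp h 2 μ) :
    ∫ x, ‖f x - h x‖ ^ 2 ∂μ = ∫ x, ‖f x‖ ^ 2 ∂μ + ∫ x, ‖h x‖ ^ 2 ∂μ -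
      2 * (∫ x, ⟪f x, h x⟫_ℂ ∂μ).re := by
  have hf2 := (memLp_two_iff_integrable_sq_norm hf.1).1 hf
  have hh2 := (memLp_two_iff_integrable_sq_norm hh.1).1 hh
  have hi := integrable_inner_of_memLp hf hh
  have e : ∀ x, ‖f x - h x‖ ^ 2 = ‖f x‖ ^ 2 + ‖h x‖ ^ 2 - 2 * (⟪f x, h x⟫_ℂ).re := fun x => by
    rw [@norm_sub_sq ℂ]
    simp only [RCLike.re_to_complex]
    ring
  have hre : Integrable (fun x => (⟪f x, h x⟫_ℂ).re) μ := hi.re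
  have hs : Integrable (fun x => ‖f x‖ ^ 2 + ‖h x‖ ^ 2) μ := hf2.add hh2
  simp only [e]
  rw [integral_sub hs (hre.const_mul 2), integral_add hf2 hh2, integral_const_mul]
  have h3 : ∫ x, (⟪f x, h x⟫_ℂ).re ∂μ = (∫ x, ⟪f x, h x⟫_ℂ ∂μ).re := integral_re hi
  rw [h3]

end cs

section data

variable {N : ℕ} {F : Type*} [NormedAddCommGroup F] [InnerProductSpace ℂ F]
  [FiniteDimensional ℂ F] {κ : Type*} [Fintype κ] [DecidableEq κ] {k : κ → ℕ}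
  {Fb : κ → Type*} [∀ p, NormedAddCommGroup (Fb p)] [∀ p, InnerProductSpace ℂ (Fb p)]
  [∀ p, FiniteDimensional ℂ (Fb p)] {M : FermionRep N F} {G : GammaNine} (D : BD M G k Fb)
  {ψ ψ' : ∀ p, Cfg (k p) → Fb p}

theorem int_psi (h1 : ∀ p, ∫ y, ‖ψ p y‖ ^ 2 = 1) {f : F} (hf : f ∈ D.W) :
    ∫ Y : EY k, ‖D.psi ψ Y f‖ ^ 2 = ‖f‖ ^ 2 := by
  have h := integral_psi_self D h1 hf f
  rw [integral_inner_self, isc] at h
  exact_mod_cast h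

theorem psi_sub_le (hψ : ∀ p, MemLp (ψ p) 2 volume) (h1 : ∀ p, ∫ y, ‖ψ p y‖ ^ 2 = 1)
    (hψ' : ∀ p, MemLp (ψ' p) 2 volume) (h1' : ∀ p, ∫ y, ‖ψ' p y‖ ^ 2 = 1) {η : ℝ} (hη : 0 ≤ η)
    (hd : ∀ p, ∫ y, ‖ψ p y - ψ' p y‖ ^ 2 ≤ η ^ 2) {f : F} (hf : f ∈ D.W) :
    ∫ Y : EY k, ‖D.psi ψ Y f - D.psi ψ' Y f‖ ^ 2 ≤ 2 * (Fintype.card κ * η) * ‖f‖ ^ 2 := by
  rw [norm_sq_sub_int (memLp_psi D hψ hf) (memLp_psi D hψ' hf), int_psi D h1 hf,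
    int_psi D h1' hf, integral_psi_psi D hf, isc]
  set c : κ → ℂ := fun p => ∫ y, ⟪ψ p y, ψ' p y⟫_ℂ with hc
  have e1 : ((∏ p, c p) * ((‖f‖ ^ 2 : ℝ) : ℂ)).re = (∏ p, c p).re * ‖f‖ ^ 2 := by
    rw [Complex.re_mul_ofReal]
  rw [e1]
  have h2 : ‖1 - ∏ p, c p‖ ≤ Fintype.card κ * η := by
    refine (norm_one_sub_prod_le Finset.univ c fun p _ =>
      norm_inner_le_one (hψ p) (hψ' p) (h1 p) (h1' p)).trans ?_
    calc ∑ p, ‖1 - c p‖ ≤ ∑ _p : κ, η := by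
          refine Finset.sum_le_sum fun p _ => (norm_one_sub_inner (hψ p) (hψ' p) (h1 p)).trans ?_
          exact (Real.sqrt_le_sqrt (hd p)).trans (by rw [Real.sqrt_sq hη])
      _ = _ := by rw [Finset.sum_const, Finset.card_univ, nsmul_eq_mul]
  have h3 : 1 - (∏ p, c p).re ≤ Fintype.card κ * η := by
    have h4 : (1 - ∏ p, c p).re ≤ ‖1 - ∏ p, c p‖ := Complex.re_le_norm _
    rw [Complex.sub_re, Complex.one_re] at h4
    exact h4.trans h2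
  nlinarith [mul_le_mul_of_nonneg_right h3 (sq_nonneg ‖f‖)]

theorem amp_le (hψ : ∀ p, MemLp (ψ p) 2 volume) (h1 : ∀ p, ∫ y, ‖ψ p y‖ ^ 2 = 1)
    (hev : ∀ p y, D.Even p (ψ p y)) {φ : EY k → F} (hφ : Continuous φ)
    (hc : HasCompactSupport φ) : ‖amp D ψ φ‖ ≤ √(∫ Y, ‖φ Y‖ ^ 2) := by
  have hφ2 : MemLp φ 2 volume := hφ.memLp_of_hasCompactSupport hc
  have hm := amp_mem D (ψ := ψ) φ
  have h2 := inner_amp D hψ h1 hev hφ hc hm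
  have h3 := cs_sqrt (memLp_psi D hψ hm) hφ2
  rw [← h2, isc, Complex.norm_real, Real.norm_of_nonneg (sq_nonneg _), int_psi D h1 hm,
    Real.sqrt_sq (norm_nonneg _)] at h3
  by_cases h0 : ‖amp D ψ φ‖ = 0
  · rw [h0]; exact Real.sqrt_nonneg _
  · have h4 : 0 < ‖amp D ψ φ‖ := lt_of_le_of_ne (norm_nonneg _) (Ne.symm h0)
    rw [pow_two] at h3
    exact le_of_mul_le_mul_left h3 h4

theorem amp_sub_le (hψ : ∀ p, MemLp (ψ p) 2 volume) (h1 : ∀ p, ∫ y, ‖ψ p y‖ ^ 2 = 1)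
    (hev : ∀ p y, D.Even p (ψ p y)) (hψ' : ∀ p, MemLp (ψ' p) 2 volume)
    (h1' : ∀ p, ∫ y, ‖ψ' p y‖ ^ 2 = 1) (hev' : ∀ p y, D.Even p (ψ' p y)) {η : ℝ} (hη : 0 ≤ η)
    (hd : ∀ p, ∫ y, ‖ψ p y - ψ' p y‖ ^ 2 ≤ η ^ 2) {φ : EY k → F} (hφ : Continuous φ)
    (hc : HasCompactSupport φ) : ‖amp D ψ φ - amp D ψ' φ‖ ≤
      √(2 * (Fintype.card κ * η)) * √(∫ Y, ‖φ Y‖ ^ 2) := by
  have hφ2 : MemLp φ 2 volume := hφ.memLp_of_hasCompactSupport hc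
  set f := amp D ψ φ - amp D ψ' φ with hf
  have hm : f ∈ D.W := D.W.sub_mem (amp_mem D φ) (amp_mem D φ)
  have hS := memLp_psi D hψ hm
  have hS' := memLp_psi D hψ' hm
  have h2 : ⟪f, f⟫_ℂ = ∫ Y : EY k, ⟪D.psi ψ Y f - D.psi ψ' Y f, φ Y⟫_ℂ := by
    conv_lhs => rw [hf]
    rw [← hf, inner_sub_right, inner_amp D hψ h1 hev hφ hc hm, inner_amp D hψ' h1' hev' hφ hc hm,
      ← integral_sub (integrable_inner_of_memLp hS hφ2) (integrable_inner_of_memLp hS' hφ2)]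
    simp only [inner_sub_left]
  have h3 := cs_sqrt (hS.sub hS') hφ2
  have h4 : ‖f‖ ^ 2 ≤ √(∫ Y : EY k, ‖D.psi ψ Y f - D.psi ψ' Y f‖ ^ 2) * √(∫ Y, ‖φ Y‖ ^ 2) := by
    have h5 : ‖f‖ ^ 2 = ‖∫ Y : EY k, ⟪D.psi ψ Y f - D.psi ψ' Y f, φ Y⟫_ℂ‖ := by
      rw [← h2, isc, Complex.norm_real, Real.norm_of_nonneg (sq_nonneg _)]
    rw [h5]
    exact h3
  have h6 : √(∫ Y : EY k, ‖D.psi ψ Y f - D.psi ψ' Y f‖ ^ 2) ≤
      √(2 * (Fintype.card κ * η)) * ‖f‖ := by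
    refine (Real.sqrt_le_sqrt (psi_sub_le D hψ h1 hψ' h1' hη hd hm)).trans (le_of_eq ?_)
    rw [Real.sqrt_mul (by positivity), Real.sqrt_sq (norm_nonneg _)]
  by_cases h0 : ‖f‖ = 0
  · rw [h0]; positivity
  · have h7 : 0 < ‖f‖ := lt_of_le_of_ne (norm_nonneg _) (Ne.symm h0)
    have h8 : ‖f‖ * ‖f‖ ≤ ‖f‖ * (√(2 * (Fintype.card κ * η)) * √(∫ Y, ‖φ Y‖ ^ 2)) := by
      calc ‖f‖ * ‖f‖ = ‖f‖ ^ 2 := by ring
        _ ≤ _ := h4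
        _ ≤ (√(2 * (Fintype.card κ * η)) * ‖f‖) * √(∫ Y, ‖φ Y‖ ^ 2) :=
          mul_le_mul_of_nonneg_right h6 (Real.sqrt_nonneg _)
        _ = _ := by ring
    exact le_of_mul_le_mul_left h8 h7

/-- **Perturbation of the block state.** -/
theorem psi_amp_sub_le (hψ : ∀ p, MemLp (ψ p) 2 volume) (h1 : ∀ p, ∫ y, ‖ψ p y‖ ^ 2 = 1)
    (hev : ∀ p y, D.Even p (ψ p y)) (hψ' : ∀ p, MemLp (ψ' p) 2 volume)
    (h1' : ∀ p, ∫ y, ‖ψ' p y‖ ^ 2 = 1) (hev' : ∀ p y, D.Even p (ψ' p y)) {η : ℝ} (hη : 0 ≤ η)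
    (hd : ∀ p, ∫ y, ‖ψ p y - ψ' p y‖ ^ 2 ≤ η ^ 2) {φ : EY k → F} (hφ : Continuous φ)
    (hc : HasCompactSupport φ) :
    ∫ Y : EY k, ‖D.psi ψ Y (amp D ψ φ) - D.psi ψ' Y (amp D ψ' φ)‖ ^ 2 ≤
      8 * (Fintype.card κ * η) * ∫ Y, ‖φ Y‖ ^ 2 := by
  set a := amp D ψ φ with ha
  set a' := amp D ψ' φ with ha'
  set ρ := √(2 * (Fintype.card κ * η)) with hρ
  set n := √(∫ Y, ‖φ Y‖ ^ 2) with hn
  have hma : a ∈ D.W := amp_mem D φ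
  have hma' : a' ∈ D.W := amp_mem D φ
  have hS := memLp_psi D hψ hma
  have hS' := memLp_psi D hψ' hma
  have hS'' := memLp_psi D hψ' (D.W.sub_mem hma hma')
  have h2 : √(∫ Y : EY k, ‖D.psi ψ Y a - D.psi ψ' Y a'‖ ^ 2) ≤ ρ * n + ρ * n := by
    have e : ∀ Y : EY k, D.psi ψ Y a - D.psi ψ' Y a' =
        (D.psi ψ Y a - D.psi ψ' Y a) + D.psi ψ' Y (a - a') := fun Y => by
      rw [map_sub]; abel
    simp only [e]
    refine (sqrt_int_add_le (hS.sub hS') hS'').trans (add_le_add ?_ ?_)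
    · refine (Real.sqrt_le_sqrt (psi_sub_le D hψ h1 hψ' h1' hη hd hma)).trans ?_
      rw [Real.sqrt_mul (by positivity), Real.sqrt_sq (norm_nonneg _)]
      exact mul_le_mul_of_nonneg_left (amp_le D hψ h1 hev hφ hc) (Real.sqrt_nonneg _)
    · rw [int_psi D h1' (D.W.sub_mem hma hma'), Real.sqrt_sq (norm_nonneg _)]
      exact amp_sub_le D hψ h1 hev hψ' h1' hev' hη hd hφ hc
  have h0 : 0 ≤ ∫ Y : EY k, ‖D.psi ψ Y a - D.psi ψ' Y a'‖ ^ 2 :=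
    integral_nonneg fun _ => sq_nonneg _
  have h0' : 0 ≤ ∫ Y, ‖φ Y‖ ^ 2 := integral_nonneg fun _ => sq_nonneg _
  calc _ = √(∫ Y : EY k, ‖D.psi ψ Y a - D.psi ψ' Y a'‖ ^ 2) ^ 2 := (Real.sq_sqrt h0).symm
    _ ≤ (ρ * n + ρ * n) ^ 2 := pow_le_pow_left₀ (Real.sqrt_nonneg _) h2 2
    _ = 4 * (ρ ^ 2 * n ^ 2) := by ring
    _ = _ := by
      rw [hρ, hn, Real.sq_sqrt (by positivity), Real.sq_sqrt h0']
      ring

/-! ### Exact ground states -/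

variable {bn : ∀ p, ColorBasis (k p)} {Rn : ∀ p, GaugeAction (bn p) (D.Mb p)}

theorem Low.congr_ae {N : ℕ} {F₁ : Type*} [NormedAddCommGroup F₁] [InnerProductSpace ℂ F₁]
    [FiniteDimensional ℂ F₁] {b : ColorBasis N} {M : FermionRep N F₁} {R : GaugeAction b M}
    {g m c : ℝ} {wt : Cfg N → ℝ} {ψ ψ' : Cfg N → F₁} (h : Low b M R G g m c wt ψ)
    (he : ψ' =ᵐ[volume] ψ) : Low b M R G g m c wt ψ' := by
  intro f hf
  have h1 : ∫ z, ⟪ψ' z, f z⟫_ℂ = ∫ z, ⟪ψ z, f z⟫_ℂ := by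
    refine integral_congr_ae ?_
    filter_upwards [he] with z hz
    rw [hz]
  have h2 : ∫ y, wt y * ‖f y - (∫ z, ⟪ψ' z, f z⟫_ℂ) • ψ' y‖ ^ 2 =
      ∫ y, wt y * ‖f y - (∫ z, ⟪ψ z, f z⟫_ℂ) • ψ y‖ ^ 2 := by
    rw [h1]
    refine integral_congr_ae ?_
    filter_upwards [he] with z hz
    rw [hz]
  rw [h2]
  exact h f hf

theorem Low.mono {N : ℕ} {F₁ : Type*} [NormedAddCommGroup F₁] [InnerProductSpace ℂ F₁]
    [FiniteDimensional ℂ F₁] {b : ColorBasis N} {M : FermionRep N F₁} {R : GaugeAction b M}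
    {g m c c' : ℝ} {wt : Cfg N → ℝ} {ψ : Cfg N → F₁} (h : Low b M R G g m c wt ψ)
    (hc : c' ≤ c) (hw : ∀ y, 0 ≤ wt y) : Low b M R G g m c' wt ψ := by
  intro f hf
  exact (mul_le_mul_of_nonneg_right hc (integral_nonneg fun y =>
    mul_nonneg (hw y) (sq_nonneg _))).trans (h f hf)

/-- an everywhere even representative of the scaled ground state -/
theorem exists_even_rep (q : κ) {ψ₀ : Cfg (k q) → Fb q}
    (hg : Ground (bn q) (D.Mb q) (Rn q) G ψ₀) {l : ℝ} (hl : 0 < l) :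
    ∃ ψ₁ : Cfg (k q) → Fb q, ψ₁ =ᵐ[volume] Us l ψ₀ ∧ ∀ y, D.Even q (ψ₁ y) := by
  refine ⟨fun y => (1 / 2 : ℂ) • (Us l ψ₀ y + par (D.pol q) (Us l ψ₀ y)), ?_, fun y => ?_⟩
  · have h1 : ∀ᵐ x, par (D.pol q) (ψ₀ x) = ψ₀ x := hg.even _ (isParity (D.isv q) (D.nm q))
    filter_upwards [ae_comp_smul hl h1] with y hy
    have h2 : par (D.pol q) (Us l ψ₀ y) = Us l ψ₀ y := by
      rw [Us_apply, map_smul, hy]
    rw [h2, ← two_smul ℂ, smul_smul]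
    norm_num
  · unfold BD.Even
    rw [map_smul, map_add, par_par, add_comm]

theorem exists_lower {κ : Type*} [Fintype κ] (c : κ → ℝ) (hc : ∀ p, 0 < c p) :
    ∃ c₀ : ℝ, 0 < c₀ ∧ ∀ p, c₀ ≤ c p := by
  have hs : 0 ≤ ∑ p, (c p)⁻¹ := Finset.sum_nonneg fun p _ => (inv_pos.2 (hc p)).le
  refine ⟨(∑ p, (c p)⁻¹ + 1)⁻¹, by positivity, fun p => ?_⟩
  have h1 : (c p)⁻¹ ≤ ∑ p, (c p)⁻¹ := Finset.single_le_sum (f := fun p => (c p)⁻¹)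
    (fun q _ => (inv_pos.2 (hc q)).le) (Finset.mem_univ p)
  have h2 := inv_anti₀ (inv_pos.2 (hc p)) (h1.trans (le_add_of_nonneg_right zero_le_one))
  rwa [inv_inv] at h2

/-- **Block Hardy inequality.** -/
theorem psi_hardy {ψ₀ : ∀ p, Cfg (k p) → Fb p}
    (hg : ∀ p, Ground (bn p) (D.Mb p) (Rn p) G (ψ₀ p)) :
    ∃ K : ℝ, 0 ≤ K ∧ ∀ g : ℝ, 0 < g → ∀ φ' : ∀ p, Cfg (k p) → Fb p,
      (∀ p, MemLp (φ' p) 2 volume) → (∀ p, ∫ y, ‖φ' p y‖ ^ 2 = 1) →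
      (∀ p y, D.Even p (φ' p y)) → ∀ η : ℝ, 0 ≤ η →
      (∀ p, ∫ y, ‖φ' p y - Us (g ^ ((1 : ℝ) / 3)) (ψ₀ p) y‖ ^ 2 ≤ η ^ 2) →
      ∀ w : EY k → F, ContDiff ℝ 2 w → HasCompactSupport w →
      (∀ p i x', IsCoreVec (bn p) (Rn p) fun y => (LY D p).comp i (fib (TY p) w x' y)) →
      ∀ δ : ℝ, ∫ Y in {Y : EY k | ∀ p, ‖Y p‖ ≤ δ}, ‖w Y - D.psi φ' Y (amp D φ' w)‖ ^ 2 ≤
        K * (g ^ (-(2 : ℝ) / 3) + δ ^ 2) *
          (∑ α : Fin 16, ∫ Y : EY k, ‖∑ p, D.bch bn p α g 0 w Y‖ ^ 2) +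
        K * η * ∫ Y, ‖w Y‖ ^ 2 := by
  choose c hc hlow using fun p => Ground.low_g (hg p)
  obtain ⟨c₀, hc₀, hle⟩ := exists_lower c hc
  set n : ℝ := (Fintype.card κ : ℝ) with hn
  have hn0 : 0 ≤ n := Nat.cast_nonneg _
  refine ⟨2 * n / c₀ + 16 * n, by positivity, fun g hg0 φ' hφ' hφ1 hφe η hη hd w hw hwc hcore δ =>
    ?_⟩
  have hl : 0 < g ^ ((1 : ℝ) / 3) := Real.rpow_pos_of_pos hg0 _
  have hs : 0 < g ^ (-(2 : ℝ) / 3) := Real.rpow_pos_of_pos hg0 _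
  choose ψ₁ he hev using fun p => exists_even_rep D p (hg p) hl
  have hψ₁ : ∀ p, MemLp (ψ₁ p) 2 volume := fun p =>
    (memLp_Us_ground (hg p) hl).ae_eq (he p).symm
  have hψ1 : ∀ p, ∫ y, ‖ψ₁ p y‖ ^ 2 = 1 := fun p => by
    rw [← integral_norm_sq_Us_ground (hg p) hl]
    refine integral_congr_ae ?_
    filter_upwards [he p] with y hy
    rw [hy]
  have hd1 : ∀ p, ∫ y, ‖ψ₁ p y - φ' p y‖ ^ 2 ≤ η ^ 2 := fun p => by
    refine le_trans (le_of_eq ?_) (hd p)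
    refine integral_congr_ae ?_
    filter_upwards [he p] with y hy
    rw [hy, norm_sub_rev]
  have hlow' : ∀ p, Low (bn p) (D.Mb p) (Rn p) G g 0 c₀ (hws (g ^ (-(2 : ℝ) / 3))) (ψ₁ p) :=
    fun p => ((hlow p g hg0).congr_ae (he p)).mono (hle p) fun y => (hws_pos hs y).le
  have hw2 : MemLp w 2 volume := hw.continuous.memLp_of_hasCompactSupport hwc
  have h1 := blocks_capture_total (b := bn) (θ := fun p => bth M (D.ε p)) (D := fun _ _ => 0)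
    (g := g) (m := 0) (fun p => TY p) (fun p q h => perp_TY h) (fun p q h => antiT_bth D h)
    (LY D) hψ₁ hψ1 hc₀ hs hlow' hw hwc hcore (fun α => MemLp.zero')
    (fun α p => by simp) δ
  simp only [fst_TY, pcharge_TY, add_zero, lprod_amp D hψ₁ hev hw.continuous hwc] at h1
  have hS := memLp_psi D hψ₁ (amp_mem D (ψ := ψ₁) w)
  have hS' := memLp_psi D hφ' (amp_mem D (ψ := φ') w)
  have h2 := psi_amp_sub_le D hψ₁ hψ1 hev hφ' hφ1 hφe hη hd1 hw.continuous hwc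
  set A : EY k → F := fun Y => w Y - D.psi ψ₁ Y (amp D ψ₁ w) with hA
  set B : EY k → F := fun Y => D.psi ψ₁ Y (amp D ψ₁ w) - D.psi φ' Y (amp D φ' w) with hB
  have hA2 : MemLp A 2 volume := hw2.sub hS
  have hB2 : MemLp B 2 volume := hS.sub hS'
  have hAi := (memLp_two_iff_integrable_sq_norm hA2.1).1 hA2
  have hBi := (memLp_two_iff_integrable_sq_norm hB2.1).1 hB2
  have hCi : Integrable fun Y => ‖w Y - D.psi φ' Y (amp D φ' w)‖ ^ 2 :=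
    (memLp_two_iff_integrable_sq_norm (hw2.sub hS').1).1 (hw2.sub hS')
  have h3 : ∫ Y in {Y : EY k | ∀ p, ‖Y p‖ ≤ δ}, ‖w Y - D.psi φ' Y (amp D φ' w)‖ ^ 2 ≤
      2 * (∫ Y in {Y : EY k | ∀ p, ‖Y p‖ ≤ δ}, ‖A Y‖ ^ 2) + 2 * ∫ Y, ‖B Y‖ ^ 2 := by
    calc ∫ Y in {Y : EY k | ∀ p, ‖Y p‖ ≤ δ}, ‖w Y - D.psi φ' Y (amp D φ' w)‖ ^ 2
        ≤ ∫ Y in {Y : EY k | ∀ p, ‖Y p‖ ≤ δ}, (2 * ‖A Y‖ ^ 2 + 2 * ‖B Y‖ ^ 2) := by
          refine integral_mono hCi.integrableOn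
            ((hAi.const_mul 2).add (hBi.const_mul 2)).integrableOn fun Y => ?_
          have e : w Y - D.psi φ' Y (amp D φ' w) = A Y + B Y := by
            rw [hA, hB]; simp
          change ‖w Y - D.psi φ' Y (amp D φ' w)‖ ^ 2 ≤ 2 * ‖A Y‖ ^ 2 + 2 * ‖B Y‖ ^ 2
          rw [e]
          have h4 := norm_add_le (A Y) (B Y)
          have h5 : ‖A Y + B Y‖ ^ 2 ≤ (‖A Y‖ + ‖B Y‖) ^ 2 :=
            pow_le_pow_left₀ (norm_nonneg _) h4 2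
          nlinarith [sq_nonneg (‖A Y‖ - ‖B Y‖)]
      _ = 2 * (∫ Y in {Y : EY k | ∀ p, ‖Y p‖ ≤ δ}, ‖A Y‖ ^ 2) +
          2 * ∫ Y in {Y : EY k | ∀ p, ‖Y p‖ ≤ δ}, ‖B Y‖ ^ 2 := by
          rw [integral_add (hAi.const_mul 2).integrableOn (hBi.const_mul 2).integrableOn,
            integral_const_mul, integral_const_mul]
      _ ≤ _ := by
          have h6 : ∫ Y in {Y : EY k | ∀ p, ‖Y p‖ ≤ δ}, ‖B Y‖ ^ 2 ≤ ∫ Y, ‖B Y‖ ^ 2 :=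
            setIntegral_le_integral hBi (Eventually.of_forall fun Y => sq_nonneg _)
          linarith
  set Q := ∑ α : Fin 16, ∫ Y : EY k, ‖∑ p, D.bch bn p α g 0 w Y‖ ^ 2 with hQ
  have hQ0 : 0 ≤ Q := Finset.sum_nonneg fun α _ => integral_nonneg fun _ => sq_nonneg _
  set I := ∫ Y, ‖w Y‖ ^ 2 with hI
  have hI0 : 0 ≤ I := integral_nonneg fun _ => sq_nonneg _
  set S := g ^ (-(2 : ℝ) / 3) + δ ^ 2 with hSS
  have hS0 : 0 ≤ S := by positivity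
  have h1' : ∫ Y in {Y : EY k | ∀ p, ‖Y p‖ ≤ δ}, ‖A Y‖ ^ 2 ≤ n / c₀ * S * Q := by
    refine h1.trans ?_
    have e : n * (S / c₀ * (1 / 16 * Q)) = n / c₀ * S * Q * (1 / 16) := by
      field_simp
    rw [e]
    have : 0 ≤ n / c₀ * S * Q := by positivity
    linarith
  have h2' : ∫ Y, ‖B Y‖ ^ 2 ≤ 8 * (n * η) * I := h2
  have h7 : 0 ≤ n / c₀ * η * I := by positivity
  have h8 : 0 ≤ n * S * Q := by positivity
  calc _ ≤ 2 * (n / c₀ * S * Q) + 2 * (8 * (n * η) * I) := by linarith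
    _ ≤ (2 * n / c₀ + 16 * n) * S * Q + (2 * n / c₀ + 16 * n) * η * I := by
      have e1 : (2 * n / c₀ + 16 * n) * S * Q + (2 * n / c₀ + 16 * n) * η * I =
        2 * (n / c₀ * S * Q) + 16 * (n * S * Q) + (2 * (n / c₀ * η * I) + 16 * (n * η * I)) := by
        ring
      rw [e1]
      linarith

end data

end Crest.Agent.R330.Prod494

end
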