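import Crest.Agent.R330.Prod_494

/-!
# Row 330 (helper494): lower bounds of the small system lift to larger fibres and more variables

* `Low b M R G g m c wt ψ` : `c ∫ wt |f - <ψ,f> ψ|² ≤ q(f)` on the core of the small system
  (HARDY: `wt = (1+|y|²)⁻¹`; GAP with one zero mode: `wt = 1`).
* `Low.lift` : the same for `F`-valued functions on `Cfg N`.
* `Sp N E E'` : an isometry `T : E ≃ₗᵢ WithLp 2 (Cfg N × E')`; `fib`, `pcharge`, `pproj`.
* `Low.plift` : the same on `E`.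
-/

set_option autoImplicit false
set_option linter.unusedSectionVars false

open MeasureTheory Filter Topology Crest.MathPhysics.MatrixQM
open scoped ContDiff InnerProductSpace ENNReal

noncomputable section

namespace Crest.Agent.R330.Prod494

open Crest.Agent.R330.Defs478

variable {N : ℕ} {F₁ F : Type*} [NormedAddCommGroup F₁] [InnerProductSpace ℂ F₁]
  [FiniteDimensional ℂ F₁] [NormedAddCommGroup F] [InnerProductSpace ℂ F] [FiniteDimensional ℂ F]
  {ι : Type*} [Fintype ι] [DecidableEq ι]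

/-- The lower bound on the core of the small system. -/
def Low (b : ColorBasis N) (M : FermionRep N F₁) (R : GaugeAction b M) (G : GammaNine) (g m : ℝ)
    (c : ℝ) (wt : Cfg N → ℝ) (ψ : Cfg N → F₁) : Prop :=
  ∀ f : Cfg N → F₁, IsCoreVec b R f →
    c * ∫ y, wt y * ‖f y - (∫ z, ⟪ψ z, f z⟫_ℂ) • ψ y‖ ^ 2 ≤ qf b M G g m f

variable {b : ColorBasis N} {M : FermionRep N F₁} {R : GaugeAction b M} {G : GammaNine}
  {g m : ℝ} {θ : Fin 16 → Fin (N ^ 2 - 1) → (F →ₗ[ℂ] F)}

/-- The projection on `ψ ⊗ F'` for functions of the variable of the small system. -/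
def proj1 (L : Mult M θ ι) (ψ : Cfg N → F₁) (φ : Cfg N → F) (y : Cfg N) : F :=
  ∑ w, L.J w ((∫ z, ⟪ψ z, L.comp w (φ z)⟫_ℂ) • ψ y)

theorem comp_proj1 (L : Mult M θ ι) (ψ : Cfg N → F₁) (φ : Cfg N → F) (y : Cfg N) (w : ι) :
    L.comp w (proj1 L ψ φ y) = (∫ z, ⟪ψ z, L.comp w (φ z)⟫_ℂ) • ψ y := by
  unfold proj1
  rw [map_sum]
  simp only [L.comp_J]
  rw [Finset.sum_ite_eq Finset.univ w]
  simp

theorem norm_sq_sub_proj1 (L : Mult M θ ι) (ψ : Cfg N → F₁) (φ : Cfg N → F) (y : Cfg N) :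
    ‖φ y - proj1 L ψ φ y‖ ^ 2 =
      ∑ w, ‖L.comp w (φ y) - (∫ z, ⟪ψ z, L.comp w (φ z)⟫_ℂ) • ψ y‖ ^ 2 := by
  rw [L.norm_sq_comp]
  refine Finset.sum_congr rfl fun w _ => ?_
  rw [map_sub, comp_proj1]

theorem integrable_norm_sq_dcharge {f : Cfg N → F₁} (hf : IsCoreVec b R f) (α : Fin 16) :
    Integrable (fun x => ‖dcharge b M G g m α f x‖ ^ 2) := by
  have hc : Continuous (dcharge b M G g m α f) := continuous_dcharge b M G g m α (cv_c1 hf)
  have hs : HasCompactSupport (dcharge b M G g m α f) := by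
    refine hf.2.1.mono' fun x hx => ?_
    by_contra hn
    apply hx
    have h : f =ᶠ[𝓝 x] 0 := notMem_tsupport_iff_eventuallyEq.mp hn
    have h1 : fderiv ℝ f x = 0 := by
      rw [h.fderiv_eq]
      exact fderiv_const_apply 0
    have h2 : f x = 0 := h.eq_of_nhds
    simp [dcharge, kin, h1, h2]
  refine (hc.norm.pow 2).integrable_of_hasCompactSupport (hs.mono' fun x hx => ?_)
  refine subset_tsupport _ fun h0 => hx ?_
  simp [h0]

theorem integrable_weight {f ψ : Cfg N → F₁} (hf : IsCoreVec b R f) (hψ : MemLp ψ 2 volume)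
    {wt : Cfg N → ℝ} (hwt : AEStronglyMeasurable wt volume) {B : ℝ} (hB : ∀ y, ‖wt y‖ ≤ B) (k : ℂ) :
    Integrable (fun y => wt y * ‖f y - k • ψ y‖ ^ 2) := by
  have h1 : MemLp (fun y => f y - k • ψ y) 2 volume :=
    (hf.1.continuous.memLp_of_hasCompactSupport hf.2.1).sub (hψ.const_smul k)
  have h2 : Integrable (fun y => ‖f y - k • ψ y‖ ^ 2) := by
    have := h1.integrable_norm_pow (by norm_num)
    simpa using this
  exact h2.bdd_mul hwt (Eventually.of_forall hB)

/-- **(P0)** the lower bound for `F`-valued functions. -/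
theorem Low.lift {c : ℝ} {wt : Cfg N → ℝ} {ψ : Cfg N → F₁} (h : Low b M R G g m c wt ψ)
    (L : Mult M θ ι) (hψ : MemLp ψ 2 volume) (hwt : AEStronglyMeasurable wt volume) {B : ℝ}
    (hB : ∀ y, ‖wt y‖ ≤ B) {φ : Cfg N → F} (hφ : Differentiable ℝ φ)
    (hcore : ∀ w, IsCoreVec b R fun y => L.comp w (φ y)) :
    c * ∫ y, wt y * ‖φ y - proj1 L ψ φ y‖ ^ 2 ≤
      (1 / 16 : ℝ) * ∑ α : Fin 16, ∫ x, ‖gcharge b θ G g m α φ x‖ ^ 2 := by
  have h1 : ∫ y, wt y * ‖φ y - proj1 L ψ φ y‖ ^ 2 =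
      ∑ w, ∫ y, wt y * ‖L.comp w (φ y) - (∫ z, ⟪ψ z, L.comp w (φ z)⟫_ℂ) • ψ y‖ ^ 2 := by
    rw [← integral_finset_sum _ fun w _ => integrable_weight (hcore w) hψ hwt hB _]
    refine integral_congr_ae (Eventually.of_forall fun y => ?_)
    simp only [norm_sq_sub_proj1, Finset.mul_sum]
  have h2 : ∀ α, ∫ x, ‖gcharge b θ G g m α φ x‖ ^ 2 =
      ∑ w, ∫ x, ‖dcharge b M G g m α (fun y => L.comp w (φ y)) x‖ ^ 2 := by
    intro α
    rw [← integral_finset_sum _ fun w _ => integrable_norm_sq_dcharge (hcore w) α]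
    exact integral_congr_ae (Eventually.of_forall fun x => L.norm_sq_gcharge b G g m α (hφ x))
  rw [h1, Finset.mul_sum]
  simp only [h2]
  rw [Finset.sum_comm, Finset.mul_sum]
  refine Finset.sum_le_sum fun w _ => ?_
  exact h _ (hcore w)

/-! ### More variables -/

section more

variable {E E' : Type*} [NormedAddCommGroup E] [InnerProductSpace ℝ E] [FiniteDimensional ℝ E]
  [MeasurableSpace E] [BorelSpace E] [NormedAddCommGroup E'] [InnerProductSpace ℝ E']
  [FiniteDimensional ℝ E'] [MeasurableSpace E'] [BorelSpace E']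

/-- the point with coordinates `(y, x')` -/
def pt (T : E ≃ₗᵢ[ℝ] WithLp 2 (Cfg N × E')) (y : Cfg N) (x' : E') : E :=
  T.symm (WithLp.toLp 2 (y, x'))

theorem T_pt_fst (T : E ≃ₗᵢ[ℝ] WithLp 2 (Cfg N × E')) (y : Cfg N) (x' : E') :
    (T (pt T y x')).fst = y := by simp [pt]

theorem T_pt_snd (T : E ≃ₗᵢ[ℝ] WithLp 2 (Cfg N × E')) (y : Cfg N) (x' : E') :
    (T (pt T y x')).snd = x' := by simp [pt]

theorem pt_T (T : E ≃ₗᵢ[ℝ] WithLp 2 (Cfg N × E')) (x : E) : pt T (T x).fst (T x).snd = x := by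
  unfold pt
  have : (WithLp.toLp 2 ((T x).fst, (T x).snd) : WithLp 2 (Cfg N × E')) = T x := rfl
  rw [this, T.symm_apply_apply]

/-- the embedding of the variable of the small system -/
def emb (T : E ≃ₗᵢ[ℝ] WithLp 2 (Cfg N × E')) (y : Cfg N) : E := pt T y 0

theorem pt_add_emb (T : E ≃ₗᵢ[ℝ] WithLp 2 (Cfg N × E')) (y v : Cfg N) (x' : E') :
    pt T (y + v) x' = pt T y x' + emb T v := by
  unfold emb pt
  rw [← map_add]
  congr 1
  change _ = WithLp.toLp 2 ((y, x') + (v, (0 : E')))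
  rw [Prod.mk_add_mk, add_zero]

theorem continuous_pt (T : E ≃ₗᵢ[ℝ] WithLp 2 (Cfg N × E')) :
    Continuous fun p : Cfg N × E' => pt T p.1 p.2 := by
  unfold pt
  exact T.symm.continuous.comp (WithLp.prod_continuous_toLp 2 _ _)

theorem measurePreserving_pt (T : E ≃ₗᵢ[ℝ] WithLp 2 (Cfg N × E')) :
    MeasurePreserving (fun p : Cfg N × E' => pt T p.1 p.2) (volume.prod volume) volume :=
  (T.symm.measurePreserving).comp (WithLp.volume_preserving_toLp (Cfg N) E')

/-- the homeomorphism -/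
def ptH (T : E ≃ₗᵢ[ℝ] WithLp 2 (Cfg N × E')) : Cfg N × E' ≃ₜ E where
  toFun p := pt T p.1 p.2
  invFun x := ((T x).fst, (T x).snd)
  left_inv p := by simp [T_pt_fst, T_pt_snd]
  right_inv x := pt_T T x
  continuous_toFun := continuous_pt T
  continuous_invFun := by
    have h : Continuous fun x => (T x) := T.continuous
    exact (WithLp.prod_continuous_ofLp 2 _ _).comp h

/-- the function of the variable of the small system -/
def fib (T : E ≃ₗᵢ[ℝ] WithLp 2 (Cfg N × E')) (φ : E → F) (x' : E') (y : Cfg N) : F :=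
  φ (pt T y x')

theorem hasFDerivAt_pt (T : E ≃ₗᵢ[ℝ] WithLp 2 (Cfg N × E')) (x' : E') (y : Cfg N) :
    ∃ D : Cfg N →L[ℝ] E, (∀ v, D v = emb T v) ∧ HasFDerivAt (fun y => pt T y x') D y := by
  let D : Cfg N →L[ℝ] E := (T.symm.toContinuousLinearEquiv : WithLp 2 (Cfg N × E') →L[ℝ] E).comp
    ((WithLp.prodContinuousLinearEquiv 2 ℝ (Cfg N) E').symm.toContinuousLinearMap.comp
      (ContinuousLinearMap.inl ℝ (Cfg N) E'))
  have hD : ∀ v, D v = emb T v := fun v => rfl
  refine ⟨D, hD, ?_⟩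
  have h : (fun y => pt T y x') = fun y => D y + pt T 0 x' := by
    funext z
    rw [hD, add_comm, ← pt_add_emb, zero_add]
  rw [h]
  exact (D.hasFDerivAt).add_const _

theorem fderiv_fib (T : E ≃ₗᵢ[ℝ] WithLp 2 (Cfg N × E')) {φ : E → F} {x' : E'} {y : Cfg N}
    (hφ : DifferentiableAt ℝ φ (pt T y x')) (v : Cfg N) :
    fderiv ℝ (fib T φ x') y v = fderiv ℝ φ (pt T y x') (emb T v) := by
  obtain ⟨D, hD, h⟩ := hasFDerivAt_pt T x' y
  have h1 : HasFDerivAt (fib T φ x') ((fderiv ℝ φ (pt T y x')).comp D) y :=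
    hφ.hasFDerivAt.comp y h
  rw [h1.fderiv, ContinuousLinearMap.comp_apply, hD]

theorem differentiable_fib (T : E ≃ₗᵢ[ℝ] WithLp 2 (Cfg N × E')) {φ : E → F}
    (hφ : Differentiable ℝ φ) (x' : E') : Differentiable ℝ (fib T φ x') := fun y => by
  obtain ⟨D, _, h⟩ := hasFDerivAt_pt T x' y
  exact ((hφ _).hasFDerivAt.comp y h).differentiableAt

/-- The charges of the small system on functions on `E`. -/
def pcharge (T : E ≃ₗᵢ[ℝ] WithLp 2 (Cfg N × E')) (b : ColorBasis N)
    (θ : Fin 16 → Fin (N ^ 2 - 1) → (F →ₗ[ℂ] F)) (G : GammaNine) (g m : ℝ) (α : Fin 16)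
    (φ : E → F) (x : E) : F :=
  (∑ i : Fin 9, ∑ A : Fin (N ^ 2 - 1), ∑ β : Fin 16,
    (-Complex.I * (G.γ i α β : ℂ)) • θ β A (fderiv ℝ φ x
      (emb T (EuclideanSpace.single (i, A) 1)))) +
  ∑ A : Fin (N ^ 2 - 1), ∑ β : Fin 16,
    ((wpot b G g m α β A (T x).fst : ℝ) : ℂ) • θ β A (φ x)

theorem gcharge_fib (T : E ≃ₗᵢ[ℝ] WithLp 2 (Cfg N × E')) {φ : E → F} (hφ : Differentiable ℝ φ)
    (α : Fin 16) (x' : E') (y : Cfg N) :
    gcharge b θ G g m α (fib T φ x') y = pcharge T b θ G g m α φ (pt T y x') := by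
  unfold gcharge pcharge
  simp only [fderiv_fib T (hφ _), T_pt_fst]
  rfl

/-- The projection on `ψ ⊗ (functions of the other variables)`. -/
def pproj (T : E ≃ₗᵢ[ℝ] WithLp 2 (Cfg N × E')) (L : Mult M θ ι) (ψ : Cfg N → F₁) (φ : E → F)
    (x : E) : F := proj1 L ψ (fib T φ (T x).snd) (T x).fst

theorem pproj_pt (T : E ≃ₗᵢ[ℝ] WithLp 2 (Cfg N × E')) (L : Mult M θ ι) (ψ : Cfg N → F₁)
    (φ : E → F) (y : Cfg N) (x' : E') :
    pproj T L ψ φ (pt T y x') = proj1 L ψ (fib T φ x') y := by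
  unfold pproj
  rw [T_pt_fst, T_pt_snd]

theorem continuous_pcharge (T : E ≃ₗᵢ[ℝ] WithLp 2 (Cfg N × E')) {φ : E → F}
    (hφ : ContDiff ℝ 1 φ) (α : Fin 16) : Continuous (pcharge T b θ G g m α φ) := by
  unfold pcharge
  have hth : ∀ β A, Continuous (θ β A) := fun β A => LinearMap.continuous_of_finiteDimensional _
  refine Continuous.add ?_ ?_
  · refine continuous_finsetSum _ fun i _ => continuous_finsetSum _ fun A _ =>
      continuous_finsetSum _ fun β _ => Continuous.const_smul ?_ _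
    exact (hth β A).comp ((hφ.continuous_fderiv one_ne_zero).clm_apply continuous_const)
  · refine continuous_finsetSum _ fun A _ => continuous_finsetSum _ fun β _ => ?_
    refine (Complex.continuous_ofReal.comp ((continuous_wpot b G g m α β A).comp ?_)).smul
      ((hth β A).comp hφ.continuous)
    exact continuous_fst.comp (ptH T).symm.continuous

theorem hasCompactSupport_pcharge (T : E ≃ₗᵢ[ℝ] WithLp 2 (Cfg N × E')) {φ : E → F}
    (hc : HasCompactSupport φ) (α : Fin 16) :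
    HasCompactSupport (pcharge T b θ G g m α φ) := by
  refine hc.mono' fun x hx => ?_
  by_contra hn
  apply hx
  have h : φ =ᶠ[𝓝 x] 0 := notMem_tsupport_iff_eventuallyEq.mp hn
  have h1 : fderiv ℝ φ x = 0 := by
    rw [h.fderiv_eq]
    exact fderiv_const_apply 0
  have h2 : φ x = 0 := h.eq_of_nhds
  simp [pcharge, h1, h2]

theorem integrable_norm_sq_pcharge (T : E ≃ₗᵢ[ℝ] WithLp 2 (Cfg N × E')) {φ : E → F}
    (hφ : ContDiff ℝ 1 φ) (hc : HasCompactSupport φ) (α : Fin 16) :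
    Integrable (fun x => ‖pcharge T b θ G g m α φ x‖ ^ 2) := by
  have h1 : Continuous (pcharge T b θ G g m α φ) := continuous_pcharge T hφ α
  have h2 : HasCompactSupport (pcharge T b θ G g m α φ) := hasCompactSupport_pcharge T hc α
  refine (h1.norm.pow 2).integrable_of_hasCompactSupport (h2.mono' fun x hx => ?_)
  refine subset_tsupport _ fun h0 => hx ?_
  simp [h0]

theorem integral_pt (T : E ≃ₗᵢ[ℝ] WithLp 2 (Cfg N × E')) {h : E → ℝ} (hh : Integrable h) :
    ∫ x, h x = ∫ x', ∫ y, h (pt T y x') := by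
  have hmp := measurePreserving_pt T
  have h1 : ∫ p, h (pt T p.1 p.2) ∂(volume.prod volume : Measure (Cfg N × E')) = ∫ x, h x :=
    hmp.integral_comp (ptH T).measurableEmbedding h
  rw [← h1, integral_prod_symm]
  exact (hmp.integrable_comp_emb (ptH T).measurableEmbedding).2 hh

theorem integrable_pt (T : E ≃ₗᵢ[ℝ] WithLp 2 (Cfg N × E')) {h : E → ℝ} (hh : Integrable h) :
    Integrable fun x' : E' => ∫ y, h (pt T y x') := by
  have hmp := measurePreserving_pt T
  have h2 : Integrable (fun p : Cfg N × E' => h (pt T p.1 p.2)) (volume.prod volume) :=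
    (hmp.integrable_comp_emb (ptH T).measurableEmbedding).2 hh
  exact h2.integral_prod_right

/-- **(P0) on `E`.** -/
theorem Low.plift {c : ℝ} {wt : Cfg N → ℝ} {ψ : Cfg N → F₁} (h : Low b M R G g m c wt ψ)
    (T : E ≃ₗᵢ[ℝ] WithLp 2 (Cfg N × E')) (L : Mult M θ ι) (hψ : MemLp ψ 2 volume)
    (hwt : AEStronglyMeasurable wt volume) {B : ℝ} (hB : ∀ y, ‖wt y‖ ≤ B) {φ : E → F}
    (hφ : ContDiff ℝ 1 φ) (hc : HasCompactSupport φ)
    (hcore : ∀ w x', IsCoreVec b R fun y => L.comp w (fib T φ x' y)) :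
    c * ∫ x, wt (T x).fst * ‖φ x - pproj T L ψ φ x‖ ^ 2 ≤
      (1 / 16 : ℝ) * ∑ α : Fin 16, ∫ x, ‖pcharge T b θ G g m α φ x‖ ^ 2 := by
  have hd : Differentiable ℝ φ := hφ.differentiable one_ne_zero
  have hR0 : 0 ≤ (1 / 16 : ℝ) * ∑ α : Fin 16, ∫ x, ‖pcharge T b θ G g m α φ x‖ ^ 2 := by
    positivity
  by_cases hI : Integrable (fun x => wt (T x).fst * ‖φ x - pproj T L ψ φ x‖ ^ 2)
  swap
  · rw [integral_undef hI, mul_zero]
    exact hR0
  have e1 : ∫ x, wt (T x).fst * ‖φ x - pproj T L ψ φ x‖ ^ 2 =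
      ∫ x', ∫ y, wt y * ‖fib T φ x' y - proj1 L ψ (fib T φ x') y‖ ^ 2 := by
    rw [integral_pt T hI]
    refine integral_congr_ae (Eventually.of_forall fun x' => ?_)
    refine integral_congr_ae (Eventually.of_forall fun y => ?_)
    simp only [T_pt_fst, pproj_pt, fib]
  have i1 : Integrable fun x' : E' =>
      ∫ y, wt y * ‖fib T φ x' y - proj1 L ψ (fib T φ x') y‖ ^ 2 := by
    refine (integrable_pt T hI).congr (Eventually.of_forall fun x' => ?_)
    refine integral_congr_ae (Eventually.of_forall fun y => ?_)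
    simp only [T_pt_fst, pproj_pt, fib]
  have e2 : ∀ α, ∫ x, ‖pcharge T b θ G g m α φ x‖ ^ 2 =
      ∫ x', ∫ y, ‖gcharge b θ G g m α (fib T φ x') y‖ ^ 2 := by
    intro α
    rw [integral_pt T (integrable_norm_sq_pcharge T hφ hc α)]
    refine integral_congr_ae (Eventually.of_forall fun x' => ?_)
    refine integral_congr_ae (Eventually.of_forall fun y => ?_)
    simp only [gcharge_fib T hd]
  have i2 : ∀ α, Integrable fun x' : E' =>
      ∫ y, ‖gcharge b θ G g m α (fib T φ x') y‖ ^ 2 := by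
    intro α
    refine (integrable_pt T (integrable_norm_sq_pcharge (b := b) (θ := θ) (G := G) (g := g)
      (m := m) T hφ hc α)).congr (Eventually.of_forall fun x' => ?_)
    refine integral_congr_ae (Eventually.of_forall fun y => ?_)
    simp only [gcharge_fib T hd]
  rw [e1, ← integral_const_mul]
  simp only [e2]
  rw [← integral_finset_sum _ fun α _ => i2 α, ← integral_const_mul]
  refine integral_mono (i1.const_mul c) ((integrable_finset_sum _ fun α _ => i2 α).const_mul _)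
    fun x' => ?_
  exact h.lift L hψ hwt hB (differentiable_fib T hd x') fun w => hcore w x'

end more

end Crest.Agent.R330.Prod494

end
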