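import Crest.Agent.R330.Prod3_494
import Crest.Agent.R330.SInd_478
import Crest.Agent.R330.ScaleD_423

/-!
# Row 330 (helper494): the lower bound of the small system at coupling `g`, on balls

* `hws s y = (s + ‖y‖²)⁻¹`.
* `Ground.low`, `Low.scale`, `Ground.low_g` : the Hardy inequality of `SInd` at coupling `g`, with the
  weight `(g^{-2/3} + ‖y‖²)⁻¹` and the bound state `Us (g^{1/3}) ψ`.
* `Low.capture_on`, `Low.capture_ball` : `∫_{‖y‖ ≤ δ} |φ - P φ|² ≤ (s + δ²)/c · q(φ)`.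
* `tail_Us` : `∫_{‖y‖ > ρ} |U_l ψ|² ≤ (l ρ)^{-2s} ∫ ‖x‖^{2s} |ψ|²`.
-/

set_option autoImplicit false
set_option linter.unusedSectionVars false

open MeasureTheory Filter Topology Crest.MathPhysics.MatrixQM
open scoped ContDiff InnerProductSpace ENNReal

noncomputable section

namespace Crest.Agent.R330.Prod494

open Crest.Agent.R330.Defs478 Crest.Agent.R330.Scale423 Crest.Agent.R330.ScaleD423
  Crest.Agent.R330.SInd478

variable {N : ℕ} {F₁ F : Type*} [NormedAddCommGroup F₁] [InnerProductSpace ℂ F₁]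
  [FiniteDimensional ℂ F₁] [NormedAddCommGroup F] [InnerProductSpace ℂ F] [FiniteDimensional ℂ F]
  {ι : Type*} [Fintype ι] [DecidableEq ι]
  {b : ColorBasis N} {M : FermionRep N F₁} {R : GaugeAction b M} {G : GammaNine}
  {g m : ℝ} {θ : Fin 16 → Fin (N ^ 2 - 1) → (F →ₗ[ℂ] F)}

/-- The Hardy weight with core radius `√s`. -/
def hws (s : ℝ) (y : Cfg N) : ℝ := (s + ‖y‖ ^ 2)⁻¹

theorem hws_one : hws (N := N) 1 = hw := rfl

theorem hws_pos {s : ℝ} (hs : 0 < s) (y : Cfg N) : 0 < hws s y := by unfold hws; positivity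

theorem hws_le {s : ℝ} (hs : 0 < s) (y : Cfg N) : ‖hws s y‖ ≤ s⁻¹ := by
  rw [Real.norm_of_nonneg (hws_pos hs y).le]
  unfold hws
  exact inv_anti₀ hs (by nlinarith [sq_nonneg ‖y‖])

theorem continuous_hws {s : ℝ} (hs : 0 < s) : Continuous (hws (N := N) s) := by
  unfold hws
  exact (continuous_const.add (continuous_norm.pow 2)).inv₀ fun y =>
    (by positivity : s + ‖y‖ ^ 2 ≠ 0)

theorem hws_scale {l : ℝ} (hl : 0 < l) (y : Cfg N) :
    l ^ 2 * hw (l • y) = hws (l ^ 2)⁻¹ y := by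
  unfold hw hws
  rw [norm_smul, Real.norm_of_nonneg hl.le]
  have h1 : (0 : ℝ) < 1 + (l * ‖y‖) ^ 2 := by positivity
  have h2 : (0 : ℝ) < (l ^ 2)⁻¹ + ‖y‖ ^ 2 := by positivity
  have h3 : l ^ 2 * ((l ^ 2)⁻¹ + ‖y‖ ^ 2) = 1 + (l * ‖y‖) ^ 2 := by
    rw [mul_add, mul_inv_cancel₀ (pow_pos hl 2).ne']
    ring
  rw [← h3, mul_inv, ← mul_assoc, mul_inv_cancel₀ (pow_pos hl 2).ne', one_mul]

theorem Ground.low {ψ : Cfg N → F₁} (h : Ground b M R G ψ) :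
    ∃ c : ℝ, 0 < c ∧ Low b M R G 1 0 c hw ψ := by
  obtain ⟨c, hc, h⟩ := h.hardy
  exact ⟨c, hc, fun f hf => h f hf⟩

/-- **Scaling of the lower bound.** -/
theorem Low.scale {c l : ℝ} (hl : 0 < l) {wt : Cfg N → ℝ} {ψ : Cfg N → F₁}
    (h : Low b M R G (g / l ^ 3) (m / l ^ 2) c wt ψ) :
    Low b M R G g m c (fun y => l ^ 2 * wt (l • y)) (Us l ψ) := by
  intro f hf
  set f' : Cfg N → F₁ := Us l⁻¹ f with hf'
  have h0 : Us l f' = f := Us_inv_right hl f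
  have hf'c : IsCoreVec b R f' := core_Us (inv_pos.2 hl) hf
  have hd : Differentiable ℝ f' := hf'c.1.differentiable (by simp)
  have hq : qf b M G g m f = l ^ 2 * qf b M G (g / l ^ 3) (m / l ^ 2) f' := by
    rw [← h0, qf_Us b M G g m hl hd]
  have hc : ∫ z, ⟪Us l ψ z, f z⟫_ℂ = ∫ z, ⟪ψ z, f' z⟫_ℂ := by
    conv_lhs => rw [← h0]
    exact integral_inner_Us hl ψ f'
  have e1 : ∀ y, l ^ 2 * wt (l • y) * ‖f y - (∫ z, ⟪Us l ψ z, f z⟫_ℂ) • Us l ψ y‖ ^ 2 =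
      l ^ 2 * (nrm N l ^ 2 * (fun z => wt z * ‖f' z - (∫ z, ⟪ψ z, f' z⟫_ℂ) • ψ z‖ ^ 2) (l • y)) := by
    intro y
    have e2 : f y - (∫ z, ⟪Us l ψ z, f z⟫_ℂ) • Us l ψ y =
        ((nrm N l : ℝ) : ℂ) • (f' (l • y) - (∫ z, ⟪ψ z, f' z⟫_ℂ) • ψ (l • y)) := by
      rw [hc]
      conv_lhs => rw [← h0]
      simp only [Us_apply, smul_sub, smul_smul]
      rw [mul_comm]
    rw [e2, norm_smul, mul_pow, Complex.norm_real, Real.norm_of_nonneg (nrm_pos hl).le]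
    ring
  rw [hq]
  simp only [e1]
  rw [integral_const_mul, integral_const_mul, Measure.integral_comp_smul volume
    (fun z => wt z * ‖f' z - (∫ z, ⟪ψ z, f' z⟫_ℂ) • ψ z‖ ^ 2) l]
  have h3 : |(l ^ Module.finrank ℝ (Cfg N))⁻¹| = (nrm N l ^ 2)⁻¹ := by
    rw [nrm_sq hl, abs_of_pos (inv_pos.2 (pow_pos hl _))]
  rw [h3, smul_eq_mul, mul_inv_cancel_left₀ (pow_ne_zero 2 (nrm_pos hl).ne')]
  have h4 := h f' hf'c
  nlinarith [pow_pos hl 2]

/-- the Hardy inequality of the small system at coupling `g` -/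
theorem Ground.low_g {ψ : Cfg N → F₁} (h : Ground b M R G ψ) :
    ∃ c : ℝ, 0 < c ∧ ∀ g : ℝ, 0 < g →
      Low b M R G g 0 c (hws (g ^ (-(2 : ℝ) / 3))) (Us (g ^ ((1 : ℝ) / 3)) ψ) := by
  obtain ⟨c, hc, h1⟩ := Ground.low h
  refine ⟨c, hc, fun g hg => ?_⟩
  have hl : 0 < g ^ ((1 : ℝ) / 3) := Real.rpow_pos_of_pos hg _
  have h3 : (g ^ ((1 : ℝ) / 3)) ^ 3 = g := by
    rw [← Real.rpow_natCast, ← Real.rpow_mul hg.le]
    norm_num
  have h2 : ((g ^ ((1 : ℝ) / 3)) ^ 2)⁻¹ = g ^ (-(2 : ℝ) / 3) := by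
    rw [← Real.rpow_natCast, ← Real.rpow_mul hg.le, ← Real.rpow_neg hg.le]
    norm_num
  have h4 : Low b M R G (g / (g ^ ((1 : ℝ) / 3)) ^ 3) (0 / (g ^ ((1 : ℝ) / 3)) ^ 2) c hw ψ := by
    rw [h3, div_self hg.ne', zero_div]
    exact h1
  have h5 := Low.scale hl h4
  simp only [hws_scale hl, h2] at h5
  exact h5

/-! ### Moments of the scaled state -/

theorem norm_sq_Us {l : ℝ} (hl : 0 < l) (ψ : Cfg N → F₁) (y : Cfg N) :
    ‖Us l ψ y‖ ^ 2 = nrm N l ^ 2 * ‖ψ (l • y)‖ ^ 2 := by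
  rw [Us_apply, norm_smul, mul_pow, Complex.norm_real, Real.norm_of_nonneg (nrm_pos hl).le]

/-- tails of the scaled state -/
theorem tail_Us {l ρ s : ℝ} (hl : 0 < l) (hρ : 0 < ρ) (hs : 0 ≤ s) {ψ : Cfg N → F₁}
    (hm : Integrable fun x => ‖x‖ ^ (2 * s) * ‖ψ x‖ ^ 2) :
    ∫ y, out ρ y * ‖Us l ψ y‖ ^ 2 ≤
      (l * ρ) ^ (-(2 * s)) * ∫ x, ‖x‖ ^ (2 * s) * ‖ψ x‖ ^ 2 := by
  have hlρ : 0 < l * ρ := mul_pos hl hρ
  have e1 : ∀ y, out ρ y * ‖Us l ψ y‖ ^ 2 =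
      nrm N l ^ 2 * (fun z => out (l * ρ) z * ‖ψ z‖ ^ 2) (l • y) := by
    intro y
    have h1 : out ρ y = out (l * ρ) (l • y) := by
      unfold out
      rw [norm_smul, Real.norm_of_nonneg hl.le]
      have : l * ρ < l * ‖y‖ ↔ ρ < ‖y‖ := mul_lt_mul_iff_right₀ hl
      simp only [this]
    rw [norm_sq_Us hl, h1]
    ring
  simp only [e1]
  rw [integral_const_mul, Measure.integral_comp_smul volume
    (fun z => out (l * ρ) z * ‖ψ z‖ ^ 2) l]
  have h3 : |(l ^ Module.finrank ℝ (Cfg N))⁻¹| = (nrm N l ^ 2)⁻¹ := by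
    rw [nrm_sq hl, abs_of_pos (inv_pos.2 (pow_pos hl _))]
  rw [h3, smul_eq_mul, mul_inv_cancel_left₀ (pow_ne_zero 2 (nrm_pos hl).ne'),
    ← integral_const_mul]
  refine integral_mono_of_nonneg (Eventually.of_forall fun z =>
    mul_nonneg (out_nonneg _ _) (sq_nonneg _)) (hm.const_mul _) (Eventually.of_forall fun z => ?_)
  change out (l * ρ) z * ‖ψ z‖ ^ 2 ≤ (l * ρ) ^ (-(2 * s)) * (‖z‖ ^ (2 * s) * ‖ψ z‖ ^ 2)
  rw [← mul_assoc]
  refine mul_le_mul_of_nonneg_right ?_ (sq_nonneg _)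
  unfold out
  split_ifs with h
  · rw [Real.rpow_neg hlρ.le, ← div_eq_inv_mul, one_le_div (Real.rpow_pos_of_pos hlρ _)]
    exact Real.rpow_le_rpow hlρ.le h.le (by positivity)
  · positivity

theorem integral_norm_sq_Us_ground {ψ : Cfg N → F₁} (h : Ground b M R G ψ) {l : ℝ} (hl : 0 < l) :
    ∫ x, ‖Us l ψ x‖ ^ 2 = 1 := by
  rw [integral_norm_sq_Us hl, h.norm]

theorem memLp_Us_ground {ψ : Cfg N → F₁} (h : Ground b M R G ψ) {l : ℝ} (hl : 0 < l) :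
    MemLp (Us l ψ) 2 volume := Us_memLp hl h.memLp

/-! ### The estimate on a region -/

section more

variable {E E' : Type*} [NormedAddCommGroup E] [InnerProductSpace ℝ E] [FiniteDimensional ℝ E]
  [MeasurableSpace E] [BorelSpace E] [NormedAddCommGroup E'] [InnerProductSpace ℝ E']
  [FiniteDimensional ℝ E'] [MeasurableSpace E'] [BorelSpace E']

theorem measurable_fst (T : E ≃ₗᵢ[ℝ] WithLp 2 (Cfg N × E')) : Measurable fun x => (T x).fst :=
  (continuous_fst.comp (ptH T).symm.continuous).measurable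

theorem continuous_fstT (T : E ≃ₗᵢ[ℝ] WithLp 2 (Cfg N × E')) : Continuous fun x => (T x).fst :=
  continuous_fst.comp (ptH T).symm.continuous

/-- **The block estimate on a region** `S` where the weight is at least `κ`. -/
theorem Low.capture_on {c : ℝ} {wt : Cfg N → ℝ} {ψ : Cfg N → F₁} (h : Low b M R G g m c wt ψ)
    (hc : 0 < c) (T : E ≃ₗᵢ[ℝ] WithLp 2 (Cfg N × E')) (L : Mult M θ ι) (hψ : MemLp ψ 2 volume)
    (hwt : AEStronglyMeasurable wt volume) {B : ℝ} (hB : ∀ y, ‖wt y‖ ≤ B) (h0 : ∀ y, 0 ≤ wt y)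
    {φ : E → F} (hφ : ContDiff ℝ 1 φ) (hcs : HasCompactSupport φ)
    (hcore : ∀ w x', IsCoreVec b R fun y => L.comp w (fib T φ x' y))
    {S : Set (Cfg N)} (hS : MeasurableSet S) {κ : ℝ} (hκ : 0 < κ) (hκS : ∀ y ∈ S, κ ≤ wt y) :
    ∫ x in {x | (T x).fst ∈ S}, ‖φ x - pproj T L ψ φ x‖ ^ 2 ≤
      (κ * c)⁻¹ * ((1 / 16 : ℝ) * ∑ α : Fin 16, ∫ x, ‖pcharge T b θ G g m α φ x‖ ^ 2) := by
  have hφ2 : MemLp φ 2 volume := hφ.continuous.memLp_of_hasCompactSupport hcs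
  have hd : MemLp (fun x => φ x - pproj T L ψ φ x) 2 volume := hφ2.sub (memLp_pproj T L hψ hφ2)
  have hI : Integrable fun x => ‖φ x - pproj T L ψ φ x‖ ^ 2 :=
    (memLp_two_iff_integrable_sq_norm hd.1).1 hd
  have hSm : MeasurableSet {x : E | (T x).fst ∈ S} := measurable_fst T hS
  have hwm : AEStronglyMeasurable (fun x => wt (T x).fst) volume := by
    have h1 : AEStronglyMeasurable (fun p : E' × Cfg N => wt p.2) (volume.prod volume) :=
      hwt.comp_snd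
    exact h1.comp_measurePreserving (mp_symm T)
  have hIw : Integrable fun x => wt (T x).fst * ‖φ x - pproj T L ψ φ x‖ ^ 2 :=
    hI.bdd_mul hwm (Eventually.of_forall fun x => hB _)
  have h1 := h.plift T L hψ hwt hB hφ hcs hcore
  have h2 : κ * ∫ x in {x | (T x).fst ∈ S}, ‖φ x - pproj T L ψ φ x‖ ^ 2 ≤
      ∫ x, wt (T x).fst * ‖φ x - pproj T L ψ φ x‖ ^ 2 := by
    rw [← integral_const_mul]
    calc ∫ x in {x | (T x).fst ∈ S}, κ * ‖φ x - pproj T L ψ φ x‖ ^ 2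
        ≤ ∫ x in {x | (T x).fst ∈ S}, wt (T x).fst * ‖φ x - pproj T L ψ φ x‖ ^ 2 := by
          refine setIntegral_mono_on (hI.const_mul κ).integrableOn hIw.integrableOn hSm
            fun x hx => mul_le_mul_of_nonneg_right (hκS _ hx) (sq_nonneg _)
      _ ≤ _ := setIntegral_le_integral hIw
          (Eventually.of_forall fun x => mul_nonneg (h0 _) (sq_nonneg _))
  have h3 : κ * c * ∫ x in {x | (T x).fst ∈ S}, ‖φ x - pproj T L ψ φ x‖ ^ 2 ≤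
      (1 / 16 : ℝ) * ∑ α : Fin 16, ∫ x, ‖pcharge T b θ G g m α φ x‖ ^ 2 := by
    refine le_trans ?_ h1
    calc _ = c * (κ * ∫ x in {x | (T x).fst ∈ S}, ‖φ x - pproj T L ψ φ x‖ ^ 2) := by ring
      _ ≤ _ := mul_le_mul_of_nonneg_left h2 hc.le
  have hκc : 0 < κ * c := mul_pos hκ hc
  rw [← div_eq_inv_mul, le_div_iff₀ hκc, mul_comm]
  exact h3

/-- **The block estimate on a ball.** -/
theorem Low.capture_ball {c s : ℝ} {ψ : Cfg N → F₁} (h : Low b M R G g m c (hws s) ψ)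
    (hc : 0 < c) (hs : 0 < s) (T : E ≃ₗᵢ[ℝ] WithLp 2 (Cfg N × E')) (L : Mult M θ ι)
    (hψ : MemLp ψ 2 volume) {φ : E → F} (hφ : ContDiff ℝ 1 φ) (hcs : HasCompactSupport φ)
    (hcore : ∀ w x', IsCoreVec b R fun y => L.comp w (fib T φ x' y)) (δ : ℝ) :
    ∫ x in {x | ‖(T x).fst‖ ≤ δ}, ‖φ x - pproj T L ψ φ x‖ ^ 2 ≤
      (s + δ ^ 2) / c * ((1 / 16 : ℝ) * ∑ α : Fin 16, ∫ x, ‖pcharge T b θ G g m α φ x‖ ^ 2) := by
  have hp : 0 < s + δ ^ 2 := by positivity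
  have hb := h.capture_on hc T L hψ (continuous_hws hs).aestronglyMeasurable (hws_le hs)
    (fun y => (hws_pos hs y).le) hφ hcs hcore (S := {y | ‖y‖ ≤ δ})
    (measurableSet_le measurable_norm measurable_const) (κ := (s + δ ^ 2)⁻¹) (inv_pos.2 hp)
    (fun y hy => by
      unfold hws
      refine inv_anti₀ (by positivity) ?_
      have hy' : ‖y‖ ≤ δ := hy
      have := pow_le_pow_left₀ (norm_nonneg y) hy' 2
      linarith)
  refine hb.trans (le_of_eq ?_)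
  congr 1
  rw [mul_inv, inv_inv]
  rfl

end more

end Crest.Agent.R330.Prod494

end
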