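import Crest.Agent.R330.Fact3_161
import Crest.Agent.R330.FactG_161
import Crest.Agent.R330.Prod6_494

/-!
# Row 330 (helper494): the product projection is `Ψ Ψ^*`, part 1: algebra

Over 161's factorisation (`wop`, `pr`):

* `wadj h M e f` : the adjoint of `wop f`; `bilin_wadj`, `norm_wadj_le`.
* `comm_PE`, `comm_wop`, `comm_wadj` : an operator commuting with all `θ (e x)` commutes with
  `PE`, `wop f`, `(wop f)^*`.
* `wadj_wop` : `(wop f)^* (wop g w) = ⟪f, g⟫ PE w`.
* `pr_comm_wadj` : the product over the other (even) blocks commutes with `(wop f)^*`.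
-/

set_option autoImplicit false
set_option linter.unusedSectionVars false

open MeasureTheory Filter Topology Crest.MathPhysics.MatrixQM
open scoped ContDiff InnerProductSpace ENNReal

noncomputable section

namespace Crest.Agent.R330.Prod494

open Crest.Agent.R330.Cliff442 Crest.Agent.R330.Cliff442.CRep Crest.Agent.R330.Fact161

section one

variable {V V₁ F F₁ : Type*} [NormedAddCommGroup V] [InnerProductSpace ℝ V]
  [NormedAddCommGroup V₁] [InnerProductSpace ℝ V₁]
  [NormedAddCommGroup F] [InnerProductSpace ℂ F] [NormedAddCommGroup F₁] [InnerProductSpace ℂ F₁]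
  [FiniteDimensional ℂ F] {ι : Type*}
  {M₁ : CRep V₁ F₁} {u v : ι → V₁} {s : Finset ι} {Ω : F₁} (h : Pol M₁ u v s Ω)
  (M : CRep V F) (e : V₁ →ₗᵢ[ℝ] V)

/-- the adjoint of `wop f` -/
def wadj (f : F₁) (w : F) : F := (wop h M e f).adjoint w

theorem inner_wadj_left (f : F₁) (w g : F) : ⟪wadj h M e f w, g⟫_ℂ = ⟪w, wop h M e f g⟫_ℂ := by
  unfold wadj
  rw [LinearMap.adjoint_inner_left]

theorem inner_wadj_right (f : F₁) (w g : F) : ⟪g, wadj h M e f w⟫_ℂ = ⟪wop h M e f g, w⟫_ℂ := by
  unfold wadj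
  rw [LinearMap.adjoint_inner_right]

theorem wadj_add (f : F₁) (w w' : F) :
    wadj h M e f (w + w') = wadj h M e f w + wadj h M e f w' := map_add _ _ _

theorem wadj_smul (f : F₁) (c : ℂ) (w : F) : wadj h M e f (c • w) = c • wadj h M e f w :=
  map_smul _ _ _

theorem wadj_zero (f : F₁) : wadj h M e f 0 = 0 := map_zero _

theorem wadj_add_left (f g : F₁) (w : F) :
    wadj h M e (f + g) w = wadj h M e f w + wadj h M e g w := by
  refine ext_inner_right ℂ fun z => ?_
  rw [inner_add_left, inner_wadj_left, inner_wadj_left, inner_wadj_left, map_add,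
    LinearMap.add_apply, inner_add_right]

theorem wadj_smul_left (c : ℂ) (f : F₁) (w : F) :
    wadj h M e (c • f) w = (starRingEnd ℂ) c • wadj h M e f w := by
  refine ext_inner_right ℂ fun z => ?_
  rw [inner_smul_left, inner_wadj_left, inner_wadj_left, map_smul, LinearMap.smul_apply,
    inner_smul_right, Complex.conj_conj]

theorem norm_wadj_le (f : F₁) (w : F) : ‖wadj h M e f w‖ ≤ ‖f‖ * ‖w‖ := by
  by_cases h0 : ‖wadj h M e f w‖ = 0
  · rw [h0]; positivity
  have h1 : ‖wadj h M e f w‖ ^ 2 ≤ ‖w‖ * (‖f‖ * ‖wadj h M e f w‖) := by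
    have h2 : ((‖wadj h M e f w‖ ^ 2 : ℝ) : ℂ) = ⟪w, wop h M e f (wadj h M e f w)⟫_ℂ := by
      rw [← inner_wadj_left, isc]
    have h3 : ‖wadj h M e f w‖ ^ 2 = ‖⟪w, wop h M e f (wadj h M e f w)⟫_ℂ‖ := by
      rw [← h2, Complex.norm_real, Real.norm_of_nonneg (sq_nonneg _)]
    rw [h3]
    exact (norm_inner_le_norm _ _).trans (mul_le_mul_of_nonneg_left (norm_wop_le h M e _ _)
      (norm_nonneg _))
  have h4 : 0 < ‖wadj h M e f w‖ := lt_of_le_of_ne (norm_nonneg _) (Ne.symm h0)
  have h5 : ‖wadj h M e f w‖ * ‖wadj h M e f w‖ ≤ (‖f‖ * ‖w‖) * ‖wadj h M e f w‖ := by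
    calc _ = ‖wadj h M e f w‖ ^ 2 := by ring
      _ ≤ _ := h1
      _ = _ := by ring
  exact le_of_mul_le_mul_right h5 h4

theorem bilin_wadj : IsBoundedBilinearMap ℝ fun p : F₁ × F => wadj h M e p.1 p.2 where
  add_left x y z := wadj_add_left h M e x y z
  smul_left c x y := by
    have h1 : (c • x : F₁) = (c : ℂ) • x := (Complex.coe_smul c x).symm
    change wadj h M e (c • x) y = c • wadj h M e x y
    rw [h1, wadj_smul_left, Complex.conj_ofReal, Complex.coe_smul]
  add_right x y z := wadj_add h M e x y z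
  smul_right c x y := by
    have h1 : (c • y : F) = (c : ℂ) • y := (Complex.coe_smul c y).symm
    change wadj h M e x (c • y) = c • wadj h M e x y
    rw [h1, wadj_smul, Complex.coe_smul]
  bound := ⟨1, one_pos, fun x y => by rw [one_mul]; exact norm_wadj_le h M e x y⟩

theorem continuous_wadj : Continuous fun p : F₁ × F => wadj h M e p.1 p.2 :=
  (bilin_wadj h M e).continuous

theorem continuous_wop2 : Continuous fun p : F₁ × F => wop h M e p.1 p.2 :=
  (bilin_wop h M e).continuous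

/-- `wadj f` as a continuous linear map -/
def wadjC (f : F₁) : F →L[ℂ] F := LinearMap.toContinuousLinearMap ((wop h M e f).adjoint)

theorem wadj_mem (f : F₁) (w : F) : wadj h M e f w ∈ vacE M e u v s := by
  have h1 : PE M e u v s (wadj h M e f w) = wadj h M e f w := by
    refine ext_inner_left ℂ fun z => ?_
    rw [← inner_PE, inner_wadj_right, inner_wadj_right, wop_PE]
  rw [← h1]
  exact PE_mem M e u v s _

theorem wadj_wop (f g : F₁) (w : F) :
    wadj h M e f (wop h M e g w) = ⟪f, g⟫_ℂ • PE M e u v s w := by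
  refine ext_inner_left ℂ fun z => ?_
  rw [inner_wadj_right, inner_wop, inner_smul_right, inner_PE, mul_comm]

/-- an operator commuting with the block -/
def CommB (U : F →ₗ[ℂ] F) : Prop := ∀ x f, U (M.θ (e x) f) = M.θ (e x) (U f)

variable {M e}

theorem CommB.adjoint {U : F →ₗ[ℂ] F} (hU : CommB M e U) : CommB M e U.adjoint := by
  intro x f
  refine ext_inner_right ℂ fun g => ?_
  rw [LinearMap.adjoint_inner_left, M.symm, ← hU, M.symm, LinearMap.adjoint_inner_left]

theorem CommB.mem {U : F →ₗ[ℂ] F} (hU : CommB M e U) {w : F} (hw : w ∈ vacE M e u v s) :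
    U w ∈ vacE M e u v s := by
  refine mem_vacE.2 fun k hk => ?_
  rw [ann_apply, ← hU, ← hU, ← map_smul, ← map_add, ← ann_apply, mem_vacE.1 hw k hk, map_zero]

theorem CommB.PE {U : F →ₗ[ℂ] F} (hU : CommB M e U) (w : F) :
    PE M e u v s (U w) = U (Fact161.PE M e u v s w) := by
  refine Submodule.eq_starProjection_of_mem_orthogonal (hU.mem (PE_mem M e u v s w)) ?_
  rw [← map_sub]
  intro z hz
  rw [← LinearMap.adjoint_inner_left]
  have h1 := hU.adjoint.mem hz
  have h2 : w - Fact161.PE M e u v s w ∈ (vacE M e u v s)ᗮ :=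
    Submodule.sub_starProjection_mem_orthogonal w
  exact (Submodule.mem_orthogonal _ _).1 h2 _ h1

theorem CommB.wop {U : F →ₗ[ℂ] F} (hU : CommB M e U) (f : F₁) (w : F) :
    U (wop h M e f w) = Fact161.wop h M e f (U w) := by
  obtain ⟨hw, h1⟩ := comm_Op h M M e (e' := e) hU ⟨Fact161.PE M e u v s w, PE_mem M e u v s w⟩
  rw [wop_apply, h1 f, ← wop_PE h M e f (U w), hU.PE w, wop_of_mem h M e f hw]

/-- **Operators commuting with the block commute with the adjoint of `wop f`.** -/
theorem CommB.wadj {U : F →ₗ[ℂ] F} (hU : CommB M e U) (f : F₁) (w : F) :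
    wadj h M e f (U w) = U (Prod494.wadj h M e f w) := by
  refine ext_inner_right ℂ fun g => ?_
  rw [inner_wadj_left, ← LinearMap.adjoint_inner_right, hU.adjoint.wop h f g,
    ← LinearMap.adjoint_inner_right U, inner_wadj_left]

end one

section fam

variable {V F : Type*} [NormedAddCommGroup V] [InnerProductSpace ℝ V]
  [NormedAddCommGroup F] [InnerProductSpace ℂ F]
  [FiniteDimensional ℂ F] {κ : Type*} {Vf Ff ιf : κ → Type*}
  [∀ p, NormedAddCommGroup (Vf p)] [∀ p, InnerProductSpace ℝ (Vf p)]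
  [∀ p, NormedAddCommGroup (Ff p)] [∀ p, InnerProductSpace ℂ (Ff p)]
  {M₁ : ∀ p, CRep (Vf p) (Ff p)} {u v : ∀ p, ιf p → Vf p} {s : ∀ p, Finset (ιf p)}
  {Ω : ∀ p, Ff p} (h : ∀ p, Pol (M₁ p) (u p) (v p) (s p) (Ω p)) (M : CRep V F)
  {e : ∀ p, Vf p →ₗᵢ[ℝ] V}

/-- the product as a linear map -/
def prL (l : List κ) (f : ∀ p, Ff p) : F →ₗ[ℂ] F where
  toFun w := pr h M e l f w
  map_add' w w' := pr_add h M l f w w'
  map_smul' c w := pr_smul h M l f c w

theorem prL_apply (l : List κ) (f : ∀ p, Ff p) (w : F) :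
    prL h M (e := e) l f w = pr h M e l f w := rfl

theorem prL_comm (ho : ∀ p q, p ≠ q → ∀ x y, ⟪e p x, e q y⟫_ℝ = 0) {l : List κ} {q : κ}
    (hq : q ∉ l) {f : ∀ p, Ff p} (hf : ∀ p ∈ l, par (h p) (f p) = f p) :
    CommB M (e q) (prL h M (e := e) l f) := by
  intro x w
  rw [prL_apply, prL_apply, th_perp_pr_even h M ho (fun p hp y => ho q p
    (fun hqp => hq (hqp ▸ hp)) x y) hf]

/-- the product over the other (even) blocks commutes with `(wop f)^*` -/
theorem pr_comm_wadj (ho : ∀ p q, p ≠ q → ∀ x y, ⟪e p x, e q y⟫_ℝ = 0) {l : List κ} {q : κ}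
    (hq : q ∉ l) {f : ∀ p, Ff p} (hf : ∀ p ∈ l, par (h p) (f p) = f p) (g : Ff q) (w : F) :
    wadj (h q) M (e q) g (pr h M e l f w) = pr h M e l f (wadj (h q) M (e q) g w) :=
  (prL_comm h M ho hq hf).wadj (h q) g w

end fam

end Crest.Agent.R330.Prod494

end
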