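import Crest.Agent.R330.Prod7_494

/-!
# Row 330 (helper494): the product projection is `Ψ Ψ^*`, part 2: the formula

* `pproj_eq` : `pproj T L ψ φ (y, x') = wop (ψ y) (∫ z, (wop (ψ z))^* φ(z, x'))` when `L` comes from
  161's factorisation (`L.J i f = wop f (W i)`).
* `bl l φ` : the iterated adjoint, `bl (p :: l) φ x = ∫ z, (wop (ψ_p z))^* (bl l φ) (x with y_p = z)`.
* `bl_reg`, `bl_upd`, `bl_mem`, `bl_mem_sub`.
* `lprod_eq` : `lprod (pproj ..) l φ x = pr l (ψ_p(y_p)) (bl l φ x)`.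
-/

set_option autoImplicit false
set_option linter.unusedSectionVars false

open MeasureTheory Filter Topology Crest.MathPhysics.MatrixQM
open scoped ContDiff InnerProductSpace ENNReal

noncomputable section

namespace Crest.Agent.R330.Prod494

open Crest.Agent.R330.Cliff442 Crest.Agent.R330.Cliff442.CRep Crest.Agent.R330.Fact161

/-- integrals stay in a subspace -/
theorem integral_mem_sub {X F : Type*} [MeasurableSpace X] {μ : Measure X} [NormedAddCommGroup F]
    [InnerProductSpace ℂ F] [FiniteDimensional ℂ F] (K : Submodule ℂ F) {f : X → F}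
    (hf : ∀ x, f x ∈ K) : ∫ x, f x ∂μ ∈ K := by
  by_cases hi : Integrable f μ
  · have h1 : K.starProjection (∫ x, f x ∂μ) = ∫ x, f x ∂μ := by
      rw [← ContinuousLinearMap.integral_comp_comm _ hi]
      refine integral_congr_ae (Eventually.of_forall fun x => ?_)
      exact Submodule.starProjection_eq_self_iff.2 (hf x)
    exact Submodule.starProjection_eq_self_iff.1 h1
  · rw [integral_undef hi]
    exact K.zero_mem

section upd

variable {N N' : ℕ} {E E' E'' : Type*} [NormedAddCommGroup E] [InnerProductSpace ℝ E]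
  [FiniteDimensional ℝ E] [MeasurableSpace E] [BorelSpace E]
  [NormedAddCommGroup E'] [InnerProductSpace ℝ E']
  [FiniteDimensional ℝ E'] [MeasurableSpace E'] [BorelSpace E']
  [NormedAddCommGroup E''] [InnerProductSpace ℝ E'']
  [FiniteDimensional ℝ E''] [MeasurableSpace E''] [BorelSpace E'']

/-- `x` with the block variable replaced by `z` -/
def upd (T : E ≃ₗᵢ[ℝ] WithLp 2 (Cfg N × E')) (x : E) (z : Cfg N) : E := pt T z (T x).snd

theorem upd_self (T : E ≃ₗᵢ[ℝ] WithLp 2 (Cfg N × E')) (x : E) : upd T x (T x).fst = x := pt_T T x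

theorem fst_upd (T : E ≃ₗᵢ[ℝ] WithLp 2 (Cfg N × E')) (x : E) (z : Cfg N) :
    (T (upd T x z)).fst = z := T_pt_fst T _ _

theorem snd_upd (T : E ≃ₗᵢ[ℝ] WithLp 2 (Cfg N × E')) (x : E) (z : Cfg N) :
    (T (upd T x z)).snd = (T x).snd := T_pt_snd T _ _

theorem upd_upd (T : E ≃ₗᵢ[ℝ] WithLp 2 (Cfg N × E')) (x : E) (z z' : Cfg N) :
    upd T (upd T x z) z' = upd T x z' := by
  unfold upd
  rw [T_pt_snd]

theorem upd_eq (T : E ≃ₗᵢ[ℝ] WithLp 2 (Cfg N × E')) (x : E) (z : Cfg N) :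
    upd T x z = x + emb T (z - (T x).fst) := by
  conv_rhs => rw [← pt_T T x]
  rw [← pt_add_emb]
  unfold upd
  rw [T_pt_fst]
  congr 1
  abel

theorem continuous_upd (T : E ≃ₗᵢ[ℝ] WithLp 2 (Cfg N × E')) :
    Continuous fun p : E × Cfg N => upd T p.1 p.2 := by
  unfold upd
  refine (continuous_pt T).comp (continuous_snd.prodMk ?_)
  exact (continuous_snd.comp (ptH T).symm.continuous).comp continuous_fst

theorem continuous_upd_right (T : E ≃ₗᵢ[ℝ] WithLp 2 (Cfg N × E')) (x : E) :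
    Continuous fun z : Cfg N => upd T x z := by
  have h := continuous_upd T
  exact h.comp (Continuous.prodMk continuous_const continuous_id)

theorem continuous_upd_left (T : E ≃ₗᵢ[ℝ] WithLp 2 (Cfg N × E')) (z : Cfg N) :
    Continuous fun x : E => upd T x z := by
  have h := continuous_upd T
  exact h.comp (Continuous.prodMk continuous_id continuous_const)

theorem Perp.fst_upd {T : E ≃ₗᵢ[ℝ] WithLp 2 (Cfg N × E')}
    {T' : E ≃ₗᵢ[ℝ] WithLp 2 (Cfg N' × E'')} (h : Perp T T') (x : E) (z : Cfg N) :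
    (T' (upd T x z)).fst = (T' x).fst := by
  unfold upd
  rw [h.fst_pt z (T x).fst (T x).snd, pt_T]

theorem Perp.upd_comm {T : E ≃ₗᵢ[ℝ] WithLp 2 (Cfg N × E')}
    {T' : E ≃ₗᵢ[ℝ] WithLp 2 (Cfg N' × E'')} (h : Perp T T') (x : E) (z : Cfg N) (z' : Cfg N') :
    upd T (upd T' x z') z = upd T' (upd T x z) z' := by
  rw [upd_eq T, upd_eq T' (upd T x z), h.fst_upd, h.symm.fst_upd, upd_eq T x, upd_eq T' x]
  abel

end upd

/-! ### One block -/

section meas

variable {X F₁ F V V₁ ι' : Type*} [MeasurableSpace X] {μ : Measure X}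
  [NormedAddCommGroup F₁] [InnerProductSpace ℂ F₁]
  [NormedAddCommGroup F] [InnerProductSpace ℂ F] [FiniteDimensional ℂ F]
  [NormedAddCommGroup V] [InnerProductSpace ℝ V]
  [NormedAddCommGroup V₁] [InnerProductSpace ℝ V₁]
  {M₁ : CRep V₁ F₁} {u v : ι' → V₁} {s : Finset ι'} {Ω : F₁} (h : Pol M₁ u v s Ω)
  (M : CRep V F) (e : V₁ →ₗᵢ[ℝ] V)

theorem aesm_wadj {f : X → F₁} {g : X → F} (hf : AEStronglyMeasurable f μ)
    (hg : AEStronglyMeasurable g μ) : AEStronglyMeasurable (fun z => wadj h M e (f z) (g z)) μ := by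
  have h2 : AEStronglyMeasurable (fun z => (f z, g z)) μ := hf.prodMk hg
  have h3 := (continuous_wadj h M e).comp_aestronglyMeasurable h2
  exact h3

theorem cont_wadj {Y : Type*} [TopologicalSpace Y] (a : F₁) {g : Y → F} (hg : Continuous g) :
    Continuous fun z => wadj h M e a (g z) := by
  have h2 : Continuous fun z => (a, g z) := continuous_const.prodMk hg
  have h3 := (continuous_wadj h M e).comp h2
  exact h3

end meas

section oneblock

variable {N : ℕ} {F₁ F : Type*} [NormedAddCommGroup F₁] [InnerProductSpace ℂ F₁]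
  [FiniteDimensional ℂ F₁] [NormedAddCommGroup F] [InnerProductSpace ℂ F] [FiniteDimensional ℂ F]
  {ι : Type*} [Fintype ι] [DecidableEq ι]
  {Mf : FermionRep N F₁} {θ : Fin 16 → Fin (N ^ 2 - 1) → (F →ₗ[ℂ] F)} (L : Mult Mf θ ι)
  {V V₁ ι' : Type*} [NormedAddCommGroup V] [InnerProductSpace ℝ V]
  [NormedAddCommGroup V₁] [InnerProductSpace ℝ V₁]
  {M₁ : CRep V₁ F₁} {u v : ι' → V₁} {s : Finset ι'} {Ω : F₁} (h : Pol M₁ u v s Ω)
  (M : CRep V F) (e : V₁ →ₗᵢ[ℝ] V) (W : OrthonormalBasis ι ℂ (vacE M e u v s))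
  (hJ : ∀ i f, L.J i f = wop h M e f (W i))
include hJ

theorem inner_comp_eq (i : ι) (f : F₁) (w : F) :
    ⟪f, L.comp i w⟫_ℂ = ⟪(W i : F), wadj h M e f w⟫_ℂ := by
  rw [← inner_conj_symm, L.inner_comp, inner_conj_symm, hJ, inner_wadj_right]

theorem sum_J_smul (a : F) (g : F₁) :
    ∑ i, L.J i (⟪(W i : F), a⟫_ℂ • g) = wop h M e g a := by
  have h1 : ∀ i, L.J i (⟪(W i : F), a⟫_ℂ • g) = wop h M e g (⟪(W i : F), a⟫_ℂ • (W i : F)) := by
    intro i
    rw [map_smul, hJ, map_smul]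
  simp only [h1]
  rw [← map_sum, ← wop_PE h M e g a]
  congr 1
  have h2 := W.sum_repr' ⟨PE M e u v s a, PE_mem M e u v s a⟩
  have h3 : ((∑ i, ⟪W i, (⟨PE M e u v s a, PE_mem M e u v s a⟩ : vacE M e u v s)⟫_ℂ • W i :
      vacE M e u v s) : F) = PE M e u v s a := by
    rw [h2]
  rw [← h3, Submodule.coe_sum]
  refine Finset.sum_congr rfl fun i _ => ?_
  rw [Submodule.coe_smul]
  congr 1
  change _ = ⟪(W i : F), PE M e u v s a⟫_ℂ
  rw [← inner_PE, PE_of_mem (W i).2]

variable {E E' : Type*} [NormedAddCommGroup E] [InnerProductSpace ℝ E] [FiniteDimensional ℝ E]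
  [MeasurableSpace E] [BorelSpace E] [NormedAddCommGroup E'] [InnerProductSpace ℝ E']
  [FiniteDimensional ℝ E'] [MeasurableSpace E'] [BorelSpace E']

/-- **The projection as `A A^*`.** -/
theorem pproj_eq (T : E ≃ₗᵢ[ℝ] WithLp 2 (Cfg N × E')) {ψ : Cfg N → F₁} {φ : E → F} {x : E}
    (hi : Integrable fun z => wadj h M e (ψ z) (φ (upd T x z))) :
    pproj T L ψ φ x = wop h M e (ψ (T x).fst) (∫ z, wadj h M e (ψ z) (φ (upd T x z))) := by
  unfold pproj proj1
  rw [← sum_J_smul L h M e W hJ]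
  refine Finset.sum_congr rfl fun i _ => ?_
  congr 2
  have h1 : ∀ z, ⟪ψ z, L.comp i (fib T φ (T x).snd z)⟫_ℂ =
      ⟪(W i : F), wadj h M e (ψ z) (φ (upd T x z))⟫_ℂ := fun z =>
    inner_comp_eq L h M e W hJ i (ψ z) _
  simp only [h1]
  rw [integral_inner hi]

end oneblock

/-! ### Several blocks -/

section fam

variable {κ : Type*} {k : κ → ℕ} {Ff : κ → Type*} [∀ p, NormedAddCommGroup (Ff p)]
  [∀ p, InnerProductSpace ℂ (Ff p)] [∀ p, FiniteDimensional ℂ (Ff p)]
  {F : Type*} [NormedAddCommGroup F] [InnerProductSpace ℂ F] [FiniteDimensional ℂ F]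
  {ι : κ → Type*} [∀ p, Fintype (ι p)] [∀ p, DecidableEq (ι p)]
  {E : Type*} [NormedAddCommGroup E] [InnerProductSpace ℝ E] [FiniteDimensional ℝ E]
  [MeasurableSpace E] [BorelSpace E] {E' : κ → Type*} [∀ p, NormedAddCommGroup (E' p)]
  [∀ p, InnerProductSpace ℝ (E' p)] [∀ p, FiniteDimensional ℝ (E' p)]
  [∀ p, MeasurableSpace (E' p)] [∀ p, BorelSpace (E' p)]
  {Mf : ∀ p, FermionRep (k p) (Ff p)}
  {θ : ∀ p, Fin 16 → Fin (k p ^ 2 - 1) → (F →ₗ[ℂ] F)}
  {V : Type*} {Vf ιf : κ → Type*} [NormedAddCommGroup V] [InnerProductSpace ℝ V]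
  [∀ p, NormedAddCommGroup (Vf p)] [∀ p, InnerProductSpace ℝ (Vf p)]
  {M₁ : ∀ p, CRep (Vf p) (Ff p)} {u v : ∀ p, ιf p → Vf p} {s : ∀ p, Finset (ιf p)}
  {Ω : ∀ p, Ff p} (h : ∀ p, Pol (M₁ p) (u p) (v p) (s p) (Ω p)) (M : CRep V F)
  (e : ∀ p, Vf p →ₗᵢ[ℝ] V) (T : ∀ p, E ≃ₗᵢ[ℝ] WithLp 2 (Cfg (k p) × E' p))
  (ψ : ∀ p, Cfg (k p) → Ff p)

/-- the iterated adjoint -/
def bl (l : List κ) (φ : E → F) : E → F :=
  l.foldr (fun p χ x => ∫ z, wadj (h p) M (e p) (ψ p z) (χ (upd (T p) x z))) φ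

theorem bl_nil (φ : E → F) : bl h M e T ψ [] φ = φ := rfl

theorem bl_cons (p : κ) (l : List κ) (φ : E → F) (x : E) :
    bl h M e T ψ (p :: l) φ x =
      ∫ z, wadj (h p) M (e p) (ψ p z) (bl h M e T ψ l φ (upd (T p) x z)) := rfl

/-- continuous, bounded, with bounded support in the variables of the blocks outside `l` -/
def RegOut (l : List κ) (χ : E → F) : Prop :=
  Continuous χ ∧ (∃ C, ∀ x, ‖χ x‖ ≤ C) ∧
    ∃ R, ∀ p, p ∉ l → ∀ x, R < ‖(T p x).fst‖ → χ x = 0

variable {T ψ}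

theorem regOut_of_compact {φ : E → F} (hφ : Continuous φ) (hc : HasCompactSupport φ) :
    RegOut T [] φ := by
  refine ⟨hφ, ?_, ?_⟩
  · obtain ⟨C, hC⟩ := hφ.bounded_above_of_compact_support hc
    exact ⟨C, hC⟩
  · obtain ⟨R, hR⟩ := hc.isBounded.subset_closedBall (0 : E)
    refine ⟨R, fun p _ x hx => ?_⟩
    by_contra h0
    have h1 : x ∈ Metric.closedBall (0 : E) R := hR (subset_tsupport _ h0)
    rw [mem_closedBall_zero_iff] at h1
    have h2 : ‖(T p x).fst‖ ≤ ‖x‖ := by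
      have h3 := WithLp.prod_norm_sq_eq_of_L2 (T p x)
      rw [(T p).norm_map] at h3
      have h4 : ‖(T p x).fst‖ ^ 2 ≤ ‖x‖ ^ 2 := by nlinarith [sq_nonneg ‖(T p x).snd‖]
      exact (sq_le_sq₀ (norm_nonneg _) (norm_nonneg _)).1 h4
    linarith

theorem integrable_ind {N : ℕ} {F₁ : Type*} [NormedAddCommGroup F₁] {ψ : Cfg N → F₁}
    (hψ : MemLp ψ 2 volume) (C R : ℝ) :
    Integrable ((Metric.closedBall (0 : Cfg N) R).indicator fun z => C * ‖ψ z‖) := by
  rw [integrable_indicator_iff Metric.isClosed_closedBall.measurableSet]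
  have : IsFiniteMeasure (volume.restrict (Metric.closedBall (0 : Cfg N) R)) :=
    ⟨by rw [Measure.restrict_apply_univ]; exact measure_closedBall_lt_top⟩
  have h1 : MemLp ψ 2 (volume.restrict (Metric.closedBall (0 : Cfg N) R)) := hψ.restrict _
  exact ((h1.integrable (by norm_num)).norm).const_mul C

/-- the integrand of one step -/
theorem step_bound {l : List κ} {p : κ} (hp : p ∉ l) {χ : E → F} (hχ : RegOut T l χ)
    (hψ : MemLp (ψ p) 2 volume) :
    ∃ b : Cfg (k p) → ℝ, Integrable b ∧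
      (∀ x, AEStronglyMeasurable (fun z => wadj (h p) M (e p) (ψ p z) (χ (upd (T p) x z)))
        volume) ∧
      ∀ x z, ‖wadj (h p) M (e p) (ψ p z) (χ (upd (T p) x z))‖ ≤ b z := by
  obtain ⟨hc, ⟨C, hC⟩, R, hR⟩ := hχ
  refine ⟨_, integrable_ind hψ C R, fun x => ?_, fun x z => ?_⟩
  · have h1 : Continuous fun z => χ (upd (T p) x z) := hc.comp (continuous_upd_right (T p) x)
    exact aesm_wadj (h p) M (e p) hψ.1 h1.aestronglyMeasurable
  · by_cases hz : z ∈ Metric.closedBall (0 : Cfg (k p)) R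
    · rw [Set.indicator_of_mem hz]
      refine (norm_wadj_le (h p) M (e p) _ _).trans ?_
      rw [mul_comm]
      exact mul_le_mul_of_nonneg_right (hC _) (norm_nonneg _)
    · rw [Set.indicator_of_notMem hz]
      have h1 : R < ‖z‖ := by
        rw [mem_closedBall_zero_iff, not_le] at hz
        exact hz
      rw [hR p hp _ (by rw [fst_upd]; exact h1), wadj_zero, norm_zero]

theorem step_integrable {l : List κ} {p : κ} (hp : p ∉ l) {χ : E → F} (hχ : RegOut T l χ)
    (hψ : MemLp (ψ p) 2 volume) (x : E) :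
    Integrable fun z => wadj (h p) M (e p) (ψ p z) (χ (upd (T p) x z)) := by
  obtain ⟨b, hb, hm, hle⟩ := step_bound h M e hp hχ hψ
  exact hb.mono' (hm x) (Eventually.of_forall (hle x))

variable (hT : ∀ p q, p ≠ q → Perp (T p) (T q))
include hT

theorem bl_reg (hψ : ∀ p, MemLp (ψ p) 2 volume) {φ : E → F} (hφ : RegOut T [] φ)
    (l : List κ) (hl : l.Nodup) : RegOut T l (bl h M e T ψ l φ) := by
  induction l with
  | nil => exact hφ
  | cons p l ih =>
    obtain ⟨hp, hl'⟩ := List.nodup_cons.1 hl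
    have hχ := ih hl'
    obtain ⟨b, hb, hm, hle⟩ := step_bound h M e hp hχ (hψ p)
    refine ⟨?_, ⟨∫ z, b z, fun x => ?_⟩, ?_⟩
    · refine continuous_of_dominated hm (fun x => Eventually.of_forall (hle x)) hb
        (Eventually.of_forall fun z => ?_)
      have h1 : Continuous fun x => bl h M e T ψ l φ (upd (T p) x z) :=
        hχ.1.comp (continuous_upd_left (T p) z)
      exact cont_wadj (h p) M (e p) (ψ p z) h1
    · exact norm_integral_le_of_norm_le hb (Eventually.of_forall (hle x))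
    · obtain ⟨R, hR⟩ := hχ.2.2
      refine ⟨R, fun q hq x hx => ?_⟩
      have hqp : q ≠ p := fun e => hq (e ▸ List.mem_cons_self)
      have hql : q ∉ l := fun h0 => hq (List.mem_cons_of_mem _ h0)
      rw [bl_cons]
      have h1 : ∀ z, wadj (h p) M (e p) (ψ p z) (bl h M e T ψ l φ (upd (T p) x z)) = 0 := by
        intro z
        rw [hR q hql _ (by rw [(hT p q (Ne.symm hqp)).fst_upd]; exact hx), wadj_zero]
      simp [h1]

theorem bl_upd {φ : E → F} (l : List κ) (hl : l.Nodup) {q : κ} (hq : q ∈ l) (x : E)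
    (z : Cfg (k q)) : bl h M e T ψ l φ (upd (T q) x z) = bl h M e T ψ l φ x := by
  induction l generalizing x with
  | nil => exact absurd hq List.not_mem_nil
  | cons p l ih =>
    obtain ⟨hp, hl'⟩ := List.nodup_cons.1 hl
    rw [bl_cons, bl_cons]
    by_cases hqp : q = p
    · subst hqp
      simp only [upd_upd]
    · have hq' : q ∈ l := (List.mem_cons.1 hq).resolve_left hqp
      refine integral_congr_ae (Eventually.of_forall fun y => ?_)
      simp only
      rw [(hT p q (Ne.symm hqp)).upd_comm, ih hl' hq']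

omit hT in
theorem bl_mem_sub {φ : E → F} (K : Submodule ℂ F) (l : List κ)
    (hK : ∀ p ∈ l, ∀ (f : Ff p) (w : F), w ∈ K → wadj (h p) M (e p) f w ∈ K)
    (hφ : ∀ x, φ x ∈ K) (x : E) : bl h M e T ψ l φ x ∈ K := by
  induction l generalizing x with
  | nil => exact hφ x
  | cons p l ih =>
    rw [bl_cons]
    refine integral_mem_sub K fun z => ?_
    exact hK p List.mem_cons_self _ _
      (ih (fun q hq => hK q (List.mem_cons_of_mem _ hq)) _)

variable (ho : ∀ p q, p ≠ q → ∀ x y, ⟪e p x, e q y⟫_ℝ = 0)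
include ho

omit hT in
theorem wadj_mem_of_ne {p q : κ} (hpq : p ≠ q) (f : Ff p) {w : F}
    (hw : w ∈ vacE M (e q) (u q) (v q) (s q)) :
    wadj (h p) M (e p) f w ∈ vacE M (e q) (u q) (v q) (s q) := by
  have h1 : ∀ x, M.θ (e q x) (wadj (h p) M (e p) f w) =
      wadj (h p) M (e p) (par (h p) f) (M.θ (e q x) w) := fun x =>
    adj_wop_th (h p) M (e p) (fun y => ho q p (Ne.symm hpq) x y) f w
  refine mem_vacE.2 fun j hj => ?_
  rw [ann_apply, h1, h1, ← wadj_smul, ← wadj_add, ← ann_apply, mem_vacE.1 hw j hj, wadj_zero]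

omit hT in
theorem bl_mem {φ : E → F} (l : List κ) {q : κ} (hq : q ∈ l) (x : E) :
    bl h M e T ψ l φ x ∈ vacE M (e q) (u q) (v q) (s q) := by
  induction l generalizing x with
  | nil => exact absurd hq List.not_mem_nil
  | cons p l ih =>
    rw [bl_cons]
    refine integral_mem_sub _ fun z => ?_
    by_cases hqp : q = p
    · subst hqp
      exact wadj_mem (h q) M (e q) _ _
    · have hq' : q ∈ l := (List.mem_cons.1 hq).resolve_left hqp
      exact wadj_mem_of_ne h M e ho (Ne.symm hqp) _ (ih hq' _)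

/-- **The product projection is `Ψ Ψ^*`.** -/
theorem lprod_eq (L : ∀ p, Mult (Mf p) (θ p) (ι p))
    (W : ∀ p, OrthonormalBasis (ι p) ℂ (vacE M (e p) (u p) (v p) (s p)))
    (hJ : ∀ p i f, (L p).J i f = wop (h p) M (e p) f (W p i))
    (hψ : ∀ p, MemLp (ψ p) 2 volume) (hev : ∀ p y, par (h p) (ψ p y) = ψ p y)
    {φ : E → F} (hφ : RegOut T [] φ) (l : List κ) (hl : l.Nodup) (x : E) :
    lprod (fun p => pproj (T p) (L p) (ψ p)) l φ x =
      pr h M e l (fun p => ψ p (T p x).fst) (bl h M e T ψ l φ x) := by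
  induction l generalizing x with
  | nil => rfl
  | cons p l ih =>
    obtain ⟨hp, hl'⟩ := List.nodup_cons.1 hl
    have ih' := ih hl'
    have hreg := bl_reg h M e hT hψ hφ l hl'
    have hint := step_integrable h M e hp hreg (hψ p) x
    have e1 : ∀ z, wadj (h p) M (e p) (ψ p z)
        (lprod (fun p => pproj (T p) (L p) (ψ p)) l φ (upd (T p) x z)) =
        prL h M (e := e) l (fun p => ψ p (T p x).fst)
          (wadj (h p) M (e p) (ψ p z) (bl h M e T ψ l φ (upd (T p) x z))) := by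
      intro z
      rw [ih', prL_apply, ← pr_comm_wadj h M ho hp (fun q _ => hev q _)]
      congr 1
      refine pr_congr h M (fun q hq => ?_) _
      have hqp : p ≠ q := fun e => hp (e ▸ hq)
      rw [(hT p q hqp).fst_upd]
    have e2 : Integrable fun z => wadj (h p) M (e p) (ψ p z)
        (lprod (fun p => pproj (T p) (L p) (ψ p)) l φ (upd (T p) x z)) := by
      simp only [e1]
      exact (LinearMap.toContinuousLinearMap
        (prL h M (e := e) l (fun p => ψ p (T p x).fst))).integrable_comp hint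
    rw [lprod_cons, pproj_eq (L p) (h p) M (e p) (W p) (hJ p) (T p) e2, pr_cons, bl_cons]
    congr 1
    simp only [e1]
    exact (LinearMap.toContinuousLinearMap
      (prL h M (e := e) l (fun p => ψ p (T p x).fst))).integral_comp_comm hint

end fam

end Crest.Agent.R330.Prod494

end
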