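import Crest.Agent.R330.Sym3_613
import Crest.Agent.R330.Haar_596
import Crest.Agent.R330.GapTor_967

/-!
# Row 330 (helper967): weight components of core vectors are core vectors

`hasProj_U` : `HasProj (ιC R) (Uc a) p` for the group `Uc a t φ = U M G a t φ` on the core.
-/

set_option autoImplicit false
set_option linter.unusedSectionVars false

open MeasureTheory Filter Topology Set Crest.MathPhysics.MatrixQM
open scoped InnerProductSpace ContDiff ENNReal

noncomputable section

namespace Crest.Agent.R330.Proj967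

open Crest.Agent.R330.SDefs726 Crest.Agent.R330.Sym613 Crest.Agent.R330.GapAbs967
open Crest.Agent.R330.Defs478 Crest.Agent.R330.Dict416 Crest.Agent.R330.GapTor967

variable {N : ℕ} {F : Type} [NormedAddCommGroup F] [InnerProductSpace ℂ F]
  [FiniteDimensional ℂ F] {b : ColorBasis N} {M : FermionRep N F} {R : GaugeAction b M}
  {G : GammaNine} {a : Matrix (Fin 9) (Fin 9) ℝ}

/-! ## 1. Continuity -/

theorem continuous_eS : Continuous (eS M G a) :=
  continuous_clm_apply.2 fun v => eS_continuous v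

/-- the rotation as a continuous linear map -/
def Lc (a : Matrix (Fin 9) (Fin 9) ℝ) (t : ℝ) : Cfg N →L[ℝ] Cfg N :=
  LinearMap.toContinuousLinearMap (vfL (me a t))

theorem Lc_apply (t : ℝ) (x : Cfg N) : Lc a t x = vf (me a t) x := rfl

theorem continuous_Lc : Continuous (Lc (N := N) a) :=
  continuous_clm_apply.2 fun x =>
    continuous_iff_continuousAt.2 fun t => (vf_hasDerivAt (a := a) t x).continuousAt

theorem continuous_U_joint {ψ : Cfg N → F} (h : Continuous ψ) :
    Continuous fun q : ℝ × Cfg N => U M G a q.1 ψ q.2 :=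
  (continuous_eS.comp continuous_fst).clm_apply
    (h.comp ((continuous_Lc.comp continuous_fst).clm_apply continuous_snd))

/-- the weight component -/
def comp (M : FermionRep N F) (G : GammaNine) (a : Matrix (Fin 9) (Fin 9) ℝ) (p : ℝ) (n : ℤ)
    (ψ : Cfg N → F) (x : Cfg N) : F :=
  (1 / (p : ℂ)) • ∫ t in (0 : ℝ)..p, ch p (-n) t • U M G a t ψ x

theorem comp_contDiff {p : ℝ} (hp : 0 ≤ p) (n : ℤ) {ψ : Cfg N → F} (h : ContDiff ℝ ∞ ψ) :
    ContDiff ℝ ∞ (comp M G a p n ψ) := by
  set μ : Measure (Set.Icc (0 : ℝ) p) := Measure.comap Subtype.val volume with hμ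
  have hfin : IsFiniteMeasure μ := ⟨by
    rw [hμ, (MeasurableEmbedding.subtype_coe measurableSet_Icc).comap_apply]
    refine (measure_mono (Subtype.coe_image_subset _ _)).trans_lt ?_
    rw [Real.volume_Icc]
    exact ENNReal.ofReal_lt_top⟩
  have h1 : ContDiff ℝ ∞ fun x : Cfg N => ∫ t : Set.Icc (0 : ℝ) p,
      (ch p (-n) t • (eS M G a t).restrictScalars ℝ : F →L[ℝ] F) (ψ (Lc a (t : ℝ) x)) ∂μ := by
    rw [contDiff_infty]
    intro k
    refine Haar596.contDiff_avgR (μ := μ)
      (fun t : Set.Icc (0 : ℝ) p => Lc a (t : ℝ)) (continuous_Lc.comp continuous_subtype_val) k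
      (fun t : Set.Icc (0 : ℝ) p => ch p (-n) t • (eS M G a t).restrictScalars ℝ) ?_ ψ
      ((contDiff_infty.1 h) k)
    exact ((ch_cont p (-n)).comp continuous_subtype_val).smul
      (((ContinuousLinearMap.restrictScalarsL ℂ F F ℝ ℝ).continuous.comp continuous_eS).comp
        continuous_subtype_val)
  have h2 : comp M G a p n ψ = fun x => (1 / (p : ℂ)) • ∫ t : Set.Icc (0 : ℝ) p,
      (ch p (-n) t • (eS M G a t).restrictScalars ℝ : F →L[ℝ] F) (ψ (Lc a (t : ℝ) x)) ∂μ := by
    funext x
    unfold comp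
    rw [intervalIntegral.integral_of_le hp, ← integral_Icc_eq_integral_Ioc,
      ← integral_subtype_comap measurableSet_Icc (fun t : ℝ => ch p (-n) t • U M G a t ψ x)]
    rfl
  rw [h2]
  exact contDiff_const.smul h1

theorem comp_supp (ha : a.transpose = -a) {p : ℝ} (n : ℤ) {ψ : Cfg N → F}
    (h : HasCompactSupport ψ) : HasCompactSupport (comp M G a p n ψ) := by
  obtain ⟨r, hr⟩ := h.isCompact.isBounded.subset_closedBall (0 : Cfg N)
  refine HasCompactSupport.of_support_subset_isCompact (isCompact_closedBall (0 : Cfg N) r) ?_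
  intro x hx
  by_contra h'
  apply hx
  have h0 : ∀ t : ℝ, U M G a t ψ x = 0 := fun t => by
    rw [U_apply]
    have h1 : vf (me a t) x ∉ tsupport ψ := fun h2 => h' (by
      have h3 := hr h2
      rwa [mem_closedBall_zero_iff, norm_vf_me ha, ← mem_closedBall_zero_iff] at h3)
    rw [image_eq_zero_of_notMem_tsupport h1, map_zero]
  unfold comp
  simp only [h0, smul_zero, intervalIntegral.integral_zero]

theorem comp_core (ha : a.transpose = -a) {p : ℝ} (hp : 0 ≤ p) (n : ℤ) {ψ : Cfg N → F}
    (h : IsCoreVec b R ψ) : IsCoreVec b R (comp M G a p n ψ) := by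
  refine ⟨comp_contDiff hp n h.1, comp_supp ha n h.2.1, fun g x => ?_⟩
  unfold comp
  rw [map_smul]
  congr 1
  have hU : ∀ t, U M G a t ψ (b.act g x) = R.ρ g (U M G a t ψ x) := fun t =>
    (core_U ha t h).2.2 g x
  simp only [hU]
  have h1 := (LinearMap.toContinuousLinearMap (R.ρ g : F →ₗ[ℂ] F)).intervalIntegral_comp_comm
    (μ := volume) (a := (0 : ℝ)) (b := p) (f := fun t => ch p (-n) t • U M G a t ψ x) ?_
  · rw [LinearMap.coe_toContinuousLinearMap'] at h1
    rw [← h1]
    refine intervalIntegral.integral_congr fun t _ => ?_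
    show ch p (-n) t • R.ρ g (U M G a t ψ x) = R.ρ g (ch p (-n) t • U M G a t ψ x)
    rw [map_smul]
  · refine Continuous.intervalIntegrable ?_ _ _
    exact (ch_cont p (-n)).smul ((continuous_U_joint h.1.continuous).comp
      (continuous_id.prodMk continuous_const))

theorem comp_inner (ha : a.transpose = -a) {p : ℝ} (hp : 0 ≤ p) (n : ℤ) {φ ψ : Cfg N → F}
    (hφ : Continuous φ) (hφc : HasCompactSupport φ) (hψ : Continuous ψ) :
    ∫ x, ⟪φ x, comp M G a p n ψ x⟫_ℂ =
      mean p (fun t => ch p (-n) t * ∫ x, ⟪φ x, U M G a t ψ x⟫_ℂ) := by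
  have hf : Continuous fun q : Cfg N × ℝ => ch p (-n) q.2 * ⟪φ q.1, U M G a q.2 ψ q.1⟫_ℂ :=
    ((ch_cont p (-n)).comp continuous_snd).mul ((hφ.comp continuous_fst).inner
      ((continuous_U_joint hψ).comp continuous_swap))
  set K : Set (Cfg N) := tsupport φ with hK
  have hKc : IsCompact K := hφc
  have hz : ∀ x, x ∉ K → φ x = 0 := fun x hx => image_eq_zero_of_notMem_tsupport hx
  have e1 : ∀ x, ⟪φ x, comp M G a p n ψ x⟫_ℂ =
      (1 / (p : ℂ)) * ∫ t in Set.Ioc (0 : ℝ) p, ch p (-n) t * ⟪φ x, U M G a t ψ x⟫_ℂ := by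
    intro x
    unfold comp
    rw [inner_smul_right, intervalIntegral.integral_of_le hp]
    congr 1
    have h1 := (innerSL ℂ (φ x)).integral_comp_comm
      (μ := volume.restrict (Set.Ioc (0 : ℝ) p)) (φ := fun t => ch p (-n) t • U M G a t ψ x) ?_
    · simp only [innerSL_apply_apply] at h1
      rw [← h1]
      refine integral_congr_ae (Eventually.of_forall fun t => ?_)
      show ⟪φ x, ch p (-n) t • U M G a t ψ x⟫_ℂ = _
      rw [inner_smul_right]
    · have h2 : Continuous fun t => ch p (-n) t • U M G a t ψ x :=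
        (ch_cont p (-n)).smul ((continuous_U_joint hψ).comp
          (continuous_id.prodMk continuous_const))
      exact (h2.continuousOn.integrableOn_compact isCompact_Icc).mono_set Set.Ioc_subset_Icc_self
  have e2 : ∫ x, ⟪φ x, comp M G a p n ψ x⟫_ℂ = ∫ x in K, ⟪φ x, comp M G a p n ψ x⟫_ℂ :=
    (setIntegral_eq_integral_of_forall_compl_eq_zero fun x hx => by
      rw [hz x hx, inner_zero_left]).symm
  have e3 : ∀ t, ∫ x in K, ch p (-n) t * ⟪φ x, U M G a t ψ x⟫_ℂ =
      ch p (-n) t * ∫ x, ⟪φ x, U M G a t ψ x⟫_ℂ := fun t => by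
    rw [integral_const_mul]
    congr 1
    exact setIntegral_eq_integral_of_forall_compl_eq_zero fun x hx => by
      rw [hz x hx, inner_zero_left]
  have hint : Integrable (Function.uncurry fun (x : Cfg N) (t : ℝ) =>
      ch p (-n) t * ⟪φ x, U M G a t ψ x⟫_ℂ)
      ((volume.restrict K).prod (volume.restrict (Set.Ioc (0 : ℝ) p))) := by
    rw [Measure.prod_restrict]
    have h1 : IntegrableOn (fun q : Cfg N × ℝ => ch p (-n) q.2 * ⟪φ q.1, U M G a q.2 ψ q.1⟫_ℂ)
        (K ×ˢ Set.Icc (0 : ℝ) p) (volume.prod volume) :=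
      hf.continuousOn.integrableOn_compact (hKc.prod isCompact_Icc)
    exact h1.mono_set (Set.prod_mono le_rfl Set.Ioc_subset_Icc_self)
  rw [e2]
  simp only [e1]
  rw [integral_const_mul, integral_integral_swap hint]
  simp only [e3]
  unfold mean
  rw [intervalIntegral.integral_of_le hp]

/-! ## 2. The group on the core -/

variable (R G a) in
/-- The group `U_a` on the core. -/
def Uc (ha : a.transpose = -a) (t : ℝ) : core b R →ₗ[ℂ] core b R where
  toFun φ := ⟨U M G a t φ.1, core_U ha t φ.2⟩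
  map_add' φ ψ := Subtype.ext (U_add_fun t φ.1 ψ.1)
  map_smul' c φ := Subtype.ext (U_smul_fun t c φ.1)

theorem Uc_coe (ha : a.transpose = -a) (t : ℝ) (φ : core b R) :
    (Uc R G a ha t φ : Cfg N → F) = U M G a t φ.1 := rfl

/-- **Weight components of core vectors are core vectors.** -/
theorem hasProj_U (ha : a.transpose = -a) {p : ℝ} (hp : 0 ≤ p) :
    HasProj (ιC R) (Uc R G a ha) p := by
  intro n ψ
  refine ⟨⟨comp M G a p n ψ.1, comp_core ha hp n ψ.2⟩, fun φ => ?_⟩
  simp only [inner_ιC, Uc_coe]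
  exact comp_inner ha hp n φ.2.1.continuous φ.2.2.1 ψ.2.1.continuous

end Crest.Agent.R330.Proj967

end
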