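import Crest.Agent.R330.PsiGeo_477
import Crest.Agent.R330.PsiMom_269
import Crest.Agent.R330.Pkg3_915
import Crest.Agent.R330.En_87
import Crest.Agent.R330.TPk_776

/-!
# Row 330, S8-PSI: the state of the blocks of a channel (helper726)

Over 477's `BD`, `Link`, 269's integrals and 915's family `Fam`:

* `PsiB h D φ g0 g u : F →L[ℂ] F`, `sB κ g0 g` : the state of the blocks and its radius.
* the fields `Psi_smooth`, `s_pos`, `s_lim`, `Psi_supp`, `Psi_mem`, `Psi_thx`, `Psi_iso`, `Psi_mom`,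
  `Psi_grad`, `Psi_charge` of `TDef414.TPack`.
* `psiData_of` : `TPk776.PsiData`, the covariance and the self-similarity being hypotheses.
-/

set_option autoImplicit false
set_option linter.unusedSectionVars false

open MeasureTheory Filter Topology Crest.MathPhysics.MatrixQM
open scoped ContDiff InnerProductSpace ENNReal

noncomputable section

namespace Crest.Agent.R330.PsiB726

open Crest.Agent.R330.Cliff442 Crest.Agent.R330.Fact161 Crest.Agent.R330.FactI161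
  Crest.Agent.R330.Bind6839 Crest.Agent.R330.Defs478 Crest.Agent.R330.SInd478
  Crest.Agent.R330.Pkg915 Crest.Agent.R330.LS839 Crest.Agent.R330.TDef414
  Crest.Agent.R330.Frame839 Crest.Agent.R330.IBP837 Crest.Agent.R330.Psi477
  Crest.Agent.R330.TPk776

/-! ## operator valued smoothness -/

section clm

variable {F : Type*} [NormedAddCommGroup F] [InnerProductSpace ℂ F] [FiniteDimensional ℂ F]
  {E : Type*} [NormedAddCommGroup E] [NormedSpace ℝ E]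

theorem clm_expand (L : F →L[ℂ] F) : L = ∑ i, (ContinuousLinearMap.smulRightL ℂ F F
    (innerSL ℂ (stdOrthonormalBasis ℂ F i))) (L (stdOrthonormalBasis ℂ F i)) := by
  ext f
  rw [sum_apply]
  conv_lhs => rw [← (stdOrthonormalBasis ℂ F).sum_repr' f, map_sum]
  refine Finset.sum_congr rfl fun i _ => ?_
  rw [map_smul]
  rfl

theorem contDiff_clm {n : WithTop ℕ∞} {L : E → F →L[ℂ] F}
    (hL : ∀ f, ContDiff ℝ n fun x => L x f) : ContDiff ℝ n L := by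
  have h1 : L = fun x => ∑ i, (ContinuousLinearMap.smulRightL ℂ F F
      (innerSL ℂ (stdOrthonormalBasis ℂ F i))) (L x (stdOrthonormalBasis ℂ F i)) :=
    funext fun x => clm_expand (L x)
  rw [h1]
  refine ContDiff.sum fun i _ => ?_
  exact (((ContinuousLinearMap.smulRightL ℂ F F
    (innerSL ℂ (stdOrthonormalBasis ℂ F i))).restrictScalars ℝ).contDiff).comp (hL _)

end clm

variable {N p : ℕ} {b : ColorBasis N} {S : Type} [Group S] [Fintype S] {C : Chn b p S}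
  {κ : Type*} [Fintype κ] [DecidableEq κ] {k : κ → ℕ} {bb : ∀ q, ColorBasis (k q)}
  {ε : ∀ q, Colg (k q) →ₗᵢ[ℝ] Colg N}
  {F : Type*} [NormedAddCommGroup F] [InnerProductSpace ℂ F] [FiniteDimensional ℂ F]
  {M : FermionRep N F} {R : GaugeAction b M} {G : GammaNine}
  {Fb : κ → Type*} [∀ q, NormedAddCommGroup (Fb q)] [∀ q, InnerProductSpace ℂ (Fb q)]
  [∀ q, FiniteDimensional ℂ (Fb q)]

/-! ## definitions -/

/-- **The state of the blocks.** -/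
def PsiB (h : Link C k bb ε) (D : BD M G k Fb) (φ : ℝ → ∀ q, Cfg (k q) → Fb q) (g0 g : ℝ)
    (u : Cfg N) : F →L[ℂ] F :=
  if g0 ≤ g then LinearMap.toContinuousLinearMap (D.psi (φ g) (iBT ε h.ho u)) else 0

/-- Its radius. -/
def sB (κ : Type*) [Fintype κ] (g0 g : ℝ) : ℝ :=
  if g0 ≤ g then (1 + (Fintype.card κ : ℝ)) * g ^ (-(1 / 6) : ℝ) else 1

section fields

variable (h : Link C k bb ε) (D : BD M G k Fb) (hD : D.ε = ε)
  {Rb : ∀ q, GaugeAction (bb q) (D.Mb q)} {ψ : ∀ q, Cfg (k q) → Fb q}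
  {φ : ℝ → ∀ q, Cfg (k q) → Fb q} {g0 K : ℝ}

theorem PsiB_of_le {g : ℝ} (hg : g0 ≤ g) (u : Cfg N) (f : F) :
    PsiB h D φ g0 g u f = D.psi (φ g) (iBT ε h.ho u) f := by
  unfold PsiB
  rw [if_pos hg]
  rfl

theorem PsiB_iB {g : ℝ} (hg : g0 ≤ g) (Y : EY k) (f : F) :
    PsiB h D φ g0 g (iB ε h.ho Y) f = D.psi (φ g) Y f := by
  rw [PsiB_of_le h D hg, iBT_iB]

theorem PsiB_iBe {g : ℝ} (hg : g0 ≤ g) (Y : EY k) (f : F) :
    PsiB h D φ g0 g ((h.iBe Y : C.Blk) : Cfg N) f = D.psi (φ g) Y f := PsiB_iB h D hg Y f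

theorem PsiB_of_lt {g : ℝ} (hg : ¬ g0 ≤ g) (u : Cfg N) : PsiB h D φ g0 g u = 0 := by
  unfold PsiB
  rw [if_neg hg]

/-- Every point of the block part is a point of `EY k`. -/
theorem exists_iB {Y : Cfg N} (hY : Y ∈ C.Blk) : ∃ Y' : EY k, iB ε h.ho Y' = Y :=
  ⟨h.iBe.symm ⟨Y, hY⟩, by
    rw [← h.coe_iBe, LinearIsometryEquiv.apply_symm_apply]⟩

/-! ### smoothness, radius, support -/

theorem contDiff_PsiB {n : WithTop ℕ∞} {g : ℝ} (hφ : g0 ≤ g → ∀ q, ContDiff ℝ n (φ g q)) :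
    ContDiff ℝ n (PsiB h D φ g0 g) := by
  by_cases hg : g0 ≤ g
  · refine contDiff_clm fun f => ?_
    have h1 : (fun u => PsiB h D φ g0 g u f) = fun u => D.psi (φ g) (iBT ε h.ho u) f :=
      funext fun u => PsiB_of_le h D hg u f
    rw [h1]
    exact D.contDiff_psi (hφ hg) (iBT ε h.ho).contDiff contDiff_const
  · have h1 : PsiB h D φ g0 g = fun _ => 0 := funext fun u => PsiB_of_lt h D hg u
    rw [h1]
    exact contDiff_const

theorem sB_pos (hg0 : 1 ≤ g0) (g : ℝ) : 0 < sB κ g0 g := by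
  unfold sB
  split_ifs with hg
  · have : 0 < g := by linarith
    positivity
  · exact one_pos

theorem sB_lim (κ : Type*) [Fintype κ] (g0 : ℝ) : Tendsto (sB κ g0) atTop (𝓝 0) := by
  have h1 : Tendsto (fun g : ℝ => (1 + (Fintype.card κ : ℝ)) * g ^ (-(1 / 6) : ℝ)) atTop
      (𝓝 0) := by
    have h2 := (tendsto_rpow_neg_atTop (y := 1 / 6) (by norm_num)).const_mul
      (1 + (Fintype.card κ : ℝ))
    rwa [mul_zero] at h2
  refine h1.congr' ?_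
  filter_upwards [eventually_ge_atTop g0] with g hg
  unfold sB
  rw [if_pos hg]

theorem exists_far {r : ℝ} (hr : 0 < r) {Y : EY k}
    (hY : (1 + (Fintype.card κ : ℝ)) * r ≤ ‖Y‖) : ∃ q, r ≤ ‖Y q‖ := by
  by_contra hc
  push Not at hc
  have h1 : ‖Y‖ ^ 2 ≤ (Fintype.card κ : ℝ) * r ^ 2 := by
    rw [PiVol269.norm_sq_eq]
    calc ∑ q, ‖Y q‖ ^ 2 ≤ ∑ _q : κ, r ^ 2 := Finset.sum_le_sum fun q _ =>
          pow_le_pow_left₀ (norm_nonneg _) (hc q).le 2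
      _ = _ := by rw [Finset.sum_const, Finset.card_univ, nsmul_eq_mul]
  have h2 : ((1 + (Fintype.card κ : ℝ)) * r) ^ 2 ≤ ‖Y‖ ^ 2 :=
    pow_le_pow_left₀ (by positivity) hY 2
  have h3 : (0 : ℝ) ≤ (Fintype.card κ : ℝ) := Nat.cast_nonneg _
  have h4 : 0 < r ^ 2 := by positivity
  nlinarith [mul_nonneg h3 h4.le, mul_nonneg (mul_nonneg h3 h3) h4.le]

theorem PsiB_supp (hg0 : 1 ≤ g0)
    (hs : ∀ g, g0 ≤ g → ∀ q y, g ^ (-(1 / 6) : ℝ) ≤ ‖y‖ → φ g q y = 0) (g : ℝ) {Y : Cfg N}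
    (hY : Y ∈ C.Blk) (hn : sB κ g0 g ≤ ‖Y‖) : PsiB h D φ g0 g Y = 0 := by
  by_cases hg : g0 ≤ g
  · obtain ⟨Y', rfl⟩ := exists_iB h hY
    ext f
    rw [PsiB_iB h D hg]
    unfold sB at hn
    rw [if_pos hg, LinearIsometry.norm_map] at hn
    have hgp : 0 < g := by linarith
    obtain ⟨q, hq⟩ := exists_far (Real.rpow_pos_of_pos hgp _) hn
    rw [D.psi_eq_zero (hs g hg q _ hq)]
    rfl
  · exact PsiB_of_lt h D hg Y

/-! ### values -/

include hD in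
theorem perp_thv {g : ℝ} (hg : g0 ≤ g) (he : ∀ q y, D.Even q (φ g q y)) {c : Colg N}
    (hc : ∀ q x, ⟪c, ε q x⟫_ℝ = 0) (β : Fin 16) (u : Cfg N) (f : F) :
    PsiB h D φ g0 g u (thv M β c f) = thv M β c (PsiB h D φ g0 g u f) := by
  rw [PsiB_of_le h D hg, PsiB_of_le h D hg]
  exact (D.psi_perp_thv he (c := c) (fun q x => by rw [hD]; exact hc q x) β _ f).symm

include hD in
theorem gan_perp {g : ℝ} (hg : g0 ≤ g) (he : ∀ q y, D.Even q (φ g q y)) {c : Colg N}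
    (hc : ∀ q x, ⟪c, ε q x⟫_ℝ = 0) (α : Fin 16) (u : Cfg N) (f : F) :
    gan M G α c (PsiB h D φ g0 g u f) = PsiB h D φ g0 g u (gan M G α c f) := by
  unfold gan
  simp only [LinearMap.sub_apply, LinearMap.smul_apply, LinearMap.sum_apply, map_sub, map_smul,
    map_sum, perp_thv h D hD hg he hc]

theorem gan_zero_colg (α : Fin 16) (c : Colg N) : gan M G α c (0 : F) = 0 := map_zero _

include hD in
theorem PsiB_mem (he : ∀ g, g0 ≤ g → ∀ q y, D.Even q (φ g q y)) (g : ℝ) (Y : Cfg N) {f : F}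
    (hf : f ∈ C.Fx M G) : PsiB h D φ g0 g Y f ∈ C.Fl M G := by
  by_cases hg : g0 ≤ g
  · intro α u hu
    have h1 : ∀ q x, ⟪u, ε q x⟫_ℝ = 0 := fun q x => by
      rw [real_inner_comm]
      exact (Submodule.mem_orthogonal _ _).1 hu _ (h.mem q x)
    rw [gan_perp h D hD hg (he g hg) h1, C.Fx_le_Fl M G hf α u hu, map_zero]
  · rw [PsiB_of_lt h D hg]
    exact Submodule.zero_mem _

include hD in
theorem PsiB_thx (he : ∀ g, g0 ≤ g → ∀ q y, D.Even q (φ g q y)) (g : ℝ) (Y : Cfg N)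
    (β : Fin 16) (t : EuclideanSpace ℝ (Fin p)) (f : F) :
    PsiB h D φ g0 g Y (thv M β (C.cen t) f) = thv M β (C.cen t) (PsiB h D φ g0 g Y f) := by
  by_cases hg : g0 ≤ g
  · exact perp_thv h D hD hg (he g hg) (fun q x => h.cen0 q t x) β Y f
  · rw [PsiB_of_lt h D hg]
    show (0 : F) = thv M β (C.cen t) 0
    rw [map_zero]

/-! ### the amplitude space -/

include h hD in
/-- The amplitudes are in the vacuum of the blocks. -/
theorem Fx_le_W {f : F} (hf : f ∈ C.Fx M G) : f ∈ D.W := by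
  rw [D.mem_W]
  intro q
  rw [mem_vacB_iff]
  intro β c
  have h1 : D.ε q c ∈ (LinearMap.range C.cen.toLinearMap)ᗮ := by
    rw [Submodule.mem_orthogonal]
    rintro _ ⟨t, rfl⟩
    rw [hD]
    exact h.cen0 q t c
  have h2 := hf β (D.ε q c) h1
  unfold gan at h2
  rw [LinearMap.sub_apply, LinearMap.smul_apply, LinearMap.sum_apply, sub_eq_zero] at h2
  rw [h2]
  rfl

theorem psi_eq_ps (φ' : ∀ q, Cfg (k q) → Fb q) (w : F) (Y : EY k) :
    D.psi φ' Y w = PsiMom269.ps D.pol (cr M) (fun q => te (D.ε q)) φ' w Y := rfl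

/-! ### scalar product -/

include hD in
theorem PsiB_inner {g : ℝ} (hg : g0 ≤ g) (hn : ∀ q, ∫ y, ‖φ g q y‖ ^ 2 = 1) {f f' : F}
    (hf : f ∈ C.Fx M G) :
    ∫ Y : C.Blk, ⟪PsiB h D φ g0 g Y f, PsiB h D φ g0 g Y f'⟫_ℂ = ⟪f, f'⟫_ℂ := by
  rw [h.integral_blk fun u => ⟪PsiB h D φ g0 g u f, PsiB h D φ g0 g u f'⟫_ℂ]
  simp only [PsiB_iB h D hg, psi_eq_ps]
  rw [PsiMom269.integral_inner_ps D.pol (cr M) D.orth f' (Fx_le_W h D hD hf)]
  rw [Finset.prod_eq_one, one_mul]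
  intro q _
  have h1 : ∀ y, ⟪φ g q y, φ g q y⟫_ℂ = ((‖φ g q y‖ ^ 2 : ℝ) : ℂ) := fun y => by
    rw [inner_self_eq_norm_sq_to_K]
    simp
  simp only [h1]
  rw [integral_complex_ofReal, hn q, Complex.ofReal_one]

/-! ### second moment -/

include hD in
theorem PsiB_moment {g : ℝ} (hg : g0 ≤ g) (hs : ∀ q, ContDiff ℝ ∞ (φ g q))
    (hc : ∀ q, HasCompactSupport (φ g q)) (hn : ∀ q, ∫ y, ‖φ g q y‖ ^ 2 = 1) {f : F}
    (hf : f ∈ C.Fx M G) :
    ∫ Y : C.Blk, ‖(Y : Cfg N)‖ ^ 2 * ‖PsiB h D φ g0 g Y f‖ ^ 2 =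
      (∑ q, ∫ y, ‖y‖ ^ 2 * ‖φ g q y‖ ^ 2) * ‖f‖ ^ 2 := by
  rw [h.integral_blk fun u => ‖u‖ ^ 2 * ‖PsiB h D φ g0 g u f‖ ^ 2]
  simp only [PsiB_iB h D hg, psi_eq_ps, LinearIsometry.norm_map]
  have hs1 : ∀ q, ContDiff ℝ 1 (φ g q) := fun q => (hs q).of_le (by exact_mod_cast le_top)
  exact PsiMom269.integral_moment2_one D.pol (cr M) D.orth
    (fun q => PsiMom269.integrable_nsq hs1 hc q)
    (fun q => PsiMom269.integrable_nsq_weight hs1 hc q 2) hn (Fx_le_W h D hD hf)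

/-! ### gradient -/

theorem fderiv_PsiB {g : ℝ} (hg : g0 ≤ g) (f : F) (Y : EY k) :
    ‖fderiv ℝ (fun Y : C.Blk => PsiB h D φ g0 g Y f) (h.iBe Y)‖ =
      ‖fderiv ℝ (fun Y : EY k => D.psi (φ g) Y f) Y‖ := by
  have h1 : (fun Y : EY k => D.psi (φ g) Y f) =
      (fun Y : C.Blk => PsiB h D φ g0 g Y f) ∘ h.iBe :=
    funext fun Y => (PsiB_iBe h D hg Y f).symm
  have h2 : fderiv ℝ ((fun Y : C.Blk => PsiB h D φ g0 g Y f) ∘ h.iBe.toContinuousLinearEquiv) Y =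
      (fderiv ℝ (fun Y : C.Blk => PsiB h D φ g0 g Y f) (h.iBe.toContinuousLinearEquiv Y)).comp
        (h.iBe.toContinuousLinearEquiv : EY k →L[ℝ] C.Blk) :=
    ContinuousLinearEquiv.comp_right_fderiv _
  have h3 : fderiv ℝ (fun Y : EY k => D.psi (φ g) Y f) Y =
      (fderiv ℝ (fun Y : C.Blk => PsiB h D φ g0 g Y f) (h.iBe Y)).comp
        (h.iBe.toContinuousLinearEquiv : EY k →L[ℝ] C.Blk) := by
    rw [h1]
    exact h2
  rw [h3]
  exact (ContinuousLinearMap.opNorm_comp_linearIsometryEquiv _ h.iBe).symm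

theorem dsq_le (n : ℕ) {F' : Type*} [NormedAddCommGroup F'] [InnerProductSpace ℂ F']
    [FiniteDimensional ℂ F'] (χ : Cfg n → F') (y : Cfg n) : ‖fderiv ℝ χ y‖ ^ 2 ≤ dsq χ y :=
  En87.opnorm_fderiv_sq_le χ y

theorem PsiB_grad_le {g : ℝ} (hg : g0 ≤ g) (hs : ∀ q, ContDiff ℝ ∞ (φ g q))
    (hc : ∀ q, HasCompactSupport (φ g q)) (hn : ∀ q, ∫ y, ‖φ g q y‖ ^ 2 = 1) (f : F) :
    ∫ Y : C.Blk, ‖fderiv ℝ (fun Y : C.Blk => PsiB h D φ g0 g Y f) Y‖ ^ 2 ≤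
      (∑ q, ∫ y, dsq (φ g q) y) * ‖f‖ ^ 2 := by
  rw [h.integral_blk' fun Y => ‖fderiv ℝ (fun Y : C.Blk => PsiB h D φ g0 g Y f) Y‖ ^ 2]
  simp only [fderiv_PsiB h D hg f]
  have hs1 : ∀ q, ContDiff ℝ 1 (φ g q) := fun q => (hs q).of_le (by exact_mod_cast le_top)
  refine (PsiMom269.integral_grad_le D.pol (cr M) (e := fun q => te (D.ε q)) hs1 hc hn f).trans ?_
  refine mul_le_mul_of_nonneg_right (Finset.sum_le_sum fun q _ => ?_) (sq_nonneg _)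
  exact integral_mono (PsiMom269.integrable_dsq hs1 hc q) (Pkg915.integrable_dsq (hs1 q) (hc q))
    fun y => dsq_le _ _ y

/-! ### charges -/

include hD in
theorem qblk_PsiB {g : ℝ} (hg : g0 ≤ g) (hs : ∀ q, ContDiff ℝ ∞ (φ g q))
    (he : ∀ q y, D.Even q (φ g q y)) (α : Fin 16) (f : F) (Y : EY k) :
    qblk C M G g α (fun Y => PsiB h D φ g0 g Y f) (iB ε h.ho Y) =
      ∑ q, D.slot (BD.val (φ g) Y) q f (dcharge (bb q) (D.Mb q) G g 0 α (φ g q) (Y q)) := by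
  have hs1 : ∀ q, ContDiff ℝ 1 (φ g q) := fun q => (hs q).of_le (by exact_mod_cast le_top)
  have hd : DifferentiableAt ℝ (fun Y => PsiB h D φ g0 g Y f) (iB ε h.ho Y) := by
    have h1 : ContDiff ℝ 1 (fun Y => PsiB h D φ g0 g Y f) := by
      have h2 : (fun u => PsiB h D φ g0 g u f) = fun u => D.psi (φ g) (iBT ε h.ho u) f :=
        funext fun u => PsiB_of_le h D hg u f
      rw [h2]
      exact D.contDiff_psi hs1 (iBT ε h.ho).contDiff contDiff_const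
    exact (h1.differentiable one_ne_zero) _
  rw [h.qblk_iB D hD g α hd]
  refine Finset.sum_congr rfl fun q _ => ?_
  have h3 : (fun Y => PsiB h D φ g0 g (iB ε h.ho Y) f) = fun Y => D.psi (φ g) Y f :=
    funext fun Y => PsiB_iB h D hg Y f
  rw [h3]
  exact D.bch_psi bb hs1 he q α g 0 f Y

include hD in
theorem qblk_sq_le {g : ℝ} (hg : g0 ≤ g) (hs : ∀ q, ContDiff ℝ ∞ (φ g q))
    (he : ∀ q y, D.Even q (φ g q y)) (α : Fin 16) {f : F} (hf : f ∈ C.Fx M G) (Y : EY k) :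
    ‖qblk C M G g α (fun Y => PsiB h D φ g0 g Y f) (iB ε h.ho Y)‖ ^ 2 ≤
      (Fintype.card κ * ∑ q, ‖dcharge (bb q) (D.Mb q) G g 0 α (φ g q) (Y q)‖ ^ 2 *
        ∏ r ∈ Finset.univ.erase q, ‖φ g r (Y r)‖ ^ 2) * ‖f‖ ^ 2 := by
  rw [qblk_PsiB h D hD hg hs he]
  have h1 : ∀ q, ‖D.slot (BD.val (φ g) Y) q f
      (dcharge (bb q) (D.Mb q) G g 0 α (φ g q) (Y q))‖ ^ 2 =
      (‖dcharge (bb q) (D.Mb q) G g 0 α (φ g q) (Y q)‖ ^ 2 *
        ∏ r ∈ Finset.univ.erase q, ‖φ g r (Y r)‖ ^ 2) * ‖f‖ ^ 2 := by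
    intro q
    rw [D.norm_slot _ _ (Fx_le_W h D hD hf), mul_pow, mul_pow, Finset.prod_pow]
    rfl
  calc ‖∑ q, D.slot (BD.val (φ g) Y) q f
        (dcharge (bb q) (D.Mb q) G g 0 α (φ g q) (Y q))‖ ^ 2
      ≤ (∑ q, ‖D.slot (BD.val (φ g) Y) q f
        (dcharge (bb q) (D.Mb q) G g 0 α (φ g q) (Y q))‖) ^ 2 :=
        pow_le_pow_left₀ (norm_nonneg _) (norm_sum_le _ _) 2
    _ ≤ Fintype.card κ * ∑ q, ‖D.slot (BD.val (φ g) Y) q f
        (dcharge (bb q) (D.Mb q) G g 0 α (φ g q) (Y q))‖ ^ 2 := by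
        have := sq_sum_le_card_mul_sum_sq (s := Finset.univ) (f := fun q =>
          ‖D.slot (BD.val (φ g) Y) q f (dcharge (bb q) (D.Mb q) G g 0 α (φ g q) (Y q))‖)
        rwa [Finset.card_univ] at this
    _ = _ := by
        simp only [h1]
        rw [← Finset.sum_mul, mul_assoc]

include hD in
theorem PsiB_charge_le {g : ℝ} (hg : g0 ≤ g) (hs : ∀ q, ContDiff ℝ ∞ (φ g q))
    (hc : ∀ q, HasCompactSupport (φ g q)) (hn : ∀ q, ∫ y, ‖φ g q y‖ ^ 2 = 1)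
    (he : ∀ q y, D.Even q (φ g q y)) (α : Fin 16) {f : F} (hf : f ∈ C.Fx M G) :
    ∫ Y : C.Blk, ‖qblk C M G g α (fun Y => PsiB h D φ g0 g Y f) Y‖ ^ 2 ≤
      (Fintype.card κ * ∑ q, 16 * qf (bb q) (D.Mb q) G g 0 (φ g q)) * ‖f‖ ^ 2 := by
  have hs1 : ∀ q, ContDiff ℝ 1 (φ g q) := fun q => (hs q).of_le (by exact_mod_cast le_top)
  rw [h.integral_blk fun u => ‖qblk C M G g α (fun Y => PsiB h D φ g0 g Y f) u‖ ^ 2]
  have hi : ∀ q ∈ Finset.univ, Integrable fun Y : EY k =>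
      ‖dcharge (bb q) (D.Mb q) G g 0 α (φ g q) (Y q)‖ ^ 2 *
        ∏ r ∈ Finset.univ.erase q, ‖φ g r (Y r)‖ ^ 2 := fun q _ =>
    PiVol269.integrable_slot (f := fun r y => ‖φ g r y‖ ^ 2)
      (h := fun y => ‖dcharge (bb q) (D.Mb q) G g 0 α (φ g q) y‖ ^ 2)
      (Ims2714.integrable_dcharge (bb q) (D.Mb q) G g 0 (hs1 q) (hc q) α)
      fun r _ => PsiMom269.integrable_nsq hs1 hc r
  refine (integral_mono_of_nonneg (Eventually.of_forall fun Y => sq_nonneg _)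
    (((integrable_finsetSum _ hi).const_mul _).mul_const _)
    (Eventually.of_forall fun Y => qblk_sq_le h D hD hg hs he α hf Y)).trans ?_
  rw [integral_mul_const, integral_const_mul, integral_finsetSum _ hi]
  refine mul_le_mul_of_nonneg_right (mul_le_mul_of_nonneg_left
    (Finset.sum_le_sum fun q _ => ?_) (Nat.cast_nonneg _)) (sq_nonneg _)
  rw [PiVol269.integral_slot (fun r y => ‖φ g r y‖ ^ 2) q
    (fun y => ‖dcharge (bb q) (D.Mb q) G g 0 α (φ g q) y‖ ^ 2),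
    Finset.prod_eq_one fun r _ => hn r, mul_one]
  unfold qf
  have h1 := Finset.single_le_sum (f := fun α : Fin 16 =>
    ∫ x, ‖dcharge (bb q) (D.Mb q) G g 0 α (φ g q) x‖ ^ 2)
    (fun _ _ => integral_nonneg fun _ => sq_nonneg _) (Finset.mem_univ α)
  linarith

end fields

/-! ## the fields of `TPack` -/

section final

variable {h : Link C k bb ε} {D : BD M G k Fb} (hD : D.ε = ε)
  {Rb : ∀ q, GaugeAction (bb q) (D.Mb q)} {ψ : ∀ q, Cfg (k q) → Fb q}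
  {φ : ℝ → ∀ q, Cfg (k q) → Fb q} {g0 K : ℝ} (hg0 : 1 ≤ g0)
  (hF : ∀ g, g0 ≤ g → ∀ q, Fam (bb q) (Rb q) G (ψ q) K g (φ g q))
include hF

theorem smooth_of {g : ℝ} (hg : g0 ≤ g) (q : κ) : ContDiff ℝ ∞ (φ g q) := (hF g hg q).core.1

theorem compact_of {g : ℝ} (hg : g0 ≤ g) (q : κ) : HasCompactSupport (φ g q) :=
  (hF g hg q).core.2.1

theorem even_of' {g : ℝ} (hg : g0 ≤ g) (q : κ) (y : Cfg (k q)) : D.Even q (φ g q y) :=
  D.even_of fun P hP => (hF g hg q).even P hP y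

/-- `Psi_smooth` -/
theorem f_smooth (g : ℝ) : ContDiff ℝ ∞ (PsiB h D φ g0 g) :=
  contDiff_PsiB h D fun hg q => smooth_of hF hg q

include hg0 in
/-- `Psi_supp` -/
theorem f_supp (g : ℝ) : ∀ Y ∈ C.Blk, sB κ g0 g ≤ ‖Y‖ → PsiB h D φ g0 g Y = 0 := fun _ hY hn =>
  PsiB_supp h D hg0 (fun g hg q y => (hF g hg q).supp y) g hY hn

include hD in
/-- `Psi_mem` -/
theorem f_mem (g : ℝ) : ∀ Y ∈ C.Blk, ∀ f ∈ C.Fx M G, PsiB h D φ g0 g Y f ∈ C.Fl M G :=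
  fun Y _ _ hf => PsiB_mem h D hD (fun _ hg q y => even_of' hF hg q y) g Y hf

include hD in
/-- `Psi_thx` -/
theorem f_thx (g : ℝ) : ∀ Y ∈ C.Blk, ∀ β t, ∀ f ∈ C.Fx M G,
    PsiB h D φ g0 g Y (thv M β (C.cen t) f) = thv M β (C.cen t) (PsiB h D φ g0 g Y f) :=
  fun Y _ β t f _ => PsiB_thx h D hD (fun _ hg q y => even_of' hF hg q y) g Y β t f

include hD in
/-- `Psi_iso`, exact form -/
theorem f_inner {g : ℝ} (hg : g0 ≤ g) : ∀ f ∈ C.Fx M G, ∀ f' : F,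
    ∫ Y : C.Blk, ⟪PsiB h D φ g0 g Y f, PsiB h D φ g0 g Y f'⟫_ℂ = ⟪f, f'⟫_ℂ := fun _ hf _ =>
  PsiB_inner h D hD hg (fun q => (hF g hg q).norm) hf

include hD in
/-- `Psi_iso` -/
theorem f_iso : ∀ f ∈ C.Fx M G, ∀ f' ∈ C.Fx M G,
    Tendsto (fun g => ∫ Y : C.Blk, ⟪PsiB h D φ g0 g Y f, PsiB h D φ g0 g Y f'⟫_ℂ) atTop
      (𝓝 ⟪f, f'⟫_ℂ) := fun f hf f' _ => by
  refine tendsto_const_nhds.congr' ?_
  filter_upwards [eventually_ge_atTop g0] with g hg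
  exact (f_inner hD hF hg f hf f').symm

include hD hg0 in
/-- `Psi_mom` -/
theorem f_mom : ∃ K : ℝ, ∀ᶠ g in atTop, ∀ f ∈ C.Fx M G,
    g ^ ((2 : ℝ) / 3) * ∫ Y : C.Blk, ‖(Y : Cfg N)‖ ^ 2 * ‖PsiB h D φ g0 g Y f‖ ^ 2 ≤
      K * ‖f‖ ^ 2 := by
  refine ⟨Fintype.card κ * K, ?_⟩
  filter_upwards [eventually_ge_atTop g0] with g hg f hf
  have hgp : 0 < g := by linarith
  rw [PsiB_moment h D hD hg (fun q => smooth_of hF hg q) (fun q => compact_of hF hg q)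
    (fun q => (hF g hg q).norm) hf, ← mul_assoc]
  refine mul_le_mul_of_nonneg_right ?_ (sq_nonneg _)
  have h1 : ∑ q, ∫ y, ‖y‖ ^ 2 * ‖φ g q y‖ ^ 2 ≤ ∑ _q : κ, K * g ^ (-(2 / 3) : ℝ) :=
    Finset.sum_le_sum fun q _ => (hF g hg q).mom2
  rw [Finset.sum_const, Finset.card_univ, nsmul_eq_mul] at h1
  have h2 : g ^ ((2 : ℝ) / 3) * g ^ (-(2 / 3) : ℝ) = 1 := by
    rw [← Real.rpow_add hgp]
    norm_num
  calc g ^ ((2 : ℝ) / 3) * ∑ q, ∫ y, ‖y‖ ^ 2 * ‖φ g q y‖ ^ 2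
      ≤ g ^ ((2 : ℝ) / 3) * (Fintype.card κ * (K * g ^ (-(2 / 3) : ℝ))) :=
        mul_le_mul_of_nonneg_left h1 (by positivity)
    _ = Fintype.card κ * K * (g ^ ((2 : ℝ) / 3) * g ^ (-(2 / 3) : ℝ)) := by ring
    _ = _ := by rw [h2, mul_one]

/-- `Psi_grad` -/
theorem f_grad : ∃ K : ℝ, ∀ᶠ g in atTop, ∀ f ∈ C.Fx M G,
    ∫ Y : C.Blk, ‖fderiv ℝ (fun Y : C.Blk => PsiB h D φ g0 g Y f) Y‖ ^ 2 ≤
      K * g ^ ((2 : ℝ) / 3) * ‖f‖ ^ 2 := by
  refine ⟨Fintype.card κ * K, ?_⟩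
  filter_upwards [eventually_ge_atTop g0] with g hg f _
  refine (PsiB_grad_le h D hg (fun q => smooth_of hF hg q) (fun q => compact_of hF hg q)
    (fun q => (hF g hg q).norm) f).trans (mul_le_mul_of_nonneg_right ?_ (sq_nonneg _))
  have h1 : ∑ q, ∫ y, dsq (φ g q) y ≤ ∑ _q : κ, K * g ^ (2 / 3 : ℝ) :=
    Finset.sum_le_sum fun q _ => (hF g hg q).grad0
  rw [Finset.sum_const, Finset.card_univ, nsmul_eq_mul, ← mul_assoc] at h1
  exact h1

include hD in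
/-- the charges, quantitative form -/
theorem f_charge_le {g : ℝ} (hg : g0 ≤ g) (α : Fin 16) {f : F} (hf : f ∈ C.Fx M G) :
    ∫ Y : C.Blk, ‖qblk C M G g α (fun Y => PsiB h D φ g0 g Y f) Y‖ ^ 2 ≤
      (Fintype.card κ ^ 2 * (16 * K)) * g ^ (-(1 / 3) : ℝ) * ‖f‖ ^ 2 := by
  refine (PsiB_charge_le h D hD hg (fun q => smooth_of hF hg q) (fun q => compact_of hF hg q)
    (fun q => (hF g hg q).norm) (fun q y => even_of' hF hg q y) α hf).trans
    (mul_le_mul_of_nonneg_right ?_ (sq_nonneg _))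
  have h1 : ∑ q, 16 * qf (bb q) (D.Mb q) G g 0 (φ g q) ≤
      ∑ _q : κ, 16 * (K * g ^ (-(1 / 3) : ℝ)) :=
    Finset.sum_le_sum fun q _ => mul_le_mul_of_nonneg_left (hF g hg q).q0 (by norm_num)
  rw [Finset.sum_const, Finset.card_univ, nsmul_eq_mul] at h1
  refine (mul_le_mul_of_nonneg_left h1 (Nat.cast_nonneg _)).trans (le_of_eq ?_)
  ring

include hD in
/-- `Psi_charge` -/
theorem f_charge : ∀ f ∈ C.Fx M G, ∀ α, Tendsto (fun g => ∫ Y : C.Blk,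
    ‖qblk C M G g α (fun Y => PsiB h D φ g0 g Y f) Y‖ ^ 2) atTop (𝓝 0) := by
  intro f hf α
  have h1 : Tendsto (fun g : ℝ => (Fintype.card κ ^ 2 * (16 * K)) * g ^ (-(1 / 3) : ℝ) *
      ‖f‖ ^ 2) atTop (𝓝 0) := by
    have h2 := ((tendsto_rpow_neg_atTop (y := 1 / 3) (by norm_num)).const_mul
      ((Fintype.card κ : ℝ) ^ 2 * (16 * K))).mul_const (‖f‖ ^ 2)
    rwa [mul_zero, zero_mul] at h2
  refine squeeze_zero' (Eventually.of_forall fun g => integral_nonneg fun _ => sq_nonneg _) ?_ h1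
  filter_upwards [eventually_ge_atTop g0] with g hg
  exact f_charge_le hD hF hg α hf

include hD hg0 in
/-- **The state of the blocks**, covariance and self-similarity being hypotheses. -/
theorem psiData_of
    (hcov : ∀ (h' : Matrix.specialUnitaryGroup (Fin N) ℂ) (X X' : Pos p), C.Reg X → C.Reg X' →
      b.act h' (C.cf X) = C.cf X' → ∀ g, ∀ Y ∈ C.Blk, ∀ f ∈ C.Fx M G,
        R.ρ h' f ∈ C.Fx M G ∧ R.ρ h' (PsiB h D φ g0 g Y f) =
          PsiB h D φ g0 g (b.act h' Y) (R.ρ h' f))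
    (hstab : ∀ (h' : Matrix.specialUnitaryGroup (Fin N) ℂ) (X : Pos p), C.Reg X →
      b.act h' (C.cf X) = C.cf X → ∀ f ∈ C.Fx M G, R.ρ h' f = f)
    (hscale : ∀ δ : ℝ, 0 < δ → ∀ᶠ g1 in atTop, ∀ᶠ g in atTop, ∀ f ∈ C.Fx M G,
      ∫ Y : C.Blk, ‖PsiB h D φ g0 g Y f -
        (((g / g1) ^ ((Module.finrank ℝ C.Blk : ℝ) / 6) : ℝ) : ℂ) •
          PsiB h D φ g0 g1 (((g / g1) ^ ((1 : ℝ) / 3)) • (Y : Cfg N)) f‖ ^ 2 ≤ δ * ‖f‖ ^ 2) :
    PsiData C M R G (PsiB h D φ g0) (sB κ g0) where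
  Psi_smooth := Eventually.of_forall fun g => f_smooth hF g
  s_pos := sB_pos hg0
  s_lim := sB_lim κ g0
  Psi_supp g := f_supp hg0 hF g
  Psi_mem g := f_mem hD hF g
  Psi_thx g := f_thx hD hF g
  Psi_cov := hcov
  stab_fix := hstab
  Psi_iso := f_iso hD hF
  Psi_mom := f_mom hD hg0 hF
  Psi_grad := f_grad hF
  Psi_charge := f_charge hD hF
  Psi_scale := hscale

end final

end Crest.Agent.R330.PsiB726

end
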