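import Crest.Agent.R330.Psi8_477
import Crest.Agent.R330.KEq2_823
import Crest.Agent.R330.Blk4_317

/-!
# Row 330, S8-PSI (helper693): the literal embedding of the block coordinates

Over 317's block decomposition `D : Dec N k` and 477's `EY k = PiLp 2 (fun p => Cfg (k p))`.

* `iB D b bp : EY k →ₗᵢ[ℝ] Cfg N`, `iB Y = ∑ p, embCfg p (Y p)`; `mat_iB`, `comp_iB`,
  `inner_iB_embCfg`, `iB_single`.
* `inner_cenC_iB` : orthogonality to the centre; `iB_mem_Tup`, `iB_mem_Uk`.
* `act_iB` : the block gauge group; `act_iB_stab` : general elements of the stabiliser.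
* `range_iB` : the range is `Tup kkD ⊓ (centre)ᗮ`.
* `eXY` : `(X, Y) ↦ cenC X + iB Y` is an isometry onto `Tup kkD = ℝ⁹ ⊗ k`.
-/

set_option autoImplicit false
set_option linter.unusedSectionVars false

open MeasureTheory Filter Topology Crest.MathPhysics.MatrixQM
open scoped ContDiff InnerProductSpace ENNReal

noncomputable section

namespace Crest.Agent.R330.PsiEmb693

open Crest.Agent.R330.Psi477 Crest.Agent.R330.Blk317 Crest.Agent.R330.SlA314
  Crest.Agent.R330.SlB314 Crest.Agent.R330.Bind6839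

variable {N : ℕ} {κ : Type*} [Fintype κ] {k : κ → ℕ} (D : Dec N k)
  (b : ColorBasis N) (bp : ∀ p, ColorBasis (k p))

/-- **The block embedding.** -/
def iB : EY k →ₗᵢ[ℝ] Cfg N where
  toFun Y := ∑ p, D.embCfg b bp p (Y p)
  map_add' Y Y' := by
    rw [← Finset.sum_add_distrib]
    exact Finset.sum_congr rfl fun p _ => by rw [PiLp.add_apply, map_add]
  map_smul' t Y := by
    rw [RingHom.id_apply, Finset.smul_sum]
    exact Finset.sum_congr rfl fun p _ => by rw [PiLp.smul_apply, map_smul]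
  norm_map' Y := by
    have h1 : ‖∑ p, D.embCfg b bp p (Y p)‖ ^ 2 = ‖Y‖ ^ 2 := by
      rw [← real_inner_self_eq_norm_sq, sum_inner, PiLp.norm_sq_eq_of_L2]
      refine Finset.sum_congr rfl fun p _ => ?_
      rw [inner_sum, Finset.sum_eq_single p]
      · rw [LinearIsometry.inner_map_map, real_inner_self_eq_norm_sq]
      · intro q _ hq
        exact D.inner_embCfg_ne b bp (Ne.symm hq) _ _
      · intro h
        exact absurd (Finset.mem_univ p) h
    exact (sq_eq_sq₀ (norm_nonneg _) (norm_nonneg _)).1 h1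

theorem iB_apply (Y : EY k) : iB D b bp Y = ∑ p, D.embCfg b bp p (Y p) := rfl

theorem mat_sum {ι : Type*} (s : Finset ι) (x : ι → Cfg N) (i : Fin 9) :
    mat b (∑ j ∈ s, x j) i = ∑ j ∈ s, mat b (x j) i := by
  classical
  induction s using Finset.induction_on with
  | empty =>
    rw [Finset.sum_empty, Finset.sum_empty]
    have := mat_smul b 0 (0 : Cfg N) i
    simpa using this
  | insert a s ha ih => rw [Finset.sum_insert ha, Finset.sum_insert ha, mat_add, ih]

theorem mat_iB (Y : EY k) (i : Fin 9) :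
    mat b (iB D b bp Y) i = ∑ p, D.embM p (mat (bp p) (Y p) i) := by
  rw [iB_apply, mat_sum]
  exact Finset.sum_congr rfl fun p _ => D.mat_embCfg b bp p _ i

theorem comp_sum {ι : Type*} (s : Finset ι) (x : ι → Cfg N) (i : Fin 9) :
    comp (∑ j ∈ s, x j) i = ∑ j ∈ s, comp (x j) i := by
  classical
  induction s using Finset.induction_on with
  | empty => rfl
  | insert a s ha ih => rw [Finset.sum_insert ha, Finset.sum_insert ha, comp_add, ih]

theorem comp_iB (Y : EY k) (i : Fin 9) :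
    comp (iB D b bp Y) i = ∑ p, D.emb b bp p (comp (Y p) i) := by
  rw [iB_apply, comp_sum]
  exact Finset.sum_congr rfl fun p _ => rfl

theorem inner_iB_embCfg [DecidableEq κ] (Y : EY k) (q : κ) (y : Cfg (k q)) :
    ⟪iB D b bp Y, D.embCfg b bp q y⟫_ℝ = ⟪Y q, y⟫_ℝ := by
  rw [iB_apply, sum_inner, Finset.sum_eq_single q]
  · rw [LinearIsometry.inner_map_map]
  · intro p _ hp
    exact D.inner_embCfg_ne b bp hp _ _
  · intro h
    exact absurd (Finset.mem_univ q) h

/-- one block -/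
theorem iB_single [DecidableEq κ] (q : κ) (y : Cfg (k q)) :
    iB D b bp (WithLp.toLp 2 (Pi.single q y)) = D.embCfg b bp q y := by
  rw [iB_apply, Finset.sum_eq_single q]
  · show D.embCfg b bp q (Pi.single (M := fun p => Cfg (k p)) q y q) = _
    rw [Pi.single_eq_same]
  · intro p _ hp
    show D.embCfg b bp p (Pi.single (M := fun p => Cfg (k p)) q y p) = _
    rw [Pi.single_eq_of_ne hp, map_zero]
  · intro h
    exact absurd (Finset.mem_univ q) h

/-- basis vectors -/
theorem iB_basis [DecidableEq κ] (q : κ) (i : Fin 9) (a : Fin (k q ^ 2 - 1)) :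
    iB D b bp (WithLp.toLp 2 (Pi.single q (EuclideanSpace.single (i, a) (1 : ℝ)))) =
      ∑ A, D.embC b bp q A a • EuclideanSpace.single (i, A) (1 : ℝ) := by
  rw [iB_single, D.embCfg_single]

theorem iB_mem_Tup (Y : EY k) : iB D b bp Y ∈ Tup (D.kkD b) := fun i => by
  rw [comp_iB]
  exact Submodule.sum_mem _ fun p _ => D.emb_mem_kkD b bp p _

theorem iB_mem_Uk {R : Fin 9 → κ → ℝ} (hR : ∀ i, ∑ p, (k p : ℝ) * R i p = 0) (Y : EY k) :
    iB D b bp Y ∈ Uk b (D.cenCfg b R) := by
  classical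
  exact Submodule.sum_mem _ fun p _ => KEqB823.embCfg_mem_Uk D b bp hR p (Y p)

theorem inner_cenCfg_iB {R : Fin 9 → κ → ℝ} (hR : ∀ i, ∑ p, (k p : ℝ) * R i p = 0) (Y : EY k) :
    ⟪D.cenCfg b R, iB D b bp Y⟫_ℝ = 0 := by
  rw [iB_apply, inner_sum]
  exact Finset.sum_eq_zero fun p _ => D.inner_cenCfg_embCfg b bp hR p (Y p)

/-! ### equivariance -/

/-- **The block gauge group.** -/
theorem act_iB [DecidableEq κ] (q : κ) (h : Matrix.specialUnitaryGroup (Fin (k q)) ℂ) (Y : EY k) :
    b.act (D.iota q h) (iB D b bp Y) =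
      iB D b bp (WithLp.toLp 2 (Function.update Y.ofLp q ((bp q).act h (Y q)))) := by
  apply mat_inj b
  intro i
  rw [mat_act, mat_iB, mat_iB, Finset.mul_sum, Finset.sum_mul]
  refine Finset.sum_congr rfl fun p _ => ?_
  by_cases hp : p = q
  · subst hp
    show _ = D.embM p (mat (bp p) (Function.update Y.ofLp p ((bp p).act h (Y p)) p) i)
    rw [Function.update_self, mat_act, ← D.iota_conj_embM]
  · show _ = D.embM p (mat (bp p) (Function.update Y.ofLp q ((bp q).act h (Y q)) p) i)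
    rw [Function.update_of_ne hp, D.iota_conj_embM_ne (Ne.symm hp)]

/-- **General elements of the stabiliser** (a phase on each block). -/
theorem act_iB_stab (g : Matrix.specialUnitaryGroup (Fin N) ℂ)
    (h : ∀ p, Matrix.specialUnitaryGroup (Fin (k p)) ℂ) (c : κ → ℂ) (hc : ∀ p, c p * star (c p) = 1)
    (hg : ∀ p, (g : Matrix (Fin N) (Fin N) ℂ) * D.V p =
      c p • (D.V p * (h p : Matrix (Fin (k p)) (Fin (k p)) ℂ))) (Y : EY k) :
    b.act g (iB D b bp Y) = iB D b bp (WithLp.toLp 2 fun p => (bp p).act (h p) (Y p)) := by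
  apply mat_inj b
  intro i
  rw [mat_act, mat_iB, mat_iB, Finset.mul_sum, Finset.sum_mul]
  refine Finset.sum_congr rfl fun p _ => ?_
  show _ = D.embM p (mat (bp p) ((bp p).act (h p) (Y p)) i)
  rw [mat_act]
  unfold Dec.embM
  have h1 := congrArg Matrix.conjTranspose (hg p)
  rw [Matrix.conjTranspose_mul, Matrix.conjTranspose_smul, Matrix.conjTranspose_mul] at h1
  rw [Matrix.star_eq_conjTranspose, Matrix.star_eq_conjTranspose]
  calc (g : Matrix (Fin N) (Fin N) ℂ) * (D.V p * mat (bp p) (Y p) i * (D.V p).conjTranspose) *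
        (g : Matrix (Fin N) (Fin N) ℂ).conjTranspose
      = ((g : Matrix (Fin N) (Fin N) ℂ) * D.V p) * mat (bp p) (Y p) i *
          ((D.V p).conjTranspose * (g : Matrix (Fin N) (Fin N) ℂ).conjTranspose) := by
        simp only [Matrix.mul_assoc]
    _ = (c p * star (c p)) • (D.V p * (h p : Matrix (Fin (k p)) (Fin (k p)) ℂ) *
          mat (bp p) (Y p) i * ((h p : Matrix (Fin (k p)) (Fin (k p)) ℂ).conjTranspose *
            (D.V p).conjTranspose)) := by
        rw [h1, hg p]
        simp only [Matrix.smul_mul, Matrix.mul_smul, smul_smul]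
        rw [mul_comm (star (c p))]
    _ = _ := by
        rw [hc p, one_smul]
        simp only [Matrix.mul_assoc]

/-! ### the decomposition -/

/-- The component of a configuration in a block. -/
def adjC (p : κ) (x : Cfg N) : Cfg (k p) :=
  WithLp.toLp 2 fun ia => D.embAdj b bp p (comp x ia.1) ia.2

theorem comp_adjC (p : κ) (x : Cfg N) (i : Fin 9) :
    comp (adjC D b bp p x) i = D.embAdj b bp p (comp x i) := rfl

theorem comp_ext {n : ℕ} {x y : Cfg n} (h : ∀ i, comp x i = comp y i) : x = y := by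
  ext ⟨i, A⟩
  exact congrFun (congrArg WithLp.ofLp (h i)) A

/-- **Decomposition of `ℝ⁹ ⊗ k`.** -/
theorem decompC (hk : ∀ p, 0 < k p) {x : Cfg N} (hx : x ∈ Tup (D.kkD b)) :
    x = D.cenCfg b (fun i p => D.tp b p (comp x i)) +
      iB D b bp (WithLp.toLp 2 fun p => adjC D b bp p x) := by
  refine comp_ext fun i => ?_
  rw [comp_add, comp_iB, D.comp_cenCfg, add_comm]
  exact D.decomp b bp hk (hx i)

section cen

variable [Nonempty κ] (hk : ∀ p, 0 < k p)

theorem inner_cenC_iB (X : EuclideanSpace ℝ (Fin 9 × Fin (Fintype.card κ - 1))) (Y : EY k) :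
    ⟪D.cenC b hk X, iB D b bp Y⟫_ℝ = 0 := by
  rw [D.cenC_eq]
  exact inner_cenCfg_iB D b bp (Dec.sum_posC hk X) Y

theorem cenC_mem_Tup (X : EuclideanSpace ℝ (Fin 9 × Fin (Fintype.card κ - 1))) :
    D.cenC b hk X ∈ Tup (D.kkD b) := fun i => by
  rw [D.comp_cenC]
  exact D.cenE_mem_kkD b hk _

/-- **The range of the block embedding.** -/
theorem range_iB : LinearMap.range (iB D b bp).toLinearMap =
    Tup (D.kkD b) ⊓ (LinearMap.range (D.cenC b hk).toLinearMap)ᗮ := by
  ext x
  constructor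
  · rintro ⟨Y, rfl⟩
    refine ⟨iB_mem_Tup D b bp Y, (Submodule.mem_orthogonal _ _).2 ?_⟩
    rintro _ ⟨X, rfl⟩
    exact inner_cenC_iB D b bp hk X Y
  · rintro ⟨h1, h2⟩
    have h3 := decompC D b bp hk h1
    obtain ⟨X, -, hX⟩ := D.exists_cenC b hk (R := fun i p => D.tp b p (comp x i))
      (fun i => D.sum_tp b hk _)
    rw [← hX] at h3
    set Y : EY k := WithLp.toLp 2 fun p => adjC D b bp p x with hY
    have h4 : ⟪D.cenC b hk X, x⟫_ℝ = 0 := (Submodule.mem_orthogonal _ _).1 h2 _ ⟨X, rfl⟩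
    rw [h3, inner_add_right, inner_cenC_iB, add_zero, inner_self_eq_zero] at h4
    rw [h4, zero_add] at h3
    exact ⟨Y, h3.symm⟩

/-- The map `(X, Y) ↦ cenC X + iB Y`. -/
def fXY : WithLp 2 (EuclideanSpace ℝ (Fin 9 × Fin (Fintype.card κ - 1)) × EY k) →ₗᵢ[ℝ]
    Tup (D.kkD b) where
  toFun Z := ⟨D.cenC b hk Z.fst + iB D b bp Z.snd,
    Submodule.add_mem _ (cenC_mem_Tup D b hk _) (iB_mem_Tup D b bp _)⟩
  map_add' Z Z' := by
    apply Subtype.ext
    simp only [WithLp.add_fst, WithLp.add_snd, map_add, Submodule.coe_add]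
    abel
  map_smul' t Z := by
    apply Subtype.ext
    simp only [WithLp.smul_fst, WithLp.smul_snd, map_smul, RingHom.id_apply, Submodule.coe_smul,
      smul_add]
  norm_map' Z := by
    have h1 : ‖D.cenC b hk Z.fst + iB D b bp Z.snd‖ ^ 2 = ‖Z‖ ^ 2 := by
      rw [norm_add_sq_real, inner_cenC_iB, mul_zero, add_zero, LinearIsometry.norm_map,
        LinearIsometry.norm_map, WithLp.prod_norm_sq_eq_of_L2]
    exact (sq_eq_sq₀ (norm_nonneg _) (norm_nonneg _)).1 h1

theorem fXY_surj : Function.Surjective (fXY D b bp hk) := by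
  rintro ⟨x, hx⟩
  have h3 := decompC D b bp hk hx
  obtain ⟨X, -, hX⟩ := D.exists_cenC b hk (R := fun i p => D.tp b p (comp x i))
    (fun i => D.sum_tp b hk _)
  rw [← hX] at h3
  exact ⟨WithLp.toLp 2 (X, WithLp.toLp 2 fun p => adjC D b bp p x), Subtype.ext h3.symm⟩

/-- **Centre and block coordinates of `ℝ⁹ ⊗ k`.** -/
def eXY : WithLp 2 (EuclideanSpace ℝ (Fin 9 × Fin (Fintype.card κ - 1)) × EY k) ≃ₗᵢ[ℝ]
    Tup (D.kkD b) :=
  LinearIsometryEquiv.ofSurjective (fXY D b bp hk) (fXY_surj D b bp hk)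

theorem coe_eXY (Z : WithLp 2 (EuclideanSpace ℝ (Fin 9 × Fin (Fintype.card κ - 1)) × EY k)) :
    (eXY D b bp hk Z : Cfg N) = D.cenC b hk Z.fst + iB D b bp Z.snd := rfl

theorem measurePreserving_eXY : MeasurePreserving (eXY D b bp hk) volume volume :=
  (eXY D b bp hk).measurePreserving

end cen

end Crest.Agent.R330.PsiEmb693

end
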