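import Mathlib

/-!
# Row 330 (helper395): recovery lemma (replaces (11.3) of the plan), abstract part

`𝒢 n` : graph of the charges over the core at the coupling number `n`, i.e. the set of pairs
`(u, (Q_α u)_α)`.  `T n : 𝒯 → H` trial operator on the (pre-Hilbert) space `𝒯` of test functions
of a channel, `D α : 𝒯 → 𝒯` the free charges.

* `recovery` : asymptotic isometry of `T n`, duality `⟨T D_α a, u⟩ - ⟨T a, Q_α u⟩ → 0` along
  bounded sequences of the core, essential self-adjointness of ONE charge (range of `Q - i` dense),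
  `‖Q_β u‖ = ‖Q_α₀ u‖` on the core and the same for `D` give, for every test vector `f`, core
  vectors `u_n` with `u_n - T_n f → 0` and `Q_β u_n - T_n D_β f → 0` for all `β`.
-/

set_option autoImplicit false

open Filter Topology
open scoped InnerProductSpace

namespace Crest.Agent.R330.Recov395

variable {H : Type*} [NormedAddCommGroup H] [InnerProductSpace ℂ H]
variable {𝒯 : Type*} [AddCommGroup 𝒯] [Module ℂ 𝒯] {A : Type*}

/-- The abstract recovery lemma. -/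
theorem recovery (𝒢 : ℕ → Set (H × (A → H))) (α₀ : A) (T : ℕ → 𝒯 →ₗ[ℂ] H)
    (D : A → 𝒯 →ₗ[ℂ] 𝒯) (ip : 𝒯 → 𝒯 → ℂ)
    (hreal : ∀ n, ∀ p ∈ 𝒢 n, (⟪p.1, p.2 α₀⟫_ℂ).im = 0)
    (hnorm : ∀ n, ∀ p ∈ 𝒢 n, ∀ β, ‖p.2 β‖ = ‖p.2 α₀‖)
    (hdense : ∀ n a, ∀ ε : ℝ, 0 < ε → ∃ p ∈ 𝒢 n, ‖p.2 α₀ - Complex.I • p.1 - T n a‖ < ε)
    (hiso : ∀ a b, Tendsto (fun n => ⟪T n a, T n b⟫_ℂ) atTop (𝓝 (ip a b)))
    (hdual : ∀ (p : ℕ → H × (A → H)) (C : ℝ), (∀ n, p n ∈ 𝒢 n) → (∀ n, ‖(p n).1‖ ≤ C) →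
      (∀ n β, ‖(p n).2 β‖ ≤ C) → ∀ β a,
      Tendsto (fun n => ⟪T n (D β a), (p n).1⟫_ℂ - ⟪T n a, (p n).2 β⟫_ℂ) atTop (𝓝 0))
    (f : 𝒯) (hf1 : (ip f (D α₀ f)).im = 0)
    (hf2 : ∀ β, ip (D β (D β f)) f = ip (D β f) (D β f))
    (hf3 : ∀ β, ip (D β f) (D β f) = ip (D α₀ f) (D α₀ f)) :
    ∃ p : ℕ → H × (A → H), (∀ n, p n ∈ 𝒢 n) ∧
      Tendsto (fun n => (p n).1 - T n f) atTop (𝓝 0) ∧
      ∀ β, Tendsto (fun n => (p n).2 β - T n (D β f)) atTop (𝓝 0) := by
  have h1 : ∀ n : ℕ, (0 : ℝ) < 1 / ((n : ℝ) + 1) := fun n => by positivity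
  choose p hp hpe using fun n : ℕ => hdense n (D α₀ f - Complex.I • f) _ (h1 n)
  set r : ℕ → H := fun n => (p n).2 α₀ - Complex.I • (p n).1 - T n (D α₀ f - Complex.I • f)
    with hr
  have hr0 : Tendsto r atTop (𝓝 0) := by
    rw [tendsto_zero_iff_norm_tendsto_zero]
    exact squeeze_zero (fun _ => norm_nonneg _) (fun n => (hpe n).le)
      tendsto_one_div_add_atTop_nhds_zero_nat
  -- `(Q - i) u = T ζ + r`
  have hQ : ∀ n, (p n).2 α₀ - Complex.I • (p n).1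
      = T n (D α₀ f) - Complex.I • T n f + r n := by
    intro n
    simp only [hr, map_sub, map_smul]
    abel
  -- norm identity
  have hnid : ∀ n, ‖(p n).2 α₀ - Complex.I • (p n).1‖ ^ 2
      = ‖(p n).2 α₀‖ ^ 2 + ‖(p n).1‖ ^ 2 := by
    intro n
    have e1 : (⟪(p n).2 α₀, Complex.I • (p n).1⟫_ℂ).re = 0 := by
      rw [inner_smul_right, Complex.mul_re, Complex.I_re, Complex.I_im, zero_mul, one_mul,
        zero_sub, ← inner_conj_symm, Complex.conj_im, neg_neg, hreal n _ (hp n)]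
    rw [@norm_sub_sq ℂ]
    have e2 : RCLike.re ⟪(p n).2 α₀, Complex.I • (p n).1⟫_ℂ = 0 := e1
    rw [e2, norm_smul, Complex.norm_I]
    ring
  -- boundedness
  have hTf : Tendsto (fun n => ‖T n f‖ ^ 2) atTop (𝓝 ((ip f f).re)) := by
    have := (Complex.continuous_re.tendsto _).comp (hiso f f)
    refine this.congr fun n => ?_
    exact (inner_self_eq_norm_sq (𝕜 := ℂ) (T n f))
  have hTD : ∀ β, Tendsto (fun n => ‖T n (D β f)‖ ^ 2) atTop (𝓝 ((ip (D β f) (D β f)).re)) := by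
    intro β
    have := (Complex.continuous_re.tendsto _).comp (hiso (D β f) (D β f))
    refine this.congr fun n => ?_
    exact (inner_self_eq_norm_sq (𝕜 := ℂ) (T n (D β f)))
  obtain ⟨C0, hC0⟩ : ∃ C0 : ℝ, ∀ n, ‖T n f‖ ^ 2 ≤ C0 := by
    obtain ⟨C, hC⟩ := hTf.bddAbove_range
    exact ⟨C, fun n => hC ⟨n, rfl⟩⟩
  obtain ⟨C1, hC1⟩ : ∃ C1 : ℝ, ∀ n, ‖T n (D α₀ f)‖ ^ 2 ≤ C1 := by
    obtain ⟨C, hC⟩ := (hTD α₀).bddAbove_range
    exact ⟨C, fun n => hC ⟨n, rfl⟩⟩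
  have hr1 : ∀ n, ‖r n‖ ≤ 1 := by
    intro n
    refine (hpe n).le.trans ?_
    rw [div_le_one (by positivity)]
    have : (0 : ℝ) ≤ n := Nat.cast_nonneg n
    linarith
  have hbd : ∀ n, ‖(p n).2 α₀‖ ^ 2 + ‖(p n).1‖ ^ 2 ≤ 3 * (C1 + C0 + 1) := by
    intro n
    rw [← hnid n, hQ n]
    have t1 : ‖T n (D α₀ f) - Complex.I • T n f + r n‖
        ≤ ‖T n (D α₀ f)‖ + ‖T n f‖ + ‖r n‖ := by
      refine (norm_add_le _ _).trans ?_
      gcongr
      refine (norm_sub_le _ _).trans ?_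
      rw [norm_smul, Complex.norm_I, one_mul]
    have t2 : ‖T n (D α₀ f) - Complex.I • T n f + r n‖ ^ 2
        ≤ (‖T n (D α₀ f)‖ + ‖T n f‖ + ‖r n‖) ^ 2 := by gcongr
    have t3 : ‖r n‖ ^ 2 ≤ 1 := by
      have := hr1 n
      have h0 := norm_nonneg (r n)
      nlinarith
    nlinarith [hC0 n, hC1 n, sq_nonneg (‖T n (D α₀ f)‖ - ‖T n f‖),
      sq_nonneg (‖T n (D α₀ f)‖ - ‖r n‖), sq_nonneg (‖T n f‖ - ‖r n‖)]
  set C : ℝ := Real.sqrt (3 * (C1 + C0 + 1)) with hC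
  have hb1 : ∀ n, ‖(p n).1‖ ≤ C := fun n => Real.le_sqrt_of_sq_le (by
    nlinarith [hbd n, sq_nonneg ‖(p n).2 α₀‖])
  have hb2 : ∀ n β, ‖(p n).2 β‖ ≤ C := fun n β => by
    rw [hnorm n _ (hp n) β]
    exact Real.le_sqrt_of_sq_le (by nlinarith [hbd n, sq_nonneg ‖(p n).1‖])
  -- pairing with r
  have hrp : Tendsto (fun n => ⟪r n, (p n).1⟫_ℂ) atTop (𝓝 0) := by
    rw [tendsto_zero_iff_norm_tendsto_zero]
    refine squeeze_zero (fun _ => norm_nonneg _)
      (fun n => (norm_inner_le_norm _ _).trans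
        (mul_le_mul_of_nonneg_left (hb1 n) (norm_nonneg _))) ?_
    simpa using (tendsto_zero_iff_norm_tendsto_zero.1 hr0).mul_const C
  have hTr : Tendsto (fun n => ⟪T n f, r n⟫_ℂ) atTop (𝓝 0) := by
    rw [tendsto_zero_iff_norm_tendsto_zero]
    refine squeeze_zero (fun _ => norm_nonneg _)
      (fun n => (norm_inner_le_norm _ _).trans
        (mul_le_mul_of_nonneg_right (Real.le_sqrt_of_sq_le (hC0 n)) (norm_nonneg _))) ?_
    simpa using (tendsto_zero_iff_norm_tendsto_zero.1 hr0).const_mul (Real.sqrt C0)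
  -- duality for `f`
  have hd := hdual p C hp hb1 hb2 α₀ f
  -- `‖u‖² = -Im⟨u,(Q-i)u⟩ = Im⟨(Q-i)u,u⟩`
  have hN : ∀ n, ‖(p n).1‖ ^ 2 = (⟪(p n).2 α₀ - Complex.I • (p n).1, (p n).1⟫_ℂ).im := by
    intro n
    rw [inner_sub_left, inner_smul_left, Complex.conj_I, Complex.sub_im, neg_mul, Complex.neg_im,
      Complex.mul_im, Complex.I_re, Complex.I_im, zero_mul, zero_add, one_mul]
    have e1 : (⟪(p n).2 α₀, (p n).1⟫_ℂ).im = 0 := by
      rw [← inner_conj_symm, Complex.conj_im, hreal n _ (hp n), neg_zero]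
    have e2 : (⟪(p n).1, (p n).1⟫_ℂ).re = ‖(p n).1‖ ^ 2 :=
      inner_self_eq_norm_sq (𝕜 := ℂ) ((p n).1)
    rw [e1, e2]
    ring
  -- the main identity
  have hmain : ∀ n, ‖(p n).1 - T n f‖ ^ 2
      = (⟪T n (D α₀ f), (p n).1⟫_ℂ - ⟪T n f, (p n).2 α₀⟫_ℂ).im
        + (⟪r n, (p n).1⟫_ℂ).im + (⟪T n f, r n⟫_ℂ).im + (⟪T n f, T n (D α₀ f)⟫_ℂ).im := by
    intro n
    have e1 : ‖(p n).1 - T n f‖ ^ 2
        = ‖(p n).1‖ ^ 2 - 2 * (⟪T n f, (p n).1⟫_ℂ).re + ‖T n f‖ ^ 2 := by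
      rw [@norm_sub_sq ℂ]
      have : RCLike.re ⟪(p n).1, T n f⟫_ℂ = (⟪T n f, (p n).1⟫_ℂ).re := by
        rw [← inner_conj_symm (T n f), Complex.conj_re]
        rfl
      rw [this]
    have e2 : (p n).2 α₀ = T n (D α₀ f) - Complex.I • T n f + r n + Complex.I • (p n).1 := by
      rw [← hQ n]
      abel
    have e3 : (⟪T n f, T n f⟫_ℂ).re = ‖T n f‖ ^ 2 := inner_self_eq_norm_sq (𝕜 := ℂ) (T n f)
    rw [e1, hN n, hQ n]
    rw [show ⟪T n f, (p n).2 α₀⟫_ℂ
      = ⟪T n f, T n (D α₀ f) - Complex.I • T n f + r n + Complex.I • (p n).1⟫_ℂ by rw [← e2]]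
    simp only [inner_add_left, inner_sub_left, inner_add_right, inner_sub_right, inner_smul_left,
      inner_smul_right, Complex.conj_I, Complex.add_im, Complex.sub_im, Complex.mul_im,
      Complex.I_re, Complex.I_im, Complex.neg_re, Complex.neg_im, zero_mul, one_mul, neg_mul,
      neg_zero, zero_add]
    rw [e3]
    ring
  have hsq : Tendsto (fun n => ‖(p n).1 - T n f‖ ^ 2) atTop (𝓝 0) := by
    have l1 := (Complex.continuous_im.tendsto _).comp hd
    have l2 := (Complex.continuous_im.tendsto _).comp hrp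
    have l3 := (Complex.continuous_im.tendsto _).comp hTr
    have l4 := (Complex.continuous_im.tendsto _).comp (hiso f (D α₀ f))
    have := ((l1.add l2).add l3).add l4
    simp only [Complex.zero_im, hf1, add_zero] at this
    refine this.congr fun n => ?_
    rw [hmain n]
    rfl
  have hu : Tendsto (fun n => (p n).1 - T n f) atTop (𝓝 0) := by
    rw [tendsto_zero_iff_norm_tendsto_zero]
    have := hsq.sqrt
    simpa using this
  -- `Q u - T D f → 0` for `α₀`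
  have hQ0 : Tendsto (fun n => (p n).2 α₀ - T n (D α₀ f)) atTop (𝓝 0) := by
    have : Tendsto (fun n => Complex.I • ((p n).1 - T n f) + r n) atTop (𝓝 0) := by
      simpa using (hu.const_smul Complex.I).add hr0
    refine this.congr fun n => ?_
    have := hQ n
    have e2 : (p n).2 α₀ = T n (D α₀ f) - Complex.I • T n f + r n + Complex.I • (p n).1 := by
      rw [← this]; abel
    rw [e2, smul_sub]
    abel
  -- norms of the other charges
  have hnm0 : Tendsto (fun n => ‖(p n).2 α₀‖ ^ 2) atTop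
      (𝓝 ((ip (D α₀ f) (D α₀ f)).re)) := by
    have hCC : ∃ C2 : ℝ, ∀ n, ‖T n (D α₀ f)‖ ≤ C2 :=
      ⟨Real.sqrt C1, fun n => Real.le_sqrt_of_sq_le (hC1 n)⟩
    obtain ⟨C2, hC2⟩ := hCC
    have e : Tendsto (fun n => ‖(p n).2 α₀‖ ^ 2 - ‖T n (D α₀ f)‖ ^ 2) atTop (𝓝 0) := by
      rw [tendsto_zero_iff_abs_tendsto_zero]
      have b : ∀ n, |‖(p n).2 α₀‖ ^ 2 - ‖T n (D α₀ f)‖ ^ 2|
          ≤ ‖(p n).2 α₀ - T n (D α₀ f)‖ * (C + C2) := by
        intro n
        rw [sq_sub_sq, abs_mul, mul_comm]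
        gcongr
        · exact abs_norm_sub_norm_le _ _
        · rw [abs_of_nonneg (by positivity)]
          exact add_le_add (hb2 n α₀) (hC2 n)
      refine squeeze_zero (fun _ => abs_nonneg _) b ?_
      simpa using (tendsto_zero_iff_norm_tendsto_zero.1 hQ0).mul_const (C + C2)
    have := e.add (hTD α₀)
    simpa using this
  refine ⟨p, hp, hu, fun β => ?_⟩
  have hdb := hdual p C hp hb1 hb2 β (D β f)
  -- `⟨T D D f, u⟩ → ⟨D D f, f⟩`
  have hL : Tendsto (fun n => ⟪T n (D β (D β f)), (p n).1⟫_ℂ) atTop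
      (𝓝 (ip (D β f) (D β f))) := by
    obtain ⟨C3, hC3⟩ : ∃ C3 : ℝ, ∀ n, ‖T n (D β (D β f))‖ ^ 2 ≤ C3 := by
      have : Tendsto (fun n => ‖T n (D β (D β f))‖ ^ 2) atTop
          (𝓝 ((ip (D β (D β f)) (D β (D β f))).re)) := by
        have := (Complex.continuous_re.tendsto _).comp (hiso (D β (D β f)) (D β (D β f)))
        refine this.congr fun n => ?_
        exact (inner_self_eq_norm_sq (𝕜 := ℂ) (T n (D β (D β f))))
      obtain ⟨C', hC'⟩ := this.bddAbove_range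
      exact ⟨C', fun n => hC' ⟨n, rfl⟩⟩
    have l1 : Tendsto (fun n => ⟪T n (D β (D β f)), (p n).1 - T n f⟫_ℂ) atTop (𝓝 0) := by
      rw [tendsto_zero_iff_norm_tendsto_zero]
      refine squeeze_zero (fun _ => norm_nonneg _)
        (fun n => (norm_inner_le_norm _ _).trans
          (mul_le_mul_of_nonneg_right (Real.le_sqrt_of_sq_le (hC3 n)) (norm_nonneg _))) ?_
      simpa using (tendsto_zero_iff_norm_tendsto_zero.1 hu).const_mul (Real.sqrt C3)
    have l2 := hiso (D β (D β f)) f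
    rw [hf2 β] at l2
    have := l1.add l2
    rw [zero_add] at this
    refine this.congr fun n => ?_
    rw [inner_sub_right]
    ring
  have hP : Tendsto (fun n => ⟪T n (D β f), (p n).2 β⟫_ℂ) atTop (𝓝 (ip (D β f) (D β f))) := by
    have := hL.sub hdb
    rw [sub_zero] at this
    refine this.congr fun n => ?_
    ring
  have hsqb : Tendsto (fun n => ‖(p n).2 β - T n (D β f)‖ ^ 2) atTop (𝓝 0) := by
    have l1 : Tendsto (fun n => ‖(p n).2 β‖ ^ 2) atTop (𝓝 ((ip (D β f) (D β f)).re)) := by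
      rw [hf3 β]
      refine hnm0.congr fun n => ?_
      rw [hnorm n _ (hp n) β]
    have l2 := (Complex.continuous_re.tendsto _).comp hP
    have := (l1.sub (l2.const_mul 2)).add (hTD β)
    have e0 : (ip (D β f) (D β f)).re - 2 * (ip (D β f) (D β f)).re
      + (ip (D β f) (D β f)).re = 0 := by ring
    rw [e0] at this
    refine this.congr fun n => ?_
    rw [@norm_sub_sq ℂ]
    have : RCLike.re ⟪(p n).2 β, T n (D β f)⟫_ℂ = (⟪T n (D β f), (p n).2 β⟫_ℂ).re := by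
      rw [← inner_conj_symm (T n (D β f)), Complex.conj_re]
      rfl
    rw [this]
    rfl
  rw [tendsto_zero_iff_norm_tendsto_zero]
  have := hsqb.sqrt
  simpa using this

/-- Finitely many charts: if `f = Σ_c f_c`, recovery sequences of the pieces add up. -/
theorem recovery_sum {ι : Type*} (s : Finset ι) {B : Type*}
    (u : ι → ℕ → H) (v : ι → ℕ → B → H) (U : ι → ℕ → H) (V : ι → ℕ → B → H)
    (hu : ∀ c ∈ s, Tendsto (fun n => u c n - U c n) atTop (𝓝 0))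
    (hv : ∀ c ∈ s, ∀ β, Tendsto (fun n => v c n β - V c n β) atTop (𝓝 0)) :
    Tendsto (fun n => (∑ c ∈ s, u c n) - ∑ c ∈ s, U c n) atTop (𝓝 0) ∧
    ∀ β, Tendsto (fun n => (∑ c ∈ s, v c n β) - ∑ c ∈ s, V c n β) atTop (𝓝 0) := by
  constructor
  · have := tendsto_finset_sum s hu
    simpa [Finset.sum_sub_distrib] using this
  · intro β
    have := tendsto_finset_sum s fun c hc => hv c hc β
    simpa [Finset.sum_sub_distrib] using this

/-- Density of the range of `Q - i` from essential self-adjointness in weak form: every `Ψ` of the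
closed subspace `Hi` (closure of the core) with `⟨Q φ, Ψ⟩ = i⟨φ, Ψ⟩`... on the core is a limit of
core vectors whose images converge, hence is zero. -/
theorem dense_of_esa [CompleteSpace H] {V : Type*} [AddCommGroup V] [Module ℂ V]
    (ι Q : V →ₗ[ℂ] H) (hsym : ∀ φ ψ, ⟪Q φ, ι ψ⟫_ℂ = ⟪ι φ, Q ψ⟫_ℂ)
    (hmem : ∀ φ, Q φ ∈ (LinearMap.range ι).topologicalClosure)
    (hesa : ∀ Ψ ∈ (LinearMap.range ι).topologicalClosure,
      ∀ χ ∈ (LinearMap.range ι).topologicalClosure,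
      (∀ φ, ⟪Q φ, Ψ⟫_ℂ = ⟪ι φ, χ⟫_ℂ) →
      ∃ φ : ℕ → V, Tendsto (fun n => ι (φ n)) atTop (𝓝 Ψ) ∧
        Tendsto (fun n => Q (φ n)) atTop (𝓝 χ))
    {Θ : H} (hΘ : Θ ∈ (LinearMap.range ι).topologicalClosure) (ε : ℝ) (hε : 0 < ε) :
    ∃ φ : V, ‖Q φ - Complex.I • ι φ - Θ‖ < ε := by
  set Hi := (LinearMap.range ι).topologicalClosure with hHi
  set R : Submodule ℂ H := (LinearMap.range (Q - Complex.I • ι)).topologicalClosure with hR
  have hRle : R ≤ Hi := by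
    rw [hR]
    refine Submodule.topologicalClosure_minimal _ ?_ (Submodule.isClosed_topologicalClosure _)
    rintro _ ⟨φ, rfl⟩
    simp only [LinearMap.sub_apply, LinearMap.smul_apply]
    exact Submodule.sub_mem _ (hmem φ) (Submodule.smul_mem _ _
      (Submodule.le_topologicalClosure _ ⟨φ, rfl⟩))
  have hcl : IsClosed (R : Set H) := Submodule.isClosed_topologicalClosure _
  haveI : CompleteSpace R := hcl.completeSpace_coe
  -- the projection of `Θ` on `Rᗮ` vanishes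
  have key : ∀ Ψ ∈ Hi, Ψ ∈ Rᗮ → Ψ = 0 := by
    intro Ψ hΨ hperp
    have h1 : ∀ φ, ⟪Q φ, Ψ⟫_ℂ = ⟪ι φ, -Complex.I • Ψ⟫_ℂ := by
      intro φ
      have h2 : ⟪(Q - Complex.I • ι) φ, Ψ⟫_ℂ = 0 :=
        (Submodule.mem_orthogonal _ _).1 hperp _
          (Submodule.le_topologicalClosure _ ⟨φ, rfl⟩)
      simp only [LinearMap.sub_apply, LinearMap.smul_apply, inner_sub_left, inner_smul_left,
        Complex.conj_I] at h2
      rw [inner_smul_right]
      linear_combination h2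
    obtain ⟨φ, hφ1, hφ2⟩ := hesa Ψ hΨ _ (Submodule.smul_mem _ _ hΨ) h1
    have h3 : Tendsto (fun n => (⟪ι (φ n), Q (φ n)⟫_ℂ).im) atTop
        (𝓝 (⟪Ψ, -Complex.I • Ψ⟫_ℂ).im) :=
      (Complex.continuous_im.tendsto _).comp (hφ1.inner hφ2)
    have h4 : ∀ n, (⟪ι (φ n), Q (φ n)⟫_ℂ).im = 0 := by
      intro n
      have : (starRingEnd ℂ) ⟪ι (φ n), Q (φ n)⟫_ℂ = ⟪ι (φ n), Q (φ n)⟫_ℂ := by
        rw [inner_conj_symm, hsym]
      exact Complex.conj_eq_iff_im.1 this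
    have h5 : (⟪Ψ, -Complex.I • Ψ⟫_ℂ).im = 0 := by
      refine tendsto_nhds_unique h3 ?_
      simp only [h4]
      exact tendsto_const_nhds
    rw [inner_smul_right, neg_mul, Complex.neg_im, Complex.mul_im, Complex.I_re, Complex.I_im,
      zero_mul, zero_add, one_mul, neg_eq_zero] at h5
    have h6 : ‖Ψ‖ ^ 2 = 0 := by
      rw [← inner_self_eq_norm_sq (𝕜 := ℂ) Ψ]
      exact h5
    exact norm_eq_zero.1 (by simpa using h6)
  have hΘR : Θ ∈ R := by
    set P := R.starProjection Θ with hP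
    have hPR : P ∈ R := Submodule.starProjection_apply_mem _ _
    have h1 : Θ - P ∈ Rᗮ := Submodule.sub_starProjection_mem_orthogonal _
    have h2 : Θ - P ∈ Hi := Submodule.sub_mem _ hΘ (hRle hPR)
    have h3 := key _ h2 h1
    rw [sub_eq_zero] at h3
    rw [h3]
    exact hPR
  have : Θ ∈ closure ((LinearMap.range (Q - Complex.I • ι) : Submodule ℂ H) : Set H) := by
    rw [← Submodule.topologicalClosure_coe]
    exact hΘR
  obtain ⟨y, ⟨φ, rfl⟩, hy⟩ := Metric.mem_closure_iff.1 this ε hε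
  refine ⟨φ, ?_⟩
  rw [dist_comm, dist_eq_norm] at hy
  simpa using hy

end Crest.Agent.R330.Recov395
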