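import Mathlib

/-!
# Row 330 (helper998): recovery sequences from the supersymmetry algebra (massless case)

On the core `Q_a ∘ Q_a = Hm` for every `a`, so `‖Q_b Q_a T‖ = ‖Hm T‖`: the resolvent of the Hamiltonian
produces vectors `T` such that all `Q_a T` have bounded energy. If uncorrected trial maps `T_n : W → V`
are asymptotically isometric and intertwine `Q_a` with `D_a` *weakly against bounded energy*, then
corrected trial vectors (`‖T̃ - T_n χ‖ → 0`, `‖Q_a T̃ - T_n (D_a χ)‖ → 0` for all `a`) exist.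
-/

set_option autoImplicit false

open Filter Topology
open scoped InnerProductSpace

noncomputable section

namespace Crest.Agent.R330.Recov998

variable {ι A V W H K : Type*} [AddCommGroup V] [Module ℂ V] [AddCommGroup W] [Module ℂ W]
  [NormedAddCommGroup H] [InnerProductSpace ℂ H] [NormedAddCommGroup K] [InnerProductSpace ℂ K]

/-! ### Weak limits of bounded families against asymptotically isometric trial maps -/

/-- Asymptotic isometry of the trial maps. -/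
def Iso (l : Filter ι) (T : ι → W → H) (j : W →ₗ[ℂ] K) : Prop :=
  ∀ χ η : W, Tendsto (fun n => ⟪T n χ, T n η⟫_ℂ) l (𝓝 ⟪j χ, j η⟫_ℂ)

theorem Iso.mono {l l' : Filter ι} {T : ι → W → H} {j : W →ₗ[ℂ] K} (h : Iso l T j) (hl : l' ≤ l) :
    Iso l' T j := fun χ η => (h χ η).mono_left hl

theorem Iso.norm_sq {l : Filter ι} {T : ι → W → H} {j : W →ₗ[ℂ] K} (h : Iso l T j) (χ : W) :
    Tendsto (fun n => ‖T n χ‖ ^ 2) l (𝓝 (‖j χ‖ ^ 2)) := by
  have h1 := (Complex.continuous_re.tendsto _).comp (h χ χ)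
  have e1 : (fun n => ‖T n χ‖ ^ 2) = Complex.re ∘ fun n => ⟪T n χ, T n χ⟫_ℂ := by
    funext n
    exact (inner_self_eq_norm_sq (𝕜 := ℂ) (T n χ)).symm
  have e2 : ‖j χ‖ ^ 2 = Complex.re ⟪j χ, j χ⟫_ℂ := (inner_self_eq_norm_sq (𝕜 := ℂ) (j χ)).symm
  rw [e1, e2]
  exact h1

theorem Iso.norm {l : Filter ι} {T : ι → W → H} {j : W →ₗ[ℂ] K} (h : Iso l T j) (χ : W) :
    Tendsto (fun n => ‖T n χ‖) l (𝓝 ‖j χ‖) := by
  have h1 := (h.norm_sq χ).sqrt
  simpa [Real.sqrt_sq] using h1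

/-- The trial maps are asymptotically linear. -/
theorem Iso.linear {l : Filter ι} {T : ι → W → H} {j : W →ₗ[ℂ] K} (h : Iso l T j) (c : ℂ) (χ η : W) :
    Tendsto (fun n => ‖T n (c • χ + η) - (c • T n χ + T n η)‖) l (𝓝 0) := by
  have key : Tendsto (fun n => ‖T n (c • χ + η) - (c • T n χ + T n η)‖ ^ 2) l (𝓝 0) := by
    have e1 : (fun n => ‖T n (c • χ + η) - (c • T n χ + T n η)‖ ^ 2) = fun n =>
        Complex.re (⟪T n (c • χ + η), T n (c • χ + η)⟫_ℂ
          - (c * ⟪T n (c • χ + η), T n χ⟫_ℂ + ⟪T n (c • χ + η), T n η⟫_ℂ)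
          - ((starRingEnd ℂ) c * ⟪T n χ, T n (c • χ + η)⟫_ℂ + ⟪T n η, T n (c • χ + η)⟫_ℂ)
          + ((starRingEnd ℂ) c * (c * ⟪T n χ, T n χ⟫_ℂ + ⟪T n χ, T n η⟫_ℂ)
            + (c * ⟪T n η, T n χ⟫_ℂ + ⟪T n η, T n η⟫_ℂ))) := by
      funext n
      rw [← inner_self_eq_norm_sq (𝕜 := ℂ)]
      change Complex.re _ = _
      congr 1
      simp only [inner_sub_left, inner_sub_right, inner_add_left, inner_add_right, inner_smul_left,
        inner_smul_right]
      ring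
    have e2 : (0 : ℝ) = Complex.re (⟪j (c • χ + η), j (c • χ + η)⟫_ℂ
          - (c * ⟪j (c • χ + η), j χ⟫_ℂ + ⟪j (c • χ + η), j η⟫_ℂ)
          - ((starRingEnd ℂ) c * ⟪j χ, j (c • χ + η)⟫_ℂ + ⟪j η, j (c • χ + η)⟫_ℂ)
          + ((starRingEnd ℂ) c * (c * ⟪j χ, j χ⟫_ℂ + ⟪j χ, j η⟫_ℂ)
            + (c * ⟪j η, j χ⟫_ℂ + ⟪j η, j η⟫_ℂ))) := by
      have e3 : (⟪j (c • χ + η), j (c • χ + η)⟫_ℂ
          - (c * ⟪j (c • χ + η), j χ⟫_ℂ + ⟪j (c • χ + η), j η⟫_ℂ)
          - ((starRingEnd ℂ) c * ⟪j χ, j (c • χ + η)⟫_ℂ + ⟪j η, j (c • χ + η)⟫_ℂ)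
          + ((starRingEnd ℂ) c * (c * ⟪j χ, j χ⟫_ℂ + ⟪j χ, j η⟫_ℂ)
            + (c * ⟪j η, j χ⟫_ℂ + ⟪j η, j η⟫_ℂ))) = 0 := by
        rw [map_add, map_smul]
        simp only [inner_add_left, inner_add_right, inner_smul_left, inner_smul_right]
        ring
      rw [e3, Complex.zero_re]
    rw [e1, e2]
    refine (Complex.continuous_re.tendsto _).comp ?_
    exact (((h _ _).sub (((h _ _).const_mul c).add (h _ _))).sub
      (((h _ _).const_mul _).add (h _ _))).add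
      (((((h _ _).const_mul c).add (h _ _)).const_mul _).add
        (((h _ _).const_mul c).add (h _ _)))
  have h2 := key.sqrt
  simpa [Real.sqrt_sq] using h2

/-- **Weak amplitude** of a bounded family along an ultrafilter. -/
theorem exists_amp [CompleteSpace K] {l : Ultrafilter ι} {T : ι → W → H} {j : W →ₗ[ℂ] K}
    (h : Iso (l : Filter ι) T j) {φ : ι → H} {C : ℝ} (hφ : ∀ᶠ n in (l : Filter ι), ‖φ n‖ ≤ C) :
    ∃ f : K, ∀ η : W, Tendsto (fun n => ⟪φ n, T n η⟫_ℂ) l (𝓝 ⟪f, j η⟫_ℂ) := by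
  have hb : ∀ η : W, ∃ z : ℂ, Tendsto (fun n => ⟪φ n, T n η⟫_ℂ) l (𝓝 z) := by
    intro η
    have h1 : ∀ᶠ n in (l : Filter ι), ⟪φ n, T n η⟫_ℂ ∈ Metric.closedBall (0 : ℂ) (C * (‖j η‖ + 1)) := by
      have h2 : ∀ᶠ n in (l : Filter ι), ‖T n η‖ ≤ ‖j η‖ + 1 :=
        ((h.norm η).eventually (gt_mem_nhds (show ‖j η‖ < ‖j η‖ + 1 by linarith))).mono
          fun n hn => hn.le
      filter_upwards [hφ, h2] with n h3 h4
      rw [mem_closedBall_zero_iff]
      calc ‖⟪φ n, T n η⟫_ℂ‖ ≤ ‖φ n‖ * ‖T n η‖ := norm_inner_le_norm _ _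
        _ ≤ C * (‖j η‖ + 1) := by
            have := norm_nonneg (φ n)
            gcongr
            exact (norm_nonneg _).trans h3
    obtain ⟨z, -, hz⟩ := (isCompact_closedBall (0 : ℂ) (C * (‖j η‖ + 1))).ultrafilter_le_nhds'
      (l.map fun n => ⟪φ n, T n η⟫_ℂ) h1
    exact ⟨z, hz⟩
  choose L hL using hb
  have hC : 0 ≤ C := by
    obtain ⟨n, hn⟩ := hφ.exists
    exact (norm_nonneg _).trans hn
  have hLb : ∀ η, ‖L η‖ ≤ C * ‖j η‖ := by
    intro η
    refine le_of_tendsto_of_tendsto (hL η).norm ((h.norm η).const_mul C) ?_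
    filter_upwards [hφ] with n hn
    exact (norm_inner_le_norm _ _).trans (mul_le_mul_of_nonneg_right hn (norm_nonneg _))
  have hLadd : ∀ (c : ℂ) (χ η : W), L (c • χ + η) = c * L χ + L η := by
    intro c χ η
    refine tendsto_nhds_unique (hL (c • χ + η)) ?_
    have h1 : Tendsto (fun n => ⟪φ n, T n (c • χ + η) - (c • T n χ + T n η)⟫_ℂ) l (𝓝 0) := by
      rw [tendsto_zero_iff_norm_tendsto_zero]
      have h2 := (h.linear c χ η).const_mul C
      rw [mul_zero] at h2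
      refine squeeze_zero' (Eventually.of_forall fun n => norm_nonneg _) ?_ h2
      filter_upwards [hφ] with n hn
      exact (norm_inner_le_norm _ _).trans (mul_le_mul_of_nonneg_right hn (norm_nonneg _))
    have h2 := h1.add (((hL χ).const_mul c).add (hL η))
    rw [zero_add] at h2
    refine h2.congr fun n => ?_
    rw [inner_sub_right, inner_add_right, inner_smul_right]
    ring
  let L' : W →ₗ[ℂ] ℂ :=
    { toFun := L
      map_add' := fun χ η => by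
        have := hLadd 1 χ η
        rwa [one_smul, one_mul] at this
      map_smul' := fun c χ => by
        have h0 : L 0 = 0 := by
          have := hLb 0
          rw [map_zero, norm_zero, mul_zero] at this
          exact norm_le_zero_iff.1 this
        have := hLadd c χ 0
        rw [add_zero, h0, add_zero] at this
        exact this }
  have hker : LinearMap.ker j ≤ LinearMap.ker L' := by
    intro η hη
    rw [LinearMap.mem_ker] at hη ⊢
    have := hLb η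
    rw [hη, norm_zero, mul_zero] at this
    exact norm_le_zero_iff.1 this
  -- the functional on the range of `j`
  choose s hs using fun x : LinearMap.range j => x.2
  have hL's : ∀ (x : LinearMap.range j) (η : W), j η = x → L' (s x) = L' η := by
    intro x η hη
    have h1 : s x - η ∈ LinearMap.ker j := by
      rw [LinearMap.mem_ker, map_sub, hs, hη, sub_self]
    have h2 := hker h1
    rw [LinearMap.mem_ker, map_sub, sub_eq_zero] at h2
    exact h2
  let G : LinearMap.range j →ₗ[ℂ] ℂ :=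
    { toFun := fun x => L' (s x)
      map_add' := fun x y => by
        rw [← map_add]
        refine hL's _ _ ?_
        rw [map_add, hs, hs]
        rfl
      map_smul' := fun c x => by
        rw [RingHom.id_apply, ← map_smul]
        refine hL's _ _ ?_
        rw [map_smul, hs]
        rfl }
  let G' : LinearMap.range j →L[ℂ] ℂ := G.mkContinuous C fun x => by
    have h1 := hLb (s x)
    rw [hs] at h1
    exact h1
  obtain ⟨g, hg, -⟩ := exists_extension_norm_eq (LinearMap.range j) G'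
  refine ⟨(InnerProductSpace.toDual ℂ K).symm g, fun η => ?_⟩
  have h1 : ⟪(InnerProductSpace.toDual ℂ K).symm g, j η⟫_ℂ = L η := by
    rw [InnerProductSpace.toDual_symm_apply]
    have h2 := hg ⟨j η, η, rfl⟩
    rw [h2]
    exact hL's ⟨j η, η, rfl⟩ η rfl
  rw [h1]
  exact hL η

/-! ### The massless supersymmetric family -/

/-- A family of supersymmetric systems on one core `V`, with `Q_a ∘ Q_a = Hm` for every `a`. -/
structure Sys (io : V →ₗ[ℂ] H) (Q : ι → A → V →ₗ[ℂ] V) (Hm : ι → V →ₗ[ℂ] V) : Prop where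
  symm : ∀ n a φ ψ, ⟪io (Q n a φ), io ψ⟫_ℂ = ⟪io φ, io (Q n a ψ)⟫_ℂ
  sq : ∀ n a φ, Q n a (Q n a φ) = Hm n φ
  dense : ∀ n (ψ : V) (ε : ℝ), 0 < ε → ∃ φ : V, ‖io φ + io (Hm n φ) - io ψ‖ ≤ ε

/-- Bounded energy along a filter. -/
def BE (l : Filter ι) (io : V →ₗ[ℂ] H) (Q : ι → A → V →ₗ[ℂ] V) (φ : ι → V) : Prop :=
  ∃ C : ℝ, ∀ᶠ n in l, ‖io (φ n)‖ ≤ C ∧ ∀ a, ‖io (Q n a (φ n))‖ ≤ C

variable {io : V →ₗ[ℂ] H} {Q : ι → A → V →ₗ[ℂ] V} {Hm : ι → V →ₗ[ℂ] V}

theorem BE.mono {l l' : Filter ι} {φ : ι → V} (h : BE l io Q φ) (hl : l' ≤ l) : BE l' io Q φ := by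
  obtain ⟨C, hC⟩ := h
  exact ⟨C, hC.filter_mono hl⟩

theorem Sys.inner_Hm (S : Sys io Q Hm) (n : ι) (a : A) (φ ψ : V) :
    ⟪io (Hm n φ), io ψ⟫_ℂ = ⟪io (Q n a φ), io (Q n a ψ)⟫_ℂ := by
  rw [← S.sq n a φ, S.symm]

/-- **The key identity** `‖Q_b Q_a T‖ = ‖Hm T‖`. -/
theorem Sys.norm_QQ (S : Sys io Q Hm) (n : ι) (a b : A) (φ : V) :
    ‖io (Q n b (Q n a φ))‖ = ‖io (Hm n φ)‖ := by
  have h1 : ⟪io (Q n b (Q n a φ)), io (Q n b (Q n a φ))⟫_ℂ = ⟪io (Hm n φ), io (Hm n φ)⟫_ℂ := by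
    rw [← S.inner_Hm n b, S.inner_Hm n a, S.sq]
  have h2 := congrArg Complex.re h1
  have h3 : ‖io (Q n b (Q n a φ))‖ ^ 2 = ‖io (Hm n φ)‖ ^ 2 := by
    rw [← inner_self_eq_norm_sq (𝕜 := ℂ), ← inner_self_eq_norm_sq (𝕜 := ℂ)]
    exact h2
  exact (pow_left_inj₀ (norm_nonneg _) (norm_nonneg _) two_ne_zero).1 h3

theorem Sys.norm_sq_add (S : Sys io Q Hm) (n : ι) (a : A) (φ : V) :
    ‖io φ‖ ^ 2 + ‖io (Q n a φ)‖ ^ 2 = Complex.re ⟪io φ + io (Hm n φ), io φ⟫_ℂ := by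
  rw [inner_add_left, S.inner_Hm n a, Complex.add_re, ← inner_self_eq_norm_sq (𝕜 := ℂ),
    ← inner_self_eq_norm_sq (𝕜 := ℂ)]
  rfl

/-- The recovery vectors solve `T + Hm T ≈ T_n χ'` and have bounded energy, as have all `Q_a T`. -/
theorem Sys.bounds (S : Sys io Q Hm) {n : ι} {φ : V} {M : ℝ}
    (h : ‖io φ + io (Hm n φ)‖ ≤ M) (a : A) :
    ‖io φ‖ ≤ M ∧ ‖io (Q n a φ)‖ ≤ M ∧ ‖io (Hm n φ)‖ ≤ 2 * M := by
  have h1 := S.norm_sq_add n a φ
  have h2 : Complex.re ⟪io φ + io (Hm n φ), io φ⟫_ℂ ≤ M * ‖io φ‖ :=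
    (Complex.re_le_norm _).trans ((norm_inner_le_norm _ _).trans
      (mul_le_mul_of_nonneg_right h (norm_nonneg _)))
  have hM : 0 ≤ M := (norm_nonneg _).trans h
  have h3 : ‖io φ‖ ≤ M := by
    by_contra hcon
    push Not at hcon
    nlinarith [sq_nonneg ‖io (Q n a φ)‖, norm_nonneg (io φ)]
  have h4 : ‖io (Q n a φ)‖ ≤ M := by
    by_contra hcon
    push Not at hcon
    nlinarith [sq_nonneg ‖io φ‖, norm_nonneg (io φ), norm_nonneg (io (Q n a φ))]
  refine ⟨h3, h4, ?_⟩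
  have h5 : io (Hm n φ) = (io φ + io (Hm n φ)) - io φ := by abel
  rw [h5]
  exact (norm_sub_le _ _).trans (by linarith)

/-- The limit system: free charges on test functions, with uniqueness of the weak resolvent
equation (collisions removable). -/
structure Lim (j : W →ₗ[ℂ] K) (D : A → W →ₗ[ℂ] W) : Prop where
  symm : ∀ a χ η, ⟪j (D a χ), j η⟫_ℂ = ⟪j χ, j (D a η)⟫_ℂ
  sq : ∀ a b χ, D a (D a χ) = D b (D b χ)
  uniq : ∀ (h : K) (k : A → K), (∀ a η, ⟪k a, j η⟫_ℂ = ⟪h, j (D a η)⟫_ℂ) →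
    (∀ a η, ⟪h, j η⟫_ℂ + ⟪k a, j (D a η)⟫_ℂ = 0) → ∀ η, ⟪h, j η⟫_ℂ = 0

/-- **Weak intertwining** against bounded energy. -/
def WInt (l : Filter ι) (io : V →ₗ[ℂ] H) (Q : ι → A → V →ₗ[ℂ] V) (T : ι → W → V)
    (D : A → W →ₗ[ℂ] W) : Prop :=
  ∀ φ : ι → V, BE l io Q φ → ∀ (a : A) (η : W),
    Tendsto (fun n => ⟪io (φ n), io (Q n a (T n η)) - io (T n (D a η))⟫_ℂ) l (𝓝 0)

/-- **Theorem REC.** Recovery sequences exist. -/
theorem recovery [CompleteSpace K] [Nonempty A] {l : Filter ι} (S : Sys io Q Hm) {T : ι → W → V}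
    {j : W →ₗ[ℂ] K} {D : A → W →ₗ[ℂ] W} (hL : Lim j D) (hI : Iso l (fun n η => io (T n η)) j)
    (hW : WInt l io Q T D) {e : ι → ℝ} (he : ∀ n, 0 < e n) (he0 : Tendsto e l (𝓝 0)) (χ : W) :
    ∃ Tt : ι → V, Tendsto (fun n => ‖io (Tt n) - io (T n χ)‖) l (𝓝 0) ∧
      (∀ a, Tendsto (fun n => ‖io (Q n a (Tt n)) - io (T n (D a χ))‖) l (𝓝 0)) ∧
      BE l io Q Tt ∧ ∀ a, BE l io Q fun n => Q n a (Tt n) := by
  classical
  obtain ⟨a₀⟩ := ‹Nonempty A›
  set χ' : W := χ + D a₀ (D a₀ χ) with hχ'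
  choose Tt hTt using fun n => S.dense n (T n χ') (e n) (he n)
  -- bounds
  set M : ℝ := ‖j χ'‖ + 2 with hM
  have hbd : ∀ᶠ n in l, ‖io (Tt n) + io (Hm n (Tt n))‖ ≤ M := by
    have h1 : ∀ᶠ n in l, ‖io (T n χ')‖ < ‖j χ'‖ + 1 :=
      (hI.norm χ').eventually (gt_mem_nhds (by linarith))
    have h2 : ∀ᶠ n in l, e n < 1 := he0.eventually (gt_mem_nhds one_pos)
    filter_upwards [h1, h2] with n h3 h4
    have h5 : io (Tt n) + io (Hm n (Tt n)) =
        (io (Tt n) + io (Hm n (Tt n)) - io (T n χ')) + io (T n χ') := by abel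
    rw [h5]
    refine (norm_add_le _ _).trans ?_
    have := hTt n
    linarith
  have hBE : BE l io Q Tt := by
    refine ⟨M, ?_⟩
    filter_upwards [hbd] with n hn
    exact ⟨(S.bounds hn a₀).1, fun a => (S.bounds hn a).2.1⟩
  have hBEQ : ∀ a, BE l io Q fun n => Q n a (Tt n) := by
    intro a
    refine ⟨2 * M, ?_⟩
    filter_upwards [hbd] with n hn
    have hM0 : 0 ≤ M := (norm_nonneg _).trans hn
    refine ⟨(S.bounds hn a).2.1.trans (by linarith), fun b => ?_⟩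
    rw [S.norm_QQ]
    exact (S.bounds hn a).2.2
  -- the main limit along ultrafilters
  have key : ∀ a, Tendsto (fun n => ‖io (Tt n) - io (T n χ)‖ ^ 2 +
      ‖io (Q n a (Tt n)) - io (T n (D a χ))‖ ^ 2) l (𝓝 0) := by
    intro a
    rw [tendsto_iff_ultrafilter]
    intro U hU
    have hIU := hI.mono hU
    obtain ⟨C, hC⟩ := hBE.mono hU
    obtain ⟨f, hf⟩ := exists_amp hIU (φ := fun n => io (Tt n)) (hC.mono fun n hn => hn.1)
    -- amplitudes of the `Q_b T`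
    have hfb : ∀ b η, Tendsto (fun n => ⟪io (Q n b (Tt n)), io (T n η)⟫_ℂ) U
        (𝓝 ⟪f, j (D b η)⟫_ℂ) := by
      intro b η
      have h1 := (hW Tt hBE b η).mono_left hU
      have h2 := h1.add (hf (D b η))
      rw [zero_add] at h2
      refine h2.congr fun n => ?_
      rw [inner_sub_right, sub_add_cancel, ← S.symm]
    obtain ⟨k, hk⟩ : ∃ k : A → K, ∀ b η, ⟪k b, j η⟫_ℂ = ⟪f, j (D b η)⟫_ℂ := by
      have h1 : ∀ b, ∃ g : K, ∀ η : W,
          Tendsto (fun n => ⟪io (Q n b (Tt n)), io (T n η)⟫_ℂ) U (𝓝 ⟪g, j η⟫_ℂ) :=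
        fun b => exists_amp hIU (φ := fun n => io (Q n b (Tt n))) (hC.mono fun n hn => hn.2 b)
      choose k hk using h1
      exact ⟨k, fun b η => tendsto_nhds_unique (hk b η) (hfb b η)⟩
    -- the weak resolvent equation
    have heq : ∀ b η, ⟪f, j η⟫_ℂ + ⟪k b, j (D b η)⟫_ℂ = ⟪j χ', j η⟫_ℂ := by
      intro b η
      have h1 : Tendsto (fun n => ⟪io (Q n b (Tt n)), io (T n (D b η))⟫_ℂ) U
          (𝓝 ⟪k b, j (D b η)⟫_ℂ) := by
        rw [hk]
        exact hfb b (D b η)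
      have h2 := (hW _ (hBEQ b) b η).mono_left hU
      have h3 := (hf η).add (h1.add h2)
      rw [add_zero] at h3
      have h4 : Tendsto (fun n => ⟪io (Tt n) + io (Hm n (Tt n)), io (T n η)⟫_ℂ) U
          (𝓝 (⟪f, j η⟫_ℂ + ⟪k b, j (D b η)⟫_ℂ)) := by
        refine h3.congr fun n => ?_
        rw [inner_sub_right, add_sub_cancel, inner_add_left, S.inner_Hm n b]
      have h5 : Tendsto (fun n => ⟪io (Tt n) + io (Hm n (Tt n)) - io (T n χ'), io (T n η)⟫_ℂ) U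
          (𝓝 0) := by
        rw [tendsto_zero_iff_norm_tendsto_zero]
        have h6 := (he0.mono_left hU).mul (hIU.norm η)
        rw [zero_mul] at h6
        refine squeeze_zero (fun n => norm_nonneg _) (fun n => ?_) h6
        exact (norm_inner_le_norm _ _).trans (mul_le_mul_of_nonneg_right (hTt n) (norm_nonneg _))
      have h6 := h5.add (hIU χ' η)
      rw [zero_add] at h6
      refine tendsto_nhds_unique h4 (h6.congr fun n => ?_)
      change ⟪io (Tt n) + io (Hm n (Tt n)) - io (T n χ'), io (T n η)⟫_ℂ +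
        ⟪io (T n χ'), io (T n η)⟫_ℂ = _
      rw [inner_sub_left, sub_add_cancel]
    have hχD : ∀ b η, ⟪j χ', j η⟫_ℂ = ⟪j χ, j η⟫_ℂ + ⟪j (D b χ), j (D b η)⟫_ℂ := by
      intro b η
      rw [hχ', hL.sq a₀ b, map_add, inner_add_left, ← hL.symm b (D b χ) η]
    have hf0 : ∀ η, ⟪f, j η⟫_ℂ = ⟪j χ, j η⟫_ℂ := by
      intro η
      have h1 := hL.uniq (f - j χ) (fun b => k b - j (D b χ)) (fun b η => by
        rw [inner_sub_left, inner_sub_left, hk, hL.symm]) (fun b η => by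
        rw [inner_sub_left, inner_sub_left]
        have h2 := heq b η
        rw [hχD b η] at h2
        linear_combination h2) η
      rw [inner_sub_left, sub_eq_zero] at h1
      exact h1
    -- the energy identity
    have hE : Tendsto (fun n => ‖io (Tt n)‖ ^ 2 + ‖io (Q n a (Tt n))‖ ^ 2) U
        (𝓝 (‖j χ‖ ^ 2 + ‖j (D a χ)‖ ^ 2)) := by
      have h1 := hf χ'
      have h2 : Tendsto (fun n => ⟪io (T n χ'), io (Tt n)⟫_ℂ) U (𝓝 ⟪j χ', f⟫_ℂ) := by
        have h3 := (Complex.continuous_conj.tendsto _).comp h1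
        rw [inner_conj_symm] at h3
        refine h3.congr fun n => ?_
        exact inner_conj_symm _ _
      have h3 : Tendsto (fun n => ⟪io (Tt n) + io (Hm n (Tt n)) - io (T n χ'), io (Tt n)⟫_ℂ) U
          (𝓝 0) := by
        rw [tendsto_zero_iff_norm_tendsto_zero]
        have h6 := (he0.mono_left hU).mul_const C
        rw [zero_mul] at h6
        refine squeeze_zero' (Eventually.of_forall fun n => norm_nonneg _) ?_ h6
        filter_upwards [hC] with n hn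
        refine (norm_inner_le_norm _ _).trans ?_
        exact mul_le_mul (hTt n) hn.1 (norm_nonneg _) (he n).le
      have h4 := (Complex.continuous_re.tendsto _).comp (h3.add h2)
      rw [zero_add] at h4
      have e1 : Complex.re ⟪j χ', f⟫_ℂ = ‖j χ‖ ^ 2 + ‖j (D a χ)‖ ^ 2 := by
        have e2 : ⟪j χ', f⟫_ℂ = (starRingEnd ℂ) ⟪j χ, j χ'⟫_ℂ := by
          rw [← hf0, inner_conj_symm]
        rw [e2, inner_conj_symm, hχD a, Complex.add_re]
        rw [← inner_self_eq_norm_sq (𝕜 := ℂ), ← inner_self_eq_norm_sq (𝕜 := ℂ)]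
        rfl
      rw [e1] at h4
      refine h4.congr fun n => ?_
      change Complex.re (⟪io (Tt n) + io (Hm n (Tt n)) - io (T n χ'), io (Tt n)⟫_ℂ +
        ⟪io (T n χ'), io (Tt n)⟫_ℂ) = _
      rw [inner_sub_left, sub_add_cancel, ← S.norm_sq_add]
    have h1 := hf χ
    rw [hf0] at h1
    have h2 := hfb a (D a χ)
    rw [hf0, ← hL.symm] at h2
    have h3 := hIU.norm_sq χ
    have h4 := hIU.norm_sq (D a χ)
    have h1' := (Complex.continuous_re.tendsto _).comp h1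
    have h2' := (Complex.continuous_re.tendsto _).comp h2
    have h5 := ((hE.sub (h1'.const_mul 2)).sub (h2'.const_mul 2)).add (h3.add h4)
    have e0 : ‖j χ‖ ^ 2 + ‖j (D a χ)‖ ^ 2 - 2 * Complex.re ⟪j χ, j χ⟫_ℂ -
        2 * Complex.re ⟪j (D a χ), j (D a χ)⟫_ℂ + (‖j χ‖ ^ 2 + ‖j (D a χ)‖ ^ 2) = 0 := by
      have e1 : Complex.re ⟪j χ, j χ⟫_ℂ = ‖j χ‖ ^ 2 := inner_self_eq_norm_sq (𝕜 := ℂ) _
      have e2 : Complex.re ⟪j (D a χ), j (D a χ)⟫_ℂ = ‖j (D a χ)‖ ^ 2 :=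
        inner_self_eq_norm_sq (𝕜 := ℂ) _
      rw [e1, e2]
      ring
    rw [e0] at h5
    refine h5.congr fun n => ?_
    have e1 := norm_sub_sq (𝕜 := ℂ) (io (Tt n)) (io (T n χ))
    have e2 := norm_sub_sq (𝕜 := ℂ) (io (Q n a (Tt n))) (io (T n (D a χ)))
    change ‖io (Tt n)‖ ^ 2 + ‖io (Q n a (Tt n))‖ ^ 2 - 2 * RCLike.re ⟪io (Tt n), io (T n χ)⟫_ℂ -
      2 * RCLike.re ⟪io (Q n a (Tt n)), io (T n (D a χ))⟫_ℂ +
      (‖io (T n χ)‖ ^ 2 + ‖io (T n (D a χ))‖ ^ 2) = _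
    rw [e1, e2]
    ring
  refine ⟨Tt, ?_, fun a => ?_, hBE, hBEQ⟩
  · have h1 : Tendsto (fun n => ‖io (Tt n) - io (T n χ)‖ ^ 2) l (𝓝 0) :=
      squeeze_zero (fun n => sq_nonneg _) (fun n => le_add_of_nonneg_right (sq_nonneg _)) (key a₀)
    have h2 := h1.sqrt
    simpa [Real.sqrt_sq] using h2
  · have h1 : Tendsto (fun n => ‖io (Q n a (Tt n)) - io (T n (D a χ))‖ ^ 2) l (𝓝 0) :=
      squeeze_zero (fun n => sq_nonneg _) (fun n => le_add_of_nonneg_left (sq_nonneg _)) (key a)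
    have h2 := h1.sqrt
    simpa [Real.sqrt_sq] using h2

end Crest.Agent.R330.Recov998

end
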