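import Crest.Agent.R330.LightC_916

/-!
# Row 330, S8-T5: continuity of the light function and of the errors of the light charge

`continuous_om`, `continuous_rhoE`, `continuous_rhoS` on all of `Cfg N`, for amplitudes with
`tsupport` in `BReg` (helper151).
-/

set_option autoImplicit false
set_option linter.unusedSectionVars false

open MeasureTheory Filter Topology Crest.MathPhysics.MatrixQM
open scoped ContDiff InnerProductSpace ENNReal

noncomputable section

namespace Crest.Agent.R330.RhoM151

open Crest.Agent.R330.Defs478 Crest.Agent.R330.LS839 Crest.Agent.R330.Frame839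
  Crest.Agent.R330.Clus839 Crest.Agent.R330.Bind6839 Crest.Agent.R330.TDef414
  Crest.Agent.R330.IBP837 Crest.Agent.R330.LightC916

variable {N p : ℕ} {b : ColorBasis N} {S : Type} [Group S] [Fintype S] {C : Chn b p S}
  {F : Type*} [NormedAddCommGroup F] [InnerProductSpace ℂ F] [FiniteDimensional ℂ F]
  {M : FermionRep N F} {R : GaugeAction b M} {G : GammaNine}

theorem cont_lin {X : Type*} [TopologicalSpace X] {f : X → F} {x : X} (hf : ContinuousAt f x)
    (T : F →ₗ[ℂ] F) : ContinuousAt (fun x => T (f x)) x :=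
  (LinearMap.continuous_of_finiteDimensional T).continuousAt.comp hf

theorem cont_X (X0 : Pos p) : Continuous fun u : Cfg N => X0 + C.cfT u :=
  continuous_const.add C.cfT.continuous

theorem cont_PY : Continuous fun u : Cfg N => C.PY u := (PYL C).continuous

/-- Continuity from continuity over `BReg` and vanishing off the support. -/
theorem cont_of {X0 : Pos p} {χ : Pos p → C.Fx M G} (hoff : ∀ X ∈ tsupport χ, C.BReg X)
    {f : Cfg N → F} (h1 : ∀ u, C.BReg (X0 + C.cfT u) → ContinuousAt f u)
    (h0 : ∀ u, χ (X0 + C.cfT u) = 0 → f u = 0) : Continuous f := by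
  rw [continuous_iff_continuousAt]
  intro u
  by_cases hu : X0 + C.cfT u ∈ tsupport χ
  · exact h1 u (hoff _ hu)
  · have h2 : ∀ᶠ v in 𝓝 u, X0 + C.cfT v ∉ tsupport χ :=
      (cont_X X0).continuousAt.eventually ((isClosed_tsupport χ).isOpen_compl.mem_nhds hu)
    have h3 : f =ᶠ[𝓝 u] fun _ => 0 := by
      filter_upwards [h2] with v hv
      exact h0 v (image_eq_zero_of_notMem_tsupport hv)
    exact continuousAt_const.congr h3.symm

theorem cont_chi {X0 : Pos p} {χ : Pos p → C.Fx M G} (hχ : Continuous χ) :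
    Continuous fun u : Cfg N => ((χ (X0 + C.cfT u) : C.Fx M G) : F) :=
  continuous_subtype_val.comp (hχ.comp (cont_X X0))

theorem cont_psi {P : TPack C M R G} {g : ℝ} (hP : Continuous (P.Psi g)) {X0 : Pos p}
    {χ : Pos p → C.Fx M G} (hχ : Continuous χ) :
    Continuous fun u : Cfg N => P.Psi g (C.PY u) ((χ (X0 + C.cfT u) : C.Fx M G) : F) :=
  (hP.comp cont_PY).clm_apply (cont_chi hχ)

theorem contAt_U (P : TPack C M R G) {X0 : Pos p} {u : Cfg N} (hX : C.BReg (X0 + C.cfT u)) :
    ContinuousAt (fun u : Cfg N => P.U (X0 + C.cfT u)) u :=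
  ContinuousAt.comp (g := P.U) (f := fun u : Cfg N => X0 + C.cfT u) (x := u)
    (P.U_smooth _ hX).continuousAt (cont_X X0).continuousAt

theorem continuous_om (P : TPack C M R G) (X0 : Pos p) {g : ℝ} (hP : Continuous (P.Psi g))
    {χ : Pos p → C.Fx M G} (hχ : Continuous χ) (hoff : ∀ X ∈ tsupport χ, C.BReg X) :
    Continuous (om P X0 g χ) := by
  refine cont_of (X0 := X0) hoff (fun u hu => ?_) fun u hu => ?_
  · exact (contAt_U P hu).clm_apply (cont_psi hP hχ).continuousAt
  · unfold LightC916.om
    rw [hu]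
    simp

theorem continuous_rhoE (P : TPack C M R G) (X0 : Pos p) {g : ℝ} (hP : Continuous (P.Psi g))
    (α : Fin 16) {χ : Pos p → C.Fx M G} (hχ : Continuous χ) (hoff : ∀ X ∈ tsupport χ, C.BReg X) :
    Continuous (rhoE P X0 g α χ) := by
  refine cont_of (X0 := X0) hoff (fun u hu => ?_) fun u hu => ?_
  · unfold rhoE
    refine tendsto_finsetSum _ fun q _ => ?_
    refine cont_lin ?_ _
    have h1 : ContinuousAt (fun u : Cfg N => fderiv ℝ P.U (X0 + C.cfT u)) u :=
      ContinuousAt.comp (g := fderiv ℝ P.U) (f := fun u : Cfg N => X0 + C.cfT u) (x := u)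
        (((P.U_smooth _ hu).fderiv_right (m := 0) (by simp)).continuousAt)
        (cont_X X0).continuousAt
    have h2 : ContinuousAt (fun u : Cfg N => (fderiv ℝ P.U (X0 + C.cfT u))
        (EuclideanSpace.single q 1)) u := h1.clm_apply continuousAt_const
    exact h2.clm_apply (cont_psi hP hχ).continuousAt
  · unfold rhoE
    rw [hu]
    simp

theorem cont_vco {X : Type*} [TopologicalSpace X] {c : X → Fin 16 → Fin (N ^ 2 - 1) → ℝ}
    {f : X → F} {x : X} (hc : ∀ β A, ContinuousAt (fun x => c x β A) x)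
    (hf : ContinuousAt f x) : ContinuousAt (fun x => vco M (c x) (f x)) x := by
  unfold vco
  simp only [LinearMap.sum_apply, LinearMap.smul_apply]
  refine tendsto_finsetSum _ fun A _ => tendsto_finsetSum _ fun β _ => ?_
  exact (Complex.continuous_ofReal.continuousAt.comp (hc β A)).smul (cont_lin hf _)

theorem cont_wA {X : Type*} [TopologicalSpace X] (g m : ℝ) (α : Fin 16) {y : X → Cfg N}
    {f : X → F} {x : X} (hy : ContinuousAt y x) (hf : ContinuousAt f x) :
    ContinuousAt (fun x => wA b M G g m α (y x) (f x)) x := by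
  refine cont_vco (fun β A => ?_) hf
  exact (continuous_wpot b G g m α β A).continuousAt.comp hy

theorem continuous_qblk (P : TPack C M R G) (X0 : Pos p) {g : ℝ} (hP : ContDiff ℝ 1 (P.Psi g))
    (α : Fin 16) {χ : Pos p → C.Fx M G} (hχ : Continuous χ) :
    Continuous fun u : Cfg N => qblk C M G g α
      (fun Y => P.Psi g Y ((χ (X0 + C.cfT u) : C.Fx M G) : F)) (C.PY u) := by
  rw [continuous_iff_continuousAt]
  intro u
  unfold qblk
  have e1 : ∀ (f : F) (Y e : Cfg N), fderiv ℝ (fun Y => P.Psi g Y f) Y e =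
      (fderiv ℝ (P.Psi g) Y e) f := by
    intro f Y e
    have h1 : HasFDerivAt (fun Y => P.Psi g Y f) _ Y :=
      hasFDerivAt_ev (v := fun _ => f) ((hP.differentiable (by simp) Y).hasFDerivAt)
        (hasFDerivAt_const f Y)
    rw [h1.fderiv]
    simp only [_root_.add_apply, ContinuousLinearMap.comp_apply, _root_.zero_apply, map_zero,
      zero_add]
    rfl
  simp only [e1]
  refine ContinuousAt.add ?_ ?_
  · refine tendsto_finsetSum _ fun n _ => cont_lin ?_ _
    have h1 : Continuous fun u : Cfg N => fderiv ℝ (P.Psi g) (C.PY u) :=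
      (hP.continuous_fderiv (by simp)).comp cont_PY
    exact ((h1.clm_apply continuous_const).clm_apply (cont_chi hχ)).continuousAt
  · exact cont_wA g 0 α cont_PY.continuousAt (cont_psi hP.continuous hχ).continuousAt

theorem continuous_rhoS (P : TPack C M R G) (X0 : Pos p) {g : ℝ} (hP : ContDiff ℝ 1 (P.Psi g))
    (m : ℝ) (α : Fin 16) {χ : Pos p → C.Fx M G} (hχ : Continuous χ)
    (hoff : ∀ X ∈ tsupport χ, C.BReg X) : Continuous (rhoS P X0 g m α χ) := by
  refine cont_of (X0 := X0) hoff (fun u hu => ?_) fun u hu => ?_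
  · unfold rhoS
    exact ((contAt_U P hu).clm_apply (continuous_qblk P X0 hP α hχ).continuousAt).add
      (cont_wA 0 m α cont_PY.continuousAt
        (continuous_om P X0 hP.continuous hχ hoff).continuousAt)
  · have h1 : om P X0 g χ u = 0 := by
      unfold LightC916.om
      rw [hu]
      simp
    unfold rhoS
    rw [h1, hu, map_zero, add_zero]
    have h2 : (fun Y => P.Psi g Y (((0 : C.Fx M G)) : F)) = fun _ => 0 := by
      funext Y
      simp
    rw [h2]
    unfold qblk
    simp

/-! ## for amplitudes of a chart, on `L` -/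

theorem sm_omL (P : TPack C M R G) (σ : Sl C) {g : ℝ} (hP : Continuous (P.Psi g))
    (χ : Amp M G σ) (L : Submodule ℝ (Cfg N)) :
    StronglyMeasurable fun q : L => om P σ.X0 g χ.fn q :=
  ((continuous_om P σ.X0 hP χ.smooth.continuous χ.off).comp
    continuous_subtype_val).stronglyMeasurable

theorem sm_rhoE (P : TPack C M R G) (σ : Sl C) {g : ℝ} (hP : Continuous (P.Psi g)) (α : Fin 16)
    (χ : Amp M G σ) (L : Submodule ℝ (Cfg N)) :
    StronglyMeasurable fun q : L => rhoE P σ.X0 g α χ.fn q :=
  ((continuous_rhoE P σ.X0 hP α χ.smooth.continuous χ.off).comp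
    continuous_subtype_val).stronglyMeasurable

theorem sm_rhoS (P : TPack C M R G) (σ : Sl C) {g : ℝ} (hP : ContDiff ℝ 1 (P.Psi g)) (m : ℝ)
    (α : Fin 16) (χ : Amp M G σ) (L : Submodule ℝ (Cfg N)) :
    StronglyMeasurable fun q : L => rhoS P σ.X0 g m α χ.fn q :=
  ((continuous_rhoS P σ.X0 hP m α χ.smooth.continuous χ.off).comp
    continuous_subtype_val).stronglyMeasurable

end Crest.Agent.R330.RhoM151

end
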