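import Crest.Agent.R330.Rot_149
import Crest.Agent.R330.AcomV_302

/-!
# Row 330 (helper311): rotated gamma matrices

The heavy vacuum section of section 8 lives on the configurations whose cluster positions are
separated by their `b`-components.  For any commuting `c` with distinct cluster positions there is
an orthogonal `9 × 9` matrix `r` such that `r c` is of this kind, and the charges (mass `0`), the
Clifford operators `Σ_i γ^i ⊗ ad x_i` and the heavy vacua for `(G, x)` and `(rotG G r, r x)` are the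
same.

* `rotG G r hr` : the matrices `γ'^i = Σ_j r_ij γ^j`; `gu_rotG`, `wpot_rotG`, `kin_rotG`,
  `dcharge_rotG`.
* `exists_rot` : finitely many nonzero vectors of `ℝ^9`; an orthogonal matrix which makes all of
  them have nonzero `i₀`-th coordinate.
-/

set_option autoImplicit false
set_option linter.unusedSectionVars false

open MeasureTheory Filter Topology Crest.MathPhysics.MatrixQM
open scoped ContDiff InnerProductSpace ENNReal

noncomputable section

namespace Crest.Agent.R330.RotG311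

open Crest.Agent.R330.Defs478 Crest.Agent.R330.Rot149

variable {N : ℕ} {F : Type*} [NormedAddCommGroup F] [InnerProductSpace ℂ F]
  [FiniteDimensional ℂ F]

/-! ## The rotated matrices -/

theorem gu_transpose (G : GammaNine) (u : Fin 9 → ℝ) : (gu G u).transpose = gu G u := by
  unfold gu
  rw [Matrix.transpose_sum]
  refine Finset.sum_congr rfl fun i _ => ?_
  rw [Matrix.transpose_smul, G.symm]

theorem gu_anti (G : GammaNine) (u v : Fin 9 → ℝ) :
    gu G u * gu G v + gu G v * gu G u = (2 * ∑ i, u i * v i) • (1 : Matrix (Fin 16) (Fin 16) ℝ) := by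
  have h1 : gu G u * gu G v = ∑ i, ∑ j, (u i * v j) • (G.γ i * G.γ j) := by
    unfold gu
    rw [Finset.sum_mul]
    refine Finset.sum_congr rfl fun i _ => ?_
    rw [Finset.mul_sum]
    refine Finset.sum_congr rfl fun j _ => ?_
    rw [Matrix.smul_mul, Matrix.mul_smul, smul_smul]
  have h2 : gu G v * gu G u = ∑ i, ∑ j, (u i * v j) • (G.γ j * G.γ i) := by
    unfold gu
    simp only [Finset.sum_mul, Finset.mul_sum]
    refine Finset.sum_congr rfl fun i _ => Finset.sum_congr rfl fun j _ => ?_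
    rw [Matrix.smul_mul, Matrix.mul_smul, smul_smul, mul_comm (v j)]
  rw [h1, h2]
  simp only [← Finset.sum_add_distrib, ← smul_add, G.clifford, smul_ite, smul_zero,
    Finset.sum_ite_eq, Finset.mem_univ, if_true]
  rw [Finset.mul_sum, Finset.sum_smul]
  refine Finset.sum_congr rfl fun i _ => ?_
  have h3 : (2 : Matrix (Fin 16) (Fin 16) ℝ) = (2 : ℝ) • 1 := by
    ext a c
    simp [Matrix.one_apply, Matrix.ofNat_apply]
  rw [h3, smul_smul]
  congr 1
  ring

theorem rows_orth {r : Matrix (Fin 9) (Fin 9) ℝ} (hr : r.transpose * r = 1) (i j : Fin 9) :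
    ∑ k, r i k * r j k = if i = j then 1 else 0 := by
  have h0 : r * r.transpose = 1 := mul_eq_one_comm.1 hr
  have h := congrFun (congrFun h0 i) j
  simpa [Matrix.mul_apply, Matrix.one_apply] using h

theorem cols_orth {r : Matrix (Fin 9) (Fin 9) ℝ} (hr : r.transpose * r = 1) (i j : Fin 9) :
    ∑ l, r l i * r l j = if i = j then 1 else 0 := by
  have := congrFun (congrFun hr i) j
  simpa [Matrix.mul_apply, Matrix.one_apply] using this

/-- The rotated gamma matrices `γ'^i = Σ_j r_ij γ^j`. -/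
def rotG (G : GammaNine) (r : Matrix (Fin 9) (Fin 9) ℝ) (hr : r.transpose * r = 1) :
    GammaNine where
  γ i := gu G (r i)
  symm i := gu_transpose G (r i)
  clifford i j := by
    rw [gu_anti, rows_orth hr]
    split_ifs
    · rw [mul_one]
      ext a c
      simp [Matrix.one_apply, Matrix.ofNat_apply]
    · rw [mul_zero, zero_smul]

variable (G : GammaNine) {r : Matrix (Fin 9) (Fin 9) ℝ} (hr : r.transpose * r = 1)

theorem gu_rotG (u : Fin 9 → ℝ) : gu (rotG G r hr) (r.mulVec u) = gu G u := by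
  have e : ∀ i, (rotG G r hr).γ i = ∑ j, r i j • G.γ j := fun i => rfl
  unfold gu
  simp only [e, Finset.smul_sum, smul_smul]
  rw [Finset.sum_comm]
  refine Finset.sum_congr rfl fun j _ => ?_
  rw [← Finset.sum_smul]
  congr 1
  simp only [Matrix.mulVec, dotProduct, Finset.sum_mul]
  rw [Finset.sum_comm]
  have h : ∀ k, ∑ i, r i k * u k * r i j = if k = j then u k else 0 := fun k => by
    have h3 : ∑ i, r i k * u k * r i j = (∑ i, r i k * r i j) * u k := by
      rw [Finset.sum_mul]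
      exact Finset.sum_congr rfl fun l _ => by ring
    rw [h3, cols_orth hr]
    split_ifs <;> simp
  simp only [h, Finset.sum_ite_eq', Finset.mem_univ, if_true]

theorem gu_rotG' (x : Cfg N) (A : Fin (N ^ 2 - 1)) :
    gu (rotG G r hr) (fun i => (rotM r x : Cfg N) (i, A)) = gu G (fun i => x (i, A)) :=
  gu_rotG G hr fun i => x (i, A)

/-- The potential part of the charges at mass `0`. -/
theorem wpot_rotG (b : ColorBasis N) (g : ℝ) (α β : Fin 16) (A : Fin (N ^ 2 - 1)) (x : Cfg N) :
    wpot b (rotG G r hr) g 0 α β A (rotM r x) = wpot b G g 0 α β A x := by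
  have h : (Matrix.of fun α β => wpot b (rotG G r hr) g 0 α β A (rotM r x)) =
      Matrix.of fun α β => wpot b G g 0 α β A x := by
    rw [wpot_eq, wpot_eq]
    simp only [gu_rotG', zero_smul, sub_zero]
  exact congrFun (congrFun h α) β

/-- The kinetic part of the charges. -/
theorem kin_rotG (M : FermionRep N F) (α : Fin 16) {φ : Cfg N → F} {x : Cfg N}
    (hφ : DifferentiableAt ℝ φ (rotM r x)) :
    kin M (rotG G r hr) α φ (rotM r x) = kin M G α (fun x => φ (rotM r x)) x := by
  have hfd : ∀ v, fderiv ℝ (fun x => φ (rotM r x)) x v = fderiv ℝ φ (rotM r x) (rotM r v) :=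
    fun v => by
    have h1 : HasFDerivAt (fun x : Cfg N => rotM r x) (LinearMap.toContinuousLinearMap (rotM r)) x :=
      (LinearMap.toContinuousLinearMap (rotM r : Cfg N →ₗ[ℝ] Cfg N)).hasFDerivAt
    have h2 : HasFDerivAt (fun x : Cfg N => φ (rotM r x)) _ x := hφ.hasFDerivAt.comp x h1
    rw [h2.fderiv]
    rfl
  unfold kin
  simp only [hfd, rotM_single, map_sum, map_smul]
  have e : ∀ i, (rotG G r hr).γ i = ∑ j, r i j • G.γ j := fun i => rfl
  have e2 : ∀ i β, (((rotG G r hr).γ i α β : ℝ) : ℂ) = ∑ j, ((r i j : ℝ) : ℂ) * ((G.γ j α β : ℝ) : ℂ) :=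
    fun i β => by
    rw [e, Matrix.sum_apply]
    push_cast
    exact Finset.sum_congr rfl fun j _ => by simp
  have e3 : ∀ (c : ℝ) (β : Fin 16) (A : Fin (N ^ 2 - 1)) (v : F),
      M.θ β A (c • v) = (c : ℂ) • M.θ β A v := fun c β A v => by
    rw [← Complex.coe_smul, map_smul]
  simp only [e2, e3, Finset.smul_sum, Finset.mul_sum, Finset.sum_smul, smul_smul]
  -- both sides are sums over `i, A, β, j`
  have hsw : ∀ f : Fin 9 → Fin (N ^ 2 - 1) → Fin 16 → Fin 9 → F,
      ∑ i, ∑ A, ∑ β, ∑ j, f i A β j = ∑ i, ∑ A, ∑ β, ∑ j, f j A β i := fun f => by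
    rw [Finset.sum_comm]
    conv_rhs => rw [Finset.sum_comm]
    refine Finset.sum_congr rfl fun A _ => ?_
    rw [Finset.sum_comm]
    conv_rhs => rw [Finset.sum_comm]
    refine Finset.sum_congr rfl fun β _ => ?_
    rw [Finset.sum_comm]
  rw [hsw]
  refine Finset.sum_congr rfl fun i _ => Finset.sum_congr rfl fun A _ =>
    Finset.sum_congr rfl fun β _ => Finset.sum_congr rfl fun j _ => ?_
  congr 1
  ring

/-- **The charges of the rotated gamma matrices at mass `0`.** -/
theorem dcharge_rotG (b : ColorBasis N) (M : FermionRep N F) (g : ℝ) (α : Fin 16) {φ : Cfg N → F}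
    {x : Cfg N} (hφ : DifferentiableAt ℝ φ (rotM r x)) :
    dcharge b M (rotG G r hr) g 0 α φ (rotM r x) =
      dcharge b M G g 0 α (fun x => φ (rotM r x)) x := by
  unfold dcharge
  rw [kin_rotG G hr M α hφ]
  congr 1
  refine Finset.sum_congr rfl fun A _ => Finset.sum_congr rfl fun β _ => ?_
  rw [wpot_rotG G hr]

/-- The form of the rotated gamma matrices at mass `0`. -/
theorem qf_rotG (b : ColorBasis N) (M : FermionRep N F) (g : ℝ) {φ : Cfg N → F}
    (hφ : Differentiable ℝ φ) :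
    qf b M (rotG G r hr) g 0 φ = qf b M G g 0 (fun x => φ (rotM r x)) := by
  unfold qf
  congr 1
  refine Finset.sum_congr rfl fun α _ => ?_
  rw [← integral_rotM hr]
  refine integral_congr_ae (Eventually.of_forall fun x => ?_)
  simp only
  rw [dcharge_rotG G hr b M g α (hφ _)]

include hr in
/-- Rotations preserve the core. -/
theorem core_rotM {b : ColorBasis N} {M : FermionRep N F} {R : GaugeAction b M}
    {φ : Cfg N → F} (hφ : IsCoreVec b R φ) : IsCoreVec b R (fun x => φ (rotM r x)) := by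
  refine ⟨?_, ?_, fun u x => ?_⟩
  · exact hφ.1.comp (LinearMap.toContinuousLinearMap (rotM r : Cfg N →ₗ[ℝ] Cfg N)).contDiff
  · exact hφ.2.1.comp_homeomorph (rotI r hr).toHomeomorph
  · change φ (rotM r (b.act u x)) = R.ρ u (φ (rotM r x))
    rw [rotM_act, hφ.2.2]

/-- Rotations of diagonal configurations. -/
theorem rotM_diagCfg (b : ColorBasis N) (r : Matrix (Fin 9) (Fin 9) ℝ) (p : Fin 9 → Fin N → ℝ) :
    rotM r (AcomV302.diagCfg b p) = AcomV302.diagCfg b fun i a => ∑ j, r i j * p j a := by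
  ext ⟨l, A⟩
  have e : ∀ (q : Fin N → ℝ), (b.T A * Matrix.diagonal fun a => (q a : ℂ)).trace.re =
      ∑ a, (b.T A a a).re * q a := fun q => by
    rw [Matrix.trace, Complex.re_sum]
    refine Finset.sum_congr rfl fun a _ => ?_
    rw [Matrix.diag_apply, Matrix.mul_diagonal, Complex.re_mul_ofReal]
  change ∑ i, r l i * (b.T A * Matrix.diagonal fun a => (p i a : ℂ)).trace.re =
    (b.T A * Matrix.diagonal fun a => ((∑ j, r l j * p j a : ℝ) : ℂ)).trace.re
  rw [e fun a => ∑ j, r l j * p j a]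
  simp only [e, Finset.mul_sum]
  rw [Finset.sum_comm]
  exact Finset.sum_congr rfl fun a _ => Finset.sum_congr rfl fun j _ => by ring

/-! ## Choice of the rotation -/

/-- The reflection of a vector `w`. -/
def refl9 (w : Fin 9 → ℝ) : Matrix (Fin 9) (Fin 9) ℝ :=
  1 - (2 / (w ⬝ᵥ w)) • Matrix.vecMulVec w w

theorem refl9_orth (w : Fin 9 → ℝ) : (refl9 w).transpose * refl9 w = 1 := by
  have h1 : (refl9 w).transpose = refl9 w := by
    unfold refl9
    rw [Matrix.transpose_sub, Matrix.transpose_one, Matrix.transpose_smul,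
      Matrix.transpose_vecMulVec]
  have h2 : Matrix.vecMulVec w w * Matrix.vecMulVec w w = (w ⬝ᵥ w) • Matrix.vecMulVec w w := by
    rw [Matrix.vecMulVec_mul_vecMulVec]
    ext a c
    simp [Matrix.vecMulVec_apply]
    ring
  rw [h1]
  unfold refl9
  simp only [Matrix.sub_mul, Matrix.mul_sub, Matrix.one_mul, Matrix.mul_one, Matrix.smul_mul,
    Matrix.mul_smul, h2, smul_smul]
  by_cases h0 : w ⬝ᵥ w = 0
  · simp [h0]
  · have h3 : 2 / (w ⬝ᵥ w) * (w ⬝ᵥ w) = 2 := by field_simp
    rw [h3, two_smul, ← sub_sub, sub_self, zero_sub, smul_neg]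
    abel

theorem refl9_mulVec (w u : Fin 9 → ℝ) (i : Fin 9) :
    (refl9 w).mulVec u i = u i - 2 / (w ⬝ᵥ w) * (w i * (w ⬝ᵥ u)) := by
  unfold refl9
  rw [Matrix.sub_mulVec, Matrix.one_mulVec, Matrix.smul_mulVec]
  simp only [Pi.sub_apply, Pi.smul_apply, smul_eq_mul]
  congr 2
  rw [Matrix.vecMulVec_mulVec]
  simp

/-- Finitely many nonzero vectors: an orthogonal matrix which makes all of them have nonzero
`i₀`-th coordinate. -/
theorem exists_rot {ι : Type*} [Finite ι] (u : ι → Fin 9 → ℝ) (hu : ∀ k, u k ≠ 0) (i₀ : Fin 9) :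
    ∃ r : Matrix (Fin 9) (Fin 9) ℝ, r.transpose * r = 1 ∧ ∀ k, (r.mulVec (u k)) i₀ ≠ 0 := by
  obtain ⟨f, hf⟩ := Module.exists_dual_forall_apply_ne_zero (K := ℝ) u hu
  set v : Fin 9 → ℝ := fun i => f (Pi.single i 1) with hv
  have hfv : ∀ x : Fin 9 → ℝ, f x = v ⬝ᵥ x := fun x => by
    conv_lhs => rw [← Finset.univ_sum_single x]
    rw [map_sum]
    refine Finset.sum_congr rfl fun i _ => ?_
    have : (Pi.single i (x i) : Fin 9 → ℝ) = x i • Pi.single i 1 := by
      rw [← Pi.single_smul, smul_eq_mul, mul_one]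
    rw [this, map_smul, smul_eq_mul, mul_comm]
  by_cases h0 : v ⬝ᵥ v = 0
  · refine ⟨1, by simp, fun k => ?_⟩
    have hv0 : v = 0 := dotProduct_self_eq_zero.1 h0
    exact absurd (by rw [hfv, hv0, zero_dotProduct]) (hf k)
  have hs : 0 < v ⬝ᵥ v := lt_of_le_of_ne (Finset.sum_nonneg fun i _ => mul_self_nonneg (v i))
    (Ne.symm h0)
  set s : ℝ := Real.sqrt (v ⬝ᵥ v) with hsd
  have hs0 : 0 < s := Real.sqrt_pos.2 hs
  set c : Fin 9 → ℝ := s⁻¹ • v with hc
  have hcc : c ⬝ᵥ c = 1 := by
    rw [hc, smul_dotProduct, dotProduct_smul, smul_eq_mul, smul_eq_mul, ← mul_assoc, ← mul_inv,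
      ← sq, hsd, Real.sq_sqrt hs.le, inv_mul_cancel₀ h0]
  set w : Fin 9 → ℝ := c - Pi.single i₀ 1 with hw
  have hww : w ⬝ᵥ w = 2 - 2 * c i₀ := by
    rw [hw, sub_dotProduct, dotProduct_sub, dotProduct_sub, hcc]
    simp
    ring
  have hwi : w i₀ = c i₀ - 1 := by
    rw [hw]
    simp
  refine ⟨refl9 w, refl9_orth w, fun k => ?_⟩
  have hwu : w ⬝ᵥ u k = c ⬝ᵥ u k - u k i₀ := by
    rw [hw, sub_dotProduct]
    simp
  have hcu : c ⬝ᵥ u k ≠ 0 := by
    rw [hc, smul_dotProduct, smul_eq_mul, ← hfv]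
    exact mul_ne_zero (inv_ne_zero hs0.ne') (hf k)
  rw [refl9_mulVec]
  by_cases h1 : w ⬝ᵥ w = 0
  · have hw0 : w = 0 := dotProduct_self_eq_zero.1 h1
    rw [hw0, zero_dotProduct] at hwu
    rw [h1, div_zero, zero_mul, sub_zero]
    intro h2
    rw [h2, sub_zero] at hwu
    exact hcu hwu.symm
  · have h2 : u k i₀ - 2 / (w ⬝ᵥ w) * (w i₀ * (w ⬝ᵥ u k)) = c ⬝ᵥ u k := by
      have h3 : w i₀ = -(w ⬝ᵥ w) / 2 := by rw [hwi, hww]; ring
      rw [h3, hwu]
      field_simp
      ring
    rw [h2]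
    exact hcu

/-- The same for pair differences: an orthogonal matrix which separates the `i₀`-components of
finitely many distinct positions. -/
theorem exists_rot_sep {ι : Type*} [Finite ι] (p : Fin 9 → ι → ℝ)
    (hp : ∀ a c, a ≠ c → (fun i => p i a) ≠ fun i => p i c) (i₀ : Fin 9) :
    ∃ r : Matrix (Fin 9) (Fin 9) ℝ, r.transpose * r = 1 ∧
      ∀ a c, a ≠ c → ∑ j, r i₀ j * p j a ≠ ∑ j, r i₀ j * p j c := by
  obtain ⟨r, h1, h2⟩ := exists_rot (ι := {ac : ι × ι // ac.1 ≠ ac.2})
    (fun ac i => p i ac.1.1 - p i ac.1.2) (fun ac h => hp _ _ ac.2 (by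
      funext i
      exact sub_eq_zero.1 (congrFun h i))) i₀
  refine ⟨r, h1, fun a c hac h => h2 ⟨(a, c), hac⟩ ?_⟩
  simp only [Matrix.mulVec, dotProduct, mul_sub, Finset.sum_sub_distrib]
  exact sub_eq_zero.2 h

end Crest.Agent.R330.RotG311

end
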