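import Crest.Agent.R330.Chn_692
import Crest.Agent.R330.CapIntC_737

/-!
# Row 330, S9-S2C (helper741): from diagonal configurations to the channels

* `exists_permSU` : signed permutation matrices in `SU(N)`; `act_permSU` : they permute the entries
  of a diagonal configuration.
* `exists_chn_of_dg` : every `dg b f` with at least two different positions is on the orbit of some
  `cfX b P X`, `X ∈ Reg b P`.
* `exists_chn` : the same for `diagCfg b p`, `2 ≤ nv p`.
* `comc_cf`, `sliceEst_of_chn`, `capAnn_of_chn`, `capFam_of_chn` : with 737's transport, capture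
  follows from the slice estimate at `(chn b P).cf X₀`, `(chn b P).Reg X₀`, for every `P`.
-/

set_option autoImplicit false
set_option linter.unusedSectionVars false

open MeasureTheory Filter Topology Crest.MathPhysics.MatrixQM
open scoped ContDiff InnerProductSpace ENNReal BigOperators

noncomputable section

namespace Crest.Agent.R330.S2C741

open Crest.Agent.R330.Parts879 Crest.Agent.R330.Geo692 Crest.Agent.R330.Diag304
  Crest.Agent.R330.Strata737 Crest.Agent.R330.CapBind737 Crest.Agent.R330.CapIntC737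
  Crest.Agent.R330.AcomV302 Crest.Agent.R330.Clus839

variable {N : ℕ}

/-! ### signed permutation matrices -/

/-- A signed permutation matrix of determinant one. -/
theorem exists_permSU (hN : 0 < N) (τ : Equiv.Perm (Fin N)) :
    ∃ g : Matrix.specialUnitaryGroup (Fin N) ℂ, ∀ a c, a ≠ τ c →
      (g : Matrix (Fin N) (Fin N) ℂ) a c = 0 := by
  classical
  set e : ℂ := (((Equiv.Perm.sign τ : ℤˣ) : ℤ) : ℂ) with he
  have hee : e * e = 1 := by
    rw [he]
    rcases Int.units_eq_one_or (Equiv.Perm.sign τ) with h | h <;> rw [h] <;> norm_num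
  set d : Fin N → ℂ := fun a => if a = ⟨0, hN⟩ then e else 1 with hd
  have hdd : ∀ a, d a * star (d a) = 1 := by
    intro a
    simp only [hd]
    split_ifs
    · have : star e = e := by
        rw [he]
        simp
      rw [this, hee]
    · simp
  set W : Matrix (Fin N) (Fin N) ℂ := Matrix.diagonal d * (Equiv.Perm.permMatrix ℂ τ⁻¹) with hW
  have hWapp : ∀ a c, W a c = if a = τ c then d a else 0 := by
    intro a c
    rw [hW, Matrix.diagonal_mul]
    have h1 : (Equiv.Perm.permMatrix ℂ τ⁻¹ : Matrix (Fin N) (Fin N) ℂ) a c =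
        if τ⁻¹ a = c then 1 else 0 := by
      rw [Equiv.Perm.permMatrix, PEquiv.toMatrix_apply]
      simp [Equiv.toPEquiv_apply, eq_comm]
    rw [h1]
    by_cases h : a = τ c
    · subst h
      simp
    · have h2 : ¬ (τ⁻¹ a = c) := fun h3 => h (by rw [← h3, sia])
      rw [if_neg h, if_neg h2, mul_zero]
  have hWW : W * star W = 1 := by
    ext a c
    rw [Matrix.mul_apply]
    simp only [Matrix.star_apply, hWapp]
    by_cases hac : a = c
    · subst hac
      rw [Matrix.one_apply_eq, Finset.sum_eq_single (τ⁻¹ a)]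
      · simp only [sia, if_true]
        exact hdd a
      · intro x _ hx
        have : ¬ (a = τ x) := fun h => hx (by rw [h, ias])
        simp [this]
      · intro h
        exact absurd (Finset.mem_univ _) h
    · rw [Matrix.one_apply_ne hac]
      refine Finset.sum_eq_zero fun x _ => ?_
      by_cases h : a = τ x
      · have h2 : ¬ (c = τ x) := fun h' => hac (h.trans h'.symm)
        simp [h2]
      · simp [h]
  have hdet : W.det = 1 := by
    rw [hW, Matrix.det_mul, Matrix.det_diagonal, Matrix.det_permutation]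
    have h1 : ∏ a, d a = e := by
      rw [Finset.prod_eq_single (⟨0, hN⟩ : Fin N)]
      · simp [hd]
      · intro x _ hx
        simp [hd, hx]
      · intro h
        exact absurd (Finset.mem_univ _) h
    rw [h1, Equiv.Perm.sign_inv]
    exact hee
  have hU : W ∈ Matrix.unitaryGroup (Fin N) ℂ := Matrix.mem_unitaryGroup_iff.2 hWW
  refine ⟨⟨W, Matrix.mem_specialUnitaryGroup_iff.2 ⟨hU, hdet⟩⟩, fun a c hac => ?_⟩
  change W a c = 0
  rw [hWapp, if_neg hac]

variable (b : ColorBasis N)

/-- Signed permutation matrices permute the entries of diagonal configurations. -/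
theorem act_permSU {τ : Equiv.Perm (Fin N)} {g : Matrix.specialUnitaryGroup (Fin N) ℂ}
    (hg : ∀ a c, a ≠ τ c → (g : Matrix (Fin N) (Fin N) ℂ) a c = 0)
    {f f' : Fin N → EuclideanSpace ℝ (Fin 9)} (hf : ∑ a, f a = 0) (hff : ∀ a, f' (τ a) = f a) :
    b.act g (dg b f) = dg b f' := by
  have hf' : ∑ a, f' a = 0 := by
    rw [← Equiv.sum_comp τ, ← hf]
    exact Finset.sum_congr rfl fun a _ => hff a
  apply Blk304.mat_inj b
  intro i
  rw [Blk304.mat_act, mat_dg b hf, mat_dg b hf']
  have h1 : (g : Matrix (Fin N) (Fin N) ℂ) * (Matrix.diagonal fun a => ((f a i : ℝ) : ℂ)) =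
      (Matrix.diagonal fun a => ((f' a i : ℝ) : ℂ)) * (g : Matrix (Fin N) (Fin N) ℂ) := by
    ext a c
    rw [Matrix.mul_diagonal, Matrix.diagonal_mul]
    by_cases h : a = τ c
    · rw [h, hff, mul_comm]
    · rw [hg a c h]
      ring
  rw [h1, Matrix.mul_assoc, Blk304.su_mul_star, Matrix.mul_one]

/-! ### the channel of a diagonal configuration -/

/-- **Every diagonal configuration with at least two clusters lies on the orbit of a regular point
of a channel.** -/
theorem exists_chn_of_dg {f : Fin N → EuclideanSpace ℝ (Fin 9)} (hf : ∑ a, f a = 0)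
    (h2 : ∃ a c, f a ≠ f c) :
    ∃ (P : Lam N) (X : XS P) (g : Matrix.specialUnitaryGroup (Fin N) ℂ),
      X ∈ Reg b P ∧ b.act g (dg b f) = cfX b P X := by
  classical
  have hN : 0 < N := by
    obtain ⟨a, -, -⟩ := h2
    exact Fin.pos a
  obtain ⟨P, r, τ, hr, hτ⟩ := exists_label f h2
  have hsum : ∑ q, (P.k q : ℝ) • r q = 0 := by
    ext i
    have h1 : ∑ a, r (P.cl a) = 0 := by
      rw [← hf, ← Equiv.sum_comp τ f]
      exact Finset.sum_congr rfl fun a _ => (hτ a).symm
    have h3 := congrArg (fun v : EuclideanSpace ℝ (Fin 9) => v i) h1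
    simp only [WithLp.ofLp_sum, Finset.sum_apply, PiLp.zero_apply] at h3
    rw [sum_cl P fun q => r q i] at h3
    simp only [WithLp.ofLp_sum, Finset.sum_apply, PiLp.smul_apply, smul_eq_mul, PiLp.zero_apply]
    exact h3
  obtain ⟨X, hX⟩ := exists_pos b P hsum
  obtain ⟨g, hg⟩ := exists_permSU hN τ⁻¹
  refine ⟨P, X, g, fun p q hpq => hr (by rw [← hX p, ← hX q]; exact hpq), ?_⟩
  rw [cfX_eq_dg]
  refine act_permSU b hg hf fun a => ?_
  rw [hX, ← hτ, sia]

/-- **The channel of `diag(p)`**, for every `p` with at least two clusters. -/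
theorem exists_chn {p : Fin 9 → Fin N → ℝ} (hp : ∀ i, ∑ a, p i a = 0) (h2 : 2 ≤ nv p) :
    ∃ (P : Lam N) (X : XS P) (g : Matrix.specialUnitaryGroup (Fin N) ℂ),
      X ∈ Reg b P ∧ b.act g (diagCfg b p) = cfX b P X := by
  have h3 : ∃ a c, DiagRed302.vp p a ≠ DiagRed302.vp p c := by
    by_contra hcon
    push Not at hcon
    have h4 : ∀ a c, pt p a = pt p c := fun a c => by
      funext i
      have h5 := congrArg (fun v : EuclideanSpace ℝ (Fin 9) => v i) (hcon a c)
      exact h5
    have h6 : (Set.range (pt p)).Subsingleton := by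
      rintro _ ⟨a, rfl⟩ _ ⟨c, rfl⟩
      exact h4 a c
    have h7 : (Set.range (pt p)).ncard ≤ 1 := Set.ncard_le_one_iff_subsingleton.2 h6
    unfold nv at h2
    omega
  rw [← DiagRed302.dg_vp]
  exact exists_chn_of_dg b (DiagRed302.sum_vp hp) h3

/-- the same with the channel data `chn b P` of 692 -/
theorem exists_chn_cf {p : Fin 9 → Fin N → ℝ} (hp : ∀ i, ∑ a, p i a = 0) (h2 : 2 ≤ nv p) :
    ∃ (P : Lam N) (X : XS P) (g : Matrix.specialUnitaryGroup (Fin N) ℂ),
      (chn b P).Reg X ∧ b.act g (diagCfg b p) = (chn b P).cf X := by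
  obtain ⟨P, X, g, hX, hg⟩ := exists_chn b hp h2
  exact ⟨P, X, g, (chn_Reg b P X).2 hX, hg⟩

theorem comc_cf (P : Lam N) (X : XS P) : Bind6839.Comc b ((chn b P).cf X) := comc_cfX b P X

/-! ### capture from the channels -/

variable {b} {F : Type*} [NormedAddCommGroup F] [InnerProductSpace ℂ F] [FiniteDimensional ℂ F]
  {M : FermionRep N F} {R : GaugeAction b M} {G : GammaNine} {m : ℝ}

/-- **The slice estimate at the diagonal configurations from the slice estimate at the channels.** -/
theorem sliceEst_of_chn {X : Type*} {T : ℝ → X → Cfg N → F}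
    (h : ∀ (P : Lam N) (X₀ : XS P), (chn b P).Reg X₀ →
      SliceEstC b M R G m T ((chn b P).cf X₀)) :
    SliceEst b M R G m T := by
  intro p hp h2
  obtain ⟨P, X₀, g, hX, hg⟩ := exists_chn_cf b hp h2
  refine sliceEstAt_of_rep (k := g) ?_
  rw [hg]
  exact h P X₀ hX

/-- **Capture on annuli from the slice estimate at the channels.** -/
theorem capAnn_of_chn (hN : 0 < N) (hm : 0 ≤ m) (hm1 : m ≤ 1) {X : Type*} {T : ℝ → X → Cfg N → F}
    (h : ∀ (P : Lam N) (X₀ : XS P), (chn b P).Reg X₀ →
      SliceEstC b M R G m T ((chn b P).cf X₀)) :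
    Chan441.CapAnn b M R G m T :=
  capAnn_of hN hm hm1 (sliceEst_of_chn h)

/-- the same for a family of channels -/
theorem capFam_of_chn (hN : 0 < N) (hm : 0 ≤ m) (hm1 : m ≤ 1) {ι : Type*} {X : ι → Type*}
    {T : ∀ i, ℝ → X i → Cfg N → F}
    (h : ∀ (P : Lam N) (X₀ : XS P), (chn b P).Reg X₀ →
      SliceEstC b M R G m (X := Σ i, X i) (fun g s => T s.1 g s.2) ((chn b P).cf X₀)) :
    Chan441.CapFam b M R G m T :=
  capFam_of hN hm hm1 (sliceEst_of_chn h)

end Crest.Agent.R330.S2C741

end
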