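import Crest.Agent.R330.Up_8
import Crest.Agent.R330.VacW_8
import Crest.Agent.R330.VacB_303
import Crest.Agent.R330.En_682

/-!
# Row 330, field `up` (helper8): `Upper N` from the two remaining leaves
-/

set_option autoImplicit false

namespace Crest.Agent.R330.UpFin8

open Crest.Agent.R330.S5Defs798

theorem upper {N : ℕ} (hN : 0 < N) (hP : VacPackProp N) (hL : LiouvilleProp N) : Upper N :=
  Up8.upper_of (Vacua303.orbitsProp hN) hP (VacW8.vacWpot N) hL (En682.en_prop hN)
    (En682.vz_prop hN)

end Crest.Agent.R330.UpFin8
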