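import Crest.Agent.R330.TrD_798
import Crest.Agent.R330.Low_967
import Crest.Agent.R330.UpFin_8

/-!
# Row 330, section 5 (helper798): `Lower N` and `Weak N` from the vacuum package and the Liouville
property.
-/

set_option autoImplicit false

namespace Crest.Agent.R330.S5Fin798

open Crest.Agent.R330.S5Defs798

theorem trial {N : ℕ} (hN : 0 < N) (hP : VacPackProp N) : Trial N :=
  TrD798.trial_of (Vacua303.orbitsProp hN) (VacW8.vacWpot N) hP

/-- **field `low`** -/
theorem lower {N : ℕ} (hN : 0 < N) (hP : VacPackProp N) : Lower N :=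
  Low967.lower_of (trial hN hP)

/-- **section 5** -/
theorem weak {N : ℕ} (hN : 0 < N) (hP : VacPackProp N) (hL : LiouvilleProp N) :
    Top478.Weak N :=
  weak_of (lower hN hP) (UpFin8.upper hN hP hL)

end Crest.Agent.R330.S5Fin798
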