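import Crest.Agent.R330.CapZ_818
import Crest.Agent.R330.S9TopB_441

/-!
# Row 330: the input `ball` of `Last478.Open` (helper441; proof = `CapZ818.capBall_of`)
-/

set_option autoImplicit false

noncomputable section

namespace Crest.Agent.R330.S9Ball441

open Crest.Agent.R330.Defs478 Crest.Agent.R330.Top478 Crest.Agent.R330.Sec478
  Crest.Agent.R330.SInd478 Crest.Agent.R330.Close478 Crest.Agent.R330.TrialSys796
  Crest.Agent.R330.S9Top441

/-- Capture on balls for all data from the exterior Hardy inequalities. -/
theorem ballAll_of {N : ℕ} (h : HIAll N) : BallAll N := by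
  intro F _ _ _ _ b M R G X T hA
  exact CapZ818.capBall_of hA (h F b M R G 1 (by norm_num)) (by norm_num)

/-- The fields `ann`, `dup`, `dlow` of `StepIn` from the channels and tightness. -/
theorem top {N : ℕ} (hch : Below N → Chan441.ChanAll N) (hT : TightAll N) : Top N :=
  S9TopB441.top hch ballAll_of hT

end Crest.Agent.R330.S9Ball441

end
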