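import Crest.Agent.R330.StrUp_796

/-!
# Row 330, section 10 (helper796): literal `DUp N`

* `dUp_of` : `TrialAll N → TightAll N → DUp N`.
-/

set_option autoImplicit false
set_option linter.unusedSectionVars false

open MeasureTheory Filter Topology Crest.MathPhysics.MatrixQM
open scoped ContDiff InnerProductSpace ENNReal

noncomputable section

namespace Crest.Agent.R330.StrongTop796

open Crest.Agent.R330.Defs478 Crest.Agent.R330.Top478 Crest.Agent.R330.FA416
  Crest.Agent.R330.Dict416 Crest.Agent.R330.Scale423 Crest.Agent.R330.ScaleD423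
  Crest.Agent.R330.TrialSys796 Crest.Agent.R330.StrAbs796 Crest.Agent.R330.StrUp796

/-! ### D-up -/

section up

variable {N : ℕ} {F : Type*} [NormedAddCommGroup F] [InnerProductSpace ℂ F]
  [FiniteDimensional ℂ F] {b : ColorBasis N} {M : FermionRep N F} {R : GaugeAction b M}
  {G : GammaNine}

open Classical in
/-- The scaled vectors, zero for `g ≤ 0`. -/
def scl (N : ℕ) (F : Type*) [NormedAddCommGroup F] [InnerProductSpace ℂ F]
    [FiniteDimensional ℂ F] (g : ℝ) (ψ : L2 N F) : L2 N F :=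
  if h : 0 < g then UsLp N F (g ^ ((1 : ℝ) / 3)) (Real.rpow_pos_of_pos h _) ψ else 0

theorem scl_pos {g : ℝ} (h : 0 < g) (ψ : L2 N F) :
    scl N F g ψ = UsLp N F (g ^ ((1 : ℝ) / 3)) (Real.rpow_pos_of_pos h _) ψ := by
  unfold scl
  rw [dif_pos h]

theorem norm_scl_le (g : ℝ) (ψ : L2 N F) : ‖scl N F g ψ‖ ≤ ‖ψ‖ := by
  unfold scl
  split_ifs with h
  · rw [LinearIsometryEquiv.norm_map]
  · rw [norm_zero]
    exact norm_nonneg _

/-- **Literal D-up for one set of data.** -/
theorem dUp_data {L : Type*} [NormedAddCommGroup L] [InnerProductSpace ℂ L] [CompleteSpace L]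
    {X : Type*} [AddCommGroup X] [Module ℂ X] {e : X →ₗ[ℂ] L} {D : Fin 16 → X →ₗ[ℂ] X}
    {T : ℝ → X → Cfg N → F} {K0 : Submodule ℂ L} {d : ℕ}
    (hsep : TopologicalSpace.SeparableSpace L) (hTr : IsTrial b M R G e D T)
    (hFree : IsFree e D K0 d) (hcap : CapBall b M R G T) (ht : Tight b M R G) {k : ℕ}
    (hk : ∀ g₁ : ℝ, ∃ g : ℝ, 0 < g ∧ g₁ < g ∧ Sec478.DimGe b M R G g 1 (k + d)) :
    Sec478.DimGe b M R G 1 0 k := by
  by_contra hnot
  -- the kernel of `Q^{1,0}` is finite dimensional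
  unfold Sec478.DimGe at hnot
  rw [not_le] at hnot
  have hfin : Module.rank ℂ (zker b M R G 1 0) < Cardinal.aleph0 :=
    hnot.trans Cardinal.natCast_lt_aleph0
  have hfd : FiniteDimensional ℂ (zker b M R G 1 0) := Module.rank_lt_aleph0_iff.1 hfin
  set n : ℕ := Module.finrank ℂ (zker b M R G 1 0) with hn
  have hnk : n < k := by
    have h1 : (n : Cardinal) = Module.rank ℂ (zker b M R G 1 0) := Module.finrank_eq_rank _ _
    rw [← h1] at hnot
    exact_mod_cast hnot
  have hK0 : FiniteDimensional ℂ K0 := by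
    refine Module.rank_lt_aleph0_iff.1 ?_
    rw [hFree.rank]
    exact Cardinal.natCast_lt_aleph0
  have hK0r : Module.finrank ℂ K0 = d := by
    rw [Module.finrank, hFree.rank, Cardinal.toNat_natCast]
  let bas := Module.finBasis ℂ (zker b M R G 1 0)
  set Bu : ℝ := ∑ i, ‖(bas i : L2 N F)‖ with hBu
  have hup := up (tr_of hTr) (fun g a u v => qc_symm g 1 a u v) (c := 1)
    (fun g a u => norm_qc_le g 1 a u) K0 hFree.uniq
    (fun g i => scl N F g (bas i : L2 N F)) (Bu := Bu)
    (fun g i => (norm_scl_le g _).trans (Finset.single_le_sum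
      (f := fun i => ‖(bas i : L2 N F)‖) (fun i _ => norm_nonneg _) (Finset.mem_univ i)))
    (fun g v hg hv hQ hT hU => ?_) (m := k + d) (by
      rw [hK0r, Fintype.card_fin]
      omega)
  · obtain ⟨g₁, hg₁⟩ := eventually_atTop.1 hup
    obtain ⟨g, h0, h1, h2⟩ := hk g₁
    exact hg₁ g h1.le (Lit416.dimGe_iff.1 h2)
  · -- capture
    refine cap_seq hcap ht hg hv hQ (fun χ => ?_) fun ψ hψ => ?_
    · refine (hT χ).congr' ?_
      filter_upwards [hg.eventually (hTr.core χ)] with j hj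
      rw [inner_ιC, coe_Tc hj]
    · -- the zero state in the basis
      have hψ2 : MemLp ψ 2 volume := hψ.1
      set ψL : L2 N F := hψ2.toLp ψ with hψL
      have hmem : ψL ∈ zker b M R G 1 0 := toLp_mem_zker hψ
      have hsum : ψL = ∑ i, (bas.repr ⟨ψL, hmem⟩ i) • (bas i : L2 N F) := by
        have h1 := congrArg Subtype.val (bas.sum_repr ⟨ψL, hmem⟩)
        simp only [Submodule.coe_sum, Submodule.coe_smul] at h1
        exact h1.symm
      have h0 : Tendsto (fun j => ∑ i, (starRingEnd ℂ) (bas.repr ⟨ψL, hmem⟩ i) *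
          ⟪scl N F (g j) (bas i : L2 N F), ιC R (v j)⟫_ℂ) atTop (𝓝 0) := by
        have h1 : Tendsto (fun j => ∑ i, (starRingEnd ℂ) (bas.repr ⟨ψL, hmem⟩ i) *
          ⟪scl N F (g j) (bas i : L2 N F), ιC R (v j)⟫_ℂ) atTop
          (𝓝 (∑ i, (starRingEnd ℂ) (bas.repr ⟨ψL, hmem⟩ i) * 0)) :=
          tendsto_finsetSum _ fun i _ => (hU i).const_mul _
        simpa using h1
      refine h0.congr' ?_
      filter_upwards [hg.eventually_gt_atTop 0] with j hj
      have hl : 0 < g j ^ ((1 : ℝ) / 3) := Real.rpow_pos_of_pos hj _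
      have h2 : ∫ x, ⟪Us (g j ^ ((1 : ℝ) / 3)) ψ x, (v j).1 x⟫_ℂ =
          ⟪UsLp N F _ hl ψL, ιC R (v j)⟫_ℂ := by
        rw [hψL, UsLp_toLp hl hψ2, ιC_apply, inner_toLp]
      rw [h2]
      conv_rhs => rw [hsum]
      rw [map_sum, sum_inner]
      refine Finset.sum_congr rfl fun i _ => ?_
      rw [map_smul, inner_smul_left, scl_pos hj]

end up

/-- **Literal D-up.** -/
theorem dUp_of {N : ℕ} (hT : TrialAll N) (hTi : TightAll N) : Sec478.DUp N := by
  intro F _ _ _ _ b M R G k hk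
  obtain ⟨L, _, _, _, X, _, _, e, D, T, K0, -, hsep, hTr, hFree, hCap⟩ := hT F b M R G
  exact dUp_data hsep hTr hFree hCap (hTi F b M R G) hk

end Crest.Agent.R330.StrongTop796

end
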