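import Crest.Agent.R330.TrialSum_879
import Crest.Agent.R330.StrongTop_796
import Crest.Agent.R330.Close_478

/-!
# Row 330, closing of sections 8 - 11 (helper441)

Everything above `Below N → ChanAll N` : the fields `ann`, `dup`, `dlow` of `Close478.StepIn`.

* `BallAll N` : capture on balls from capture on annuli, for all data.
* `trialAll_of` : `SysAll N → BallAll N → TrialAll N`.
* `Top N` : the fields `ann`, `dup`, `dlow`; `top_of`.
-/

set_option autoImplicit false

open MeasureTheory Filter Topology Crest.MathPhysics.MatrixQM
open scoped ContDiff InnerProductSpace ENNReal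

noncomputable section

namespace Crest.Agent.R330.S9Top441

open Crest.Agent.R330.Defs478 Crest.Agent.R330.Top478 Crest.Agent.R330.Sec478
  Crest.Agent.R330.SInd478 Crest.Agent.R330.Close478 Crest.Agent.R330.TrialSys796
  Crest.Agent.R330.Chan441

/-- Capture on balls from capture on annuli, for all data. -/
def BallAll (N : ℕ) : Prop :=
  ∀ (F : Type) [NormedAddCommGroup F] [InnerProductSpace ℂ F] [FiniteDimensional ℂ F]
    [Nontrivial F] (b : ColorBasis N) (M : FermionRep N F) (R : GaugeAction b M) (G : GammaNine)
    (X : Type) (T : ℝ → X → Cfg N → F), CapAnn b M R G 1 T → CapBall b M R G T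

/-- Trial systems with capture on balls. -/
theorem trialAll_of {N : ℕ} (hS : SysAll N) (hB : BallAll N) : TrialAll N := by
  intro F _ _ _ _ b M R G
  obtain ⟨L, i1, i2, i3, X, j1, j2, e, D, W, T, K0, hL, hC, -, h1⟩ := hS F b M R G
  exact ⟨L, i1, i2, i3, X, j1, j2, e, D 1, T, K0, hL.dense, hL.sep, hC.isTrial, hL.free,
    hB F b M R G X T h1⟩

/-- The fields of `StepIn` which come from sections 8 - 11. -/
structure Top (N : ℕ) : Prop where
  ann : Below N → AnnHIAll N
  dup : Below N → DUp N
  dlow : Below N → DLow N

/-- **The closing**: from the channels, with the four theorems above them as arguments. -/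
theorem top_of {N : ℕ} (hch : Below N → ChanAll N) (hA : SysAll N → AnnHIAll N)
    (hB : HIAll N → BallAll N) (hup : TrialAll N → DUp N) (hlow : TrialAll N → DLow N) :
    Top N := by
  have hS : Below N → SysAll N := fun h => TrialSum879.sysAll_of (hch h)
  have hT : Below N → TrialAll N := fun h =>
    trialAll_of (hS h) (hB (hiAll_of_ann (hA (hS h))))
  exact ⟨fun h => hA (hS h), fun h => hup (hT h), fun h => hlow (hT h)⟩

/-- With 796's D-up. -/
theorem top_of' {N : ℕ} (hch : Below N → ChanAll N) (hA : SysAll N → AnnHIAll N)
    (hB : HIAll N → BallAll N) (hT : TightAll N) (hlow : TrialAll N → DLow N) : Top N :=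
  top_of hch hA hB (fun h => StrongTop796.dUp_of h hT) hlow

end Crest.Agent.R330.S9Top441

end
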