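import Mathlib
import Crest.Prelude.Def_MatrixModel
import Crest.Agent.R330.SCoerB_186
import Crest.Agent.R330.Graph_726

/-!
Row 330, S13.COER, part 4: the literal output on the graph space `Dg` of `Graph_726`:
`∫|x||J v|² ≤ ‖W v‖²` for all `v ∈ Dg` whose first component satisfies the weak sector equations
with weight `m ≥ m₀`.
-/

set_option autoImplicit false
set_option linter.unusedSectionVars false

noncomputable section

open MeasureTheory Filter Topology Set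
open scoped ContDiff InnerProductSpace ENNReal

namespace Crest.Agent.R330.SCoer186

open Crest.MathPhysics.MatrixQM Crest.Agent.R330.Bar186 Crest.Agent.R330.SJop186
open Crest.Agent.R330.SDefs726 (vf rot KP KM vf_add vf_sub vf_rot KP_transpose KM_transpose Sp)
open Crest.Agent.R330.Defs478 Crest.Agent.R330.Dict416 Crest.Agent.R330.Graph726

variable {N : ℕ} {F : Type*} [NormedAddCommGroup F] [InnerProductSpace ℂ F]

/-- the spin generator of an antisymmetric matrix is skew -/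
theorem Sp_skew (M : FermionRep N F) (G : GammaNine) {a : Matrix (Fin 9) (Fin 9) ℝ}
    (ha : a.transpose = -a) (v w : F) : ⟪Sp M G a v, w⟫_ℂ = -⟪v, Sp M G a w⟫_ℂ := by
  have e1 : ⟪Sp M G a v, w⟫_ℂ = (1 / 8 : ℂ) * ∑ i : Fin 9, ∑ l : Fin 9, (a l i : ℂ) *
      ∑ A : Fin (N ^ 2 - 1), ∑ α : Fin 16, ∑ β : Fin 16, (((G.γ i * G.γ l) α β : ℝ) : ℂ) *
        ⟪v, M.θ β A (M.θ α A w)⟫_ℂ := by
    have hc : (starRingEnd ℂ) (1 / 8 : ℂ) = 1 / 8 := by
      rw [map_div₀, map_one, map_ofNat]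
    unfold Sp
    simp only [LinearMap.smul_apply, LinearMap.sum_apply, LinearMap.comp_apply, inner_smul_left,
      sum_inner, Complex.conj_ofReal]
    rw [hc]
    refine congrArg (fun z => (1 / 8 : ℂ) * z) ?_
    refine Finset.sum_congr rfl fun i _ => Finset.sum_congr rfl fun l _ => ?_
    refine congrArg (fun z => (a l i : ℂ) * z) ?_
    refine Finset.sum_congr rfl fun A _ => Finset.sum_congr rfl fun α _ =>
      Finset.sum_congr rfl fun β _ => ?_
    rw [M.selfAdjoint α A, M.selfAdjoint β A]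
  have e2 : ⟪v, Sp M G a w⟫_ℂ = (1 / 8 : ℂ) * ∑ i : Fin 9, ∑ l : Fin 9, (a l i : ℂ) *
      ∑ A : Fin (N ^ 2 - 1), ∑ α : Fin 16, ∑ β : Fin 16, (((G.γ i * G.γ l) α β : ℝ) : ℂ) *
        ⟪v, M.θ α A (M.θ β A w)⟫_ℂ := by
    unfold Sp
    simp only [LinearMap.smul_apply, LinearMap.sum_apply, LinearMap.comp_apply, inner_smul_right,
      inner_sum]
  rw [e1, e2, ← mul_neg, ← Finset.sum_neg_distrib]
  refine congrArg (fun z => (1 / 8 : ℂ) * z) ?_
  rw [Finset.sum_comm]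
  refine Finset.sum_congr rfl fun i _ => ?_
  rw [← Finset.sum_neg_distrib]
  refine Finset.sum_congr rfl fun l _ => ?_
  have hal : a i l = -a l i := anti_of ha i l
  rw [hal, Complex.ofReal_neg, neg_mul]
  refine congrArg (fun z => -((a l i : ℂ) * z)) ?_
  refine Finset.sum_congr rfl fun A _ => ?_
  rw [Finset.sum_comm]
  refine Finset.sum_congr rfl fun α _ => Finset.sum_congr rfl fun β _ => ?_
  have h1 : (G.γ l * G.γ i) β α = (G.γ i * G.γ l) α β := by
    have h2 : (G.γ l * G.γ i) β α = (G.γ l * G.γ i).transpose α β := rfl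
    rw [h2, Matrix.transpose_mul, G.symm, G.symm]
  rw [h1]

variable [FiniteDimensional ℂ F]

theorem q_eq_qf (b : ColorBasis N) (M : FermionRep N F) (G : GammaNine) (ψ : Cfg N → F) :
    q b M G ψ = qf b M G 1 0 ψ := by
  unfold q qf
  simp only [dcharge_one_zero]

variable {b : ColorBasis N} {M : FermionRep N F} {R : GaugeAction b M}

theorem core_Ts (φ : core b R) : Ts φ.1 := ⟨φ.2.1, φ.2.2.1⟩

theorem q_eq_norm (G : GammaNine) (φ : core b R) :
    q b M G φ.1 = ‖Wm N F (gmap R G φ)‖ ^ 2 := by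
  rw [Wm_gmap, norm_smul, mul_pow, norm_QC_sq, q_eq_qf]
  norm_num
  ring

/-- the three facts about an approximating sequence of a vector of the closed graph -/
theorem seq_facts {G : GammaNine} {v : HG N F} {φ : ℕ → core b R}
    (h : Tendsto (fun n => gmap R G (φ n)) atTop (𝓝 v)) :
    Tendsto (fun n => n2 ((φ n).1 - (Jm N F v : Cfg N → F))) atTop (𝓝 0) ∧
      QCauchy b M G (fun n => (φ n).1) ∧
      Tendsto (fun n => q b M G (φ n).1) atTop (𝓝 (‖Wm N F v‖ ^ 2)) := by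
  refine ⟨?_, ?_, ?_⟩
  · have h1 : Tendsto (fun n => ιC R (φ n)) atTop (𝓝 (Jm N F v)) :=
      ((Jm N F).continuous.tendsto v).comp h
    have h2 : Tendsto (fun n => ‖ιC R (φ n) - Jm N F v‖ ^ 2) atTop (𝓝 0) := by
      have := (tendsto_iff_norm_sub_tendsto_zero.1 h1).pow 2
      simpa using this
    refine h2.congr fun n => ?_
    have h3 := norm_ιC_sub_sq (φ n) (Lp.memLp (Jm N F v))
    rw [Lp.toLp_coeFn] at h3
    rw [h3]
    rfl
  · intro ε hε
    have hc := h.cauchySeq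
    rw [Metric.cauchySeq_iff] at hc
    obtain ⟨n₀, hn₀⟩ := hc (Real.sqrt ε) (Real.sqrt_pos.2 hε)
    refine ⟨n₀, fun n hn k hk => ?_⟩
    have h1 : (fun n => (φ n).1) n - (fun n => (φ n).1) k = (φ n - φ k : core b R).1 := rfl
    rw [h1, q_eq_norm, map_sub, map_sub]
    have h2 := hn₀ n hn k hk
    rw [dist_eq_norm] at h2
    have h3 := norm_sq_HG (gmap R G (φ n) - gmap R G (φ k))
    rw [map_sub, map_sub] at h3
    have h4 : ‖gmap R G (φ n) - gmap R G (φ k)‖ ^ 2 < ε := by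
      calc _ < Real.sqrt ε ^ 2 := by gcongr
        _ = ε := Real.sq_sqrt hε.le
    nlinarith [sq_nonneg ‖Jm N F (gmap R G (φ n)) - Jm N F (gmap R G (φ k))‖]
  · have h1 : Tendsto (fun n => ‖Wm N F (gmap R G (φ n))‖ ^ 2) atTop (𝓝 (‖Wm N F v‖ ^ 2)) :=
      ((((Wm N F).continuous.norm).pow 2).tendsto v).comp h
    exact h1.congr fun n => (q_eq_norm G (φ n)).symm

/-- **S13.COER**, literal on the graph space (`N = 2`) -/
theorem coer_graph {b : ColorBasis 2} {M : FermionRep 2 F} {R : GaugeAction b M} {G : GammaNine}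
    {C : ℝ} (hC : 0 ≤ C) (hE : EnergyLB b M G C) :
    ∃ m₀ : ℝ, 0 ≤ m₀ ∧ ∀ m : ℝ, m₀ ≤ |m| → ∀ v ∈ Dg R G,
      Weak KP (shf (Sp M G KP) m) (Jm 2 F v : Cfg 2 → F) →
      (∀ k, Weak (KM k) (Sp M G (KM k)) (Jm 2 F v : Cfg 2 → F)) →
      Integrable (fun x => ‖x‖ * ‖(Jm 2 F v : Cfg 2 → F) x‖ ^ 2) volume ∧
        ∫ x, ‖x‖ * ‖(Jm 2 F v : Cfg 2 → F) x‖ ^ 2 ≤ ‖Wm 2 F v‖ ^ 2 := by
  obtain ⟨c0, hc0, hP⟩ := exists_lin_le (Sp M G KP)
  choose ck hck hM using fun k => exists_lin_le (Sp M G (KM k))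
  set c := c0 + ∑ k, ck k with hc
  have hsum : 0 ≤ ∑ k, ck k := Finset.sum_nonneg fun k _ => hck k
  have hP' : ∀ v, ‖Sp M G KP v‖ ≤ c * ‖v‖ := fun v =>
    (hP v).trans (mul_le_mul_of_nonneg_right (by linarith) (norm_nonneg _))
  have hM' : ∀ k v, ‖Sp M G (KM k) v‖ ≤ c * ‖v‖ := fun k v =>
    (hM k v).trans (mul_le_mul_of_nonneg_right (by
      have := Finset.single_le_sum (f := ck) (fun k _ => hck k) (Finset.mem_univ k)
      linarith) (norm_nonneg _))
  refine ⟨4 * c + 16 * (C + 1), by positivity, fun m hm v hv hwP hwM => ?_⟩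
  obtain ⟨φ, hφ⟩ := exists_seq hv
  obtain ⟨h1, h2, h3⟩ := seq_facts hφ
  exact coer hC hE hP' hM' (fun v w => Sp_skew M G KP_transpose v w)
    (fun k v w => Sp_skew M G (KM_transpose k) v w) hm (fun n => core_Ts (φ n))
    (Lp.memLp _) h1 h2 h3 hwP hwM

end Crest.Agent.R330.SCoer186
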