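import Mathlib
import Crest.Agent.R330.SFin_726
import Crest.Agent.R330.Sym3_613

/-!
# Row 330, S13.LIFT: the symmetries on `L²` and on the core (helper726)
-/

set_option autoImplicit false
set_option linter.unusedSectionVars false

open MeasureTheory Filter Topology Crest.MathPhysics.MatrixQM
open scoped ContDiff InnerProductSpace ENNReal

noncomputable section

namespace Crest.Agent.R330.SLift726

open Crest.Agent.R330.Defs478 Crest.Agent.R330.Dict416 Crest.Agent.R330.SDefs726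
open Crest.Agent.R330.Sym613 Crest.Agent.R330.SFin726

variable {N : ℕ} {F : Type*} [NormedAddCommGroup F] [InnerProductSpace ℂ F]
  [FiniteDimensional ℂ F]

section L2map

variable (M : FermionRep N F) (G : GammaNine) (a : Matrix (Fin 9) (Fin 9) ℝ)
  (ha : a.transpose = -a)

/-- the symmetry on `L²` as a function -/
def u0 (t : ℝ) (f : L2 N F) : L2 N F :=
  (memLp_U (M := M) (G := G) ha t (Lp.memLp f)).toLp (U M G a t f)

variable {M G a}

theorem u0_toLp (t : ℝ) {f : Cfg N → F} (hf : MemLp f 2 volume) :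
    u0 M G a ha t (hf.toLp f) = (memLp_U (M := M) (G := G) ha t hf).toLp (U M G a t f) := by
  unfold u0
  exact MemLp.toLp_congr _ _ (U_congr_ae ha t hf.coeFn_toLp)

theorem u0_ae (t : ℝ) (f : L2 N F) :
    (u0 M G a ha t f : Cfg N → F) =ᵐ[volume] U M G a t f := MemLp.coeFn_toLp _

theorem u0_add (t : ℝ) (f g : L2 N F) :
    u0 M G a ha t (f + g) = u0 M G a ha t f + u0 M G a ha t g := by
  unfold u0
  rw [← MemLp.toLp_add]
  refine MemLp.toLp_congr _ _ ?_
  rw [← U_add_fun]
  exact U_congr_ae ha t (Lp.coeFn_add f g)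

theorem u0_smul (t : ℝ) (c : ℂ) (f : L2 N F) :
    u0 M G a ha t (c • f) = c • u0 M G a ha t f := by
  unfold u0
  rw [← MemLp.toLp_const_smul]
  refine MemLp.toLp_congr _ _ ?_
  rw [← U_smul_fun]
  exact U_congr_ae ha t (Lp.coeFn_smul c f)

theorem u0_norm (t : ℝ) (f : L2 N F) : ‖u0 M G a ha t f‖ = ‖f‖ := by
  unfold u0
  rw [Lp.norm_toLp, eLpNorm_U ha t (Lp.memLp f).1]
  rfl

theorem u0_u0 (s t : ℝ) (f : L2 N F) :
    u0 M G a ha s (u0 M G a ha t f) = u0 M G a ha (s + t) f := by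
  conv_lhs => rw [u0.eq_def M G a ha t f]
  rw [u0_toLp]
  unfold u0
  congr 1
  rw [U_add]

theorem u0_zero (f : L2 N F) : u0 M G a ha 0 f = f := by
  unfold u0
  simp only [U_zero, Lp.toLp_coeFn]

variable (M G a)

/-- **the symmetry on `L²`** -/
def uL (t : ℝ) : L2 N F ≃ₗᵢ[ℂ] L2 N F where
  toFun := u0 M G a ha t
  invFun := u0 M G a ha (-t)
  map_add' := u0_add ha t
  map_smul' := u0_smul ha t
  left_inv := fun f => by rw [u0_u0, neg_add_cancel, u0_zero]
  right_inv := fun f => by rw [u0_u0, add_neg_cancel, u0_zero]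
  norm_map' := u0_norm ha t

variable {M G a}

theorem uL_apply (t : ℝ) (f : L2 N F) : uL M G a ha t f = u0 M G a ha t f := rfl

theorem uL_symm_apply (t : ℝ) (f : L2 N F) :
    (uL M G a ha t).symm f = uL M G a ha (-t) f := rfl

theorem uL_ae (t : ℝ) (f : L2 N F) :
    (uL M G a ha t f : Cfg N → F) =ᵐ[volume] U M G a t f := u0_ae ha t f

theorem uL_toLp (t : ℝ) {f : Cfg N → F} (hf : MemLp f 2 volume) :
    uL M G a ha t (hf.toLp f) = (memLp_U (M := M) (G := G) ha t hf).toLp (U M G a t f) :=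
  u0_toLp ha t hf

end L2map

section coremap

variable {b : ColorBasis N} {M : FermionRep N F} (R : GaugeAction b M) (G : GammaNine)
  (a : Matrix (Fin 9) (Fin 9) ℝ) (ha : a.transpose = -a)

/-- **the symmetry on the core** -/
def UC (t : ℝ) : core b R →ₗ[ℂ] core b R where
  toFun φ := ⟨U M G a t φ.1, core_U ha t φ.2⟩
  map_add' φ ψ := Subtype.ext (U_add_fun t φ.1 ψ.1)
  map_smul' c φ := Subtype.ext (U_smul_fun t c φ.1)

variable {R G a}

theorem UC_coe (t : ℝ) (φ : core b R) : (UC R G a ha t φ).1 = U M G a t φ.1 := rfl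

theorem ιC_UC (t : ℝ) (φ : core b R) : ιC R (UC R G a ha t φ) = uL M G a ha t (ιC R φ) := by
  rw [ιC_apply, ιC_apply, uL_toLp]
  rfl

theorem ιC_UC_symm (t : ℝ) (φ : core b R) :
    ιC R (UC R G a ha (-t) φ) = (uL M G a ha t).symm (ιC R φ) := by
  rw [uL_symm_apply, ιC_UC]

/-- an orthogonal matrix preserves the sum of the squares -/
theorem orth_sum {s : Matrix (Fin 16) (Fin 16) ℝ} (hs : s.transpose * s = 1) (v : Fin 16 → F) :
    ∑ α, ‖∑ β, ((s α β : ℝ) : ℂ) • v β‖ ^ 2 = ∑ β, ‖v β‖ ^ 2 := by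
  have key : ∑ α, ⟪∑ β, ((s α β : ℝ) : ℂ) • v β, ∑ β, ((s α β : ℝ) : ℂ) • v β⟫_ℂ =
      ∑ β, ⟪v β, v β⟫_ℂ := by
    have e1 : ∀ β γ, ∑ α, s α β * s α γ = if β = γ then 1 else 0 := by
      intro β γ
      have h := congrFun (congrFun hs β) γ
      rw [Matrix.mul_apply, Matrix.one_apply] at h
      simpa only [Matrix.transpose_apply] using h
    calc ∑ α, ⟪∑ β, ((s α β : ℝ) : ℂ) • v β, ∑ β, ((s α β : ℝ) : ℂ) • v β⟫_ℂ
        = ∑ α, ∑ β, ∑ γ, ((s α β * s α γ : ℝ) : ℂ) * ⟪v β, v γ⟫_ℂ := by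
          refine Finset.sum_congr rfl fun α _ => ?_
          rw [sum_inner]
          refine Finset.sum_congr rfl fun β _ => ?_
          rw [inner_sum]
          refine Finset.sum_congr rfl fun γ _ => ?_
          rw [inner_smul_left, inner_smul_right, Complex.conj_ofReal]
          push_cast
          ring
      _ = ∑ β, ∑ γ, ((∑ α, s α β * s α γ : ℝ) : ℂ) * ⟪v β, v γ⟫_ℂ := by
          rw [Finset.sum_comm]
          refine Finset.sum_congr rfl fun β _ => ?_
          rw [Finset.sum_comm]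
          refine Finset.sum_congr rfl fun γ _ => ?_
          rw [Complex.ofReal_sum, Finset.sum_mul]
      _ = _ := by
          refine Finset.sum_congr rfl fun β _ => ?_
          simp only [e1]
          rw [Finset.sum_eq_single β]
          · simp
          · intro γ _ hγ
            rw [if_neg (Ne.symm hγ)]
            simp
          · intro h; exact absurd (Finset.mem_univ _) h
  have h2 : ((∑ α, ‖∑ β, ((s α β : ℝ) : ℂ) • v β‖ ^ 2 : ℝ) : ℂ) =
      ((∑ β, ‖v β‖ ^ 2 : ℝ) : ℂ) := by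
    push_cast
    simp only [inner_self_eq_norm_sq_to_K] at key
    exact key
  exact_mod_cast h2

/-- the form is invariant -/
theorem q_U (ha : a.transpose = -a) (t : ℝ) {φ : Cfg N → F} (hφ : SCoer186.Ts φ) :
    SCoer186.q b M G (U M G a t φ) = SCoer186.q b M G φ := by
  unfold SCoer186.q
  congr 1
  have hi : ∀ α, Integrable (fun x => ‖supercharge b M G α φ x‖ ^ 2) volume := fun α => by
    have h := IBP837.memLp_supercharge (b := b) (M := M) (G := G) (α := α) (p := 2)
      (hφ.1.of_le (by simp)) hφ.2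
    exact (memLp_two_iff_integrable_sq_norm h.1).1 h
  have hU : SCoer186.Ts (U M G a t φ) := ⟨contDiff_U t hφ.1, hasCompactSupport_U ha t hφ.2⟩
  have hi' : ∀ α, Integrable (fun x => ‖supercharge b M G α (U M G a t φ) x‖ ^ 2) volume :=
    fun α => by
      have h := IBP837.memLp_supercharge (b := b) (M := M) (G := G) (α := α) (p := 2)
        (hU.1.of_le (by simp)) hU.2
      exact (memLp_two_iff_integrable_sq_norm h.1).1 h
  rw [← integral_finsetSum _ fun α _ => hi' α, ← integral_finsetSum _ fun α _ => hi α]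
  have hpt : ∀ x, ∑ α, ‖supercharge b M G α (U M G a t φ) x‖ ^ 2 =
      (fun y => ∑ α, ‖supercharge b M G α φ y‖ ^ 2) (vfE a ha t x) := by
    intro x
    simp only [supercharge_U ha t _ (hφ.1.differentiable (by simp))]
    rw [orth_sum (ss_orth ha t)]
    simp only [norm_U ha]
    rfl
  simp only [hpt]
  exact (vfE (N := N) a ha t).measurePreserving.integral_comp
    (vfE (N := N) a ha t).toHomeomorph.measurableEmbedding
    (fun y => ∑ α, ‖supercharge b M G α φ y‖ ^ 2)

theorem norm_Qh_UC (t : ℝ) (φ : core b R) : ‖Qh R G (UC R G a ha t φ)‖ = ‖Qh R G φ‖ := by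
  have h : ‖Qh R G (UC R G a ha t φ)‖ ^ 2 = ‖Qh R G φ‖ ^ 2 := by
    rw [norm_Qh_sq, norm_Qh_sq, UC_coe, q_U ha t ⟨φ.2.1, φ.2.2.1⟩]
  exact (sq_eq_sq₀ (norm_nonneg _) (norm_nonneg _)).1 h

end coremap

end Crest.Agent.R330.SLift726

end
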