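import Crest.Agent.R330.SecN2_383
import Crest.Agent.R330.SDefs_726

/-!
# Row 330, S0513 (helper383), part 3: the sectors of large weight are infinite dimensional

* `wf` : the gauge invariant function `h` of weight `2`.
* `secInf` : `SecInf b M R G` for two colours.
-/

set_option autoImplicit false
set_option linter.unusedSectionVars false

open Matrix Finset MeasureTheory
open Crest.MathPhysics.MatrixQM
open scoped InnerProductSpace ComplexConjugate ContDiff

namespace Crest.Agent.R330.SecN383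

open Crest.Agent.R330.SDefs726

noncomputable section

variable {N : ℕ}

/-! ### The weight function -/

/-- Colour inner products of the rows. -/
def dt (x : Cfg N) (i j : Fin 9) : ℝ := ∑ A, x (i, A) * x (j, A)

/-- The two-form `p ∧ q`, `p_i = x_i · x_8`, `q_i = x_i · x_9`. -/
def bf (x : Cfg N) (i j : Fin 9) : ℝ := dt x i 7 * dt x j 8 - dt x j 7 * dt x i 8

/-- The weight function. -/
def wf (x : Cfg N) : ℂ := ((bf x 0 2 - bf x 1 3 : ℝ) : ℂ) + Complex.I * ((bf x 0 3 + bf x 1 2 : ℝ) : ℂ)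

theorem dt_act (b : ColorBasis N) (g : Matrix.specialUnitaryGroup (Fin N) ℂ) (x : Cfg N)
    (i j : Fin 9) : dt (b.act g x) i j = dt x i j := Col962.sum_act_mul b g x x i j

theorem wf_act (b : ColorBasis N) (g : Matrix.specialUnitaryGroup (Fin N) ℂ) (x : Cfg N) :
    wf (b.act g x) = wf x := by
  simp only [wf, bf, dt_act]

theorem dt_smul (r : ℝ) (x : Cfg N) (i j : Fin 9) : dt (r • x) i j = r ^ 2 * dt x i j := by
  simp only [dt, PiLp.smul_apply, smul_eq_mul, Finset.mul_sum]
  exact Finset.sum_congr rfl fun A _ => by ring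

theorem wf_smul (r : ℝ) (x : Cfg N) : wf (r • x) = ((r ^ 4 : ℝ) : ℂ) * wf x := by
  simp only [wf, bf, dt_smul]
  push_cast
  ring

theorem contDiff_coord (k : Fin 9 × Fin (N ^ 2 - 1)) : ContDiff ℝ ∞ (fun x : Cfg N => x k) :=
  (EuclideanSpace.proj k : Cfg N →L[ℝ] ℝ).contDiff

theorem contDiff_dt (i j : Fin 9) : ContDiff ℝ ∞ (fun x : Cfg N => dt x i j) :=
  ContDiff.sum fun A _ => (contDiff_coord (i, A)).mul (contDiff_coord (j, A))

theorem contDiff_bf (i j : Fin 9) : ContDiff ℝ ∞ (fun x : Cfg N => bf x i j) :=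
  ((contDiff_dt i 7).mul (contDiff_dt j 8)).sub ((contDiff_dt j 7).mul (contDiff_dt i 8))

theorem contDiff_wf : ContDiff ℝ ∞ (wf : Cfg N → ℂ) := by
  have h1 : ContDiff ℝ ∞ (fun t : ℝ => (t : ℂ)) := Complex.ofRealCLM.contDiff
  exact (h1.comp ((contDiff_bf 0 2).sub (contDiff_bf 1 3))).add
    (contDiff_const.mul (h1.comp ((contDiff_bf 0 3).add (contDiff_bf 1 2))))

/-! ### The flows -/

theorem exp_deriv (a : Matrix (Fin 9) (Fin 9) ℝ) (i j : Fin 9) (t : ℝ) :
    HasDerivAt (fun s : ℝ => NormedSpace.exp (s • a) i j)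
      ((a * NormedSpace.exp (t • a)) i j) t := by
  let _ : NormedRing (Matrix (Fin 9) (Fin 9) ℝ) := Matrix.linftyOpNormedRing
  let _ : NormedAlgebra ℝ (Matrix (Fin 9) (Fin 9) ℝ) := Matrix.linftyOpNormedAlgebra
  have h1 := hasDerivAt_exp_smul_const' (𝕂 := ℝ) a t
  exact (hasDerivAt_pi.1 ((hasDerivAt_pi.1 h1) i)) j

/-- The flow line. -/
def fl (a : Matrix (Fin 9) (Fin 9) ℝ) (x : Cfg N) (t : ℝ) : Cfg N :=
  vf (NormedSpace.exp (t • a)) x

theorem fl_zero (a : Matrix (Fin 9) (Fin 9) ℝ) (x : Cfg N) : fl a x 0 = x := by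
  unfold fl
  rw [zero_smul, NormedSpace.exp_zero, vf_one]

theorem fl_deriv (a : Matrix (Fin 9) (Fin 9) ℝ) (x : Cfg N) (i : Fin 9)
    (A : Fin (N ^ 2 - 1)) (t : ℝ) :
    HasDerivAt (fun s : ℝ => fl a x s (i, A)) (vf a (fl a x t) (i, A)) t := by
  have h1 : vf a (fl a x t) (i, A) = ∑ j, (a * NormedSpace.exp (t • a)) i j * x (j, A) := by
    unfold fl
    rw [← vf_mul, vf_apply]
  rw [h1]
  have h2 : HasDerivAt (fun s : ℝ => ∑ j, NormedSpace.exp (s • a) i j * x (j, A))
      (∑ j, (a * NormedSpace.exp (t • a)) i j * x (j, A)) t :=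
    HasDerivAt.fun_sum fun j _ => (exp_deriv a i j t).mul_const _
  exact h2

/-- `a` rotates only the first four directions. -/
def Low (a : Matrix (Fin 9) (Fin 9) ℝ) : Prop :=
  ∀ i l : Fin 9, (4 ≤ i.val ∨ 4 ≤ l.val ∨ i = l) → a i l = 0

theorem low_rot {j k : Fin 9} (hj : j.val < 4) (hk : k.val < 4) (hjk : j ≠ k) : Low (rot j k) := by
  intro i l h
  have h1 : ¬(k = i ∧ j = l) := by
    rintro ⟨rfl, rfl⟩
    rcases h with h | h | h
    · omega
    · omega
    · exact hjk h.symm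
  have h2 : ¬(j = i ∧ k = l) := by
    rintro ⟨rfl, rfl⟩
    rcases h with h | h | h
    · omega
    · omega
    · exact hjk h
  simp only [rot, Matrix.sub_apply, Matrix.single_apply, if_neg h1, if_neg h2, sub_zero]

theorem Low.add {a c : Matrix (Fin 9) (Fin 9) ℝ} (ha : Low a) (hc : Low c) : Low (a + c) :=
  fun i l h => by rw [Matrix.add_apply, ha i l h, hc i l h, add_zero]

theorem Low.sub {a c : Matrix (Fin 9) (Fin 9) ℝ} (ha : Low a) (hc : Low c) : Low (a - c) :=
  fun i l h => by rw [Matrix.sub_apply, ha i l h, hc i l h, sub_zero]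

theorem low_KP : Low KP :=
  (low_rot (by decide) (by decide) (by decide)).add (low_rot (by decide) (by decide) (by decide))

theorem low_KM (a : Fin 3) : Low (KM a) := by
  fin_cases a
  · exact (low_rot (by decide) (by decide) (by decide)).sub
      (low_rot (by decide) (by decide) (by decide))
  · exact (low_rot (by decide) (by decide) (by decide)).add
      (low_rot (by decide) (by decide) (by decide))
  · exact (low_rot (by decide) (by decide) (by decide)).sub
      (low_rot (by decide) (by decide) (by decide))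

theorem Low.vf_high {a : Matrix (Fin 9) (Fin 9) ℝ} (ha : Low a) (x : Cfg N) {i : Fin 9}
    (hi : 4 ≤ i.val) (A : Fin (N ^ 2 - 1)) : vf a x (i, A) = 0 := by
  rw [vf_apply]
  exact Finset.sum_eq_zero fun j _ => by rw [ha i j (Or.inl hi), zero_mul]

theorem dt_deriv {a : Matrix (Fin 9) (Fin 9) ℝ} (ha : Low a) (x : Cfg N) (i k : Fin 9)
    (hk : 4 ≤ k.val) (t : ℝ) :
    HasDerivAt (fun s : ℝ => dt (fl a x s) i k)
      (∑ A, vf a (fl a x t) (i, A) * fl a x t (k, A)) t := by
  have h1 : ∀ A, HasDerivAt (fun s : ℝ => fl a x s (i, A) * fl a x s (k, A))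
      (vf a (fl a x t) (i, A) * fl a x t (k, A)) t := by
    intro A
    have h2 := (fl_deriv a x i A t).mul (fl_deriv a x k A t)
    rw [ha.vf_high _ hk, mul_zero, add_zero] at h2
    exact h2
  exact HasDerivAt.fun_sum fun A _ => h1 A

/-- Derivative of `bf` along the flow. -/
theorem bf_deriv {a : Matrix (Fin 9) (Fin 9) ℝ} (ha : Low a) (x : Cfg N) (i j : Fin 9) (t : ℝ) :
    HasDerivAt (fun s : ℝ => bf (fl a x s) i j)
      ((∑ A, vf a (fl a x t) (i, A) * fl a x t (7, A)) * dt (fl a x t) j 8 +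
        dt (fl a x t) i 7 * (∑ A, vf a (fl a x t) (j, A) * fl a x t (8, A)) -
      ((∑ A, vf a (fl a x t) (j, A) * fl a x t (7, A)) * dt (fl a x t) i 8 +
        dt (fl a x t) j 7 * (∑ A, vf a (fl a x t) (i, A) * fl a x t (8, A)))) t :=
  ((dt_deriv ha x i 7 (by decide) t).mul (dt_deriv ha x j 8 (by decide) t)).sub
    ((dt_deriv ha x j 7 (by decide) t).mul (dt_deriv ha x i 8 (by decide) t))

theorem ofReal_deriv {f : ℝ → ℝ} {f' t : ℝ} (h : HasDerivAt f f' t) :
    HasDerivAt (fun s => (f s : ℂ)) (f' : ℂ) t := h.ofReal_comp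

theorem row_rot (j k : Fin 9) (y : Cfg N) (i l : Fin 9) :
    ∑ A, vf (rot j k) y (i, A) * y (l, A) =
      (if i = k then dt y j l else 0) - (if i = j then dt y k l else 0) := by
  simp only [vf_rot, sub_mul, Finset.sum_sub_distrib, dt]
  congr 1
  · split_ifs <;> simp
  · split_ifs <;> simp

theorem row_add (a c : Matrix (Fin 9) (Fin 9) ℝ) (y : Cfg N) (i l : Fin 9) :
    ∑ A, vf (a + c) y (i, A) * y (l, A) =
      ∑ A, vf a y (i, A) * y (l, A) + ∑ A, vf c y (i, A) * y (l, A) := by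
  rw [← Finset.sum_add_distrib]
  refine Finset.sum_congr rfl fun A _ => ?_
  rw [vf_add, PiLp.add_apply, add_mul]

theorem row_sub (a c : Matrix (Fin 9) (Fin 9) ℝ) (y : Cfg N) (i l : Fin 9) :
    ∑ A, vf (a - c) y (i, A) * y (l, A) =
      ∑ A, vf a y (i, A) * y (l, A) - ∑ A, vf c y (i, A) * y (l, A) := by
  rw [← Finset.sum_sub_distrib]
  refine Finset.sum_congr rfl fun A _ => ?_
  rw [vf_sub, PiLp.sub_apply, sub_mul]

/-- **Weight `2` under `KP`.** -/
theorem wf_deriv_KP (x : Cfg N) (t : ℝ) :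
    HasDerivAt (fun s : ℝ => wf (fl KP x s)) (2 * Complex.I * wf (fl KP x t)) t := by
  have h1 := ofReal_deriv ((bf_deriv low_KP x 0 2 t).sub (bf_deriv low_KP x 1 3 t))
  have h2 := ofReal_deriv ((bf_deriv low_KP x 0 3 t).add (bf_deriv low_KP x 1 2 t))
  have h3 := h1.add (h2.const_mul Complex.I)
  refine HasDerivAt.congr_deriv (f := fun s : ℝ => wf (fl KP x s)) h3 ?_
  set y := fl KP x t with hy
  have hr : ∀ i l, ∑ A, vf KP y (i, A) * y (l, A) =
      (if i = 1 then dt y 0 l else 0) - (if i = 0 then dt y 1 l else 0) +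
      ((if i = 3 then dt y 2 l else 0) - (if i = 2 then dt y 3 l else 0)) := by
    intro i l
    rw [KP, row_add, row_rot, row_rot]
  simp only [hr]
  simp (decide := true) only [if_true, if_false]
  unfold wf bf
  push_cast
  linear_combination (-2 * ((dt y 0 7 : ℂ) * dt y 3 8 - dt y 3 7 * dt y 0 8 +
    (dt y 1 7 * dt y 2 8 - dt y 2 7 * dt y 1 8))) * Complex.I_sq

/-- **Weight `0` under the right rotations.** -/
theorem wf_deriv_KM (c : Fin 3) (x : Cfg N) (t : ℝ) :
    HasDerivAt (fun s : ℝ => wf (fl (KM c) x s)) 0 t := by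
  have h1 := ofReal_deriv ((bf_deriv (low_KM c) x 0 2 t).sub (bf_deriv (low_KM c) x 1 3 t))
  have h2 := ofReal_deriv ((bf_deriv (low_KM c) x 0 3 t).add (bf_deriv (low_KM c) x 1 2 t))
  have h3 := h1.add (h2.const_mul Complex.I)
  refine HasDerivAt.congr_deriv (f := fun s : ℝ => wf (fl (KM c) x s)) h3 ?_
  set y := fl (KM c) x t with hy
  fin_cases c
  · have hr : ∀ i l, ∑ A, vf (KM 0) y (i, A) * y (l, A) =
        (if i = 1 then dt y 0 l else 0) - (if i = 0 then dt y 1 l else 0) -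
        ((if i = 3 then dt y 2 l else 0) - (if i = 2 then dt y 3 l else 0)) := by
      intro i l
      rw [KM, row_sub, row_rot, row_rot]
    simp only [Fin.zero_eta, hr]
    simp (decide := true) only [if_true, if_false]
    push_cast
    ring
  · have hr : ∀ i l, ∑ A, vf (KM 1) y (i, A) * y (l, A) =
        (if i = 2 then dt y 0 l else 0) - (if i = 0 then dt y 2 l else 0) +
        ((if i = 3 then dt y 1 l else 0) - (if i = 1 then dt y 3 l else 0)) := by
      intro i l
      rw [KM, row_add, row_rot, row_rot]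
    simp only [Fin.mk_one, hr]
    simp (decide := true) only [if_true, if_false]
    push_cast
    ring
  · have hr : ∀ i l, ∑ A, vf (KM 2) y (i, A) * y (l, A) =
        (if i = 3 then dt y 0 l else 0) - (if i = 0 then dt y 3 l else 0) -
        ((if i = 2 then dt y 1 l else 0) - (if i = 1 then dt y 2 l else 0)) := by
      intro i l
      rw [KM, row_sub, row_rot, row_rot]
    simp only [Fin.reduceFinMk, hr]
    simp (decide := true) only [if_true, if_false]
    push_cast
    ring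

theorem const_of_deriv_zero {E : Type*} [NormedAddCommGroup E] [NormedSpace ℝ E] {f : ℝ → E}
    (h : ∀ t, HasDerivAt f 0 t) (t : ℝ) : f t = f 0 :=
  is_const_of_deriv_eq_zero (fun s => (h s).differentiableAt) (fun s => (h s).deriv) t 0

theorem wf_KM (c : Fin 3) (x : Cfg N) (t : ℝ) :
    wf (vf (NormedSpace.exp (t • KM c)) x) = wf x := by
  have h := const_of_deriv_zero (wf_deriv_KM c x) t
  rw [fl_zero] at h
  exact h

theorem wf_KP (x : Cfg N) (t : ℝ) :
    wf (vf (NormedSpace.exp (t • KP)) x) = Complex.exp (((2 * t : ℝ) : ℂ) * Complex.I) * wf x := by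
  have hd : ∀ t : ℝ, HasDerivAt (fun s : ℝ =>
      Complex.exp (-(((2 * s : ℝ) : ℂ) * Complex.I)) * wf (fl KP x s)) 0 t := by
    intro t
    have h1 : HasDerivAt (fun s : ℝ => ((2 * s : ℝ) : ℂ)) ((2 : ℝ) : ℂ) t :=
      ofReal_deriv (by simpa using (hasDerivAt_id t).const_mul 2)
    have h2 := ((h1.mul_const Complex.I).neg.cexp).mul (wf_deriv_KP x t)
    refine h2.congr_deriv ?_
    push_cast
    ring
  have h := const_of_deriv_zero hd t
  rw [fl_zero, mul_zero, Complex.ofReal_zero, zero_mul, neg_zero, Complex.exp_zero, one_mul] at h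
  rw [← h, ← mul_assoc, ← Complex.exp_add, add_neg_cancel, Complex.exp_zero, one_mul]
  rfl

/-- The norm is constant along the flow. -/
theorem norm_fl {a : Matrix (Fin 9) (Fin 9) ℝ} (ha : a.transpose = -a) (x : Cfg N) (t : ℝ) :
    ‖vf (NormedSpace.exp (t • a)) x‖ = ‖x‖ := by
  have hn : ∀ y : Cfg N, ‖y‖ ^ 2 = ∑ i, ∑ A, y (i, A) ^ 2 := by
    intro y
    rw [EuclideanSpace.norm_sq_eq, Fintype.sum_prod_type]
    exact Finset.sum_congr rfl fun i _ => Finset.sum_congr rfl fun A _ => by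
      rw [Real.norm_eq_abs, sq_abs]
  have haa : ∀ i j, a i j = -a j i := fun i j => by
    have h := congrFun (congrFun ha j) i
    rw [Matrix.transpose_apply, Matrix.neg_apply] at h
    exact h
  have hd : ∀ t : ℝ, HasDerivAt (fun s : ℝ => ∑ i, ∑ A, fl a x s (i, A) ^ 2) 0 t := by
    intro t
    have h1 : HasDerivAt (fun s : ℝ => ∑ i, ∑ A, fl a x s (i, A) ^ 2)
        (∑ i, ∑ A, (2 : ℕ) * fl a x t (i, A) ^ (2 - 1) * vf a (fl a x t) (i, A)) t :=
      HasDerivAt.fun_sum fun i _ => HasDerivAt.fun_sum fun A _ => (fl_deriv a x i A t).pow 2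
    refine h1.congr_deriv ?_
    set y := fl a x t with hy
    have h2 : ∑ i, ∑ A, (2 : ℕ) * y (i, A) ^ (2 - 1) * vf a y (i, A) =
        2 * ∑ i, ∑ j, ∑ A, a i j * y (i, A) * y (j, A) := by
      rw [Finset.mul_sum]
      refine Finset.sum_congr rfl fun i _ => ?_
      rw [Finset.sum_comm, Finset.mul_sum]
      refine Finset.sum_congr rfl fun A _ => ?_
      rw [vf_apply, Finset.mul_sum, Finset.mul_sum]
      refine Finset.sum_congr rfl fun j _ => ?_
      push_cast
      ring
    have h3 : ∑ i, ∑ j, ∑ A, a i j * y (i, A) * y (j, A) =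
        -∑ i, ∑ j, ∑ A, a i j * y (i, A) * y (j, A) := by
      conv_lhs => rw [Finset.sum_comm]
      rw [← Finset.sum_neg_distrib]
      refine Finset.sum_congr rfl fun i _ => ?_
      rw [← Finset.sum_neg_distrib]
      refine Finset.sum_congr rfl fun j _ => ?_
      rw [← Finset.sum_neg_distrib]
      refine Finset.sum_congr rfl fun A _ => ?_
      rw [haa j i]
      ring
    rw [h2]
    linarith
  have h := const_of_deriv_zero hd t
  rw [← hn, ← hn, fl_zero] at h
  exact (pow_left_inj₀ (norm_nonneg _) (norm_nonneg _) two_ne_zero).1 h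

/-! ### The spin part -/

variable {F : Type*} [NormedAddCommGroup F] [InnerProductSpace ℂ F] [FiniteDimensional ℂ F]
  {M : FermionRep N F} {G : GammaNine}

/-- The spin generators of the first four directions kill the vacuum. -/
theorem Sp_vac {v : F} (h : IsVac G M v) {a : Matrix (Fin 9) (Fin 9) ℝ} (ha : Low a) :
    Sp M G a v = 0 := by
  unfold Sp
  simp only [LinearMap.smul_apply, LinearMap.sum_apply, LinearMap.comp_apply]
  rw [Finset.sum_eq_zero, smul_zero]
  intro i _
  refine Finset.sum_eq_zero fun l _ => ?_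
  by_cases hil : 4 ≤ i.val ∨ 4 ≤ l.val ∨ i = l
  · have h0 : a l i = 0 := by
      refine ha l i ?_
      rcases hil with h1 | h1 | h1
      · exact Or.inr (Or.inl h1)
      · exact Or.inl h1
      · exact Or.inr (Or.inr h1.symm)
    rw [h0, Complex.ofReal_zero, zero_smul]
  · rw [not_or, not_or] at hil
    obtain ⟨h1, h2, h3⟩ := hil
    have hne : ∀ (k : Fin 9), ¬ 4 ≤ k.val → k ≠ 4 ∧ k ≠ 5 := by
      intro k hk
      constructor <;> rintro rfl <;> exact hk (by decide)
    have h4 := spin_vac h (i := i) (j := l) (hne i h1).1 (hne i h1).2 (hne l h2).1 (hne l h2).2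
    rw [Gam962.g2_ne G h3] at h4
    rw [h4, smul_zero]

theorem exp_fixed {T : F →L[ℂ] F} {v : F} (h : T v = 0) : NormedSpace.exp T v = v := by
  have h1 := NormedSpace.exp_series_hasSum_exp' (𝕂 := ℂ) T
  have h2 := (ContinuousLinearMap.apply ℂ F v).hasSum h1
  have h3 : HasSum (fun n : ℕ => (ContinuousLinearMap.apply ℂ F v) (((n.factorial : ℂ)⁻¹) • T ^ n)) v := by
    have h4 : ∀ n : ℕ, n ≠ 0 →
        (ContinuousLinearMap.apply ℂ F v) (((n.factorial : ℂ)⁻¹) • T ^ n) = 0 := by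
      intro n hn
      obtain ⟨k, rfl⟩ := Nat.exists_eq_succ_of_ne_zero hn
      show ((((k + 1).factorial : ℂ)⁻¹) • T ^ (k + 1)) v = 0
      rw [_root_.smul_apply, pow_succ, mul_apply_eq_comp, h, map_zero,
        smul_zero]
    have h5 := hasSum_single (f := fun n : ℕ =>
      (ContinuousLinearMap.apply ℂ F v) (((n.factorial : ℂ)⁻¹) • T ^ n)) 0 h4
    have h6 : (ContinuousLinearMap.apply ℂ F v) (((Nat.factorial 0 : ℂ)⁻¹) • T ^ 0) = v := by
      show (((Nat.factorial 0 : ℂ)⁻¹) • T ^ 0) v = v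
      rw [_root_.smul_apply, pow_zero, Nat.factorial_zero, Nat.cast_one, inv_one,
        one_smul]
      rfl
    rw [h6] at h5
    exact h5
  exact h2.unique h3

theorem eS_vac {v : F} (h : IsVac G M v) {a : Matrix (Fin 9) (Fin 9) ℝ} (ha : Low a) (t : ℝ) :
    eS M G a t v = v := by
  unfold eS
  refine exp_fixed ?_
  rw [_root_.smul_apply]
  show (t : ℂ) • Sp M G a v = 0
  rw [Sp_vac h ha, smul_zero]

/-! ### The core vectors -/

/-- A bump on the annulus number `n`. -/
def bump (n : ℕ) : ContDiffBump ((n : ℝ) + 1) := ⟨1 / 4, 1 / 2, by norm_num, by norm_num⟩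

/-- The scalar profile. -/
def pr (m n : ℕ) (x : Cfg N) : ℂ := ((bump n (‖x‖ ^ 2) : ℝ) : ℂ) * wf x ^ m

/-- The core vectors. -/
def cv (m n : ℕ) (v : F) (x : Cfg N) : F := pr m n x • v

theorem bump_zero {n : ℕ} {s : ℝ} (h : (1 : ℝ) / 2 ≤ |s - ((n : ℝ) + 1)|) : bump n s = 0 :=
  (bump n).zero_of_le_dist (by rw [Real.dist_eq]; exact h)

theorem contDiff_pr (m n : ℕ) : ContDiff ℝ ∞ (pr m n : Cfg N → ℂ) := by
  have h1 : ContDiff ℝ ∞ (fun x : Cfg N => bump n (‖x‖ ^ 2)) :=
    (bump n).contDiff.comp (contDiff_norm_sq ℝ)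
  have h2 : ContDiff ℝ ∞ (fun t : ℝ => (t : ℂ)) := Complex.ofRealCLM.contDiff
  exact (h2.comp h1).mul (contDiff_wf.pow m)

theorem cv_disjoint (m : ℕ) {n k : ℕ} (hnk : n ≠ k) (v : F) (x : Cfg N) :
    cv m n v x = 0 ∨ cv m k v x = 0 := by
  by_cases h : (1 : ℝ) / 2 ≤ |‖x‖ ^ 2 - ((n : ℝ) + 1)|
  · left
    rw [cv, pr, bump_zero h, Complex.ofReal_zero, zero_mul, zero_smul]
  · right
    have h1 : (1 : ℝ) / 2 ≤ |‖x‖ ^ 2 - ((k : ℝ) + 1)| := by
      by_contra h2
      push Not at h h2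
      rw [abs_lt] at h h2
      have h3 : ((n : ℤ) - (k : ℤ) : ℝ) < 1 := by push_cast; linarith [h.1, h2.2]
      have h4 : (-1 : ℝ) < ((n : ℤ) - (k : ℤ) : ℝ) := by push_cast; linarith [h.2, h2.1]
      have h5 : (n : ℤ) - (k : ℤ) < 1 := by exact_mod_cast h3
      have h6 : (-1 : ℤ) < (n : ℤ) - (k : ℤ) := by exact_mod_cast h4
      exact hnk (by omega)
    rw [cv, pr, bump_zero h1, Complex.ofReal_zero, zero_mul, zero_smul]

theorem cv_support (m n : ℕ) (v : F) : HasCompactSupport (cv m n v : Cfg N → F) := by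
  refine HasCompactSupport.intro (isCompact_closedBall (0 : Cfg N) ((n : ℝ) + 2)) fun x hx => ?_
  rw [mem_closedBall_zero_iff, not_le] at hx
  have h1 : (1 : ℝ) / 2 ≤ |‖x‖ ^ 2 - ((n : ℝ) + 1)| := by
    have hn : (0 : ℝ) ≤ n := Nat.cast_nonneg n
    rw [le_abs]
    left
    nlinarith
  rw [cv, pr, bump_zero h1, Complex.ofReal_zero, zero_mul, zero_smul]

theorem cv_U_KP {v : F} (h : IsVac G M v) (m n : ℕ) (t : ℝ) :
    U M G KP t (cv m n v) = Complex.exp ((((2 * m : ℕ) : ℝ) * t : ℝ) * Complex.I) • cv m n v := by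
  funext x
  simp only [U, cv, pr, Pi.smul_apply]
  rw [map_smul, eS_vac h low_KP, norm_fl KP_transpose, wf_KP, smul_smul, mul_pow, ← Complex.exp_nat_mul]
  congr 1
  push_cast
  ring_nf

theorem cv_U_KM {v : F} (h : IsVac G M v) (m n : ℕ) (c : Fin 3) (t : ℝ) :
    U M G (KM c) t (cv m n v) = cv m n v := by
  funext x
  simp only [U, cv, pr]
  rw [map_smul, eS_vac h (low_KM c), norm_fl (KM_transpose c), wf_KM]

/-- A point where the weight function does not vanish. -/
def pt (A B : Fin (N ^ 2 - 1)) : Cfg N :=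
  WithLp.toLp 2 fun k => if k = (7, A) ∨ k = (0, A) then 1 else if k = (8, B) ∨ k = (2, B) then 1 else 0

theorem pt_apply (A B : Fin (N ^ 2 - 1)) (i : Fin 9) (C : Fin (N ^ 2 - 1)) :
    pt A B (i, C) = if (i = 7 ∨ i = 0) ∧ C = A then 1 else if (i = 8 ∨ i = 2) ∧ C = B then 1 else 0 := by
  unfold pt
  simp only [Prod.mk.injEq]
  congr 1
  · rw [or_and_right]
  · congr 1
    rw [or_and_right]

theorem wf_pt {A B : Fin (N ^ 2 - 1)} (hAB : A ≠ B) : wf (pt A B) = 1 := by
  have hd : ∀ i j : Fin 9, dt (pt A B) i j =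
      (if (i = 7 ∨ i = 0) ∧ (j = 7 ∨ j = 0) then 1 else 0) +
      (if (i = 8 ∨ i = 2) ∧ (j = 8 ∨ j = 2) then 1 else 0) := by
    intro i j
    unfold dt
    have h1 : ∀ C, pt A B (i, C) * pt A B (j, C) =
        (if C = A then (if (i = 7 ∨ i = 0) ∧ (j = 7 ∨ j = 0) then 1 else 0) else 0) +
        (if C = B then (if (i = 8 ∨ i = 2) ∧ (j = 8 ∨ j = 2) then 1 else 0) else 0) := by
      intro C
      rw [pt_apply, pt_apply]
      by_cases hA : C = A
      · subst hA
        simp only [hAB, and_false, if_false, and_true, if_true]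
        by_cases hi : i = 7 ∨ i = 0 <;> by_cases hj : j = 7 ∨ j = 0 <;> simp [hi, hj]
      · by_cases hB : C = B
        · subst hB
          simp only [hA, and_false, if_false, and_true, if_true]
          by_cases hi : i = 8 ∨ i = 2 <;> by_cases hj : j = 8 ∨ j = 2 <;> simp [hi, hj]
        · simp [hA, hB]
    rw [Finset.sum_congr rfl fun C _ => h1 C, Finset.sum_add_distrib]
    simp
  unfold wf bf
  simp only [hd]
  simp (decide := true)

theorem wf_exists {A B : Fin (N ^ 2 - 1)} (hAB : A ≠ B) {s : ℝ} (hs : 0 < s) :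
    ∃ x : Cfg N, ‖x‖ ^ 2 = s ∧ wf x ≠ 0 := by
  have h0 : pt A B ≠ 0 := by
    intro h
    have h1 := wf_pt hAB
    rw [h] at h1
    have h2 : wf (0 : Cfg N) = 0 := by
      have h3 := wf_smul 0 (0 : Cfg N)
      rw [zero_smul] at h3
      rw [h3]
      simp
    rw [h2] at h1
    exact zero_ne_one h1
  have hp : 0 < ‖pt A B‖ := norm_pos_iff.2 h0
  set r : ℝ := Real.sqrt s / ‖pt A B‖ with hr
  have hr0 : 0 < r := div_pos (Real.sqrt_pos.2 hs) hp
  refine ⟨r • pt A B, ?_, ?_⟩
  · rw [norm_smul, Real.norm_eq_abs, abs_of_pos hr0, hr, div_mul_cancel₀ _ hp.ne',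
      Real.sq_sqrt hs.le]
  · rw [wf_smul, wf_pt hAB, mul_one]
    exact_mod_cast (pow_pos hr0 4).ne'

/-- **The sectors of large weight are infinite dimensional** (two colours). -/
theorem secInf [Nontrivial F] (b : ColorBasis 2) (M : FermionRep 2 F) (R : GaugeAction b M)
    (G : GammaNine) : SecInf b M R G := by
  obtain ⟨v, hv, h⟩ := exists_vac G M
  intro m₀
  obtain ⟨m, hm⟩ := exists_nat_ge m₀
  refine ⟨((2 * m : ℕ) : ℝ), ?_, fun n => cv m n v, fun n => ⟨?_, cv_support m n v, ?_⟩,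
    fun n => ⟨cv_U_KM h m n, cv_U_KP h m n⟩, fun n h0 => ?_, fun n k hnk x => cv_disjoint m hnk v x⟩
  · have : (m : ℝ) ≤ ((2 * m : ℕ) : ℝ) := by exact_mod_cast (by omega : m ≤ 2 * m)
    exact hm.trans this
  · exact (contDiff_pr m n).smul contDiff_const
  · intro g x
    simp only [cv, pr]
    rw [map_smul, IsVac.rho R h g, wf_act, Col962.norm_act]
  · obtain ⟨x, hx, hw⟩ := wf_exists (N := 2) (A := ⟨0, by decide⟩) (B := ⟨1, by decide⟩)
      (by decide) (s := (n : ℝ) + 1) (by positivity)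
    have h1 := congrFun h0 x
    simp only [cv, pr, Pi.zero_apply, hx] at h1
    rw [(bump n).one_of_mem_closedBall (Metric.mem_closedBall_self (bump n).rIn_pos.le)] at h1
    rcases smul_eq_zero.1 h1 with h2 | h2
    · rw [Complex.ofReal_one, one_mul] at h2
      exact pow_ne_zero m hw h2
    · exact hv h2

end

end Crest.Agent.R330.SecN383
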