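import Mathlib
import Crest.Agent.R330.SLift_726
import Crest.Agent.R330.SecN3_383

/-!
# Row 330, S0513: assembly (helper726)
-/

set_option autoImplicit false
set_option linter.unusedSectionVars false

open MeasureTheory Filter Topology Crest.MathPhysics.MatrixQM
open scoped ContDiff InnerProductSpace ENNReal

noncomputable section

namespace Crest.Agent.R330.SMain726

open Crest.Agent.R330.Defs478 Crest.Agent.R330.Dict416 Crest.Agent.R330.SDefs726
open Crest.Agent.R330.Sym613 Crest.Agent.R330.SFin726 Crest.Agent.R330.SLift726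
open Crest.Agent.R330.Graph893

variable {N : ℕ} {F : Type*} [NormedAddCommGroup F] [InnerProductSpace ℂ F]
  [FiniteDimensional ℂ F]

/-- the index set of the symmetries -/
abbrev Ix := (Fin 3 × ℝ) ⊕ ℝ

/-- the symmetries of `L²` -/
def us (M : FermionRep N F) (G : GammaNine) : Ix → (L2 N F ≃ₗᵢ[ℂ] L2 N F)
  | Sum.inl p => uL M G (KM p.1) (KM_transpose p.1) p.2
  | Sum.inr t => uL M G KP KP_transpose t

/-- the characters -/
def cs (m : ℝ) : Ix → ℂ
  | Sum.inl _ => 1
  | Sum.inr t => Complex.exp ((m * t : ℝ) * Complex.I)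

/-- the symmetries of the core -/
def Us {b : ColorBasis N} {M : FermionRep N F} (R : GaugeAction b M) (G : GammaNine) :
    Ix → (core b R →ₗ[ℂ] core b R)
  | Sum.inl p => UC R G (KM p.1) (KM_transpose p.1) p.2
  | Sum.inr t => UC R G KP KP_transpose t

/-- the inverse symmetries of the core -/
def Ui {b : ColorBasis N} {M : FermionRep N F} (R : GaugeAction b M) (G : GammaNine) :
    Ix → (core b R →ₗ[ℂ] core b R)
  | Sum.inl p => UC R G (KM p.1) (KM_transpose p.1) (-p.2)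
  | Sum.inr t => UC R G KP KP_transpose (-t)

/-- the literal compactness statement on the sector -/
def Cpt {b : ColorBasis N} {M : FermionRep N F} (R : GaugeAction b M) (G : GammaNine)
    (m : ℝ) : Prop :=
  ∀ v : ℕ → Gph (ιC R) (Qh R G), (∀ n, v n ∈ Sct (ιC R) (Qh R G) (us M G) (cs m)) →
    ∀ C : ℝ, (∀ n, ‖v n‖ ≤ C) →
      ∃ k : ℕ → ℕ, StrictMono k ∧ CauchySeq (fun n => JG (ιC R) (Qh R G) (v (k n)))

theorem inner_coe (f g : L2 N F) :
    ∫ x, ⟪(f : Cfg N → F) x, (g : Cfg N → F) x⟫_ℂ = ⟪f, g⟫_ℂ := (L2.inner_def f g).symm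

set_option maxHeartbeats 2000000 in
/-- **S0513 from the compactness statement** -/
theorem main [Nontrivial F] (b : ColorBasis 2) (M : FermionRep 2 F) (R : GaugeAction b M)
    (G : GammaNine) (hcpt : ∃ m₀ : ℝ, ∀ m, m₀ ≤ m → Cpt R G m) :
    ∃ (Ψ : ℕ → Cfg 2 → F) (E : ℕ → ℝ),
      (∀ j k, ∫ x, ⟪Ψ j x, Ψ k x⟫_ℂ = if j = k then (1 : ℂ) else 0) ∧
      (∀ j, 0 < E j) ∧ Tendsto E atTop atTop ∧ ∀ j, IsEigenpair b M R G (E j) (Ψ j) := by
  obtain ⟨m₀, hm₀⟩ := hcpt
  obtain ⟨m, hm, φ, hφc, hφs, hφ0, hφd⟩ := SecN383.secInf b M R G m₀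
  have hsec : ∀ n i, us M G i (ιC R (⟨φ n, hφc n⟩ : core b R)) =
      cs m i • ιC R (⟨φ n, hφc n⟩ : core b R) := by
    rintro n (⟨a, t⟩ | t)
    · show uL M G (KM a) (KM_transpose a) t _ = (1 : ℂ) • _
      rw [← ιC_UC, one_smul]
      congr 1
      exact Subtype.ext ((hφs n).1 a t)
    · show uL M G KP KP_transpose t _ = Complex.exp ((m * t : ℝ) * Complex.I) • _
      rw [← ιC_UC, ← map_smul]
      congr 1
      exact Subtype.ext ((hφs n).2 t)
  obtain ⟨e, E, heS, horth, hpos, -, htend, hweak⟩ := exists_eigen_core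
    (ι := ιC R) (Q := Qh R G) (fun ψ k => closable ψ k) (us M G) (Us R G) (Ui R G)
    (by
      rintro (⟨a, t⟩ | t) ψ
      · exact ιC_UC (KM_transpose a) t ψ
      · exact ιC_UC KP_transpose t ψ)
    (by
      rintro (⟨a, t⟩ | t) ψ
      · exact norm_Qh_UC (KM_transpose a) t ψ
      · exact norm_Qh_UC KP_transpose t ψ)
    (by
      rintro (⟨a, t⟩ | t) ψ
      · exact ιC_UC_symm (KM_transpose a) t ψ
      · exact ιC_UC_symm KP_transpose t ψ)
    (by
      rintro (⟨a, t⟩ | t) ψ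
      · exact norm_Qh_UC (KM_transpose a) (-t) ψ
      · exact norm_Qh_UC KP_transpose (-t) ψ)
    (cs m) (hm₀ m hm) (fun n => ⟨φ n, hφc n⟩) hsec (indep hφ0 hφd)
  refine ⟨fun j => (JG (ιC R) (Qh R G) (e j) : Cfg 2 → F), E, ?_, hpos, htend, fun j => ?_⟩
  · intro j k
    exact (inner_coe (JG (ιC R) (Qh R G) (e j)) (JG (ιC R) (Qh R G) (e k))).trans (horth j k)
  · refine isEigenpair_of (Lp.memLp _) (v := e j) ?_ ?_
    · rw [Lp.toLp_coeFn]
    · intro ψ
      exact hweak j (gv (ιC R) (Qh R G) ψ)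

end Crest.Agent.R330.SMain726

end
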