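import Crest.Agent.R330.Cpt13b_893
import Crest.Agent.R330.SMain_726

/-!
# Row 330, S0513: the compactness statement of `SMain726.main` (helper893)
-/

set_option autoImplicit false

open MeasureTheory Filter Topology Crest.MathPhysics.MatrixQM
open scoped ContDiff InnerProductSpace ENNReal

noncomputable section

namespace Crest.Agent.R330.SFinal893

open Crest.Agent.R330.Dict416 Crest.Agent.R330.SDefs726 Crest.Agent.R330.SMain726
open Crest.Agent.R330.SLift726 Crest.Agent.R330.Cpt893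

variable {F : Type*} [NormedAddCommGroup F] [InnerProductSpace ℂ F] [FiniteDimensional ℂ F]

theorem cs_eq (m : ℝ) : cs m = wgt m := by
  funext i
  cases i <;> rfl

theorem cpt_main (b : ColorBasis 2) (M : FermionRep 2 F) (R : GaugeAction b M) (G : GammaNine) :
    ∃ m₀ : ℝ, ∀ m, m₀ ≤ m → Cpt R G m := by
  have h := hcpt_lit b M R G
  cases h with | intro m₀ hm₀ => ?_
  refine ⟨m₀, fun m hm => ?_⟩
  unfold Cpt
  rw [cs_eq]
  exact hm₀ m hm (us M G) (fun a t f => uL_ae (KM_transpose a) t f)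
    (fun t f => uL_ae KP_transpose t f)

/-- **S0513** -/
theorem final [Nontrivial F] (b : ColorBasis 2) (M : FermionRep 2 F) (R : GaugeAction b M)
    (G : GammaNine) :
    ∃ (Ψ : ℕ → Cfg 2 → F) (E : ℕ → ℝ),
      (∀ j k, ∫ x, ⟪Ψ j x, Ψ k x⟫_ℂ = if j = k then (1 : ℂ) else 0) ∧
      (∀ j, 0 < E j) ∧ Tendsto E atTop atTop ∧ ∀ j, IsEigenpair b M R G (E j) (Ψ j) :=
  main b M R G (cpt_main b M R G)

end Crest.Agent.R330.SFinal893
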