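import Crest.Agent.R330.Sec_478

/-!
# Row 330: the frozen induction hypothesis `S k` (helper333, after r330_doc 0, 9, 11 and helper494)

* `IsVac0 M G Ω` : `Ω` is annihilated by all `θ_α^A - i (Γ θ^A)_α` (`Γ = γ¹γ²γ³`).
* `EvenOp M G P` : `P` anticommutes with every `θ_α^A` and fixes every vacuum `Ω` of `Γ`
  (the fermion parity, normalised by the vacuum of `Γ`).
* `S k` : for all data there is a normalised zero mode `Ψ` of `Q^{1,0}` with
  - moments `∫ ‖x‖^{2s} ‖Ψ‖² < ∞` for all `0 ≤ s < 5/2`,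
  - HARDY: `c ∫ (1+‖x‖²)⁻¹ ‖φ - ⟪Ψ,φ⟫ Ψ‖² ≤ q_{1,0}(φ)` on the core,
  - parity `+`.
* `S'` : the same without parity.
-/

set_option autoImplicit false

open MeasureTheory Filter Topology Crest.MathPhysics.MatrixQM
open scoped ContDiff InnerProductSpace ENNReal

noncomputable section

namespace Crest.Agent.R330.SProp333

open Crest.Agent.R330.Defs478 Crest.Agent.R330.Top478 Crest.Agent.R330.Sec478

/-- `Ω` is a vacuum of the complex structure `Γ ⊗ 1`. -/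
def IsVac0 {N : ℕ} {F : Type*} [NormedAddCommGroup F] [InnerProductSpace ℂ F]
    (M : FermionRep N F) (G : GammaNine) (Ω : F) : Prop :=
  ∀ (α : Fin 16) (A : Fin (N ^ 2 - 1)),
    M.θ α A Ω = Complex.I • ∑ β : Fin 16, ((Gam G α β : ℝ) : ℂ) • M.θ β A Ω

/-- The fermion parity, normalised by the vacuum of `Γ`. -/
def EvenOp {N : ℕ} {F : Type*} [NormedAddCommGroup F] [InnerProductSpace ℂ F]
    (M : FermionRep N F) (G : GammaNine) (P : F →ₗ[ℂ] F) : Prop :=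
  (∀ (α : Fin 16) (A : Fin (N ^ 2 - 1)) (v : F), P (M.θ α A v) = -M.θ α A (P v)) ∧
    ∀ Ω : F, IsVac0 M G Ω → P Ω = Ω

/-- A normalised zero mode with moments and the global Hardy inequality. -/
def Good {N : ℕ} {F : Type*} [NormedAddCommGroup F] [InnerProductSpace ℂ F]
    [FiniteDimensional ℂ F] (b : ColorBasis N) (M : FermionRep N F) (R : GaugeAction b M)
    (G : GammaNine) (Ψ : Cfg N → F) : Prop :=
  Ψ ∈ zset b M R G 1 0 ∧ (∫ x, ‖Ψ x‖ ^ 2) = 1 ∧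
  (∀ s : ℝ, 0 ≤ s → s < 5 / 2 → Integrable (fun x => ‖x‖ ^ (2 * s) * ‖Ψ x‖ ^ 2)) ∧
  ∃ c : ℝ, 0 < c ∧ ∀ φ : Cfg N → F, IsCoreVec b R φ →
    c * ∫ x, (1 + ‖x‖ ^ 2)⁻¹ * ‖φ x - (∫ y, ⟪Ψ y, φ y⟫_ℂ) • Ψ x‖ ^ 2 ≤ qf b M G 1 0 φ

/-- `S k` without parity. -/
def S' (k : ℕ) : Prop :=
  ∀ (F : Type) [NormedAddCommGroup F] [InnerProductSpace ℂ F] [FiniteDimensional ℂ F]
    [Nontrivial F] (b : ColorBasis k) (M : FermionRep k F) (R : GaugeAction b M) (G : GammaNine),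
    ∃ Ψ : Cfg k → F, Good b M R G Ψ

/-- Every zero mode of `Q^{1,0}` is even. -/
def EvenKer (k : ℕ) : Prop :=
  ∀ (F : Type) [NormedAddCommGroup F] [InnerProductSpace ℂ F] [FiniteDimensional ℂ F]
    [Nontrivial F] (b : ColorBasis k) (M : FermionRep k F) (R : GaugeAction b M) (G : GammaNine)
    (P : F →ₗ[ℂ] F), EvenOp M G P → ∀ Ψ ∈ zset b M R G 1 0, ∀ᵐ x, P (Ψ x) = Ψ x

/-- **The induction hypothesis.** -/
def S (k : ℕ) : Prop := S' k ∧ EvenKer k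

/-- **S0512 from the section outputs** (`SecS` : `S N` from `S k`, `k < N`, and `Dim1 N`). -/
theorem dim1_of_frozen (hWL : ∀ N, 2 ≤ N → WeakLow N) (hWU : ∀ N, 2 ≤ N → WeakUp N)
    (hC : ∀ N, 2 ≤ N → ConstZ N) (h1 : S 1)
    (hL : ∀ N, 2 ≤ N → (∀ k, 1 ≤ k → k < N → S k) → DLow N)
    (hU : ∀ N, 2 ≤ N → (∀ k, 1 ≤ k → k < N → S k) → DUp N)
    (hS : ∀ N, 2 ≤ N → (∀ k, 1 ≤ k → k < N → S k) → Dim1 N → S' N)
    (hP : ∀ N, 2 ≤ N → (∀ k, 1 ≤ k → k < N → S k) → EvenKer N) :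
    ∀ N, 2 ≤ N → Dim1 N ∧ S N := by
  have key : ∀ N, (∀ k, 2 ≤ k → k < N → S k) → ∀ k, 1 ≤ k → k < N → S k := by
    intro N h k hk hkN
    rcases Nat.lt_or_ge k 2 with h2 | h2
    · have : k = 1 := by omega
      rw [this]
      exact h1
    · exact h k h2 hkN
  exact dim1_all (S := S) hWL hWU hC (fun N hN h => hL N hN (key N h))
    (fun N hN h => hU N hN (key N h))
    (fun N hN h hd => ⟨hS N hN (key N h) hd, hP N hN (key N h)⟩)

end Crest.Agent.R330.SProp333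

end
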