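import Crest.Agent.R330.Gam_962

/-!
# Row 330, S0513 (helper383), part 1: a fermionic vacuum neutral under rotations and colour

`J = γ⁵ γ⁶` (indices 4, 5 of `Fin 9`).

* `JJ`, `JJ_sq`, `JJ_comm`, `trace_g2_JJ`.
* `IsVac M G v` : `v` is killed by all `θ_α^A + i Σ_β J_{αβ} θ_β^A`; `exists_vac`.
* `bil_vac` : a bilinear `Σ c_{pq} θ_p θ_q` kills `v` if `c (J ⊗ 1)` is symmetric of trace zero.
* `spin_vac` : `Σ_A Σ_{αβ} γ^{ij}_{αβ} θ_α^A θ_β^A v = 0` for `i, j ∉ {4, 5}`.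
* `col_vac` : `Σ_α Σ_{AB} a_{AB} θ_α^A θ_α^B v = 0` for antisymmetric `a`.
-/

set_option autoImplicit false
set_option linter.unusedSectionVars false

open Matrix Finset
open Crest.MathPhysics.MatrixQM

namespace Crest.Agent.R330.SecN383

open Crest.Agent.R330.Gam962

noncomputable section

variable (G : GammaNine)

/-- `γ⁵ γ⁶`. -/
def JJ : Matrix (Fin 16) (Fin 16) ℝ := G.γ 4 * G.γ 5

theorem JJ_transpose : (JJ G)ᵀ = -JJ G := by
  unfold JJ
  rw [Matrix.transpose_mul, G.symm, G.symm, anti G (by decide)]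

theorem JJ_asymm (α β : Fin 16) : JJ G α β = -JJ G β α := by
  have h := congrFun (congrFun (JJ_transpose G) β) α
  rw [Matrix.transpose_apply, Matrix.neg_apply] at h
  exact h

theorem JJ_sq : JJ G * JJ G = -1 := by
  unfold JJ
  rw [mul_assoc, ← mul_assoc (G.γ 5), anti G (show (5 : Fin 9) ≠ 4 by decide), neg_mul, mul_neg,
    mul_assoc (G.γ 4), sq_one, mul_one, sq_one]

theorem gam_JJ {i : Fin 9} (h4 : i ≠ 4) (h5 : i ≠ 5) : G.γ i * JJ G = JJ G * G.γ i := by
  unfold JJ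
  rw [← mul_assoc, anti G h4, neg_mul, mul_assoc, anti G h5, mul_neg, neg_neg, mul_assoc]

theorem JJ_comm {i j : Fin 9} (hi4 : i ≠ 4) (hi5 : i ≠ 5) (hj4 : j ≠ 4) (hj5 : j ≠ 5) :
    G.γ2 i j * JJ G = JJ G * G.γ2 i j := by
  unfold GammaNine.γ2
  rw [Matrix.smul_mul, Matrix.mul_smul, Matrix.sub_mul, Matrix.mul_sub, mul_assoc, gam_JJ G hj4 hj5,
    ← mul_assoc, gam_JJ G hi4 hi5, mul_assoc, mul_assoc, gam_JJ G hi4 hi5, ← mul_assoc (G.γ j),
    gam_JJ G hj4 hj5, mul_assoc]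

theorem trace_g2_JJ {i j : Fin 9} (hi4 : i ≠ 4) (hi5 : i ≠ 5) :
    (G.γ2 i j * JJ G).trace = 0 := by
  by_cases hij : i = j
  · subst hij
    rw [g2_self, zero_mul, Matrix.trace_zero]
  · rw [g2_ne G hij]
    have h1 : (G.γ i * G.γ j * JJ G).trace = (G.γ j * JJ G * G.γ i).trace := by
      rw [mul_assoc, Matrix.trace_mul_comm]
    have h2 : G.γ j * JJ G * G.γ i = -(G.γ i * G.γ j * JJ G) := by
      rw [mul_assoc, ← gam_JJ G hi4 hi5, ← mul_assoc, anti G (Ne.symm hij), neg_mul]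
    rw [h2, Matrix.trace_neg] at h1
    linarith

variable {N : ℕ} {F : Type*} [NormedAddCommGroup F] [InnerProductSpace ℂ F]
  [FiniteDimensional ℂ F] (M : FermionRep N F)

/-- Index set of the fermions. -/
abbrev PI (N : ℕ) : Type := Fin 16 × Fin (N ^ 2 - 1)

/-- The annihilators `θ_α^A + i Σ_β J_{αβ} θ_β^A`. -/
def ann (p : PI N) : F →ₗ[ℂ] F :=
  M.θ p.1 p.2 + Complex.I • ∑ β, (JJ G p.1 β : ℂ) • M.θ β p.2

theorem th_comm (p q : PI N) (v : F) : M.θ p.1 p.2 (M.θ q.1 q.2 v) + M.θ q.1 q.2 (M.θ p.1 p.2 v) =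
    if p = q then v else 0 := by
  have h := congrArg (fun L : F →ₗ[ℂ] F => L v) (M.anticomm p.1 p.2 q.1 q.2)
  simp only [LinearMap.add_apply, LinearMap.comp_apply] at h
  rw [h]
  by_cases hpq : p = q
  · rw [if_pos hpq, if_pos (by rw [hpq]; exact ⟨rfl, rfl⟩)]
    rfl
  · rw [if_neg hpq, if_neg fun h' => hpq (Prod.ext h'.1 h'.2)]
    rfl

theorem ann_apply (p : PI N) (v : F) :
    ann G M p v = M.θ p.1 p.2 v + Complex.I • ∑ β, (JJ G p.1 β : ℂ) • M.θ β p.2 v := by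
  unfold ann
  simp only [LinearMap.add_apply, LinearMap.smul_apply, LinearMap.sum_apply]

/-- **The annihilators anticommute.** -/
theorem ann_anticomm (p q : PI N) (v : F) :
    ann G M p (ann G M q v) + ann G M q (ann G M p v) = 0 := by
  have e : ∀ p q : PI N, ann G M p (ann G M q v) =
      M.θ p.1 p.2 (M.θ q.1 q.2 v) + Complex.I • ∑ δ, (JJ G q.1 δ : ℂ) • M.θ p.1 p.2 (M.θ δ q.2 v) +
      (Complex.I • ∑ β, (JJ G p.1 β : ℂ) • M.θ β p.2 (M.θ q.1 q.2 v) -
        ∑ β, ∑ δ, ((JJ G p.1 β : ℂ) * (JJ G q.1 δ : ℂ)) • M.θ β p.2 (M.θ δ q.2 v)) := by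
    intro p q
    rw [ann_apply, ann_apply]
    simp only [map_add, map_smul, map_sum, smul_add, Finset.sum_add_distrib]
    congr 1
    congr 1
    have : ∀ β, (JJ G p.1 β : ℂ) • (Complex.I • ∑ δ, (JJ G q.1 δ : ℂ) • M.θ β p.2 (M.θ δ q.2 v)) =
        Complex.I • ∑ δ, ((JJ G p.1 β : ℂ) * (JJ G q.1 δ : ℂ)) • M.θ β p.2 (M.θ δ q.2 v) := by
      intro β
      rw [smul_comm, Finset.smul_sum]
      congr 1
      exact Finset.sum_congr rfl fun δ _ => smul_smul _ _ _
    rw [Finset.sum_congr rfl fun β _ => this β, ← Finset.smul_sum, smul_smul, Complex.I_mul_I,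
      neg_one_smul, sub_eq_add_neg]
  rw [e p q, e q p]
  by_cases hpq : p.2 = q.2
  swap
  · -- different colours: everything anticommutes
    have h0 : ∀ α β : Fin 16, M.θ β q.2 (M.θ α p.2 v) = -M.θ α p.2 (M.θ β q.2 v) := by
      intro α β
      have h := th_comm M (α, p.2) (β, q.2) v
      have hne : ((α, p.2) : PI N) ≠ (β, q.2) := by
        intro h'
        have h2 := congrArg (fun z : PI N => z.2) h'
        exact hpq h2
      rw [if_neg hne] at h
      exact eq_neg_of_add_eq_zero_right h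
    have h1 : ∑ β, ∑ δ, ((JJ G q.1 β : ℂ) * (JJ G p.1 δ : ℂ)) • M.θ β q.2 (M.θ δ p.2 v) =
        -∑ β, ∑ δ, ((JJ G p.1 β : ℂ) * (JJ G q.1 δ : ℂ)) • M.θ β p.2 (M.θ δ q.2 v) := by
      rw [Finset.sum_comm, ← Finset.sum_neg_distrib]
      refine Finset.sum_congr rfl fun δ _ => ?_
      rw [← Finset.sum_neg_distrib]
      refine Finset.sum_congr rfl fun β _ => ?_
      rw [h0, smul_neg, mul_comm]
    have h2 : ∑ δ, (JJ G p.1 δ : ℂ) • M.θ q.1 q.2 (M.θ δ p.2 v) =
        -∑ β, (JJ G p.1 β : ℂ) • M.θ β p.2 (M.θ q.1 q.2 v) := by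
      rw [← Finset.sum_neg_distrib]
      exact Finset.sum_congr rfl fun δ _ => by rw [h0, smul_neg]
    have h3 : ∑ β, (JJ G q.1 β : ℂ) • M.θ β q.2 (M.θ p.1 p.2 v) =
        -∑ δ, (JJ G q.1 δ : ℂ) • M.θ p.1 p.2 (M.θ δ q.2 v) := by
      rw [← Finset.sum_neg_distrib]
      exact Finset.sum_congr rfl fun δ _ => by rw [h0, smul_neg]
    rw [h1, h2, h3, h0 p.1 q.1]
    simp only [smul_neg]
    abel
  · -- equal colours
    set A := p.2 with hA
    rw [← hpq]
    have h0 : ∀ α β : Fin 16, M.θ β A (M.θ α A v) = (if α = β then v else 0) -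
        M.θ α A (M.θ β A v) := by
      intro α β
      have h := th_comm M (α, A) (β, A) v
      simp only [Prod.mk.injEq, and_true] at h
      rw [← h]
      abel
    have h1 : ∑ β, ∑ δ, ((JJ G q.1 β : ℂ) * (JJ G p.1 δ : ℂ)) • M.θ β A (M.θ δ A v) =
        (∑ β, (JJ G q.1 β : ℂ) * (JJ G p.1 β : ℂ)) • v -
        ∑ β, ∑ δ, ((JJ G p.1 β : ℂ) * (JJ G q.1 δ : ℂ)) • M.θ β A (M.θ δ A v) := by
      rw [Finset.sum_comm (f := fun β δ => ((JJ G p.1 β : ℂ) * (JJ G q.1 δ : ℂ)) •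
        M.θ β A (M.θ δ A v)), Finset.sum_smul, ← Finset.sum_sub_distrib]
      refine Finset.sum_congr rfl fun β _ => ?_
      have : ∀ δ, ((JJ G q.1 β : ℂ) * (JJ G p.1 δ : ℂ)) • M.θ β A (M.θ δ A v) =
          (if δ = β then ((JJ G q.1 β : ℂ) * (JJ G p.1 δ : ℂ)) • v else 0) -
          ((JJ G p.1 δ : ℂ) * (JJ G q.1 β : ℂ)) • M.θ δ A (M.θ β A v) := by
        intro δ
        rw [h0 δ β, smul_sub, mul_comm (JJ G p.1 δ : ℂ)]
        congr 1
        split_ifs <;> simp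
      rw [Finset.sum_congr rfl fun δ _ => this δ, Finset.sum_sub_distrib]
      congr 1
      simp
    have h2 : ∑ δ, (JJ G p.1 δ : ℂ) • M.θ q.1 A (M.θ δ A v) = (JJ G p.1 q.1 : ℂ) • v -
        ∑ β, (JJ G p.1 β : ℂ) • M.θ β A (M.θ q.1 A v) := by
      have : ∀ δ, (JJ G p.1 δ : ℂ) • M.θ q.1 A (M.θ δ A v) =
          (if δ = q.1 then (JJ G p.1 δ : ℂ) • v else 0) -
          (JJ G p.1 δ : ℂ) • M.θ δ A (M.θ q.1 A v) := by
        intro δ
        rw [h0 δ q.1, smul_sub]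
        congr 1
        split_ifs <;> simp
      rw [Finset.sum_congr rfl fun δ _ => this δ, Finset.sum_sub_distrib]
      congr 1
      simp
    have h3 : ∑ β, (JJ G q.1 β : ℂ) • M.θ β A (M.θ p.1 A v) = (JJ G q.1 p.1 : ℂ) • v -
        ∑ δ, (JJ G q.1 δ : ℂ) • M.θ p.1 A (M.θ δ A v) := by
      have : ∀ β, (JJ G q.1 β : ℂ) • M.θ β A (M.θ p.1 A v) =
          (if β = p.1 then (JJ G q.1 β : ℂ) • v else 0) -
          (JJ G q.1 β : ℂ) • M.θ p.1 A (M.θ β A v) := by
        intro β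
        rw [h0 p.1 β, smul_sub]
        congr 1
        by_cases hb : p.1 = β
        · rw [if_pos hb, if_pos hb.symm]
        · rw [if_neg hb, if_neg (Ne.symm hb), smul_zero]
      rw [Finset.sum_congr rfl fun β _ => this β, Finset.sum_sub_distrib]
      congr 1
      simp
    have h4 : ∑ β, (JJ G q.1 β : ℂ) * (JJ G p.1 β : ℂ) = if p.1 = q.1 then 1 else 0 := by
      have h5 : (JJ G * (JJ G)ᵀ) q.1 p.1 = if p.1 = q.1 then (1 : ℝ) else 0 := by
        rw [JJ_transpose, mul_neg, JJ_sq, neg_neg, Matrix.one_apply]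
        by_cases h : p.1 = q.1
        · rw [if_pos h, if_pos h.symm]
        · rw [if_neg h, if_neg (Ne.symm h)]
      rw [Matrix.mul_apply] at h5
      simp only [Matrix.transpose_apply] at h5
      have h6 : ((∑ β, JJ G q.1 β * JJ G p.1 β : ℝ) : ℂ) = ((if p.1 = q.1 then (1 : ℝ) else 0 : ℝ) : ℂ) := by
        rw [h5]
      push_cast at h6
      rw [h6]
      split_ifs <;> simp
    have h5 : (JJ G q.1 p.1 : ℂ) = -(JJ G p.1 q.1 : ℂ) := by
      rw [JJ_asymm G q.1 p.1]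
      push_cast
      rfl
    have h6 : M.θ q.1 A (M.θ p.1 A v) = (if p.1 = q.1 then v else 0) - M.θ p.1 A (M.θ q.1 A v) :=
      h0 p.1 q.1
    rw [h1, h2, h3, h4, h5, h6, smul_sub, smul_sub]
    have h7 : (if p.1 = q.1 then (1 : ℂ) else 0) • v = if p.1 = q.1 then v else 0 := by
      split_ifs <;> simp
    rw [h7, neg_smul, smul_neg]
    abel

/-- `v` is killed by all annihilators. -/
def IsVac (v : F) : Prop := ∀ p : PI N, ann G M p v = 0

/-- **There is a vacuum.** -/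
theorem exists_vac [Nontrivial F] : ∃ v : F, v ≠ 0 ∧ IsVac G M v := by
  classical
  have h : ∀ s : Finset (PI N), ∃ v : F, v ≠ 0 ∧ ∀ p ∈ s, ann G M p v = 0 := by
    intro s
    induction s using Finset.induction_on with
    | empty =>
      obtain ⟨v, hv⟩ := exists_ne (0 : F)
      exact ⟨v, hv, fun p hp => absurd hp (Finset.notMem_empty _)⟩
    | insert a s ha ih =>
      obtain ⟨v, hv, hs⟩ := ih
      by_cases h : ann G M a v = 0
      · refine ⟨v, hv, fun p hp => ?_⟩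
        rcases Finset.mem_insert.1 hp with rfl | hp
        · exact h
        · exact hs p hp
      · refine ⟨ann G M a v, h, fun p hp => ?_⟩
        rcases Finset.mem_insert.1 hp with rfl | hp
        · have h1 := ann_anticomm G M p p v
          rw [← two_smul ℂ] at h1
          exact (smul_eq_zero.1 h1).resolve_left two_ne_zero
        · have h1 := ann_anticomm G M p a v
          rw [hs p hp, map_zero, add_zero] at h1
          exact h1
  obtain ⟨v, hv, h⟩ := h Finset.univ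
  exact ⟨v, hv, fun p => h p (Finset.mem_univ _)⟩

variable {G M}

/-- On a vacuum `θ_α^A = -i Σ_β J_{αβ} θ_β^A`. -/
theorem IsVac.th {v : F} (h : IsVac G M v) (p : PI N) :
    M.θ p.1 p.2 v = -(Complex.I • ∑ β, (JJ G p.1 β : ℂ) • M.θ β p.2 v) := by
  have h1 := h p
  rw [ann_apply] at h1
  exact eq_neg_of_add_eq_zero_left h1

/-- **Bilinears kill the vacuum**: `c (J ⊗ 1)` symmetric of trace zero. -/
theorem bil_vac {v : F} (h : IsVac G M v) (c : PI N → PI N → ℝ)
    (hs : ∀ p r : PI N, ∑ α, c p (α, r.2) * JJ G α r.1 = ∑ α, c r (α, p.2) * JJ G α p.1)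
    (ht : ∑ p : PI N, ∑ α, c p (α, p.2) * JJ G α p.1 = 0) :
    ∑ p : PI N, ∑ q : PI N, (c p q : ℂ) • M.θ p.1 p.2 (M.θ q.1 q.2 v) = 0 := by
  set s : PI N → PI N → ℝ := fun p r => ∑ α, c p (α, r.2) * JJ G α r.1 with hsdef
  have h1 : ∑ p : PI N, ∑ q : PI N, (c p q : ℂ) • M.θ p.1 p.2 (M.θ q.1 q.2 v) =
      -(Complex.I • ∑ p : PI N, ∑ r : PI N, (s p r : ℂ) • M.θ p.1 p.2 (M.θ r.1 r.2 v)) := by
    rw [Finset.smul_sum, ← Finset.sum_neg_distrib]
    refine Finset.sum_congr rfl fun p _ => ?_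
    have h2 : ∀ q : PI N, (c p q : ℂ) • M.θ p.1 p.2 (M.θ q.1 q.2 v) =
        -(Complex.I • ∑ β, ((c p q : ℂ) * (JJ G q.1 β : ℂ)) • M.θ p.1 p.2 (M.θ β q.2 v)) := by
      intro q
      rw [h.th q]
      simp only [map_neg, map_smul, map_sum, smul_neg]
      rw [smul_comm (c p q : ℂ), Finset.smul_sum]
      congr 2
      exact Finset.sum_congr rfl fun β _ => smul_smul _ _ _
    rw [Finset.sum_congr rfl fun q _ => h2 q, Finset.sum_neg_distrib, ← Finset.smul_sum]
    congr 2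
    rw [Fintype.sum_prod_type_right, Fintype.sum_prod_type_right]
    refine Finset.sum_congr rfl fun A _ => ?_
    rw [Finset.sum_comm]
    refine Finset.sum_congr rfl fun β _ => ?_
    change ∑ x, ((c p (x, A) : ℂ) * (JJ G x β : ℂ)) • M.θ p.1 p.2 (M.θ β A v) = _
    rw [← Finset.sum_smul]
    congr 1
    simp only [hsdef]
    push_cast
    rfl
  rw [h1]
  have h2 : ∑ p : PI N, ∑ r : PI N, (s p r : ℂ) • M.θ p.1 p.2 (M.θ r.1 r.2 v) = 0 := by
    have h3 : ∑ p : PI N, ∑ r : PI N, (s p r : ℂ) • M.θ p.1 p.2 (M.θ r.1 r.2 v) =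
        ∑ p : PI N, ∑ r : PI N, (s p r : ℂ) • M.θ r.1 r.2 (M.θ p.1 p.2 v) := by
      rw [Finset.sum_comm]
      refine Finset.sum_congr rfl fun p _ => Finset.sum_congr rfl fun r _ => ?_
      have : s r p = s p r := hs r p
      rw [this]
    have h4 : (2 : ℂ) • ∑ p : PI N, ∑ r : PI N, (s p r : ℂ) • M.θ p.1 p.2 (M.θ r.1 r.2 v) =
        (∑ p : PI N, (s p p : ℂ)) • v := by
      rw [two_smul]
      conv_lhs =>
        enter [2]
        rw [h3]
      rw [← Finset.sum_add_distrib, Finset.sum_smul]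
      refine Finset.sum_congr rfl fun p _ => ?_
      rw [← Finset.sum_add_distrib]
      have : ∀ r : PI N, (s p r : ℂ) • M.θ p.1 p.2 (M.θ r.1 r.2 v) +
          (s p r : ℂ) • M.θ r.1 r.2 (M.θ p.1 p.2 v) = if p = r then (s p r : ℂ) • v else 0 := by
        intro r
        rw [← smul_add, th_comm M p r v]
        split_ifs <;> simp
      rw [Finset.sum_congr rfl fun r _ => this r]
      simp
    have h5 : (∑ p : PI N, (s p p : ℂ)) = 0 := by
      have h6 : ((∑ p : PI N, s p p : ℝ) : ℂ) = 0 := by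
        rw [ht, Complex.ofReal_zero]
      push_cast at h6
      exact h6
    rw [h5, zero_smul] at h4
    exact (smul_eq_zero.1 h4).resolve_left two_ne_zero
  rw [h2, smul_zero, neg_zero]

/-- **The vacuum is neutral under rotations of the directions `≠ 4, 5`.** -/
theorem spin_vac {v : F} (h : IsVac G M v) {i j : Fin 9} (hi4 : i ≠ 4) (hi5 : i ≠ 5)
    (hj4 : j ≠ 4) (hj5 : j ≠ 5) :
    ∑ A : Fin (N ^ 2 - 1), ∑ α, ∑ β, (G.γ2 i j α β : ℂ) • M.θ α A (M.θ β A v) = 0 := by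
  classical
  have hJ : ∀ α β, ∑ δ, G.γ2 i j α δ * JJ G δ β = (G.γ2 i j * JJ G) α β := fun α β => by
    rw [Matrix.mul_apply]
  have hsym : ∀ α β, (G.γ2 i j * JJ G) α β = (G.γ2 i j * JJ G) β α := by
    intro α β
    have h1 : (G.γ2 i j * JJ G)ᵀ = G.γ2 i j * JJ G := by
      rw [Matrix.transpose_mul, JJ_transpose, g2_transpose, neg_mul_neg,
        JJ_comm G hi4 hi5 hj4 hj5]
    conv_lhs => rw [← h1]
    rfl
  have h0 := bil_vac h (fun p q => if p.2 = q.2 then G.γ2 i j p.1 q.1 else 0) (by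
    intro p r
    simp only
    by_cases hpr : p.2 = r.2
    · simp only [hpr, if_true]
      rw [hJ, hJ]
      exact hsym _ _
    · simp only [if_neg hpr, if_neg (Ne.symm hpr), zero_mul, Finset.sum_const_zero]) (by
    simp only [if_true]
    rw [Fintype.sum_prod_type_right]
    simp only [hJ]
    rw [Finset.sum_const]
    have := trace_g2_JJ G (i := i) (j := j) hi4 hi5
    rw [Matrix.trace] at this
    simp only [Matrix.diag_apply] at this
    rw [this, smul_zero])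
  rw [Fintype.sum_prod_type_right] at h0
  rw [← h0]
  refine Finset.sum_congr rfl fun A _ => Finset.sum_congr rfl fun α _ => ?_
  rw [Fintype.sum_prod_type_right]
  rw [Finset.sum_eq_single A]
  · simp
  · intro B _ hB
    refine Finset.sum_eq_zero fun β _ => ?_
    simp only [if_neg (Ne.symm hB), Complex.ofReal_zero, zero_smul]
  · intro h'
    exact absurd (Finset.mem_univ A) h'

/-- **The vacuum is neutral under colour.** -/
theorem col_vac {v : F} (h : IsVac G M v) (a : Fin (N ^ 2 - 1) → Fin (N ^ 2 - 1) → ℝ)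
    (ha : ∀ A B, a A B = -a B A) :
    ∑ α, ∑ A, ∑ B, (a A B : ℂ) • M.θ α A (M.θ α B v) = 0 := by
  classical
  have h0 := bil_vac h (fun p q => if p.1 = q.1 then a p.2 q.2 else 0) (by
    intro p r
    simp only [ite_mul, zero_mul, Finset.sum_ite_eq, Finset.mem_univ, if_true]
    rw [JJ_asymm G p.1 r.1, ha p.2 r.2]
    ring) (by
    simp only [ite_mul, zero_mul, Finset.sum_ite_eq, Finset.mem_univ, if_true]
    have hz : ∀ A, a A A = 0 := fun A => by linarith [ha A A]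
    simp [hz])
  rw [Fintype.sum_prod_type] at h0
  rw [← h0]
  refine Finset.sum_congr rfl fun α _ => Finset.sum_congr rfl fun A _ => ?_
  rw [Fintype.sum_prod_type]
  rw [Finset.sum_eq_single α]
  · simp
  · intro β _ hβ
    refine Finset.sum_eq_zero fun B _ => ?_
    simp only [if_neg (Ne.symm hβ), Complex.ofReal_zero, zero_smul]
  · intro h'
    exact absurd (Finset.mem_univ α) h'

end

end Crest.Agent.R330.SecN383
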