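import Crest.Agent.R330.SecN1_383
import Crest.Agent.R330.Vac_973
import Crest.Agent.R330.Col_962

/-!
# Row 330, S0513 (helper383), part 2: the neutral vacuum is gauge invariant (two colours)

* `su2_char` : characters of `SU(2)` are trivial.
* `IsVac.line` : the vacuum of part 1 is a line.
* `IsVac.rho` : `ρ(g) v = v` for `N = 2`.
-/

set_option autoImplicit false
set_option linter.unusedSectionVars false

open Matrix Finset
open Crest.MathPhysics.MatrixQM
open scoped InnerProductSpace ComplexConjugate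

namespace Crest.Agent.R330.SecN383

noncomputable section

/-! ### Characters of SU(2) -/

section su2

/-- An element of `SU(2)`. -/
def mk2 (a b : ℂ) (h : a * conj a + b * conj b = 1) : Matrix.specialUnitaryGroup (Fin 2) ℂ :=
  ⟨!![a, b; -conj b, conj a], by
    rw [Matrix.mem_specialUnitaryGroup_iff, Matrix.mem_unitaryGroup_iff]
    constructor
    · ext i j
      fin_cases i <;> fin_cases j <;>
        simp [Matrix.mul_apply, Matrix.star_apply, Fin.sum_univ_two]
      · exact h
      · ring
      · ring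
      · linear_combination h
    · rw [Matrix.det_fin_two]
      simp
      linear_combination h⟩

theorem mk2_coe (a b : ℂ) (h : a * conj a + b * conj b = 1) :
    (mk2 a b h : Matrix (Fin 2) (Fin 2) ℂ) = !![a, b; -conj b, conj a] := rfl

theorem exists_mk2 (g : Matrix.specialUnitaryGroup (Fin 2) ℂ) :
    ∃ (a b : ℂ) (h : a * conj a + b * conj b = 1), g = mk2 a b h := by
  obtain ⟨hU, hd⟩ := Matrix.mem_specialUnitaryGroup_iff.1 g.2
  have h1 : (g : Matrix (Fin 2) (Fin 2) ℂ) * star (g : Matrix (Fin 2) (Fin 2) ℂ) = 1 :=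
    Matrix.mem_unitaryGroup_iff.1 hU
  have h2 : Matrix.adjugate (g : Matrix (Fin 2) (Fin 2) ℂ) * (g : Matrix (Fin 2) (Fin 2) ℂ) = 1 := by
    rw [Matrix.adjugate_mul, hd, one_smul]
  have h3 : star (g : Matrix (Fin 2) (Fin 2) ℂ) = Matrix.adjugate (g : Matrix (Fin 2) (Fin 2) ℂ) := by
    rw [← one_mul (star (g : Matrix (Fin 2) (Fin 2) ℂ)), ← h2, mul_assoc, h1, mul_one]
  rw [Matrix.adjugate_fin_two] at h3
  have e00 := congrFun (congrFun h3 0) 0
  have e01 := congrFun (congrFun h3 0) 1
  simp only [Matrix.star_apply, Matrix.of_apply, Matrix.cons_val', Matrix.cons_val_zero,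
    Matrix.cons_val_one, Matrix.cons_val_fin_one] at e00 e01
  have e11 : (g : Matrix (Fin 2) (Fin 2) ℂ) 1 1 = conj ((g : Matrix (Fin 2) (Fin 2) ℂ) 0 0) :=
    e00.symm
  have e10 : (g : Matrix (Fin 2) (Fin 2) ℂ) 1 0 = -conj ((g : Matrix (Fin 2) (Fin 2) ℂ) 0 1) := by
    have h4 := congrArg (starRingEnd ℂ) e01
    rw [map_neg] at h4
    rw [← h4]
    exact (Complex.conj_conj _).symm
  rw [Matrix.det_fin_two, e11, e10] at hd
  refine ⟨(g : Matrix (Fin 2) (Fin 2) ℂ) 0 0, (g : Matrix (Fin 2) (Fin 2) ℂ) 0 1, by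
    linear_combination hd, Subtype.ext ?_⟩
  rw [mk2_coe]
  ext i j
  fin_cases i <;> fin_cases j
  · rfl
  · rfl
  · exact e10
  · exact e11

theorem mk2_mul (a b a' b' : ℂ) (h : a * conj a + b * conj b = 1)
    (h' : a' * conj a' + b' * conj b' = 1) :
    ((mk2 a b h * mk2 a' b' h' : Matrix.specialUnitaryGroup (Fin 2) ℂ) :
      Matrix (Fin 2) (Fin 2) ℂ) =
    !![a * a' - b * conj b', a * b' + b * conj a';
      -conj b * a' - conj a * conj b', -conj b * b' + conj a * conj a'] := by
  rw [Submonoid.coe_mul, mk2_coe, mk2_coe, Matrix.mul_fin_two]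
  ext i j
  fin_cases i <;> fin_cases j <;> simp <;> ring

theorem mk2_inv (a b : ℂ) (h : a * conj a + b * conj b = 1) :
    ∃ h', (mk2 a b h)⁻¹ = mk2 (conj a) (-b) h' := by
  refine ⟨by rw [Complex.conj_conj, map_neg]; linear_combination h, ?_⟩
  rw [inv_eq_iff_mul_eq_one]
  refine Subtype.ext ?_
  rw [mk2_mul]
  ext i j
  fin_cases i <;> fin_cases j <;> simp
  · linear_combination h
  · ring
  · ring
  · linear_combination h

/-- Every element of `SU(2)` is conjugate to its inverse. -/
theorem conj_inv (g : Matrix.specialUnitaryGroup (Fin 2) ℂ) :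
    ∃ w, w * g = g⁻¹ * w := by
  obtain ⟨a, b, h, rfl⟩ := exists_mk2 g
  obtain ⟨h', hi⟩ := mk2_inv a b h
  obtain ⟨q, hq, hqb⟩ : ∃ q : ℂ, q * conj q = 1 ∧ q * conj b + b * conj q = 0 := by
    by_cases hb : b = 0
    · exact ⟨1, by simp, by simp [hb]⟩
    · have hn : ((‖b‖ : ℝ) : ℂ) ≠ 0 := by
        exact_mod_cast norm_ne_zero_iff.2 hb
      have hbb : b * conj b = ((‖b‖ : ℝ) : ℂ) ^ 2 := by
        rw [Complex.mul_conj, Complex.normSq_eq_norm_sq]
        push_cast
        rfl
      refine ⟨Complex.I * b / ((‖b‖ : ℝ) : ℂ), ?_, ?_⟩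
      · rw [map_div₀, map_mul, Complex.conj_I, Complex.conj_ofReal]
        field_simp
        rw [← hbb]
        linear_combination (-(b * conj b)) * Complex.I_sq
      · rw [map_div₀, map_mul, Complex.conj_I, Complex.conj_ofReal]
        field_simp
        ring
  refine ⟨mk2 0 q (by rw [zero_mul, zero_add]; exact hq), ?_⟩
  rw [hi]
  refine Subtype.ext ?_
  rw [mk2_mul, mk2_mul]
  ext i j
  fin_cases i <;> fin_cases j <;> simp
  · linear_combination -hqb
  · ring
  · ring
  · linear_combination -hqb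

/-- Every element of `SU(2)` is a square. -/
theorem exists_sqrt (g : Matrix.specialUnitaryGroup (Fin 2) ℂ) : ∃ k, g = k * k := by
  obtain ⟨a, b, h, rfl⟩ := exists_mk2 g
  by_cases ha : a = -1
  · subst ha
    have hb : b = 0 := by
      have h1 : b * conj b = 0 := by
        rw [map_neg, map_one] at h
        linear_combination h
      rcases mul_eq_zero.1 h1 with h1 | h1
      · exact h1
      · exact (map_eq_zero (starRingEnd ℂ)).1 h1
    subst hb
    refine ⟨mk2 Complex.I 0 (by simp), Subtype.ext ?_⟩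
    rw [mk2_mul, mk2_coe]
    ext i j
    fin_cases i <;> fin_cases j <;> simp
  · have hn : 0 < 2 + 2 * a.re := by
      have h1 : a.re * a.re + a.im * a.im + (b.re * b.re + b.im * b.im) = 1 := by
        have h2 := congrArg Complex.re h
        simpa using h2
      by_contra hc
      have h2 : a.re ≤ -1 := by linarith
      have p1 := mul_self_nonneg a.im
      have p2 := mul_self_nonneg b.re
      have p3 := mul_self_nonneg b.im
      have h3 : a.re = -1 := by nlinarith
      have h4 : a.im = 0 := by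
        rw [h3] at h1
        exact mul_self_eq_zero.1 (by linarith)
      exact ha (Complex.ext (by simpa using h3) (by simpa using h4))
    set s : ℂ := ((Real.sqrt (2 + 2 * a.re) : ℝ) : ℂ) with hs
    have hs2 : s * s = 2 + a + conj a := by
      rw [hs, ← Complex.ofReal_mul, Real.mul_self_sqrt hn.le]
      apply Complex.ext
      · simp; ring
      · simp
    have hs0 : s ≠ 0 := by
      rw [hs]
      exact_mod_cast (Real.sqrt_pos.2 hn).ne'
    have hsc : conj s = s := Complex.conj_ofReal _
    refine ⟨mk2 ((1 + a) / s) (b / s) ?_, Subtype.ext ?_⟩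
    · rw [map_div₀, map_div₀, hsc, map_add, map_one]
      field_simp
      rw [sq, hs2]
      linear_combination h
    · rw [mk2_mul, mk2_coe]
      simp only [map_div₀, hsc, map_add, map_one]
      ext i j
      fin_cases i <;> fin_cases j <;> simp
      · field_simp
        rw [sq, hs2]
        linear_combination h
      · field_simp
        rw [sq, hs2]
        ring
      · field_simp
        rw [sq, hs2]
        ring
      · field_simp
        rw [sq, hs2]
        linear_combination h

/-- **Characters of `SU(2)` are trivial.** -/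
theorem su2_char (χ : Matrix.specialUnitaryGroup (Fin 2) ℂ →* ℂ)
    (g : Matrix.specialUnitaryGroup (Fin 2) ℂ) : χ g = 1 := by
  have hinv : ∀ k, χ k * χ k⁻¹ = 1 := fun k => by rw [← map_mul, mul_inv_cancel, map_one]
  have hsq : ∀ k, χ k * χ k = 1 := by
    intro k
    obtain ⟨w, hw⟩ := conj_inv k
    have h1 := congrArg χ hw
    rw [map_mul, map_mul, mul_comm] at h1
    have hw0 : χ w ≠ 0 := fun h0 => by
      have := hinv w
      rw [h0, zero_mul] at this
      exact zero_ne_one this
    have h2 : χ k = χ k⁻¹ := mul_right_cancel₀ hw0 h1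
    nth_rewrite 2 [h2]
    exact hinv k
  obtain ⟨k, rfl⟩ := exists_sqrt g
  rw [map_mul]
  exact hsq k

end su2

/-! ### The vacuum line -/

section vacline

variable {G : GammaNine} {N : ℕ} {F : Type*} [NormedAddCommGroup F] [InnerProductSpace ℂ F]
  [FiniteDimensional ℂ F] {M : FermionRep N F}

/-- The anticommutator is a scalar. -/
def Anti (X Y : F →ₗ[ℂ] F) : Prop := ∃ a : ℂ, ∀ v, X (Y v) + Y (X v) = a • v

theorem Anti.symm {X Y : F →ₗ[ℂ] F} (h : Anti X Y) : Anti Y X := by
  obtain ⟨a, ha⟩ := h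
  exact ⟨a, fun v => by rw [add_comm]; exact ha v⟩

theorem Anti.add {X Y Z : F →ₗ[ℂ] F} (h : Anti X Y) (h' : Anti X Z) : Anti X (Y + Z) := by
  obtain ⟨a, ha⟩ := h
  obtain ⟨a', ha'⟩ := h'
  refine ⟨a + a', fun v => ?_⟩
  simp only [LinearMap.add_apply, map_add]
  rw [add_smul, ← ha v, ← ha' v]
  abel

theorem Anti.smul {X Y : F →ₗ[ℂ] F} (h : Anti X Y) (c : ℂ) : Anti X (c • Y) := by
  obtain ⟨a, ha⟩ := h
  refine ⟨c * a, fun v => ?_⟩
  simp only [LinearMap.smul_apply, map_smul]
  rw [← smul_add, ha v, smul_smul]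

theorem Anti.sum {X : F →ₗ[ℂ] F} {ι : Type*} (s : Finset ι) (f : ι → F →ₗ[ℂ] F)
    (h : ∀ i, Anti X (f i)) : Anti X (∑ i ∈ s, f i) := by
  classical
  induction s using Finset.induction_on with
  | empty =>
    refine ⟨0, fun v => ?_⟩
    simp
  | insert a s ha ih =>
    rw [Finset.sum_insert ha]
    exact (h a).add ih

theorem anti_th (M : FermionRep N F) (α : Fin 16) (A : Fin (N ^ 2 - 1)) (β : Fin 16)
    (B : Fin (N ^ 2 - 1)) : Anti (M.θ α A) (M.θ β B) := by
  refine ⟨if ((α, A) : PI N) = (β, B) then 1 else 0, fun v => ?_⟩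
  have h := th_comm M (α, A) (β, B) v
  rw [h]
  split_ifs <;> simp

variable (G M)

/-- Creation operators, adjoint to the annihilators. -/
def cre (p : PI N) : F →ₗ[ℂ] F :=
  M.θ p.1 p.2 - Complex.I • ∑ β, (JJ G p.1 β : ℂ) • M.θ β p.2

theorem cre_apply (p : PI N) (v : F) :
    cre G M p v = M.θ p.1 p.2 v - Complex.I • ∑ β, (JJ G p.1 β : ℂ) • M.θ β p.2 v := by
  unfold cre
  simp only [LinearMap.sub_apply, LinearMap.smul_apply, LinearMap.sum_apply]

theorem anti_ann_cre (p q : PI N) : Anti (ann G M p) (cre G M q) := by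
  have h1 : ∀ (X : F →ₗ[ℂ] F), (∀ α A, Anti X (M.θ α A)) → Anti X (cre G M q) := by
    intro X h
    unfold cre
    rw [sub_eq_add_neg, ← neg_smul]
    exact (h _ _).add ((Anti.sum _ _ fun β => (h _ _).smul _).smul _)
  refine h1 _ fun α A => Anti.symm ?_
  unfold ann
  exact (anti_th M _ _ _ _).add ((Anti.sum _ _ fun β => (anti_th M _ _ _ _).smul _).smul _)

theorem inner_cre (p : PI N) (u v : F) : ⟪u, cre G M p v⟫_ℂ = ⟪ann G M p u, v⟫_ℂ := by
  rw [cre_apply, ann_apply, inner_sub_right, inner_add_left, inner_smul_left, inner_smul_right,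
    inner_sum, sum_inner, Complex.conj_I, neg_mul, sub_eq_add_neg]
  congr 1
  · exact (M.selfAdjoint _ _ _ _).symm
  · congr 2
    refine Finset.sum_congr rfl fun β _ => ?_
    rw [inner_smul_left, inner_smul_right, Complex.conj_ofReal]
    congr 1
    exact (M.selfAdjoint _ _ _ _).symm

variable {G M}

theorem gen_eq_top {v : F} (h : IsVac G M v) (hv : v ≠ 0) : Vac973.gen (cre G M) v = ⊤ := by
  have hc : ∀ j k w, ∃ a : ℂ, ann G M j (cre G M k w) = a • w - cre G M k (ann G M j w) := by
    intro j k w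
    obtain ⟨a, ha⟩ := anti_ann_cre G M j k
    exact ⟨a, eq_sub_of_add_eq (ha w)⟩
  have hth : ∀ p : PI N, ∀ w, M.θ p.1 p.2 w = (1 / 2 : ℂ) • (ann G M p w + cre G M p w) := by
    intro p w
    rw [ann_apply, cre_apply]
    module
  rcases M.irreducible (Vac973.gen (cre G M) v) (fun α A w hw => by
    rw [hth (α, A) w]
    exact Submodule.smul_mem _ _ (Submodule.add_mem _
      (Vac973.gen_c h (fun j k w => hc j k w) (α, A) hw) (Vac973.gen_d (α, A) hw))) with h1 | h1
  · exact absurd ((Submodule.mem_bot ℂ).1 (h1 ▸ Vac973.base_mem)) hv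
  · exact h1

/-- **The vacuum is a line.** -/
theorem IsVac.line {v u : F} (h : IsVac G M v) (hv : v ≠ 0) (hu : IsVac G M u) :
    ∃ a : ℂ, u = a • v := by
  refine Vac973.vac_unique (d := cre G M) (c := ann G M)
    (fun x => (innerₛₗ ℂ x : F →ₗ[ℂ] ℂ))
    (fun x hx => inner_self_eq_zero.1 hx) (fun w => ?_) (fun j x y => inner_cre G M j x y) h
    (by rw [gen_eq_top h hv]; trivial) hu
  exact inner_zero_left w

/-- The gauge action preserves the vacua. -/
theorem IsVac.gauge {b : ColorBasis N} (R : GaugeAction b M) {v : F} (h : IsVac G M v)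
    (g : Matrix.specialUnitaryGroup (Fin N) ℂ) : IsVac G M (R.ρ g v) := by
  have hi : ∀ α A, R.ρ g (M.θ α A v) = ∑ B, (b.adjMat g B A : ℂ) • M.θ α B (R.ρ g v) := by
    intro α A
    have h1 := congrArg (fun L : F →ₗ[ℂ] F => L v) (R.intertwine g α A)
    simpa only [LinearMap.comp_apply, LinearMap.sum_apply, LinearMap.smul_apply] using h1
  have h1 : ∀ α A, ∑ B, (b.adjMat g B A : ℂ) • ann G M (α, B) (R.ρ g v) = 0 := by
    intro α A
    have h2 := congrArg (R.ρ g) (h (α, A))
    rw [map_zero, ann_apply, map_add, map_smul, map_sum] at h2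
    simp only [map_smul, hi] at h2
    rw [← h2]
    simp only [ann_apply, smul_add, Finset.sum_add_distrib, Finset.smul_sum]
    congr 1
    rw [Finset.sum_comm]
    refine Finset.sum_congr rfl fun β _ => Finset.sum_congr rfl fun B _ => ?_
    simp only [smul_smul]
    congr 1
    ring
  rintro ⟨α, C⟩
  have h2 : ∑ A, (b.adjMat g C A : ℂ) • ∑ B, (b.adjMat g B A : ℂ) • ann G M (α, B) (R.ρ g v) =
      ann G M (α, C) (R.ρ g v) := by
    simp only [Finset.smul_sum, smul_smul]
    rw [Finset.sum_comm]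
    have : ∀ B, ∑ A, ((b.adjMat g C A : ℂ) * (b.adjMat g B A : ℂ)) • ann G M (α, B) (R.ρ g v) =
        (if C = B then (1 : ℂ) else 0) • ann G M (α, B) (R.ρ g v) := by
      intro B
      rw [← Finset.sum_smul]
      congr 1
      have h3 := Col962.adjMat_orth' b g C B
      have h4 := congrArg (fun t : ℝ => (t : ℂ)) h3
      push_cast at h4
      rw [h4]
      split_ifs <;> simp
    rw [Finset.sum_congr rfl fun B _ => this B]
    simp
  rw [← h2]
  simp only [h1, smul_zero, Finset.sum_const_zero]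

/-- **Gauge invariance of the vacuum** (two colours). -/
theorem IsVac.rho {M : FermionRep 2 F} {b : ColorBasis 2} (R : GaugeAction b M) {v : F}
    (h : IsVac G M v) (g : Matrix.specialUnitaryGroup (Fin 2) ℂ) : R.ρ g v = v := by
  by_cases hv : v = 0
  · rw [hv, map_zero]
  have hl : ∀ g, ∃ a : ℂ, R.ρ g v = a • v := fun g => h.line hv (h.gauge R g)
  choose c hc using hl
  have hmul : ∀ g g', c (g * g') = c g * c g' := by
    intro g g'
    have h1 : c (g * g') • v = (c g * c g') • v := by
      rw [← hc, map_mul, Module.End.mul_apply, hc g', map_smul, hc g, smul_smul, mul_comm]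
    exact smul_left_injective ℂ hv h1
  have hone : c 1 = 1 := by
    have h1 : c 1 • v = (1 : ℂ) • v := by
      rw [← hc, map_one, one_smul]
      rfl
    exact smul_left_injective ℂ hv h1
  have h1 := su2_char ⟨⟨c, hone⟩, hmul⟩ g
  have h2 : c g = 1 := h1
  rw [hc g, h2, one_smul]

end vacline

end

end Crest.Agent.R330.SecN383
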