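import Crest.Agent.R330.HvDef_442
import Crest.Agent.R330.Real_311

/-!
# Row 330 (helper311): flat sections of heavy vacuum spaces

`M : CRep V F`, `K` the light vectors, `W₀` the reference space, `VX X` the vacuum spaces.
`IsSec M K W₀ VX U S` : on the open set `S` the maps `U X` are isometries of `W₀` onto `VX X` which
commute with the light generators, are smooth in `X` and have no connection
(`⟪U X w', ∂_e (U X) w⟫ = 0`).

* `perp`, `proj_fderiv`, `proj_theta_fderiv` : the term `θ(light) (∂_e U_X) w` has no vacuum component.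
* `fderiv_sec`, `proj_fderiv_sec` : product rule.
* `compare` : two sections (possibly with different reference spaces) differ by a unimodular locally
  constant factor: `U' X (T w) = lam X • U X w`.
-/

set_option autoImplicit false
set_option linter.unusedSectionVars false

open scoped InnerProductSpace ContDiff Topology

noncomputable section

namespace Crest.Agent.R330.Sec311

open Crest.Agent.R330.Cliff442

variable {V F : Type*} [NormedAddCommGroup V] [InnerProductSpace ℝ V]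
  [NormedAddCommGroup F] [InnerProductSpace ℂ F] [FiniteDimensional ℂ F]
  {E : Type*} [NormedAddCommGroup E] [NormedSpace ℝ E]

/-- A flat section of the spaces `VX`. -/
structure IsSec (M : CRep V F) (K : Submodule ℝ V) (W₀ : Submodule ℂ F) (VX : E → Submodule ℂ F)
    (U : E → F →ₗ[ℂ] F) (S : Set E) : Prop where
  isOpen : IsOpen S
  mem : ∀ X ∈ S, ∀ w ∈ W₀, U X w ∈ VX X
  surj : ∀ X ∈ S, ∀ v ∈ VX X, ∃ w ∈ W₀, U X w = v
  inner : ∀ X ∈ S, ∀ w ∈ W₀, ∀ w' ∈ W₀, ⟪U X w, U X w'⟫_ℂ = ⟪w, w'⟫_ℂ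
  light : ∀ X ∈ S, ∀ x ∈ K, ∀ w ∈ W₀, U X (M.θ x w) = M.θ x (U X w)
  smooth : ∀ X ∈ S, ∀ f : F, ContDiffAt ℝ ∞ (fun Y => U Y f) X
  flat : ∀ X ∈ S, ∀ w ∈ W₀, ∀ w' ∈ W₀, ∀ e, ⟪U X w', fderiv ℝ (fun Y => U Y w) X e⟫_ℂ = 0

namespace IsSec

variable {M : CRep V F} {K : Submodule ℝ V} {W₀ : Submodule ℂ F} {VX : E → Submodule ℂ F}
  {U : E → F →ₗ[ℂ] F} {S : Set E} (h : IsSec M K W₀ VX U S)
include h

theorem diff {X : E} (hX : X ∈ S) (f : F) : DifferentiableAt ℝ (fun Y => U Y f) X :=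
  (h.smooth X hX f).differentiableAt (by simp)

theorem perp {X : E} (hX : X ∈ S) {v w : F} (hv : v ∈ VX X) (hw : w ∈ W₀) (e : E) :
    ⟪v, fderiv ℝ (fun Y => U Y w) X e⟫_ℂ = 0 := by
  obtain ⟨w', hw', rfl⟩ := h.surj X hX v hv
  exact h.flat X hX w hw w' hw' e

/-- The spaces `VX X` are invariant under the light generators. -/
theorem inv (hW : M.InvOn K W₀) {X : E} (hX : X ∈ S) {x : V} (hx : x ∈ K) {v : F}
    (hv : v ∈ VX X) : M.θ x v ∈ VX X := by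
  obtain ⟨w, hw, rfl⟩ := h.surj X hX v hv
  rw [← h.light X hX x hx w hw]
  exact h.mem X hX _ (hW x hx w hw)

theorem perp_theta (hW : M.InvOn K W₀) {X : E} (hX : X ∈ S) {x : V} (hx : x ∈ K) {v w : F}
    (hv : v ∈ VX X) (hw : w ∈ W₀) (e : E) :
    ⟪v, M.θ x (fderiv ℝ (fun Y => U Y w) X e)⟫_ℂ = 0 := by
  rw [← M.symm]
  exact h.perp hX (h.inv hW hX hx hv) hw e

/-- A vector orthogonal to `VX X` is killed by every orthogonal projection on it. -/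
theorem proj_eq_zero {P : F →ₗ[ℂ] F} {X : E} (hP : ∀ f, P f ∈ VX X)
    (hs : ∀ f g, ⟪P f, g⟫_ℂ = ⟪f, P g⟫_ℂ) {v : F} (hv : ∀ w ∈ VX X, ⟪w, v⟫_ℂ = 0) : P v = 0 := by
  have h1 : ⟪P v, P v⟫_ℂ = ⟪P (P v), v⟫_ℂ := (hs (P v) v).symm
  rw [hv _ (hP _)] at h1
  exact inner_self_eq_zero.1 h1

theorem proj_fderiv {P : F →ₗ[ℂ] F} {X : E} (hX : X ∈ S) (hP : ∀ f, P f ∈ VX X)
    (hs : ∀ f g, ⟪P f, g⟫_ℂ = ⟪f, P g⟫_ℂ) {w : F} (hw : w ∈ W₀) (e : E) :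
    P (fderiv ℝ (fun Y => U Y w) X e) = 0 :=
  h.proj_eq_zero hP hs fun _ hv => h.perp hX hv hw e

/-- **The error term `θ(light) (∂_e U_X) w` has no vacuum component.** -/
theorem proj_theta_fderiv (hW : M.InvOn K W₀) {P : F →ₗ[ℂ] F} {X : E} (hX : X ∈ S)
    (hP : ∀ f, P f ∈ VX X) (hs : ∀ f g, ⟪P f, g⟫_ℂ = ⟪f, P g⟫_ℂ) {x : V} (hx : x ∈ K) {w : F}
    (hw : w ∈ W₀) (e : E) : P (M.θ x (fderiv ℝ (fun Y => U Y w) X e)) = 0 :=
  h.proj_eq_zero hP hs fun _ hv => h.perp_theta hW hX hx hv hw e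

/-- Product rule for `X ↦ U X (w X)`. -/
theorem hasFDerivAt_sec {w : E → F} {X : E} (hX : X ∈ S) (hw : DifferentiableAt ℝ w X) (e : E) :
    fderiv ℝ (fun Y => U Y (w Y)) X e =
      fderiv ℝ (fun Y => U Y (w X)) X e + U X (fderiv ℝ w X e) ∧
      DifferentiableAt ℝ (fun Y => U Y (w Y)) X := by
  set b := stdOrthonormalBasis ℂ F with hb
  have hexp : ∀ f : F, f = ∑ i, ⟪b i, f⟫_ℂ • b i := fun f => (b.sum_repr' f).symm
  have hU : ∀ (Y : E) (f : F), U Y f = ∑ i, ⟪b i, f⟫_ℂ • U Y (b i) := fun Y f => by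
    conv_lhs => rw [hexp f]
    rw [map_sum]
    exact Finset.sum_congr rfl fun i _ => map_smul _ _ _
  have hc : ∀ i, HasFDerivAt (fun Y => ⟪b i, w Y⟫_ℂ)
      (((innerSL ℂ (b i)).restrictScalars ℝ).comp (fderiv ℝ w X)) X := fun i =>
    ((innerSL ℂ (b i)).restrictScalars ℝ).hasFDerivAt.comp X hw.hasFDerivAt
  have h1 : HasFDerivAt (fun Y => ∑ i, ⟪b i, w Y⟫_ℂ • U Y (b i))
      (∑ i, (⟪b i, w X⟫_ℂ • fderiv ℝ (fun Y => U Y (b i)) X +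
        (((innerSL ℂ (b i)).restrictScalars ℝ).comp (fderiv ℝ w X)).smulRight (U X (b i)))) X :=
    HasFDerivAt.fun_sum fun i _ => (hc i).smul (h.diff hX (b i)).hasFDerivAt
  have h2 : HasFDerivAt (fun Y => ∑ i, ⟪b i, w X⟫_ℂ • U Y (b i))
      (∑ i, ⟪b i, w X⟫_ℂ • fderiv ℝ (fun Y => U Y (b i)) X) X :=
    HasFDerivAt.fun_sum fun i _ => (h.diff hX (b i)).hasFDerivAt.const_smul _
  have e1 : (fun Y => U Y (w Y)) = fun Y => ∑ i, ⟪b i, w Y⟫_ℂ • U Y (b i) :=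
    funext fun Y => hU Y (w Y)
  have e2 : (fun Y => U Y (w X)) = fun Y => ∑ i, ⟪b i, w X⟫_ℂ • U Y (b i) :=
    funext fun Y => hU Y (w X)
  refine ⟨?_, by rw [e1]; exact h1.differentiableAt⟩
  rw [e1, e2, h1.fderiv, h2.fderiv]
  simp only [FunLike.coe_sum, Finset.sum_apply, add_apply, Finset.sum_add_distrib]
  congr 1
  rw [hU X (fderiv ℝ w X e)]
  rfl

end IsSec

/-- The derivative of a function with values in a subspace. -/
theorem deriv_mem {W : Submodule ℂ F} {w : E → F} {X : E} (hw : DifferentiableAt ℝ w X)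
    (hm : ∀ᶠ Y in 𝓝 X, w Y ∈ W) (e : E) : fderiv ℝ w X e ∈ W := by
  have h1 : fderiv ℝ w X e ∈ Wᗮᗮ := by
    rw [Submodule.mem_orthogonal]
    intro v hv
    have h2 : HasFDerivAt (fun Y => ⟪v, w Y⟫_ℂ)
        (((innerSL ℂ v).restrictScalars ℝ).comp (fderiv ℝ w X)) X :=
      ((innerSL ℂ v).restrictScalars ℝ).hasFDerivAt.comp X hw.hasFDerivAt
    have h3 : HasFDerivAt (fun Y => ⟪v, w Y⟫_ℂ) (0 : E →L[ℝ] ℂ) X := by
      refine (hasFDerivAt_const (0 : ℂ) X).congr_of_eventuallyEq ?_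
      filter_upwards [hm] with Y hY
      exact (Submodule.mem_orthogonal' W v).1 hv _ hY
    exact congrArg (fun L : E →L[ℝ] ℂ => L e) (h2.unique h3)
  rwa [Submodule.orthogonal_orthogonal] at h1

namespace IsSec

variable {M : CRep V F} {K : Submodule ℝ V} {W₀ W₀' : Submodule ℂ F} {VX : E → Submodule ℂ F}
  {U U' : E → F →ₗ[ℂ] F} {S S' : Set E}

/-- The vacuum component of the derivative of `Y ↦ U Y (w Y)`. -/
theorem proj_fderiv_sec (h : IsSec M K W₀ VX U S) {P : F →ₗ[ℂ] F} {X : E} (hX : X ∈ S)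
    (hP : ∀ f, P f ∈ VX X) (hs : ∀ f g, ⟪P f, g⟫_ℂ = ⟪f, P g⟫_ℂ) (hP2 : ∀ v ∈ VX X, P v = v)
    {w : E → F} (hw : DifferentiableAt ℝ w X) (hm : ∀ᶠ Y in 𝓝 X, w Y ∈ W₀) (e : E) :
    P (fderiv ℝ (fun Y => U Y (w Y)) X e) = U X (fderiv ℝ w X e) := by
  rw [(h.hasFDerivAt_sec hX hw e).1, map_add, h.proj_fderiv hX hP hs hm.self_of_nhds, zero_add]
  exact hP2 _ (h.mem X hX _ (deriv_mem hw hm e))

/-- The restriction of a section at a point as an equivalence. -/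
def eqv (h : IsSec M K W₀ VX U S) {X : E} (hX : X ∈ S) : W₀ ≃ₗ[ℂ] VX X :=
  LinearEquiv.ofBijective ((U X).restrict (h.mem X hX)) (by
    constructor
    · intro w w' hww
      have h1 : U X w = U X w' := congrArg Subtype.val hww
      have h2 : U X ((w : F) - w') = 0 := by rw [map_sub, h1, sub_self]
      have h3 := h.inner X hX _ (W₀.sub_mem w.2 w'.2) _ (W₀.sub_mem w.2 w'.2)
      rw [h2, inner_zero_left] at h3
      exact Subtype.ext (sub_eq_zero.1 (inner_self_eq_zero.1 h3.symm))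
    · rintro ⟨v, hv⟩
      obtain ⟨w, hw, e⟩ := h.surj X hX v hv
      exact ⟨⟨w, hw⟩, Subtype.ext e⟩)

theorem eqv_apply (h : IsSec M K W₀ VX U S) {X : E} (hX : X ∈ S) (w : W₀) :
    ((h.eqv hX w : VX X) : F) = U X w := rfl

theorem eqv_symm (h : IsSec M K W₀ VX U S) {X : E} (hX : X ∈ S) (v : VX X) :
    U X ((h.eqv hX).symm v : F) = v := by
  rw [← h.eqv_apply hX, LinearEquiv.apply_symm_apply]

/-- The intertwiner of the reference spaces of two sections (at the point `X₀`). -/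
def T (h : IsSec M K W₀ VX U S) (h' : IsSec M K W₀' VX U' S') {X₀ : E} (hX : X₀ ∈ S)
    (hX' : X₀ ∈ S') : W₀ ≃ₗ[ℂ] W₀' :=
  (h.eqv hX).trans (h'.eqv hX').symm

theorem U_T (h : IsSec M K W₀ VX U S) (h' : IsSec M K W₀' VX U' S') {X₀ : E} (hX : X₀ ∈ S)
    (hX' : X₀ ∈ S') (w : W₀) : U' X₀ (h.T h' hX hX' w : F) = U X₀ w := by
  change U' X₀ (((h'.eqv hX').symm (h.eqv hX w) : W₀') : F) = _
  rw [h'.eqv_symm hX', h.eqv_apply hX]

theorem inner_T (h : IsSec M K W₀ VX U S) (h' : IsSec M K W₀' VX U' S') {X₀ : E} (hX : X₀ ∈ S)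
    (hX' : X₀ ∈ S') (w w' : W₀) :
    ⟪(h.T h' hX hX' w : F), (h.T h' hX hX' w' : F)⟫_ℂ = ⟪(w : F), (w' : F)⟫_ℂ := by
  rw [← h'.inner X₀ hX' _ (h.T h' hX hX' w).2 _ (h.T h' hX hX' w').2, h.U_T h', h.U_T h',
    h.inner X₀ hX _ w.2 _ w'.2]

theorem inj (h : IsSec M K W₀ VX U S) {X : E} (hX : X ∈ S) {w w' : F} (hw : w ∈ W₀)
    (hw' : w' ∈ W₀) (e : U X w = U X w') : w = w' := by
  have := (h.eqv hX).injective (a₁ := ⟨w, hw⟩) (a₂ := ⟨w', hw'⟩) (Subtype.ext e)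
  exact congrArg Subtype.val this

theorem T_light (h : IsSec M K W₀ VX U S) (h' : IsSec M K W₀' VX U' S') (hW : M.InvOn K W₀)
    (hW' : M.InvOn K W₀') {X₀ : E} (hX : X₀ ∈ S) (hX' : X₀ ∈ S') {x : V} (hx : x ∈ K) (w : W₀) :
    (h.T h' hX hX' ⟨M.θ x w, hW x hx w w.2⟩ : F) = M.θ x (h.T h' hX hX' w) := by
  refine h'.inj hX' (h.T h' hX hX' _).2 (hW' x hx _ (h.T h' hX hX' w).2) ?_
  rw [h.U_T h', h'.light X₀ hX' x hx _ (h.T h' hX hX' w).2, h.U_T h', h.light X₀ hX x hx w w.2]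

/-- The comparison factor. -/
def lam (h : IsSec M K W₀ VX U S) (h' : IsSec M K W₀' VX U' S') {X₀ : E} (hX : X₀ ∈ S)
    (hX' : X₀ ∈ S') (Ω : W₀) (X : E) : ℂ := ⟪U X Ω, U' X (h.T h' hX hX' Ω)⟫_ℂ

/-- **Comparison of two sections**: `U' X (T w) = lam X • U X w`. -/
theorem compare (h : IsSec M K W₀ VX U S) (h' : IsSec M K W₀' VX U' S') (hW : M.IrrOn K W₀)
    (hW' : M.InvOn K W₀') {X₀ : E} (hX : X₀ ∈ S) (hX' : X₀ ∈ S') {Ω : W₀} (hΩ : ‖(Ω : F)‖ = 1)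
    {X : E} (h1 : X ∈ S) (h2 : X ∈ S') (w : W₀) :
    U' X (h.T h' hX hX' w) = h.lam h' hX hX' Ω X • U X w := by
  -- the map `A = u_X⁻¹ u'_X T` on `W₀`
  set A₀ : W₀ →ₗ[ℂ] W₀ := ((h.T h' hX hX').trans ((h'.eqv h2).trans (h.eqv h1).symm)).toLinearMap
    with hA₀
  have hUA : ∀ w : W₀, U X (A₀ w : F) = U' X (h.T h' hX hX' w) := fun w => by
    change U X (((h.eqv h1).symm (h'.eqv h2 (h.T h' hX hX' w)) : W₀) : F) = _
    rw [h.eqv_symm h1, h'.eqv_apply h2]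
  set A : F →ₗ[ℂ] F := W₀.subtype ∘ₗ A₀ ∘ₗ (W₀.orthogonalProjectionOnto : F →L[ℂ] W₀).toLinearMap
    with hA
  have hAw : ∀ w : W₀, A w = A₀ w := fun w => by
    change ((A₀ (W₀.orthogonalProjectionOnto (w : F)) : W₀) : F) = A₀ w
    rw [Submodule.orthogonalProjectionOnto_mem_subspace_eq_self]
  obtain ⟨c, hc⟩ := hW.schur A (fun f _ => (A₀ _).2) (fun x hx f hf => by
    have e1 := hAw ⟨M.θ x f, hW.1 x hx f hf⟩
    have e2 := hAw ⟨f, hf⟩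
    simp only at e1 e2
    rw [e1, e2]
    refine h.inj h1 (A₀ _).2 (hW.1 x hx _ (A₀ _).2) ?_
    rw [hUA, h.light X h1 x hx _ (A₀ _).2, hUA, h.T_light h' hW.1 hW' hX hX' hx ⟨f, hf⟩,
      h'.light X h2 x hx _ (h.T h' hX hX' ⟨f, hf⟩).2])
  have key : ∀ w : W₀, U' X (h.T h' hX hX' w) = c • U X w := fun w => by
    rw [← hUA, ← hAw, hc w w.2, map_smul]
  have hcl : h.lam h' hX hX' Ω X = c := by
    rw [lam, key, inner_smul_right, h.inner X h1 _ Ω.2 _ Ω.2, inner_self_c, hΩ]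
    simp
  rw [key, hcl]

theorem norm_lam (h : IsSec M K W₀ VX U S) (h' : IsSec M K W₀' VX U' S') (hW : M.IrrOn K W₀)
    (hW' : M.InvOn K W₀') {X₀ : E} (hX : X₀ ∈ S) (hX' : X₀ ∈ S') {Ω : W₀} (hΩ : ‖(Ω : F)‖ = 1)
    {X : E} (h1 : X ∈ S) (h2 : X ∈ S') : ‖h.lam h' hX hX' Ω X‖ = 1 := by
  have e1 := h.compare h' hW hW' hX hX' hΩ h1 h2 Ω
  have e2 : ⟪U' X (h.T h' hX hX' Ω), U' X (h.T h' hX hX' Ω)⟫_ℂ = 1 := by
    rw [h'.inner X h2 _ (h.T h' hX hX' Ω).2 _ (h.T h' hX hX' Ω).2, h.inner_T h', inner_self_c, hΩ]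
    simp
  have e3 : ⟪U X (Ω : F), U X (Ω : F)⟫_ℂ = 1 := by
    rw [h.inner X h1 _ Ω.2 _ Ω.2, inner_self_c, hΩ]
    simp
  rw [e1, inner_smul_left, inner_smul_right, e3, mul_one, Complex.conj_mul'] at e2
  have e4 : ‖h.lam h' hX hX' Ω X‖ ^ 2 = 1 := by exact_mod_cast e2
  nlinarith [norm_nonneg (h.lam h' hX hX' Ω X)]

theorem contDiffAt_lam (h : IsSec M K W₀ VX U S) (h' : IsSec M K W₀' VX U' S') {X₀ : E}
    (hX : X₀ ∈ S) (hX' : X₀ ∈ S') (Ω : W₀) {X : E} (h1 : X ∈ S) (h2 : X ∈ S') :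
    ContDiffAt ℝ ∞ (h.lam h' hX hX' Ω) X :=
  ContDiffAt.inner ℂ (h.smooth X h1 _) (h'.smooth X h2 _)

/-- The comparison factor has derivative zero. -/
theorem fderiv_lam (h : IsSec M K W₀ VX U S) (h' : IsSec M K W₀' VX U' S') {X₀ : E}
    (hX : X₀ ∈ S) (hX' : X₀ ∈ S') (Ω : W₀) {X : E} (h1 : X ∈ S) (h2 : X ∈ S') :
    fderiv ℝ (h.lam h' hX hX' Ω) X = 0 := by
  ext e
  unfold lam
  rw [fderiv_inner_apply ℂ (h.diff h1 _) (h'.diff h2 _),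
    h'.perp h2 (h.mem X h1 _ Ω.2) (h.T h' hX hX' Ω).2, zero_add, ← inner_conj_symm,
    h.perp h1 (h'.mem X h2 _ (h.T h' hX hX' Ω).2) Ω.2, map_zero]
  rfl

end IsSec

/-! ### The section of `HvDef_442` -/

section inst

variable {M : CRep V F} [FiniteDimensional ℝ V]

/-- Reality of the overlaps from an antiunitary lift. -/
theorem im_inner_proj {Θ : F → F} (hΘ : Real311.AntiU Θ) (O : V ≃ₗᵢ[ℝ] V)
    (h : ∀ x f, Θ (M.θ x f) = M.θ (O x) (Θ f)) {Ω : F} (hΩ : Θ Ω = Ω) {J J' : V →ₗ[ℝ] V}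
    (hJ : PCS J) (hJ' : PCS J') (hO : ∀ x, O (J x) = -J (O x)) (hO' : ∀ x, O (J' x) = -J' (O x)) :
    (⟪M.proj J Ω, M.proj J' Ω⟫_ℂ).im = 0 := by
  have key : ∀ J : V →ₗ[ℝ] V, PCS J → (∀ x, O (J x) = -J (O x)) →
      ∀ f, Θ (M.proj J f) = M.proj J (Θ f) := fun J hJ hO f => by
    refine M.proj_cov M hJ.skew O Θ hΘ.add hΘ.real_smul h J (Or.inr ⟨?_, fun f => ?_⟩) f
    · ext x
      rw [LinearMap.neg_apply, CRep.conjJ_apply, hO, LinearIsometryEquiv.apply_symm_apply, neg_neg]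
    · rw [hΘ.smul, Complex.conj_I, neg_smul]
  exact hΘ.im_inner (by rw [key J hJ hO, hΩ]) (by rw [key J' hJ' hO', hΩ])

/-- **The projection section is a flat section.** -/
theorem isSec_U (hI : M.Irr) {J₀ : V →ₗ[ℝ] V} (h0 : PCS J₀) {J : E → V →ₗ[ℝ] V}
    (hJ : ∀ X, PCS (J X)) (hl : ∀ X y, J₀ y = 0 → J X y = 0) {Ω : F} (hΩ : Ω ∈ M.vacJ J₀)
    (hΩ1 : ‖Ω‖ = 1) {S : Set E} (hS : IsOpen S) (hl' : ∀ X ∈ S, ∀ y, J X y = 0 → J₀ y = 0)
    (hsm : ∀ X ∈ S, ∀ y, ContDiffAt ℝ ∞ (fun Y => J Y y) X) (hne : ∀ X ∈ S, M.proj (J X) Ω ≠ 0)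
    (hreal : ∀ X ∈ S, ∀ᶠ Y in 𝓝 X, (⟪M.proj (J X) Ω, M.proj (J Y) Ω⟫_ℂ).im = 0) :
    IsSec M (CRep.light J₀) (M.vacJ J₀) (fun X => M.vacJ (J X)) (fun X => M.U (J X) Ω) S where
  isOpen := hS
  mem X hX w hw := M.U_mem (hJ X) Ω w
  surj X hX v hv := by
    obtain ⟨f, hf, e⟩ := hI.U_surj h0 (hJ X) (hl' X hX) hΩ (hne X hX) hv
    exact ⟨f, hf, e⟩
  inner X hX w hw w' hw' := hI.inner_U h0 (hJ X) (hl X) hΩ hΩ1 (hne X hX) hw hw'
  light X hX x hx w hw := M.U_light (hJ X) Ω (hl X x (CRep.mem_light.1 hx)) w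
  smooth X hX f := M.contDiffAt_U (hsm X hX) contDiffAt_const (hne X hX)
  flat X hX w hw w' hw' e := by
    have h1 : ∀ f : F, HasFDerivAt (fun Y => M.U (J Y) Ω f)
        (fderiv ℝ (fun Y => M.U (J Y) Ω f) X) X := fun f =>
      ((M.contDiffAt_U (n := ∞) (f := fun _ => f) (hsm X hX) contDiffAt_const
        (hne X hX)).differentiableAt (by simp)).hasFDerivAt
    exact hI.U_flat h0 hJ hl hΩ hΩ1 (Filter.mem_of_superset (hS.mem_nhds hX) hne)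
      (hreal X hX) hw' hw (h1 w) (h1 Ω) e

end inst

end Crest.Agent.R330.Sec311

end
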