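import Crest.Agent.R330.SlB_314

/-!
Row 330, S5b (slice theorem), part C: the quadratic estimate (QUAD) for orbits,
the nearest point property and (STAR).
-/

set_option autoImplicit false
noncomputable section

open Matrix
open Crest.MathPhysics.MatrixQM
open Crest.Agent.R330.SlA314 Crest.Agent.R330.SlB314

namespace Crest.Agent.R330.SlC314

open scoped Matrix.Norms.Frobenius

variable {N : ℕ} (b : ColorBasis N)

theorem exists_approx {V W : Type*} [NormedAddCommGroup V] [NormedSpace ℂ V]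
    [FiniteDimensional ℂ V] [NormedAddCommGroup W] [NormedSpace ℂ W] [FiniteDimensional ℂ W]
    (L : V →ₗ[ℂ] W) :
    ∃ K : ℝ, 0 < K ∧ ∀ u, ∃ d, L d = L u ∧ ‖d‖ ≤ K * ‖L u‖ := by
  have : CompleteSpace V := FiniteDimensional.complete ℂ V
  have : CompleteSpace (LinearMap.range L) := FiniteDimensional.complete ℂ _
  obtain ⟨K, hK, h⟩ := ContinuousLinearMap.exists_preimage_norm_le
    (LinearMap.toContinuousLinearMap L.rangeRestrict) L.surjective_rangeRestrict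
  refine ⟨K, hK, fun u => ?_⟩
  obtain ⟨d, hd, hd'⟩ := h (L.rangeRestrict u)
  refine ⟨d, ?_, ?_⟩
  · have := congrArg Subtype.val hd
    simpa using this
  · simpa using hd'

theorem frob_sq (A : Matrix (Fin N) (Fin N) ℂ) : ((‖A‖ ^ 2 : ℝ) : ℂ) = (A * Aᴴ).trace := by
  have h : ‖A‖ ^ 2 = ∑ i, ∑ j, ‖A i j‖ ^ 2 := by
    rw [Matrix.frobenius_norm_def]
    have h0 : 0 ≤ ∑ i, ∑ j, ‖A i j‖ ^ (2 : ℝ) :=
      Finset.sum_nonneg fun i _ => Finset.sum_nonneg fun j _ => by positivity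
    rw [← Real.rpow_natCast, ← Real.rpow_mul h0]
    norm_num
  rw [h]
  push_cast
  rw [Matrix.trace]
  refine Finset.sum_congr rfl fun i _ => ?_
  rw [Matrix.diag_apply, Matrix.mul_apply]
  refine Finset.sum_congr rfl fun j _ => ?_
  rw [Matrix.conjTranspose_apply]
  rw [← starRingEnd_apply, Complex.mul_conj]
  rw [Complex.normSq_eq_norm_sq]
  push_cast
  rfl

theorem norm_sq_mat (x : Cfg N) : ‖x‖ ^ 2 = ∑ i, ‖mat b x i‖ ^ 2 := by
  have h : ((‖x‖ ^ 2 : ℝ) : ℂ) = ((∑ i, ‖mat b x i‖ ^ 2 : ℝ) : ℂ) := by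
    rw [norm_sq_eq b]
    push_cast
    refine Finset.sum_congr rfl fun i _ => ?_
    have := frob_sq (mat b x i)
    push_cast at this
    rw [this, (mat_herm b x i).eq]
  exact_mod_cast h

theorem norm_mat_le (x : Cfg N) (i : Fin 9) : ‖mat b x i‖ ≤ ‖x‖ := by
  have h := norm_sq_mat b x
  have h1 : ‖mat b x i‖ ^ 2 ≤ ∑ i, ‖mat b x i‖ ^ 2 :=
    Finset.single_le_sum (f := fun i => ‖mat b x i‖ ^ 2) (fun i _ => by positivity)
      (Finset.mem_univ i)
  rw [← h] at h1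
  exact (sq_le_sq₀ (norm_nonneg _) (norm_nonneg _)).1 h1

theorem norm_le_of_mat (x : Cfg N) (M : ℝ) (hM : 0 ≤ M) (h : ∀ i, ‖mat b x i‖ ≤ M) :
    ‖x‖ ≤ 3 * M := by
  have h1 : ‖x‖ ^ 2 ≤ (3 * M) ^ 2 := by
    rw [norm_sq_mat b x]
    calc ∑ i, ‖mat b x i‖ ^ 2 ≤ ∑ _i : Fin 9, M ^ 2 :=
          Finset.sum_le_sum fun i _ => by
            have := h i
            gcongr
      _ = (3 * M) ^ 2 := by simp; ring
  exact (sq_le_sq₀ (norm_nonneg _) (by positivity)).1 h1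

theorem norm_unitary (g : Matrix.specialUnitaryGroup (Fin N) ℂ) :
    ‖(g : Matrix (Fin N) (Fin N) ℂ)‖ ≤ Real.sqrt N := by
  have h := frob_sq (g : Matrix (Fin N) (Fin N) ℂ)
  rw [← Matrix.star_eq_conjTranspose, mul_star_self', Matrix.trace_one, Fintype.card_fin] at h
  have h2 : ‖(g : Matrix (Fin N) (Fin N) ℂ)‖ ^ 2 = N := by exact_mod_cast h
  exact Real.le_sqrt_of_sq_le h2.le

/-- commutator with the nine matrices of `c` -/
def adC (c : Cfg N) : Matrix (Fin N) (Fin N) ℂ →ₗ[ℂ] (Fin 9 → Matrix (Fin N) (Fin N) ℂ) where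
  toFun A := fun i => A * mat b c i - mat b c i * A
  map_add' A B := by
    funext i
    simp only [Pi.add_apply]
    noncomm_ring
  map_smul' t A := by
    funext i
    simp only [Pi.smul_apply, RingHom.id_apply, smul_sub, smul_mul_assoc, mul_smul_comm]

theorem comm_norm (A C : Matrix (Fin N) (Fin N) ℂ) : ‖A * C - C * A‖ ≤ 2 * ‖A‖ * ‖C‖ := by
  calc ‖A * C - C * A‖ ≤ ‖A * C‖ + ‖C * A‖ := norm_sub_le _ _
    _ ≤ ‖A‖ * ‖C‖ + ‖C‖ * ‖A‖ := add_le_add (norm_mul_le _ _) (norm_mul_le _ _)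
    _ = 2 * ‖A‖ * ‖C‖ := by ring

/-- an anti-Hermitian generator gives a tangent vector -/
theorem exists_om (c : Cfg N) (Wa : Matrix (Fin N) (Fin N) ℂ) (hW : Waᴴ = -Wa) :
    ∃ om : Fin (N ^ 2 - 1) → ℝ, ∀ i, mat b (brx b om c) i = Wa * mat b c i - mat b c i * Wa := by
  rcases Nat.eq_zero_or_pos N with hN | hN
  · subst hN
    exact ⟨0, fun i => Subsingleton.elim _ _⟩
  set H : Matrix (Fin N) (Fin N) ℂ := Complex.I • Wa with hH
  have hHh : H.IsHermitian := by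
    unfold Matrix.IsHermitian
    rw [hH, Matrix.conjTranspose_smul, hW]
    simp
  have htr : ((H.trace.re : ℝ) : ℂ) = H.trace := by
    apply Complex.conj_eq_iff_re.1
    rw [starRingEnd_apply, ← Matrix.trace_conjTranspose, hHh.eq]
  set τ : ℝ := H.trace.re / N with hτ
  set H0 : Matrix (Fin N) (Fin N) ℂ := H - (τ : ℂ) • 1 with hH0
  have hH0h : H0.IsHermitian := by
    unfold Matrix.IsHermitian
    rw [hH0, Matrix.conjTranspose_sub, hHh.eq, Matrix.conjTranspose_smul,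
      Matrix.conjTranspose_one]
    simp
  have hN' : (N : ℂ) ≠ 0 := by exact_mod_cast hN.ne'
  have hH0t : H0.trace = 0 := by
    have h1 : H0.trace = H.trace - (τ : ℂ) * N := by
      rw [hH0, trace_sub, trace_smul (τ : ℂ) (1 : Matrix (Fin N) (Fin N) ℂ), trace_one,
        Fintype.card_fin, smul_eq_mul]
    rw [h1, hτ]
    push_cast
    rw [htr]
    field_simp
    ring
  refine ⟨fun A => (b.T A * H0).trace.re, fun i => ?_⟩
  rw [mat_brx, exists_cm b H0 hH0h hH0t, hH0, hH]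
  simp only [Matrix.sub_mul, Matrix.mul_sub, smul_mul_assoc, mul_smul_comm, Matrix.one_mul,
    Matrix.mul_one, smul_sub, smul_smul, neg_smul, neg_mul]
  simp

theorem quad (c : Cfg N) : ∃ K : ℝ, 0 < K ∧ ∀ g : Matrix.specialUnitaryGroup (Fin N) ℂ,
    ∃ om : Fin (N ^ 2 - 1) → ℝ,
      ‖b.act g c - c - brx b om c‖ ≤ K * ‖b.act g c - c‖ ^ 2 := by
  obtain ⟨K, hK, hL⟩ := exists_approx (adC b c)
  set S : ℝ := Real.sqrt N with hS
  have hS0 : 0 ≤ S := Real.sqrt_nonneg _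
  refine ⟨9 * (K * S) ^ 2 * ‖c‖ + 1, by positivity, fun g => ?_⟩
  set U : Matrix (Fin N) (Fin N) ℂ := (g : Matrix (Fin N) (Fin N) ℂ) with hU
  have hUs : star U * U = 1 := star_mul_self' g
  have hsU : U * star U = 1 := mul_star_self' g
  rw [Matrix.star_eq_conjTranspose] at hUs hsU
  set R : Cfg N := b.act g c - c with hR
  have hmR : ∀ i, mat b R i = U * mat b c i * Uᴴ - mat b c i := by
    intro i
    rw [hR, mat_sub, mat_act, Matrix.star_eq_conjTranspose]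
  obtain ⟨D, hD, hDn⟩ := hL U
  have hcomm : ∀ i, U * mat b c i - mat b c i * U = mat b R i * U := by
    intro i
    rw [hmR, Matrix.sub_mul, Matrix.mul_assoc (U * mat b c i), hUs, Matrix.mul_one]
  have hadn : ‖adC b c U‖ ≤ S * ‖R‖ := by
    refine (pi_norm_le_iff_of_nonneg (by positivity)).2 fun i => ?_
    change ‖U * mat b c i - mat b c i * U‖ ≤ _
    rw [hcomm]
    calc ‖mat b R i * U‖ ≤ ‖mat b R i‖ * ‖U‖ := norm_mul_le _ _
      _ ≤ ‖R‖ * S := mul_le_mul (norm_mat_le b R i) (norm_unitary g) (norm_nonneg _)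
          (norm_nonneg _)
      _ = S * ‖R‖ := mul_comm _ _
  have hDn' : ‖D‖ ≤ K * S * ‖R‖ := by
    calc ‖D‖ ≤ K * ‖adC b c U‖ := hDn
      _ ≤ K * (S * ‖R‖) := by gcongr
      _ = K * S * ‖R‖ := by ring
  have hDc : ∀ i, D * mat b c i - mat b c i * D = U * mat b c i - mat b c i * U := fun i =>
    congrFun hD i
  set A : Matrix (Fin N) (Fin N) ℂ := U - D with hA
  have hAc : ∀ i, A * mat b c i = mat b c i * A := by
    intro i
    have := hDc i
    rw [hA, Matrix.sub_mul, Matrix.mul_sub]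
    rw [sub_eq_sub_iff_add_eq_add] at this ⊢
    rw [add_comm (U * mat b c i), add_comm (mat b c i * U)] at *
    exact this.symm
  have hAc' : ∀ i, Aᴴ * mat b c i = mat b c i * Aᴴ := by
    intro i
    have := congrArg Matrix.conjTranspose (hAc i)
    rw [Matrix.conjTranspose_mul, Matrix.conjTranspose_mul, (mat_herm b c i).eq] at this
    exact this.symm
  set W : Matrix (Fin N) (Fin N) ℂ := D * Aᴴ with hW
  have hWW : W + Wᴴ = 1 - A * Aᴴ - D * Dᴴ := by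
    have hUU : (A + D) * (A + D)ᴴ = 1 := by
      rw [hA, sub_add_cancel]; exact hsU
    rw [Matrix.conjTranspose_add, Matrix.add_mul, Matrix.mul_add, Matrix.mul_add] at hUU
    rw [hW, Matrix.conjTranspose_mul, Matrix.conjTranspose_conjTranspose, ← hUU]
    abel
  set Wa : Matrix (Fin N) (Fin N) ℂ := (1 / 2 : ℂ) • (W - Wᴴ) with hWa
  have hWah : Waᴴ = -Wa := by
    rw [hWa, Matrix.conjTranspose_smul, Matrix.conjTranspose_sub,
      Matrix.conjTranspose_conjTranspose, ← smul_neg, neg_sub]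
    simp
  obtain ⟨om, hom⟩ := exists_om b c Wa hWah
  refine ⟨om, ?_⟩
  have key : ∀ i, mat b (R - brx b om c) i =
      (D * mat b c i - mat b c i * D) * Dᴴ -
        (1 / 2 : ℂ) • (D * Dᴴ * mat b c i - mat b c i * (D * Dᴴ)) := by
    intro i
    rw [mat_sub, hom, hmR]
    have h1 : U * mat b c i * Uᴴ - mat b c i = (D * mat b c i - mat b c i * D) * Uᴴ := by
      rw [hDc, Matrix.sub_mul, Matrix.mul_assoc (mat b c i), hsU, Matrix.mul_one]
    have h2 : Uᴴ = Aᴴ + Dᴴ := by rw [hA, ← Matrix.conjTranspose_add, sub_add_cancel]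
    have h3 : (D * mat b c i - mat b c i * D) * Aᴴ = W * mat b c i - mat b c i * W := by
      rw [hW, Matrix.sub_mul, Matrix.mul_assoc, ← hAc', ← Matrix.mul_assoc,
        Matrix.mul_assoc (mat b c i)]
    have h4 : W * mat b c i - mat b c i * W =
        (Wa * mat b c i - mat b c i * Wa) -
          (1 / 2 : ℂ) • (D * Dᴴ * mat b c i - mat b c i * (D * Dᴴ)) := by
      have h5 : W = Wa + (1 / 2 : ℂ) • (1 - A * Aᴴ - D * Dᴴ) := by
        rw [← hWW, hWa, ← smul_add]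
        have : W - Wᴴ + (W + Wᴴ) = (2 : ℂ) • W := by rw [two_smul]; abel
        rw [this, smul_smul]
        norm_num
      have h6 : A * Aᴴ * mat b c i = mat b c i * (A * Aᴴ) := by
        rw [Matrix.mul_assoc, hAc', ← Matrix.mul_assoc, hAc, Matrix.mul_assoc]
      conv_lhs => rw [h5]
      simp only [Matrix.add_mul, Matrix.mul_add, smul_mul_assoc, mul_smul_comm, Matrix.sub_mul,
        Matrix.mul_sub, Matrix.one_mul, Matrix.mul_one, smul_sub, h6]
      abel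
    rw [h1, h2, Matrix.mul_add, h3, h4]
    abel
  have hkey : ∀ i, ‖mat b (R - brx b om c) i‖ ≤ 3 * (K * S * ‖R‖) ^ 2 * ‖c‖ := by
    intro i
    rw [key]
    have hDs : ‖Dᴴ‖ = ‖D‖ := Matrix.frobenius_norm_conjTranspose D
    have e1 : ‖(D * mat b c i - mat b c i * D) * Dᴴ‖ ≤ 2 * ‖D‖ ^ 2 * ‖c‖ := by
      calc _ ≤ ‖D * mat b c i - mat b c i * D‖ * ‖Dᴴ‖ := norm_mul_le _ _
        _ ≤ (2 * ‖D‖ * ‖mat b c i‖) * ‖D‖ := by
            rw [hDs]
            gcongr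
            exact comm_norm _ _
        _ ≤ (2 * ‖D‖ * ‖c‖) * ‖D‖ := by
            gcongr
            exact norm_mat_le b c i
        _ = 2 * ‖D‖ ^ 2 * ‖c‖ := by ring
    have e2 : ‖(1 / 2 : ℂ) • (D * Dᴴ * mat b c i - mat b c i * (D * Dᴴ))‖ ≤ ‖D‖ ^ 2 * ‖c‖ := by
      rw [norm_smul]
      have e3 : ‖D * Dᴴ‖ ≤ ‖D‖ ^ 2 := by
        calc ‖D * Dᴴ‖ ≤ ‖D‖ * ‖Dᴴ‖ := norm_mul_le _ _
          _ = ‖D‖ ^ 2 := by rw [hDs]; ring
      have e4 : ‖D * Dᴴ * mat b c i - mat b c i * (D * Dᴴ)‖ ≤ 2 * ‖D‖ ^ 2 * ‖c‖ := by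
        calc _ ≤ 2 * ‖D * Dᴴ‖ * ‖mat b c i‖ := comm_norm _ _
          _ ≤ 2 * ‖D‖ ^ 2 * ‖c‖ := by
            gcongr
            exact norm_mat_le b c i
      have e5 : ‖(1 / 2 : ℂ)‖ = 1 / 2 := by norm_num
      rw [e5]
      nlinarith
    calc _ ≤ ‖(D * mat b c i - mat b c i * D) * Dᴴ‖ +
          ‖(1 / 2 : ℂ) • (D * Dᴴ * mat b c i - mat b c i * (D * Dᴴ))‖ := norm_sub_le _ _
      _ ≤ 2 * ‖D‖ ^ 2 * ‖c‖ + ‖D‖ ^ 2 * ‖c‖ := add_le_add e1 e2
      _ = 3 * ‖D‖ ^ 2 * ‖c‖ := by ring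
      _ ≤ 3 * (K * S * ‖R‖) ^ 2 * ‖c‖ := by gcongr
  have := norm_le_of_mat b (R - brx b om c) _ (by positivity) hkey
  calc ‖R - brx b om c‖ ≤ 3 * (3 * (K * S * ‖R‖) ^ 2 * ‖c‖) := this
    _ = (9 * (K * S) ^ 2 * ‖c‖) * ‖R‖ ^ 2 := by ring
    _ ≤ (9 * (K * S) ^ 2 * ‖c‖ + 1) * ‖R‖ ^ 2 := by
        gcongr
        linarith

/-- (QUAD) in the form used below -/
theorem quad_inner (c : Cfg N) : ∃ K : ℝ, 0 < K ∧
    ∀ (g : Matrix.specialUnitaryGroup (Fin N) ℂ) (y : Cfg N), y ∈ Nor b c →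
      inner ℝ y (b.act g c - c) ≤ K * ‖y‖ * ‖b.act g c - c‖ ^ 2 := by
  obtain ⟨K, hK, h⟩ := quad b c
  refine ⟨K, hK, fun g y hy => ?_⟩
  obtain ⟨om, hom⟩ := h g
  have h1 : inner ℝ y (brx b om c) = (0 : ℝ) := by
    rw [real_inner_comm]
    exact (mem_Nor b).1 hy om
  have h2 : inner ℝ y (b.act g c - c) = inner ℝ y (b.act g c - c - brx b om c) := by
    rw [inner_sub_right _ (b.act g c - c), h1, sub_zero]
  rw [h2]
  calc inner ℝ y (b.act g c - c - brx b om c) ≤ ‖y‖ * ‖b.act g c - c - brx b om c‖ :=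
        real_inner_le_norm _ _
    _ ≤ ‖y‖ * (K * ‖b.act g c - c‖ ^ 2) := by gcongr
    _ = K * ‖y‖ * ‖b.act g c - c‖ ^ 2 := by ring

/-- nearest point property: `r1` is a uniform radius -/
theorem nearest (c : Cfg N) : ∃ r1 : ℝ, 0 < r1 ∧
    ∀ (g : Matrix.specialUnitaryGroup (Fin N) ℂ) (y : Cfg N), y ∈ Nor b c → ‖y‖ < r1 →
      ‖y‖ ^ 2 + ‖b.act g c - c‖ ^ 2 / 2 ≤ ‖c + y - b.act g c‖ ^ 2 := by
  obtain ⟨K, hK, h⟩ := quad_inner b c
  refine ⟨1 / (4 * K), by positivity, fun g y hy hr => ?_⟩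
  have h1 : c + y - b.act g c = y - (b.act g c - c) := by abel
  rw [h1, norm_sub_sq_real y (b.act g c - c)]
  have h2 := h g y hy
  have h3 : K * ‖y‖ ≤ 1 / 4 := by
    rw [lt_div_iff₀ (by positivity)] at hr
    linarith
  have h4 : K * ‖y‖ * ‖b.act g c - c‖ ^ 2 ≤ 1 / 4 * ‖b.act g c - c‖ ^ 2 := by
    gcongr
  linarith

/-- (STAR): two points of the slice of radius `r1` are related only by the stabiliser of `c` -/
theorem star (c : Cfg N) : ∃ r1 : ℝ, 0 < r1 ∧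
    (∀ (g : Matrix.specialUnitaryGroup (Fin N) ℂ) (y : Cfg N), y ∈ Nor b c → ‖y‖ < r1 →
      ‖y‖ ^ 2 + ‖b.act g c - c‖ ^ 2 / 2 ≤ ‖c + y - b.act g c‖ ^ 2) ∧
    ∀ (g : Matrix.specialUnitaryGroup (Fin N) ℂ) (y y' : Cfg N), y ∈ Nor b c → y' ∈ Nor b c →
      ‖y‖ < r1 → ‖y'‖ < r1 → b.act g (c + y) = c + y' → b.act g c = c := by
  obtain ⟨r1, hr1, h⟩ := nearest b c
  refine ⟨r1, hr1, h, fun g y y' hy hy' hn hn' he => ?_⟩
  have h1 := h g y' hy' hn'
  have h2 := h g⁻¹ y hy hn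
  have e1 : ‖c + y' - b.act g c‖ = ‖y‖ := by
    rw [← he, ← act_sub, act_norm]
    congr 1
    abel
  have e2 : ‖c + y - b.act g⁻¹ c‖ = ‖y'‖ := by
    have : c + y - b.act g⁻¹ c = b.act g⁻¹ y' := by
      have : b.act g⁻¹ (c + y') = c + y := by rw [← he, act_inv_act]
      rw [← this, ← act_sub]
      congr 1
      abel
    rw [this, act_norm]
  rw [e1] at h1
  rw [e2] at h2
  have h3 : ‖b.act g c - c‖ ^ 2 ≤ 0 := by
    have := sq_nonneg ‖b.act g⁻¹ c - c‖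
    linarith
  have h4 : ‖b.act g c - c‖ = 0 := by
    have := sq_nonneg ‖b.act g c - c‖
    exact pow_eq_zero_iff (two_ne_zero) |>.1 (le_antisymm h3 this)
  exact sub_eq_zero.1 (norm_eq_zero.1 h4)

end Crest.Agent.R330.SlC314
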