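import Crest.Agent.R330.VJacC_969
import Crest.Agent.R330.SlJ_712

/-!
# Row 330, S6-SLQ / S8-SL (helper186): the slice density

* `det_JL_eq` : 969's determinant is 712's `jac`.
* `jd_act`, `jn_act` : invariance of the density under the stabiliser.
* `jn_bounds` : two-sided bounds on the ball.
-/

set_option autoImplicit false
noncomputable section

open MeasureTheory Metric Set
open Crest.MathPhysics.MatrixQM
open Crest.Agent.R330.SlA314 Crest.Agent.R330.SlB314 Crest.Agent.R330.SlC314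
open Crest.Agent.R330.SlD314 Crest.Agent.R330.SlP314
open Crest.Agent.R330.SUgrp596
open scoped ContDiff Topology ENNReal InnerProductSpace

namespace Crest.Agent.R330.SlJ186

open Crest.Agent.R330.VJac969

variable {N : ℕ} (b : ColorBasis N)

theorem det_JL_eq (c u : Cfg N) :
    LinearMap.det (VJac969.JL b c u) = SlJ712.jac b c u := by
  unfold SlJ712.jac
  symm
  refine det_block (Tan b c) (SlJ712.JL b c u) (VJac969.JL b c u) ?_ ?_
  · intro v hv
    rw [SlJ712.JL_apply, omL_of_Nor b hv, PN_of_mem b hv]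
    have h : brx b (0 : Fin (N ^ 2 - 1) → ℝ) (c + u) = 0 := by
      have := brx_smul_left b 0 (0 : Fin (N ^ 2 - 1) → ℝ) (c + u)
      rwa [zero_smul, zero_smul] at this
    rw [h, map_zero, zero_add]
  · intro x
    change PT b c (SlJ712.JL b c u x) = _
    rw [SlJ712.JL_apply, map_add, PT_of_mem b (PT_mem b c _), PT_of_mem_Nor b (PN_mem b c _),
      add_zero]
    rfl

theorem jd_eq_abs (c u : Cfg N) : jd b c u = |SlJ712.jac b c u| := by
  unfold jd
  rw [det_JL_eq]

/-- **Stabiliser invariance** of the Jacobian factor. -/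
theorem jd_act {g : Matrix.specialUnitaryGroup (Fin N) ℂ} {c : Cfg N} (hg : b.act g c = c)
    {u : Cfg N} (hu : u ∈ Nor b c) : jd b c (b.act g u) = jd b c u := by
  rw [jd_eq_abs, jd_eq_abs, SlJ712.jac_act b hg hu]

/-- **Stabiliser invariance** of the slice density. -/
theorem jn_act {g : Matrix.specialUnitaryGroup (Fin N) ℂ} {c : Cfg N} (δ : ℝ)
    (hg : b.act g c = c) {u : Cfg N} (hu : u ∈ Nor b c) :
    jn b c δ (b.act g u) = jn b c δ u := by
  unfold jn
  rw [jd_act b hg hu]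

/-- two-sided bounds of the density -/
theorem jn_bounds {c : Cfg N} {δ : ℝ} (h : GoodRad b c δ) :
    ∃ c1 c2 : ℝ, 0 < c1 ∧ 0 < c2 ∧ ∀ u ∈ Nor b c, ‖u‖ ≤ δ → c1 ≤ jn b c δ u ∧ jn b c δ u ≤ c2 := by
  have hK : IsCompact (closedBall (0 : Cfg N) δ ∩ (Nor b c : Set (Cfg N))) :=
    (isCompact_closedBall _ _).inter_right (Nor b c).closed_of_finiteDimensional
  have hne : (closedBall (0 : Cfg N) δ ∩ (Nor b c : Set (Cfg N))).Nonempty :=
    ⟨0, mem_closedBall_self h.pos.le, (Nor b c).zero_mem⟩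
  have hcont := continuous_jn b c δ
  obtain ⟨u1, hu1, h1⟩ := hK.exists_isMinOn hne hcont.continuousOn
  obtain ⟨u2, hu2, h2⟩ := hK.exists_isMaxOn hne hcont.continuousOn
  have hpos : ∀ u ∈ closedBall (0 : Cfg N) δ ∩ (Nor b c : Set (Cfg N)), 0 < jn b c δ u := by
    rintro u ⟨hu, hu'⟩
    refine jn_pos b h hu' ?_
    rw [mem_closedBall_zero_iff] at hu
    have := h.pos
    linarith
  refine ⟨jn b c δ u1, jn b c δ u2, hpos _ hu1, hpos _ hu2, fun u hu hn => ?_⟩
  have hm : u ∈ closedBall (0 : Cfg N) δ ∩ (Nor b c : Set (Cfg N)) :=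
    ⟨mem_closedBall_zero_iff.2 hn, hu⟩
  exact ⟨h1 hm, h2 hm⟩

end Crest.Agent.R330.SlJ186

end
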