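import Crest.Agent.R330.SlI_712

/-!
# Row 330, S5b-B4: consequences of the abstract slice integration formula (helper712)

* `exists_const`: the formula with one positive constant `C`;
* `structure SliceInt`: density `j` on the slice ball with the `lintegral` formula;
* `SliceInt.mp`: `(g,u) ↦ act g (c + ι u)` is measure preserving from `μ × j du` to the tube;
* for functions constant on the orbits: `lintegral_inv`, `integrableOn_iff`, `setIntegral_inv`,
  and `integral_inv` for functions vanishing off the tube.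
-/

set_option autoImplicit false
set_option linter.unusedSectionVars false

open MeasureTheory Metric Set
open scoped ENNReal NNReal InnerProductSpace

noncomputable section

namespace Crest.Agent.R330.SlK712

open Crest.Agent.R330.Dbl798 Crest.Agent.R330.SlI712

section

variable {G E T V : Type*}
  [Group G] [TopologicalSpace G] [IsTopologicalGroup G] [SecondCountableTopology G]
  [MeasurableSpace G] [BorelSpace G]
  [NormedAddCommGroup E] [InnerProductSpace ℝ E] [FiniteDimensional ℝ E] [MeasurableSpace E]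
  [BorelSpace E]
  [NormedAddCommGroup T] [InnerProductSpace ℝ T] [FiniteDimensional ℝ T] [MeasurableSpace T]
  [BorelSpace T]
  [NormedAddCommGroup V] [InnerProductSpace ℝ V] [FiniteDimensional ℝ V] [MeasurableSpace V]
  [BorelSpace V]

variable {act : G → E → E} {c : E} {τ : T →ₗᵢ[ℝ] E} {ι : V →ₗᵢ[ℝ] E} {e : T → G}
  {d r0 : ℝ} {a : T → ℝ} {J : V → ℝ}

theorem setLIntegral_ofReal_ne_zero {W : Type*} [NormedAddCommGroup W] [InnerProductSpace ℝ W]
    [FiniteDimensional ℝ W] [MeasurableSpace W] [BorelSpace W] {f : W → ℝ} (hf : Measurable f)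
    {d : ℝ} (hd : 0 < d) (h : ∀ t ∈ ball (0 : W) d, 0 < f t) :
    ∫⁻ t in ball (0 : W) d, ENNReal.ofReal (f t) ≠ 0 := by
  intro h0
  have h1 := (setLIntegral_eq_zero_iff measurableSet_ball hf.ennreal_ofReal).1 h0
  have h2 : volume (ball (0 : W) d) = 0 := by
    rw [← nonpos_iff_eq_zero]
    have h3 : ∀ᵐ x ∂(volume : Measure W), x ∉ ball (0 : W) d := by
      filter_upwards [h1] with x hx hx'
      have := hx hx'
      have h4 := h x hx'
      rw [ENNReal.ofReal_eq_zero] at this
      linarith
    have h5 := (ae_iff.1 h3)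
    simp only [not_not] at h5
    exact h5.le
  exact (measure_ball_pos volume (0 : W) hd).ne' h2

theorem exists_const (H : Chart act c τ ι e d r0 a J) (μ : Measure G)
    [IsProbabilityMeasure μ] [μ.IsMulLeftInvariant] [μ.IsMulRightInvariant]
    (hd : 0 < d) (hr0 : 0 < r0) (ha : ∀ t ∈ ball (0 : T) d, 0 < a t)
    (haI : ∫⁻ t in ball (0 : T) d, ENNReal.ofReal (a t) ≠ ∞)
    (hJ : ∀ u ∈ ball (0 : V) r0, 0 < J u)
    (hU : ∀ r, MeasurableSet (tube act c ι r)) :
    ∃ C : ℝ, 0 < C ∧ ∀ r ≤ r0, ∀ f : E → ℝ≥0∞, Measurable f →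
      ∫⁻ x in tube act c ι r, f x = ENNReal.ofReal C *
        ∫⁻ g, (∫⁻ u in ball (0 : V) r, ENNReal.ofReal (J u) * f (act g (c + ι u))) ∂μ := by
  set κ : ℝ≥0∞ := μ {g | act g⁻¹ c ∈ Chart.patch act c e d} with hκ
  set A : ℝ≥0∞ := ∫⁻ t in ball (0 : T) d, ENNReal.ofReal (a t) with hA
  have hA0 : A ≠ 0 := setLIntegral_ofReal_ne_zero H.a_meas hd ha
  have hκ1 : κ ≤ 1 := prob_le_one
  have hκt : κ ≠ ∞ := ne_top_of_le_ne_top ENNReal.one_ne_top hκ1
  have hκ0 : κ ≠ 0 := by
    intro h0
    have h1 := H.slice_lintegral μ le_rfl (hU r0) (fun _ => 1) measurable_const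
    rw [← hκ, h0, zero_mul, ← hA] at h1
    simp only [mul_one, lintegral_const, measure_univ] at h1
    have h2 := setLIntegral_ofReal_ne_zero H.J_meas hr0 hJ
    exact (mul_ne_zero hA0 h2) h1.symm
  refine ⟨(A / κ).toReal, ?_, ?_⟩
  · refine ENNReal.toReal_pos ?_ ?_
    · exact ENNReal.div_ne_zero.2 ⟨hA0, hκt⟩
    · exact ENNReal.div_ne_top haI hκ0
  · intro r hr f hf
    rw [ENNReal.ofReal_toReal (ENNReal.div_ne_top haI hκ0)]
    have h1 := H.slice_lintegral μ hr (hU r) f hf
    rw [← hκ, ← hA] at h1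
    rw [ENNReal.div_eq_inv_mul, mul_assoc, ← h1, ← mul_assoc, ENNReal.inv_mul_cancel hκ0 hκt,
      one_mul]

/-- The slice integration formula with density `j` on the ball of radius `r0` of `V`. -/
structure SliceInt (act : G → E → E) (c : E) (ι : V →ₗᵢ[ℝ] E) (μ : Measure G) (j : V → ℝ)
    (r0 : ℝ) : Prop where
  iso : IsoAct act
  meas : Measurable j
  pos : ∀ u, ‖u‖ < r0 → 0 < j u
  tube_meas : ∀ r, MeasurableSet (tube act c ι r)
  lint : ∀ r ≤ r0, ∀ f : E → ℝ≥0∞, Measurable f →
    ∫⁻ x in tube act c ι r, f x =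
      ∫⁻ g, (∫⁻ u in ball (0 : V) r, ENNReal.ofReal (j u) * f (act g (c + ι u))) ∂μ

theorem exists_sliceInt (H : Chart act c τ ι e d r0 a J) (μ : Measure G)
    [IsProbabilityMeasure μ] [μ.IsMulLeftInvariant] [μ.IsMulRightInvariant]
    (hd : 0 < d) (hr0 : 0 < r0) (ha : ∀ t ∈ ball (0 : T) d, 0 < a t)
    (haI : ∫⁻ t in ball (0 : T) d, ENNReal.ofReal (a t) ≠ ∞)
    (hJ : ∀ u ∈ ball (0 : V) r0, 0 < J u)
    (hU : ∀ r, MeasurableSet (tube act c ι r)) :
    ∃ C : ℝ, 0 < C ∧ SliceInt act c ι μ (fun u => C * J u) r0 := by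
  obtain ⟨C, hC, h⟩ := exists_const H μ hd hr0 ha haI hJ hU
  refine ⟨C, hC, H.iso, H.J_meas.const_mul C, ?_, hU, ?_⟩
  · intro u hu
    exact mul_pos hC (hJ u (by simpa using hu))
  · intro r hr f hf
    rw [h r hr f hf]
    have hm : Measurable fun q : G × V => ENNReal.ofReal (J q.2) * f (act q.1 (c + ι q.2)) := by
      refine (H.J_meas.comp measurable_snd).ennreal_ofReal.mul (hf.comp ?_)
      exact H.iso.cont.measurable.comp
        (measurable_fst.prodMk ((ι.continuous.measurable.comp measurable_snd).const_add c))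
    rw [← lintegral_const_mul]
    · refine lintegral_congr fun g => ?_
      rw [← lintegral_const_mul' _ _ ENNReal.ofReal_ne_top]
      refine lintegral_congr fun u => ?_
      rw [ENNReal.ofReal_mul hC.le, mul_assoc]
    · exact hm.lintegral_prod_right'

namespace SliceInt

variable {μ : Measure G} [IsProbabilityMeasure μ] {j : V → ℝ}

theorem mono (H : SliceInt act c ι μ j r0) {r1 : ℝ} (h : r1 ≤ r0) :
    SliceInt act c ι μ j r1 where
  iso := H.iso
  meas := H.meas
  pos u hu := H.pos u (hu.trans_le h)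
  tube_meas := H.tube_meas
  lint r hr := H.lint r (hr.trans h)

/-- the weighted Lebesgue measure `j(u) du` on the slice ball -/
def nu (j : V → ℝ) (r : ℝ) : Measure V :=
  (volume.restrict (ball (0 : V) r)).withDensity fun u => ENNReal.ofReal (j u)

theorem measurable_map (H : SliceInt act c ι μ j r0) :
    Measurable fun p : G × V => act p.1 (c + ι p.2) :=
  H.iso.cont.measurable.comp
    (measurable_fst.prodMk ((ι.continuous.measurable.comp measurable_snd).const_add c))

theorem nu_ac (j : V → ℝ) (r : ℝ) : nu j r ≪ volume.restrict (ball (0 : V) r) :=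
  withDensity_absolutelyContinuous _ _

theorem ae_ball (j : V → ℝ) (r : ℝ) : ∀ᵐ u ∂(nu j r), ‖u‖ < r := by
  have h : ∀ᵐ u ∂(volume.restrict (ball (0 : V) r)), ‖u‖ < r := by
    rw [ae_restrict_iff' measurableSet_ball]
    exact Filter.Eventually.of_forall fun u hu => by simpa using hu
  exact (nu_ac j r).ae_le h

instance (j : V → ℝ) (r : ℝ) : SFinite (nu j r) := by unfold nu; infer_instance

/-- **measure preserving parametrisation of the tube** -/
theorem mp (H : SliceInt act c ι μ j r0) {r : ℝ} (hr : r ≤ r0) :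
    MeasurePreserving (fun p : G × V => act p.1 (c + ι p.2)) (μ.prod (nu j r))
      (volume.restrict (tube act c ι r)) := by
  refine ⟨H.measurable_map, ?_⟩
  ext s hs
  have hm := H.measurable_map
  rw [Measure.map_apply hm hs, Measure.prod_apply (hm hs)]
  have h1 := H.lint r hr (s.indicator 1) (measurable_one.indicator hs)
  rw [lintegral_indicator_one hs] at h1
  rw [h1]
  refine lintegral_congr fun g => ?_
  have hsec : MeasurableSet (Prod.mk g ⁻¹' ((fun p : G × V => act p.1 (c + ι p.2)) ⁻¹' s)) :=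
    measurable_prodMk_left (hm hs)
  unfold nu
  rw [withDensity_apply _ hsec, ← lintegral_indicator hsec]
  refine lintegral_congr fun u => ?_
  by_cases hu : act g (c + ι u) ∈ s
  · rw [indicator_of_mem (by exact hu), indicator_of_mem hu]
    simp
  · rw [indicator_of_notMem (by exact hu), indicator_of_notMem hu]
    simp

/-- nonnegative functions constant on the orbits in the tube -/
theorem lintegral_inv (H : SliceInt act c ι μ j r0) {r : ℝ} (hr : r ≤ r0) {f : E → ℝ≥0∞}
    (hf : Measurable f) (hinv : ∀ g u, ‖u‖ < r → f (act g (c + ι u)) = f (c + ι u)) :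
    ∫⁻ x in tube act c ι r, f x = ∫⁻ u in ball (0 : V) r, ENNReal.ofReal (j u) * f (c + ι u) := by
  rw [H.lint r hr f hf]
  have h1 : ∀ g, ∫⁻ u in ball (0 : V) r, ENNReal.ofReal (j u) * f (act g (c + ι u)) =
      ∫⁻ u in ball (0 : V) r, ENNReal.ofReal (j u) * f (c + ι u) := by
    intro g
    refine setLIntegral_congr_fun measurableSet_ball fun u hu => ?_
    rw [hinv g u (by simpa using hu)]
  simp only [h1, lintegral_const, measure_univ, mul_one]

section Bochner

variable {X : Type*} [NormedAddCommGroup X] {h : E → X}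

theorem ae_inv {r : ℝ} (hinv : ∀ g u, ‖u‖ < r → h (act g (c + ι u)) = h (c + ι u)) :
    (fun p : G × V => h (act p.1 (c + ι p.2))) =ᵐ[μ.prod (nu j r)]
      fun p => h (c + ι p.2) := by
  have h1 : ∀ᵐ p : G × V ∂(μ.prod (nu j r)), ‖p.2‖ < r :=
    Measure.quasiMeasurePreserving_snd.ae (ae_ball j r)
  filter_upwards [h1] with p hp
  exact hinv p.1 p.2 hp

theorem aesm_slice (H : SliceInt act c ι μ j r0) {r : ℝ} (hr : r ≤ r0)
    (hh : AEStronglyMeasurable h (volume.restrict (tube act c ι r)))
    (hinv : ∀ g u, ‖u‖ < r → h (act g (c + ι u)) = h (c + ι u)) :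
    AEStronglyMeasurable (fun u => h (c + ι u)) (nu j r) := by
  have h1 : AEStronglyMeasurable (fun p : G × V => h (act p.1 (c + ι p.2)))
      (μ.prod (nu j r)) := hh.comp_measurePreserving (H.mp hr)
  have h2 : AEStronglyMeasurable (fun p : G × V => h (c + ι p.2)) (μ.prod (nu j r)) :=
    h1.congr (ae_inv hinv)
  have h3 := h2.prodMk_left
  have : (ae μ).NeBot := inferInstance
  obtain ⟨g, hg⟩ := h3.exists
  exact hg

theorem integrable_nu_iff (H : SliceInt act c ι μ j r0) {r : ℝ} (hr : r ≤ r0)
    (hh : AEStronglyMeasurable h (volume.restrict (tube act c ι r)))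
    (hinv : ∀ g u, ‖u‖ < r → h (act g (c + ι u)) = h (c + ι u)) :
    IntegrableOn h (tube act c ι r) ↔ Integrable (fun u => h (c + ι u)) (nu j r) := by
  unfold IntegrableOn
  rw [← (H.mp hr).integrable_comp hh]
  have h1 : h ∘ (fun p : G × V => act p.1 (c + ι p.2)) =ᵐ[μ.prod (nu j r)]
      fun p => h (c + ι p.2) := ae_inv hinv
  rw [integrable_congr h1]
  constructor
  · intro h2
    have h3 := h2.prod_right_ae
    have : (ae μ).NeBot := inferInstance
    obtain ⟨g, hg⟩ := h3.exists
    exact hg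
  · intro h2
    exact h2.comp_snd μ

variable [NormedSpace ℝ X]

theorem setIntegral_nu (H : SliceInt act c ι μ j r0) {r : ℝ} (hr : r ≤ r0)
    (hh : AEStronglyMeasurable h (volume.restrict (tube act c ι r)))
    (hinv : ∀ g u, ‖u‖ < r → h (act g (c + ι u)) = h (c + ι u)) :
    ∫ x in tube act c ι r, h x = ∫ u, h (c + ι u) ∂(nu j r) := by
  have hmp := H.mp hr
  have h0 : ∫ x in tube act c ι r, h x =
      ∫ p, h (act p.1 (c + ι p.2)) ∂(μ.prod (nu j r)) := by
    conv_lhs => rw [← hmp.map_eq]
    exact integral_map hmp.measurable.aemeasurable (by rw [hmp.map_eq]; exact hh)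
  rw [h0, integral_congr_ae (ae_inv hinv), integral_fun_snd (f := fun u => h (c + ι u))]
  simp

/-- integrability of functions constant on the orbits -/
theorem integrableOn_iff (H : SliceInt act c ι μ j r0) {r : ℝ} (hr : r ≤ r0)
    (hh : AEStronglyMeasurable h (volume.restrict (tube act c ι r)))
    (hinv : ∀ g u, ‖u‖ < r → h (act g (c + ι u)) = h (c + ι u)) :
    IntegrableOn h (tube act c ι r) ↔
      IntegrableOn (fun u => j u • h (c + ι u)) (ball (0 : V) r) := by
  rw [H.integrable_nu_iff hr hh hinv]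
  unfold nu IntegrableOn
  have h1 : (fun u => ENNReal.ofReal (j u)) = fun u => ((Real.toNNReal (j u) : ℝ≥0) : ℝ≥0∞) := rfl
  rw [h1, integrable_withDensity_iff_integrable_smul H.meas.real_toNNReal]
  refine integrable_congr ?_
  rw [Filter.EventuallyEq, ae_restrict_iff' measurableSet_ball]
  refine Filter.Eventually.of_forall fun u hu => ?_
  have h2 : 0 < j u := H.pos u (lt_of_lt_of_le (by simpa using hu) hr)
  rw [NNReal.smul_def, Real.coe_toNNReal _ h2.le]

/-- **the slice integration formula** for functions constant on the orbits of the tube -/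
theorem setIntegral_inv (H : SliceInt act c ι μ j r0) {r : ℝ} (hr : r ≤ r0)
    (hh : AEStronglyMeasurable h (volume.restrict (tube act c ι r)))
    (hinv : ∀ g u, ‖u‖ < r → h (act g (c + ι u)) = h (c + ι u)) :
    ∫ x in tube act c ι r, h x = ∫ u in ball (0 : V) r, j u • h (c + ι u) := by
  rw [H.setIntegral_nu hr hh hinv]
  unfold nu
  have h1 : (fun u => ENNReal.ofReal (j u)) = fun u => ((Real.toNNReal (j u) : ℝ≥0) : ℝ≥0∞) := rfl
  rw [h1, integral_withDensity_eq_integral_smul H.meas.real_toNNReal]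
  refine setIntegral_congr_fun measurableSet_ball fun u hu => ?_
  have h2 : 0 < j u := H.pos u (lt_of_lt_of_le (by simpa using hu) hr)
  rw [NNReal.smul_def, Real.coe_toNNReal _ h2.le]

/-- the same for functions vanishing off the tube -/
theorem integral_inv (H : SliceInt act c ι μ j r0) {r : ℝ} (hr : r ≤ r0)
    (hh : AEStronglyMeasurable h (volume.restrict (tube act c ι r)))
    (hinv : ∀ g u, ‖u‖ < r → h (act g (c + ι u)) = h (c + ι u))
    (hoff : ∀ x, x ∉ tube act c ι r → h x = 0) :
    ∫ x, h x = ∫ u in ball (0 : V) r, j u • h (c + ι u) := by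
  rw [← H.setIntegral_inv hr hh hinv]
  exact (setIntegral_eq_integral_of_forall_compl_eq_zero hoff).symm

theorem integrable_iff (H : SliceInt act c ι μ j r0) {r : ℝ} (hr : r ≤ r0)
    (hh : AEStronglyMeasurable h (volume.restrict (tube act c ι r)))
    (hinv : ∀ g u, ‖u‖ < r → h (act g (c + ι u)) = h (c + ι u))
    (hoff : ∀ x, x ∉ tube act c ι r → h x = 0) :
    Integrable h ↔ IntegrableOn (fun u => j u • h (c + ι u)) (ball (0 : V) r) := by
  rw [← H.integrableOn_iff hr hh hinv]
  refine (integrableOn_iff_integrable_of_support_subset ?_).symm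
  intro x hx
  by_contra h1
  exact hx (hoff x h1)

end Bochner

end SliceInt

end

end Crest.Agent.R330.SlK712
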