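import Crest.Agent.R330.SlJ_712
import Crest.Agent.R330.SlK_712

/-!
# Row 330, S5b-B4: the slice integration formula for the gauge action (helper712)

For `c : Cfg N` there are `r0, C > 0` such that, with the polynomial Jacobian factor
`jac b c` of `SlJ_712`, for every isometric parametrisation `ι : V →ₗᵢ Cfg N` of `Nor b c`
`∫_{tube b c r} h = ∫_{|u| < r} C * jac b c (ι u) • h (c + ι u) du` for every `r ≤ r0` and every
`h` constant on orbits.
-/

set_option autoImplicit false
noncomputable section

open MeasureTheory Metric Set Matrix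
open Crest.MathPhysics.MatrixQM
open Crest.Agent.R330.SlA314 Crest.Agent.R330.SlB314
open Crest.Agent.R330.SlD314 Crest.Agent.R330.SlP314
open Crest.Agent.R330.Dbl798 Crest.Agent.R330.SlI712 Crest.Agent.R330.SlK712
open Crest.Agent.R330.SlJ712 Crest.Agent.R330.SUgrp596
open scoped ContDiff Topology ENNReal NNReal InnerProductSpace

namespace Crest.Agent.R330.SlM712

variable {N : ℕ} (b : ColorBasis N)

theorem isoAct : IsoAct (G := SU N) b.act where
  one := act_one b
  mul := act_mul b
  dist_eq g x y := by rw [dist_eq_norm, dist_eq_norm, ← act_sub, act_norm]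
  cont := continuous_act b

/-- the action as a linear isometry -/
def actI (g : Matrix.specialUnitaryGroup (Fin N) ℂ) : Cfg N ≃ₗᵢ[ℝ] Cfg N where
  toLinearEquiv := actE b g
  norm_map' := act_norm b g

theorem act_mp (g : Matrix.specialUnitaryGroup (Fin N) ℂ) :
    MeasurePreserving (b.act g) (volume : Measure (Cfg N)) volume :=
  (actI b g).measurePreserving

/-- isometric parametrisation of a subspace by a Euclidean space -/
def par (W : Submodule ℝ (Cfg N)) :
    EuclideanSpace ℝ (Fin (Module.finrank ℝ W)) →ₗᵢ[ℝ] Cfg N :=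
  W.subtypeₗᵢ.comp (stdOrthonormalBasis ℝ W).repr.symm.toLinearIsometry

theorem par_mem (W : Submodule ℝ (Cfg N)) (u : EuclideanSpace ℝ (Fin (Module.finrank ℝ W))) :
    par W u ∈ W := ((stdOrthonormalBasis ℝ W).repr.symm u).2

theorem exists_par {W : Submodule ℝ (Cfg N)} {x : Cfg N} (hx : x ∈ W) : ∃ u, par W u = x := by
  refine ⟨(stdOrthonormalBasis ℝ W).repr ⟨x, hx⟩, ?_⟩
  change (((stdOrthonormalBasis ℝ W).repr.symm ((stdOrthonormalBasis ℝ W).repr ⟨x, hx⟩) : W) :
    Cfg N) = x
  rw [LinearIsometryEquiv.symm_apply_apply]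

theorem range_par (W : Submodule ℝ (Cfg N)) : LinearMap.range (par W).toLinearMap = W := by
  ext x
  constructor
  · rintro ⟨u, rfl⟩
    exact par_mem W u
  · intro hx
    obtain ⟨u, hu⟩ := exists_par hx
    exact ⟨u, hu⟩

/-- the canonical parametrisation of the normal space -/
abbrev iota (c : Cfg N) : EuclideanSpace ℝ (Fin (Module.finrank ℝ (Nor b c))) →ₗᵢ[ℝ] Cfg N :=
  par (Nor b c)

open scoped Matrix.Norms.Operator in
theorem continuous_gexp : Continuous (gexp b) := by
  refine Continuous.subtype_mk ?_ _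
  exact (contDiff_gen_exp b).continuous

/-- the tangential density -/
def aT (c : Cfg N) (t : EuclideanSpace ℝ (Fin (Module.finrank ℝ (Tan b c)))) : ℝ :=
  |(fderiv ℝ (Psi b c) (par (Tan b c) t)).det|

theorem continuous_aT (c : Cfg N) : Continuous (aT b c) := by
  unfold aT
  have h1 : Continuous (fun v => fderiv ℝ (Psi b c) v) :=
    (contDiff_Psi b c).continuous_fderiv (by simp)
  exact (ContinuousLinearMap.continuous_det.comp (h1.comp (par (Tan b c)).continuous)).abs

theorem chart (c : Cfg N) {δ : ℝ} (hδ : GoodRad b c δ) :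
    Chart (G := SU N) b.act c (par (Tan b c)) (iota b c)
      (fun t => gexp b (omL b c (par (Tan b c) t))) δ δ (aT b c)
      (fun u => |jac b c (iota b c u)|) where
  iso := isoAct b
  mp := act_mp b
  orth t u := by
    have h1 : iota b c u ∈ (Tan b c)ᗮ := par_mem (Nor b c) u
    exact (Submodule.mem_orthogonal _ _).1 h1 _ (par_mem _ t)
  span x := by
    obtain ⟨t, ht⟩ := exists_par (PT_mem b c x)
    obtain ⟨u, hu⟩ := exists_par (PN_mem b c x)
    exact ⟨t, u, by rw [ht, hu, PT_add_PN]⟩
  star g u u' hu hu' he :=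
    hδ.star g _ _ (par_mem _ u) (par_mem _ u') (by rwa [LinearIsometry.norm_map])
      (by rwa [LinearIsometry.norm_map]) he
  stab g hg u _ := by
    obtain ⟨u', hu'⟩ := exists_par (act_mem_Nor b hg (par_mem (Nor b c) u))
    refine ⟨u', ?_, ?_⟩
    · have h1 := congrArg norm hu'
      rw [act_norm, LinearIsometry.norm_map, LinearIsometry.norm_map] at h1
      exact h1
    · change _ = c + par (Nor b c) u'
      rw [act_add, hg, hu']
  inj t ht t' ht' he := by
    have h1 : ∀ t, b.act (gexp b (omL b c (par (Tan b c) t))) c = Psi b c (par (Tan b c) t) := by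
      intro t
      have := Psi_add b (par_mem (Tan b c) t) (Submodule.zero_mem (Nor b c))
      rw [add_zero, add_zero] at this
      exact this.symm
    simp only [h1] at he
    have hbox : ∀ t ∈ ball (0 : EuclideanSpace ℝ (Fin (Module.finrank ℝ (Tan b c)))) δ,
        par (Tan b c) t ∈ SlP314.box b c δ := by
      intro t ht
      have := add_mem_box b (par_mem (Tan b c) t) (Submodule.zero_mem (Nor b c))
        (δ := δ) (by rw [LinearIsometry.norm_map]; simpa using ht) (by simpa using hδ.pos)
      simpa using this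
    exact (par (Tan b c)).injective (hδ.injOn (hbox t ht) (hbox t' ht') he)
  der t ht u hu := by
    have horth : ∀ (t : EuclideanSpace ℝ (Fin (Module.finrank ℝ (Tan b c))))
        (u : EuclideanSpace ℝ (Fin (Module.finrank ℝ (Nor b c)))),
        ⟪par (Tan b c) t, iota b c u⟫_ℝ = 0 := fun t u => by
      have h1 : iota b c u ∈ (Tan b c)ᗮ := par_mem (Nor b c) u
      exact (Submodule.mem_orthogonal _ _).1 h1 _ (par_mem _ t)
    have hspan : ∀ x : Cfg N, ∃ t u, x = par (Tan b c) t + iota b c u := fun x => by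
      obtain ⟨t, ht⟩ := exists_par (PT_mem b c x)
      obtain ⟨u, hu⟩ := exists_par (PN_mem b c x)
      exact ⟨t, u, by rw [ht, hu, PT_add_PN]⟩
    set S := splitL (par (Tan b c)) (iota b c) horth hspan with hS
    have h1 : HasFDerivAt (Psi b c) (fderiv ℝ (Psi b c) (S (t, u))) (S (t, u)) :=
      ((contDiff_Psi b c).differentiable (by simp)).differentiableAt.hasFDerivAt
    have h2 : HasFDerivAt (fun p => S p) (S : _ →L[ℝ] Cfg N) (t, u) := S.hasFDerivAt
    have h3 := h1.comp (t, u) h2
    have e1 : (fun p : EuclideanSpace ℝ (Fin (Module.finrank ℝ (Tan b c))) ×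
        EuclideanSpace ℝ (Fin (Module.finrank ℝ (Nor b c))) =>
        b.act (gexp b (omL b c (par (Tan b c) p.1))) (c + iota b c p.2)) =
        Psi b c ∘ fun p => S p := by
      funext p
      exact (Psi_add b (par_mem (Tan b c) p.1) (par_mem (Nor b c) p.2)).symm
    refine ⟨(fderiv ℝ (Psi b c) (S (t, u))).comp (S : _ →L[ℝ] Cfg N), ?_, ?_⟩
    · rw [e1]; exact h3
    · have e2 : ((fderiv ℝ (Psi b c) (S (t, u))).comp
          (S : (EuclideanSpace ℝ (Fin (Module.finrank ℝ (Tan b c))) ×
            EuclideanSpace ℝ (Fin (Module.finrank ℝ (Nor b c)))) →L[ℝ] Cfg N)).comp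
          (S.symm : Cfg N →L[ℝ] (EuclideanSpace ℝ (Fin (Module.finrank ℝ (Tan b c))) ×
            EuclideanSpace ℝ (Fin (Module.finrank ℝ (Nor b c))))) =
          fderiv ℝ (Psi b c) (S (t, u)) := by
        ext1 x
        simp
      rw [e2]
      have e3 : S (t, u) = par (Tan b c) t + iota b c u := rfl
      rw [e3, det_fderiv_Psi b c (par_mem _ t) (par_mem _ u), abs_mul]
      rfl
  a_nonneg t := abs_nonneg _
  J_nonneg u := abs_nonneg _
  a_meas := (continuous_aT b c).measurable
  J_meas := (((continuous_jac b c).comp (iota b c).continuous).abs).measurable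
  e_meas := ((continuous_gexp b).comp
    ((omL b c).continuous.comp (par (Tan b c)).continuous)).measurable

/-! ### tubes -/

theorem mem_Nor_iff_range {c : Cfg N} {V : Type*} [NormedAddCommGroup V] [InnerProductSpace ℝ V]
    {ι : V →ₗᵢ[ℝ] Cfg N} (hι : LinearMap.range ι.toLinearMap = Nor b c) {y : Cfg N} :
    y ∈ Nor b c ↔ ∃ u, ι u = y := by
  rw [← hι]
  rfl

theorem tube_eq (c : Cfg N) {V : Type*} [NormedAddCommGroup V] [InnerProductSpace ℝ V]
    {ι : V →ₗᵢ[ℝ] Cfg N} (hι : LinearMap.range ι.toLinearMap = Nor b c) (r : ℝ) :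
    SlI712.tube (G := SU N) b.act c ι r = SlD314.tube b c r := by
  ext x
  rw [mem_tube_iff]
  constructor
  · rintro ⟨g, u, hu, rfl⟩
    exact ⟨g, ι u, (mem_Nor_iff_range b hι).2 ⟨u, rfl⟩, by rwa [ι.norm_map], rfl⟩
  · rintro ⟨g, y, hy, hn, rfl⟩
    obtain ⟨u, rfl⟩ := (mem_Nor_iff_range b hι).1 hy
    exact ⟨g, u, by rwa [ι.norm_map] at hn, rfl⟩

/-! ### the final statement -/

/-- Radius `r0` and constant `C` for which the slice integration formula at `c` holds. -/
structure SRad (c : Cfg N) (r0 C : ℝ) : Prop where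
  pos : 0 < r0
  Cpos : 0 < C
  good : GoodRad b c r0
  jac_lb : ∀ u, ‖u‖ < r0 → 1 / 2 < jac b c u
  jac_ub : ∀ u, ‖u‖ < r0 → jac b c u < 2
  slice : SliceInt (G := SU N) b.act c (iota b c) (haarSU N)
    (fun u => C * jac b c (iota b c u)) r0

theorem lintegral_aT_ne_top (c : Cfg N) (δ : ℝ) :
    ∫⁻ t in ball (0 : EuclideanSpace ℝ (Fin (Module.finrank ℝ (Tan b c)))) δ,
      ENNReal.ofReal (aT b c t) ≠ ⊤ := by
  obtain ⟨M, hM⟩ := (isCompact_closedBall
    (0 : EuclideanSpace ℝ (Fin (Module.finrank ℝ (Tan b c)))) δ).exists_bound_of_continuousOn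
    (continuous_aT b c).continuousOn
  have h1 : ∫⁻ t in ball (0 : EuclideanSpace ℝ (Fin (Module.finrank ℝ (Tan b c)))) δ,
      ENNReal.ofReal (aT b c t) ≤
      ∫⁻ t in ball (0 : EuclideanSpace ℝ (Fin (Module.finrank ℝ (Tan b c)))) δ,
      ENNReal.ofReal M := by
    refine setLIntegral_mono measurable_const fun t ht => ?_
    refine ENNReal.ofReal_le_ofReal ?_
    have := hM t (ball_subset_closedBall ht)
    rw [Real.norm_eq_abs] at this
    exact (le_abs_self _).trans this
  refine ne_top_of_le_ne_top ?_ h1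
  rw [setLIntegral_const]
  exact ENNReal.mul_ne_top ENNReal.ofReal_ne_top measure_ball_lt_top.ne

theorem exists_SRad (c : Cfg N) : ∃ r0 C : ℝ, SRad b c r0 C := by
  obtain ⟨δ, hδ⟩ := exists_goodRad b c
  obtain ⟨ρ, hρ, hj⟩ := exists_jac_bounds b c
  set r0 := min δ ρ with hr0
  have hr0p : 0 < r0 := lt_min hδ.pos hρ
  have hg : GoodRad b c r0 := hδ.mono hr0p (min_le_left _ _)
  have hj' : ∀ u, ‖u‖ < r0 → 1 / 2 < jac b c u ∧ jac b c u < 2 := fun u hu =>
    hj u (hu.trans_le (min_le_right _ _))
  obtain ⟨C, hC, hS⟩ := exists_sliceInt (chart b c hg) (haarSU N) hr0p hr0p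
    (fun t ht => by
      unfold aT
      rw [abs_pos]
      refine hg.det_ne_zero ?_
      rw [mem_ball_zero_iff, LinearIsometry.norm_map]
      have : ‖t‖ < r0 := by simpa using ht
      linarith)
    (lintegral_aT_ne_top b c r0)
    (fun u hu => by
      rw [abs_pos]
      have := (hj' (iota b c u) (by rw [LinearIsometry.norm_map]; simpa using hu)).1
      exact (lt_trans (by norm_num) this).ne')
    (fun r => by
      rw [tube_eq b c (range_par (Nor b c))]
      exact (isOpen_tube b c r).measurableSet)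
  refine ⟨r0, C, hr0p, hC, hg, fun u hu => (hj' u hu).1, fun u hu => (hj' u hu).2, ?_⟩
  refine ⟨hS.iso, ?_, ?_, hS.tube_meas, ?_⟩
  · exact (continuous_const.mul ((continuous_jac b c).comp (iota b c).continuous)).measurable
  · intro u hu
    have := (hj' (iota b c u) (by rwa [LinearIsometry.norm_map])).1
    exact mul_pos hC (by linarith)
  · intro r hr f hf
    rw [hS.lint r hr f hf]
    refine lintegral_congr fun g => setLIntegral_congr_fun measurableSet_ball fun u hu => ?_
    have := (hj' (iota b c u) (by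
      rw [LinearIsometry.norm_map]
      exact (by simpa using hu : ‖u‖ < r).trans_le hr)).1
    have h2 : |jac b c (iota b c u)| = jac b c (iota b c u) := abs_of_pos (by linarith)
    simp only [h2]

end Crest.Agent.R330.SlM712
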