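import Crest.Agent.R330.VJacC_969
import Crest.Agent.R330.SlJ_712
import Crest.Agent.R330.LemA_342
import Crest.Agent.R330.SlQE_87
import Crest.Agent.R330.PairB_547

/-!
# Row 330, S6-SLQ (helper314): the slice formulas in the coordinates `Uk b c × Zs b c`

* `sumE` : `Uk × Zs ≃ Nor`, `(u, z) ↦ u + z`;
* `JS` : the density of the slice formula in these coordinates (any Haar measures `μU`, `μZ`);
* `lint_Sc` : `∫⁻_{tube r} f = ∫⁻_{|u+z|<r} JS f(c+u+z)`, `int_Sc` : Bochner form, `f ≥ 0`;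
* `l2_Sc`, `charge_Sc` : masses and charges of core vectors;
* `AB_le` : `Σ_α ∫ ‖A Φ + B Φ‖² ≤ C (q(φ) + ‖φ‖² + moments)`, `Φ = η φ(c+·)`.
-/

set_option autoImplicit false
set_option linter.unusedSectionVars false

open MeasureTheory Filter Topology Crest.MathPhysics.MatrixQM
open Crest.Agent.R330.IBP837 Crest.Agent.R330.Defs478 Crest.Agent.R330.Frame839
open Crest.Agent.R330.LS839 Crest.Agent.R330.Clus839 Crest.Agent.R330.Bind6839
open Crest.Agent.R330.SlA314 Crest.Agent.R330.SlB314 Crest.Agent.R330.SlD314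
open Crest.Agent.R330.SlP314 Crest.Agent.R330.VJac969
open Crest.Agent.R330.LemA342 Crest.Agent.R330.SlQE87
open scoped ContDiff InnerProductSpace ENNReal NNReal

noncomputable section

namespace Crest.Agent.R330.SlQ314

variable {N : ℕ} (b : ColorBasis N) (c : Cfg N)

/-! ## 1. Coordinates -/

theorem add_mem_Nor (x : Sc b c) : (x.1 : Cfg N) + x.2 ∈ Nor b c := by
  rw [← Nor_eq b c]
  exact Submodule.add_mem _ (Uk_le_Nor x.1.2) x.2.2.2

/-- the sum map -/
def sumL : Sc b c →ₗ[ℝ] Nor b c where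
  toFun x := ⟨x.1 + x.2, add_mem_Nor b c x⟩
  map_add' x y := by
    apply Subtype.ext
    simp only [Prod.fst_add, Prod.snd_add, Submodule.coe_add]
    abel
  map_smul' r x := by
    apply Subtype.ext
    simp

theorem sumL_bij : Function.Bijective (sumL b c) := by
  constructor
  · rw [← LinearMap.ker_eq_bot, LinearMap.ker_eq_bot']
    intro x hx
    have h1 : ((x.1 : Cfg N) + (x.2 : Cfg N)) = 0 := congrArg Subtype.val hx
    have h2 := norm_fst_le (b := b) (c := c) x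
    have h3 := norm_snd_le (b := b) (c := c) x
    rw [h1, norm_zero] at h2 h3
    refine Prod.ext ?_ ?_
    · exact Subtype.ext (norm_le_zero_iff.1 h2)
    · exact Subtype.ext (norm_le_zero_iff.1 h3)
  · intro u
    have hu : (u : Cfg N) ∈ (Tn (actB b) c)ᗮ := by
      rw [Nor_eq b c]
      exact u.2
    obtain ⟨y, hy, z, hz, h⟩ := nor_decomp hu
    exact ⟨(⟨y, hy⟩, ⟨z, hz⟩), Subtype.ext h.symm⟩

/-- the sum map as an equivalence -/
def sumE : Sc b c ≃L[ℝ] Nor b c :=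
  (LinearEquiv.ofBijective (sumL b c) (sumL_bij b c)).toContinuousLinearEquiv

theorem sumE_coe (x : Sc b c) : ((sumE b c x : Nor b c) : Cfg N) = x.1 + x.2 := rfl

/-- the ball of the slice in coordinates -/
def bS (r : ℝ) : Set (Sc b c) := {x | ‖(x.1 : Cfg N) + x.2‖ < r}

theorem continuous_pt : Continuous fun x : Sc b c => (x.1 : Cfg N) + (x.2 : Cfg N) :=
  (continuous_subtype_val.comp continuous_fst).add (continuous_subtype_val.comp continuous_snd)

theorem continuous_cpt : Continuous fun x : Sc b c => c + (x.1 : Cfg N) + (x.2 : Cfg N) :=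
  (continuous_const.add (continuous_subtype_val.comp continuous_fst)).add
    (continuous_subtype_val.comp continuous_snd)

theorem isOpen_bS (r : ℝ) : IsOpen (bS b c r) :=
  isOpen_lt (continuous_pt b c).norm continuous_const

theorem measurableSet_bS (r : ℝ) : MeasurableSet (bS b c r) := (isOpen_bS b c r).measurableSet

theorem preimage_ball (r : ℝ) : sumE b c ⁻¹' Metric.ball 0 r = bS b c r := by
  ext x
  rw [Set.mem_preimage, mem_ball_zero_iff]
  exact Iff.rfl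

section transfer

variable {X Y : Type*} [NormedAddCommGroup X] [NormedSpace ℝ X] [FiniteDimensional ℝ X]
  [MeasurableSpace X] [BorelSpace X] [NormedAddCommGroup Y] [NormedSpace ℝ Y]
  [FiniteDimensional ℝ Y] [MeasurableSpace Y] [BorelSpace Y]

theorem exists_scale (e : X ≃L[ℝ] Y) (μ : Measure X) [μ.IsAddHaarMeasure] (ν : Measure Y)
    [ν.IsAddHaarMeasure] : ∃ k : ℝ, 0 < k ∧ ∀ f : Y → ℝ≥0∞,
      ∫⁻ y, f y ∂ν = ENNReal.ofReal k * ∫⁻ x, f (e x) ∂μ := by
  have : SecondCountableTopology Y := secondCountable_of_proper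
  have h1 : (μ.map e).IsAddHaarMeasure := e.isAddHaarMeasure_map μ
  have h2 := Measure.isAddLeftInvariant_eq_smul ν (μ.map e)
  have h3 := Measure.addHaarScalarFactor_pos_of_isAddHaarMeasure ν (μ.map e)
  refine ⟨(Measure.addHaarScalarFactor ν (μ.map e) : ℝ), by exact_mod_cast h3, fun f => ?_⟩
  conv_lhs => rw [h2]
  rw [lintegral_smul_measure]
  have h4 : ∫⁻ y, f y ∂(μ.map e) = ∫⁻ x, f (e x) ∂μ :=
    e.toHomeomorph.measurableEmbedding.lintegral_map f
  rw [h4, ENNReal.ofReal_coe_nnreal]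
  rfl

end transfer

variable (μU : Measure (Uk b c)) (μZ : Measure (Zs b c)) [μU.IsAddHaarMeasure]
  [μZ.IsAddHaarMeasure]

instance instProdHaar : (μU.prod μZ).IsAddHaarMeasure := Measure.prod.instIsAddHaarMeasure μU μZ

/-- the ratio of the Haar measures -/
def kS : ℝ := Classical.choose
  (exists_scale (sumE b c) (μU.prod μZ) (volume : Measure (Nor b c)))

theorem kS_pos : 0 < kS b c μU μZ := (Classical.choose_spec
  (exists_scale (sumE b c) (μU.prod μZ) (volume : Measure (Nor b c)))).1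

theorem kS_spec (f : Nor b c → ℝ≥0∞) :
    ∫⁻ y, f y = ENNReal.ofReal (kS b c μU μZ) * ∫⁻ x, f (sumE b c x) ∂(μU.prod μZ) :=
  (Classical.choose_spec
    (exists_scale (sumE b c) (μU.prod μZ) (volume : Measure (Nor b c)))).2 f

/-- **the density** -/
def JS (δ : ℝ) (x : Sc b c) : ℝ := kS b c μU μZ * jn b c δ ((x.1 : Cfg N) + x.2)

theorem continuous_JS (δ : ℝ) : Continuous (JS b c μU μZ δ) :=
  continuous_const.mul ((continuous_jn b c δ).comp (continuous_pt b c))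

variable {c}

theorem JS_pos {δ : ℝ} (h : GoodRad b c δ) {x : Sc b c} (hx : ‖(x.1 : Cfg N) + x.2‖ < 2 * δ) :
    0 < JS b c μU μZ δ x :=
  mul_pos (kS_pos b c μU μZ) (jn_pos b h (add_mem_Nor b c x) hx)

theorem contDiffAt_JS {δ : ℝ} (h : GoodRad b c δ) {x : Sc b c}
    (hx : ‖(x.1 : Cfg N) + x.2‖ < 2 * δ) : ContDiffAt ℝ ∞ (JS b c μU μZ δ) x := by
  have h1 : ContDiff ℝ ∞ fun x : Sc b c => (x.1 : Cfg N) + (x.2 : Cfg N) :=
    (slL b c).contDiff
  have h2 : ContDiffAt ℝ ∞ ((jn b c δ) ∘ fun x : Sc b c => (x.1 : Cfg N) + (x.2 : Cfg N)) x :=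
    ContDiffAt.comp x (contDiffAt_jn b h (add_mem_Nor b c x) hx) h1.contDiffAt
  exact contDiffAt_const.mul h2

/-- **Slice formula in coordinates.** -/
theorem lint_Sc {δ : ℝ} (h : GoodRad b c δ) {r : ℝ} (hr : r ≤ δ) (f : Cfg N → ℝ≥0∞)
    (hf : Measurable f) (hi : ∀ g x, f (b.act g x) = f x) :
    ∫⁻ x in tube b c r, f x = ∫⁻ x in bS b c r,
      ENNReal.ofReal (JS b c μU μZ δ x) * f (c + x.1 + x.2) ∂(μU.prod μZ) := by
  rw [slice_inv b h hr f hf hi, ← lintegral_indicator measurableSet_ball, kS_spec b c μU μZ,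
    ← lintegral_indicator (measurableSet_bS b c r), ← lintegral_const_mul' _ _ ENNReal.ofReal_ne_top]
  refine lintegral_congr fun x => ?_
  by_cases hx : x ∈ bS b c r
  · have hx' : sumE b c x ∈ Metric.ball (0 : Nor b c) r := mem_ball_zero_iff.2 hx
    rw [Set.indicator_of_mem hx, Set.indicator_of_mem hx', sumE_coe, ← mul_assoc,
      ← ENNReal.ofReal_mul (kS_pos b c μU μZ).le, add_assoc]
    rfl
  · have hx' : sumE b c x ∉ Metric.ball (0 : Nor b c) r := fun h => hx (mem_ball_zero_iff.1 h)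
    rw [Set.indicator_of_notMem hx, Set.indicator_of_notMem hx', mul_zero]

theorem JS_nonneg (δ : ℝ) (x : Sc b c) : 0 ≤ JS b c μU μZ δ x := by
  refine mul_nonneg (kS_pos b c μU μZ).le (mul_nonneg ENNReal.toReal_nonneg ?_)
  exact abs_nonneg _

theorem exists_JS_bounds {δ : ℝ} (h : GoodRad b c δ) : ∃ c1 c2 : ℝ, 0 < c1 ∧ 0 < c2 ∧
    ∀ x : Sc b c, ‖(x.1 : Cfg N) + x.2‖ ≤ δ → c1 ≤ JS b c μU μZ δ x ∧ JS b c μU μZ δ x ≤ c2 := by
  have hK : IsCompact {x : Sc b c | ‖(x.1 : Cfg N) + x.2‖ ≤ δ} := by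
    refine (isCompact_closedBall (0 : Sc b c) δ).of_isClosed_subset
      (isClosed_le (continuous_pt b c).norm continuous_const) fun x hx => ?_
    exact mem_closedBall_zero_iff.2 ((norm_prod_le x).trans hx)
  have hne : {x : Sc b c | ‖(x.1 : Cfg N) + x.2‖ ≤ δ}.Nonempty := ⟨0, by simpa using h.pos.le⟩
  have hc := (continuous_JS b c μU μZ δ).continuousOn (s := {x : Sc b c | ‖(x.1 : Cfg N) + x.2‖ ≤ δ})
  obtain ⟨x1, hx1, h1⟩ := hK.exists_isMinOn hne hc
  obtain ⟨x2, hx2, h2⟩ := hK.exists_isMaxOn hne hc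
  have p1 := JS_pos b μU μZ h (x := x1) (lt_of_le_of_lt hx1 (by linarith [h.pos]))
  have p2 := JS_pos b μU μZ h (x := x2) (lt_of_le_of_lt hx2 (by linarith [h.pos]))
  exact ⟨_, _, p1, p2, fun x hx => ⟨h1 hx, h2 hx⟩⟩

/-- **Slice formula in coordinates, nonnegative real functions.** -/
theorem int_Sc {δ : ℝ} (h : GoodRad b c δ) {r : ℝ} (hr : r ≤ δ) (f : Cfg N → ℝ)
    (hf : Measurable f) (hf0 : ∀ x, 0 ≤ f x) (hi : ∀ g x, f (b.act g x) = f x) :
    ∫ x in tube b c r, f x =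
      ∫ x in bS b c r, JS b c μU μZ δ x * f (c + x.1 + x.2) ∂(μU.prod μZ) := by
  have hm : Measurable fun x : Sc b c => JS b c μU μZ δ x * f (c + x.1 + x.2) :=
    (continuous_JS b c μU μZ δ).measurable.mul (hf.comp (continuous_cpt b c).measurable)
  rw [integral_eq_lintegral_of_nonneg_ae (Eventually.of_forall hf0) hf.aestronglyMeasurable,
    integral_eq_lintegral_of_nonneg_ae
      (Eventually.of_forall fun x => mul_nonneg (JS_nonneg b μU μZ δ x) (hf0 _))
      hm.aestronglyMeasurable,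
    lint_Sc b μU μZ h hr (fun x => ENNReal.ofReal (f x)) hf.ennreal_ofReal
      (fun g x => by rw [hi])]
  congr 1
  refine lintegral_congr fun x => ?_
  rw [ENNReal.ofReal_mul (JS_nonneg b μU μZ δ x)]

theorem integrable_Sc {δ : ℝ} (h : GoodRad b c δ) {r : ℝ} (hr : r ≤ δ) (f : Cfg N → ℝ)
    (hf : Measurable f) (hf0 : ∀ x, 0 ≤ f x) (hi : ∀ g x, f (b.act g x) = f x) :
    IntegrableOn f (tube b c r) ↔
      IntegrableOn (fun x : Sc b c => JS b c μU μZ δ x * f (c + x.1 + x.2)) (bS b c r)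
        (μU.prod μZ) := by
  have hm : Measurable fun x : Sc b c => JS b c μU μZ δ x * f (c + x.1 + x.2) :=
    (continuous_JS b c μU μZ δ).measurable.mul (hf.comp (continuous_cpt b c).measurable)
  have e1 : ∫⁻ x in tube b c r, ‖f x‖ₑ = ∫⁻ x in bS b c r,
      ‖JS b c μU μZ δ x * f (c + x.1 + x.2)‖ₑ ∂(μU.prod μZ) := by
    rw [lint_Sc b μU μZ h hr (fun x => ‖f x‖ₑ) hf.enorm (fun g x => by rw [hi])]
    refine lintegral_congr fun x => ?_
    rw [enorm_mul, Real.enorm_of_nonneg (JS_nonneg b μU μZ δ x)]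
  unfold IntegrableOn Integrable HasFiniteIntegral
  rw [e1]
  exact ⟨fun hh => ⟨hm.aestronglyMeasurable, hh.2⟩, fun hh => ⟨hf.aestronglyMeasurable, hh.2⟩⟩

section core

variable {F : Type*} [NormedAddCommGroup F] [InnerProductSpace ℂ F] [FiniteDimensional ℂ F]
  {M : FermionRep N F} {R : GaugeAction b M} {G : GammaNine} {g m : ℝ} {α : Fin 16}

theorem norm_core {φ : Cfg N → F} (hφ : IsCoreVec b R φ)
    (g : Matrix.specialUnitaryGroup (Fin N) ℂ) (x : Cfg N) : ‖φ (b.act g x)‖ = ‖φ x‖ := by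
  rw [hφ.2.2 g x]
  have h := R.unitary g (φ x) (φ x)
  rw [inner_self_eq_norm_sq_to_K, inner_self_eq_norm_sq_to_K] at h
  have h2 : ‖R.ρ g (φ x)‖ ^ 2 = ‖φ x‖ ^ 2 := by exact_mod_cast h
  exact (sq_eq_sq₀ (norm_nonneg _) (norm_nonneg _)).1 h2

/-- **Mass of a core vector in the tube.** -/
theorem l2_Sc {δ : ℝ} (h : GoodRad b c δ) {r : ℝ} (hr : r ≤ δ) {φ : Cfg N → F}
    (hφ : IsCoreVec b R φ) :
    ∫ x in tube b c r, ‖φ x‖ ^ 2 =
      ∫ x in bS b c r, JS b c μU μZ δ x * ‖φ (c + x.1 + x.2)‖ ^ 2 ∂(μU.prod μZ) :=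
  int_Sc b μU μZ h hr (fun x => ‖φ x‖ ^ 2) (hφ.1.continuous.norm.pow 2).measurable
    (fun _ => sq_nonneg _) fun g x => by rw [norm_core b hφ]

theorem integrable_sq {φ : Cfg N → F} (hφ : IsCoreVec b R φ) :
    Integrable (fun x : Cfg N => ‖φ x‖ ^ 2) volume := by
  obtain ⟨h1, h2, -⟩ := hφ
  have h3 : Continuous fun x : Cfg N => ‖φ x‖ ^ 2 := h1.continuous.norm.pow 2
  have h4 : HasCompactSupport fun x : Cfg N => ‖φ x‖ ^ 2 :=
    h2.comp_left (g := fun v : F => ‖v‖ ^ 2) (by simp)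
  exact h3.integrable_of_hasCompactSupport h4

theorem l2_Sc_le {δ : ℝ} (h : GoodRad b c δ) {r : ℝ} (hr : r ≤ δ) {φ : Cfg N → F}
    (hφ : IsCoreVec b R φ) :
    ∫ x in bS b c r, JS b c μU μZ δ x * ‖φ (c + x.1 + x.2)‖ ^ 2 ∂(μU.prod μZ) ≤
      ∫ x, ‖φ x‖ ^ 2 := by
  rw [← l2_Sc b μU μZ h hr hφ]
  exact setIntegral_le_integral (integrable_sq b hφ) (Eventually.of_forall fun _ => sq_nonneg _)

theorem l2_Sc_eq {δ : ℝ} (h : GoodRad b c δ) {r : ℝ} (hr : r ≤ δ) {φ : Cfg N → F}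
    (hφ : IsCoreVec b R φ) (h0 : ∀ x, x ∉ tube b c r → φ x = 0) :
    ∫ x, ‖φ x‖ ^ 2 =
      ∫ x in bS b c r, JS b c μU μZ δ x * ‖φ (c + x.1 + x.2)‖ ^ 2 ∂(μU.prod μZ) := by
  rw [← l2_Sc b μU μZ h hr hφ]
  symm
  refine setIntegral_eq_integral_of_forall_compl_eq_zero fun x hx => ?_
  rw [h0 x hx]
  simp

/-- **Charges of a core vector in the tube.** -/
theorem charge_Sc {δ : ℝ} (h : GoodRad b c δ) {r : ℝ} (hr : r ≤ δ) {φ : Cfg N → F}
    (hφ : IsCoreVec b R φ) :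
    ∫ x in tube b c r, ‖dcharge b M G g m α φ x‖ ^ 2 =
      ∫ x in bS b c r, JS b c μU μZ δ x *
        ‖dcharge b M G g m α φ (c + x.1 + x.2)‖ ^ 2 ∂(μU.prod μZ) :=
  l2_Sc b μU μZ h hr (Brid837.core_dcharge (G := G) (g := g) (m := m) (α := α) hφ)

theorem charge_Sc_le {δ : ℝ} (h : GoodRad b c δ) {r : ℝ} (hr : r ≤ δ) {φ : Cfg N → F}
    (hφ : IsCoreVec b R φ) :
    ∫ x in bS b c r, JS b c μU μZ δ x *
        ‖dcharge b M G g m α φ (c + x.1 + x.2)‖ ^ 2 ∂(μU.prod μZ) ≤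
      ∫ x, ‖dcharge b M G g m α φ x‖ ^ 2 :=
  l2_Sc_le b μU μZ h hr (Brid837.core_dcharge (G := G) (g := g) (m := m) (α := α) hφ)

end core

end Crest.Agent.R330.SlQ314

end
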