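import Crest.Agent.R330.SlQ_314

/-!
# Row 330, S6-SLQ (helper314), part b: the integrated charge estimate on the slice

`AB_le` : `Σ_α ∫ ‖A Φ + B Φ‖² ≤ C (q(φ) + ‖φ‖² + moments)`, `Φ = η φ(c+·)`, uniform in `g ≥ 0`,
`|m| ≤ m₀` and in the core vector `φ`.
-/

set_option autoImplicit false
set_option linter.unusedSectionVars false

open MeasureTheory Filter Topology Crest.MathPhysics.MatrixQM
open Crest.Agent.R330.IBP837 Crest.Agent.R330.Defs478 Crest.Agent.R330.Frame839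
open Crest.Agent.R330.LS839 Crest.Agent.R330.Clus839 Crest.Agent.R330.Bind6839
open Crest.Agent.R330.SlA314 Crest.Agent.R330.SlB314 Crest.Agent.R330.SlD314
open Crest.Agent.R330.SlP314 Crest.Agent.R330.VJac969
open Crest.Agent.R330.LemA342 Crest.Agent.R330.SlQE87
open scoped ContDiff InnerProductSpace ENNReal NNReal

noncomputable section

namespace Crest.Agent.R330.SlQ314

variable {N : ℕ} (b : ColorBasis N) {c : Cfg N} (μU : Measure (Uk b c)) (μZ : Measure (Zs b c))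
  [μU.IsAddHaarMeasure] [μZ.IsAddHaarMeasure]

theorem norm_slL_le : ‖slL b c‖ ≤ 2 := by
  refine ContinuousLinearMap.opNorm_le_bound _ (by norm_num) fun x => ?_
  rw [slL_apply]
  refine (norm_add_le _ _).trans ?_
  have h1 : ‖(x.1 : Cfg N)‖ ≤ ‖x‖ := norm_fst_le x
  have h2 : ‖(x.2 : Cfg N)‖ ≤ ‖x‖ := norm_snd_le x
  linarith

theorem bS_subset (r : ℝ) : bS b c r ⊆ Metric.closedBall (0 : Sc b c) r := fun x hx =>
  mem_closedBall_zero_iff.2 ((norm_prod_le x).trans (le_of_lt hx))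

theorem integrableOn_bS {E' : Type*} [NormedAddCommGroup E'] {f : Sc b c → E'}
    (hf : Continuous f) (r : ℝ) : IntegrableOn f (bS b c r) (μU.prod μZ) :=
  (hf.continuousOn.integrableOn_compact (isCompact_closedBall (0 : Sc b c) r)).mono_set
    (bS_subset b r)

theorem hcs_of_tsupport {η : Sc b c → ℝ} {r : ℝ} (hs : tsupport η ⊆ bS b c r) :
    HasCompactSupport η :=
  (isCompact_closedBall (0 : Sc b c) r).of_isClosed_subset (isClosed_tsupport η)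
    (hs.trans (bS_subset b r))

theorem cont_norm_fderiv {X Y : Type*} [NormedAddCommGroup X] [NormedSpace ℝ X]
    [NormedAddCommGroup Y] [NormedSpace ℝ Y] {f : X → Y} (h : ContDiff ℝ 1 f) :
    Continuous fun x => ‖fderiv ℝ f x‖ := (h.continuous_fderiv one_ne_zero).norm

/-- the cut-off is dominated by the density -/
theorem exists_cut_bound {δ : ℝ} (h : GoodRad b c δ) {r : ℝ} (hr : r ≤ δ) {η : Sc b c → ℝ}
    (hη : ContDiff ℝ 1 η) (hs : tsupport η ⊆ bS b c r) : ∃ K : ℝ, 0 ≤ K ∧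
      ∀ x : Sc b c, x ∈ bS b c r →
        (|η x| + ‖fderiv ℝ η x‖) ^ 2 ≤ K * JS b c μU μZ δ x := by
  have hcs := hcs_of_tsupport b hs
  obtain ⟨c1, c2, h1, h2, hJ⟩ := exists_JS_bounds b μU μZ h
  have ha : Continuous fun x : Sc b c => |η x| := hη.continuous.abs
  have hd : Continuous fun x : Sc b c => ‖fderiv ℝ η x‖ := cont_norm_fderiv hη
  have hc : Continuous fun x : Sc b c => (|η x| + ‖fderiv ℝ η x‖) ^ 2 := (ha.add hd).pow 2
  obtain ⟨A, hA⟩ := (isCompact_closedBall (0 : Sc b c) r).bddAbove_image hc.continuousOn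
  refine ⟨max A 0 / c1, by positivity, fun x hx => ?_⟩
  have h3 : (|η x| + ‖fderiv ℝ η x‖) ^ 2 ≤ A := hA ⟨x, bS_subset b r hx, rfl⟩
  have h4 := (hJ x ((le_of_lt hx).trans hr)).1
  calc (|η x| + ‖fderiv ℝ η x‖) ^ 2 ≤ max A 0 := h3.trans (le_max_left _ _)
    _ = max A 0 / c1 * c1 := by field_simp
    _ ≤ max A 0 / c1 * JS b c μU μZ δ x := by gcongr

theorem aux_ineq {Q P D Z g ρ C1 : ℝ} (hQ : 0 ≤ Q) (hP : 0 ≤ P) (hD : 0 ≤ D) (hZ : 0 ≤ Z)
    (hg : 0 ≤ g) (hρ : 0 ≤ ρ) (hC : 0 ≤ C1) (h : Z ≤ ρ) :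
    Q + C1 * (P + Z * (2 * D + P) + g * Z ^ 2 * P) ≤
      (1 + C1 * (3 + ρ)) * (Q + P + Z * D + g * Z ^ 2 * P) := by
  have hX : 0 ≤ Z * D := mul_nonneg hZ hD
  have hY : 0 ≤ g * Z ^ 2 * P := by positivity
  have h1 : Z * P ≤ ρ * P := mul_le_mul_of_nonneg_right h hP
  have e1 : P + Z * (2 * D + P) + g * Z ^ 2 * P =
      P + 2 * (Z * D) + Z * P + g * Z ^ 2 * P := by ring
  rw [e1]
  generalize Z * D = X at *
  generalize g * Z ^ 2 * P = Y at *
  generalize Z * P = W at *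
  have h2 : P + 2 * X + W + Y ≤ (3 + ρ) * (Q + P + X + Y) := by
    have e2 : (3 + ρ) * (Q + P + X + Y) - (P + 2 * X + W + Y) =
        3 * Q + 2 * P + X + 2 * Y + ρ * Q + (ρ * P - W) + ρ * X + ρ * Y := by ring
    have p1 := mul_nonneg hρ hQ
    have p2 := mul_nonneg hρ hX
    have p3 := mul_nonneg hρ hY
    linarith
  have h3 := mul_le_mul_of_nonneg_left h2 hC
  have e3 : (1 + C1 * (3 + ρ)) * (Q + P + X + Y) =
      (Q + P + X + Y) + C1 * ((3 + ρ) * (Q + P + X + Y)) := by ring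
  rw [e3]
  linarith

theorem aux_sq {A W Q P D Z g J K C2 : ℝ} (hA : 0 ≤ A) (h : A ≤ W * (C2 * (Q + P + Z * D + g * Z ^ 2 * P)))
    (hW : W ^ 2 ≤ K * J) :
    A ^ 2 ≤ K * (C2 ^ 2 * 4) * (J * Q ^ 2 + J * P ^ 2 +
      J * (Z ^ 2 * D ^ 2 + g ^ 2 * Z ^ 4 * P ^ 2)) := by
  have f2 : A ^ 2 ≤ (W * (C2 * (Q + P + Z * D + g * Z ^ 2 * P))) ^ 2 := pow_le_pow_left₀ hA h 2
  have f3 : (Q + P + Z * D + g * Z ^ 2 * P) ^ 2 ≤
      4 * (Q ^ 2 + P ^ 2 + (Z * D) ^ 2 + (g * Z ^ 2 * P) ^ 2) := by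
    generalize Z * D = X
    generalize g * Z ^ 2 * P = Y
    nlinarith [sq_nonneg (Q - P), sq_nonneg (Q - X), sq_nonneg (Q - Y),
      sq_nonneg (P - X), sq_nonneg (P - Y), sq_nonneg (X - Y)]
  have f4 : 0 ≤ C2 ^ 2 * (4 * (Q ^ 2 + P ^ 2 + (Z * D) ^ 2 + (g * Z ^ 2 * P) ^ 2)) := by
    positivity
  calc A ^ 2 ≤ (W * (C2 * (Q + P + Z * D + g * Z ^ 2 * P))) ^ 2 := f2
    _ = W ^ 2 * (C2 ^ 2 * (Q + P + Z * D + g * Z ^ 2 * P) ^ 2) := by ring
    _ ≤ W ^ 2 * (C2 ^ 2 * (4 * (Q ^ 2 + P ^ 2 + (Z * D) ^ 2 + (g * Z ^ 2 * P) ^ 2))) := by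
        exact mul_le_mul_of_nonneg_left (mul_le_mul_of_nonneg_left f3 (sq_nonneg _)) (sq_nonneg _)
    _ ≤ (K * J) * (C2 ^ 2 * (4 * (Q ^ 2 + P ^ 2 + (Z * D) ^ 2 + (g * Z ^ 2 * P) ^ 2))) :=
        mul_le_mul_of_nonneg_right hW f4
    _ = _ := by ring

section est

variable {F : Type*} [NormedAddCommGroup F] [InnerProductSpace ℂ F] [FiniteDimensional ℂ F]
  (M : FermionRep N F) (G : GammaNine) {ι κ κ' : Type} [Fintype ι] [Fintype κ] [Fintype κ']
  (e : OrthonormalBasis ι ℝ (Uk b c)) (v : OrthonormalBasis κ ℝ (Zs b c))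
  (t : OrthonormalBasis κ' ℝ (Tn (actB b) c))

theorem half_eventually_zero {η : Sc b c → ℝ} {φ : Cfg N → F} {x : Sc b c}
    (hx : x ∉ tsupport η) : half b c η φ =ᶠ[𝓝 x] 0 := by
  have h := notMem_tsupport_iff_eventuallyEq.1 hx
  filter_upwards [h] with y hy
  unfold half
  rw [hy]
  simp

theorem AB_zero {g m : ℝ} {α : Fin 16} {Φ : Sc b c → F} {x : Sc b c} (hx : Φ =ᶠ[𝓝 x] 0) :
    AB b M G g m α c e v t Φ x = 0 := by
  unfold AB
  have h1 : fderiv ℝ Φ x = 0 := by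
    rw [hx.fderiv_eq]
    simp
  have h2 : Φ x = 0 := hx.eq_of_nhds
  rw [h1, h2]
  simp

/-- the moments on the slice -/
def mom (δ : ℝ) (g : ℝ) (φ : Cfg N → F) (x : Sc b c) : ℝ :=
  JS b c μU μZ δ x * (‖(x.2 : Cfg N)‖ ^ 2 * ‖fderiv ℝ φ (c + x.1 + x.2)‖ ^ 2 +
    g ^ 2 * ‖(x.2 : Cfg N)‖ ^ 4 * ‖φ (c + x.1 + x.2)‖ ^ 2)

/-- **pointwise form** -/
theorem AB_pointwise {r₀ B m₀ : ℝ} (hr0 : 0 < r₀) (hB0 : 0 < B) (hB : ActBound (actB b) B)
    (hm0 : 0 ≤ m₀) (hgap : GapAt (actB b) c r₀) (hc : Comc b c) {δ : ℝ} (h : GoodRad b c δ)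
    {r : ℝ} (hr : r ≤ δ) (hBr : B * r ≤ r₀ / 2) {η : Sc b c → ℝ} (hη : ContDiff ℝ 1 η)
    (hs : tsupport η ⊆ bS b c r) : ∃ C : ℝ, 0 ≤ C ∧ ∀ (g m : ℝ), 0 ≤ g → |m| ≤ m₀ →
      ∀ (R : GaugeAction b M) (φ : Cfg N → F), IsCoreVec b R φ → ∀ (α : Fin 16) (x : Sc b c),
        x ∈ bS b c r → ‖AB b M G g m α c e v t (half b c η φ) x‖ ^ 2 ≤
          C * (JS b c μU μZ δ x * ‖dcharge b M G g m α φ (c + x.1 + x.2)‖ ^ 2 +
            JS b c μU μZ δ x * ‖φ (c + x.1 + x.2)‖ ^ 2 + mom b μU μZ δ g φ x) := by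
  obtain ⟨C1, hC1, hE⟩ := LS_half_err b M G hr0 hB0 hB hm0
  obtain ⟨K, hK, hcut⟩ := exists_cut_bound b μU μZ h hr hη hs
  set C2 : ℝ := 1 + C1 * (3 + |r|) with hC2
  have hC2p : 0 ≤ C2 := by positivity
  refine ⟨K * (C2 ^ 2 * 4), by positivity, fun g m hg hm R φ hφ α x hx => ?_⟩
  have hx' : B * ‖(x.1 : Cfg N) + (x.2 : Cfg N)‖ ≤ r₀ / 2 :=
    (mul_le_mul_of_nonneg_left (le_of_lt hx) hB0.le).trans hBr
  have hφd : DifferentiableAt ℝ φ (c + x.1 + x.2) := hφ.1.differentiable (by norm_num) _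
  have hηd : DifferentiableAt ℝ η x := hη.differentiable one_ne_zero x
  have e1 := hE g m hg hm α c hc hgap ι κ κ' e v t η φ x hηd hφd (infEq_core hφ _) hx'
  have e2 : ‖fderiv ℝ (half b c η φ) x‖ ≤ (|η x| + ‖fderiv ℝ η x‖) *
      (2 * ‖fderiv ℝ φ (c + x.1 + x.2)‖ + ‖φ (c + x.1 + x.2)‖) := by
    have p1 := abs_nonneg (η x)
    have p2 := norm_nonneg (fderiv ℝ η x)
    have p3 := norm_nonneg (φ (c + x.1 + x.2))
    have p4 := norm_nonneg (fderiv ℝ φ (c + x.1 + x.2))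
    refine ContinuousLinearMap.opNorm_le_bound _ (by positivity) fun y => ?_
    rw [fderiv_half hηd hφd y]
    refine (norm_add_le _ _).trans ?_
    rw [norm_smul, norm_smul, Real.norm_eq_abs]
    have e7 : ‖(y.1 : Cfg N) + (y.2 : Cfg N)‖ ≤ 2 * ‖y‖ := by
      have h1 := (slL b c).le_opNorm y
      rw [slL_apply] at h1
      exact h1.trans (mul_le_mul_of_nonneg_right (norm_slL_le b) (norm_nonneg y))
    have e8 : ‖fderiv ℝ φ (c + x.1 + x.2) ((y.1 : Cfg N) + (y.2 : Cfg N))‖ ≤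
        ‖fderiv ℝ φ (c + x.1 + x.2)‖ * (2 * ‖y‖) :=
      (ContinuousLinearMap.le_opNorm _ _).trans (mul_le_mul_of_nonneg_left e7 p4)
    have e9 : ‖fderiv ℝ η x y‖ ≤ ‖fderiv ℝ η x‖ * ‖y‖ := ContinuousLinearMap.le_opNorm _ _
    have e10 := mul_le_mul_of_nonneg_left e8 p1
    have e11 := mul_le_mul_of_nonneg_right e9 p3
    have p5 := norm_nonneg y
    generalize ‖fderiv ℝ φ (c + x.1 + x.2) ((y.1 : Cfg N) + (y.2 : Cfg N))‖ = a1 at *
    generalize ‖fderiv ℝ η x y‖ = a2 at *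
    generalize ‖fderiv ℝ φ (c + x.1 + x.2)‖ = D at *
    generalize ‖φ (c + x.1 + x.2)‖ = P at *
    generalize ‖fderiv ℝ η x‖ = n' at *
    generalize |η x| = n at *
    generalize ‖y‖ = y' at *
    have s1 : 0 ≤ n' * D * y' := by positivity
    have s2 : 0 ≤ n * P * y' := by positivity
    have s3 : (n + n') * (2 * D + P) * y' =
        n * (D * (2 * y')) + n' * y' * P + 2 * (n' * D * y') + n * P * y' := by ring
    rw [s3]
    linarith
  have hZ : ‖(x.2 : Cfg N)‖ ≤ |r| :=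
    (SlQE87.norm_snd_le x).trans ((le_of_lt hx).trans (le_abs_self r))
  have hcx := hcut x hx
  have e4 : ‖half b c η φ x‖ = |η x| * ‖φ (c + x.1 + x.2)‖ := by
    unfold half
    rw [norm_smul, Real.norm_eq_abs]
  have e5 : ‖AB b M G g m α c e v t (half b c η φ) x‖ ≤
      |η x| * ‖dcharge b M G g m α φ (c + x.1 + x.2)‖ +
        C1 * ((|η x| + ‖fderiv ℝ η x‖) * ‖φ (c + x.1 + x.2)‖ +
        ‖(x.2 : Cfg N)‖ * ‖fderiv ℝ (half b c η φ) x‖ +
        g * ‖(x.2 : Cfg N)‖ ^ 2 * ‖half b c η φ x‖) := by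
    have e6 := norm_sub_le (η x • dcharge b M G g m α φ (c + x.1 + x.2))
      (η x • dcharge b M G g m α φ (c + x.1 + x.2) - AB b M G g m α c e v t (half b c η φ) x)
    rw [sub_sub_cancel, norm_smul, Real.norm_eq_abs] at e6
    linarith
  rw [e4] at e5
  unfold mom
  have q0 := norm_nonneg (AB b M G g m α c e v t (half b c η φ) x)
  have q1 := abs_nonneg (η x)
  have q2 := norm_nonneg (fderiv ℝ η x)
  have q3 := norm_nonneg (φ (c + x.1 + x.2))
  have q4 := norm_nonneg (fderiv ℝ φ (c + x.1 + x.2))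
  have q5 := norm_nonneg (dcharge b M G g m α φ (c + x.1 + x.2))
  have q6 := norm_nonneg (x.2 : Cfg N)
  have q7 := JS_nonneg b μU μZ δ x
  have q8 := norm_nonneg (fderiv ℝ (half b c η φ) x)
  generalize ‖AB b M G g m α c e v t (half b c η φ) x‖ = A at *
  generalize ‖fderiv ℝ (half b c η φ) x‖ = H at *
  generalize ‖φ (c + x.1 + x.2)‖ = P at *
  generalize ‖fderiv ℝ φ (c + x.1 + x.2)‖ = D at *
  generalize ‖dcharge b M G g m α φ (c + x.1 + x.2)‖ = Q at *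
  generalize ‖(x.2 : Cfg N)‖ = Z at *
  generalize JS b c μU μZ δ x = J at *
  generalize hW : |η x| + ‖fderiv ℝ η x‖ = W at *
  have hWn : 0 ≤ W := by rw [← hW]; positivity
  have hηW : |η x| ≤ W := by rw [← hW]; linarith
  generalize |η x| = n at *
  have hr' := abs_nonneg r
  generalize |r| = ρ at *
  have f1 : A ≤ W * (C2 * (Q + P + Z * D + g * Z ^ 2 * P)) := by
    have g1 : n * Q ≤ W * Q := mul_le_mul_of_nonneg_right hηW q5
    have g2 : Z * H ≤ Z * (W * (2 * D + P)) := mul_le_mul_of_nonneg_left e2 q6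
    have g3 : g * Z ^ 2 * (n * P) ≤ g * Z ^ 2 * (W * P) := by gcongr
    have g4 : A ≤ W * Q + C1 * (W * P + Z * (W * (2 * D + P)) + g * Z ^ 2 * (W * P)) := by
      refine e5.trans (add_le_add g1 (mul_le_mul_of_nonneg_left ?_ hC1))
      linarith
    refine g4.trans ?_
    have g5 : W * Q + C1 * (W * P + Z * (W * (2 * D + P)) + g * Z ^ 2 * (W * P)) =
        W * (Q + C1 * (P + Z * (2 * D + P) + g * Z ^ 2 * P)) := by ring
    rw [g5]
    refine mul_le_mul_of_nonneg_left ?_ hWn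
    rw [hC2]
    exact aux_ineq q5 q3 q4 q6 hg hr' hC1 hZ
  exact aux_sq q0 f1 hcx

/-- 87's `AB` is 342's `Aop + Bop` -/
theorem AB_eq (g m : ℝ) (α : Fin 16) (Φ : Sc b c → F) (x : Sc b c) :
    AB b M G g m α c e v t Φ x = Aop b c M G g m α e Φ x + Bop b c M G g α v t Φ x := rfl

theorem continuous_fder {φ : Cfg N → F} (h : ContDiff ℝ 1 φ) :
    Continuous fun x : Sc b c => ‖fderiv ℝ φ (c + x.1 + x.2)‖ :=
  (cont_norm_fderiv h).comp (continuous_cpt b c)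

/-- **The integrated charge estimate.** -/
theorem AB_le {r₀ B m₀ : ℝ} (hr0 : 0 < r₀) (hB0 : 0 < B) (hB : ActBound (actB b) B)
    (hm0 : 0 ≤ m₀) (hgap : GapAt (actB b) c r₀) (hc : Comc b c) {δ : ℝ} (h : GoodRad b c δ)
    {r : ℝ} (hr : r ≤ δ) (hBr : B * r ≤ r₀ / 2) {η : Sc b c → ℝ} (hη : ContDiff ℝ 1 η)
    (hs : tsupport η ⊆ bS b c r) : ∃ C : ℝ, 0 ≤ C ∧ ∀ (g m : ℝ), 0 ≤ g → |m| ≤ m₀ →
      ∀ (R : GaugeAction b M) (φ : Cfg N → F), IsCoreVec b R φ →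
        ∑ α, ∫ x, ‖AB b M G g m α c e v t (half b c η φ) x‖ ^ 2 ∂(μU.prod μZ) ≤
          C * (qf b M G g m φ + (∫ x, ‖φ x‖ ^ 2) +
            ∫ x in bS b c r, mom b μU μZ δ g φ x ∂(μU.prod μZ)) := by
  obtain ⟨C, hC, hP⟩ := AB_pointwise b μU μZ M G e v t hr0 hB0 hB hm0 hgap hc h hr hBr hη hs
  refine ⟨C * 16, by positivity, fun g m hg hm R φ hφ => ?_⟩
  have hJ := continuous_JS b c μU μZ δ
  have hφ1 : ContDiff ℝ 1 φ := hφ.1.of_le (by norm_num)
  have hφc : Continuous fun x : Sc b c => ‖φ (c + x.1 + x.2)‖ :=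
    (hφ.1.continuous.comp (continuous_cpt b c)).norm
  have hzc : Continuous fun x : Sc b c => ‖(x.2 : Cfg N)‖ :=
    (continuous_subtype_val.comp continuous_snd).norm
  have hfc := continuous_fder b (c := c) hφ1
  have i2 : IntegrableOn (fun x : Sc b c => JS b c μU μZ δ x * ‖φ (c + x.1 + x.2)‖ ^ 2)
      (bS b c r) (μU.prod μZ) := integrableOn_bS b μU μZ (hJ.mul (hφc.pow 2)) r
  have i3 : IntegrableOn (mom b μU μZ δ g φ) (bS b c r) (μU.prod μZ) := by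
    refine integrableOn_bS b μU μZ ?_ r
    exact hJ.mul (((hzc.pow 2).mul (hfc.pow 2)).add
      ((continuous_const.mul (hzc.pow 4)).mul (hφc.pow 2)))
  have key : ∀ α : Fin 16,
      ∫ x, ‖AB b M G g m α c e v t (half b c η φ) x‖ ^ 2 ∂(μU.prod μZ) ≤
        C * ((∫ x, ‖dcharge b M G g m α φ x‖ ^ 2) + (∫ x, ‖φ x‖ ^ 2) +
          ∫ x in bS b c r, mom b μU μZ δ g φ x ∂(μU.prod μZ)) := by
    intro α
    have hQ := Brid837.core_dcharge (G := G) (g := g) (m := m) (α := α) hφ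
    have hQc : Continuous fun x : Sc b c => ‖dcharge b M G g m α φ (c + x.1 + x.2)‖ :=
      (hQ.1.continuous.comp (continuous_cpt b c)).norm
    have i1 : IntegrableOn (fun x : Sc b c => JS b c μU μZ δ x *
        ‖dcharge b M G g m α φ (c + x.1 + x.2)‖ ^ 2) (bS b c r) (μU.prod μZ) :=
      integrableOn_bS b μU μZ (hJ.mul (hQc.pow 2)) r
    have e1 : ∫ x, ‖AB b M G g m α c e v t (half b c η φ) x‖ ^ 2 ∂(μU.prod μZ) =
        ∫ x in bS b c r, ‖AB b M G g m α c e v t (half b c η φ) x‖ ^ 2 ∂(μU.prod μZ) := by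
      symm
      refine setIntegral_eq_integral_of_forall_compl_eq_zero fun x hx => ?_
      have hx' : x ∉ tsupport η := fun hh => hx (hs hh)
      rw [AB_zero b M G e v t (half_eventually_zero b hx')]
      simp
    rw [e1]
    have e2 : ∫ x in bS b c r, ‖AB b M G g m α c e v t (half b c η φ) x‖ ^ 2 ∂(μU.prod μZ) ≤
        ∫ x in bS b c r, C * (JS b c μU μZ δ x * ‖dcharge b M G g m α φ (c + x.1 + x.2)‖ ^ 2 +
            JS b c μU μZ δ x * ‖φ (c + x.1 + x.2)‖ ^ 2 + mom b μU μZ δ g φ x)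
          ∂(μU.prod μZ) := by
      refine integral_mono_of_nonneg (Eventually.of_forall fun x => sq_nonneg _)
        (((i1.add i2).add i3).const_mul C) ?_
      filter_upwards [ae_restrict_mem (measurableSet_bS b c r)] with x hx
      exact hP g m hg hm R φ hφ α x hx
    refine e2.trans ?_
    have e3 : ∫ x in bS b c r, (JS b c μU μZ δ x *
          ‖dcharge b M G g m α φ (c + x.1 + x.2)‖ ^ 2 +
            JS b c μU μZ δ x * ‖φ (c + x.1 + x.2)‖ ^ 2 + mom b μU μZ δ g φ x) ∂(μU.prod μZ) =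
        ((∫ x in bS b c r, JS b c μU μZ δ x *
          ‖dcharge b M G g m α φ (c + x.1 + x.2)‖ ^ 2 ∂(μU.prod μZ)) +
          ∫ x in bS b c r, JS b c μU μZ δ x * ‖φ (c + x.1 + x.2)‖ ^ 2 ∂(μU.prod μZ)) +
          ∫ x in bS b c r, mom b μU μZ δ g φ x ∂(μU.prod μZ) := by
      have e4 := integral_add (i1.add i2) i3
      have e5 := integral_add i1 i2
      simp only [Pi.add_apply] at e4 e5
      rw [← e5, ← e4]
    rw [integral_const_mul, e3]
    refine mul_le_mul_of_nonneg_left ?_ hC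
    have l1 := charge_Sc_le (G := G) (g := g) (m := m) (α := α) b μU μZ h hr hφ
    have l2 := l2_Sc_le b μU μZ h hr hφ
    linarith
  refine (Finset.sum_le_sum fun α _ => key α).trans ?_
  rw [← Finset.mul_sum, Finset.sum_add_distrib, Finset.sum_add_distrib, Finset.sum_const,
    Finset.sum_const, Finset.card_univ, Fintype.card_fin]
  unfold qf
  rw [nsmul_eq_mul, nsmul_eq_mul]
  refine le_of_eq ?_
  push_cast
  ring

end est

end Crest.Agent.R330.SlQ314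

end
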