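import Crest.Agent.R330.SlP_314

/-!
Row 330, S8-TRANSIT, part 1: the retraction onto a slice near its base point and its first order
behaviour at points of the slice.
-/

set_option autoImplicit false
noncomputable section

open Matrix Filter Topology
open Crest.MathPhysics.MatrixQM
open Crest.Agent.R330.SlA314 Crest.Agent.R330.SlB314 Crest.Agent.R330.SlC314
open Crest.Agent.R330.SlD314 Crest.Agent.R330.SlP314
open scoped ContDiff Topology

namespace Crest.Agent.R330.SlT1314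

variable {N : ℕ} (b : ColorBasis N)

/-- retraction onto the slice `c + Nor c` -/
def ret (c : Cfg N) (δ : ℝ) (x : Cfg N) : Cfg N := c + PN b c (PsiInv b c δ x)

/-- gauge parameter of the retraction -/
def omr (c : Cfg N) (δ : ℝ) (x : Cfg N) : Fin (N ^ 2 - 1) → ℝ := omL b c (PsiInv b c δ x)

variable {b}

theorem act_ret {c x : Cfg N} {δ : ℝ} (hx : x ∈ Psi b c '' box b c δ) :
    b.act (gexp b (omr b c δ x)) (ret b c δ x) = x := Psi_PsiInv hx

theorem ret_sub_mem (c x : Cfg N) (δ : ℝ) : ret b c δ x - c ∈ Nor b c := by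
  unfold ret
  rw [add_sub_cancel_left]
  exact PN_mem b c _

theorem norm_ret_sub {c x : Cfg N} {δ : ℝ} (hx : x ∈ Psi b c '' box b c δ) :
    ‖ret b c δ x - c‖ < δ := by
  unfold ret
  rw [add_sub_cancel_left]
  exact (PsiInv_mem hx).2

theorem mem_image_of_nor {c y : Cfg N} {δ : ℝ} (h : GoodRad b c δ) (hy : y ∈ Nor b c)
    (hn : ‖y‖ < δ) : c + y ∈ Psi b c '' box b c δ := by
  refine ⟨y, ?_, Psi_nor b hy⟩
  have := add_mem_box b (Submodule.zero_mem (Tan b c)) hy (by rw [norm_zero]; exact h.pos) hn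
  rwa [zero_add] at this

theorem PsiInv_of_nor {c y : Cfg N} {δ : ℝ} (h : GoodRad b c δ) (hy : y ∈ Nor b c)
    (hn : ‖y‖ < δ) : PsiInv b c δ (c + y) = y := by
  have hm : y ∈ box b c δ := by
    have := add_mem_box b (Submodule.zero_mem (Tan b c)) hy (by rw [norm_zero]; exact h.pos) hn
    rwa [zero_add] at this
  rw [← Psi_nor b hy]
  exact h.PsiInv_Psi hm

theorem ret_of_nor {c y : Cfg N} {δ : ℝ} (h : GoodRad b c δ) (hy : y ∈ Nor b c)
    (hn : ‖y‖ < δ) : ret b c δ (c + y) = c + y := by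
  unfold ret
  rw [PsiInv_of_nor h hy hn, PN_of_mem b hy]

theorem omr_of_nor {c y : Cfg N} {δ : ℝ} (h : GoodRad b c δ) (hy : y ∈ Nor b c)
    (hn : ‖y‖ < δ) : omr b c δ (c + y) = 0 := by
  unfold omr
  rw [PsiInv_of_nor h hy hn, omL_of_Nor b hy]

theorem contDiffAt_ret {c x : Cfg N} {δ : ℝ} (h : GoodRad b c δ)
    (hx : x ∈ Psi b c '' box b c δ) : ContDiffAt ℝ ∞ (ret b c δ) x :=
  contDiffAt_const.add ((PN b c).contDiff.contDiffAt.comp x (h.contDiffAt_PsiInv hx))

theorem contDiffAt_omr {c x : Cfg N} {δ : ℝ} (h : GoodRad b c δ)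
    (hx : x ∈ Psi b c '' box b c δ) : ContDiffAt ℝ ∞ (omr b c δ) x :=
  (omL b c).contDiff.contDiffAt.comp x (h.contDiffAt_PsiInv hx)

/-- the derivative of `(ω, x) ↦ exp(ω) x` at `(0, x)` -/
theorem fderiv_act_zero (x : Cfg N) (w : (Fin (N ^ 2 - 1) → ℝ) × Cfg N) :
    fderiv ℝ (fun p : (Fin (N ^ 2 - 1) → ℝ) × Cfg N => b.act (gexp b p.1) p.2) (0, x) w =
      brx b w.1 x + w.2 := by
  have hd : DifferentiableAt ℝ
      (fun p : (Fin (N ^ 2 - 1) → ℝ) × Cfg N => b.act (gexp b p.1) p.2) (0, x) :=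
    ((contDiff_act_gexp b).differentiable (by simp)).differentiableAt
  have h1 : HasDerivAt (fun τ : ℝ => ((0 : Fin (N ^ 2 - 1) → ℝ), x) + τ • w) w 0 := by
    simpa using ((hasDerivAt_id (0 : ℝ)).smul_const w).const_add
      ((0 : Fin (N ^ 2 - 1) → ℝ), x)
  have h2 : HasDerivAt (fun τ : ℝ => b.act (gexp b (((0 : Fin (N ^ 2 - 1) → ℝ), x) + τ • w).1)
      (((0 : Fin (N ^ 2 - 1) → ℝ), x) + τ • w).2)
      (fderiv ℝ (fun p : (Fin (N ^ 2 - 1) → ℝ) × Cfg N => b.act (gexp b p.1) p.2) (0, x) w) 0 := by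
    have hd' : HasFDerivAt (fun p : (Fin (N ^ 2 - 1) → ℝ) × Cfg N => b.act (gexp b p.1) p.2)
      (fderiv ℝ (fun p : (Fin (N ^ 2 - 1) → ℝ) × Cfg N => b.act (gexp b p.1) p.2) (0, x))
      (((0 : Fin (N ^ 2 - 1) → ℝ), x) + (0 : ℝ) • w) := by
      rw [zero_smul, add_zero]
      exact hd.hasFDerivAt
    exact hd'.comp_hasDerivAt (0 : ℝ) h1
  have h3 : HasDerivAt (fun τ : ℝ => b.act (gexp b (τ • w.1)) x) (brx b w.1 x) 0 :=
    hasDerivAt_act_zero b _ _
  have h4 : HasDerivAt (fun τ : ℝ => b.act (gexp b (τ • w.1)) w.2) (brx b w.1 w.2) 0 :=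
    hasDerivAt_act_zero b _ _
  have h5 := h3.add ((hasDerivAt_id (0 : ℝ)).smul h4)
  simp only [id_eq, zero_smul, gexp_zero, act_one, zero_add, one_smul] at h5
  have e1 : (fun τ : ℝ => b.act (gexp b (((0 : Fin (N ^ 2 - 1) → ℝ), x) + τ • w).1)
      (((0 : Fin (N ^ 2 - 1) → ℝ), x) + τ • w).2) =
      ((fun τ : ℝ => b.act (gexp b (τ • w.1)) x) +
        ((id : ℝ → ℝ) • fun τ : ℝ => b.act (gexp b (τ • w.1)) w.2)) := by
    funext τ
    simp only [Prod.fst_add, Prod.smul_fst, zero_add, Prod.snd_add, Prod.smul_snd, Pi.add_apply,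
      Pi.smul_apply', id_eq]
    rw [act_add, act_smul]
  rw [e1] at h2
  exact h2.unique h5

/-- first order behaviour of the retraction at a point of the slice -/
theorem fderiv_ret {c y : Cfg N} {δ : ℝ} (h : GoodRad b c δ) (hy : y ∈ Nor b c)
    (hn : ‖y‖ < δ) (v : Cfg N) :
    brx b (fderiv ℝ (omr b c δ) (c + y) v) (c + y) + fderiv ℝ (ret b c δ) (c + y) v = v := by
  have hx : c + y ∈ Psi b c '' box b c δ := mem_image_of_nor h hy hn
  have h1 : HasFDerivAt (omr b c δ) (fderiv ℝ (omr b c δ) (c + y)) (c + y) :=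
    ((contDiffAt_omr h hx).differentiableAt (by simp)).hasFDerivAt
  have h2 : HasFDerivAt (ret b c δ) (fderiv ℝ (ret b c δ) (c + y)) (c + y) :=
    ((contDiffAt_ret h hx).differentiableAt (by simp)).hasFDerivAt
  have h3 := h1.prodMk h2
  have hd : HasFDerivAt (fun p : (Fin (N ^ 2 - 1) → ℝ) × Cfg N => b.act (gexp b p.1) p.2)
      (fderiv ℝ (fun p : (Fin (N ^ 2 - 1) → ℝ) × Cfg N => b.act (gexp b p.1) p.2) (0, c + y))
      (omr b c δ (c + y), ret b c δ (c + y)) := by
    rw [omr_of_nor h hy hn, ret_of_nor h hy hn]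
    exact (((contDiff_act_gexp b).differentiable (by simp)).differentiableAt).hasFDerivAt
  have h4 := hd.comp (c + y) h3
  have h5 : (fun x => b.act (gexp b (omr b c δ x)) (ret b c δ x)) =ᶠ[𝓝 (c + y)] id := by
    filter_upwards [h.isOpen_image.mem_nhds hx] with x hx'
    exact act_ret hx'
  have h6 := (h4.congr_of_eventuallyEq h5.symm).unique (hasFDerivAt_id (c + y))
  have h7 := congrArg (fun L => L v) h6
  simp only [ContinuousLinearMap.comp_apply, ContinuousLinearMap.prod_apply,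
    ContinuousLinearMap.id_apply] at h7
  rw [fderiv_act_zero] at h7
  exact h7

/-- scaling limit of the retraction -/
theorem tendsto_ret {c R Y ζ : Cfg N} {δ : ℝ} (h : GoodRad b c δ) (hR : R - c ∈ Nor b c)
    (hn : ‖R - c‖ < δ) (hY : Y ∈ Nor b c) {ι : Type*} {l : Filter ι} {α β : ι → ℝ}
    (hα : Tendsto α l (𝓝 0)) (hβ : Tendsto β l (𝓝 0)) (hβ0 : ∀ᶠ i in l, β i ≠ 0) :
    Tendsto (fun i => (β i)⁻¹ • (ret b c δ (R + α i • Y + β i • ζ) - (R + α i • Y))) l
      (𝓝 (fderiv ℝ (ret b c δ) R ζ)) := by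
  have hRc : c + (R - c) = R := by abel
  have hx : R ∈ Psi b c '' box b c δ := by
    have := mem_image_of_nor h hR hn
    rwa [hRc] at this
  have hs : HasStrictFDerivAt (ret b c δ) (fderiv ℝ (ret b c δ) R) R :=
    (contDiffAt_ret h hx).hasStrictFDerivAt (by simp)
  have hp : Tendsto (fun i => (R + α i • Y + β i • ζ, R + α i • Y)) l (𝓝 (R, R)) := by
    have e1 : Tendsto (fun i => R + α i • Y) l (𝓝 R) := by
      have := (hα.smul_const Y).const_add R
      simpa using this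
    have e2 : Tendsto (fun i => R + α i • Y + β i • ζ) l (𝓝 R) := by
      have := e1.add (hβ.smul_const ζ)
      simpa using this
    rw [nhds_prod_eq]
    exact e2.prodMk e1
  have ho := hs.isLittleO.comp_tendsto hp
  have hev : ∀ᶠ i in l, ret b c δ (R + α i • Y) = R + α i • Y := by
    have e1 : Tendsto (fun i => ‖R - c + α i • Y‖) l (𝓝 ‖R - c‖) := by
      have := ((hα.smul_const Y).const_add (R - c)).norm
      simpa using this
    filter_upwards [e1.eventually_lt_const hn] with i hi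
    have h1 := ret_of_nor h ((Nor b c).add_mem hR ((Nor b c).smul_mem (α i) hY)) hi
    have h2 : c + (R - c + α i • Y) = R + α i • Y := by abel
    rwa [h2] at h1
  rw [tendsto_iff_norm_sub_tendsto_zero]
  have ho2 : Tendsto (fun i => ‖(β i)‖⁻¹ * ‖ret b c δ (R + α i • Y + β i • ζ) -
      ret b c δ (R + α i • Y) - fderiv ℝ (ret b c δ) R (β i • ζ)‖) l (𝓝 0) := by
    have e : (fun i => ret b c δ (R + α i • Y + β i • ζ) -
      ret b c δ (R + α i • Y) - fderiv ℝ (ret b c δ) R (β i • ζ)) =o[l] (fun i => β i • ζ) := by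
      refine ho.congr ?_ ?_
      · intro i
        simp only [Function.comp_apply]
        congr 2
        abel
      · intro i
        simp only [Function.comp_apply]
        abel
    have e2 : (fun i => ret b c δ (R + α i • Y + β i • ζ) -
      ret b c δ (R + α i • Y) - fderiv ℝ (ret b c δ) R (β i • ζ)) =o[l] β := by
      refine e.trans_isBigO ?_
      refine Asymptotics.IsBigO.of_bound ‖ζ‖ (Filter.Eventually.of_forall fun i => ?_)
      rw [norm_smul, mul_comm]
    have e3 := e2.norm_norm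
    have := e3.tendsto_div_nhds_zero
    refine this.congr fun i => ?_
    rw [div_eq_inv_mul]
  refine (ho2.congr' ?_)
  filter_upwards [hev, hβ0] with i hi hi0
  rw [hi, map_smul, ← norm_inv, ← norm_smul, smul_sub, inv_smul_smul₀ hi0]

end Crest.Agent.R330.SlT1314
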