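import Crest.Agent.R330.SlJ_186
import Crest.Agent.R330.TDef_414

/-!
# Row 330, S8 (helper692): the density of a slice chart is the explicit Jacobian

* `slice_inv'` : 969's slice formula on the whole tube of radius `r` for `Good b c r`.
* `dens_le`, `dens_eq` : a density on the slice which is continuous and invariant under the
  stabiliser is determined by the integrals of the invariant functions.
* `j_eq` : `σ.j u = cst * |det (J_{c+u})|` on `Nor b c`, `‖u‖ < σ.r`, for every chart `σ : Sl C`.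
-/

set_option autoImplicit false
set_option linter.unusedSectionVars false

open MeasureTheory Metric Set Filter
open Crest.MathPhysics.MatrixQM
open Crest.Agent.R330.SlA314 Crest.Agent.R330.SlB314 Crest.Agent.R330.SlC314
open Crest.Agent.R330.SlD314 Crest.Agent.R330.SlP314 Crest.Agent.R330.SlF944
open Crest.Agent.R330.SUgrp596
open scoped ContDiff Topology ENNReal InnerProductSpace

noncomputable section

namespace Crest.Agent.R330.SlU692

open Crest.Agent.R330.VJac969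

variable {N : ℕ} (b : ColorBasis N)

/-! ## The slice formula on large tubes -/

/-- The chart with radius `δ` in the group direction and `r` in the normal direction. -/
theorem chart' {c : Cfg N} {δ r : ℝ} (h : GoodRad b c δ) (hg : Good b c r) :
    SlI712.Chart (G := SU N) b.act c (Tan b c).subtypeₗᵢ (Nor b c).subtypeₗᵢ
      (fun t : Tan b c => gexp b (omL b c t)) δ r (fun t => ad b c t) (fun u => jd b c u) where
  iso := (chart b h).iso
  mp := (chart b h).mp
  orth := orth b c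
  span := span b c
  star g u u' hu hu' he := hg.star g u u' u.2 u'.2 (by simpa using hu) (by simpa using hu') he
  stab g hg' u _ := by
    refine ⟨⟨b.act g u, act_mem_Nor b u.2 hg'⟩, ?_, ?_⟩
    · change ‖b.act g (u : Cfg N)‖ = ‖(u : Cfg N)‖
      exact act_norm b g _
    · change b.act g (c + (u : Cfg N)) = c + b.act g (u : Cfg N)
      rw [act_add, hg']
  inj := (chart b h).inj
  der t _ u _ := chart_der b c (orth b c) (span b c) t u
  a_nonneg t := ad_nonneg b c t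
  J_nonneg u := jd_nonneg b c u
  a_meas := (chart b h).a_meas
  J_meas := (chart b h).J_meas
  e_meas := (chart b h).e_meas

/-- **Slice integration formula**, general functions, large tubes. -/
theorem slice_gen' {c : Cfg N} {δ r : ℝ} (h : GoodRad b c δ) (hg : Good b c r)
    (f : Cfg N → ℝ≥0∞) (hf : Measurable f) :
    ∫⁻ x in tube b c r, f x = ∫⁻ g, (∫⁻ u in ball (0 : Nor b c) r,
      ENNReal.ofReal (jn b c δ u) * f (b.act g (c + u))) ∂(haarSU N) := by
  have h1 := (chart' b h hg).slice_lintegral (haarSU N) le_rfl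
    (by rw [tube_eq]; exact (isOpen_tube b c r).measurableSet) f hf
  rw [tube_eq] at h1
  have h2 : ∫⁻ x in tube b c r, f x = (kap b c δ)⁻¹ * (vol b c δ *
      ∫⁻ g, (∫⁻ u in ball (0 : Nor b c) r, ENNReal.ofReal (jd b c u) *
        f (b.act g (c + (Nor b c).subtypeₗᵢ u))) ∂(haarSU N)) := by
    have h3 : vol b c δ * ∫⁻ g, (∫⁻ u in ball (0 : Nor b c) r, ENNReal.ofReal (jd b c u) *
        f (b.act g (c + (Nor b c).subtypeₗᵢ u))) ∂(haarSU N) =
        kap b c δ * ∫⁻ x in tube b c r, f x := h1.symm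
    rw [h3, ← mul_assoc, ENNReal.inv_mul_cancel (kap_ne_zero b h) (kap_ne_top b c δ), one_mul]
  rw [h2, ← mul_assoc, mul_comm (kap b c δ)⁻¹, ← div_eq_mul_inv, ← ofReal_cst b h,
    ← lintegral_const_mul' _ _ ENNReal.ofReal_ne_top]
  refine lintegral_congr fun g => ?_
  rw [← lintegral_const_mul' _ _ ENNReal.ofReal_ne_top]
  refine lintegral_congr fun u => ?_
  rw [← mul_assoc, ← ENNReal.ofReal_mul (cst_pos b h).le]
  rfl

/-- **Slice integration formula**, invariant functions, large tubes. -/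
theorem slice_inv' {c : Cfg N} {δ r : ℝ} (h : GoodRad b c δ) (hg : Good b c r)
    (f : Cfg N → ℝ≥0∞) (hf : Measurable f) (hi : ∀ (g : SU N) x, f (b.act g x) = f x) :
    ∫⁻ x in tube b c r, f x = ∫⁻ u in ball (0 : Nor b c) r,
      ENNReal.ofReal (jn b c δ u) * f (c + u) := by
  rw [slice_gen' b h hg f hf]
  simp only [hi]
  rw [lintegral_const, measure_univ, mul_one]

/-! ## Small neighbourhoods of an orbit in the slice -/

variable {b}

theorem norm_lt_of_near {c : Cfg N} {r : ℝ} (hg : Good b c r) {y y0 : Cfg N} (hy : y ∈ Nor b c)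
    (hyr : ‖y‖ < r) {ρ : ℝ} (hρ : ‖y0‖ + ρ ≤ r) (hn : c + y ∈ tube b (c + y0) ρ) :
    ‖y‖ < ‖y0‖ + ρ := by
  obtain ⟨g, hg1⟩ := hn
  have h1 : c + y ∈ tube b c (‖y0‖ + ρ) := by
    refine ⟨g, ?_⟩
    have h2 : c + y - b.act g c = (c + y - b.act g (c + y0)) + b.act g y0 := by
      rw [act_add]
      abel
    rw [h2]
    refine (norm_add_le _ _).trans_lt ?_
    rw [act_norm]
    linarith
  obtain ⟨g', y', hy', hn', he⟩ := (mem_tube_iff b c _ _).1 h1
  have h3 := hg.star g' y' y hy' hy (hn'.trans_le hρ) hyr he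
  have h4 : b.act g' y' = y := by
    rw [act_add, h3] at he
    exact add_left_cancel he
  rw [← h4, act_norm]
  exact hn'

/-- A continuous invariant function is nearly constant near an orbit. -/
theorem shrink {c : Cfg N} {r : ℝ} (hg : Good b c r) {f : Cfg N → ℝ}
    (hf : ∀ y ∈ Nor b c, ‖y‖ < r → ContinuousAt f y)
    (hi : ∀ k : SU N, b.act k c = c → ∀ y ∈ Nor b c, ‖y‖ < r → f (b.act k y) = f y)
    {y0 : Cfg N} (hy0 : y0 ∈ Nor b c) (hn0 : ‖y0‖ < r) {ε : ℝ} (hε : 0 < ε) :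
    ∃ ρ : ℝ, 0 < ρ ∧ ∀ ρ', 0 < ρ' → ρ' ≤ ρ → ∀ y ∈ Nor b c, ‖y‖ < r →
      c + y ∈ tube b (c + y0) ρ' → |f y - f y0| < ε := by
  by_contra hcon
  push Not at hcon
  have key : ∀ n : ℕ, ∃ (y : Cfg N) (g : SU N), y ∈ Nor b c ∧ ‖y‖ < r ∧
      ‖y‖ < ‖y0‖ + 1 / ((n : ℝ) + 1) ∧
      ‖c + y - b.act g (c + y0)‖ < 1 / ((n : ℝ) + 1) ∧ ε ≤ |f y - f y0| := by
    intro n
    have hp : 0 < min (1 / ((n : ℝ) + 1)) (r - ‖y0‖) := lt_min (by positivity) (by linarith)
    obtain ⟨ρ', hρ', hle, y, hy, hyr, hyt, hyf⟩ := hcon _ hp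
    have h1 := norm_lt_of_near hg hy hyr (ρ := ρ') (by
      have := hle.trans (min_le_right _ _)
      linarith) hyt
    obtain ⟨g, hg1⟩ := hyt
    have h2 := hle.trans (min_le_left _ _)
    exact ⟨y, g, hy, hyr, by linarith, hg1.trans_le h2, hyf⟩
  choose y g hy hyr hyn hyg hyf using key
  have hK : IsCompact ((Set.univ : Set (SU N)) ×ˢ Metric.closedBall (0 : Cfg N) r) :=
    isCompact_univ.prod (isCompact_closedBall _ _)
  obtain ⟨⟨g', y'⟩, -, φ, hφ, hlim⟩ := hK.tendsto_subseq (x := fun n => (g n, y n))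
    (fun n => ⟨trivial, by simpa using (hyr n).le⟩)
  have hgl : Tendsto (fun n => g (φ n)) atTop (𝓝 g') := (continuous_fst.tendsto _).comp hlim
  have hyl : Tendsto (fun n => y (φ n)) atTop (𝓝 y') := (continuous_snd.tendsto _).comp hlim
  have h0 : Tendsto (fun n : ℕ => 1 / ((n : ℝ) + 1)) atTop (𝓝 0) :=
    tendsto_one_div_add_atTop_nhds_zero_nat
  have h0' := h0.comp hφ.tendsto_atTop
  have hyN : y' ∈ Nor b c :=
    (Nor b c).closed_of_finiteDimensional.mem_of_tendsto hyl (Eventually.of_forall fun n => hy _)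
  have hyn' : ‖y'‖ ≤ ‖y0‖ := by
    have h1 : Tendsto (fun n => ‖y0‖ + 1 / (((φ n : ℕ) : ℝ) + 1)) atTop (𝓝 (‖y0‖ + 0)) :=
      tendsto_const_nhds.add h0'
    rw [add_zero] at h1
    exact le_of_tendsto_of_tendsto' hyl.norm h1 fun n => (hyn _).le
  have hact : b.act g' (c + y0) = c + y' := by
    have h1 : Tendsto (fun n => ‖c + y (φ n) - b.act (g (φ n)) (c + y0)‖) atTop
        (𝓝 ‖c + y' - b.act g' (c + y0)‖) :=
      (((tendsto_const_nhds (x := c)).add hyl).sub
        (((continuous_act_left b (c + y0)).tendsto g').comp hgl)).norm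
    have h2 : ‖c + y' - b.act g' (c + y0)‖ ≤ 0 :=
      le_of_tendsto_of_tendsto' h1 h0' fun n => (hyg _).le
    have h3 := norm_le_zero_iff.1 h2
    exact (sub_eq_zero.1 h3).symm
  have hst := hg.star g' y0 y' hy0 hyN hn0 (hyn'.trans_lt hn0) hact
  have hy'' : b.act g' y0 = y' := by
    rw [act_add, hst] at hact
    exact add_left_cancel hact
  have hfy : f y' = f y0 := by rw [← hy'', hi g' hst y0 hy0 hn0]
  have hcont : Tendsto (fun n => |f (y (φ n)) - f y0|) atTop (𝓝 |f y' - f y0|) :=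
    (((hf y' hyN (hyn'.trans_lt hn0)).tendsto.comp hyl).sub tendsto_const_nhds).abs
  rw [hfy, sub_self, abs_zero] at hcont
  have := ge_of_tendsto' hcont fun n => hyf _
  linarith

/-! ## Uniqueness of the density -/

/-- The neighbourhood of the orbit of `y0` in the ball of the slice. -/
def W (c y0 : Cfg N) (r ρ : ℝ) : Set (Nor b c) :=
  {u | ‖u‖ < r ∧ c + (u : Cfg N) ∈ tube b (c + y0) ρ}

theorem isOpen_W (c y0 : Cfg N) (r ρ : ℝ) : IsOpen (W (b := b) c y0 r ρ) := by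
  have h1 : IsOpen {u : Nor b c | ‖u‖ < r} := isOpen_lt continuous_norm continuous_const
  have h2 : IsOpen {u : Nor b c | c + (u : Cfg N) ∈ tube b (c + y0) ρ} :=
    (isOpen_tube b _ _).preimage (continuous_const.add continuous_subtype_val)
  exact h1.inter h2

theorem mem_W {c y0 : Cfg N} (hy0 : y0 ∈ Nor b c) {r ρ : ℝ} (hr : ‖y0‖ < r) (hρ : 0 < ρ) :
    (⟨y0, hy0⟩ : Nor b c) ∈ W (b := b) c y0 r ρ := by
  refine ⟨hr, 1, ?_⟩
  rw [act_one, sub_self, norm_zero]
  exact hρ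

theorem dens_le {c : Cfg N} {r : ℝ} (hg : Good b c r) {j1 j2 : Cfg N → ℝ}
    (h1c : ∀ y ∈ Nor b c, ‖y‖ < r → ContinuousAt j1 y)
    (h1i : ∀ k : SU N, b.act k c = c → ∀ y ∈ Nor b c, ‖y‖ < r → j1 (b.act k y) = j1 y)
    (h2c : ∀ y ∈ Nor b c, ‖y‖ < r → ContinuousAt j2 y)
    (h2i : ∀ k : SU N, b.act k c = c → ∀ y ∈ Nor b c, ‖y‖ < r → j2 (b.act k y) = j2 y)
    (h2p : ∀ y ∈ Nor b c, ‖y‖ < r → 0 ≤ j2 y)
    (h : ∀ h : Cfg N → ℝ≥0∞, Measurable h → (∀ (k : SU N) x, h (b.act k x) = h x) →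
      ∫⁻ y in ball (0 : Nor b c) r, ENNReal.ofReal (j1 y) * h (c + y) =
        ∫⁻ y in ball (0 : Nor b c) r, ENNReal.ofReal (j2 y) * h (c + y))
    {y0 : Cfg N} (hy0 : y0 ∈ Nor b c) (hn0 : ‖y0‖ < r) : j1 y0 ≤ j2 y0 := by
  refine le_of_forall_pos_le_add fun ε hε => ?_
  obtain ⟨ρ1, hρ1, hs1⟩ := shrink hg h1c h1i hy0 hn0 (half_pos hε)
  obtain ⟨ρ2, hρ2, hs2⟩ := shrink hg h2c h2i hy0 hn0 (half_pos hε)
  set ρ := min ρ1 ρ2 with hρ
  have hρ0 : 0 < ρ := lt_min hρ1 hρ2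
  set w : Set (Nor b c) := W (b := b) c y0 r ρ with hw
  have hwo : IsOpen w := isOpen_W c y0 r ρ
  have hwm : MeasurableSet w := hwo.measurableSet
  have hwsub : w ⊆ ball (0 : Nor b c) r := fun u hu => by
    rw [mem_ball_zero_iff]
    exact hu.1
  have hw0 : (volume : Measure (Nor b c)) w ≠ 0 :=
    (hwo.measure_pos volume ⟨_, mem_W hy0 hn0 hρ0⟩).ne'
  have hwt : (volume : Measure (Nor b c)) w ≠ ⊤ :=
    ((measure_mono hwsub).trans_lt measure_ball_lt_top).ne
  set hh : Cfg N → ℝ≥0∞ := (tube b (c + y0) ρ).indicator 1 with hhh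
  have hhm : Measurable hh := measurable_one.indicator (isOpen_tube b _ _).measurableSet
  have hhi : ∀ (k : SU N) x, hh (b.act k x) = hh x := by
    intro k x
    by_cases hx : x ∈ tube b (c + y0) ρ
    · rw [hhh, indicator_of_mem ((act_mem_tube (b := b) k).2 hx), indicator_of_mem hx]
      rfl
    · rw [hhh, indicator_of_notMem (fun h' => hx ((act_mem_tube (b := b) k).1 h')),
        indicator_of_notMem hx]
  have hred : ∀ j : Cfg N → ℝ, ∫⁻ y in ball (0 : Nor b c) r, ENNReal.ofReal (j y) * hh (c + y) =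
      ∫⁻ y in w, ENNReal.ofReal (j y) := by
    intro j
    rw [← lintegral_indicator measurableSet_ball, ← lintegral_indicator hwm]
    refine lintegral_congr fun u => ?_
    by_cases hu : u ∈ w
    · rw [indicator_of_mem hu, indicator_of_mem (hwsub hu), hhh, indicator_of_mem hu.2]
      simp
    · rw [indicator_of_notMem hu]
      by_cases hub : u ∈ ball (0 : Nor b c) r
      · rw [indicator_of_mem hub, hhh, indicator_of_notMem, mul_zero]
        intro h'
        exact hu ⟨mem_ball_zero_iff.1 hub, h'⟩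
      · rw [indicator_of_notMem hub]
  have heq := h hh hhm hhi
  rw [hred, hred] at heq
  have hlow : ENNReal.ofReal (j1 y0 - ε / 2) * volume w ≤ ∫⁻ y in w, ENNReal.ofReal (j1 y) := by
    rw [← setLIntegral_const]
    refine setLIntegral_mono' hwm fun u hu => ENNReal.ofReal_le_ofReal ?_
    have h3 := hs1 ρ hρ0 (min_le_left _ _) u u.2 hu.1 hu.2
    have h4 := (abs_lt.1 h3).1
    linarith
  have hup : ∫⁻ y in w, ENNReal.ofReal (j2 y) ≤ ENNReal.ofReal (j2 y0 + ε / 2) * volume w := by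
    rw [← setLIntegral_const]
    refine setLIntegral_mono' hwm fun u hu => ENNReal.ofReal_le_ofReal ?_
    have h3 := hs2 ρ hρ0 (min_le_right _ _) u u.2 hu.1 hu.2
    have h4 := (abs_lt.1 h3).2
    linarith
  have h5 : ENNReal.ofReal (j1 y0 - ε / 2) * volume w ≤ ENNReal.ofReal (j2 y0 + ε / 2) * volume w :=
    hlow.trans (heq.le.trans hup)
  have h6 : ENNReal.ofReal (j1 y0 - ε / 2) ≤ ENNReal.ofReal (j2 y0 + ε / 2) :=
    (ENNReal.mul_le_mul_iff_left hw0 hwt).1 h5
  have h7 : j1 y0 - ε / 2 ≤ j2 y0 + ε / 2 := by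
    rw [ENNReal.ofReal_le_ofReal_iff] at h6
    · exact h6
    · have := h2p y0 hy0 hn0
      linarith
  linarith

/-- **Uniqueness of the density.** -/
theorem dens_eq {c : Cfg N} {r : ℝ} (hg : Good b c r) {j1 j2 : Cfg N → ℝ}
    (h1c : ∀ y ∈ Nor b c, ‖y‖ < r → ContinuousAt j1 y)
    (h1i : ∀ k : SU N, b.act k c = c → ∀ y ∈ Nor b c, ‖y‖ < r → j1 (b.act k y) = j1 y)
    (h1p : ∀ y ∈ Nor b c, ‖y‖ < r → 0 ≤ j1 y)
    (h2c : ∀ y ∈ Nor b c, ‖y‖ < r → ContinuousAt j2 y)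
    (h2i : ∀ k : SU N, b.act k c = c → ∀ y ∈ Nor b c, ‖y‖ < r → j2 (b.act k y) = j2 y)
    (h2p : ∀ y ∈ Nor b c, ‖y‖ < r → 0 ≤ j2 y)
    (h : ∀ h : Cfg N → ℝ≥0∞, Measurable h → (∀ (k : SU N) x, h (b.act k x) = h x) →
      ∫⁻ y in ball (0 : Nor b c) r, ENNReal.ofReal (j1 y) * h (c + y) =
        ∫⁻ y in ball (0 : Nor b c) r, ENNReal.ofReal (j2 y) * h (c + y))
    {y0 : Cfg N} (hy0 : y0 ∈ Nor b c) (hn0 : ‖y0‖ < r) : j1 y0 = j2 y0 :=
  le_antisymm (dens_le hg h1c h1i h2c h2i h2p h hy0 hn0)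
    (dens_le hg h2c h2i h1c h1i h1p (fun h' h1 h2 => (h h' h1 h2).symm) hy0 hn0)

/-! ## The density of a chart -/

open Crest.Agent.R330.TDef414

variable {p : ℕ} {S : Type} [Group S] [Fintype S] {C : Chn b p S}

/-- **The density of a chart is 969's `jn`** on the whole ball. -/
theorem j_eq_jn (σ : Sl C) {δ : ℝ} (h : GoodRad b (C.cf σ.X0) δ) {u : Cfg N}
    (hu : u ∈ Nor b (C.cf σ.X0)) (hn : ‖u‖ < σ.r) : σ.j u = jn b (C.cf σ.X0) δ u := by
  refine dens_eq σ.good (fun y hy hyr => (σ.smooth y hy hyr).continuousAt) σ.inv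
    (fun y hy hyr => (σ.jpos y hy hyr).le)
    (fun y _ _ => (continuous_jn b (C.cf σ.X0) δ).continuousAt)
    (fun k hk y hy _ => SlJ186.jn_act b δ hk hy)
    (fun y _ _ => mul_nonneg (cst_pos b h).le (jd_nonneg b (C.cf σ.X0) y))
    (fun h' hm hi => ?_) hu hn
  rw [← σ.int h' hm hi, ← slice_inv' b h σ.good h' hm hi]

/-- **The density of a chart is a constant times 288's determinant** on the whole ball. -/
theorem j_eq (σ : Sl C) : ∃ κ : ℝ, 0 < κ ∧ ∀ (rr B : ℝ), 0 < rr →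
    Frame839.GapAt (LS839.actB b) (C.cf σ.X0) rr → Frame839.ActBound (LS839.actB b) B →
    ∀ u ∈ Nor b (C.cf σ.X0), ‖u‖ < σ.r →
      σ.j u = κ * |LinearMap.det (VacJ288.J (LS839.actB b) (C.cf σ.X0) (C.cf σ.X0 + u))| := by
  obtain ⟨δ, h⟩ := exists_goodRad b (C.cf σ.X0)
  refine ⟨cst b (C.cf σ.X0) δ, cst_pos b h, fun rr B hr0 hr hB u hu hn => ?_⟩
  rw [j_eq_jn σ h hu hn, jn_eq_J b δ hr0 hr hB hu]

/-- **The density of a chart is a constant times 712's `jac`** on the whole ball, in absolute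
value. -/
theorem j_eq_jac (σ : Sl C) : ∃ κ : ℝ, 0 < κ ∧ ∀ u ∈ Nor b (C.cf σ.X0), ‖u‖ < σ.r →
    σ.j u = κ * |SlJ712.jac b (C.cf σ.X0) u| := by
  obtain ⟨δ, h⟩ := exists_goodRad b (C.cf σ.X0)
  refine ⟨cst b (C.cf σ.X0) δ, cst_pos b h, fun u hu hn => ?_⟩
  rw [j_eq_jn σ h hu hn, jn, SlJ186.jd_eq_abs]

end Crest.Agent.R330.SlU692

end
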