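import Crest.Agent.R330.Gam_962
import Crest.Agent.R330.Defs_478
import Crest.Agent.R330.GapAlg_916

/-! # Row 330: the spin Fierz identity with mass, for an abstract `GammaNine`

Words in the nine gammas; the 120 words of length two and three form a trace-orthogonal basis of the
antisymmetric `16 × 16` matrices; consequence: the identity `spin_fierz`. -/

set_option autoImplicit false
set_option linter.unusedVariables false

open Matrix Finset
open Crest.MathPhysics.MatrixQM

namespace Crest.Agent.R330.Spin288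

open Crest.Agent.R330.Gam962 Crest.Agent.R330.Defs478

variable (G : GammaNine)

/-- The product of the gammas along a list. -/
noncomputable def w (l : List (Fin 9)) : Matrix (Fin 16) (Fin 16) ℝ := (l.map G.γ).prod

theorem w_nil : w G [] = 1 := rfl
theorem w_cons (i : Fin 9) (l : List (Fin 9)) : w G (i :: l) = G.γ i * w G l := by
  simp [w]
theorem w_append (l l' : List (Fin 9)) : w G (l ++ l') = w G l * w G l' := by
  simp [w]
theorem w_one (i : Fin 9) : w G [i] = G.γ i := by simp [w]

theorem w_transpose (l : List (Fin 9)) : (w G l)ᵀ = w G l.reverse := by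
  induction l with
  | nil => simp [w_nil]
  | cons i l ih => rw [w_cons, Matrix.transpose_mul, ih, G.symm, List.reverse_cons, w_append, w_one]

theorem w_rev_mul (l : List (Fin 9)) : w G l.reverse * w G l = 1 := by
  induction l with
  | nil => simp [w_nil]
  | cons i l ih =>
    rw [List.reverse_cons, w_append, w_one, w_cons, mul_assoc, ← mul_assoc (G.γ i), sq_one, one_mul,
      ih]

/-- Moving a gamma through a word. -/
theorem gam_w (i : Fin 9) (l : List (Fin 9)) :
    G.γ i * w G l = (-1 : ℝ) ^ (l.countP (fun x => decide (x ≠ i))) • (w G l * G.γ i) := by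
  induction l with
  | nil => simp [w_nil]
  | cons j l ih =>
    rw [w_cons, List.countP_cons]
    by_cases h : j = i
    · subst h
      simp only [ne_eq, not_true_eq_false, decide_false, Bool.false_eq_true, if_false, add_zero]
      conv_lhs => rw [ih]
      rw [mul_assoc (G.γ j) (w G l) (G.γ j), mul_smul_comm]
    · have h' : i ≠ j := fun e => h e.symm
      simp only [ne_eq, h, not_false_eq_true, decide_true, if_true]
      rw [← mul_assoc, anti G h', neg_mul, mul_assoc, ih, pow_succ]
      simp only [ne_eq, mul_neg, mul_one, neg_smul, mul_smul_comm, mul_assoc]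

theorem trace_w_zero (i : Fin 9) (l : List (Fin 9))
    (h : Odd (l.countP (fun x => decide (x ≠ i)))) : (w G l).trace = 0 := by
  have h1 : (w G l).trace = (G.γ i * (G.γ i * w G l)).trace := by
    rw [← mul_assoc, sq_one, one_mul]
  have h2 : (G.γ i * (G.γ i * w G l)).trace = - (w G l).trace := by
    rw [gam_w, h.neg_one_pow, neg_smul, one_smul, mul_neg, Matrix.trace_neg,
      Matrix.trace_mul_comm, mul_assoc, sq_one, mul_one]
  linarith

/-! ### Index set: words attached to the finsets with two or three elements -/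

/-- Finsets of size 2 or 3. -/
abbrev Idx := {I : Finset (Fin 9) // I.card = 2 ∨ I.card = 3}

noncomputable def W (I : Idx) : Matrix (Fin 16) (Fin 16) ℝ := w G (I.1.sort (· ≤ ·))

theorem countP_ne (i : Fin 9) (l : List (Fin 9)) (hl : l.Nodup) :
    l.countP (fun x => decide (x ≠ i)) + (if i ∈ l then 1 else 0) = l.length := by
  have h1 := List.length_eq_countP_add_countP (fun x => decide (x ≠ i)) (l := l)
  have h2 : l.countP (fun a => decide ¬(decide (a ≠ i)) = true) = l.count i := by
    rw [List.count]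
    congr 1
    funext x
    by_cases h : x = i <;> simp [h]
  rw [h1, h2, hl.count]

theorem W_orth {I J : Idx} (h : I ≠ J) : ((W G I)ᵀ * W G J).trace = 0 := by
  unfold W
  rw [w_transpose, ← w_append]
  have hI := Finset.sort_nodup I.1 (· ≤ ·)
  have hJ := Finset.sort_nodup J.1 (· ≤ ·)
  have key : ∀ i : Fin 9, ((I.1.sort (· ≤ ·)).reverse ++ (J.1.sort (· ≤ ·))).countP (fun x => decide (x ≠ i)) +
      ((if i ∈ I.1 then 1 else 0) + (if i ∈ J.1 then 1 else 0)) = I.1.card + J.1.card := by
    intro i
    have a := countP_ne i _ (List.nodup_reverse.mpr hI)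
    have b := countP_ne i _ hJ
    rw [List.countP_append]
    simp only [List.mem_reverse, Finset.mem_sort, List.length_reverse,
      Finset.length_sort] at a b
    omega
  by_cases hpar : Even (I.1.card + J.1.card)
  · have : I.1 ≠ J.1 := fun e => h (Subtype.ext e)
    obtain ⟨i, hi⟩ : ∃ i, ¬ (i ∈ I.1 ↔ i ∈ J.1) := by
      by_contra hc
      push Not at hc
      exact this (Finset.ext hc)
    refine trace_w_zero G i _ ?_
    have := key i
    rw [Nat.even_iff] at hpar
    rw [Nat.odd_iff]
    by_cases h1 : i ∈ I.1 <;> by_cases h2 : i ∈ J.1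
    · exact absurd (iff_of_true h1 h2) hi
    · rw [if_pos h1, if_neg h2] at this; omega
    · rw [if_neg h1, if_pos h2] at this; omega
    · exact absurd (iff_of_false h1 h2) hi
  · obtain ⟨i, hi⟩ : ∃ i, i ∉ I.1 ∪ J.1 := by
      by_contra hc
      push Not at hc
      have : (I.1 ∪ J.1) = Finset.univ := Finset.eq_univ_iff_forall.mpr hc
      have h1 := Finset.card_union_le I.1 J.1
      rw [this, Finset.card_univ, Fintype.card_fin] at h1
      rcases I.2 with a | a <;> rcases J.2 with b | b <;> omega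
    rw [Finset.mem_union, not_or] at hi
    refine trace_w_zero G i _ ?_
    have := key i
    rw [if_neg hi.1, if_neg hi.2] at this
    rw [Nat.not_even_iff_odd] at hpar
    rw [add_zero] at this
    rwa [← this, add_zero] at hpar

theorem W_norm (I : Idx) : ((W G I)ᵀ * W G I).trace = 16 := by
  unfold W
  rw [w_transpose, w_rev_mul, Matrix.trace_one]
  norm_num

/-- `γ^x γ^y` as a word of length 2, antisymmetric. -/
theorem w_antisymm_of_card (I : Idx) : (W G I)ᵀ = - W G I := by
  unfold W
  rw [w_transpose]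
  rcases I.2 with h | h
  · have hl : (I.1.sort (· ≤ ·)).length = 2 := by rw [Finset.length_sort]; exact h
    obtain ⟨x, y, hxy⟩ := List.length_eq_two.mp hl
    have hn := Finset.sort_nodup I.1 (· ≤ ·)
    rw [hxy] at hn ⊢
    simp at hn
    simp only [List.reverse_cons, List.reverse_nil, List.nil_append, List.cons_append, w_cons,
      w_nil, mul_one]
    exact anti G (fun e => hn e.symm)
  · have hl : (I.1.sort (· ≤ ·)).length = 3 := by rw [Finset.length_sort]; exact h
    obtain ⟨x, y, z, hxy⟩ := List.length_eq_three.mp hl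
    have hn := Finset.sort_nodup I.1 (· ≤ ·)
    rw [hxy] at hn ⊢
    simp at hn
    simp only [List.reverse_cons, List.reverse_nil, List.nil_append, List.cons_append, w_cons,
      w_nil, mul_one]
    rw [anti G (show y ≠ x from fun e => hn.1.1 e.symm), mul_neg, ← mul_assoc,
      anti G (show z ≠ x from fun e => hn.1.2 e.symm), neg_mul, neg_neg, mul_assoc,
      anti G (show z ≠ y from fun e => hn.2 e.symm), mul_neg]

/-- the space of antisymmetric matrices -/
def Asym : Submodule ℝ (Matrix (Fin 16) (Fin 16) ℝ) where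
  carrier := {D | Dᵀ = - D}
  add_mem' := by
    intro a b ha hb
    simp only [Set.mem_ofPred_eq] at *
    rw [Matrix.transpose_add, ha, hb, neg_add]
  zero_mem' := by simp
  smul_mem' := by
    intro c a ha
    simp only [Set.mem_ofPred_eq] at *
    rw [Matrix.transpose_smul, ha, smul_neg]

abbrev Pr := {p : Fin 16 × Fin 16 // p.1 < p.2}

def up : Asym →ₗ[ℝ] (Pr → ℝ) where
  toFun D p := D.1 p.1.1 p.1.2
  map_add' := by intro a b; rfl
  map_smul' := by intro a b; rfl

theorem up_inj : Function.Injective up := by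
  rw [← LinearMap.ker_eq_bot, LinearMap.ker_eq_bot']
  intro D hD
  have hA : ∀ i j, D.1 j i = - D.1 i j := by
    intro i j
    have := congrFun (congrFun (show (D.1)ᵀ = - D.1 from D.2) i) j
    simpa [Matrix.transpose_apply] using this
  have hp : ∀ i j, i < j → D.1 i j = 0 := fun i j hij => congrFun hD ⟨(i, j), hij⟩
  apply Subtype.ext
  ext i j
  rcases lt_trichotomy i j with h | h | h
  · simpa using hp i j h
  · subst h
    have := hA i i
    simp only [ZeroMemClass.coe_zero, Matrix.zero_apply]
    linarith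
  · have := hp j i h
    have h2 := hA j i
    simp only [ZeroMemClass.coe_zero, Matrix.zero_apply]
    rw [h2, this, neg_zero]

theorem card_Pr : Fintype.card Pr = 120 := by
  rw [Fintype.card_subtype]
  decide +kernel

theorem card_Idx : Fintype.card Idx = 120 := by
  rw [Fintype.card_subtype, Finset.filter_or, Finset.card_union_of_disjoint]
  · have h2 : (Finset.univ.filter fun I : Finset (Fin 9) => I.card = 2) =
        Finset.powersetCard 2 Finset.univ := by
      ext I; simp [Finset.mem_powersetCard]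
    have h3 : (Finset.univ.filter fun I : Finset (Fin 9) => I.card = 3) =
        Finset.powersetCard 3 Finset.univ := by
      ext I; simp [Finset.mem_powersetCard]
    rw [h2, h3, Finset.card_powersetCard, Finset.card_powersetCard, Finset.card_univ,
      Fintype.card_fin]
    rfl
  · rw [Finset.disjoint_filter]
    intro I _ h1 h2
    omega

noncomputable def WA (I : Idx) : Asym := ⟨W G I, w_antisymm_of_card G I⟩

theorem WA_li : LinearIndependent ℝ (WA G) := by
  rw [Fintype.linearIndependent_iff]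
  intro g hg J
  have h0 : ∑ I, g I • W G I = 0 := by
    have := congrArg Subtype.val hg
    simpa [WA] using this
  have h1 : ((W G J)ᵀ * ∑ I, g I • W G I).trace = 16 * g J := by
    rw [Finset.mul_sum, Matrix.trace_sum, Finset.sum_eq_single J]
    · rw [mul_smul_comm, Matrix.trace_smul, W_norm, smul_eq_mul, mul_comm]
    · intro I _ hI
      rw [mul_smul_comm, Matrix.trace_smul, W_orth G (Ne.symm hI), smul_zero]
    · simp
  rw [h0, mul_zero, Matrix.trace_zero] at h1
  linarith

theorem span_WA : Submodule.span ℝ (Set.range (WA G)) = ⊤ := by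
  have h1 : Module.finrank ℝ Asym ≤ 120 := by
    have := LinearMap.finrank_le_finrank_of_injective up_inj
    rwa [Module.finrank_fintype_fun_eq_card, card_Pr] at this
  have h2 := (WA_li G).fintype_card_le_finrank
  rw [card_Idx] at h2
  exact (WA_li G).span_eq_top_of_card_eq_finrank' (by rw [card_Idx]; omega)

/-- Completeness: an antisymmetric matrix which is trace-orthogonal to all sorted words of length
two and three is zero. -/
theorem asym_zero (D : Matrix (Fin 16) (Fin 16) ℝ) (hD : Dᵀ = - D)
    (h2 : ∀ x y : Fin 9, x < y → ((w G [x, y])ᵀ * D).trace = 0)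
    (h3 : ∀ x y z : Fin 9, x < y → y < z → ((w G [x, y, z])ᵀ * D).trace = 0) :
    D = 0 := by
  have hW : ∀ I : Idx, ((W G I)ᵀ * D).trace = 0 := by
    intro I
    unfold W
    have hs := (Finset.sortedLT_sort I.1).pairwise
    rcases I.2 with h | h
    · have hl : (I.1.sort (· ≤ ·)).length = 2 := by rw [Finset.length_sort]; exact h
      obtain ⟨x, y, hxy⟩ := List.length_eq_two.mp hl
      rw [hxy] at hs ⊢
      simp at hs
      exact h2 x y hs
    · have hl : (I.1.sort (· ≤ ·)).length = 3 := by rw [Finset.length_sort]; exact h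
      obtain ⟨x, y, z, hxy⟩ := List.length_eq_three.mp hl
      rw [hxy] at hs ⊢
      simp at hs
      exact h3 x y z hs.1.1 hs.2
  have hmem : (⟨D, hD⟩ : Asym) ∈ Submodule.span ℝ (Set.range (WA G)) := by
    rw [span_WA]; trivial
  obtain ⟨c, hc⟩ := (Submodule.mem_span_range_iff_exists_fun ℝ).mp hmem
  have hc' : ∑ I, c I • W G I = D := by
    have := congrArg Subtype.val hc
    simpa [WA] using this
  have h0 : (Dᵀ * D).trace = 0 := by
    conv_lhs => rw [← hc', Matrix.transpose_sum, Finset.sum_mul, hc', Matrix.trace_sum]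
    refine Finset.sum_eq_zero fun I _ => ?_
    rw [Matrix.transpose_smul, smul_mul_assoc, Matrix.trace_smul, hW, smul_zero]
  have h1 : (Dᴴ * D).trace = 0 := by
    rwa [Matrix.conjTranspose_eq_transpose_of_trivial]
  exact Matrix.trace_conjTranspose_mul_self_eq_zero_iff.mp h1

/-! ### The spin Fierz identity -/

open Crest.Agent.R330.GapAlg916 (pairs gg sg sgw rsg γ_W W_γ W_comm W_anti W_transpose
  W_transpose_mul Gam_eq Gam_transpose Gam_sq gg_eq W_append W_sing trace_eq_zero)

/-- the tensor `L_{ab;αβ}` -/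
noncomputable def Lt (a b α β : Fin 16) : ℝ :=
  ∑ j, cc j * (G.γ j a α * (Gam G * G.γ j) b β + G.γ j b α * (Gam G * G.γ j) a β)

/-- the mass multiplier of a word -/
noncomputable def kap (l : List (Fin 9)) : ℝ := ∑ j, cc j * (sg j l : ℝ)

theorem conj_word (l : List (Fin 9)) :
    ∑ j, cc j • (G.γ j * GapAlg916.W G l * G.γ j) = kap l • GapAlg916.W G l := by
  unfold kap
  rw [Finset.sum_smul]
  refine Finset.sum_congr rfl fun j _ => ?_
  rw [γ_W, smul_mul_assoc, mul_assoc, GapAlg916.γ_sq, mul_one, mul_smul]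
  congr 1
  rw [← Int.cast_smul_eq_zsmul ℝ]

/-- six times the mass coefficients -/
def c6 (j : Fin 9) : ℤ := if (j : ℕ) < 3 then 2 else -1

theorem cc_eq (j : Fin 9) : cc j = (c6 j : ℝ) / 6 := by
  unfold cc c6
  split_ifs <;> norm_num

def k6 (l : List (Fin 9)) : ℤ := ∑ j, c6 j * sg j l

theorem kap_eq (l : List (Fin 9)) : kap l = (k6 l : ℝ) / 6 := by
  unfold kap k6
  rw [Int.cast_sum, Finset.sum_div]
  refine Finset.sum_congr rfl fun j _ => ?_
  rw [cc_eq]
  push_cast
  ring

/-- the antisymmetric defect matrix -/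
noncomputable def Df (a b : Fin 16) : Matrix (Fin 16) (Fin 16) ℝ := fun α β =>
  Lt G a b α β - Lt G a b β α -
    ((if a = b then 1 / 2 else 0) * Gam G α β +
      ∑ p ∈ pairs, cc p.1 * (gg G p * Gam G) a b * gg G p α β)

theorem Df_antisymm (a b : Fin 16) : (Df G a b)ᵀ = - Df G a b := by
  ext α β
  have h1 : Gam G β α = - Gam G α β := by
    have := congrFun (congrFun (Gam_transpose G) α) β
    simpa using this
  have h2 : ∀ p ∈ pairs, gg G p β α = - gg G p α β := by
    intro p hp
    have := congrFun (congrFun (GapAlg916.gg_transpose G hp) α) β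
    simpa using this
  rw [Matrix.transpose_apply, Matrix.neg_apply]
  unfold Df
  rw [h1, Finset.sum_congr rfl fun p hp => by rw [h2 p hp]]
  simp only [mul_neg, Finset.sum_neg_distrib]
  ring

theorem trace_transpose_mul (N X : Matrix (Fin 16) (Fin 16) ℝ) :
    (Nᵀ * X).trace = ∑ α, ∑ β, N α β * X α β := by
  simp only [Matrix.trace, Matrix.diag, Matrix.mul_apply, Matrix.transpose_apply]
  rw [Finset.sum_comm]

theorem sum_Lt (N : Matrix (Fin 16) (Fin 16) ℝ) (a b : Fin 16) :
    ∑ α, ∑ β, N α β * Lt G a b α β =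
      - (((∑ j, cc j • (G.γ j * N * G.γ j)) * Gam G) a b +
        ((∑ j, cc j • (G.γ j * N * G.γ j)) * Gam G) b a) := by
  have key : ∀ (j : Fin 9) (a b : Fin 16),
      ∑ α, ∑ β, N α β * (G.γ j a α * (Gam G * G.γ j) b β) =
        - ((G.γ j * N * G.γ j) * Gam G) a b := by
    intro j a b
    have h1 : ∑ α, ∑ β, N α β * (G.γ j a α * (Gam G * G.γ j) b β) =
        (G.γ j * N * (Gam G * G.γ j)ᵀ) a b := by
      simp only [Matrix.mul_apply (M := G.γ j * N), Matrix.mul_apply (M := G.γ j) (N := N),
        Matrix.transpose_apply, Finset.sum_mul]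
      rw [Finset.sum_comm]
      refine Finset.sum_congr rfl fun α _ => Finset.sum_congr rfl fun β _ => ?_
      ring
    rw [h1, Matrix.transpose_mul, Gam_transpose, G.symm]
    simp only [mul_neg, Matrix.neg_apply, mul_assoc]
  unfold Lt
  have e1 : ∀ α β, N α β * ∑ j, cc j * (G.γ j a α * (Gam G * G.γ j) b β +
      G.γ j b α * (Gam G * G.γ j) a β) = ∑ j, (cc j * (N α β * (G.γ j a α * (Gam G * G.γ j) b β)) +
        cc j * (N α β * (G.γ j b α * (Gam G * G.γ j) a β))) := by
    intro α β
    rw [Finset.mul_sum]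
    refine Finset.sum_congr rfl fun j _ => ?_
    ring
  simp only [e1]
  have e2 : ∀ f : Fin 16 → Fin 16 → Fin 9 → ℝ, ∑ α, ∑ β, ∑ j, f α β j = ∑ j, ∑ α, ∑ β, f α β j := by
    intro f
    rw [Finset.sum_comm]
    rw [Finset.sum_congr rfl fun β _ => Finset.sum_comm]
    rw [Finset.sum_comm]
    exact Finset.sum_congr rfl fun j _ => Finset.sum_comm
  rw [e2]
  simp only [Finset.sum_add_distrib, ← Finset.mul_sum, key]
  simp only [Finset.sum_mul, Matrix.sum_apply, smul_mul_assoc, Matrix.smul_apply, smul_eq_mul]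
  simp only [mul_neg, Finset.sum_neg_distrib]
  ring

theorem trace_Df (l : List (Fin 9)) (hl : rsg l = -1) (a b : Fin 16) :
    ((GapAlg916.W G l)ᵀ * Df G a b).trace =
      - (2 * kap l * (1 + (rsg (l ++ [0, 1, 2]) : ℝ)) * GapAlg916.W G (l ++ [0, 1, 2]) a b) -
      ((if a = b then 1 / 2 else 0) * ((GapAlg916.W G l)ᵀ * GapAlg916.W G [0, 1, 2]).trace +
        ∑ p ∈ pairs, cc p.1 * GapAlg916.W G [p.1, p.2, 0, 1, 2] a b *
          ((GapAlg916.W G l)ᵀ * GapAlg916.W G [p.1, p.2]).trace) := by
  have hT : (GapAlg916.W G l)ᵀ = - GapAlg916.W G l := by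
    rw [W_transpose, hl, neg_one_smul]
  have hN : ∀ α β, GapAlg916.W G l β α = - GapAlg916.W G l α β := by
    intro α β
    have := congrFun (congrFun hT α) β
    simpa using this
  have e1 : ((GapAlg916.W G l)ᵀ * Df G a b).trace =
      2 * (∑ α, ∑ β, GapAlg916.W G l α β * Lt G a b α β) -
      ((if a = b then 1 / 2 else 0) * ((GapAlg916.W G l)ᵀ * GapAlg916.W G [0, 1, 2]).trace +
        ∑ p ∈ pairs, cc p.1 * GapAlg916.W G [p.1, p.2, 0, 1, 2] a b *
          ((GapAlg916.W G l)ᵀ * GapAlg916.W G [p.1, p.2]).trace) := by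
    rw [trace_transpose_mul]
    have e2 : ∑ α, ∑ β, GapAlg916.W G l α β * Lt G a b β α =
        - ∑ α, ∑ β, GapAlg916.W G l α β * Lt G a b α β := by
      rw [Finset.sum_comm, ← Finset.sum_neg_distrib]
      refine Finset.sum_congr rfl fun α _ => ?_
      rw [← Finset.sum_neg_distrib]
      refine Finset.sum_congr rfl fun β _ => ?_
      rw [hN α β]
      ring
    unfold Df
    simp only [mul_sub, mul_add, Finset.sum_sub_distrib, Finset.sum_add_distrib, e2]
    have e3 : ∑ α, ∑ β, GapAlg916.W G l α β * ((if a = b then 1 / 2 else 0) * Gam G α β) =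
        (if a = b then 1 / 2 else 0) *
          ((GapAlg916.W G l)ᵀ * GapAlg916.W G [0, 1, 2]).trace := by
      rw [trace_transpose_mul, Finset.mul_sum]
      refine Finset.sum_congr rfl fun α _ => ?_
      rw [Finset.mul_sum]
      refine Finset.sum_congr rfl fun β _ => ?_
      rw [Gam_eq]
      ring
    have e4 : ∑ α, ∑ β, GapAlg916.W G l α β *
          ∑ p ∈ pairs, cc p.1 * (gg G p * Gam G) a b * gg G p α β =
        ∑ p ∈ pairs, cc p.1 * GapAlg916.W G [p.1, p.2, 0, 1, 2] a b *
          ((GapAlg916.W G l)ᵀ * GapAlg916.W G [p.1, p.2]).trace := by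
      simp only [trace_transpose_mul, Finset.mul_sum]
      rw [Finset.sum_congr rfl fun α _ => Finset.sum_comm, Finset.sum_comm]
      refine Finset.sum_congr rfl fun p _ => Finset.sum_congr rfl fun α _ =>
        Finset.sum_congr rfl fun β _ => ?_
      rw [GapAlg916.gg_Gam, gg_eq]
      ring
    rw [e3, e4]
    ring
  rw [e1, sum_Lt, conj_word, smul_mul_assoc, Gam_eq, ← W_append, Matrix.smul_apply,
    Matrix.smul_apply]
  have e5 : GapAlg916.W G (l ++ [0, 1, 2]) b a =
      (rsg (l ++ [0, 1, 2]) : ℝ) * GapAlg916.W G (l ++ [0, 1, 2]) a b := by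
    have := congrFun (congrFun (W_transpose G (l ++ [0, 1, 2])) a) b
    rw [Matrix.transpose_apply] at this
    rw [this, ← Int.cast_smul_eq_zsmul ℝ]
    rfl
  rw [e5]
  simp only [smul_eq_mul]
  ring

theorem trace_word_zero {l : List (Fin 9)} (h : ∃ i, sg i l = -1) :
    (GapAlg916.W G l).trace = 0 := by
  obtain ⟨i, hi⟩ := h
  apply trace_eq_zero G (i := i)
  rw [γ_W, hi, neg_one_smul]

theorem trace_two_zero {l l' : List (Fin 9)} (h : ∃ i, sg i (l ++ l') = -1) :
    ((GapAlg916.W G l)ᵀ * GapAlg916.W G l').trace = 0 := by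
  rw [W_transpose, smul_mul_assoc, ← W_append, Matrix.trace_smul, trace_word_zero G h, smul_zero]

theorem trace_two_self (l : List (Fin 9)) :
    ((GapAlg916.W G l)ᵀ * GapAlg916.W G l).trace = 16 := by
  rw [W_transpose_mul, Matrix.trace_one]
  norm_num

/-! decidable facts on words -/

theorem f1 : ∀ x y : Fin 9, x < y → rsg [x, y] = -1 := by decide +kernel
theorem f2 : ∀ x y : Fin 9, x < y → ∃ i, sg i ([x, y] ++ [0, 1, 2]) = -1 := by decide +kernel
theorem f3 : ∀ x y : Fin 9, x < y → ∀ u v : Fin 9, u < v → ¬ (u = x ∧ v = y) →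
    ∃ i, sg i ([x, y] ++ [u, v]) = -1 := by decide +kernel
theorem f4 : ∀ x y : Fin 9, (x, y) ∈ pairs → rsg ([x, y] ++ [0, 1, 2]) = 1 := by decide +kernel
theorem f5 : ∀ x y : Fin 9, (x, y) ∈ pairs → k6 [x, y] = - 4 * c6 x := by decide +kernel
theorem f6 : ∀ x y : Fin 9, x < y → (x, y) ∉ pairs → rsg ([x, y] ++ [0, 1, 2]) = -1 := by
  decide +kernel
theorem f7 : ∀ x y z : Fin 9, x < y → y < z → rsg [x, y, z] = -1 := by decide +kernel
theorem f8 : ∀ x y z : Fin 9, x < y → y < z → ∀ u v : Fin 9, u < v →
    ∃ i, sg i ([x, y, z] ++ [u, v]) = -1 := by decide +kernel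
theorem f9 : ∀ x y z : Fin 9, x < y → y < z → ¬ (x = 0 ∧ y = 1 ∧ z = 2) →
    ∃ i, sg i ([x, y, z] ++ [0, 1, 2]) = -1 := by decide +kernel
theorem f10 : ∀ x y z : Fin 9, x < y → y < z → ¬ (x = 0 ∧ y = 1 ∧ z = 2) →
    (k6 [x, y, z] = 0 ∨ rsg ([x, y, z] ++ [0, 1, 2]) = -1) := by decide +kernel

theorem pairs_lt {p : Fin 9 × Fin 9} (hp : p ∈ pairs) : p.1 < p.2 := by
  unfold GapAlg916.pairs at hp
  rw [Finset.mem_filter] at hp
  exact hp.2.1

theorem h2_check (a b : Fin 16) (x y : Fin 9) (hxy : x < y) :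
    ((GapAlg916.W G [x, y])ᵀ * Df G a b).trace = 0 := by
  have hr : rsg [x, y] = -1 := f1 x y hxy
  rw [trace_Df G _ hr]
  have t0 : ((GapAlg916.W G [x, y])ᵀ * GapAlg916.W G [0, 1, 2]).trace = 0 := by
    apply trace_two_zero
    exact f2 x y hxy
  rw [t0, mul_zero, zero_add]
  have tp : ∀ p ∈ pairs, p ≠ (x, y) →
      ((GapAlg916.W G [x, y])ᵀ * GapAlg916.W G [p.1, p.2]).trace = 0 := by
    intro p hp hne
    apply trace_two_zero
    exact f3 x y hxy p.1 p.2 (pairs_lt hp) fun e => hne (Prod.ext e.1 e.2)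
  by_cases hm : (x, y) ∈ pairs
  · rw [Finset.sum_eq_single (x, y)]
    · rw [trace_two_self]
      have e1 : rsg ([x, y] ++ [0, 1, 2]) = 1 := f4 x y hm
      have e2 : k6 [x, y] = - 4 * c6 x := f5 x y hm
      rw [e1, kap_eq, e2, cc_eq]
      show _ - c6 x / 6 * GapAlg916.W G [x, y, 0, 1, 2] a b * 16 = 0
      simp only [List.cons_append, List.nil_append]
      push_cast
      ring
    · intro p hp hne
      rw [tp p hp hne, mul_zero]
    · intro h; exact absurd hm h
  · rw [Finset.sum_eq_zero]
    · have e1 : rsg ([x, y] ++ [0, 1, 2]) = -1 := f6 x y hxy hm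
      rw [e1]
      push_cast
      ring
    · intro p hp
      rw [tp p hp (fun e => hm (e ▸ hp)), mul_zero]

theorem h3_check (a b : Fin 16) (x y z : Fin 9) (hxy : x < y) (hyz : y < z) :
    ((GapAlg916.W G [x, y, z])ᵀ * Df G a b).trace = 0 := by
  have hr : rsg [x, y, z] = -1 := f7 x y z hxy hyz
  rw [trace_Df G _ hr]
  have tp : ∀ p ∈ pairs,
      ((GapAlg916.W G [x, y, z])ᵀ * GapAlg916.W G [p.1, p.2]).trace = 0 := by
    intro p hp
    apply trace_two_zero
    exact f8 x y z hxy hyz p.1 p.2 (pairs_lt hp)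
  rw [Finset.sum_eq_zero (fun p hp => by rw [tp p hp, mul_zero]), add_zero]
  by_cases h : x = 0 ∧ y = 1 ∧ z = 2
  · obtain ⟨rfl, rfl, rfl⟩ := h
    rw [trace_two_self]
    have e1 : rsg ([0, 1, 2] ++ [0, 1, 2]) = 1 := by decide
    have e2 : k6 [0, 1, 2] = 12 := by decide
    have e3 : GapAlg916.W G ([0, 1, 2] ++ [0, 1, 2]) = -1 := by
      rw [W_append, ← Gam_eq, Gam_sq]
    rw [e1, kap_eq, e2, e3, Matrix.neg_apply, Matrix.one_apply]
    split_ifs <;> norm_num
  · have t0 : ((GapAlg916.W G [x, y, z])ᵀ * GapAlg916.W G [0, 1, 2]).trace = 0 := by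
      apply trace_two_zero
      exact f9 x y z hxy hyz h
    rw [t0, mul_zero, sub_zero]
    have e1 : k6 [x, y, z] = 0 ∨ rsg ([x, y, z] ++ [0, 1, 2]) = -1 := f10 x y z hxy hyz h
    rcases e1 with e1 | e1
    · rw [kap_eq, e1]
      push_cast
      ring
    · rw [e1]
      push_cast
      ring

theorem Df_zero (a b : Fin 16) : Df G a b = 0 :=
  asym_zero G _ (Df_antisymm G a b) (h2_check G a b) (h3_check G a b)

/-- **Spin Fierz identity with mass**, antisymmetrised in the spinor indices `α β`. -/
theorem spin_fierz (a b α β : Fin 16) :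
    Lt G a b α β - Lt G a b β α = (if a = b then 1 / 2 else 0) * Gam G α β +
      ∑ p ∈ pairs, cc p.1 * (gg G p * Gam G) a b * gg G p α β := by
  have := congrFun (congrFun (Df_zero G a b) α) β
  unfold Df at this
  simpa [sub_eq_zero] using this

end Crest.Agent.R330.Spin288
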