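import Crest.Agent.R330.Char_973
import Crest.Agent.R330.Blk_304

/-!
# Row 330 (helper973), leaf S8-STAB: stabilisers and block permutations

`e : (Σ p, Fin (k p)) ≃ Fin N` : the block decomposition.

* `bd e X` : block diagonal matrices.
* `exists_phase` : every unitary matrix is a phase times an element of `SU(n)`.
* `exists_stab` : a block diagonal `g ∈ SU(N)` acts on the blocks through `h_p ∈ SU(k_p)`.
* `exists_perm` : the permutation of blocks of equal size is implemented by an element of `SU(N)`.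
* `blk` : the embedding of block configurations; `act_blk`, `act_blk_perm`.
-/

set_option autoImplicit false
set_option linter.unusedSectionVars false

noncomputable section

open scoped Matrix ComplexConjugate

namespace Crest.Agent.R330.Stab973

open Matrix Crest.MathPhysics.MatrixQM Crest.Agent.R330.Char973 Crest.Agent.R330.Blk304

variable {P : Type*} [Fintype P] [DecidableEq P] {N : ℕ} {k : P → ℕ}
  (e : (Σ p : P, Fin (k p)) ≃ Fin N)

/-- Families of square matrices. -/
abbrev Fam (k : P → ℕ) := ∀ p : P, Matrix (Fin (k p)) (Fin (k p)) ℂ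

/-- Block diagonal matrices. -/
def bd (X : Fam k) : Matrix (Fin N) (Fin N) ℂ := (blockDiagonal' X).submatrix e.symm e.symm

theorem bd_apply (X : Fam k) (p q : P) (i : Fin (k p)) (j : Fin (k q)) :
    bd e X (e ⟨p, i⟩) (e ⟨q, j⟩) = blockDiagonal' X ⟨p, i⟩ ⟨q, j⟩ := by
  rw [bd, submatrix_apply, e.symm_apply_apply, e.symm_apply_apply]

theorem bd_apply_eq (X : Fam k) (p : P) (i j : Fin (k p)) :
    bd e X (e ⟨p, i⟩) (e ⟨p, j⟩) = X p i j := by
  rw [bd_apply, blockDiagonal'_apply_eq]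

theorem bd_apply_ne (X : Fam k) {p q : P} (h : p ≠ q) (i : Fin (k p)) (j : Fin (k q)) :
    bd e X (e ⟨p, i⟩) (e ⟨q, j⟩) = 0 := by
  rw [bd_apply, blockDiagonal'_apply_ne _ _ _ h]

theorem bd_inj {X Y : Fam k} (h : bd e X = bd e Y) : X = Y := by
  funext p
  ext i j
  rw [← bd_apply_eq e X, h, bd_apply_eq]

/-- Equality of matrices can be checked on the image of `e`. -/
theorem ext_e {A B : Matrix (Fin N) (Fin N) ℂ} (h : ∀ x y, A (e x) (e y) = B (e x) (e y)) :
    A = B := by
  ext a c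
  rw [← e.apply_symm_apply a, ← e.apply_symm_apply c]
  exact h _ _

theorem bd_mul (X Y : Fam k) : bd e X * bd e Y = bd e fun p => X p * Y p := by
  rw [bd, bd, bd, submatrix_mul_equiv, ← blockDiagonal'_mul]

theorem bd_star (X : Fam k) : star (bd e X) = bd e fun p => star (X p) := by
  rw [Matrix.star_eq_conjTranspose, bd, bd, conjTranspose_submatrix, blockDiagonal'_conjTranspose]
  rfl

theorem bd_one : bd e (fun _ => 1) = 1 := by
  rw [bd]
  have h : blockDiagonal' (fun p => (1 : Matrix (Fin (k p)) (Fin (k p)) ℂ)) = 1 :=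
    blockDiagonal'_one
  rw [h, submatrix_one_equiv]

theorem bd_add (X Y : Fam k) : bd e (fun p => X p + Y p) = bd e X + bd e Y := by
  have h : blockDiagonal' (fun p => X p + Y p) = blockDiagonal' X + blockDiagonal' Y :=
    blockDiagonal'_add X Y
  rw [bd, h]
  rfl

theorem bd_smul (c : ℂ) (X : Fam k) : bd e (fun p => c • X p) = c • bd e X := by
  have h : blockDiagonal' (fun p => c • X p) = c • blockDiagonal' X := blockDiagonal'_smul c X
  rw [bd, h]
  rfl

theorem bd_zero : bd e (fun _ => 0) = 0 := by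
  have h : blockDiagonal' (fun p => (0 : Matrix (Fin (k p)) (Fin (k p)) ℂ)) = 0 :=
    blockDiagonal'_zero
  rw [bd, h]
  rfl

theorem bd_herm {X : Fam k} (h : ∀ p, (X p).IsHermitian) : (bd e X).IsHermitian := by
  rw [Matrix.IsHermitian, ← Matrix.star_eq_conjTranspose, bd_star]
  congr 1
  funext p
  exact h p

theorem bd_trace (X : Fam k) : (bd e X).trace = ∑ p, (X p).trace := by
  rw [Matrix.trace, ← e.sum_comp, Fintype.sum_sigma]
  refine Finset.sum_congr rfl fun p _ => ?_
  rw [Matrix.trace]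
  refine Finset.sum_congr rfl fun i _ => ?_
  rw [diag_apply, diag_apply, bd_apply_eq]

/-- The diagonal blocks of a matrix. -/
def blkOf (g : Matrix (Fin N) (Fin N) ℂ) : Fam k := fun p =>
  Matrix.of fun i j => g (e ⟨p, i⟩) (e ⟨p, j⟩)

theorem blkOf_apply (g : Matrix (Fin N) (Fin N) ℂ) (p : P) (i j : Fin (k p)) :
    blkOf e g p i j = g (e ⟨p, i⟩) (e ⟨p, j⟩) := rfl

/-- A block diagonal matrix. -/
theorem eq_bd {g : Matrix (Fin N) (Fin N) ℂ}
    (hg : ∀ p q (i : Fin (k p)) (j : Fin (k q)), p ≠ q → g (e ⟨p, i⟩) (e ⟨q, j⟩) = 0) :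
    g = bd e (blkOf e g) := by
  refine ext_e e ?_
  rintro ⟨p, i⟩ ⟨q, j⟩
  by_cases h : p = q
  · subst h
    rw [bd_apply_eq, blkOf_apply]
  · rw [bd_apply_ne e _ h, hg p q i j h]

/-! ### Phases -/

theorem exists_root {n : ℕ} (hn : n ≠ 0) (z : Circle) : ∃ ζ : Circle, ζ ^ n = z := by
  refine ⟨Circle.exp (Complex.arg z / n), ?_⟩
  rw [← Circle.exp_natCast_mul, mul_div_cancel₀ _ (Nat.cast_ne_zero.2 hn), Circle.exp_arg]

/-- **Every unitary matrix is a phase times an element of `SU(n)`.** -/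
theorem exists_phase {n : ℕ} {U : Matrix (Fin n) (Fin n) ℂ} (hU : U * star U = 1) :
    ∃ (ζ : Circle) (h : SU n), (h : Matrix (Fin n) (Fin n) ℂ) = (ζ : ℂ) • U := by
  rcases Nat.eq_zero_or_pos n with rfl | hn
  · exact ⟨1, 1, Subsingleton.elim _ _⟩
  have hd : ‖U.det‖ = 1 := by
    have h1 := congrArg Matrix.det hU
    rw [det_mul, det_one, Matrix.star_eq_conjTranspose, det_conjTranspose] at h1
    have h2 : ((‖U.det‖ ^ 2 : ℝ) : ℂ) = ((1 : ℝ) : ℂ) := by
      have h3 : U.det * conj U.det = 1 := h1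
      rw [Complex.mul_conj'] at h3
      push_cast
      exact h3
    have h4 : ‖U.det‖ ^ 2 = 1 := Complex.ofReal_injective h2
    have h5 := norm_nonneg U.det
    nlinarith
  set δ : Circle := ⟨U.det, mem_sphere_zero_iff_norm.2 hd⟩
  have hδ : (δ : ℂ) = U.det := rfl
  obtain ⟨ζ, hζ⟩ := exists_root hn.ne' δ⁻¹
  refine ⟨ζ, ⟨(ζ : ℂ) • U, mem_SU ?_ ?_⟩, rfl⟩
  · rw [star_smul, smul_mul_smul_comm, hU, Complex.star_def, circle_mul_conj, one_smul]
  · rw [det_smul, Fintype.card_fin, ← hδ, ← Circle.coe_pow, hζ, ← Circle.coe_mul, inv_mul_cancel,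
      Circle.coe_one]

/-- Conjugation by a phase multiple. -/
theorem conj_phase {n : ℕ} {U : Matrix (Fin n) (Fin n) ℂ} {ζ : Circle} {h : SU n}
    (hh : (h : Matrix (Fin n) (Fin n) ℂ) = (ζ : ℂ) • U) (X : Matrix (Fin n) (Fin n) ℂ) :
    (h : Matrix (Fin n) (Fin n) ℂ) * X * star (h : Matrix (Fin n) (Fin n) ℂ) =
      U * X * star U := by
  rw [hh, star_smul, Matrix.smul_mul, Matrix.smul_mul, Matrix.mul_smul, smul_smul,
    Complex.star_def, circle_mul_conj, one_smul]

/-! ### The stabiliser -/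

/-- **A block diagonal element of `SU(N)` acts on the blocks through elements of `SU(k_p)`.** -/
theorem exists_stab {g : SU N} (hg : ∀ p q (i : Fin (k p)) (j : Fin (k q)), p ≠ q →
    (g : Matrix (Fin N) (Fin N) ℂ) (e ⟨p, i⟩) (e ⟨q, j⟩) = 0) :
    ∃ h : ∀ p, SU (k p), ∀ X : Fam k,
      (g : Matrix (Fin N) (Fin N) ℂ) * bd e X * star (g : Matrix (Fin N) (Fin N) ℂ) =
        bd e fun p => (h p : Matrix (Fin (k p)) (Fin (k p)) ℂ) * X p *
          star (h p : Matrix (Fin (k p)) (Fin (k p)) ℂ) := by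
  set G : Fam k := blkOf e (g : Matrix (Fin N) (Fin N) ℂ) with hG
  have h1 : (g : Matrix (Fin N) (Fin N) ℂ) = bd e G := eq_bd e hg
  have h2 : ∀ p, G p * star (G p) = 1 := by
    have h3 := su_mul_star g
    rw [h1, bd_star, bd_mul, ← bd_one e] at h3
    exact fun p => congrFun (bd_inj e h3) p
  choose ζ h hh using fun p => exists_phase (h2 p)
  refine ⟨h, fun X => ?_⟩
  rw [h1, bd_star, bd_mul, bd_mul]
  congr 1
  funext p
  exact (conj_phase (hh p) (X p)).symm

/-! ### Permutations of blocks -/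

/-- Transport of a square matrix along an equality of sizes. -/
def castM {n n' : ℕ} (h : n = n') (X : Matrix (Fin n) (Fin n) ℂ) :
    Matrix (Fin n') (Fin n') ℂ := X.submatrix (finCongr h.symm) (finCongr h.symm)

theorem castM_rfl {n : ℕ} (X : Matrix (Fin n) (Fin n) ℂ) : castM rfl X = X := rfl

theorem castM_one {n n' : ℕ} (h : n = n') (r : ℂ) :
    castM h (r • (1 : Matrix (Fin n) (Fin n) ℂ)) = r • 1 := by
  subst h
  rfl

/-- The permutation of the indices which permutes the blocks. -/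
def tau {s : Equiv.Perm P} (hs : ∀ p, k (s p) = k p) : Equiv.Perm (Σ p : P, Fin (k p)) :=
  Equiv.sigmaCongr s fun p => finCongr (hs p).symm

theorem tau_apply {s : Equiv.Perm P} (hs : ∀ p, k (s p) = k p) (p : P) (i : Fin (k p)) :
    tau hs ⟨p, i⟩ = ⟨s p, finCongr (hs p).symm i⟩ := rfl

/-- **Permutations of blocks of equal size are implemented by elements of `SU(N)`.** -/
theorem exists_perm {s : Equiv.Perm P} (hs : ∀ p, k (s p) = k p) :
    ∃ w : SU N, ∀ X X' : Fam k, (∀ p, X' (s p) = castM (hs p).symm (X p)) →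
      (w : Matrix (Fin N) (Fin N) ℂ) * bd e X * star (w : Matrix (Fin N) (Fin N) ℂ) =
        bd e X' := by
  set σ : Equiv.Perm (Fin N) := (e.symm.trans (tau hs)).trans e with hσ
  -- `W a c = 1` iff `a = σ c`
  set W : Matrix (Fin N) (Fin N) ℂ := (σ⁻¹).permMatrix ℂ with hW
  have hWW : W * star W = 1 := by
    rw [hW, Matrix.star_eq_conjTranspose, conjTranspose_permMatrix, ← permMatrix_mul]
    simp
  obtain ⟨ζ, w, hw⟩ := exists_phase hWW
  refine ⟨w, fun X X' hX => ?_⟩
  rw [conj_phase hw]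
  have h1 : ∀ Y : Matrix (Fin N) (Fin N) ℂ, W * Y * star W = Y.submatrix σ.symm σ.symm := by
    intro Y
    rw [hW, Matrix.star_eq_conjTranspose, conjTranspose_permMatrix, inv_inv]
    rw [Equiv.Perm.permMatrix, Equiv.Perm.permMatrix, PEquiv.toMatrix_toPEquiv_mul,
      PEquiv.mul_toMatrix_toPEquiv, submatrix_submatrix]
    rfl
  rw [h1]
  refine ext_e e ?_
  intro x y
  obtain ⟨⟨p, i⟩, rfl⟩ := (tau hs).surjective x
  obtain ⟨⟨q, j⟩, rfl⟩ := (tau hs).surjective y
  have h2 : ∀ x : (Σ p : P, Fin (k p)), σ.symm (e (tau hs x)) = e x := by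
    intro x
    rw [hσ, Equiv.symm_apply_eq]
    simp
  rw [submatrix_apply, h2, h2, tau_apply, tau_apply]
  by_cases hpq : p = q
  · subst hpq
    rw [bd_apply_eq, bd_apply_eq, hX]
    simp [castM]
  · rw [bd_apply_ne e X hpq, bd_apply_ne e X' (fun h => hpq (s.injective h))]

/-! ### Colour vectors and configurations -/

section colour

variable (b : ColorBasis N) (bb : ∀ p, ColorBasis (k p))

/-- A colour vector with given components in the blocks. -/
def blkC (u : ∀ p, Fin (k p ^ 2 - 1) → ℝ) : Fin (N ^ 2 - 1) → ℝ :=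
  cf b (bd e fun p => hm (bb p) (u p))

theorem hm_blkC (u : ∀ p, Fin (k p ^ 2 - 1) → ℝ) :
    hm b (blkC e b bb u) = bd e fun p => hm (bb p) (u p) :=
  hm_cf b (bd_herm e fun p => hm_herm (bb p) (u p)) (by
    rw [bd_trace]
    exact Finset.sum_eq_zero fun p _ => hm_trace (bb p) (u p))

/-- The colour rotation by `g`. -/
def rotC {n : ℕ} (b : ColorBasis n) (g : SU n) (u : Fin (n ^ 2 - 1) → ℝ) : Fin (n ^ 2 - 1) → ℝ :=
  fun A => ∑ B, b.adjMat g A B * u B

theorem hm_rotC {n : ℕ} (b : ColorBasis n) (g : SU n) (u : Fin (n ^ 2 - 1) → ℝ) :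
    hm b (rotC b g u) = (g : Matrix (Fin n) (Fin n) ℂ) * hm b u *
      star (g : Matrix (Fin n) (Fin n) ℂ) := hm_conj b g u

/-- A colour vector with components in the blocks and in the centre. -/
theorem rotC_eq_of {g : SU N} {u v : Fin (N ^ 2 - 1) → ℝ}
    (h : (g : Matrix (Fin N) (Fin N) ℂ) * hm b u * star (g : Matrix (Fin N) (Fin N) ℂ) =
      hm b v) : rotC b g u = v := hm_inj b (by rw [hm_rotC, h])

/-- The block embedding of configurations. -/
def blk (Y : ∀ p, Cfg (k p)) : Cfg N := mk b fun i => bd e fun p => mat (bb p) (Y p) i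

theorem mat_blk (Y : ∀ p, Cfg (k p)) (i : Fin 9) :
    mat b (blk e b bb Y) i = bd e fun p => mat (bb p) (Y p) i :=
  mat_mk b (fun i => bd_herm e fun p => mat_herm (bb p) (Y p) i) (fun i => by
    rw [bd_trace]
    exact Finset.sum_eq_zero fun p _ => mat_trace (bb p) (Y p) i) i

/-- Configurations which are constant on the blocks. -/
def cen (r : P → EuclideanSpace ℝ (Fin 9)) : Cfg N :=
  mk b fun i => bd e fun p => ((r p i : ℝ) : ℂ) • (1 : Matrix (Fin (k p)) (Fin (k p)) ℂ)

theorem mat_cen {r : P → EuclideanSpace ℝ (Fin 9)} (hr : ∑ p, (k p : ℝ) • r p = 0) (i : Fin 9) :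
    mat b (cen e b r) i =
      bd e fun p => ((r p i : ℝ) : ℂ) • (1 : Matrix (Fin (k p)) (Fin (k p)) ℂ) := by
  refine mat_mk b (fun i => bd_herm e fun p => ?_) (fun i => ?_) i
  · rw [Matrix.IsHermitian, conjTranspose_smul, conjTranspose_one, Complex.star_def,
      Complex.conj_ofReal]
  · rw [bd_trace]
    simp only [trace_smul, trace_one, Fintype.card_fin, smul_eq_mul]
    have h := congrArg (fun v : EuclideanSpace ℝ (Fin 9) => v i) hr
    simp only [PiLp.zero_apply, WithLp.ofLp_sum, Finset.sum_apply, PiLp.smul_apply,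
      smul_eq_mul] at h
    have h2 : ((∑ p, (k p : ℝ) * r p i : ℝ) : ℂ) = 0 := by rw [h, Complex.ofReal_zero]
    push_cast at h2
    rw [← h2]
    exact Finset.sum_congr rfl fun p _ => mul_comm _ _

/-- The data of a stabiliser element. -/
structure StabOf (g : SU N) (h : ∀ p, SU (k p)) : Prop where
  cj : ∀ X : Fam k, (g : Matrix (Fin N) (Fin N) ℂ) * bd e X *
    star (g : Matrix (Fin N) (Fin N) ℂ) =
      bd e fun p => (h p : Matrix (Fin (k p)) (Fin (k p)) ℂ) * X p *
        star (h p : Matrix (Fin (k p)) (Fin (k p)) ℂ)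

variable {e} {g : SU N} {h : ∀ p, SU (k p)}

/-- **Gauge transformations on the blocks.** -/
theorem StabOf.act_blk (H : StabOf e g h) (Y : ∀ p, Cfg (k p)) :
    b.act g (blk e b bb Y) = blk e b bb fun p => (bb p).act (h p) (Y p) := by
  refine mat_inj b fun i => ?_
  rw [mat_act, mat_blk, mat_blk, H.cj]
  congr 1
  funext p
  rw [mat_act]

theorem StabOf.act_cen (H : StabOf e g h) {r : P → EuclideanSpace ℝ (Fin 9)}
    (hr : ∑ p, (k p : ℝ) • r p = 0) : b.act g (cen e b r) = cen e b r := by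
  refine mat_inj b fun i => ?_
  rw [mat_act, mat_cen e b hr, H.cj]
  congr 1
  funext p
  rw [Matrix.mul_smul, Matrix.smul_mul, mul_one, su_mul_star]

theorem StabOf.rot_blkC (H : StabOf e g h) (u : ∀ p, Fin (k p ^ 2 - 1) → ℝ) :
    rotC b g (blkC e b bb u) = blkC e b bb fun p => rotC (bb p) (h p) (u p) := by
  refine rotC_eq_of b ?_
  rw [hm_blkC, hm_blkC, H.cj]
  congr 1
  funext p
  rw [hm_rotC]

/-- **The stabiliser** of block diagonal positions. -/
theorem exists_stabOf (hg : ∀ p q (i : Fin (k p)) (j : Fin (k q)), p ≠ q →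
    (g : Matrix (Fin N) (Fin N) ℂ) (e ⟨p, i⟩) (e ⟨q, j⟩) = 0) :
    ∃ h : ∀ p, SU (k p), StabOf e g h := by
  obtain ⟨h, hh⟩ := exists_stab e hg
  exact ⟨h, ⟨hh⟩⟩

/-- An element which fixes separated positions is block diagonal. -/
theorem block_of_act {r : P → EuclideanSpace ℝ (Fin 9)} (hr : ∑ p, (k p : ℝ) • r p = 0)
    (hinj : Function.Injective r) (hg : b.act g (cen e b r) = cen e b r) :
    ∀ p q (i : Fin (k p)) (j : Fin (k q)), p ≠ q →
      (g : Matrix (Fin N) (Fin N) ℂ) (e ⟨p, i⟩) (e ⟨q, j⟩) = 0 := by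
  intro p q i j hpq
  obtain ⟨l, hl⟩ : ∃ l : Fin 9, r p l ≠ r q l := by
    by_contra hcon
    push Not at hcon
    exact hpq (hinj (PiLp.ext hcon))
  have h1 : (g : Matrix (Fin N) (Fin N) ℂ) * mat b (cen e b r) l =
      mat b (cen e b r) l * (g : Matrix (Fin N) (Fin N) ℂ) := by
    have h2 := congrArg (fun x => mat b x l) hg
    simp only [mat_act] at h2
    have h3 := congrArg (fun X => X * (g : Matrix (Fin N) (Fin N) ℂ)) h2
    simp only [mul_assoc] at h3
    rw [su_star_mul, mul_one] at h3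
    exact h3
  have hD : mat b (cen e b r) l = diagonal fun a => ((r (e.symm a).1 l : ℝ) : ℂ) := by
    rw [mat_cen e b hr]
    refine ext_e e ?_
    rintro ⟨p', i'⟩ ⟨q', j'⟩
    by_cases h4 : p' = q'
    · subst h4
      rw [bd_apply_eq, Matrix.smul_apply, Matrix.one_apply, diagonal_apply]
      simp [e.injective.eq_iff]
    · rw [bd_apply_ne e _ h4, diagonal_apply_ne]
      exact fun h5 => h4 (congrArg Sigma.fst (e.injective h5))
  have h5 := congrFun (congrFun h1 (e ⟨p, i⟩)) (e ⟨q, j⟩)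
  rw [hD, mul_diagonal, diagonal_mul, e.symm_apply_apply, e.symm_apply_apply] at h5
  have h6 : (((r p l - r q l : ℝ)) : ℂ) *
      (g : Matrix (Fin N) (Fin N) ℂ) (e ⟨p, i⟩) (e ⟨q, j⟩) = 0 := by
    push_cast
    linear_combination -h5
  rcases mul_eq_zero.1 h6 with h7 | h7
  · exact absurd (sub_eq_zero.1 (Complex.ofReal_eq_zero.1 h7)) hl
  · exact h7

/-- **The stabiliser of separated positions**: both facts in one. -/
theorem exists_stabOf_of_act {r : P → EuclideanSpace ℝ (Fin 9)}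
    (hr : ∑ p, (k p : ℝ) • r p = 0) (hinj : Function.Injective r)
    (hg : b.act g (cen e b r) = cen e b r) : ∃ h : ∀ p, SU (k p), StabOf e g h :=
  exists_stabOf (block_of_act b hr hinj hg)

end colour

end Crest.Agent.R330.Stab973

end
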