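import Crest.Agent.R330.SlA_314

/-!
Row 330, S6: uniqueness half of the adapted (moving) slice.  `R` diagonal with positions
`p : Fin N → ℝ⁹` (clusters = equal positions, separation `s`), `v` normal to the stratum at `R`
(traceless in each cluster, off-diagonal entries perpendicular to `p a' - p a`).
-/

set_option autoImplicit false
noncomputable section

open Matrix
open Crest.MathPhysics.MatrixQM
open Crest.Agent.R330.SlA314

namespace Crest.Agent.R330.StarA410

variable {N : ℕ} (b : ColorBasis N)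

abbrev V9 := EuclideanSpace ℝ (Fin 9)

/-- `R` is the diagonal configuration with joint eigenvalues `p` -/
def IsDg (p : Fin N → V9) (R : Cfg N) : Prop :=
  ∀ i, mat b R i = Matrix.diagonal (fun a => ((p a i : ℝ) : ℂ))

/-- positions are equal or at distance `≥ s` -/
def Sep (s : ℝ) (p : Fin N → V9) : Prop := ∀ a a', p a = p a' ∨ s ≤ ‖p a - p a'‖

/-- normal to the stratum of diagonal configurations with the clusters of `p` -/
def IsNor (p : Fin N → V9) (v : Cfg N) : Prop :=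
  (∀ i a, ∑ a' ∈ Finset.univ.filter (fun a' => p a' = p a), mat b v i a' a' = 0) ∧
  (∀ a a', p a ≠ p a' → ∑ i, ((p a' i - p a i : ℝ) : ℂ) * mat b v i a a' = 0)

variable {b}

theorem norm_sq_entries (x : Cfg N) :
    ‖x‖ ^ 2 = ∑ i, ∑ a, ∑ a', ‖mat b x i a a'‖ ^ 2 := by
  have h := norm_sq_eq b x
  have h2 : ∀ i, (mat b x i * mat b x i).trace = ((∑ a, ∑ a', ‖mat b x i a a'‖ ^ 2 : ℝ) : ℂ) := by
    intro i
    push_cast
    simp only [Matrix.trace, Matrix.diag_apply, Matrix.mul_apply]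
    refine Finset.sum_congr rfl fun a _ => Finset.sum_congr rfl fun a' _ => ?_
    have hh := (mat_herm b x i).apply a' a
    rw [← hh, ← Complex.mul_conj']
    simp
  rw [Finset.sum_congr rfl fun i _ => h2 i] at h
  exact_mod_cast h

theorem entry_le (x : Cfg N) (i : Fin 9) (a a' : Fin N) : ‖mat b x i a a'‖ ≤ ‖x‖ := by
  have h : ‖mat b x i a a'‖ ^ 2 ≤ ‖x‖ ^ 2 := by
    rw [norm_sq_entries (b := b)]
    calc ‖mat b x i a a'‖ ^ 2 ≤ ∑ a'', ‖mat b x i a a''‖ ^ 2 :=
          Finset.single_le_sum (f := fun a'' => ‖mat b x i a a''‖ ^ 2)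
            (fun _ _ => sq_nonneg _) (Finset.mem_univ a')
      _ ≤ ∑ a, ∑ a'', ‖mat b x i a a''‖ ^ 2 :=
          Finset.single_le_sum (f := fun a => ∑ a'', ‖mat b x i a a''‖ ^ 2)
            (fun _ _ => Finset.sum_nonneg fun _ _ => sq_nonneg _) (Finset.mem_univ a)
      _ ≤ _ := Finset.single_le_sum (f := fun i => ∑ a, ∑ a'', ‖mat b x i a a''‖ ^ 2)
            (fun _ _ => Finset.sum_nonneg fun _ _ => Finset.sum_nonneg fun _ _ => sq_nonneg _)
            (Finset.mem_univ i)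
  exact (sq_le_sq₀ (norm_nonneg _) (norm_nonneg _)).1 h

/-- exact distance formula between `g R'` and `R` -/
theorem dist_formula {p p' : Fin N → V9} {R R' : Cfg N} (hR : IsDg b p R) (hR' : IsDg b p' R')
    (g : Matrix.specialUnitaryGroup (Fin N) ℂ) :
    ‖b.act g R' - R‖ ^ 2 =
      ∑ a, ∑ c, ‖p' c - p a‖ ^ 2 * ‖(g : Matrix (Fin N) (Fin N) ℂ) a c‖ ^ 2 := by
  set U : Matrix (Fin N) (Fin N) ℂ := (g : Matrix (Fin N) (Fin N) ℂ) with hU
  have h := norm_sq_eq b (b.act g R' - R)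
  have hUs : star U * U = 1 := star_mul_self' g
  have hsU : U * star U = 1 := mul_star_self' g
  have key : ∀ i, (mat b (b.act g R' - R) i * mat b (b.act g R' - R) i).trace =
      ((∑ a, ∑ c, (p' c i - p a i) ^ 2 * ‖U a c‖ ^ 2 : ℝ) : ℂ) := by
    intro i
    set M := mat b (b.act g R' - R) i with hM
    have hMh : M.conjTranspose = M := mat_herm b _ i
    have h1 : M * M = (M * U) * (M * U).conjTranspose := by
      rw [Matrix.conjTranspose_mul, hMh, ← Matrix.star_eq_conjTranspose]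
      calc M * M = M * (U * star U) * M := by rw [hsU, Matrix.mul_one]
        _ = _ := by simp only [Matrix.mul_assoc]
    have h2 : M * U = U * Matrix.diagonal (fun a => ((p' a i : ℝ) : ℂ)) -
        Matrix.diagonal (fun a => ((p a i : ℝ) : ℂ)) * U := by
      rw [hM, mat_sub, mat_act, hR i, hR' i, ← hU, Matrix.sub_mul]
      congr 1
      rw [Matrix.mul_assoc, Matrix.mul_assoc, hUs, Matrix.mul_one]
    have h3 : ∀ a c, (M * U) a c = ((p' c i - p a i : ℝ) : ℂ) * U a c := by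
      intro a c
      rw [h2, Matrix.sub_apply, Matrix.mul_diagonal, Matrix.diagonal_mul]
      push_cast; ring
    rw [h1]
    simp only [Matrix.trace, Matrix.diag_apply, Matrix.mul_apply (M := M * U),
      Matrix.conjTranspose_apply]
    push_cast
    refine Finset.sum_congr rfl fun a _ => Finset.sum_congr rfl fun c _ => ?_
    rw [h3]
    have : ((p' c i - p a i : ℝ) : ℂ) * U a c * star (((p' c i - p a i : ℝ) : ℂ) * U a c) =
        ((p' c i - p a i : ℝ) : ℂ) ^ 2 * (U a c * (starRingEnd ℂ) (U a c)) := by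
      rw [star_mul', ← starRingEnd_apply, ← starRingEnd_apply, Complex.conj_ofReal]
      ring
    rw [this, Complex.mul_conj']
    push_cast
    ring
  rw [Finset.sum_congr rfl fun i _ => key i] at h
  have h' : ‖b.act g R' - R‖ ^ 2 = ∑ i, ∑ a, ∑ c, (p' c i - p a i) ^ 2 * ‖U a c‖ ^ 2 := by
    exact_mod_cast h
  rw [h', Finset.sum_comm]
  refine Finset.sum_congr rfl fun a _ => ?_
  rw [Finset.sum_comm]
  refine Finset.sum_congr rfl fun c _ => ?_
  rw [← Finset.sum_mul, EuclideanSpace.norm_sq_eq]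
  congr 1
  refine Finset.sum_congr rfl fun i _ => ?_
  rw [PiLp.sub_apply, Real.norm_eq_abs, sq_abs]

theorem entry_dist {p p' : Fin N → V9} {R R' : Cfg N} (hR : IsDg b p R) (hR' : IsDg b p' R')
    (g : Matrix.specialUnitaryGroup (Fin N) ℂ) (a c : Fin N) :
    ‖p' c - p a‖ * ‖(g : Matrix (Fin N) (Fin N) ℂ) a c‖ ≤ ‖b.act g R' - R‖ := by
  have h : (‖p' c - p a‖ * ‖(g : Matrix (Fin N) (Fin N) ℂ) a c‖) ^ 2 ≤ ‖b.act g R' - R‖ ^ 2 := by
    rw [dist_formula hR hR', mul_pow]
    calc _ ≤ ∑ c, ‖p' c - p a‖ ^ 2 * ‖(g : Matrix (Fin N) (Fin N) ℂ) a c‖ ^ 2 :=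
          Finset.single_le_sum
            (f := fun c => ‖p' c - p a‖ ^ 2 * ‖(g : Matrix (Fin N) (Fin N) ℂ) a c‖ ^ 2)
            (fun _ _ => by positivity) (Finset.mem_univ c)
      _ ≤ _ := Finset.single_le_sum
            (f := fun a => ∑ c, ‖p' c - p a‖ ^ 2 * ‖(g : Matrix (Fin N) (Fin N) ℂ) a c‖ ^ 2)
            (fun _ _ => Finset.sum_nonneg fun _ _ => by positivity) (Finset.mem_univ a)
  exact (sq_le_sq₀ (by positivity) (norm_nonneg _)).1 h

/-- the primed position close to `w` (if any) -/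
def qsel (s : ℝ) (p' : Fin N → V9) (w : V9) : V9 :=
  open Classical in if h : ∃ c, ‖p' c - w‖ < s / 2 then p' h.choose else w

theorem qsel_spec {s : ℝ} {p' : Fin N → V9} (hs : Sep s p') (w : V9) (c : Fin N) :
    p' c = qsel s p' w ∨ (s / 2 ≤ ‖p' c - w‖ ∧ ‖p' c - qsel s p' w‖ ≤ 2 * ‖p' c - w‖) := by
  classical
  unfold qsel
  by_cases hex : ∃ c, ‖p' c - w‖ < s / 2
  · rw [dif_pos hex]
    have hq := hex.choose_spec
    set e := hex.choose
    by_cases hc : ‖p' c - w‖ < s / 2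
    · left
      rcases hs c e with h | h
      · exact h
      · exfalso
        have h1 : ‖p' c - p' e‖ ≤ ‖p' c - w‖ + ‖p' e - w‖ := by
          have : p' c - p' e = (p' c - w) - (p' e - w) := by abel
          rw [this]; exact norm_sub_le _ _
        linarith
    · right
      rw [not_lt] at hc
      refine ⟨hc, ?_⟩
      have h1 : ‖p' c - p' e‖ ≤ ‖p' c - w‖ + ‖p' e - w‖ := by
        have : p' c - p' e = (p' c - w) - (p' e - w) := by abel
        rw [this]; exact norm_sub_le _ _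
      linarith
  · rw [dif_neg hex]
    right
    rw [not_exists] at hex
    have h1 := hex c
    rw [not_lt] at h1
    exact ⟨h1, by linarith [norm_nonneg (p' c - w)]⟩

theorem coord_le (v : V9) (i : Fin 9) : |v i| ≤ ‖v‖ := by
  have := EuclideanSpace.norm_sq_eq v
  have h2 : ‖v i‖ ^ 2 ≤ ‖v‖ ^ 2 := by
    rw [this]
    exact Finset.single_le_sum (f := fun i => ‖v i‖ ^ 2) (fun _ _ => sq_nonneg _)
      (Finset.mem_univ i)
  rw [Real.norm_eq_abs, sq_abs] at h2
  exact abs_le_of_sq_le_sq h2 (norm_nonneg _)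

/-- the entries of `U D' U*` -/
def Wm (U : Matrix (Fin N) (Fin N) ℂ) (p' : Fin N → V9) (i : Fin 9) (a a' : Fin N) : ℂ :=
  ∑ c, U a c * ((p' c i : ℝ) : ℂ) * (starRingEnd ℂ) (U a' c)

theorem mat_act_dg {p' : Fin N → V9} {R' : Cfg N} (hR' : IsDg b p' R')
    (g : Matrix.specialUnitaryGroup (Fin N) ℂ) (i : Fin 9) (a a' : Fin N) :
    mat b (b.act g R') i a a' = Wm (g : Matrix (Fin N) (Fin N) ℂ) p' i a a' := by
  rw [mat_act, hR' i, Matrix.mul_apply]
  unfold Wm
  refine Finset.sum_congr rfl fun c _ => ?_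
  rw [Matrix.mul_diagonal, Matrix.star_apply]
  rfl

theorem sum_U (g : Matrix.specialUnitaryGroup (Fin N) ℂ) (a a' : Fin N) :
    ∑ c, (g : Matrix (Fin N) (Fin N) ℂ) a c *
      (starRingEnd ℂ) ((g : Matrix (Fin N) (Fin N) ℂ) a' c) = if a = a' then 1 else 0 := by
  have h := congrFun (congrFun (mul_star_self' g) a) a'
  rw [Matrix.mul_apply, Matrix.one_apply] at h
  exact h

section

variable {s : ℝ} {p p' : Fin N → V9} {R R' : Cfg N}

theorem bad_le (hs0 : 0 < s) (hR : IsDg b p R) (hR' : IsDg b p' R')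
    (g : Matrix.specialUnitaryGroup (Fin N) ℂ) {a c : Fin N} (h : s / 2 ≤ ‖p' c - p a‖) :
    ‖(g : Matrix (Fin N) (Fin N) ℂ) a c‖ ≤ 2 * ‖b.act g R' - R‖ / s := by
  have h1 := entry_dist hR hR' g a c
  rw [le_div_iff₀ hs0]
  have h2 : s / 2 * ‖(g : Matrix (Fin N) (Fin N) ℂ) a c‖ ≤
      ‖p' c - p a‖ * ‖(g : Matrix (Fin N) (Fin N) ℂ) a c‖ :=
    mul_le_mul_of_nonneg_right h (norm_nonneg _)
  linarith

/-- same cluster -/
theorem claimA (hs0 : 0 < s) (hp' : Sep s p') (hR : IsDg b p R) (hR' : IsDg b p' R')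
    (g : Matrix.specialUnitaryGroup (Fin N) ℂ) (i : Fin 9) {a a' : Fin N} (haa : p a = p a') :
    ‖Wm (g : Matrix (Fin N) (Fin N) ℂ) p' i a a' -
        (if a = a' then ((qsel s p' (p a) i : ℝ) : ℂ) else 0)‖ ≤
      N * (4 * ‖b.act g R' - R‖ ^ 2 / s) := by
  set U : Matrix (Fin N) (Fin N) ℂ := (g : Matrix (Fin N) (Fin N) ℂ) with hU
  set q := qsel s p' (p a) with hq
  set d := ‖b.act g R' - R‖ with hd
  have h1 : Wm U p' i a a' - (if a = a' then ((q i : ℝ) : ℂ) else 0) =
      ∑ c, U a c * ((p' c i - q i : ℝ) : ℂ) * (starRingEnd ℂ) (U a' c) := by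
    have h2 : (if a = a' then ((q i : ℝ) : ℂ) else 0) =
        ∑ c, U a c * ((q i : ℝ) : ℂ) * (starRingEnd ℂ) (U a' c) := by
      have h3 : ∑ c, U a c * ((q i : ℝ) : ℂ) * (starRingEnd ℂ) (U a' c) =
          ((q i : ℝ) : ℂ) * ∑ c, U a c * (starRingEnd ℂ) (U a' c) := by
        rw [Finset.mul_sum]
        refine Finset.sum_congr rfl fun c _ => by ring
      rw [h3, hU, sum_U]
      split_ifs <;> simp
    rw [h2, Wm, ← Finset.sum_sub_distrib]
    refine Finset.sum_congr rfl fun c _ => ?_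
    push_cast; ring
  rw [h1]
  refine (norm_sum_le _ _).trans ?_
  have hd0 : 0 ≤ d := norm_nonneg _
  have h4 : ∀ c ∈ Finset.univ, ‖U a c * ((p' c i - q i : ℝ) : ℂ) * (starRingEnd ℂ) (U a' c)‖ ≤
      4 * d ^ 2 / s := by
    intro c _
    rcases qsel_spec hp' (p a) c with h | ⟨h, h'⟩
    · rw [← hq] at h
      rw [h]
      simp only [sub_self, Complex.ofReal_zero, mul_zero, zero_mul, norm_zero]
      positivity
    · rw [← hq] at h'
      rw [norm_mul, norm_mul, RCLike.norm_conj, Complex.norm_real, Real.norm_eq_abs]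
      have h5 : |p' c i - q i| ≤ 2 * ‖p' c - p a‖ := by
        have := coord_le (p' c - q) i
        rw [PiLp.sub_apply] at this
        exact this.trans h'
      have h6 := entry_dist hR hR' g a c
      rw [← hU, ← hd] at h6
      have h7 : ‖U a' c‖ ≤ 2 * d / s := bad_le hs0 hR hR' g (by rw [← haa]; exact h)
      have h8 : ‖U a c‖ * |p' c i - q i| ≤ 2 * d := by
        calc ‖U a c‖ * |p' c i - q i| ≤ ‖U a c‖ * (2 * ‖p' c - p a‖) :=
              mul_le_mul_of_nonneg_left h5 (norm_nonneg _)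
          _ = 2 * (‖p' c - p a‖ * ‖U a c‖) := by ring
          _ ≤ 2 * d := by linarith
      calc ‖U a c‖ * |p' c i - q i| * ‖U a' c‖ ≤ (2 * d) * (2 * d / s) :=
            mul_le_mul h8 h7 (norm_nonneg _) (by positivity)
        _ = 4 * d ^ 2 / s := by ring
  refine (Finset.sum_le_sum h4).trans ?_
  rw [Finset.sum_const, Finset.card_univ, Fintype.card_fin, nsmul_eq_mul]

/-- different clusters -/
theorem claimB (hs0 : 0 < s) (hp : Sep s p) (hR : IsDg b p R) (hR' : IsDg b p' R')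
    (g : Matrix.specialUnitaryGroup (Fin N) ℂ) {a a' : Fin N} (haa : p a ≠ p a') :
    ∃ β : ℂ, ∀ i, ‖Wm (g : Matrix (Fin N) (Fin N) ℂ) p' i a a' -
        ((p a' i - p a i : ℝ) : ℂ) * β‖ ≤ N * (4 * ‖b.act g R' - R‖ ^ 2 / s) := by
  classical
  set U : Matrix (Fin N) (Fin N) ℂ := (g : Matrix (Fin N) (Fin N) ℂ) with hU
  set d := ‖b.act g R' - R‖ with hd
  have hd0 : 0 ≤ d := norm_nonneg _
  have hne : a ≠ a' := fun h => haa (by rw [h])
  have hsep : s ≤ ‖p a - p a'‖ := (hp a a').resolve_left haa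
  set S := Finset.univ.filter (fun c => ‖p' c - p a'‖ < s / 2) with hS
  refine ⟨∑ c ∈ S, U a c * (starRingEnd ℂ) (U a' c), fun i => ?_⟩
  have h1 : Wm U p' i a a' - ((p a' i - p a i : ℝ) : ℂ) * ∑ c ∈ S, U a c * (starRingEnd ℂ) (U a' c)
      = ∑ c, (if c ∈ S then U a c * ((p' c i - p a' i : ℝ) : ℂ) * (starRingEnd ℂ) (U a' c)
        else U a c * ((p' c i - p a i : ℝ) : ℂ) * (starRingEnd ℂ) (U a' c)) := by
    have h2 : Wm U p' i a a' = ∑ c, U a c * ((p' c i - p a i : ℝ) : ℂ) * (starRingEnd ℂ) (U a' c) := by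
      have h3 : ∑ c, U a c * ((p a i : ℝ) : ℂ) * (starRingEnd ℂ) (U a' c) = 0 := by
        have h3' : ∑ c, U a c * ((p a i : ℝ) : ℂ) * (starRingEnd ℂ) (U a' c) =
            ((p a i : ℝ) : ℂ) * ∑ c, U a c * (starRingEnd ℂ) (U a' c) := by
          rw [Finset.mul_sum]
          refine Finset.sum_congr rfl fun c _ => by ring
        rw [h3', hU, sum_U, if_neg hne, mul_zero]
      have h4 : Wm U p' i a a' = Wm U p' i a a' -
          ∑ c, U a c * ((p a i : ℝ) : ℂ) * (starRingEnd ℂ) (U a' c) := by rw [h3, sub_zero]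
      rw [h4, Wm, ← Finset.sum_sub_distrib]
      refine Finset.sum_congr rfl fun c _ => ?_
      push_cast; ring
    have h5 : ∑ c ∈ S, U a c * (starRingEnd ℂ) (U a' c) =
        ∑ c, if c ∈ S then U a c * (starRingEnd ℂ) (U a' c) else 0 := by
      rw [Finset.sum_ite_mem, Finset.univ_inter]
    rw [h2, h5, Finset.mul_sum, ← Finset.sum_sub_distrib]
    refine Finset.sum_congr rfl fun c _ => ?_
    split_ifs
    · push_cast; ring
    · push_cast; ring
  rw [h1]
  refine (norm_sum_le _ _).trans ?_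
  have h4 : ∀ c ∈ Finset.univ, ‖(if c ∈ S then U a c * ((p' c i - p a' i : ℝ) : ℂ) *
        (starRingEnd ℂ) (U a' c)
        else U a c * ((p' c i - p a i : ℝ) : ℂ) * (starRingEnd ℂ) (U a' c))‖ ≤ 4 * d ^ 2 / s := by
    intro c _
    have hlast : ∀ x y : ℝ, 0 ≤ x → 0 ≤ y → x ≤ d → y ≤ 2 * d / s → x * y ≤ 4 * d ^ 2 / s := by
      intro x y hx hy hxd hyd
      calc x * y ≤ d * (2 * d / s) := mul_le_mul hxd hyd hy hd0
        _ = 2 * d ^ 2 / s := by ring
        _ ≤ 4 * d ^ 2 / s := by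
          apply div_le_div_of_nonneg_right _ hs0.le
          nlinarith [sq_nonneg d]
    split_ifs with hc
    · have hc' : ‖p' c - p a'‖ < s / 2 := (Finset.mem_filter.1 hc).2
      rw [norm_mul, norm_mul, RCLike.norm_conj, Complex.norm_real, Real.norm_eq_abs]
      have h5 : |p' c i - p a' i| ≤ ‖p' c - p a'‖ := by
        have := coord_le (p' c - p a') i
        rwa [PiLp.sub_apply] at this
      have h6 := entry_dist hR hR' g a' c
      rw [← hU, ← hd] at h6
      have hbad : s / 2 ≤ ‖p' c - p a‖ := by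
        have : ‖p a - p a'‖ ≤ ‖p' c - p a'‖ + ‖p' c - p a‖ := by
          have h0 : p a - p a' = (p' c - p a') - (p' c - p a) := by abel
          rw [h0]; exact norm_sub_le _ _
        linarith
      have h7 : ‖U a c‖ ≤ 2 * d / s := bad_le hs0 hR hR' g hbad
      have h8 : |p' c i - p a' i| * ‖U a' c‖ ≤ d :=
        (mul_le_mul_of_nonneg_right h5 (norm_nonneg _)).trans h6
      calc ‖U a c‖ * |p' c i - p a' i| * ‖U a' c‖ = (|p' c i - p a' i| * ‖U a' c‖) * ‖U a c‖ := by
            ring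
        _ ≤ _ := hlast _ _ (by positivity) (norm_nonneg _) h8 h7
    · have hc' : s / 2 ≤ ‖p' c - p a'‖ := by
        by_contra hcon
        exact hc (Finset.mem_filter.2 ⟨Finset.mem_univ c, not_le.1 hcon⟩)
      rw [norm_mul, norm_mul, RCLike.norm_conj, Complex.norm_real, Real.norm_eq_abs]
      have h5 : |p' c i - p a i| ≤ ‖p' c - p a‖ := by
        have := coord_le (p' c - p a) i
        rwa [PiLp.sub_apply] at this
      have h6 := entry_dist hR hR' g a c
      rw [← hU, ← hd] at h6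
      have h7 : ‖U a' c‖ ≤ 2 * d / s := bad_le hs0 hR hR' g hc'
      have h8 : ‖U a c‖ * |p' c i - p a i| ≤ d := by
        rw [mul_comm]
        exact (mul_le_mul_of_nonneg_right h5 (norm_nonneg _)).trans h6
      exact hlast _ _ (by positivity) (norm_nonneg _) h8 h7
  refine (Finset.sum_le_sum h4).trans ?_
  rw [Finset.sum_const, Finset.card_univ, Fintype.card_fin, nsmul_eq_mul]

theorem sum_blocks {v : Cfg N} (hv : IsNor b p v) (f : V9 → ℂ) (i : Fin 9) :
    ∑ a, f (p a) * mat b v i a a = 0 := by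
  classical
  rw [← Finset.sum_fiberwise_of_maps_to (s := Finset.univ) (t := Finset.univ.image p) (g := p)
    (fun a _ => Finset.mem_image_of_mem p (Finset.mem_univ a))]
  refine Finset.sum_eq_zero fun w hw => ?_
  obtain ⟨a, _, rfl⟩ := Finset.mem_image.1 hw
  have h1 : ∑ a' ∈ Finset.univ.filter (fun a' => p a' = p a), f (p a') * mat b v i a' a' =
      f (p a) * ∑ a' ∈ Finset.univ.filter (fun a' => p a' = p a), mat b v i a' a' := by
    rw [Finset.mul_sum]
    refine Finset.sum_congr rfl fun a' ha' => ?_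
    rw [(Finset.mem_filter.1 ha').2]
  rw [h1]
  have := hv.1 i a
  convert (mul_zero (f (p a))) using 2

/-- a normal vector is orthogonal to the base point -/
theorem inner_dg (hR : IsDg b p R) {v : Cfg N} (hv : IsNor b p v) : inner ℝ R v = 0 := by
  have h := inner_eq b R v
  have h2 : ∀ i, (mat b R i * mat b v i).trace = 0 := by
    intro i
    rw [hR i]
    simp only [Matrix.trace, Matrix.diag_apply, Matrix.diagonal_mul]
    exact sum_blocks hv (fun w => ((w i : ℝ) : ℂ)) i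
  rw [Finset.sum_eq_zero fun i _ => h2 i] at h
  exact_mod_cast h

/-- (QUAD) : the stratum is quadratically close to its tangent space, uniformly -/
theorem quad (hs0 : 0 < s) (hp : Sep s p) (hp' : Sep s p') (hR : IsDg b p R)
    (hR' : IsDg b p' R') (g : Matrix.specialUnitaryGroup (Fin N) ℂ) {v : Cfg N}
    (hv : IsNor b p v) :
    |inner ℝ (b.act g R' - R) v| ≤ 36 * (N : ℝ) ^ 3 / s * ‖b.act g R' - R‖ ^ 2 * ‖v‖ := by
  classical
  rw [inner_sub_left, inner_dg hR hv, sub_zero]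
  set U : Matrix (Fin N) (Fin N) ℂ := (g : Matrix (Fin N) (Fin N) ℂ) with hU
  set d := ‖b.act g R' - R‖ with hd
  have hd0 : 0 ≤ d := norm_nonneg _
  have hB : ∀ a a', ∃ β : ℂ, p a ≠ p a' → ∀ i, ‖Wm U p' i a a' -
        ((p a' i - p a i : ℝ) : ℂ) * β‖ ≤ N * (4 * d ^ 2 / s) := by
    intro a a'
    by_cases h : p a = p a'
    · exact ⟨0, fun h' => absurd h h'⟩
    · obtain ⟨β, hβ⟩ := claimB hs0 hp hR hR' g h
      exact ⟨β, fun _ => hβ⟩
  choose β hβ using hB
  set mn : Fin 9 → Fin N → Fin N → ℂ := fun i a a' =>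
    if p a = p a' then (if a = a' then ((qsel s p' (p a) i : ℝ) : ℂ) else 0)
    else ((p a' i - p a i : ℝ) : ℂ) * β a a' with hmn
  have hmnb : ∀ i a a', ‖Wm U p' i a a' - mn i a a'‖ ≤ N * (4 * d ^ 2 / s) := by
    intro i a a'
    rw [hmn]
    dsimp only
    split_ifs with h h'
    · have := claimA hs0 hp' hR hR' g i h
      rw [if_pos h'] at this
      exact this
    · have := claimA hs0 hp' hR hR' g i h
      rw [if_neg h'] at this
      exact this
    · exact hβ a a' h i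
  have hin : ((inner ℝ (b.act g R') v : ℝ) : ℂ) =
      ∑ i, ∑ a, ∑ a', Wm U p' i a a' * mat b v i a' a := by
    rw [inner_eq b]
    refine Finset.sum_congr rfl fun i _ => ?_
    simp only [Matrix.trace, Matrix.diag_apply, Matrix.mul_apply]
    refine Finset.sum_congr rfl fun a _ => Finset.sum_congr rfl fun a' _ => ?_
    rw [mat_act_dg hR']
  have hmain : ∑ i, ∑ a, ∑ a', mn i a a' * mat b v i a' a = 0 := by
    have h1 : ∀ i a a', mn i a a' * mat b v i a' a =
        (if a = a' then ((qsel s p' (p a) i : ℝ) : ℂ) * mat b v i a a else 0) +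
        (if p a = p a' then 0 else β a a' * (((p a' i - p a i : ℝ) : ℂ) * mat b v i a' a)) := by
      intro i a a'
      rw [hmn]
      dsimp only
      by_cases h : p a = p a'
      · rw [if_pos h, if_pos h, add_zero]
        by_cases h' : a = a'
        · subst h'; simp
        · rw [if_neg h', if_neg h', zero_mul]
      · have h' : a ≠ a' := fun h'' => h (by rw [h''])
        rw [if_neg h, if_neg h, if_neg h', zero_add]
        ring
    simp only [h1, Finset.sum_add_distrib]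
    have h2 : ∑ i, ∑ a, ∑ a', (if a = a' then ((qsel s p' (p a) i : ℝ) : ℂ) * mat b v i a a else 0)
        = 0 := by
      refine Finset.sum_eq_zero fun i _ => ?_
      simp only [Finset.sum_ite_eq, Finset.mem_univ, if_true]
      exact sum_blocks hv (fun w => ((qsel s p' w i : ℝ) : ℂ)) i
    have h3 : ∑ i, ∑ a, ∑ a', (if p a = p a' then 0 else
        β a a' * (((p a' i - p a i : ℝ) : ℂ) * mat b v i a' a)) = 0 := by
      rw [Finset.sum_comm]
      refine Finset.sum_eq_zero fun a _ => ?_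
      rw [Finset.sum_comm]
      refine Finset.sum_eq_zero fun a' _ => ?_
      by_cases h : p a = p a'
      · simp [h]
      · simp only [if_neg h]
        rw [← Finset.mul_sum]
        have h4 := hv.2 a' a (fun h' => h h'.symm)
        have h5 : ∑ i, (((p a' i - p a i : ℝ) : ℂ) * mat b v i a' a) =
            - ∑ i, (((p a i - p a' i : ℝ) : ℂ) * mat b v i a' a) := by
          rw [← Finset.sum_neg_distrib]
          refine Finset.sum_congr rfl fun i _ => ?_
          push_cast; ring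
        rw [h5, h4]; simp
    rw [h2, h3, add_zero]
  have hfin : ‖((inner ℝ (b.act g R') v : ℝ) : ℂ)‖ ≤
      ∑ i : Fin 9, ∑ a : Fin N, ∑ a' : Fin N, (N * (4 * d ^ 2 / s)) * ‖v‖ := by
    have h1 : ((inner ℝ (b.act g R') v : ℝ) : ℂ) =
        ∑ i, ∑ a, ∑ a', (Wm U p' i a a' - mn i a a') * mat b v i a' a := by
      rw [hin]
      conv_lhs => rw [← sub_zero (∑ i, ∑ a, ∑ a', Wm U p' i a a' * mat b v i a' a), ← hmain]
      simp only [sub_mul, Finset.sum_sub_distrib]
    rw [h1]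
    refine (norm_sum_le _ _).trans (Finset.sum_le_sum fun i _ => ?_)
    refine (norm_sum_le _ _).trans (Finset.sum_le_sum fun a _ => ?_)
    refine (norm_sum_le _ _).trans (Finset.sum_le_sum fun a' _ => ?_)
    rw [norm_mul]
    exact mul_le_mul (hmnb i a a') (entry_le v i a' a) (norm_nonneg _) (by positivity)
  rw [Complex.norm_real, Real.norm_eq_abs] at hfin
  refine hfin.trans (le_of_eq ?_)
  simp only [Finset.sum_const, Finset.card_univ, Fintype.card_fin, nsmul_eq_mul]
  push_cast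
  ring

/-- nearest point inequality -/
theorem nearest (hs0 : 0 < s) (hp : Sep s p) (hp' : Sep s p') (hR : IsDg b p R)
    (hR' : IsDg b p' R') (g : Matrix.specialUnitaryGroup (Fin N) ℂ) {v : Cfg N}
    (hv : IsNor b p v) (hvs : 144 * (N : ℝ) ^ 3 * ‖v‖ ≤ s) :
    ‖v‖ ^ 2 + ‖b.act g R' - R‖ ^ 2 / 2 ≤ ‖R + v - b.act g R'‖ ^ 2 := by
  have h1 := quad hs0 hp hp' hR hR' g hv
  have h2 : ‖R + v - b.act g R'‖ ^ 2 =
      ‖v‖ ^ 2 - 2 * inner ℝ (b.act g R' - R) v + ‖b.act g R' - R‖ ^ 2 := by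
    have h3 : R + v - b.act g R' = v - (b.act g R' - R) := by abel
    rw [h3, norm_sub_sq_real, real_inner_comm]
  have h4 : 36 * (N : ℝ) ^ 3 / s * ‖b.act g R' - R‖ ^ 2 * ‖v‖ ≤ ‖b.act g R' - R‖ ^ 2 / 4 := by
    have h5 : 36 * (N : ℝ) ^ 3 / s * ‖v‖ ≤ 1 / 4 := by
      rw [div_mul_eq_mul_div, div_le_iff₀ hs0]
      linarith
    calc 36 * (N : ℝ) ^ 3 / s * ‖b.act g R' - R‖ ^ 2 * ‖v‖
        = (36 * (N : ℝ) ^ 3 / s * ‖v‖) * ‖b.act g R' - R‖ ^ 2 := by ring
      _ ≤ (1 / 4) * ‖b.act g R' - R‖ ^ 2 := mul_le_mul_of_nonneg_right h5 (sq_nonneg _)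
      _ = _ := by ring
  have h6 := (abs_le.1 h1).2
  rw [h2]
  linarith

/-- **(STAR)** for the adapted slice: `g (R + v) = R' + v'` forces `g R = R'`, `g v = v'`. -/
theorem star (hs0 : 0 < s) (hp : Sep s p) (hp' : Sep s p') (hR : IsDg b p R)
    (hR' : IsDg b p' R') (g : Matrix.specialUnitaryGroup (Fin N) ℂ) {v v' : Cfg N}
    (hv : IsNor b p v) (hv' : IsNor b p' v') (hvs : 144 * (N : ℝ) ^ 3 * ‖v‖ ≤ s)
    (hvs' : 144 * (N : ℝ) ^ 3 * ‖v'‖ ≤ s) (h : b.act g (R + v) = R' + v') :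
    b.act g R = R' ∧ b.act g v = v' := by
  have h1 := nearest hs0 hp hp' hR hR' g⁻¹ hv hvs
  have h2 := nearest hs0 hp' hp hR' hR g hv' hvs'
  have h3 : ‖R + v - b.act g⁻¹ R'‖ = ‖v'‖ := by
    rw [← act_norm b g, act_sub, act_act_inv, h]
    congr 1; abel
  have h4 : ‖R' + v' - b.act g R‖ = ‖v‖ := by
    rw [← h, ← act_sub, act_norm]
    congr 1; abel
  have h5 : ‖b.act g⁻¹ R' - R‖ = ‖b.act g R - R'‖ := by
    rw [← act_norm b g, act_sub, act_act_inv, ← norm_neg]
    congr 1; abel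
  rw [h3, h5] at h1
  rw [h4] at h2
  have h6 : ‖b.act g R - R'‖ ^ 2 ≤ 0 := by linarith
  have h7 : b.act g R - R' = 0 := by
    rw [← norm_eq_zero]
    nlinarith [norm_nonneg (b.act g R - R')]
  have h8 : b.act g R = R' := sub_eq_zero.1 h7
  refine ⟨h8, ?_⟩
  rw [act_add, h8] at h
  exact add_left_cancel h

/-- entries of `g` when `g R' = R`: supported on equal positions -/
theorem entry_zero (hR : IsDg b p R) (hR' : IsDg b p' R')
    (g : Matrix.specialUnitaryGroup (Fin N) ℂ) (h : b.act g R' = R) {a c : Fin N}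
    (hne : p' c ≠ p a) : (g : Matrix (Fin N) (Fin N) ℂ) a c = 0 := by
  have h1 := entry_dist hR hR' g a c
  rw [h, sub_self, norm_zero] at h1
  have h2 : 0 < ‖p' c - p a‖ := norm_pos_iff.2 (sub_ne_zero.2 hne)
  have h3 : ‖(g : Matrix (Fin N) (Fin N) ℂ) a c‖ ≤ 0 := by
    by_contra hcon
    rw [not_le] at hcon
    nlinarith [mul_pos h2 hcon]
  exact norm_le_zero_iff.1 h3

end

end Crest.Agent.R330.StarA410
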