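import Crest.Agent.R330.StrAbs_796

/-!
# Row 330, section 11 (helper796): abstract form of `D-low`

* `dimGe_of_ιc` : the dimension of the kernel in the closure of the core.
* `low` : `k` bound states and `d` zero states of the free model give `k + d` zero states for large
  coupling, by duality (`AbsLow_291`).
* `low_of_close` : the same from closeness to the kernel by duality.
-/

set_option autoImplicit false
set_option linter.unusedSectionVars false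

open Filter Topology Set
open scoped InnerProductSpace

noncomputable section

namespace Crest.Agent.R330.StrLow796

open Crest.Agent.R330.FA416 Crest.Agent.R330.AbsLow291 Crest.Agent.R330.StrAbs796

variable {V H H' L X : Type*} [AddCommGroup V] [Module ℂ V]
  [NormedAddCommGroup H] [InnerProductSpace ℂ H]
  [NormedAddCommGroup H'] [InnerProductSpace ℂ H']
  [NormedAddCommGroup L] [InnerProductSpace ℂ L]
  [AddCommGroup X] [Module ℂ X] {α : Type*}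

theorem dimGe_of_ιc {ι : V →ₗ[ℂ] H} {Q : V →ₗ[ℂ] H'} {k : ℕ} (h : DimGe (ιc ι) Q k) :
    DimGe ι Q k := by
  obtain ⟨f, hf, hm⟩ := h
  exact ⟨fun i => (f i : H), hf.comp_linearIsometry (clo ι).subtypeₗᵢ, fun i =>
    (kerF_ιc _).1 (hm i)⟩

theorem gap_to_ιc {ι : V →ₗ[ℂ] H} {Q : V →ₗ[ℂ] H'} {δ : ℝ} (h : Gap ι Q δ) :
    Gap (ιc ι) Q δ := fun φ => by
  obtain ⟨ψ, h1, h2⟩ := h φ
  exact ⟨⟨ψ, kerF_le_clo h1⟩, (kerF_ιc _).2 h1, h2⟩

/-- Single charges are bounded by the form. -/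
theorem norm_q_le {ι : V →ₗ[ℂ] H} {Q : V →ₗ[ℂ] H'} [Fintype α] {q : α → V →ₗ[ℂ] V} {κ : ℝ}
    (hκ : 0 < κ)
    (hq : ∀ φ ψ, ⟪Q φ, Q ψ⟫_ℂ = (κ : ℂ) * ∑ a, ⟪ι (q a φ), ι (q a ψ)⟫_ℂ) (a : α) (φ : V) :
    ‖ι (q a φ)‖ ≤ (Real.sqrt κ)⁻¹ * ‖Q φ‖ := by
  have hsκ : 0 < Real.sqrt κ := Real.sqrt_pos.2 hκ
  have h1 : κ * ∑ b, ‖ι (q b φ)‖ ^ 2 = ‖Q φ‖ ^ 2 := by
    have h2 := hq φ φ
    have h3 : ∀ b, ⟪ι (q b φ), ι (q b φ)⟫_ℂ = ((‖ι (q b φ)‖ ^ 2 : ℝ) : ℂ) := fun b => by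
      rw [inner_self_eq_norm_sq_to_K]
      push_cast
      rfl
    have h4 : ⟪Q φ, Q φ⟫_ℂ = ((‖Q φ‖ ^ 2 : ℝ) : ℂ) := by
      rw [inner_self_eq_norm_sq_to_K]
      push_cast
      rfl
    rw [h4] at h2
    simp only [h3] at h2
    rw [← Complex.ofReal_sum, ← Complex.ofReal_mul] at h2
    exact (Complex.ofReal_injective h2).symm
  have h2 : ‖ι (q a φ)‖ ^ 2 ≤ ∑ b, ‖ι (q b φ)‖ ^ 2 :=
    Finset.single_le_sum (f := fun b => ‖ι (q b φ)‖ ^ 2) (fun b _ => sq_nonneg _)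
      (Finset.mem_univ a)
  have h3 : Real.sqrt κ * ‖ι (q a φ)‖ ≤ ‖Q φ‖ := by
    refine le_of_sq_le_sq ?_ (norm_nonneg _)
    rw [mul_pow, Real.sq_sqrt hκ.le, ← h1]
    exact mul_le_mul_of_nonneg_left h2 hκ.le
  rw [inv_mul_eq_div, le_div_iff₀ hsκ]
  linarith

/-- Gram entries of vectors close to orthonormal vectors. -/
theorem gram_close {E : Type*} [NormedAddCommGroup E] [InnerProductSpace ℂ E] {d : ℕ}
    {f u : Fin d → E} (hf : Orthonormal ℂ f) {ε : ℝ} (h1 : ε ≤ 1)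
    (hu : ∀ i, ‖u i - f i‖ ≤ ε) (i j : Fin d) :
    ‖⟪u i, u j⟫_ℂ - if i = j then 1 else 0‖ ≤ 3 * ε := by
  have h0 : 0 ≤ ε := (norm_nonneg _).trans (hu i)
  have h2 : (if i = j then (1 : ℂ) else 0) = ⟪f i, f j⟫_ℂ := (orthonormal_iff_ite.1 hf i j).symm
  have h3 : ⟪u i, u j⟫_ℂ - ⟪f i, f j⟫_ℂ = ⟪u i - f i, u j⟫_ℂ + ⟪f i, u j - f j⟫_ℂ := by
    rw [inner_sub_left, inner_sub_right]
    ring
  have h4 : ‖u j‖ ≤ 2 := by
    have h5 : u j = (u j - f j) + f j := by abel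
    rw [h5]
    refine (norm_add_le _ _).trans ?_
    rw [hf.1 j]
    linarith [hu j]
  rw [h2, h3]
  refine (norm_add_le _ _).trans ?_
  have h5 := (norm_inner_le_norm (𝕜 := ℂ) (u i - f i) (u j)).trans
    (mul_le_mul (hu i) h4 (norm_nonneg _) h0)
  have h6 := (norm_inner_le_norm (𝕜 := ℂ) (f i) (u j - f j)).trans
    (mul_le_mul (hf.1 i).le (hu j) (norm_nonneg _) zero_le_one)
  linarith

/-- **D-low.** -/
theorem low [CompleteSpace H] [Fintype α] {ι : V →ₗ[ℂ] H} {Q : ℝ → V →ₗ[ℂ] H'}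
    {q : ℝ → α → V →ₗ[ℂ] V} {e : X →ₗ[ℂ] L} {D : α → X →ₗ[ℂ] X} {T : ℝ → X → V}
    (h : Tr ι Q q e D T) (A : ℝ → V →ₗ[ℂ] V) {δ κ C₁ : ℝ} (hδ : 0 < δ) (hκ : 0 < κ)
    (hC₁ : 0 ≤ C₁)
    (hA : ∀ᶠ g in atTop, ∀ φ ψ, ⟪Q g φ, Q g ψ⟫_ℂ = ⟪ι (A g φ), ι ψ⟫_ℂ)
    (hd : ∀ᶠ g in atTop, ∀ φ, ι φ ∈ clo (ι + ι ∘ₗ A g))
    (hG : ∀ᶠ g in atTop, Gap ι (Q g) δ)
    (hq : ∀ᶠ g in atTop, ∀ φ ψ, ⟪Q g φ, Q g ψ⟫_ℂ =
      (κ : ℂ) * ∑ a, ⟪ι (q g a φ), ι (q g a ψ)⟫_ℂ)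
    (hQQ : ∀ᶠ g in atTop, ∀ a φ, ‖Q g (q g a φ)‖ ≤ C₁ * (‖ι (A g φ)‖ + ‖Q g φ‖))
    (K0 : Submodule ℂ L) {d : ℕ} (hK0 : Module.rank ℂ K0 = d)
    (happ : ∀ f ∈ K0, ∀ ε : ℝ, 0 < ε → ∃ χ, ‖e χ - f‖ ≤ ε ∧ ∀ a, ‖e (D a χ)‖ ≤ ε)
    {k : ℕ} (hbs : ∀ ε : ℝ, 0 < ε → ∀ S : Finset X, ∀ᶠ g in atTop, ∃ w : Fin k → V,
      (∀ i j, ‖⟪ι (w i), ι (w j)⟫_ℂ - if i = j then 1 else 0‖ ≤ ε) ∧
      (∀ i, ‖Q g (w i)‖ ≤ ε) ∧ ∀ χ ∈ S, ∀ i, ‖⟪ι (T g χ), ι (w i)⟫_ℂ‖ ≤ ε) :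
    ∀ᶠ g in atTop, DimGe ι (Q g) (k + d) := by
  classical
  have : CompleteSpace (clo ι) := (isClosed_clo ι).completeSpace_coe
  -- an orthonormal basis of `K0`
  have hfd : FiniteDimensional ℂ K0 := by
    rw [FiniteDimensional, ← Module.rank_lt_aleph0_iff, hK0]
    exact Cardinal.natCast_lt_aleph0
  have hfr : Module.finrank ℂ K0 = d := by
    rw [Module.finrank, hK0, Cardinal.toNat_natCast]
  let b := stdOrthonormalBasis ℂ K0
  let f : Fin d → L := fun i => (b (Fin.cast hfr.symm i) : L)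
  have hf : Orthonormal ℂ f :=
    (b.orthonormal.comp (Fin.cast hfr.symm) (Fin.cast_injective _)).comp_linearIsometry
      K0.subtypeₗᵢ
  have hfm : ∀ i, f i ∈ K0 := fun i => (b _).2
  -- constants
  set κ' : ℝ := (Real.sqrt κ)⁻¹ with hκ'
  have hκ'0 : 0 ≤ κ' := inv_nonneg.2 (Real.sqrt_nonneg _)
  set M : ℝ := κ * Fintype.card α * (1 * κ' * (Real.sqrt δ)⁻¹ +
      C₁ * (1 + 1 * (Real.sqrt δ)⁻¹)) with hM
  set B : ℝ := ((3 + κ') * M) ^ 2 + 4 with hB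
  have hB0 : 4 ≤ B := by rw [hB]; nlinarith [sq_nonneg ((3 + κ') * M)]
  set ε : ℝ := ((k + d + 1 : ℝ) * B)⁻¹ with hε
  have hkd : (0 : ℝ) < k + d + 1 := by positivity
  have hε0 : 0 < ε := inv_pos.2 (mul_pos hkd (by linarith))
  have hε1 : ε ≤ 1 := by
    rw [hε]
    refine inv_le_one_of_one_le₀ ?_
    have : (1 : ℝ) ≤ k + d + 1 := by
      have h1 : (0 : ℝ) ≤ k := Nat.cast_nonneg _
      have h2 : (0 : ℝ) ≤ d := Nat.cast_nonneg _
      linarith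
    nlinarith
  -- test amplitudes
  choose χ hχ1 hχ2 using fun i : Fin d => happ (f i) (hfm i) ε hε0
  have hgram := gram_close hf hε1 hχ1
  -- large coupling
  have e1 : ∀ᶠ g in atTop, ∀ i j, ‖⟪ι (T g (χ i)), ι (T g (χ j))⟫_ℂ - if i = j then 1 else 0‖ ≤
      4 * ε := by
    rw [eventually_all]
    intro i
    rw [eventually_all]
    intro j
    have h1 : Tendsto (fun g => ‖⟪ι (T g (χ i)), ι (T g (χ j))⟫_ℂ - if i = j then 1 else 0‖)
        atTop (𝓝 ‖⟪e (χ i), e (χ j)⟫_ℂ - if i = j then 1 else 0‖) :=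
      ((h.iso (χ i) (χ j)).sub_const _).norm
    refine (h1.eventually_lt_const (lt_of_le_of_lt (hgram i j) ?_)).mono fun g h => h.le
    linarith
  have e2 : ∀ᶠ g in atTop, ∀ i a, ‖ι (T g (D a (χ i)))‖ ≤ 2 * ε := by
    rw [eventually_all]
    intro i
    rw [eventually_all]
    intro a
    refine ((h.norm (D a (χ i))).eventually_lt_const (lt_of_le_of_lt (hχ2 i a) ?_)).mono
      fun g h => h.le
    linarith
  have e3 : ∀ᶠ g in atTop, ∀ i a, ∀ v : V,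
      ‖⟪ι (q g a (T g (χ i)) - T g (D a (χ i))), ι v⟫_ℂ‖ ≤ ε * (‖ι v‖ + ‖Q g v‖) := by
    rw [eventually_all]
    intro i
    rw [eventually_all]
    intro a
    exact h.dual (χ i) a ε hε0
  filter_upwards [hA, hd, hG, hq, hQQ, hbs ε hε0 (Finset.univ.image χ), e1, e2, e3] with g hA hd hG
    hq hQQ hbs e1 e2 e3
  obtain ⟨w, hw1, hw2, hw3⟩ := hbs
  -- the family
  set W : Fin (k + d) → V := fun i => Sum.elim w (fun j => T g (χ j)) (finSumFinEquiv.symm i)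
    with hW
  refine dimGe_of_ιc ?_
  -- the Hamiltonian with values in the closure
  set A' : V →ₗ[ℂ] clo ι := (ι ∘ₗ A g).codRestrict (clo ι) fun φ => mem_clo _ with hA'
  have hdense : DenseRange (ιc ι + A') := by
    have hle : clo ι ≤ clo (ι + ι ∘ₗ A g) := by
      refine Submodule.topologicalClosure_minimal _ ?_ (Submodule.isClosed_topologicalClosure _)
      rintro y ⟨φ, rfl⟩
      exact hd φ
    intro x
    obtain ⟨φ, hφ⟩ := mem_clo_iff.1 (hle x.2)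
    rw [mem_closure_iff_seq_limit]
    exact ⟨fun n => (ιc ι + A') (φ n), fun n => ⟨φ n, rfl⟩, tendsto_subtype_rng.2 hφ⟩
  have hqn : ∀ a φ, ‖ι (q g a φ)‖ ≤ κ' * ‖Q g φ‖ := fun a φ => norm_q_le hκ hq a φ
  refine dimGe_of_pairing (ι := ιc ι) (A := A') (q := q g) (s := 1) (η := (3 + κ') * ε)
    (τ := 4 * ε) (fun φ ψ => ?_) hdense hδ hκ zero_le_one hC₁ (by positivity) (gap_to_ιc hG)
    (fun φ ψ => ?_) (fun a φ => ?_) W (fun i a v => ?_) (fun i j => ?_) ?_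
  · rw [hA, Submodule.coe_inner]
    rfl
  · rw [hq]
    rfl
  · rw [one_mul]
    exact hQQ a φ
  · change ‖⟪ι (q g a (W i)), ι v⟫_ℂ‖ ≤ (3 + κ') * ε * (1 * ‖ι v‖ + ‖Q g v‖)
    rw [one_mul]
    obtain ⟨s, hs⟩ := finSumFinEquiv.surjective i
    rw [hW, ← hs]
    simp only [Equiv.symm_apply_apply]
    rcases s with i' | i'
    · simp only [Sum.elim_inl]
      refine (norm_inner_le_norm _ _).trans ?_
      have h1 := (hqn a (w i')).trans (mul_le_mul_of_nonneg_left (hw2 i') hκ'0)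
      have h2 := mul_le_mul_of_nonneg_right h1 (norm_nonneg (ι v))
      refine h2.trans ?_
      have h3 := norm_nonneg (ι v)
      have h4 := norm_nonneg (Q g v)
      nlinarith [mul_nonneg hε0.le h3, mul_nonneg (mul_nonneg hκ'0 hε0.le) h4,
        mul_nonneg hε0.le h4]
    · simp only [Sum.elim_inr]
      have h1 : q g a (T g (χ i')) = (q g a (T g (χ i')) - T g (D a (χ i'))) +
          T g (D a (χ i')) := by abel
      rw [h1, map_add, inner_add_left]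
      refine (norm_add_le _ _).trans ?_
      have h2 := (norm_inner_le_norm (𝕜 := ℂ) (ι (T g (D a (χ i')))) (ι v)).trans
        (mul_le_mul_of_nonneg_right (e2 i' a) (norm_nonneg _))
      have h3 := norm_nonneg (ι v)
      have h4 := norm_nonneg (Q g v)
      nlinarith [e3 i' a v, mul_nonneg hε0.le h3, mul_nonneg hε0.le h4,
        mul_nonneg (mul_nonneg hκ'0 hε0.le) h3, mul_nonneg (mul_nonneg hκ'0 hε0.le) h4]
  · change ‖⟪ι (W i), ι (W j)⟫_ℂ - if i = j then 1 else 0‖ ≤ 4 * ε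
    obtain ⟨s, hs⟩ := finSumFinEquiv.surjective i
    obtain ⟨t, ht⟩ := finSumFinEquiv.surjective j
    have hij : (i = j) ↔ s = t := by
      rw [← hs, ← ht]
      exact finSumFinEquiv.injective.eq_iff
    simp only [hij]
    rw [hW, ← hs, ← ht]
    simp only [Equiv.symm_apply_apply]
    rcases s with i' | i' <;> rcases t with j' | j'
    · simp only [Sum.elim_inl, Sum.inl.injEq]
      exact (hw1 i' j').trans (by linarith)
    · simp only [Sum.elim_inl, Sum.elim_inr, reduceCtorEq, if_false, sub_zero]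
      rw [norm_inner_symm]
      exact (hw3 _ (Finset.mem_image_of_mem _ (Finset.mem_univ _)) i').trans (by linarith)
    · simp only [Sum.elim_inl, Sum.elim_inr, reduceCtorEq, if_false, sub_zero]
      exact (hw3 _ (Finset.mem_image_of_mem _ (Finset.mem_univ _)) j').trans (by linarith)
    · simp only [Sum.elim_inr, Sum.inr.injEq]
      exact e1 i' j'
  · -- smallness
    have h1 : ((3 + κ') * ε * M) ^ 2 + 4 * ε ≤ ε * B := by
      have h2 : ((3 + κ') * ε * M) ^ 2 = ε * (ε * ((3 + κ') * M) ^ 2) := by ring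
      have h3 : ε * ((3 + κ') * M) ^ 2 ≤ ((3 + κ') * M) ^ 2 :=
        mul_le_of_le_one_left (sq_nonneg _) hε1
      rw [h2, hB]
      nlinarith
    have h2 : ((k + d : ℕ) : ℝ) * (((3 + κ') * ε * M) ^ 2 + 4 * ε) ≤ (k + d : ℝ) * (ε * B) := by
      push_cast
      exact mul_le_mul_of_nonneg_left h1 (by positivity)
    refine lt_of_le_of_lt h2 ?_
    have h3 : ε * B = (k + d + 1 : ℝ)⁻¹ := by
      rw [hε, mul_inv, mul_assoc, inv_mul_cancel₀ (by linarith), mul_one]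
    rw [h3, ← div_eq_mul_inv, div_lt_one hkd]
    linarith

/-- **D-low** from closeness to the kernel by duality. -/
theorem low_of_close [CompleteSpace H] [Finite α] {ι : V →ₗ[ℂ] H} {Q : ℝ → V →ₗ[ℂ] H'}
    {q : ℝ → α → V →ₗ[ℂ] V} {e : X →ₗ[ℂ] L} {D : α → X →ₗ[ℂ] X} {T : ℝ → X → V}
    (h : Tr ι Q q e D T) {C κ' : ℝ} (hC : 0 ≤ C) (hκ' : 0 ≤ κ')
    (hqn : ∀ᶠ g in atTop, ∀ a φ, ‖ι (q g a φ)‖ ≤ κ' * ‖Q g φ‖)
    (hclose : ∀ᶠ g in atTop, ∀ η : ℝ, 0 ≤ η → ∀ u : V,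
      (∀ a v, ‖⟪ι (q g a u), ι v⟫_ℂ‖ ≤ η * (‖ι v‖ + ‖Q g v‖)) →
      ‖ι u - (kerF ι (Q g)).starProjection (ι u)‖ ≤ C * η)
    (K0 : Submodule ℂ L) {d : ℕ} (hK0 : Module.rank ℂ K0 = d)
    (happ : ∀ f ∈ K0, ∀ ε : ℝ, 0 < ε → ∃ χ, ‖e χ - f‖ ≤ ε ∧ ∀ a, ‖e (D a χ)‖ ≤ ε)
    {k : ℕ} (hbs : ∀ ε : ℝ, 0 < ε → ∀ S : Finset X, ∀ᶠ g in atTop, ∃ w : Fin k → V,
      (∀ i j, ‖⟪ι (w i), ι (w j)⟫_ℂ - if i = j then 1 else 0‖ ≤ ε) ∧
      (∀ i, ‖Q g (w i)‖ ≤ ε) ∧ ∀ χ ∈ S, ∀ i, ‖⟪ι (T g χ), ι (w i)⟫_ℂ‖ ≤ ε) :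
    ∀ᶠ g in atTop, DimGe ι (Q g) (k + d) := by
  classical
  -- an orthonormal basis of `K0`
  have hfd : FiniteDimensional ℂ K0 := by
    rw [FiniteDimensional, ← Module.rank_lt_aleph0_iff, hK0]
    exact Cardinal.natCast_lt_aleph0
  have hfr : Module.finrank ℂ K0 = d := by
    rw [Module.finrank, hK0, Cardinal.toNat_natCast]
  let b := stdOrthonormalBasis ℂ K0
  let f : Fin d → L := fun i => (b (Fin.cast hfr.symm i) : L)
  have hf : Orthonormal ℂ f :=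
    (b.orthonormal.comp (Fin.cast hfr.symm) (Fin.cast_injective _)).comp_linearIsometry
      K0.subtypeₗᵢ
  have hfm : ∀ i, f i ∈ K0 := fun i => (b _).2
  -- constants
  set M : ℝ := C with hM
  set B : ℝ := ((3 + κ') * M) ^ 2 + 4 with hB
  have hB0 : 4 ≤ B := by rw [hB]; nlinarith [sq_nonneg ((3 + κ') * M)]
  set ε : ℝ := ((k + d + 1 : ℝ) * B)⁻¹ with hε
  have hkd : (0 : ℝ) < k + d + 1 := by positivity
  have hε0 : 0 < ε := inv_pos.2 (mul_pos hkd (by linarith))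
  have hε1 : ε ≤ 1 := by
    rw [hε]
    refine inv_le_one_of_one_le₀ ?_
    have : (1 : ℝ) ≤ k + d + 1 := by
      have h1 : (0 : ℝ) ≤ k := Nat.cast_nonneg _
      have h2 : (0 : ℝ) ≤ d := Nat.cast_nonneg _
      linarith
    nlinarith
  -- test amplitudes
  choose χ hχ1 hχ2 using fun i : Fin d => happ (f i) (hfm i) ε hε0
  have hgram := gram_close hf hε1 hχ1
  -- large coupling
  have e1 : ∀ᶠ g in atTop, ∀ i j, ‖⟪ι (T g (χ i)), ι (T g (χ j))⟫_ℂ - if i = j then 1 else 0‖ ≤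
      4 * ε := by
    rw [eventually_all]
    intro i
    rw [eventually_all]
    intro j
    have h1 : Tendsto (fun g => ‖⟪ι (T g (χ i)), ι (T g (χ j))⟫_ℂ - if i = j then 1 else 0‖)
        atTop (𝓝 ‖⟪e (χ i), e (χ j)⟫_ℂ - if i = j then 1 else 0‖) :=
      ((h.iso (χ i) (χ j)).sub_const _).norm
    refine (h1.eventually_lt_const (lt_of_le_of_lt (hgram i j) ?_)).mono fun g h => h.le
    linarith
  have e2 : ∀ᶠ g in atTop, ∀ i a, ‖ι (T g (D a (χ i)))‖ ≤ 2 * ε := by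
    rw [eventually_all]
    intro i
    rw [eventually_all]
    intro a
    refine ((h.norm (D a (χ i))).eventually_lt_const (lt_of_le_of_lt (hχ2 i a) ?_)).mono
      fun g h => h.le
    linarith
  have e3 : ∀ᶠ g in atTop, ∀ i a, ∀ v : V,
      ‖⟪ι (q g a (T g (χ i)) - T g (D a (χ i))), ι v⟫_ℂ‖ ≤ ε * (‖ι v‖ + ‖Q g v‖) := by
    rw [eventually_all]
    intro i
    rw [eventually_all]
    intro a
    exact h.dual (χ i) a ε hε0
  filter_upwards [hqn, hclose, hbs ε hε0 (Finset.univ.image χ), e1, e2, e3] with g hqn hclose hbs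
    e1 e2 e3
  obtain ⟨w, hw1, hw2, hw3⟩ := hbs
  -- the family
  set W : Fin (k + d) → V := fun i => Sum.elim w (fun j => T g (χ j)) (finSumFinEquiv.symm i)
    with hW
  have hη : 0 ≤ (3 + κ') * ε := by positivity
  have hpair : ∀ i a v, ‖⟪ι (q g a (W i)), ι v⟫_ℂ‖ ≤ (3 + κ') * ε * (‖ι v‖ + ‖Q g v‖) := by
    intro i a v
    obtain ⟨s, hs⟩ := finSumFinEquiv.surjective i
    rw [hW, ← hs]
    simp only [Equiv.symm_apply_apply]
    rcases s with i' | i'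
    · simp only [Sum.elim_inl]
      refine (norm_inner_le_norm _ _).trans ?_
      have h1 := (hqn a (w i')).trans (mul_le_mul_of_nonneg_left (hw2 i') hκ')
      have h2 := mul_le_mul_of_nonneg_right h1 (norm_nonneg (ι v))
      refine h2.trans ?_
      have h3 := norm_nonneg (ι v)
      have h4 := norm_nonneg (Q g v)
      nlinarith [mul_nonneg hε0.le h3, mul_nonneg (mul_nonneg hκ' hε0.le) h4,
        mul_nonneg hε0.le h4]
    · simp only [Sum.elim_inr]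
      have h1 : q g a (T g (χ i')) = (q g a (T g (χ i')) - T g (D a (χ i'))) +
          T g (D a (χ i')) := by abel
      rw [h1, map_add, inner_add_left]
      refine (norm_add_le _ _).trans ?_
      have h2 := (norm_inner_le_norm (𝕜 := ℂ) (ι (T g (D a (χ i')))) (ι v)).trans
        (mul_le_mul_of_nonneg_right (e2 i' a) (norm_nonneg _))
      have h3 := norm_nonneg (ι v)
      have h4 := norm_nonneg (Q g v)
      nlinarith [e3 i' a v, mul_nonneg hε0.le h3, mul_nonneg hε0.le h4,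
        mul_nonneg (mul_nonneg hκ' hε0.le) h3, mul_nonneg (mul_nonneg hκ' hε0.le) h4]
  have hg : ∀ i j, ‖⟪ι (W i), ι (W j)⟫_ℂ - if i = j then 1 else 0‖ ≤ 4 * ε := by
    intro i j
    obtain ⟨s, hs⟩ := finSumFinEquiv.surjective i
    obtain ⟨t, ht⟩ := finSumFinEquiv.surjective j
    have hij : (i = j) ↔ s = t := by
      rw [← hs, ← ht]
      exact finSumFinEquiv.injective.eq_iff
    simp only [hij]
    rw [hW, ← hs, ← ht]
    simp only [Equiv.symm_apply_apply]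
    rcases s with i' | i' <;> rcases t with j' | j'
    · simp only [Sum.elim_inl, Sum.inl.injEq]
      exact (hw1 i' j').trans (by linarith)
    · simp only [Sum.elim_inl, Sum.elim_inr, reduceCtorEq, if_false, sub_zero]
      rw [norm_inner_symm]
      exact (hw3 _ (Finset.mem_image_of_mem _ (Finset.mem_univ _)) i').trans (by linarith)
    · simp only [Sum.elim_inl, Sum.elim_inr, reduceCtorEq, if_false, sub_zero]
      exact (hw3 _ (Finset.mem_image_of_mem _ (Finset.mem_univ _)) j').trans (by linarith)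
    · simp only [Sum.elim_inr, Sum.inr.injEq]
      exact e1 i' j'
  -- smallness
  have hsmall : ((k + d : ℕ) : ℝ) * ((M * ((3 + κ') * ε)) ^ 2 + 4 * ε) < 1 := by
    have h1 : (M * ((3 + κ') * ε)) ^ 2 + 4 * ε ≤ ε * B := by
      have h2 : (M * ((3 + κ') * ε)) ^ 2 = ε * (ε * ((3 + κ') * M) ^ 2) := by ring
      have h3 : ε * ((3 + κ') * M) ^ 2 ≤ ((3 + κ') * M) ^ 2 :=
        mul_le_of_le_one_left (sq_nonneg _) hε1
      rw [h2, hB]
      nlinarith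
    have h2 : ((k + d : ℕ) : ℝ) * ((M * ((3 + κ') * ε)) ^ 2 + 4 * ε) ≤
        (k + d : ℝ) * (ε * B) := by
      push_cast
      exact mul_le_mul_of_nonneg_left h1 (by positivity)
    refine lt_of_le_of_lt h2 ?_
    have h3 : ε * B = (k + d + 1 : ℝ)⁻¹ := by
      rw [hε, mul_inv, mul_assoc, inv_mul_cancel₀ (by linarith), mul_one]
    rw [h3, ← div_eq_mul_inv, div_lt_one hkd]
    linarith
  refine dimGe_of_almost (fun i => ι (W i)) hsmall fun i j => ?_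
  have h1 := proj_inner_close (hclose _ hη (W i) (hpair i)) (hclose _ hη (W j) (hpair j))
  have h2 := norm_add_le (⟪(kerF ι (Q g)).starProjection (ι (W i)),
    (kerF ι (Q g)).starProjection (ι (W j))⟫_ℂ - ⟪ι (W i), ι (W j)⟫_ℂ)
    (⟪ι (W i), ι (W j)⟫_ℂ - (if i = j then 1 else 0))
  rw [sub_add_sub_cancel] at h2
  rw [← sq] at h1
  linarith [hg i j]

end Crest.Agent.R330.StrLow796

end
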