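import Crest.Agent.R330.TrialSys_796
import Crest.Agent.R330.StrLow_796
import Crest.Agent.R330.Lit_416
import Crest.Agent.R330.Brid_837
import Crest.Agent.R330.ScaleD_423

/-!
# Row 330, section 10 (helper796): literal `D-up`

* `qc` : the charges as maps of the core.
* `exists_tr` : the literal trial system as an abstract one (`StrAbs796.Tr`).
* `cap_seq` : capture and tightness: sequences with `‖φ_j‖ ≤ 2`, `q(φ_j) → 0`, which are
  asymptotically orthogonal to all trial states and all scaled zero states, tend to `0`.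
* `dUp_of` : `TrialAll N → TightAll N → DUp N`.
-/

set_option autoImplicit false
set_option linter.unusedSectionVars false

open MeasureTheory Filter Topology Crest.MathPhysics.MatrixQM
open scoped ContDiff InnerProductSpace ENNReal

noncomputable section

namespace Crest.Agent.R330.StrUp796

open Crest.Agent.R330.Defs478 Crest.Agent.R330.Top478 Crest.Agent.R330.FA416
  Crest.Agent.R330.Dict416 Crest.Agent.R330.Scale423 Crest.Agent.R330.ScaleD423
  Crest.Agent.R330.TrialSys796 Crest.Agent.R330.StrAbs796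

variable {N : ℕ} {F : Type*} [NormedAddCommGroup F] [InnerProductSpace ℂ F]
  [FiniteDimensional ℂ F] {b : ColorBasis N} {M : FermionRep N F} {R : GaugeAction b M}
  {G : GammaNine}

/-! ### The charges on the core -/

variable (R) in
/-- The charges as maps of the core. -/
def qc (G : GammaNine) (g m : ℝ) (α : Fin 16) : core b R →ₗ[ℂ] core b R where
  toFun φ := ⟨dcharge b M G g m α φ.1, Brid837.core_dcharge φ.2⟩
  map_add' φ ψ := Subtype.ext (dcharge_add b M G g m α (cv_diff φ.2) (cv_diff ψ.2))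
  map_smul' c φ := Subtype.ext (dcharge_smul b M G g m α c (cv_diff φ.2))

theorem coe_qc (g m : ℝ) (α : Fin 16) (φ : core b R) :
    (qc R G g m α φ : core b R).1 = dcharge b M G g m α φ.1 := rfl

theorem qc_symm (g m : ℝ) (α : Fin 16) (φ ψ : core b R) :
    ⟪ιC R (qc R G g m α φ), ιC R ψ⟫_ℂ = ⟪ιC R φ, ιC R (qc R G g m α ψ)⟫_ℂ := by
  rw [inner_ιC, inner_ιC]
  exact Brid837.dcharge_symm (cv_c1 φ.2) (cv_c1 ψ.2) (Or.inl φ.2.2.1)

theorem norm_qc_sq (g m : ℝ) (φ : core b R) :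
    ∑ α, ‖ιC R (qc R G g m α φ)‖ ^ 2 = ‖QC R G g m φ‖ ^ 2 := by
  rw [norm_QC_sq, qf]
  simp only [norm_ιC_sq, coe_qc]
  ring

theorem norm_qc_le (g m : ℝ) (α : Fin 16) (φ : core b R) :
    ‖ιC R (qc R G g m α φ)‖ ≤ 1 * ‖QC R G g m φ‖ := by
  rw [one_mul]
  refine le_of_sq_le_sq ?_ (norm_nonneg _)
  rw [← norm_qc_sq]
  exact Finset.single_le_sum (f := fun α => ‖ιC R (qc R G g m α φ)‖ ^ 2)
    (fun α _ => sq_nonneg _) (Finset.mem_univ α)

theorem qf_eq (g m : ℝ) (φ : core b R) :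
    qf b M G g m φ.1 = (1 / 16) * ‖QC R G g m φ‖ ^ 2 := by
  rw [norm_QC_sq]
  ring

theorem en_eq (g m : ℝ) (φ : core b R) :
    En b M G g m φ.1 = ‖ιC R φ‖ ^ 2 + (1 / 16) * ‖QC R G g m φ‖ ^ 2 := by
  rw [En, norm_ιC_sq, qf_eq]

theorem sqrt_en_le (g m : ℝ) (φ : core b R) :
    Real.sqrt (En b M G g m φ.1) ≤ ‖ιC R φ‖ + ‖QC R G g m φ‖ := by
  rw [en_eq]
  refine Real.sqrt_le_iff.2 ⟨by positivity, ?_⟩
  nlinarith [norm_nonneg (ιC R φ), norm_nonneg (QC R G g m φ),
    mul_nonneg (norm_nonneg (ιC R φ)) (norm_nonneg (QC R G g m φ)),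
    sq_nonneg ‖QC R G g m φ‖]

/-! ### The trial system -/

section trial

variable {L : Type*} [NormedAddCommGroup L] [InnerProductSpace ℂ L] {X : Type*} [AddCommGroup X]
  [Module ℂ X] {e : X →ₗ[ℂ] L} {D : Fin 16 → X →ₗ[ℂ] X} {T : ℝ → X → Cfg N → F}

open Classical in
variable (R) in
/-- The trial map with values in the core. -/
def Tc (T : ℝ → X → Cfg N → F) (g : ℝ) (χ : X) : core b R :=
  if h : IsCoreVec b R (T g χ) then ⟨T g χ, h⟩ else 0

theorem coe_Tc {g : ℝ} {χ : X} (h : IsCoreVec b R (T g χ)) : (Tc R T g χ).1 = T g χ := by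
  unfold Tc
  rw [dif_pos h]

theorem tr_of (h : IsTrial b M R G e D T) :
    Tr (ιC R) (fun g => QC R G g 1) (fun g => qc R G g 1) e D (Tc R T) := by
  refine ⟨fun χ χ' => (h.iso χ χ').congr' ?_, fun χ α ε hε => ?_⟩
  · filter_upwards [h.core χ, h.core χ'] with g h1 h2
    rw [inner_ιC, coe_Tc h1, coe_Tc h2]
  · filter_upwards [h.core χ, h.core (D α χ), h.dual χ α ε hε] with g h1 h2 h3 v
    have h4 := h3 v.1 v.2
    rw [norm_inner_symm, inner_ιC]
    have h5 : (qc R G g 1 α (Tc R T g χ) - Tc R T g (D α χ)).1 =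
        dcharge b M G g 1 α (T g χ) - T g (D α χ) := by
      change (qc R G g 1 α (Tc R T g χ)).1 - (Tc R T g (D α χ)).1 = _
      rw [coe_qc, coe_Tc h1, coe_Tc h2]
    rw [h5]
    refine h4.trans (mul_le_mul_of_nonneg_left (sqrt_en_le g 1 v) hε.le)

end trial

/-! ### Tightness and capture -/

/-- Mass outside a ball. -/
theorem tail_le {φ : Cfg N → F} (hφ : IsCoreVec b R φ) {ρ : ℝ} (hρ : 0 < ρ) :
    ρ ^ 2 * ∫ x in (Metric.ball (0 : Cfg N) ρ)ᶜ, ‖φ x‖ ^ 2 ≤ ∫ x, ‖x‖ ^ 2 * ‖φ x‖ ^ 2 := by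
  have hc : Continuous fun x : Cfg N => ‖x‖ ^ 2 * ‖φ x‖ ^ 2 := by
    have := hφ.1.continuous
    fun_prop
  have hc2 : Continuous fun x : Cfg N => ‖φ x‖ ^ 2 := by
    have := hφ.1.continuous
    fun_prop
  have hs : HasCompactSupport fun x : Cfg N => ‖x‖ ^ 2 * ‖φ x‖ ^ 2 := by
    refine hφ.2.1.mono fun x hx => ?_
    rw [Function.mem_support] at hx ⊢
    intro h0
    exact hx (by simp [h0])
  have hs2 : HasCompactSupport fun x : Cfg N => ‖φ x‖ ^ 2 := by
    refine hφ.2.1.mono fun x hx => ?_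
    rw [Function.mem_support] at hx ⊢
    intro h0
    exact hx (by simp [h0])
  have hI : Integrable fun x : Cfg N => ‖x‖ ^ 2 * ‖φ x‖ ^ 2 :=
    hc.integrable_of_hasCompactSupport hs
  have hI2 : Integrable fun x : Cfg N => ‖φ x‖ ^ 2 := hc2.integrable_of_hasCompactSupport hs2
  rw [← integral_const_mul]
  refine (setIntegral_mono_on (hI2.integrableOn.const_mul _) hI.integrableOn
    measurableSet_ball.compl fun x hx => ?_).trans
    (setIntegral_le_integral hI (Eventually.of_forall fun x => by positivity))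
  have h1 : ρ ≤ ‖x‖ := by
    simpa using hx
  have h2 : ρ ^ 2 ≤ ‖x‖ ^ 2 := pow_le_pow_left₀ hρ.le h1 2
  exact mul_le_mul_of_nonneg_right h2 (sq_nonneg _)

/-- A convergent sequence of reals is bounded above. -/
theorem exists_le_of_tendsto {s : ℕ → ℝ} {a : ℝ} (h : Tendsto s atTop (𝓝 a)) :
    ∃ C, ∀ j, s j ≤ C := by
  obtain ⟨C, hC⟩ := h.bddAbove_range
  exact ⟨C, fun j => hC ⟨j, rfl⟩⟩

/-- **Strong convergence to zero** from capture and tightness. -/
theorem cap_seq {X : Type*} {T : ℝ → X → Cfg N → F} (hcap : CapBall b M R G T)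
    (ht : Tight b M R G) {g : ℕ → ℝ} (hg : Tendsto g atTop atTop) {v : ℕ → core b R} {B : ℝ}
    (hv : ∀ j, ‖ιC R (v j)‖ ≤ B)
    (hQ : Tendsto (fun j => ‖QC R G (g j) 1 (v j)‖) atTop (𝓝 0))
    (hT : ∀ χ, Tendsto (fun j => ∫ x, ⟪T (g j) χ x, (v j).1 x⟫_ℂ) atTop (𝓝 0))
    (hZ : ∀ ψ ∈ zset b M R G 1 0,
      Tendsto (fun j => ∫ x, ⟪Us (g j ^ ((1 : ℝ) / 3)) ψ x, (v j).1 x⟫_ℂ) atTop (𝓝 0)) :
    Tendsto (fun j => ‖ιC R (v j)‖) atTop (𝓝 0) := by
  -- bounded energy
  obtain ⟨CQ, hCQ⟩ := exists_le_of_tendsto hQ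
  have hCQ0 : 0 ≤ CQ := (norm_nonneg _).trans (hCQ 0)
  have hB0 : 0 ≤ B := (norm_nonneg _).trans (hv 0)
  set E : ℝ := B ^ 2 + (1 / 16) * CQ ^ 2 with hE
  have hE0 : 0 ≤ E := by positivity
  have hen : ∀ j, En b M G (g j) 1 (v j).1 ≤ E := fun j => by
    rw [en_eq, hE]
    have h1 := pow_le_pow_left₀ (norm_nonneg _) (hv j) 2
    have h2 := pow_le_pow_left₀ (norm_nonneg _) (hCQ j) 2
    linarith
  have hball := hcap g (fun j => (v j).1) E hg (fun j => (v j).2) hen hT hZ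
  obtain ⟨C, g₀, ht⟩ := ht
  -- it suffices to treat the squares
  have key : Tendsto (fun j => ‖ιC R (v j)‖ ^ 2) atTop (𝓝 0) := by
    rw [Metric.tendsto_atTop]
    intro ε hε
    -- the radius
    set C' : ℝ := max C 0 * E + 1 with hC'
    have hC'0 : 0 < C' := by positivity
    set ρ : ℝ := Real.sqrt (2 * C' / ε) with hρ
    have hρ0 : 0 < ρ := Real.sqrt_pos.2 (by positivity)
    have hρ2 : ρ ^ 2 = 2 * C' / ε := Real.sq_sqrt (by positivity)
    have h1 := (hball ρ).eventually_lt_const (half_pos hε)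
    have h2 := hg.eventually_ge_atTop g₀
    obtain ⟨J, hJ⟩ := eventually_atTop.1 (h1.and h2)
    refine ⟨J, fun j hj => ?_⟩
    obtain ⟨h3, h4⟩ := hJ j hj
    rw [Real.dist_eq, sub_zero, abs_of_nonneg (sq_nonneg _), norm_ιC_sq]
    have hI : Integrable fun x : Cfg N => ‖(v j).1 x‖ ^ 2 :=
      (cv_memLp (v j).2).integrable_norm_pow (by norm_num)
    rw [← integral_add_compl (measurableSet_ball (x := (0 : Cfg N)) (ε := ρ)) hI]
    have h5 : ρ ^ 2 * ∫ x in (Metric.ball (0 : Cfg N) ρ)ᶜ, ‖(v j).1 x‖ ^ 2 < C' := by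
      refine (tail_le (v j).2 hρ0).trans_lt ?_
      refine (ht (g j) h4 _ (v j).2).trans_lt ?_
      have h6 : C * En b M G (g j) 1 (v j).1 ≤ max C 0 * E := by
        have h7 : 0 ≤ En b M G (g j) 1 (v j).1 := by
          rw [en_eq]
          positivity
        exact (mul_le_mul_of_nonneg_right (le_max_left C 0) h7).trans
          (mul_le_mul_of_nonneg_left (hen j) (le_max_right _ _))
      linarith
    have h6 : ∫ x in (Metric.ball (0 : Cfg N) ρ)ᶜ, ‖(v j).1 x‖ ^ 2 < ε / 2 := by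
      rw [hρ2] at h5
      have h7 : (2 * C' / ε) * ∫ x in (Metric.ball (0 : Cfg N) ρ)ᶜ, ‖(v j).1 x‖ ^ 2 < C' := h5
      have h8 : (0 : ℝ) < 2 * C' / ε := by positivity
      have h9 : C' = (2 * C' / ε) * (ε / 2) := by
        field_simp
      rw [h9] at h7
      exact lt_of_mul_lt_mul_left (by rw [← h9] at h7 ⊢; exact h7) h8.le
    linarith
  have h1 := key.sqrt
  rw [Real.sqrt_zero] at h1
  exact h1.congr fun j => Real.sqrt_sq (norm_nonneg _)

end Crest.Agent.R330.StrUp796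

end
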