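import Crest.Agent.R330.OffCm_302
import Crest.Agent.R330.SlP_314

/-!
# Row 330, S9-CAPBIND (helper737): the strata of the commuting variety

* `nv p` : the number of distinct joint eigenvalues of `diag(p)`.
* `Str b k` : commuting configurations with at most `k` distinct joint eigenvalues.
  `Str_zero`, `Str_one` (`= {0}`), `Str_top` (`Str b N = Cm b`), `isClosed_Str`, `act_mem_Str`.
* `ctrS b c` : the configurations commuting with the Lie algebra of the stabiliser of `c`
  (`R^9 ⊗ centre(k)`).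
* `near_stratum` : near `c ∈ Str b k \ Str b (k-1)` every point of `Str b k` is
  `act h (c + r)`, `r ∈ ctrS b c` small.
-/

set_option autoImplicit false
set_option linter.unusedSectionVars false

open Filter Topology Crest.MathPhysics.MatrixQM
open scoped InnerProductSpace

namespace Crest.Agent.R330.Strata737

open Crest.Agent.R330.CoerCfg87 Crest.Agent.R330.AcomV302 Crest.Agent.R330.OffCm302
open Crest.Agent.R330.SUgrp596

noncomputable section

variable {N : ℕ}

/-! ### the number of distinct values -/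

/-- the `a`-th joint eigenvalue -/
def pt (p : Fin 9 → Fin N → ℝ) (a : Fin N) : Fin 9 → ℝ := fun i => p i a

/-- number of distinct joint eigenvalues -/
def nv (p : Fin 9 → Fin N → ℝ) : ℕ := (Set.range (pt p)).ncard

theorem factor {p q : Fin 9 → Fin N → ℝ} (h : ∀ a a', pt p a = pt p a' → pt q a = pt q a') :
    ∃ f : (Fin 9 → ℝ) → (Fin 9 → ℝ), ∀ a, pt q a = f (pt p a) := by
  classical
  refine ⟨fun v => if hv : ∃ a, pt p a = v then pt q hv.choose else 0, fun a => ?_⟩
  have hv : ∃ a', pt p a' = pt p a := ⟨a, rfl⟩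
  beta_reduce
  rw [dif_pos hv]
  exact h _ _ hv.choose_spec.symm

theorem nv_mono {p q : Fin 9 → Fin N → ℝ} (h : ∀ a a', pt p a = pt p a' → pt q a = pt q a') :
    nv q ≤ nv p := by
  obtain ⟨f, hf⟩ := factor h
  have h1 : Set.range (pt q) = f '' Set.range (pt p) := by
    ext v
    constructor
    · rintro ⟨a, rfl⟩
      exact ⟨pt p a, ⟨a, rfl⟩, (hf a).symm⟩
    · rintro ⟨_, ⟨a, rfl⟩, rfl⟩
      exact ⟨a, hf a⟩
  unfold nv
  rw [h1]
  exact Set.ncard_image_le (Set.finite_range _)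

theorem ker_of_nv {p q : Fin 9 → Fin N → ℝ} (h : ∀ a a', pt p a = pt p a' → pt q a = pt q a')
    (hn : nv p ≤ nv q) : ∀ a a', pt q a = pt q a' → pt p a = pt p a' := by
  obtain ⟨f, hf⟩ := factor h
  have h1 : Set.range (pt q) = f '' Set.range (pt p) := by
    ext v
    constructor
    · rintro ⟨a, rfl⟩
      exact ⟨pt p a, ⟨a, rfl⟩, (hf a).symm⟩
    · rintro ⟨_, ⟨a, rfl⟩, rfl⟩
      exact ⟨a, hf a⟩
  have h2 : (f '' Set.range (pt p)).ncard = (Set.range (pt p)).ncard := by
    rw [← h1]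
    exact le_antisymm (nv_mono h) hn
  have h3 : Set.InjOn f (Set.range (pt p)) :=
    Set.injOn_of_ncard_image_eq h2 (Set.finite_range _)
  intro a a' haa
  refine h3 ⟨a, rfl⟩ ⟨a', rfl⟩ ?_
  rw [← hf, ← hf, haa]

theorem nv_le (p : Fin 9 → Fin N → ℝ) : nv p ≤ N := by
  unfold nv
  have h := Set.ncard_image_le (f := pt p) (s := Set.univ) Set.finite_univ
  rw [Set.image_univ, Set.ncard_univ, Nat.card_eq_fintype_card, Fintype.card_fin] at h
  exact h

theorem nv_pos (hN : 0 < N) (p : Fin 9 → Fin N → ℝ) : 0 < nv p := by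
  unfold nv
  rw [Set.ncard_pos (Set.finite_range _)]
  exact ⟨_, ⟨⟨0, hN⟩, rfl⟩⟩

theorem ev_ker {X : Type*} {l : Filter X} {P : X → (Fin 9 → Fin N → ℝ)} {p : Fin 9 → Fin N → ℝ}
    (h : Tendsto P l (𝓝 p)) :
    ∀ᶠ x in l, ∀ a a', pt (P x) a = pt (P x) a' → pt p a = pt p a' := by
  rw [eventually_all]
  intro a
  rw [eventually_all]
  intro a'
  by_cases hp : pt p a = pt p a'
  · exact Eventually.of_forall fun _ _ => hp
  · have hc : ∀ a, Continuous fun q : Fin 9 → Fin N → ℝ => pt q a := fun a =>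
      continuous_pi fun i => (continuous_apply a).comp (continuous_apply i)
    have h1 : Tendsto (fun x => pt (P x) a) l (𝓝 (pt p a)) := ((hc a).tendsto p).comp h
    have h2 : Tendsto (fun x => pt (P x) a') l (𝓝 (pt p a')) := ((hc a').tendsto p).comp h
    filter_upwards [(h1.sub h2).eventually_ne (sub_ne_zero.2 hp)] with x hx hx'
    exact absurd (sub_eq_zero.2 hx') hx

/-! ### the strata -/

variable (b : ColorBasis N)

/-- commuting configurations with at most `k` distinct joint eigenvalues -/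
def Str (k : ℕ) : Set (Cfg N) := {x | ∃ g : Matrix.specialUnitaryGroup (Fin N) ℂ,
  ∃ p : Fin 9 → Fin N → ℝ, (∀ i, ∑ a, p i a = 0) ∧ nv p ≤ k ∧ b.act g x = diagCfg b p}

theorem Str_mono {k l : ℕ} (h : k ≤ l) : Str b k ⊆ Str b l := by
  rintro x ⟨g, p, hp, hn, he⟩
  exact ⟨g, p, hp, hn.trans h, he⟩

theorem Str_zero (hN : 0 < N) : Str b 0 = ∅ := by
  rw [Set.eq_empty_iff_forall_notMem]
  rintro x ⟨g, p, -, hn, -⟩
  have := nv_pos hN p
  omega

theorem Str_top (hN : 0 < N) : Str b N = Cm b := by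
  ext x
  rw [mem_Cm_iff hN]
  constructor
  · rintro ⟨g, p, hp, -, he⟩
    exact ⟨g, p, hp, he⟩
  · rintro ⟨g, p, hp, he⟩
    exact ⟨g, p, hp, nv_le p, he⟩

theorem act_mem_Str {k : ℕ} {x : Cfg N} (hx : x ∈ Str b k)
    (h : Matrix.specialUnitaryGroup (Fin N) ℂ) : b.act h x ∈ Str b k := by
  obtain ⟨g, p, hp, hn, he⟩ := hx
  refine ⟨g * h⁻¹, p, hp, hn, ?_⟩
  rw [Col962.act_mul, comp_act_inv, he]

/-- the diagonal entries of a configuration -/
def dv (x : Cfg N) : Fin 9 → Fin N → ℝ := fun i a => (cmat b (CoerCfg87.comp x i) a a).re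

theorem dv_diagCfg {p : Fin 9 → Fin N → ℝ} (hp : ∀ i, ∑ a, p i a = 0) :
    dv b (diagCfg b p) = p := by
  funext i a
  unfold dv
  rw [cmat_diagCfg b p hp, Matrix.diagonal_apply_eq, Complex.ofReal_re]

theorem sum_dv (x : Cfg N) (i : Fin 9) : ∑ a, dv b x i a = 0 := by
  unfold dv
  rw [← Complex.re_sum]
  have h := cmat_trace b (CoerCfg87.comp x i)
  rw [Matrix.trace] at h
  change (∑ a, (cmat b (CoerCfg87.comp x i)).diag a).re = 0
  rw [h, Complex.zero_re]

theorem continuous_cmat_entry (i : Fin 9) (a a' : Fin N) :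
    Continuous fun x : Cfg N => cmat b (CoerCfg87.comp x i) a a' := by
  unfold cmat CoerCfg87.comp
  simp only [Matrix.sum_apply, Matrix.smul_apply, smul_eq_mul]
  fun_prop

theorem continuous_dv : Continuous (dv b) := by
  refine continuous_pi fun i => continuous_pi fun a => ?_
  exact Complex.continuous_re.comp (continuous_cmat_entry b i a a)

theorem continuous_diagCfg : Continuous (diagCfg b) := by
  unfold diagCfg ofMat
  refine (PiLp.continuous_toLp 2 _).comp (continuous_pi fun iA => ?_)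
  refine Complex.continuous_re.comp ?_
  refine Continuous.matrix_trace ?_
  refine continuous_const.matrix_mul ?_
  refine Continuous.matrix_diagonal ?_
  refine continuous_pi fun a => ?_
  exact Complex.continuous_ofReal.comp ((continuous_apply a).comp (continuous_apply iA.1))

theorem tendsto_act {X : Type*} {l : Filter X} {G : X → Matrix.specialUnitaryGroup (Fin N) ℂ}
    {f : X → Cfg N} {g : Matrix.specialUnitaryGroup (Fin N) ℂ} {c : Cfg N}
    (hG : Tendsto G l (𝓝 g)) (hf : Tendsto f l (𝓝 c)) :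
    Tendsto (fun x => b.act (G x) (f x)) l (𝓝 (b.act g c)) := by
  have h := (SlD314.continuous_act b).tendsto (g, c)
  have h2 : Tendsto (fun x => (G x, f x)) l (𝓝 (g, c)) := hG.prodMk_nhds hf
  have h3 := Tendsto.comp (g := fun p : Matrix.specialUnitaryGroup (Fin N) ℂ × Cfg N =>
    b.act p.1 p.2) h h2
  exact h3

theorem exists_lim {X : Type*} (u : Ultrafilter X)
    (G : X → Matrix.specialUnitaryGroup (Fin N) ℂ) :
    ∃ g : Matrix.specialUnitaryGroup (Fin N) ℂ, Tendsto G u (𝓝 g) := by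
  have hcomp : IsCompact (Set.univ : Set (Matrix.specialUnitaryGroup (Fin N) ℂ)) := isCompact_univ
  obtain ⟨g, -, hg⟩ := hcomp.ultrafilter_le_nhds (u.map G) (by simp)
  exact ⟨g, hg⟩

theorem tendsto_dv {X : Type*} {l : Filter X} {f : X → Cfg N} {c : Cfg N}
    (hf : Tendsto f l (𝓝 c)) : Tendsto (fun x => dv b (f x)) l (𝓝 (dv b c)) := by
  have h := Tendsto.comp (g := fun y => dv b y) ((continuous_dv b).tendsto c) hf
  exact h

theorem tendsto_diagCfg {X : Type*} {l : Filter X} {P : X → (Fin 9 → Fin N → ℝ)}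
    {p : Fin 9 → Fin N → ℝ} (hf : Tendsto P l (𝓝 p)) :
    Tendsto (fun x => diagCfg b (P x)) l (𝓝 (diagCfg b p)) := by
  have h := Tendsto.comp (g := fun y => diagCfg b y) ((continuous_diagCfg b).tendsto p) hf
  exact h

/-- **Structure of limits** in a stratum. -/
theorem limit_struct {k : ℕ} {c : Cfg N} (u : Ultrafilter (Cfg N)) (hu : (u : Filter (Cfg N)) ≤ 𝓝 c)
    (hs : Str b k ∈ u) :
    ∃ (G : Cfg N → Matrix.specialUnitaryGroup (Fin N) ℂ) (P : Cfg N → (Fin 9 → Fin N → ℝ))
      (g : Matrix.specialUnitaryGroup (Fin N) ℂ) (p : Fin 9 → Fin N → ℝ),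
      (∀ᶠ x in (u : Filter (Cfg N)), (∀ i, ∑ a, P x i a = 0) ∧ nv (P x) ≤ k ∧
        b.act (G x) x = diagCfg b (P x)) ∧
      Tendsto G u (𝓝 g) ∧ Tendsto P u (𝓝 p) ∧ (∀ i, ∑ a, p i a = 0) ∧
      b.act g c = diagCfg b p ∧
      ∀ᶠ x in (u : Filter (Cfg N)), ∀ a a', pt (P x) a = pt (P x) a' → pt p a = pt p a' := by
  classical
  have hch : ∀ x ∈ Str b k, ∃ g : Matrix.specialUnitaryGroup (Fin N) ℂ,
      ∃ p : Fin 9 → Fin N → ℝ, (∀ i, ∑ a, p i a = 0) ∧ nv p ≤ k ∧ b.act g x = diagCfg b p :=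
    fun x hx => hx
  choose! G P hP using hch
  obtain ⟨g, hG⟩ := exists_lim u G
  have hid : Tendsto (fun x : Cfg N => x) u (𝓝 c) := hu
  have hact : Tendsto (fun x => b.act (G x) x) u (𝓝 (b.act g c)) := tendsto_act b hG hid
  have hev : ∀ᶠ x in (u : Filter (Cfg N)), (∀ i, ∑ a, P x i a = 0) ∧ nv (P x) ≤ k ∧
        b.act (G x) x = diagCfg b (P x) := by
    filter_upwards [hs] with x hx
    exact hP x hx
  have hPd : ∀ᶠ x in (u : Filter (Cfg N)), dv b (b.act (G x) x) = P x := by
    filter_upwards [hev] with x hx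
    rw [hx.2.2, dv_diagCfg b hx.1]
  have hPt : Tendsto P u (𝓝 (dv b (b.act g c))) := (tendsto_dv b hact).congr' hPd
  have h1 : Tendsto (fun x => diagCfg b (P x)) u (𝓝 (diagCfg b (dv b (b.act g c)))) :=
    tendsto_diagCfg b hPt
  have h2 : Tendsto (fun x => diagCfg b (P x)) u (𝓝 (b.act g c)) := by
    refine hact.congr' ?_
    filter_upwards [hev] with x hx
    exact hx.2.2
  exact ⟨G, P, g, dv b (b.act g c), hev, hG, hPt, sum_dv b _, tendsto_nhds_unique h2 h1,
    ev_ker hPt⟩

theorem isClosed_Str (k : ℕ) : IsClosed (Str b k) := by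
  rw [isClosed_iff_ultrafilter]
  intro c u hu hs
  obtain ⟨G, P, g, p, hev, hG, hPt, hp, he, hk⟩ := limit_struct b u hu hs
  refine ⟨g, p, hp, ?_, he⟩
  obtain ⟨x, hx1, hx2⟩ := (hev.and hk).exists
  exact (nv_mono hx2).trans hx1.2.1

theorem Str_one (hN : 0 < N) : Str b 1 = {0} := by
  ext x
  rw [Set.mem_singleton_iff]
  constructor
  · rintro ⟨g, p, hp, hn, he⟩
    have hconst : ∀ a a', pt p a = pt p a' := by
      intro a a'
      have h1 : nv p = 1 := le_antisymm hn (nv_pos hN p)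
      unfold nv at h1
      rw [Set.ncard_eq_one] at h1
      obtain ⟨v, hv⟩ := h1
      have ha : pt p a ∈ ({v} : Set _) := hv ▸ ⟨a, rfl⟩
      have ha' : pt p a' ∈ ({v} : Set _) := hv ▸ ⟨a', rfl⟩
      rw [Set.mem_singleton_iff] at ha ha'
      rw [ha, ha']
    have hp0 : p = 0 := by
      funext i a
      have h1 : ∑ a', p i a' = N * p i a := by
        have e : ∀ a', p i a' = p i a := fun a' => congrFun (hconst a' a) i
        rw [Finset.sum_congr rfl fun a' _ => e a']
        simp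
      rw [hp] at h1
      have h2 : (N : ℝ) ≠ 0 := by exact_mod_cast hN.ne'
      exact (mul_eq_zero.1 h1.symm).resolve_left h2
    have h0 : diagCfg b (0 : Fin 9 → Fin N → ℝ) = 0 := by
      ext iA
      change (b.T iA.2 * Matrix.diagonal fun a => ((0 : ℝ) : ℂ)).trace.re = 0
      simp
    rw [hp0, h0] at he
    have h1 := congrArg (b.act g⁻¹) he
    rw [comp_act_inv] at h1
    rw [h1, ← norm_eq_zero, Col962.norm_act, norm_zero]
  · rintro rfl
    refine ⟨1, 0, by simp, ?_, ?_⟩
    · unfold nv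
      have : Set.range (pt (0 : Fin 9 → Fin N → ℝ)) ⊆ {0} := by
        rintro _ ⟨a, rfl⟩
        rfl
      exact (Set.ncard_le_ncard this (Set.finite_singleton _)).trans (by simp)
    · rw [Col962.act_one]
      ext iA
      change (0 : ℝ) = (b.T iA.2 * Matrix.diagonal fun a => ((0 : ℝ) : ℂ)).trace.re
      simp

theorem smul_mem_Str {k : ℕ} {x : Cfg N} (hx : x ∈ Str b k) (t : ℝ) : t • x ∈ Str b k := by
  obtain ⟨g, p, hp, hn, he⟩ := hx
  have hts : ∀ i, ∑ a, (t • p) i a = 0 := fun i => by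
    simp only [Pi.smul_apply, smul_eq_mul]
    rw [← Finset.mul_sum, hp, mul_zero]
  refine ⟨g, t • p, hts, ?_, ?_⟩
  · refine le_trans (nv_mono fun a a' h => ?_) hn
    funext i
    have := congrFun h i
    simp only [pt, Pi.smul_apply, smul_eq_mul] at this ⊢
    rw [this]
  · rw [Col962.act_smul, he]
    ext iA
    change t * (b.T iA.2 * Matrix.diagonal fun a => (p iA.1 a : ℂ)).trace.re =
      (b.T iA.2 * Matrix.diagonal fun a => ((t * p iA.1 a : ℝ) : ℂ)).trace.re
    have : (Matrix.diagonal fun a => ((t * p iA.1 a : ℝ) : ℂ)) =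
        (t : ℂ) • Matrix.diagonal fun a => (p iA.1 a : ℂ) := by
      rw [← Matrix.diagonal_smul]
      congr 1
      funext a
      simp
    rw [this, Matrix.mul_smul, Matrix.trace_smul, smul_eq_mul, Complex.re_ofReal_mul]

end

end Crest.Agent.R330.Strata737
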