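import Mathlib

/-!
# Row 330, section 5: algebra of the vacua (helper303), part a

Finite dimensional unitary representations of `su(2)`: a symmetric operator `H`, an adjoint pair
`P, M` with `[H,P] = P`, `[H,M] = -M`, `[P,M] = 2H`.  Every such triple has an orthonormal basis
indexed by `Σ i, Fin (m i)` in which it is the direct sum of the standard spin matrices.
-/

set_option autoImplicit false

open scoped InnerProductSpace

namespace Crest.Agent.R330.Su2a303

variable {E : Type*} [NormedAddCommGroup E] [InnerProductSpace ℂ E]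

/-- a unitary `su(2)` triple in raising/lowering form -/
structure Trip (E : Type*) [NormedAddCommGroup E] [InnerProductSpace ℂ E] where
  H : E →ₗ[ℂ] E
  P : E →ₗ[ℂ] E
  M : E →ₗ[ℂ] E
  symH : H.IsSymmetric
  adj : ∀ x y, ⟪M x, y⟫_ℂ = ⟪x, P y⟫_ℂ
  HP : ∀ x, H (P x) = P (H x) + P x
  HM : ∀ x, H (M x) = M (H x) - M x
  PM : ∀ x, P (M x) = M (P x) + (2 : ℂ) • H x

namespace Trip

variable (T : Trip E)

theorem adj' (x y : E) : ⟪T.P x, y⟫_ℂ = ⟪x, T.M y⟫_ℂ := by
  rw [← inner_conj_symm, ← T.adj, inner_conj_symm]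

/-- lowering string -/
def str (w : E) (k : ℕ) : E := (T.M ^ k) w

@[simp] theorem str_zero (w : E) : T.str w 0 = w := rfl

theorem str_succ (w : E) (k : ℕ) : T.str w (k + 1) = T.M (T.str w k) := by
  simp only [str]
  rw [pow_succ']
  rfl

theorem H_str {w : E} {l : ℂ} (hH : T.H w = l • w) (k : ℕ) :
    T.H (T.str w k) = (l - k) • T.str w k := by
  induction k with
  | zero => simp [hH]
  | succ k ih =>
    have e : T.M (T.str w k) = (1 : ℂ) • T.M (T.str w k) := (one_smul _ _).symm
    rw [str_succ, T.HM, ih, map_smul]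
    nth_rewrite 2 [e]
    rw [← sub_smul]
    congr 1
    push_cast
    ring

theorem P_str {w : E} {l : ℂ} (hP : T.P w = 0) (hH : T.H w = l • w) (k : ℕ) :
    T.P (T.str w (k + 1)) = (((k : ℂ) + 1) * (2 * l - k)) • T.str w k := by
  induction k with
  | zero =>
    rw [str_succ, T.PM]
    simp only [str_zero, hP, map_zero, zero_add, hH, smul_smul]
    push_cast
    ring_nf
  | succ k ih =>
    rw [str_succ, T.PM, ih, map_smul, ← str_succ, T.H_str hH, smul_smul, ← add_smul]
    congr 1
    push_cast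
    ring

theorem inner_str {w w' : E} {l' : ℂ} (hP : T.P w = 0) (hP' : T.P w' = 0)
    (hH' : T.H w' = l' • w') :
    ∀ k k' : ℕ, ⟪T.str w k, T.str w' k'⟫_ℂ =
      if k = k' then (∏ j ∈ Finset.range k, (((j : ℂ) + 1) * (2 * l' - j))) * ⟪w, w'⟫_ℂ else 0 := by
  intro k
  induction k with
  | zero =>
    intro k'
    cases k' with
    | zero => simp
    | succ k' =>
      rw [str_succ, ← T.adj']
      simp [hP]
  | succ k ih =>
    intro k'
    cases k' with
    | zero =>
      rw [str_succ, T.adj]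
      simp [hP']
    | succ k' =>
      rw [str_succ, T.adj, T.P_str hP' hH', inner_smul_right, ih k']
      by_cases h : k = k'
      · subst h
        simp only [if_true]
        rw [Finset.prod_range_succ]
        ring
      · rw [if_neg h, if_neg (by omega)]
        simp

section fin

variable [FiniteDimensional ℂ E]

/-- the string of a nonzero highest weight vector terminates -/
theorem exists_str_eq_zero {w : E} {l : ℂ} (hP : T.P w = 0) (hH : T.H w = l • w) :
    ∃ k, T.str w k = 0 := by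
  by_contra hcon
  push Not at hcon
  have horth : Pairwise fun i j => ⟪T.str w i, T.str w j⟫_ℂ = 0 := by
    intro i j hij
    rw [T.inner_str hP hP hH, if_neg hij]
  have hli : LinearIndependent ℂ (fun k : ℕ => T.str w k) :=
    linearIndependent_of_ne_zero_of_inner_eq_zero hcon horth
  exact Infinite.not_finite hli.finite

/-- the highest weight of a nonzero highest weight vector is a half integer -/
theorem exists_weight {w : E} {l : ℂ} (hw : w ≠ 0) (hP : T.P w = 0) (hH : T.H w = l • w) :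
    ∃ m : ℕ, 0 < m ∧ 2 * l = (m : ℂ) - 1 ∧ T.str w m = 0 ∧ ∀ k < m, T.str w k ≠ 0 := by
  classical
  obtain ⟨m, hm, hmin⟩ := Nat.findX (T.exists_str_eq_zero hP hH)
  have hpos : 0 < m := by
    rcases Nat.eq_zero_or_pos m with h | h
    · subst h
      exact absurd hm hw
    · exact h
  obtain ⟨k, rfl⟩ : ∃ k, m = k + 1 := ⟨m - 1, by omega⟩
  have hk : T.str w k ≠ 0 := hmin k (by omega)
  have h0 := T.P_str hP hH k
  rw [hm, map_zero] at h0
  have h1 : ((k : ℂ) + 1) * (2 * l - k) = 0 := by
    rcases smul_eq_zero.1 h0.symm with h | h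
    · exact h
    · exact absurd h hk
  have h2 : ((k : ℂ) + 1) ≠ 0 := by exact_mod_cast Nat.succ_ne_zero k
  have h3 : 2 * l - k = 0 := (mul_eq_zero.1 h1).resolve_left h2
  refine ⟨k + 1, hpos, ?_, hm, fun j hj => hmin j hj⟩
  push_cast
  linear_combination h3

end fin

/-- norm square factor of the `k`-th vector in the string of dimension `m` -/
noncomputable def nf (m k : ℕ) : ℝ := ∏ j ∈ Finset.range k, (((j : ℝ) + 1) * ((m : ℝ) - 1 - j))

theorem nf_pos {m k : ℕ} (h : k < m) : 0 < nf m k := by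
  unfold nf
  refine Finset.prod_pos fun j hj => ?_
  have hj' : j < k := Finset.mem_range.1 hj
  have h1 : (j : ℝ) + 1 < (m : ℝ) := by exact_mod_cast (by omega : j + 1 < m)
  have h2 : (0 : ℝ) ≤ j := Nat.cast_nonneg j
  nlinarith

theorem nf_succ (m k : ℕ) : nf m (k + 1) = nf m k * (((k : ℝ) + 1) * ((m : ℝ) - 1 - k)) := by
  unfold nf
  rw [Finset.prod_range_succ]

theorem nf_zero (m : ℕ) : nf m 0 = 1 := by simp [nf]

/-- standard form of a triple in an orthonormal basis indexed by `Σ i, Fin (m i)` -/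
structure IsStd {ι : Type*} [Fintype ι] (T : Trip E) (m : ι → ℕ)
    (e : OrthonormalBasis (Σ i : ι, Fin (m i)) ℂ E) : Prop where
  H_apply : ∀ (i : ι) (k : Fin (m i)),
    T.H (e ⟨i, k⟩) = (((((m i : ℝ) - 1) / 2 - (k : ℕ) : ℝ)) : ℂ) • e ⟨i, k⟩
  M_apply : ∀ (i : ι) (k : Fin (m i)) (h : (k : ℕ) + 1 < m i),
    T.M (e ⟨i, k⟩) = ((Real.sqrt ((((k : ℕ) : ℝ) + 1) * ((m i : ℝ) - 1 - (k : ℕ))) : ℝ) : ℂ) •
      e ⟨i, ⟨(k : ℕ) + 1, h⟩⟩
  M_last : ∀ (i : ι) (k : Fin (m i)), (k : ℕ) + 1 = m i → T.M (e ⟨i, k⟩) = 0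

theorem exists_isStd [FiniteDimensional ℂ E] (T : Trip E) :
    ∃ (d : ℕ) (m : Fin d → ℕ), (∀ i, 0 < m i) ∧
      ∃ e : OrthonormalBasis (Σ i : Fin d, Fin (m i)) ℂ E, IsStd T m e := by
  classical
  -- highest weight space
  set K : Submodule ℂ E := LinearMap.ker T.P with hKdef
  have hK : ∀ x ∈ K, T.H x ∈ K := by
    intro x hx
    rw [hKdef, LinearMap.mem_ker] at hx ⊢
    have h := T.HP x
    rw [hx, map_zero, add_zero] at h
    exact h.symm
  have hsymK : (T.H.restrict hK).IsSymmetric := T.symH.restrict_invariant hK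
  set b := hsymK.eigenvectorBasis (n := Module.finrank ℂ K) rfl with hb
  set ev := hsymK.eigenvalues (n := Module.finrank ℂ K) rfl with hev
  set w : Fin (Module.finrank ℂ K) → E := fun i => (b i : E) with hwdef
  have hPw : ∀ i, T.P (w i) = 0 := fun i => LinearMap.mem_ker.1 (b i).2
  have hHw : ∀ i, T.H (w i) = (ev i : ℂ) • w i := by
    intro i
    have h := hsymK.apply_eigenvectorBasis (n := Module.finrank ℂ K) rfl i
    exact congrArg (Subtype.val) h
  have hww : ∀ i j, ⟪w i, w j⟫_ℂ = if i = j then 1 else 0 := by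
    intro i j
    have h := orthonormal_iff_ite.1 b.orthonormal i j
    simpa using h
  have hw0 : ∀ i, w i ≠ 0 := by
    intro i h
    have := hww i i
    rw [h] at this
    simp at this
  choose m hm0 hm1 hm2 hm3 using fun i => T.exists_weight (hw0 i) (hPw i) (hHw i)
  have hprod : ∀ (i : Fin (Module.finrank ℂ K)) (k : ℕ),
      (∏ j ∈ Finset.range k, (((j : ℂ) + 1) * (2 * (ev i : ℂ) - j))) = ((nf (m i) k : ℝ) : ℂ) := by
    intro i k
    unfold nf
    rw [Complex.ofReal_prod]
    refine Finset.prod_congr rfl fun j _ => ?_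
    rw [hm1 i]
    push_cast
    ring
  set e' : (Σ i : Fin (Module.finrank ℂ K), Fin (m i)) → E :=
    fun p => (((Real.sqrt (nf (m p.1) p.2))⁻¹ : ℝ) : ℂ) • T.str (w p.1) p.2 with he'
  have hon : Orthonormal ℂ e' := by
    rw [orthonormal_iff_ite]
    rintro ⟨i, k⟩ ⟨j, l⟩
    simp only [he', inner_smul_left, inner_smul_right, Complex.conj_ofReal]
    rw [T.inner_str (hPw i) (hPw j) (hHw j), hprod j, hww i j]
    by_cases hij : i = j
    · subst hij
      by_cases hkl : k = l
      · subst hkl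
        have hp := nf_pos k.2
        have hs : Real.sqrt (nf (m i) k) ≠ 0 := (Real.sqrt_pos.2 hp).ne'
        simp only [if_true, mul_one]
        rw [← Complex.ofReal_mul, ← Complex.ofReal_mul]
        have : (Real.sqrt (nf (m i) k))⁻¹ * ((Real.sqrt (nf (m i) k))⁻¹ * nf (m i) k) = 1 := by
          nth_rewrite 3 [← Real.mul_self_sqrt hp.le]
          field_simp
        rw [this]
        simp
      · have hkl' : (k : ℕ) ≠ l := fun h => hkl (Fin.ext h)
        have hne : (⟨i, k⟩ : Σ i : Fin (Module.finrank ℂ K), Fin (m i)) ≠ ⟨i, l⟩ := by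
          intro h
          exact hkl (by simpa using h)
        rw [if_neg hkl', if_neg hne]
        simp
    · have hne : (⟨i, k⟩ : Σ i : Fin (Module.finrank ℂ K), Fin (m i)) ≠ ⟨j, l⟩ := by
        intro h
        exact hij (congrArg Sigma.fst h)
      rw [if_neg hij, if_neg hne]
      simp
  -- action of the operators on the vectors
  have hHe : ∀ p, T.H (e' p) = (((((m p.1 : ℝ) - 1) / 2 - (p.2 : ℕ) : ℝ)) : ℂ) • e' p := by
    rintro ⟨i, k⟩
    simp only [he', map_smul]
    rw [T.H_str (hHw i), smul_comm]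
    congr 2
    have h := hm1 i
    have h2 : (ev i : ℂ) = ((m i : ℂ) - 1) / 2 := by
      rw [← h]; ring
    rw [h2]
    push_cast
    ring
  have hMe : ∀ (i : Fin (Module.finrank ℂ K)) (k : Fin (m i)) (h : (k : ℕ) + 1 < m i),
      T.M (e' ⟨i, k⟩) = ((Real.sqrt ((((k : ℕ) : ℝ) + 1) * ((m i : ℝ) - 1 - (k : ℕ))) : ℝ) : ℂ) •
      e' ⟨i, ⟨(k : ℕ) + 1, h⟩⟩ := by
    intro i k h
    simp only [he', map_smul]
    rw [← str_succ, smul_smul]
    congr 1
    rw [← Complex.ofReal_mul]
    congr 1
    have hp := nf_pos k.2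
    have hp' := nf_pos h
    have hs : Real.sqrt (nf (m i) k) ≠ 0 := (Real.sqrt_pos.2 hp).ne'
    have hs' : Real.sqrt (nf (m i) (k + 1)) ≠ 0 := (Real.sqrt_pos.2 hp').ne'
    rw [nf_succ, Real.sqrt_mul hp.le]
    rw [nf_succ, Real.sqrt_mul hp.le] at hs'
    have hs2 := right_ne_zero_of_mul hs'
    field_simp
  have hMe0 : ∀ (i : Fin (Module.finrank ℂ K)) (k : Fin (m i)), (k : ℕ) + 1 = m i →
      T.M (e' ⟨i, k⟩) = 0 := by
    intro i k h
    simp only [he', map_smul]
    rw [← str_succ, h, hm2 i, smul_zero]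
  set W : Submodule ℂ E := Submodule.span ℂ (Set.range e') with hW
  have hMW : ∀ x ∈ W, T.M x ∈ W := by
    intro x hx
    induction hx using Submodule.span_induction with
    | mem x hx =>
      obtain ⟨⟨i, k⟩, rfl⟩ := hx
      by_cases h : (k : ℕ) + 1 < m i
      · rw [hMe i k h]
        exact W.smul_mem _ (Submodule.subset_span ⟨_, rfl⟩)
      · rw [hMe0 i k (by omega)]
        exact W.zero_mem
    | zero => rw [map_zero]; exact W.zero_mem
    | add x y _ _ hx hy => rw [map_add]; exact W.add_mem hx hy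
    | smul c x _ hx => rw [map_smul]; exact W.smul_mem _ hx
  have hHW : ∀ x ∈ W, T.H x ∈ W := by
    intro x hx
    induction hx using Submodule.span_induction with
    | mem x hx =>
      obtain ⟨p, rfl⟩ := hx
      rw [hHe p]
      exact W.smul_mem _ (Submodule.subset_span ⟨_, rfl⟩)
    | zero => rw [map_zero]; exact W.zero_mem
    | add x y _ _ hx hy => rw [map_add]; exact W.add_mem hx hy
    | smul c x _ hx => rw [map_smul]; exact W.smul_mem _ hx
  have hPV : ∀ x ∈ Wᗮ, T.P x ∈ Wᗮ := by
    intro x hx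
    rw [Submodule.mem_orthogonal] at hx ⊢
    intro y hy
    rw [← T.adj]
    exact hx _ (hMW y hy)
  have hHV : ∀ x ∈ Wᗮ, T.H x ∈ Wᗮ := by
    intro x hx
    rw [Submodule.mem_orthogonal] at hx ⊢
    intro y hy
    rw [← T.symH]
    exact hx _ (hHW y hy)
  have hKW : K ≤ W := by
    intro x hx
    have h1 : (⟨x, hx⟩ : K) ∈ Submodule.span ℂ (Set.range b) := by
      rw [← OrthonormalBasis.coe_toBasis, b.toBasis.span_eq]
      exact Submodule.mem_top
    have h2 : x ∈ Submodule.map K.subtype (Submodule.span ℂ (Set.range b)) :=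
      ⟨⟨x, hx⟩, h1, rfl⟩
    rw [Submodule.map_span] at h2
    refine Submodule.span_le.2 ?_ h2
    rintro _ ⟨_, ⟨i, rfl⟩, rfl⟩
    have h3 : e' ⟨i, ⟨0, hm0 i⟩⟩ = w i := by
      simp [he', nf_zero]
    change w i ∈ W
    rw [← h3]
    exact Submodule.subset_span ⟨_, rfl⟩
  have hbot : Wᗮ = ⊥ := by
    by_contra hne
    have hfin : 0 < Module.finrank ℂ (Wᗮ : Submodule ℂ E) := by
      rw [Nat.pos_iff_ne_zero]
      intro h
      exact hne (Submodule.finrank_eq_zero.1 h)
    have hsymV : (T.H.restrict hHV).IsSymmetric := T.symH.restrict_invariant hHV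
    set z : Fin (Module.finrank ℂ (Wᗮ : Submodule ℂ E)) := ⟨0, hfin⟩ with hz
    set v := hsymV.eigenvectorBasis (n := Module.finrank ℂ (Wᗮ : Submodule ℂ E)) rfl z with hv
    have hvH : T.H (v : E) =
        ((hsymV.eigenvalues (n := Module.finrank ℂ (Wᗮ : Submodule ℂ E)) rfl z : ℝ) : ℂ) •
          (v : E) := by
      have h := hsymV.apply_eigenvectorBasis
        (n := Module.finrank ℂ (Wᗮ : Submodule ℂ E)) rfl z
      exact congrArg (Subtype.val) h
    have hv1 : (v : E) ≠ 0 := by
      intro h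
      have h1 : ‖v‖ = 1 := (hsymV.eigenvectorBasis
        (n := Module.finrank ℂ (Wᗮ : Submodule ℂ E)) rfl).orthonormal.1 z
      have h2 : v = 0 := Subtype.ext h
      have h3 : ‖v‖ = 0 := norm_eq_zero.2 h2
      exact zero_ne_one (h3.symm.trans h1)
    have hPv : T.P (v : E) = 0 := by
      by_contra hPv
      have hmem : T.P (v : E) ∈ Wᗮ := hPV _ v.2
      have heig : Module.End.HasEigenvalue (T.H.restrict hHV)
          (((hsymV.eigenvalues (n := Module.finrank ℂ (Wᗮ : Submodule ℂ E)) rfl z : ℝ) : ℂ) + 1) := by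
        refine Module.End.hasEigenvalue_of_hasEigenvector (x := ⟨T.P (v : E), hmem⟩) ?_
        rw [Module.End.hasEigenvector_iff]
        constructor
        · rw [Module.End.mem_eigenspace_iff]
          apply Subtype.ext
          change T.H (T.P (v : E)) = (_ : ℂ) • T.P (v : E)
          rw [T.HP, hvH, map_smul, add_smul, one_smul]
        · intro h
          exact hPv (congrArg Subtype.val h)
      obtain ⟨j, hj⟩ := hsymV.exists_eigenvalues_eq
        (n := Module.finrank ℂ (Wᗮ : Submodule ℂ E)) rfl heig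
      have hle := hsymV.eigenvalues_antitone
        (n := Module.finrank ℂ (Wᗮ : Submodule ℂ E)) rfl (show z ≤ j from Nat.zero_le _)
      have hj' : (hsymV.eigenvalues (n := Module.finrank ℂ (Wᗮ : Submodule ℂ E)) rfl j : ℝ) =
          hsymV.eigenvalues (n := Module.finrank ℂ (Wᗮ : Submodule ℂ E)) rfl z + 1 := by
        have := congrArg Complex.re hj
        simpa using this
      linarith
    have hvW : (v : E) ∈ W := hKW (LinearMap.mem_ker.2 hPv)
    have h0 := (Submodule.mem_orthogonal W (v : E)).1 v.2 _ hvW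
    exact hv1 (inner_self_eq_zero.1 h0)
  have htop : ⊤ ≤ Submodule.span ℂ (Set.range e') := by
    rw [← hW, top_le_iff]
    exact (Submodule.orthogonal_eq_bot_iff).1 hbot
  refine ⟨_, m, hm0, OrthonormalBasis.mk hon htop, ?_⟩
  constructor
  · intro i k
    simp only [OrthonormalBasis.coe_mk]
    exact hHe ⟨i, k⟩
  · intro i k h
    simp only [OrthonormalBasis.coe_mk]
    exact hMe i k h
  · intro i k h
    simp only [OrthonormalBasis.coe_mk]
    exact hMe0 i k h

end Trip

end Crest.Agent.R330.Su2a303
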