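import Crest.Agent.R330.Su2a_303

/-!
# Row 330, section 5: algebra of the vacua (helper303), part b

Multiplicities `mult n` of a unitary `su(2)` triple, and: two triples are unitarily equivalent iff
they have the same multiplicities.
-/

set_option autoImplicit false

open scoped InnerProductSpace

namespace Crest.Agent.R330.Su2a303

variable {E : Type*} [NormedAddCommGroup E] [InnerProductSpace ℂ E]
  {E' : Type*} [NormedAddCommGroup E'] [InnerProductSpace ℂ E']

/-- two families with the same fibre cardinalities differ by a bijection -/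
theorem exists_equiv_of_fiber_card {ι κ α : Type*} [Fintype ι] [Fintype κ] [DecidableEq α]
    (f : ι → α) (g : κ → α)
    (h : ∀ a, Fintype.card {i // f i = a} = Fintype.card {k // g k = a}) :
    ∃ e : ι ≃ κ, ∀ i, g (e i) = f i := by
  classical
  let τ : (Σ a, {i // f i = a}) ≃ (Σ a, {k // g k = a}) :=
    Equiv.sigmaCongrRight fun a => Fintype.equivOfCardEq (h a)
  refine ⟨((Equiv.sigmaFiberEquiv f).symm.trans τ).trans (Equiv.sigmaFiberEquiv g), fun i => ?_⟩
  have h1 : (Equiv.sigmaFiberEquiv f).symm i = ⟨f i, ⟨i, rfl⟩⟩ := rfl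
  simp only [Equiv.trans_apply, h1]
  have h2 : τ ⟨f i, ⟨i, rfl⟩⟩ = ⟨f i, (Fintype.equivOfCardEq (h (f i))) ⟨i, rfl⟩⟩ := rfl
  rw [h2]
  exact ((Fintype.equivOfCardEq (h (f i))) ⟨i, rfl⟩).2

namespace Trip

/-- the space of highest weight vectors of the spin `(n-1)/2` -/
noncomputable def hw (T : Trip E) (n : ℕ) : Submodule ℂ E :=
  LinearMap.ker T.P ⊓ LinearMap.ker (T.H - ((((n : ℝ) - 1) / 2 : ℝ) : ℂ) • LinearMap.id)

theorem mem_hw {T : Trip E} {n : ℕ} {x : E} :
    x ∈ T.hw n ↔ T.P x = 0 ∧ T.H x = ((((n : ℝ) - 1) / 2 : ℝ) : ℂ) • x := by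
  simp only [hw, Submodule.mem_inf, LinearMap.mem_ker, LinearMap.sub_apply, LinearMap.smul_apply,
    LinearMap.id_apply, sub_eq_zero]

/-- multiplicity of the `n`-dimensional irreducible representation -/
noncomputable def mult (T : Trip E) (n : ℕ) : ℕ := Module.finrank ℂ (T.hw n)

section std

variable {ι : Type*} [Fintype ι] {T : Trip E} {m : ι → ℕ}
  {e : OrthonormalBasis (Σ i : ι, Fin (m i)) ℂ E}

omit [Fintype ι] in
theorem IsStd.sqrt_ne {i : ι} {k : Fin (m i)} (h : (k : ℕ) + 1 < m i) :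
    ((Real.sqrt ((((k : ℕ) : ℝ) + 1) * ((m i : ℝ) - 1 - (k : ℕ))) : ℝ) : ℂ) ≠ 0 := by
  have h1 : ((k : ℕ) : ℝ) + 1 < (m i : ℝ) := by exact_mod_cast h
  have h2 : (0 : ℝ) ≤ ((k : ℕ) : ℝ) := Nat.cast_nonneg _
  have h3 : 0 < (((k : ℕ) : ℝ) + 1) * ((m i : ℝ) - 1 - (k : ℕ)) := by
    apply mul_pos <;> linarith
  exact_mod_cast (Real.sqrt_pos.2 h3).ne'

theorem IsStd.P_first (hT : IsStd T m e) (i : ι) (k : Fin (m i)) (hk : (k : ℕ) = 0) :
    T.P (e ⟨i, k⟩) = 0 := by
  classical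
  refine InnerProductSpace.ext_inner_left_basis e.toBasis fun p => ?_
  obtain ⟨j, l⟩ := p
  rw [e.coe_toBasis, ← T.adj, inner_zero_right]
  by_cases h : (l : ℕ) + 1 < m j
  · rw [hT.M_apply j l h, inner_smul_left, orthonormal_iff_ite.1 e.orthonormal, if_neg, mul_zero]
    intro hc
    have hij : j = i := congrArg Sigma.fst hc
    subst hij
    have := Sigma.mk.inj hc
    have h3 := eq_of_heq this.2
    rw [← h3] at hk
    exact absurd hk (Nat.succ_ne_zero _)
  · rw [hT.M_last j l (by omega), inner_zero_left]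

theorem IsStd.P_apply (hT : IsStd T m e) (i : ι) (k : Fin (m i)) (h : (k : ℕ) + 1 < m i) :
    T.P (e ⟨i, ⟨(k : ℕ) + 1, h⟩⟩) =
      ((Real.sqrt ((((k : ℕ) : ℝ) + 1) * ((m i : ℝ) - 1 - (k : ℕ))) : ℝ) : ℂ) • e ⟨i, k⟩ := by
  classical
  refine InnerProductSpace.ext_inner_left_basis e.toBasis fun p => ?_
  obtain ⟨j, l⟩ := p
  rw [e.coe_toBasis, ← T.adj, inner_smul_right, orthonormal_iff_ite.1 e.orthonormal]
  by_cases hl : (l : ℕ) + 1 < m j
  · rw [hT.M_apply j l hl, inner_smul_left, orthonormal_iff_ite.1 e.orthonormal,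
      Complex.conj_ofReal]
    by_cases hij : j = i
    · subst hij
      by_cases hkl : l = k
      · subst hkl
        simp
      · rw [if_neg, if_neg]
        · simp
        · intro hc
          exact hkl (eq_of_heq (Sigma.mk.inj hc).2)
        · intro hc
          have h3 := congrArg Fin.val (eq_of_heq (Sigma.mk.inj hc).2)
          apply hkl
          apply Fin.ext
          simpa using h3
    · rw [if_neg (fun hc => hij (congrArg Sigma.fst hc)),
        if_neg (fun hc => hij (congrArg Sigma.fst hc))]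
      simp
  · rw [hT.M_last j l (by omega), inner_zero_left, if_neg, mul_zero]
    intro hc
    have hij : j = i := congrArg Sigma.fst hc
    subst hij
    have h3 := congrArg Fin.val (eq_of_heq (Sigma.mk.inj hc).2)
    omega

theorem IsStd.hw_eq (hT : IsStd T m e) (hm : ∀ i, 0 < m i) (n : ℕ) :
    T.hw n = Submodule.span ℂ
      (Set.range fun i : {i // m i = n} => e ⟨i.1, ⟨0, hm i.1⟩⟩) := by
  classical
  apply le_antisymm
  · intro x hx
    obtain ⟨hP, hH⟩ := mem_hw.1 hx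
    have hx' : x = ∑ p, ⟪e p, x⟫_ℂ • e p := (e.sum_repr' x).symm
    rw [hx']
    refine Submodule.sum_mem _ fun p _ => ?_
    obtain ⟨i, k⟩ := p
    by_cases hk : (k : ℕ) = 0
    · by_cases hi : m i = n
      · have hk' : k = ⟨0, hm i⟩ := Fin.ext hk
        subst hk'
        exact Submodule.smul_mem _ _ (Submodule.subset_span ⟨⟨i, hi⟩, rfl⟩)
      · have h1 : ⟪e ⟨i, k⟩, T.H x⟫_ℂ = ((((n : ℝ) - 1) / 2 : ℝ) : ℂ) * ⟪e ⟨i, k⟩, x⟫_ℂ := by
          rw [hH, inner_smul_right]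
        have h2 : ⟪e ⟨i, k⟩, T.H x⟫_ℂ = ((((m i : ℝ) - 1) / 2 : ℝ) : ℂ) * ⟪e ⟨i, k⟩, x⟫_ℂ := by
          rw [← T.symH, hT.H_apply, inner_smul_left, Complex.conj_ofReal, hk]
          simp
        have h3 : (((((n : ℝ) - 1) / 2 : ℝ) : ℂ) - ((((m i : ℝ) - 1) / 2 : ℝ) : ℂ)) *
            ⟪e ⟨i, k⟩, x⟫_ℂ = 0 := by
          rw [sub_mul, ← h1, ← h2, sub_self]
        rcases mul_eq_zero.1 h3 with h | h
        · exfalso
          apply hi
          have h4 : (((n : ℝ) - 1) / 2 : ℝ) = ((m i : ℝ) - 1) / 2 := by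
            exact_mod_cast sub_eq_zero.1 h
          have h5 : (m i : ℝ) = n := by linarith
          exact_mod_cast h5
        · rw [h, zero_smul]
          exact Submodule.zero_mem _
    · obtain ⟨j, hj⟩ : ∃ j : ℕ, (k : ℕ) = j + 1 := ⟨(k : ℕ) - 1, by omega⟩
      have hjm : j + 1 < m i := hj ▸ k.2
      have h1 : T.M (e ⟨i, ⟨j, by omega⟩⟩) = _ := hT.M_apply i ⟨j, by omega⟩ hjm
      have hk' : k = ⟨j + 1, hjm⟩ := Fin.ext hj
      have h2 : ⟪T.M (e ⟨i, ⟨j, by omega⟩⟩), x⟫_ℂ = 0 := by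
        rw [T.adj, hP, inner_zero_right]
      rw [h1, inner_smul_left] at h2
      have h3 : ⟪e ⟨i, ⟨j + 1, hjm⟩⟩, x⟫_ℂ = 0 := by
        rcases mul_eq_zero.1 h2 with h | h
        · exfalso
          rw [Complex.conj_ofReal] at h
          exact IsStd.sqrt_ne (m := m) (i := i) (k := ⟨j, by omega⟩) hjm h
        · exact h
      rw [hk', h3, zero_smul]
      exact Submodule.zero_mem _
  · rw [Submodule.span_le]
    rintro _ ⟨⟨i, hi⟩, rfl⟩
    rw [SetLike.mem_coe, mem_hw]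
    constructor
    · exact hT.P_first i _ rfl
    · simp only [hT.H_apply, hi]
      simp

theorem IsStd.mult_eq (hT : IsStd T m e) (hm : ∀ i, 0 < m i) (n : ℕ) :
    T.mult n = Fintype.card {i // m i = n} := by
  classical
  unfold mult
  rw [hT.hw_eq hm n]
  have hli : LinearIndependent ℂ (fun i : {i // m i = n} => e ⟨i.1, ⟨0, hm i.1⟩⟩) := by
    refine e.orthonormal.linearIndependent.comp
      (fun i : {i // m i = n} => (⟨i.1, ⟨0, hm i.1⟩⟩ : Σ i : ι, Fin (m i))) ?_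
    intro i j hij
    exact Subtype.ext (congrArg Sigma.fst hij)
  exact finrank_span_eq_card hli

theorem IsStd.finrank_eq (_hT : IsStd T m e) : Module.finrank ℂ E = ∑ i, m i := by
  rw [Module.finrank_eq_card_basis e.toBasis, Fintype.card_sigma]
  simp

end std

/-- intertwining isometries -/
structure Conj (T : Trip E) (T' : Trip E') (U : E ≃ₗᵢ[ℂ] E') : Prop where
  H : ∀ x, U (T.H x) = T'.H (U x)
  P : ∀ x, U (T.P x) = T'.P (U x)
  M : ∀ x, U (T.M x) = T'.M (U x)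

theorem Conj.mult_eq {T : Trip E} {T' : Trip E'} {U : E ≃ₗᵢ[ℂ] E'} (h : Conj T T' U) (n : ℕ) :
    T.mult n = T'.mult n := by
  unfold mult
  refine LinearEquiv.finrank_eq (U.toLinearEquiv.submoduleMap (T.hw n) |>.trans
    (LinearEquiv.ofEq _ _ ?_))
  ext y
  constructor
  · rintro ⟨x, hx, rfl⟩
    obtain ⟨h1, h2⟩ := mem_hw.1 hx
    refine mem_hw.2 ⟨?_, ?_⟩
    · change T'.P (U x) = 0
      rw [← h.P, h1, map_zero]
    · change T'.H (U x) = _ • U x
      rw [← h.H, h2, map_smul]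
  · intro hy
    obtain ⟨h1, h2⟩ := mem_hw.1 hy
    refine ⟨U.symm y, mem_hw.2 ⟨?_, ?_⟩, ?_⟩
    · apply U.injective
      rw [h.P, map_zero, U.apply_symm_apply, h1]
    · apply U.injective
      rw [h.H, map_smul, U.apply_symm_apply, h2]
    · exact U.apply_symm_apply y

/-- a map intertwining the lowering operators isometrically intertwines the raising ones -/
theorem conj_P_of_M {T : Trip E} {T' : Trip E'} {U : E ≃ₗᵢ[ℂ] E'}
    (hM : ∀ x, U (T.M x) = T'.M (U x)) (x : E) : U (T.P x) = T'.P (U x) := by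
  refine ext_inner_left ℂ fun y => ?_
  obtain ⟨z, rfl⟩ := U.surjective y
  rw [U.inner_map_map, ← T.adj, ← T'.adj, ← hM, U.inner_map_map]

/-- same multiplicities imply unitary equivalence -/
theorem exists_conj [FiniteDimensional ℂ E] [FiniteDimensional ℂ E'] (T : Trip E) (T' : Trip E')
    (h : ∀ n, 0 < n → T.mult n = T'.mult n) : ∃ U : E ≃ₗᵢ[ℂ] E', Conj T T' U := by
  classical
  obtain ⟨d, m, hm, e, he⟩ := exists_isStd T
  obtain ⟨d', m', hm', e', he'⟩ := exists_isStd T'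
  have hcard : ∀ n, Fintype.card {i // m i = n} = Fintype.card {i // m' i = n} := by
    intro n
    rcases Nat.eq_zero_or_pos n with rfl | hn
    · have h1 : IsEmpty {i // m i = 0} := ⟨fun i => absurd i.2 (hm i.1).ne'⟩
      have h2 : IsEmpty {i // m' i = 0} := ⟨fun i => absurd i.2 (hm' i.1).ne'⟩
      rw [Fintype.card_eq_zero, Fintype.card_eq_zero]
    · rw [← he.mult_eq hm n, ← he'.mult_eq hm' n, h n hn]
  obtain ⟨σ, hσ⟩ := exists_equiv_of_fiber_card m m' hcard
  let τ : (Σ i, Fin (m i)) ≃ (Σ i, Fin (m' i)) :=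
    Equiv.sigmaCongr σ fun i => finCongr (hσ i).symm
  have hτ : ∀ i (k : Fin (m i)), τ ⟨i, k⟩ = ⟨σ i, ⟨(k : ℕ), (hσ i).symm ▸ k.2⟩⟩ := by
    intro i k
    rfl
  set U : E ≃ₗᵢ[ℂ] E' := e.equiv e' τ with hU
  have hUe : ∀ p, U (e p) = e' (τ p) := fun p => e.equiv_apply_basis e' τ p
  have hext : ∀ (A : E →ₗ[ℂ] E) (A' : E' →ₗ[ℂ] E'), (∀ p, U (A (e p)) = A' (U (e p))) →
      ∀ x, U (A x) = A' (U x) := by
    intro A A' hA x
    have h1 : (U.toLinearEquiv : E →ₗ[ℂ] E') ∘ₗ A = A' ∘ₗ (U.toLinearEquiv : E →ₗ[ℂ] E') := by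
      refine e.toBasis.ext fun p => ?_
      rw [e.coe_toBasis]
      exact hA p
    exact LinearMap.congr_fun h1 x
  have hMM : ∀ x, U (T.M x) = T'.M (U x) := by
    refine hext _ _ ?_
    rintro ⟨i, k⟩
    rw [hUe, hτ]
    by_cases hk : (k : ℕ) + 1 < m i
    · have hk' : (k : ℕ) + 1 < m' (σ i) := by rw [hσ i]; exact hk
      have hc : (m' (σ i) : ℝ) = m i := by rw [hσ i]
      rw [he.M_apply i k hk, map_smul, hUe, hτ, he'.M_apply (σ i) ⟨(k : ℕ), _⟩ hk']
      simp only [hc]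
    · have hk' : (k : ℕ) + 1 = m' (σ i) := by rw [hσ i]; omega
      rw [he.M_last i k (by omega), map_zero, he'.M_last (σ i) ⟨(k : ℕ), _⟩ hk']
  refine ⟨U, ?_, conj_P_of_M hMM, hMM⟩
  refine hext _ _ ?_
  rintro ⟨i, k⟩
  have hc : (m' (σ i) : ℝ) = m i := by rw [hσ i]
  rw [hUe, hτ, he.H_apply, map_smul, hUe, hτ, he'.H_apply]
  simp only [hc]

/-- sum rule: `∑ n · mult n = dim` -/
theorem exists_family [FiniteDimensional ℂ E] (T : Trip E) :
    ∃ (d : ℕ) (m : Fin d → ℕ), (∀ i, 0 < m i) ∧ (∑ i, m i = Module.finrank ℂ E) ∧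
      ∀ n, T.mult n = Fintype.card {i // m i = n} := by
  obtain ⟨d, m, hm, e, he⟩ := exists_isStd T
  exact ⟨d, m, hm, he.finrank_eq.symm, he.mult_eq hm⟩

end Trip

end Crest.Agent.R330.Su2a303
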