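import Crest.Agent.R330.Su2b_303

/-!
# Row 330, section 5: algebra of the vacua (helper303), part c

Existence: for every finite family `m : ι → ℕ` the standard triple on
`EuclideanSpace ℂ (Σ i, Fin (m i))`; transport along isometries; matrices.
-/

set_option autoImplicit false

open scoped InnerProductSpace

namespace Crest.Agent.R330.Su2a303

namespace Trip

section existence

variable {ι : Type*} [Fintype ι] (m : ι → ℕ)

/-- the model space -/
abbrev Mod (m : ι → ℕ) := EuclideanSpace ℂ (Σ i : ι, Fin (m i))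

/-- the model basis -/
noncomputable abbrev mb : OrthonormalBasis (Σ i : ι, Fin (m i)) ℂ (Mod m) :=
  EuclideanSpace.basisFun _ ℂ

/-- weights -/
noncomputable def wt (p : Σ i : ι, Fin (m i)) : ℝ := ((m p.1 : ℝ) - 1) / 2 - (p.2 : ℕ)

/-- model `H` -/
noncomputable def stdH : Mod m →ₗ[ℂ] Mod m :=
  (mb m).toBasis.constr ℂ fun p => ((wt m p : ℝ) : ℂ) • mb m p

/-- model raising operator -/
noncomputable def stdP : Mod m →ₗ[ℂ] Mod m :=
  (mb m).toBasis.constr ℂ fun p => if h : 0 < (p.2 : ℕ) then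
    ((Real.sqrt (((p.2 : ℕ) : ℝ) * ((m p.1 : ℝ) - (p.2 : ℕ))) : ℝ) : ℂ) •
      mb m ⟨p.1, ⟨(p.2 : ℕ) - 1, by have := p.2.2; omega⟩⟩ else 0

/-- model lowering operator -/
noncomputable def stdM : Mod m →ₗ[ℂ] Mod m := LinearMap.adjoint (stdP m)

theorem stdH_apply (p : Σ i : ι, Fin (m i)) :
    stdH m (mb m p) = ((wt m p : ℝ) : ℂ) • mb m p := by
  have h := (mb m).toBasis.constr_basis ℂ (fun p => ((wt m p : ℝ) : ℂ) • mb m p) p
  rw [OrthonormalBasis.coe_toBasis] at h
  exact h

theorem stdP_apply_zero (i : ι) (k : Fin (m i)) (hk : (k : ℕ) = 0) :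
    stdP m (mb m ⟨i, k⟩) = 0 := by
  have h := (mb m).toBasis.constr_basis ℂ (fun p : Σ i : ι, Fin (m i) =>
    if h : 0 < (p.2 : ℕ) then
    ((Real.sqrt (((p.2 : ℕ) : ℝ) * ((m p.1 : ℝ) - (p.2 : ℕ))) : ℝ) : ℂ) •
      mb m ⟨p.1, ⟨(p.2 : ℕ) - 1, by have := p.2.2; omega⟩⟩ else 0) ⟨i, k⟩
  rw [OrthonormalBasis.coe_toBasis, dif_neg (by simp [hk])] at h
  exact h

theorem stdP_apply_succ (i : ι) (j : ℕ) (hj : j + 1 < m i) :
    stdP m (mb m ⟨i, ⟨j + 1, hj⟩⟩) =
      ((Real.sqrt (((j : ℝ) + 1) * ((m i : ℝ) - 1 - j)) : ℝ) : ℂ) •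
        mb m ⟨i, ⟨j, by omega⟩⟩ := by
  have h := (mb m).toBasis.constr_basis ℂ (fun p : Σ i : ι, Fin (m i) =>
    if h : 0 < (p.2 : ℕ) then
    ((Real.sqrt (((p.2 : ℕ) : ℝ) * ((m p.1 : ℝ) - (p.2 : ℕ))) : ℝ) : ℂ) •
      mb m ⟨p.1, ⟨(p.2 : ℕ) - 1, by have := p.2.2; omega⟩⟩ else 0) ⟨i, ⟨j + 1, hj⟩⟩
  rw [OrthonormalBasis.coe_toBasis, dif_pos (Nat.succ_pos j)] at h
  refine h.trans ?_
  congr 2
  congr 1
  push_cast
  ring

theorem stdM_apply (i : ι) (k : Fin (m i)) (h : (k : ℕ) + 1 < m i) :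
    stdM m (mb m ⟨i, k⟩) =
      ((Real.sqrt ((((k : ℕ) : ℝ) + 1) * ((m i : ℝ) - 1 - (k : ℕ))) : ℝ) : ℂ) •
        mb m ⟨i, ⟨(k : ℕ) + 1, h⟩⟩ := by
  classical
  refine InnerProductSpace.ext_inner_left_basis (mb m).toBasis fun p => ?_
  obtain ⟨j, l⟩ := p
  rw [(mb m).coe_toBasis, stdM, LinearMap.adjoint_inner_right, inner_smul_right,
    orthonormal_iff_ite.1 (mb m).orthonormal]
  obtain ⟨l, hl⟩ := l
  cases l with
  | zero =>
    rw [stdP_apply_zero m j ⟨0, hl⟩ rfl, inner_zero_left, if_neg, mul_zero]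
    intro hc
    have hij : j = i := congrArg Sigma.fst hc
    subst hij
    have h3 := congrArg Fin.val (eq_of_heq (Sigma.mk.inj hc).2)
    simp at h3
  | succ l =>
    rw [stdP_apply_succ m j l hl, inner_smul_left, orthonormal_iff_ite.1 (mb m).orthonormal,
      Complex.conj_ofReal]
    by_cases hij : j = i
    · subst hij
      by_cases hkl : l = (k : ℕ)
      · subst hkl
        simp
      · rw [if_neg, if_neg]
        · simp
        · intro hc
          have h3 := congrArg Fin.val (eq_of_heq (Sigma.mk.inj hc).2)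
          apply hkl
          simpa using h3
        · intro hc
          have h3 := congrArg Fin.val (eq_of_heq (Sigma.mk.inj hc).2)
          exact hkl h3
    · rw [if_neg (fun hc => hij (congrArg Sigma.fst hc)),
        if_neg (fun hc => hij (congrArg Sigma.fst hc))]
      simp

theorem stdM_apply_last (i : ι) (k : Fin (m i)) (h : (k : ℕ) + 1 = m i) :
    stdM m (mb m ⟨i, k⟩) = 0 := by
  classical
  refine InnerProductSpace.ext_inner_left_basis (mb m).toBasis fun p => ?_
  obtain ⟨j, l⟩ := p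
  rw [(mb m).coe_toBasis, stdM, LinearMap.adjoint_inner_right, inner_zero_right]
  obtain ⟨l, hl⟩ := l
  cases l with
  | zero =>
    rw [stdP_apply_zero m j ⟨0, hl⟩ rfl, inner_zero_left]
  | succ l =>
    rw [stdP_apply_succ m j l hl, inner_smul_left, orthonormal_iff_ite.1 (mb m).orthonormal,
      if_neg, mul_zero]
    intro hc
    have hij : j = i := congrArg Sigma.fst hc
    subst hij
    have h3 := congrArg Fin.val (eq_of_heq (Sigma.mk.inj hc).2)
    simp only at h3
    omega

theorem basis_ext' {A B : Mod m →ₗ[ℂ] Mod m} (h : ∀ p, A (mb m p) = B (mb m p)) (x : Mod m) :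
    A x = B x := by
  have h1 : A = B := by
    refine (mb m).toBasis.ext fun p => ?_
    rw [(mb m).coe_toBasis]
    exact h p
  rw [h1]

/-- the standard triple -/
noncomputable def std : Trip (Mod m) where
  H := stdH m
  P := stdP m
  M := stdM m
  symH := by
    intro x y
    classical
    have h1 : LinearMap.adjoint (stdH m) = stdH m := by
      refine (mb m).toBasis.ext fun p => ?_
      refine InnerProductSpace.ext_inner_left_basis (mb m).toBasis fun q => ?_
      rw [(mb m).coe_toBasis, LinearMap.adjoint_inner_right, stdH_apply, stdH_apply,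
        inner_smul_left, inner_smul_right, Complex.conj_ofReal,
        orthonormal_iff_ite.1 (mb m).orthonormal]
      by_cases h : q = p
      · subst h; rfl
      · simp [h]
    nth_rewrite 1 [← h1]
    rw [LinearMap.adjoint_inner_left]
  adj := by
    intro x y
    rw [stdM, LinearMap.adjoint_inner_left]
  HP := by
    intro x
    refine basis_ext' m (A := stdH m ∘ₗ stdP m) (B := stdP m ∘ₗ stdH m + stdP m) ?_ x
    rintro ⟨i, ⟨k, hk⟩⟩
    simp only [LinearMap.comp_apply, LinearMap.add_apply, stdH_apply, map_smul]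
    cases k with
    | zero =>
      rw [stdP_apply_zero m i ⟨0, hk⟩ rfl]
      simp
    | succ k =>
      rw [stdP_apply_succ m i k hk, map_smul, stdH_apply, smul_smul, smul_smul, ← add_smul]
      congr 1
      simp only [wt]
      push_cast
      ring
  HM := by
    intro x
    refine basis_ext' m (A := stdH m ∘ₗ stdM m) (B := stdM m ∘ₗ stdH m - stdM m) ?_ x
    rintro ⟨i, k⟩
    simp only [LinearMap.comp_apply, LinearMap.sub_apply, stdH_apply, map_smul]
    by_cases hk : (k : ℕ) + 1 < m i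
    · rw [stdM_apply m i k hk, map_smul, stdH_apply, smul_smul, smul_smul, ← sub_smul]
      congr 1
      simp only [wt]
      push_cast
      ring
    · have hk2 := k.2
      rw [stdM_apply_last m i k (by omega)]
      simp
  PM := by
    intro x
    refine basis_ext' m (A := stdP m ∘ₗ stdM m) (B := stdM m ∘ₗ stdP m + (2 : ℂ) • stdH m) ?_ x
    rintro ⟨i, ⟨k, hk⟩⟩
    simp only [LinearMap.comp_apply, LinearMap.add_apply, LinearMap.smul_apply, stdH_apply]
    have hPM : stdP m (stdM m (mb m ⟨i, ⟨k, hk⟩⟩)) =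
        (((((k : ℝ) + 1) * ((m i : ℝ) - 1 - k) : ℝ)) : ℂ) • mb m ⟨i, ⟨k, hk⟩⟩ := by
      by_cases h : k + 1 < m i
      · rw [stdM_apply m i ⟨k, hk⟩ h, map_smul, stdP_apply_succ m i k h, smul_smul,
          ← Complex.ofReal_mul]
        congr 2
        rw [Real.mul_self_sqrt]
        have h1 : (k : ℝ) + 1 < (m i : ℝ) := by exact_mod_cast h
        have h2 : (0 : ℝ) ≤ (k : ℝ) := Nat.cast_nonneg _
        apply mul_nonneg <;> linarith
      · have h1 : k + 1 = m i := by omega
        rw [stdM_apply_last m i ⟨k, hk⟩ h1, map_zero]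
        have h2 : (m i : ℝ) = (k : ℝ) + 1 := by rw [← h1]; push_cast; ring
        rw [h2]
        simp
    have hMP : stdM m (stdP m (mb m ⟨i, ⟨k, hk⟩⟩)) =
        ((((k : ℝ) * ((m i : ℝ) - k) : ℝ)) : ℂ) • mb m ⟨i, ⟨k, hk⟩⟩ := by
      cases k with
      | zero =>
        rw [stdP_apply_zero m i ⟨0, hk⟩ rfl, map_zero]
        simp
      | succ k =>
        rw [stdP_apply_succ m i k hk, map_smul, stdM_apply m i ⟨k, by omega⟩ hk, smul_smul,
          ← Complex.ofReal_mul]
        congr 2
        simp only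
        rw [Real.mul_self_sqrt]
        · push_cast
          ring
        · have h1 : (k : ℝ) + 1 < (m i : ℝ) := by exact_mod_cast hk
          have h2 : (0 : ℝ) ≤ (k : ℝ) := Nat.cast_nonneg _
          apply mul_nonneg <;> linarith
    rw [hPM, hMP, smul_smul, ← add_smul]
    congr 1
    simp only [wt]
    push_cast
    ring

theorem isStd_std : IsStd (std m) m (mb m) where
  H_apply i k := stdH_apply m ⟨i, k⟩
  M_apply i k h := stdM_apply m i k h
  M_last i k h := stdM_apply_last m i k h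

end existence

section transport

variable {E : Type*} [NormedAddCommGroup E] [InnerProductSpace ℂ E]
  {E' : Type*} [NormedAddCommGroup E'] [InnerProductSpace ℂ E']

/-- conjugate endomorphism -/
def cj (U : E ≃ₗᵢ[ℂ] E') (A : E →ₗ[ℂ] E) : E' →ₗ[ℂ] E' :=
  (U.toLinearEquiv : E →ₗ[ℂ] E') ∘ₗ A ∘ₗ (U.symm.toLinearEquiv : E' →ₗ[ℂ] E)

theorem cj_apply (U : E ≃ₗᵢ[ℂ] E') (A : E →ₗ[ℂ] E) (x : E') : cj U A x = U (A (U.symm x)) := rfl

/-- transport of a triple along an isometry -/
def map (T : Trip E) (U : E ≃ₗᵢ[ℂ] E') : Trip E' where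
  H := cj U T.H
  P := cj U T.P
  M := cj U T.M
  symH := by
    intro x y
    obtain ⟨x, rfl⟩ := U.surjective x
    obtain ⟨y, rfl⟩ := U.surjective y
    simp only [cj_apply, U.symm_apply_apply, U.inner_map_map]
    exact T.symH x y
  adj := by
    intro x y
    obtain ⟨x, rfl⟩ := U.surjective x
    obtain ⟨y, rfl⟩ := U.surjective y
    simp only [cj_apply, U.symm_apply_apply, U.inner_map_map]
    exact T.adj x y
  HP := by
    intro x
    simp only [cj_apply, U.symm_apply_apply, T.HP, map_add]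
  HM := by
    intro x
    simp only [cj_apply, U.symm_apply_apply, T.HM, map_sub]
  PM := by
    intro x
    simp only [cj_apply, U.symm_apply_apply, T.PM, map_add, map_smul]

theorem conj_map (T : Trip E) (U : E ≃ₗᵢ[ℂ] E') : Conj T (T.map U) U where
  H x := by simp [map, cj_apply]
  P x := by simp [map, cj_apply]
  M x := by simp [map, cj_apply]

/-- every family with the right sum is realised on every space of that dimension -/
theorem exists_trip [FiniteDimensional ℂ E] {ι : Type*} [Fintype ι] (m : ι → ℕ)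
    (hm : ∀ i, 0 < m i) (hs : ∑ i, m i = Module.finrank ℂ E) :
    ∃ T : Trip E, ∀ n, T.mult n = Fintype.card {i // m i = n} := by
  classical
  have hcard : Fintype.card (Σ i : ι, Fin (m i)) = Fintype.card (Fin (Module.finrank ℂ E)) := by
    rw [Fintype.card_sigma, Fintype.card_fin]
    simpa using hs
  let U : Mod m ≃ₗᵢ[ℂ] E :=
    (mb m).equiv (stdOrthonormalBasis ℂ E) (Fintype.equivOfCardEq hcard)
  refine ⟨(std m).map U, fun n => ?_⟩
  rw [← (conj_map (std m) U).mult_eq n, (isStd_std m).mult_eq hm n]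

end transport

end Trip

end Crest.Agent.R330.Su2a303
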