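import Crest.Agent.R330.Su2c_303
import Crest.Agent.R330.Col_962
import Crest.Agent.R330.CoerCfg_87

/-!
# Row 330, section 5: algebra of the vacua (helper303), part d

Matrix form: triples of Hermitian matrices `L : Fin 3 → Matrix (Fin N) (Fin N) ℂ` with
`L (i+1) * L (i+2) - L (i+2) * L (i+1) = I • L i`, up to `SU(N)`, are classified by the partitions
of `N`.
-/

set_option autoImplicit false

open scoped InnerProductSpace
open Matrix

namespace Crest.Agent.R330.Su2a303

variable {N : ℕ}

/-- matrices as operators on Euclidean space -/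
local notation "EN" => EuclideanSpace ℂ (Fin N)

theorem toE_mul (A B : Matrix (Fin N) (Fin N) ℂ) (x : EN) :
    toEuclideanLin A (toEuclideanLin B x) = toEuclideanLin (A * B) x := by
  simp only [toLpLin_apply]
  rw [mulVec_mulVec]

theorem toE_mul' (A B : Matrix (Fin N) (Fin N) ℂ) :
    toEuclideanLin A ∘ₗ toEuclideanLin B = toEuclideanLin (A * B) :=
  LinearMap.ext fun x => toE_mul A B x

/-- Hermitian `su(2)` triples of matrices (spin normalisation) -/
structure IsSu2 (L : Fin 3 → Matrix (Fin N) (Fin N) ℂ) : Prop where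
  herm : ∀ i, (L i).IsHermitian
  comm : ∀ i, L (i + 1) * L (i + 2) - L (i + 2) * L (i + 1) = Complex.I • L i

namespace IsSu2

variable {L : Fin 3 → Matrix (Fin N) (Fin N) ℂ}

theorem c01 (h : IsSu2 L) : L 0 * L 1 - L 1 * L 0 = Complex.I • L 2 := h.comm 2
theorem c12 (h : IsSu2 L) : L 1 * L 2 - L 2 * L 1 = Complex.I • L 0 := h.comm 0
theorem c20 (h : IsSu2 L) : L 2 * L 0 - L 0 * L 2 = Complex.I • L 1 := h.comm 1

/-- raising matrix -/
theorem HP (h : IsSu2 L) : L 2 * (L 0 + Complex.I • L 1) =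
    (L 0 + Complex.I • L 1) * L 2 + (L 0 + Complex.I • L 1) := by
  have h1 : L 2 * L 0 = L 0 * L 2 + Complex.I • L 1 := by rw [← h.c20]; abel
  have h2 : L 2 * L 1 = L 1 * L 2 - Complex.I • L 0 := by rw [← h.c12]; abel
  rw [mul_add, add_mul, mul_smul_comm, smul_mul_assoc, h1, h2, smul_sub, smul_smul,
    Complex.I_mul_I, neg_one_smul]
  abel

theorem HM (h : IsSu2 L) : L 2 * (L 0 - Complex.I • L 1) =
    (L 0 - Complex.I • L 1) * L 2 - (L 0 - Complex.I • L 1) := by
  have h1 : L 2 * L 0 = L 0 * L 2 + Complex.I • L 1 := by rw [← h.c20]; abel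
  have h2 : L 2 * L 1 = L 1 * L 2 - Complex.I • L 0 := by rw [← h.c12]; abel
  rw [mul_sub, sub_mul, mul_smul_comm, smul_mul_assoc, h1, h2, smul_sub, smul_smul,
    Complex.I_mul_I, neg_one_smul]
  abel

theorem PM (h : IsSu2 L) : (L 0 + Complex.I • L 1) * (L 0 - Complex.I • L 1) =
    (L 0 - Complex.I • L 1) * (L 0 + Complex.I • L 1) + (2 : ℂ) • L 2 := by
  have h1 : L 0 * L 1 = L 1 * L 0 + Complex.I • L 2 := by rw [← h.c01]; abel
  simp only [mul_sub, add_mul, mul_add, sub_mul, mul_smul_comm, smul_mul_assoc, h1, smul_add,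
    smul_sub, smul_smul, Complex.I_mul_I, neg_smul, one_smul, two_smul]
  abel

theorem conjTranspose_P (h : IsSu2 L) :
    (L 0 + Complex.I • L 1)ᴴ = L 0 - Complex.I • L 1 := by
  rw [conjTranspose_add, conjTranspose_smul, (h.herm 0).eq, (h.herm 1).eq]
  simp only [RCLike.star_def, Complex.conj_I, neg_smul]
  rw [sub_eq_add_neg]

/-- the triple of operators -/
noncomputable def trip (h : IsSu2 L) : Trip EN where
  H := toEuclideanLin (L 2)
  P := toEuclideanLin (L 0 + Complex.I • L 1)
  M := toEuclideanLin (L 0 - Complex.I • L 1)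
  symH := isSymmetric_toEuclideanLin_iff.2 (h.herm 2)
  adj := by
    intro x y
    rw [← h.conjTranspose_P, toEuclideanLin_conjTranspose_eq_adjoint,
      LinearMap.adjoint_inner_left]
  HP := by
    intro x
    rw [toE_mul, toE_mul, h.HP, map_add, LinearMap.add_apply]
  HM := by
    intro x
    rw [toE_mul, toE_mul, h.HM, map_sub, LinearMap.sub_apply]
  PM := by
    intro x
    rw [toE_mul, toE_mul, h.PM, map_add, LinearMap.add_apply, map_smul, LinearMap.smul_apply]

end IsSu2

/-- the matrices of an abstract triple -/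
noncomputable def matL (T : Trip EN) : Fin 3 → Matrix (Fin N) (Fin N) ℂ := ![
  toEuclideanLin.symm ((1 / 2 : ℂ) • (T.P + T.M)),
  toEuclideanLin.symm ((-Complex.I / 2) • (T.P - T.M)),
  toEuclideanLin.symm T.H]

theorem toE_inj {A B : Matrix (Fin N) (Fin N) ℂ} (h : toEuclideanLin A = toEuclideanLin B) :
    A = B := toEuclideanLin.injective h

theorem isSu2_matL (T : Trip EN) : IsSu2 (matL T) := by
  have hPT : ∀ x y, ⟪T.P x, y⟫_ℂ = ⟪x, T.M y⟫_ℂ := T.adj'
  have h0 : toEuclideanLin (matL T 0) = (1 / 2 : ℂ) • (T.P + T.M) := by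
    simp [matL]
  have h1 : toEuclideanLin (matL T 1) = (-Complex.I / 2) • (T.P - T.M) := by
    simp [matL]
  have h2 : toEuclideanLin (matL T 2) = T.H := by
    simp [matL]
  have hHP : T.H ∘ₗ T.P = T.P ∘ₗ T.H + T.P := LinearMap.ext fun x => T.HP x
  have hHM : T.H ∘ₗ T.M = T.M ∘ₗ T.H - T.M := LinearMap.ext fun x => T.HM x
  have hPM : T.P ∘ₗ T.M = T.M ∘ₗ T.P + (2 : ℂ) • T.H := LinearMap.ext fun x => T.PM x
  have hI : Complex.I * Complex.I = -1 := Complex.I_mul_I
  have hc1 : (starRingEnd ℂ) (2 : ℂ) = 2 := map_ofNat (starRingEnd ℂ) 2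
  have hc2 : (starRingEnd ℂ) (1 / 2 : ℂ) = 1 / 2 := by
    rw [map_div₀, hc1, map_one]
  have hc3 : (starRingEnd ℂ) (-Complex.I / 2 : ℂ) = Complex.I / 2 := by
    rw [map_div₀, hc1, map_neg, Complex.conj_I, neg_neg]
  constructor
  · intro i
    rw [← isSymmetric_toEuclideanLin_iff]
    fin_cases i
    · change (toEuclideanLin (matL T 0)).IsSymmetric
      rw [h0]
      intro x y
      simp only [LinearMap.smul_apply, LinearMap.add_apply, inner_smul_left, inner_smul_right,
        inner_add_left, inner_add_right, hPT, T.adj, hc2]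
      ring
    · change (toEuclideanLin (matL T 1)).IsSymmetric
      rw [h1]
      intro x y
      simp only [LinearMap.smul_apply, LinearMap.sub_apply, inner_smul_left, inner_smul_right,
        inner_sub_left, inner_sub_right, hPT, T.adj, hc3]
      ring
    · change (toEuclideanLin (matL T 2)).IsSymmetric
      rw [h2]
      exact T.symH
  · intro i
    apply toE_inj
    rw [map_sub, ← toE_mul', ← toE_mul', map_smul]
    fin_cases i
    · change toEuclideanLin (matL T 1) ∘ₗ toEuclideanLin (matL T 2) -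
        toEuclideanLin (matL T 2) ∘ₗ toEuclideanLin (matL T 1) =
        Complex.I • toEuclideanLin (matL T 0)
      rw [h0, h1, h2, LinearMap.smul_comp, LinearMap.comp_smul, LinearMap.sub_comp,
        LinearMap.comp_sub, hHP, hHM]
      rw [← smul_sub, smul_smul]
      have e : T.P ∘ₗ T.H - T.M ∘ₗ T.H - (T.P ∘ₗ T.H + T.P - (T.M ∘ₗ T.H - T.M)) =
          -(T.P + T.M) := by abel
      rw [e, smul_neg, ← neg_smul]
      congr 1
      ring
    · change toEuclideanLin (matL T 2) ∘ₗ toEuclideanLin (matL T 0) -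
        toEuclideanLin (matL T 0) ∘ₗ toEuclideanLin (matL T 2) =
        Complex.I • toEuclideanLin (matL T 1)
      rw [h0, h1, h2, LinearMap.smul_comp, LinearMap.comp_smul, LinearMap.add_comp,
        LinearMap.comp_add, hHP, hHM]
      rw [← smul_sub, smul_smul]
      have e : T.P ∘ₗ T.H + T.P + (T.M ∘ₗ T.H - T.M) - (T.P ∘ₗ T.H + T.M ∘ₗ T.H) =
          T.P - T.M := by abel
      rw [e]
      congr 1
      linear_combination (1 / 2 : ℂ) * hI
    · change toEuclideanLin (matL T 0) ∘ₗ toEuclideanLin (matL T 1) -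
        toEuclideanLin (matL T 1) ∘ₗ toEuclideanLin (matL T 0) =
        Complex.I • toEuclideanLin (matL T 2)
      rw [h0, h1, h2, LinearMap.smul_comp, LinearMap.comp_smul, LinearMap.smul_comp,
        LinearMap.comp_smul, LinearMap.add_comp, LinearMap.sub_comp, LinearMap.comp_add,
        LinearMap.comp_add, LinearMap.comp_sub, LinearMap.comp_sub, hPM]
      rw [smul_smul, smul_smul, mul_comm (1 / 2 : ℂ) (-Complex.I / 2), ← smul_sub]
      have e : T.P ∘ₗ T.P - (T.M ∘ₗ T.P + (2 : ℂ) • T.H) + (T.M ∘ₗ T.P - T.M ∘ₗ T.M) -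
          (T.P ∘ₗ T.P + (T.M ∘ₗ T.P + (2 : ℂ) • T.H) - (T.M ∘ₗ T.P + T.M ∘ₗ T.M)) =
          (-4 : ℂ) • T.H := by
        have e2 : (-4 : ℂ) • T.H = -((2 : ℂ) • T.H + (2 : ℂ) • T.H) := by
          rw [← add_smul, ← neg_smul]; norm_num
        rw [e2]
        abel
      rw [e, smul_smul]
      congr 1
      ring

theorem trip_matL (T : Trip EN) : (isSu2_matL T).trip.P = T.P ∧ (isSu2_matL T).trip.M = T.M ∧
    (isSu2_matL T).trip.H = T.H := by
  have h0 : toEuclideanLin (matL T 0) = (1 / 2 : ℂ) • (T.P + T.M) := by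
    simp [matL]
  have h1 : toEuclideanLin (matL T 1) = (-Complex.I / 2) • (T.P - T.M) := by
    simp [matL]
  have h2 : toEuclideanLin (matL T 2) = T.H := by
    simp [matL]
  have hI : Complex.I * Complex.I = -1 := Complex.I_mul_I
  have hc : Complex.I * (-Complex.I / 2) = 1 / 2 := by linear_combination (-(1 / 2) : ℂ) * hI
  refine ⟨?_, ?_, h2⟩
  · change toEuclideanLin (matL T 0 + Complex.I • matL T 1) = T.P
    rw [map_add, map_smul, h0, h1, smul_smul, hc, ← smul_add]
    have e : T.P + T.M + (T.P - T.M) = (2 : ℂ) • T.P := by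
      rw [two_smul]; abel
    rw [e, smul_smul]
    norm_num
  · change toEuclideanLin (matL T 0 - Complex.I • matL T 1) = T.M
    rw [map_sub, map_smul, h0, h1, smul_smul, hc, ← smul_sub]
    have e : T.P + T.M - (T.P - T.M) = (2 : ℂ) • T.M := by
      rw [two_smul]; abel
    rw [e, smul_smul]
    norm_num

theorem mult_matL (T : Trip EN) (n : ℕ) : (isSu2_matL T).trip.mult n = T.mult n := by
  obtain ⟨h1, _, h3⟩ := trip_matL T
  unfold Trip.mult Trip.hw
  rw [h1, h3]

end Crest.Agent.R330.Su2a303
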