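import Crest.Agent.R330.Su2d_303

/-!
# Row 330, section 5: algebra of the vacua (helper303), part e

`SU(N)`-conjugacy classes of Hermitian `su(2)` triples of matrices are in bijection with the
partitions of `N`.
-/

set_option autoImplicit false

open scoped InnerProductSpace
open Matrix

namespace Crest.Agent.R330.Su2a303

variable {N : ℕ}

local notation "EN" => EuclideanSpace ℂ (Fin N)
local notation "SU" => Matrix.specialUnitaryGroup (Fin N) ℂ

theorem toE_one : toEuclideanLin (1 : Matrix (Fin N) (Fin N) ℂ) = LinearMap.id := by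
  refine LinearMap.ext fun x => ?_
  simp [toLpLin_apply]

/-- the matrix of an isometry is unitary -/
theorem exists_matrix (U : EN ≃ₗᵢ[ℂ] EN) : ∃ u : Matrix (Fin N) (Fin N) ℂ,
    (∀ x, toEuclideanLin u x = U x) ∧ uᴴ * u = 1 ∧ u * uᴴ = 1 := by
  refine ⟨toEuclideanLin.symm (U.toLinearEquiv : EN →ₗ[ℂ] EN), ?_, ?_⟩
  · intro x
    simp
  · set u : Matrix (Fin N) (Fin N) ℂ := toEuclideanLin.symm (U.toLinearEquiv : EN →ₗ[ℂ] EN)
      with hu
    have hux : ∀ x, toEuclideanLin u x = U x := by
      intro x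
      rw [hu]
      simp
    have h1 : uᴴ * u = 1 := by
      apply toE_inj
      rw [toE_one, ← toE_mul', toEuclideanLin_conjTranspose_eq_adjoint]
      refine LinearMap.ext fun x => ?_
      refine ext_inner_left ℂ fun y => ?_
      rw [LinearMap.comp_apply, LinearMap.adjoint_inner_right, hux, hux, U.inner_map_map]
      rfl
    exact ⟨h1, mul_eq_one_comm.1 h1⟩

/-- a unitary matrix is a phase times a special unitary matrix -/
theorem exists_su (hN : 0 < N) {u : Matrix (Fin N) (Fin N) ℂ} (hu : uᴴ * u = 1) :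
    ∃ (g : SU) (z : ℂ), star z * z = 1 ∧ (g : Matrix (Fin N) (Fin N) ℂ) = z • u := by
  obtain ⟨w, hw⟩ := IsAlgClosed.exists_pow_nat_eq u.det hN
  have hdet : star u.det * u.det = 1 := by
    have h := congrArg Matrix.det hu
    rw [det_mul, det_conjTranspose, det_one] at h
    exact h
  have hw1 : (star w * w) ^ N = 1 := by
    rw [mul_pow, ← star_pow, hw, hdet]
  have hreal : star w * w = ((‖w‖ ^ 2 : ℝ) : ℂ) := by
    rw [RCLike.star_def, Complex.conj_mul']
    push_cast
    rfl
  have hw2 : star w * w = 1 := by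
    rw [hreal] at hw1 ⊢
    have h1 : (‖w‖ ^ 2) ^ N = 1 := by exact_mod_cast hw1
    have h2 : ‖w‖ ^ 2 = 1 := (pow_eq_one_iff_of_nonneg (sq_nonneg _) hN.ne').1 h1
    rw [h2]
    simp
  have hw0 : w ≠ 0 := by
    intro h
    rw [h] at hw2
    simp at hw2
  have hzz : star (star w) * star w = 1 := by
    rw [star_star, mul_comm]
    exact hw2
  refine ⟨⟨star w • u, ?_⟩, star w, hzz, rfl⟩
  rw [mem_specialUnitaryGroup_iff]
  constructor
  · rw [mem_unitaryGroup_iff', star_eq_conjTranspose, conjTranspose_smul, smul_mul_smul_comm, hu,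
      hzz, one_smul]
  · rw [det_smul, Fintype.card_fin, ← hw, ← mul_pow, hw2, one_pow]

/-- equal multiplicities imply `SU(N)`-conjugacy -/
theorem IsSu2.exists_conj (hN : 0 < N) {L L' : Fin 3 → Matrix (Fin N) (Fin N) ℂ} (h : IsSu2 L)
    (h' : IsSu2 L') (hm : ∀ n, 0 < n → h.trip.mult n = h'.trip.mult n) :
    ∃ g : SU, ∀ i, (g : Matrix (Fin N) (Fin N) ℂ) * L i * star (g : Matrix (Fin N) (Fin N) ℂ)
      = L' i := by
  obtain ⟨U, hU⟩ := Trip.exists_conj h.trip h'.trip hm
  obtain ⟨u, hux, hu1, hu2⟩ := exists_matrix U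
  obtain ⟨g, z, hz, hg⟩ := exists_su hN hu1
  have hmat : ∀ (A A' : Matrix (Fin N) (Fin N) ℂ),
      (∀ x, U (toEuclideanLin A x) = toEuclideanLin A' (U x)) → u * A = A' * u := by
    intro A A' hA
    apply toE_inj
    refine LinearMap.ext fun x => ?_
    rw [← toE_mul, ← toE_mul, hux, hux]
    exact hA x
  have h2 : u * L 2 = L' 2 * u := hmat _ _ hU.H
  have hP : u * (L 0 + Complex.I • L 1) = (L' 0 + Complex.I • L' 1) * u := hmat _ _ hU.P
  have hM : u * (L 0 - Complex.I • L 1) = (L' 0 - Complex.I • L' 1) * u := hmat _ _ hU.M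
  have h0 : u * L 0 = L' 0 * u := by
    have h3 : (2 : ℂ) • (u * L 0) = (2 : ℂ) • (L' 0 * u) := by
      have e1 : (2 : ℂ) • (u * L 0) = u * (L 0 + Complex.I • L 1) + u * (L 0 - Complex.I • L 1) := by
        rw [← mul_add, ← mul_smul_comm, two_smul]
        congr 1
        abel
      have e2 : (2 : ℂ) • (L' 0 * u) =
          (L' 0 + Complex.I • L' 1) * u + (L' 0 - Complex.I • L' 1) * u := by
        rw [← add_mul, ← smul_mul_assoc, two_smul]
        congr 1
        abel
      rw [e1, e2, hP, hM]
    exact smul_right_injective _ (two_ne_zero) h3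
  have h1 : u * L 1 = L' 1 * u := by
    have h3 : (2 * Complex.I : ℂ) • (u * L 1) = (2 * Complex.I : ℂ) • (L' 1 * u) := by
      have e1 : (2 * Complex.I : ℂ) • (u * L 1) =
          u * (L 0 + Complex.I • L 1) - u * (L 0 - Complex.I • L 1) := by
        rw [← mul_sub, ← mul_smul_comm, mul_smul, two_smul]
        congr 1
        abel
      have e2 : (2 * Complex.I : ℂ) • (L' 1 * u) =
          (L' 0 + Complex.I • L' 1) * u - (L' 0 - Complex.I • L' 1) * u := by
        rw [← sub_mul, ← smul_mul_assoc, mul_smul, two_smul]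
        congr 1
        abel
      rw [e1, e2, hP, hM]
    exact smul_right_injective _ (mul_ne_zero two_ne_zero Complex.I_ne_zero) h3
  refine ⟨g, fun i => ?_⟩
  have hi : u * L i = L' i * u := by
    fin_cases i
    · exact h0
    · exact h1
    · exact h2
  rw [hg, star_smul, smul_mul_assoc, smul_mul_assoc, mul_smul_comm, smul_smul, mul_comm z, hz,
    one_smul, hi, mul_assoc, star_eq_conjTranspose, hu2, mul_one]

/-- conjugate triples have equal multiplicities -/
theorem IsSu2.mult_eq_of_conj {L L' : Fin 3 → Matrix (Fin N) (Fin N) ℂ} (h : IsSu2 L)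
    (h' : IsSu2 L') (g : SU)
    (hg : ∀ i, (g : Matrix (Fin N) (Fin N) ℂ) * L i * star (g : Matrix (Fin N) (Fin N) ℂ) = L' i)
    (n : ℕ) : h.trip.mult n = h'.trip.mult n := by
  have hs : star (g : Matrix (Fin N) (Fin N) ℂ) * (g : Matrix (Fin N) (Fin N) ℂ) = 1 :=
    Col962.star_mul_self' g
  have hgL : ∀ i, (g : Matrix (Fin N) (Fin N) ℂ) * L i = L' i * (g : Matrix (Fin N) (Fin N) ℂ) := by
    intro i
    rw [← hg i, mul_assoc, hs, mul_one]
  let li : EN →ₗᵢ[ℂ] EN := (toEuclideanLin (g : Matrix (Fin N) (Fin N) ℂ)).isometryOfInner (by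
    intro x y
    rw [← LinearMap.adjoint_inner_right, ← toEuclideanLin_conjTranspose_eq_adjoint, toE_mul,
      ← star_eq_conjTranspose, hs, toE_one]
    rfl)
  let U : EN ≃ₗᵢ[ℂ] EN := li.toLinearIsometryEquiv rfl
  have hU : ∀ x, U x = toEuclideanLin (g : Matrix (Fin N) (Fin N) ℂ) x := fun x => rfl
  have hc : Trip.Conj h.trip h'.trip U := by
    constructor
    · intro x
      rw [hU, hU]
      change toEuclideanLin _ (toEuclideanLin (L 2) x) = toEuclideanLin (L' 2) _
      rw [toE_mul, toE_mul, hgL]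
    · intro x
      rw [hU, hU]
      change toEuclideanLin _ (toEuclideanLin (L 0 + Complex.I • L 1) x) =
        toEuclideanLin (L' 0 + Complex.I • L' 1) _
      rw [toE_mul, toE_mul, mul_add, add_mul, mul_smul_comm, smul_mul_assoc, hgL, hgL]
    · intro x
      rw [hU, hU]
      change toEuclideanLin _ (toEuclideanLin (L 0 - Complex.I • L 1) x) =
        toEuclideanLin (L' 0 - Complex.I • L' 1) _
      rw [toE_mul, toE_mul, mul_sub, sub_mul, mul_smul_comm, smul_mul_assoc, hgL, hgL]
  exact hc.mult_eq n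

/-! ### partitions -/

theorem count_univ_map {ι : Type*} [Fintype ι] (m : ι → ℕ) (n : ℕ) :
    ((Finset.univ : Finset ι).val.map m).count n = Fintype.card {i // m i = n} := by
  classical
  rw [Multiset.count_map, Fintype.card_subtype]
  have h : (Finset.univ : Finset ι).val.filter (fun a => n = m a) =
      ((Finset.univ : Finset ι).filter (fun a => m a = n)).val := by
    rw [Finset.filter_val]
    exact Multiset.filter_congr fun a _ => eq_comm
  rw [h]
  rfl

/-- the partition of a triple -/
theorem exists_partition (T : Trip EN) :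
    ∃ p : Nat.Partition N, ∀ n, 0 < n → T.mult n = p.parts.count n := by
  obtain ⟨d, m, hm, hs, hc⟩ := T.exists_family
  refine ⟨⟨(Finset.univ : Finset (Fin d)).val.map m, ?_, ?_⟩, fun n _ => ?_⟩
  · intro i hi
    obtain ⟨j, _, rfl⟩ := Multiset.mem_map.1 hi
    exact hm j
  · have h1 : ((Finset.univ : Finset (Fin d)).val.map m).sum = ∑ i, m i := rfl
    rw [h1, hs]
    simp
  · rw [hc n]
    exact (count_univ_map m n).symm

/-- every partition is realised -/
theorem exists_trip_of_partition (p : Nat.Partition N) :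
    ∃ T : Trip EN, ∀ n, T.mult n = p.parts.count n := by
  classical
  let m : p.parts.ToType → ℕ := fun x => (x : ℕ)
  have hmap : (Finset.univ : Finset p.parts.ToType).val.map m = p.parts :=
    Multiset.map_univ_coe p.parts
  have hpos : ∀ i, 0 < m i := by
    intro i
    have : m i ∈ p.parts := by
      rw [← hmap]
      exact Multiset.mem_map_of_mem m (Finset.mem_univ_val i)
    exact p.parts_pos this
  have hsum : ∑ i, m i = Module.finrank ℂ EN := by
    have h1 : ((Finset.univ : Finset p.parts.ToType).val.map m).sum = ∑ i, m i := rfl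
    rw [← h1, hmap, p.parts_sum]
    simp
  obtain ⟨T, hT⟩ := Trip.exists_trip (E := EN) m hpos hsum
  refine ⟨T, fun n => ?_⟩
  rw [hT n, ← count_univ_map m n, hmap]

theorem partition_ext {p q : Nat.Partition N}
    (h : ∀ n, 0 < n → p.parts.count n = q.parts.count n) : p = q := by
  apply Nat.Partition.ext
  refine Multiset.ext.2 fun n => ?_
  rcases Nat.eq_zero_or_pos n with rfl | hn
  · rw [Multiset.count_eq_zero_of_notMem, Multiset.count_eq_zero_of_notMem]
    · intro h0
      exact absurd (q.parts_pos h0) (lt_irrefl 0)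
    · intro h0
      exact absurd (p.parts_pos h0) (lt_irrefl 0)
  · exact h n hn

/-- **classification of Hermitian `su(2)` triples of matrices up to `SU(N)`** -/
theorem classification (hN : 0 < N) :
    ∃ L : Nat.Partition N → Fin 3 → Matrix (Fin N) (Fin N) ℂ,
      (∀ p, IsSu2 (L p)) ∧
      (∀ L' : Fin 3 → Matrix (Fin N) (Fin N) ℂ, IsSu2 L' → ∃ (p : Nat.Partition N) (g : SU),
        ∀ i, (g : Matrix (Fin N) (Fin N) ℂ) * L p i * star (g : Matrix (Fin N) (Fin N) ℂ)
          = L' i) ∧
      (∀ (p q : Nat.Partition N) (g : SU),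
        (∀ i, (g : Matrix (Fin N) (Fin N) ℂ) * L p i * star (g : Matrix (Fin N) (Fin N) ℂ)
          = L q i) → p = q) := by
  choose T hT using fun p : Nat.Partition N => exists_trip_of_partition p
  have hmult : ∀ p n, (isSu2_matL (T p)).trip.mult n = p.parts.count n := by
    intro p n
    rw [mult_matL, hT]
  refine ⟨fun p => matL (T p), fun p => isSu2_matL (T p), ?_, ?_⟩
  · intro L' h'
    obtain ⟨p, hp⟩ := exists_partition h'.trip
    obtain ⟨g, hg⟩ := IsSu2.exists_conj hN (isSu2_matL (T p)) h' (fun n hn => by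
      rw [hmult, hp n hn])
    exact ⟨p, g, hg⟩
  · intro p q g hg
    refine partition_ext fun n _ => ?_
    rw [← hmult p n, ← hmult q n]
    exact IsSu2.mult_eq_of_conj (isSu2_matL (T p)) (isSu2_matL (T q)) g hg n

end Crest.Agent.R330.Su2a303
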