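import Crest.Agent.R330.PairU_714
import Crest.Agent.R330.PairI2_658
import Crest.Agent.R330.PairE5_547
import Crest.Agent.R330.T5Gb_151

/-!
# R330/T5Err_714 : the expansion of (T5) in one chart (helper714)

`ErrAt` from: moments (916), bounds of the error list (547), vacuum component (776),
measurability (658), Gaussian (151).
-/

set_option autoImplicit false
set_option linter.unusedSectionVars false

open MeasureTheory Filter Topology Crest.MathPhysics.MatrixQM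
open scoped ContDiff InnerProductSpace ENNReal

noncomputable section

namespace Crest.Agent.R330.T5Err714

open Crest.Agent.R330.Defs478 Crest.Agent.R330.LS839 Crest.Agent.R330.Frame839
  Crest.Agent.R330.Bind6839 Crest.Agent.R330.TDef414 Crest.Agent.R330.PairB547
  Crest.Agent.R330.PairE547 Crest.Agent.R330.PairL_862 Crest.Agent.R330.PairC714
  Crest.Agent.R330.PairD714 Crest.Agent.R330.TrialSys796 Crest.Agent.R330.PairT714
  Crest.Agent.R330.PairU714 Crest.Agent.R330.PairI658 Crest.Agent.R330.LightC916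
  Crest.Agent.R330.T5G151

variable {N p : ℕ} {b : ColorBasis N} {S : Type} [Group S] [Fintype S] {C : Chn b p S}
variable {F : Type*} [NormedAddCommGroup F] [InnerProductSpace ℂ F] [FiniteDimensional ℂ F]
variable {M : FermionRep N F} {R : GaugeAction b M} {G : GammaNine}

/-- the light function on `L` -/
def psT (P : TPack C M R G) (σ : Sl C) (χ : Amp M G σ) (g : ℝ) (q : LL σ) : F :=
  om P σ.X0 g χ.fn (q : Cfg N)

/-- its first error -/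
def reT (P : TPack C M R G) (σ : Sl C) (α : Fin 16) (χ : Amp M G σ) (g : ℝ) (q : LL σ) : F :=
  rhoE P σ.X0 g α χ.fn (q : Cfg N)

/-- its second error -/
def rsT (P : TPack C M R G) (σ : Sl C) (m : ℝ) (α : Fin 16) (χ : Amp M G σ) (g : ℝ) (q : LL σ) :
    F := rhoS P σ.X0 g m α χ.fn (q : Cfg N)

/-- the sizes of the light function -/
def szT (P : TPack C M R G) (σ : Sl C) (m : ℝ) (α : Fin 16) (χ : Amp M G σ) : Sizes (LL σ) where
  y q := ‖C.PY q‖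
  n0 g q := ‖psT P σ χ g q‖
  n1 g q := ‖fderiv ℝ (psT P σ χ g) q‖
  nE g q := ‖reT P σ α χ g q‖
  nS g q := ‖rsT P σ m α χ g q‖

/-- orthonormal basis of the orbit directions -/
abbrev bT (σ : Sl C) := stdOrthonormalBasis ℝ (Tn (actB b) (C.cf σ.X0))

/-- orthonormal basis of `L` -/
abbrev bU (σ : Sl C) := stdOrthonormalBasis ℝ (LL σ)

/-- orthonormal basis of `Z` -/
abbrev bV (σ : Sl C) := stdOrthonormalBasis ℝ (ZZ σ)

/-- amplitude without cut-off -/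
def a0 (P : TPack C M R G) (σ : Sl C) (g : ℝ) : LL σ × ZZ σ → ℝ :=
  aL P σ (Tup C.kk) (C.Zt σ.X0) g

/-- amplitude with cut-off -/
def a1 (P : TPack C M R G) (σ : Sl C) (g : ℝ) (x : LL σ × ZZ σ) : ℝ :=
  kap σ.r (‖x.2‖ ^ 2) * a0 P σ g x

/-- odd errors -/
def E1 (P : TPack C M R G) (σ : Sl C) (Γ : F →ₗ[ℂ] F) (m : ℝ) (α : Fin 16) (χ : Amp M G σ)
    (g : ℝ) (x : LL σ × ZZ σ) : F :=
  err1 (ThL M G α) (WqL b M G α) (WlL M G α) (BfL b M) Γ (PXI C (Tup C.kk)) (bT σ) (bU σ) (bV σ)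
    g m (BrT5658.dec_sl σ) (a1 P σ g) (psT P σ χ g) (rsT P σ m α χ g) x

/-- even errors of order one -/
def E2 (P : TPack C M R G) (σ : Sl C) (Γ : F →ₗ[ℂ] F) (α : Fin 16) (χ : Amp M G σ)
    (g : ℝ) (x : LL σ × ZZ σ) : F :=
  err2 (ThL M G α) (WqL b M G α) (BfL b M) Γ (PXI C (Tup C.kk)) (bT σ) (bU σ) g (a0 P σ g)
    (psT P σ χ g) (reT P σ α χ g) x

/-- small errors -/
def E3 (P : TPack C M R G) (σ : Sl C) (Γ : F →ₗ[ℂ] F) (m : ℝ) (α : Fin 16) (χ : Amp M G σ)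
    (g : ℝ) (x : LL σ × ZZ σ) : F :=
  err3 (ThL M G α) (WqL b M G α) (BfL b M) Γ (PXI C (Tup C.kk)) (bT σ) (bU σ) g (a0 P σ g)
    (a1 P σ g) (psT P σ χ g) (reT P σ α χ g) (rsT P σ m α χ g) x

theorem a0_eq (P : TPack C M R G) (σ : Sl C) (g : ℝ) (x : LL σ × ZZ σ)
    (h : ‖C.cfT (x.1 : Cfg N)‖ < σ.r / 4) :
    a0 P σ g x = nrm P σ g (σ.X0 + C.cfT x.1) *
        Real.exp (-(g / 2 * ⟪P.A (σ.X0 + C.cfT x.1) x.2, x.2⟫_ℝ)) := by
  unfold a0
  rw [aL_eq P σ _ _ g (by have := σ.pos; linarith)]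
  rfl

/-- **The sum of the errors.** -/
theorem sum_eq (P : TPack C M R G) (σ : Sl C) (Γ : F →ₗ[ℂ] F) (m : ℝ) (α : Fin 16)
    (χ : Amp M G σ) : ∀ᶠ g in atTop, ∀ x : LL σ × ZZ σ,
      QT M G σ g m α (tauT P σ g χ.fn) x - tauT P σ g (C.Dx M G m α χ.fn) x =
        E1 P σ Γ m α χ g x + E2 P σ Γ α χ g x + E3 P σ Γ m α χ g x := by
  filter_upwards [P.Psi_smooth, eventually_gt_atTop 0] with g hΨ hg x
  exact err_lit P σ m α (hΨ.of_le (by norm_num)) χ rfl rfl (BrT5658.dec_sl σ) (bT σ) (bU σ)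
    (bV σ) Γ (a₀ := a0 P σ g) (a0_eq P σ g)
    ((contDiff_aL P σ rfl hg).differentiable (by simp)) x

/-- **The odd errors are odd.** -/
theorem odd (P : TPack C M R G) (σ : Sl C) {Γ : F →ₗ[ℂ] F} (hΓ : ParT M G σ Γ) (m : ℝ)
    (α : Fin 16) (χ : Amp M G σ) : ∀ᶠ g in atTop, ∀ x : LL σ × ZZ σ,
      Γ (E1 P σ Γ m α χ g x) = -E1 P σ Γ m α χ g x := by
  filter_upwards [P.Psi_smooth] with g hΨ x
  refine err1_odd (BfL b M) (fun q => ?_) (parI rfl rfl hΓ.par α) (bT σ) (bU σ) (bV σ) g m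
    (BrT5658.dec_sl σ) (a1 P σ g) ((contDiff_omL P σ hΨ χ _).differentiable (by simp))
    (fun q => ?_) (rsT P σ m α χ g) x
  · exact BrT5658.cf_mem _
  · by_cases h1 : om P σ.X0 g χ.fn (q : Cfg N) = 0
    · change Γ (om P σ.X0 g χ.fn (q : Cfg N)) = om P σ.X0 g χ.fn (q : Cfg N)
      rw [h1, map_zero]
    · have h2 := (om_supp P σ g χ h1).1
      exact ParT.vac hΓ P (χ.off _ h2) (P.Psi_mem g _ (LitA974.PY_mem C q) _ (χ.fn _).2)

/-- The integrand vanishes off the support. -/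
theorem off_supp (P : TPack C M R G) (σ : Sl C) (m : ℝ) (α : Fin 16) (χ : Amp M G σ) :
    ∀ᶠ g in atTop, ∀ x : LL σ × ZZ σ, ¬ (‖x.1‖ ≤ σ.r / 3 ∧ ‖x.2‖ ≤ σ.r / 4) →
      QT M G σ g m α (tauT P σ g χ.fn) x - tauT P σ g (C.Dx M G m α χ.fn) x = 0 := by
  filter_upwards [eventually_s P σ] with g hs x hx
  have hr := σ.pos
  have key : ∀ (χ : Amp M G σ) (y : LL σ × ZZ σ), ¬ (‖y.1‖ ≤ σ.r / 3 ∧ ‖y.2‖ ≤ σ.r / 4) →
      tauT P σ g χ.fn y = 0 := by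
    intro χ y hy
    rw [tauT_smul P σ g χ y]
    by_cases h1 : ‖y.1‖ ≤ σ.r / 3
    · have h2 : σ.r / 4 < ‖y.2‖ := by
        by_contra h3
        exact hy ⟨h1, not_lt.1 h3⟩
      have h3 : kapZ σ (C.Zt σ.X0) y.2 = 0 := by
        unfold kapZ
        refine kap_zero hr ?_
        nlinarith
      rw [h3, zero_mul, zero_smul]
    · have h2 : BrT5658.omT P σ g χ.fn y.1 = 0 := (om_far P σ hs χ rfl (not_le.1 h1)).1
      rw [h2, smul_zero]
  have hopen : IsOpen {y : LL σ × ZZ σ | ¬ (‖y.1‖ ≤ σ.r / 3 ∧ ‖y.2‖ ≤ σ.r / 4)} := by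
    have h1 : IsClosed {y : LL σ × ZZ σ | ‖y.1‖ ≤ σ.r / 3 ∧ ‖y.2‖ ≤ σ.r / 4} :=
      (isClosed_le continuous_fst.norm continuous_const).inter
        (isClosed_le continuous_snd.norm continuous_const)
    exact isOpen_compl_iff.2 h1
  have h1 : tauT P σ g χ.fn =ᶠ[𝓝 x] 0 := by
    filter_upwards [hopen.mem_nhds hx] with y hy
    exact key χ y hy
  have h2 : QT M G σ g m α (tauT P σ g χ.fn) x = 0 := BrT5b658.QdP_zero _ _ _ _ _ _ _ h1
  have h3 : tauT P σ g (C.Dx M G m α χ.fn) x = 0 := key (χ.D m α) x hx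
  rw [h2, h3, sub_zero]

/-- continuity of the trial function -/
theorem contDiff_tauT (P : TPack C M R G) (σ : Sl C) {g : ℝ} (hg : 0 < g)
    (hΨ : ContDiff ℝ ∞ (P.Psi g)) (χ : Amp M G σ) : ContDiff ℝ ∞ (tauT P σ g χ.fn) := by
  have hadd : ContDiff ℝ ∞ fun x : LL σ × ZZ σ => (x.1 : Cfg N) + x.2 :=
    ((Tup C.kk).subtypeL.contDiff.comp contDiff_fst).add
      ((C.Zt σ.X0).subtypeL.contDiff.comp contDiff_snd)
  exact (BrT5c658.contDiff_tau P σ hg hΨ χ).comp hadd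

/-- continuity of the integrand -/
theorem continuous_diff (P : TPack C M R G) (σ : Sl C) (m : ℝ) (α : Fin 16) (χ : Amp M G σ) :
    ∀ᶠ g in atTop, Continuous fun x : LL σ × ZZ σ =>
      QT M G σ g m α (tauT P σ g χ.fn) x - tauT P σ g (C.Dx M G m α χ.fn) x := by
  obtain ⟨r₀, B, hr0, hB0, hB, hgap, hBr⟩ := σ.gap
  filter_upwards [P.Psi_smooth, eventually_gt_atTop 0, eventually_s P σ] with g hΨ hg hs
  have hr := σ.pos
  refine Continuous.sub ?_ (contDiff_tauT P σ hg hΨ (χ.D m α)).continuous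
  refine BrT5b658.continuous_QdP (BrT5658.dec_sl σ) hr0 hgap hB (ThL M G α)
    (fun v => continuous_Wp b M G g m α v) (BfL b M) (bT σ) (bU σ) (bV σ)
    ((contDiff_tauT P σ hg hΨ χ).of_le (by norm_num)) fun x hx => ?_
  have h1 : ‖(x.1 : Cfg N) + x.2‖ ≤ 3 * σ.r / 4 :=
    BrT5c658.tsupport_tau P σ (by linarith) χ hx
  exact le_trans (mul_le_mul_of_nonneg_left (by linarith) hB0) hBr

/-- measurability of the odd errors by difference -/
theorem meas1 (P : TPack C M R G) (σ : Sl C) (Γ : F →ₗ[ℂ] F) (m : ℝ) (α : Fin 16)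
    (χ : Amp M G σ)
    (h2 : ∀ᶠ g in atTop, AEStronglyMeasurable (E2 P σ Γ α χ g) (volume.prod volume))
    (h3 : ∀ᶠ g in atTop, AEStronglyMeasurable (E3 P σ Γ m α χ g) (volume.prod volume)) :
    ∀ᶠ g in atTop, AEStronglyMeasurable (E1 P σ Γ m α χ g) (volume.prod volume) := by
  filter_upwards [h2, h3, continuous_diff P σ m α χ, sum_eq P σ Γ m α χ] with g g2 g3 gc gs
  have h4 : E1 P σ Γ m α χ g = fun x => (QT M G σ g m α (tauT P σ g χ.fn) x -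
      tauT P σ g (C.Dx M G m α χ.fn) x) - E2 P σ Γ α χ g x - E3 P σ Γ m α χ g x := by
    funext x
    rw [gs x]
    abel
  rw [h4]
  exact (gc.aestronglyMeasurable.sub g2).sub g3

/-! ## the classes -/

section cls

variable {Z : Type*} [MeasurableSpace Z] [NormedAddCommGroup Z]

theorem ineq1 {y n0 n1 nE nS g : ℝ} {z : Z} (hg : 1 ≤ g) (hy : 0 ≤ y) (h0 : 0 ≤ n0)
    (h1 : 0 ≤ n1) (hE : 0 ≤ nE) (hS : 0 ≤ nS) :
    (1 + g * ‖z‖ ^ 2 + g * y * ‖z‖) * n0 + ‖z‖ * n1 + nS ≤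
      wt g z * (√g * y * n0 + n0 + (√g)⁻¹ * n1 + nE + nS) := by
  have hg0 : 0 ≤ g := zero_le_one.trans hg
  have hsg : 1 ≤ √g := Real.one_le_sqrt.2 hg
  have hsg0 : 0 < √g := lt_of_lt_of_le one_pos hsg
  set t := √g * ‖z‖ with ht
  have ht0 : 0 ≤ t := mul_nonneg hsg0.le (norm_nonneg _)
  have e1 : g * ‖z‖ ^ 2 = t ^ 2 := by rw [ht, mul_pow, Real.sq_sqrt hg0]
  have e2 : g * y * ‖z‖ = √g * y * t := by
    rw [ht]
    nth_rewrite 1 [← Real.mul_self_sqrt hg0]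
    ring
  have e3 : ‖z‖ = (√g)⁻¹ * t := by rw [ht]; field_simp
  have w0 : 1 + t ^ 2 ≤ wt g z := by
    unfold wt
    rw [← ht]
    nlinarith [pow_nonneg ht0 2, pow_nonneg ht0 3, pow_nonneg ht0 4]
  have w1 : t ≤ wt g z := by nlinarith [sq_nonneg (t - 1)]
  have w2 : 1 ≤ wt g z := one_le_wt g z
  rw [e1, e2, e3]
  have a1 : 0 ≤ √g * y * n0 := by positivity
  have a2 : 0 ≤ (√g)⁻¹ * n1 := by positivity
  have b1 := mul_le_mul_of_nonneg_right w0 h0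
  have b2 := mul_le_mul_of_nonneg_right w1 a1
  have b3 := mul_le_mul_of_nonneg_right w1 a2
  have b4 := mul_le_mul_of_nonneg_right w2 hS
  have b5 := mul_nonneg (zero_le_one.trans w2) hE
  nlinarith

theorem ineq2 {n0 nE g : ℝ} {z : Z} (hg : 1 ≤ g) (h0 : 0 ≤ n0) (hE : 0 ≤ nE) :
    (1 + g * ‖z‖ ^ 2) * n0 + nE ≤ wt g z * (n0 + nE) := by
  have hg0 : 0 ≤ g := zero_le_one.trans hg
  set t := √g * ‖z‖ with ht
  have ht0 : 0 ≤ t := mul_nonneg (Real.sqrt_nonneg _) (norm_nonneg _)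
  have e1 : g * ‖z‖ ^ 2 = t ^ 2 := by rw [ht, mul_pow, Real.sq_sqrt hg0]
  have w0 : 1 + t ^ 2 ≤ wt g z := by
    unfold wt
    rw [← ht]
    nlinarith [pow_nonneg ht0 2, pow_nonneg ht0 3, pow_nonneg ht0 4]
  have w2 : 1 ≤ wt g z := one_le_wt g z
  rw [e1]
  have b1 := mul_le_mul_of_nonneg_right w0 h0
  have b4 := mul_le_mul_of_nonneg_right w2 hE
  nlinarith

theorem ineq3 {y n0 n1 nE nS g : ℝ} {z : Z} (hg : 1 ≤ g) (hy : 0 ≤ y) (h0 : 0 ≤ n0)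
    (h1 : 0 ≤ n1) (hE : 0 ≤ nE) (hS : 0 ≤ nS) :
    (‖z‖ ^ 2 * (1 + g * ‖z‖ ^ 2) + y + ‖z‖) * n0 + ‖z‖ ^ 2 * nE + nS ≤
      2 * wt g z * ((y + (√g)⁻¹) * n0 + nS + (√g)⁻¹ * n1 + (√g)⁻¹ * nE) := by
  have hg0 : 0 ≤ g := zero_le_one.trans hg
  have hsg : 1 ≤ √g := Real.one_le_sqrt.2 hg
  have hsg0 : 0 < √g := lt_of_lt_of_le one_pos hsg
  set i := (√g)⁻¹ with hi
  have hi0 : 0 < i := inv_pos.2 hsg0
  have hi1 : i ≤ 1 := inv_le_one_of_one_le₀ hsg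
  set t := √g * ‖z‖ with ht
  have ht0 : 0 ≤ t := mul_nonneg hsg0.le (norm_nonneg _)
  have e1 : g * ‖z‖ ^ 2 = t ^ 2 := by rw [ht, mul_pow, Real.sq_sqrt hg0]
  have e3 : ‖z‖ = i * t := by rw [ht, hi]; field_simp
  have e4 : ‖z‖ ^ 2 ≤ i * t ^ 2 := by
    rw [e3, mul_pow]
    have : i ^ 2 ≤ i := by nlinarith
    exact mul_le_mul_of_nonneg_right this (sq_nonneg _)
  have w0 : t ^ 2 * (1 + t ^ 2) + t ≤ 2 * wt g z := by
    unfold wt
    rw [← ht]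
    nlinarith [pow_nonneg ht0 2, pow_nonneg ht0 3, pow_nonneg ht0 4]
  have w1 : t ^ 2 ≤ 2 * wt g z := by nlinarith [pow_nonneg ht0 4]
  have w2 : 1 ≤ 2 * wt g z := by
    have := one_le_wt g z
    linarith
  have c1 : ‖z‖ ^ 2 * (1 + g * ‖z‖ ^ 2) + y + ‖z‖ ≤ 2 * wt g z * (y + i) := by
    rw [e1]
    have d1 : ‖z‖ ^ 2 * (1 + t ^ 2) ≤ i * t ^ 2 * (1 + t ^ 2) :=
      mul_le_mul_of_nonneg_right e4 (by positivity)
    have d2 := mul_le_mul_of_nonneg_left w0 hi0.le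
    have d3 := mul_le_mul_of_nonneg_right w2 hy
    rw [e3] at d1 ⊢
    nlinarith
  have c2 := mul_le_mul_of_nonneg_right c1 h0
  have c3 : ‖z‖ ^ 2 * nE ≤ 2 * wt g z * (i * nE) := by
    have d1 := mul_le_mul_of_nonneg_right e4 hE
    have d2 := mul_le_mul_of_nonneg_left w1 (mul_nonneg hi0.le hE)
    nlinarith
  have c4 := mul_le_mul_of_nonneg_right w2 hS
  have c5 : 0 ≤ 2 * wt g z * (i * n1) := by
    have := one_le_wt g z
    positivity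
  nlinarith

end cls

theorem norm_PXI (σ : Sl C) (q : LL σ) : ‖(q : Cfg N) - PXI C (Tup C.kk) q‖ = ‖C.PY q‖ := by
  congr 1
  unfold Chn.PY
  rw [BrT5658.PK_of_mem q.2]
  rfl

theorem AmpOk.mono' {E : Type*} [NormedAddCommGroup E] [InnerProductSpace ℝ E]
    {L Z : Submodule ℝ E} {g K K' ρ : ℝ} {a₀ : L × Z → ℝ} (h : AmpOk g K ρ a₀) (hK : K ≤ K')
    (hg : 0 ≤ g) : AmpOk g K' ρ a₀ where
  diff := h.diff
  nonneg := h.nonneg
  dL x hx w := (h.dL x hx w).trans (by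
    have := h.nonneg x
    gcongr)
  dZ x hx w := (h.dZ x hx w).trans (by
    have := h.nonneg x
    gcongr)

theorem CutOk.mono' {E : Type*} [NormedAddCommGroup E] [InnerProductSpace ℝ E]
    {Z : Submodule ℝ E} {K K' ρ : ℝ} {ϰ : Z → ℝ} (h : CutOk K ρ ϰ) (hK : K ≤ K') :
    CutOk K' ρ ϰ where
  diff := h.diff
  nonneg := h.nonneg
  le_one := h.le_one
  near z := (h.near z).trans (by gcongr)
  der z w := (h.der z w).trans (by gcongr)
  supp := h.supp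
  dsupp := h.dsupp

/-- **The three classes.** -/
theorem classes (P : TPack C M R G) (σ : Sl C) (hr1 : σ.r ≤ 1)
    (hBR : ∀ X : Pos p, ‖X - σ.X0‖ < σ.r → C.BReg X) {Γ : F →ₗ[ℂ] F} (hΓ : ParT M G σ Γ)
    (m : ℝ) (α : Fin 16) (χ : Amp M G σ) :
    Cls (aT5 P σ) (szT P σ m α χ).h1 (E1 P σ Γ m α χ) ∧
    Cls (aT5 P σ) (szT P σ m α χ).h2 (E2 P σ Γ α χ) ∧
    Cls (aT5 P σ) (szT P σ m α χ).h3 (E3 P σ Γ m α χ) := by
  have hr := σ.pos
  obtain ⟨r₀, B, hG⟩ := geoI σ (L := Tup C.kk) (Z := C.Zt σ.X0) rfl rfl (ρ := σ.r / 3)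
    (by positivity) (by linarith) (by linarith)
  obtain ⟨K, hK, hC⟩ := cstI b M G
  obtain ⟨K1, hK1, hA⟩ := ampOk P σ (L := Tup C.kk) (Z := C.Zt σ.X0) rfl (ρ := σ.r / 3)
    (by linarith)
  obtain ⟨K2, hK2, hcut⟩ := cutOk σ (C.Zt σ.X0) (ρ := σ.r / 3) (by linarith)
  obtain ⟨D, hD, hb⟩ := exists_bounds hG (hC α) (fun f => (hΓ.par.norm f).le) (bT σ) (bU σ) (bV σ)
    (K' := max K1 K2) (m₀ := |m|) (le_max_of_le_left hK1) (abs_nonneg m)
  have key : ∀ᶠ g in atTop, ∀ x : LL σ × ZZ σ,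
      ‖E1 P σ Γ m α χ g x‖ ≤
        D * a0 P σ g x * ((1 + g * ‖x.2‖ ^ 2 + g * ‖C.PY (x.1 : Cfg N)‖ * ‖x.2‖) *
          ‖psT P σ χ g x.1‖ + ‖x.2‖ * ‖fderiv ℝ (psT P σ χ g) x.1‖ + ‖rsT P σ m α χ g x.1‖) ∧
      ‖E2 P σ Γ α χ g x‖ ≤
        D * a0 P σ g x * ((1 + g * ‖x.2‖ ^ 2) * ‖psT P σ χ g x.1‖ + ‖reT P σ α χ g x.1‖) ∧
      ‖E3 P σ Γ m α χ g x‖ ≤
        D * a0 P σ g x * ((‖x.2‖ ^ 2 * (1 + g * ‖x.2‖ ^ 2) + ‖C.PY (x.1 : Cfg N)‖ + ‖x.2‖) *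
          ‖psT P σ χ g x.1‖ + ‖x.2‖ ^ 2 * ‖reT P σ α χ g x.1‖ + ‖rsT P σ m α χ g x.1‖) := by
    filter_upwards [eventually_gt_atTop 0, P.Psi_smooth, eventually_s P σ] with g hg hΨ hs x
    have h1 := hb g m hg.le le_rfl (a0 P σ g) (kapZ σ (C.Zt σ.X0))
      (AmpOk.mono' (hA g hg) (le_max_left _ _) hg.le) (CutOk.mono' hcut (le_max_right _ _))
      (psT P σ χ g) (reT P σ α χ g) (rsT P σ m α χ g)
      (fun q hq => (om_far P σ hs χ rfl hq).1) (fun q hq => (om_far P σ hs χ rfl hq).2)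
      (fun y hy => ?_) x
    · rw [norm_PXI σ x.1] at h1
      exact h1
    · have h2 : ‖C.cfT (y.1 : Cfg N)‖ ≤ σ.r / 3 := (LitA974.norm_cfT_le C _).trans hy
      obtain ⟨f, hf, hom⟩ := om_vac P σ.X0 g χ.fn (y.1 : Cfg N)
      refine HM_lit P σ rfl hG (bT σ) (bV σ) g α hy (hBR _ ?_) (fun w => ?_) hf hom
      · rw [add_sub_cancel_left]
        linarith
      · exact fderiv_aL_z P σ hg (by linarith) w
  have hy : ∀ q : LL σ, 0 ≤ ‖C.PY (q : Cfg N)‖ := fun q => norm_nonneg _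
  have ha : ∀ (g : ℝ) (x : LL σ × ZZ σ), 0 ≤ a0 P σ g x := fun g x => aL_nonneg P σ _ _ g x
  refine ⟨⟨D, hD, ?_⟩, ⟨D, hD, ?_⟩, ⟨2 * D, by positivity, ?_⟩⟩
  · filter_upwards [key, eventually_ge_atTop 1] with g h hg q z
    refine (h (q, z)).1.trans ?_
    have h2 := ineq1 (z := z) hg (hy q) (norm_nonneg (psT P σ χ g q))
      (norm_nonneg (fderiv ℝ (psT P σ χ g) q)) (norm_nonneg (reT P σ α χ g q))
      (norm_nonneg (rsT P σ m α χ g q))
    calc _ ≤ D * a0 P σ g (q, z) * _ :=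
          mul_le_mul_of_nonneg_left h2 (mul_nonneg hD (ha g (q, z)))
      _ = _ := by
        unfold Sizes.h1 szT aT5 a0
        ring
  · filter_upwards [key, eventually_ge_atTop 1] with g h hg q z
    refine (h (q, z)).2.1.trans ?_
    have h2 := ineq2 (z := z) hg (norm_nonneg (psT P σ χ g q)) (norm_nonneg (reT P σ α χ g q))
    calc _ ≤ D * a0 P σ g (q, z) * _ :=
          mul_le_mul_of_nonneg_left h2 (mul_nonneg hD (ha g (q, z)))
      _ = _ := by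
        unfold Sizes.h2 szT aT5 a0
        ring
  · filter_upwards [key, eventually_ge_atTop 1] with g h hg q z
    refine (h (q, z)).2.2.trans ?_
    have h2 := ineq3 (z := z) hg (hy q) (norm_nonneg (psT P σ χ g q))
      (norm_nonneg (fderiv ℝ (psT P σ χ g) q)) (norm_nonneg (reT P σ α χ g q))
      (norm_nonneg (rsT P σ m α χ g q))
    calc _ ≤ D * a0 P σ g (q, z) * _ :=
          mul_le_mul_of_nonneg_left h2 (mul_nonneg hD (ha g (q, z)))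
      _ = _ := by
        unfold Sizes.h3 szT aT5 a0
        ring

end Crest.Agent.R330.T5Err714

end
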