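import Crest.Agent.R330.T5Err_714
import Crest.Agent.R330.PairW_547
import Crest.Agent.R330.RhoM_151
import Crest.Agent.R330.LightM_916
import Crest.Agent.R330.LemP_342
import Crest.Agent.R330.FibP_581
import Crest.Agent.R330.SlEx_814

/-!
# R330/T5Fin_714 : (T5) for small charts (helper714)

* `errAt` : the expansion, from the vacuum component (776).
* `exists_parT` : the parity of a chart centred in `BReg`.
* `dualAt_of_test` : (T5) for a small chart from the vacuum component and (T5-TEST).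
-/

set_option autoImplicit false
set_option linter.unusedSectionVars false

open MeasureTheory Filter Topology Crest.MathPhysics.MatrixQM
open scoped ContDiff InnerProductSpace ENNReal

noncomputable section

namespace Crest.Agent.R330.T5Fin714

open Crest.Agent.R330.Defs478 Crest.Agent.R330.LS839 Crest.Agent.R330.Frame839
  Crest.Agent.R330.Bind6839 Crest.Agent.R330.TDef414 Crest.Agent.R330.PairB547
  Crest.Agent.R330.PairE547 Crest.Agent.R330.PairL_862 Crest.Agent.R330.PairC714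
  Crest.Agent.R330.PairD714 Crest.Agent.R330.TrialSys796 Crest.Agent.R330.PairT714
  Crest.Agent.R330.PairU714 Crest.Agent.R330.PairI658 Crest.Agent.R330.LightC916
  Crest.Agent.R330.T5G151 Crest.Agent.R330.T5Err714

variable {N p : ℕ} {b : ColorBasis N} {S : Type} [Group S] [Fintype S] {C : Chn b p S}
variable {F : Type*} [NormedAddCommGroup F] [InnerProductSpace ℂ F] [FiniteDimensional ℂ F]
variable {M : FermionRep N F} {R : GaugeAction b M} {G : GammaNine}

/-- (776) the vacuum component of the even errors. -/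
def VacAt (P : TPack C M R G) (σ : Sl C) (Γ : F →ₗ[ℂ] F) : Prop :=
  ∀ (g : ℝ), 0 < g → ∀ (α : Fin 16) (χ : Amp M G σ), ∀ q ∈ Sb σ (Tup C.kk),
    PT P (Xq σ q) (∫ z : ZZ σ, PairT714.gsT P σ g q z • E2 P σ Γ α χ g (q, z)) = 0

/-- measurability of the even and of the small errors -/
theorem meas23 (P : TPack C M R G) (σ : Sl C) (Γ : F →ₗ[ℂ] F) (m : ℝ) (α : Fin 16)
    (χ : Amp M G σ) : ∀ᶠ g in atTop,
    AEStronglyMeasurable (E2 P σ Γ α χ g) (volume.prod volume) ∧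
    AEStronglyMeasurable (E3 P σ Γ m α χ g) (volume.prod volume) := by
  filter_upwards [P.Psi_smooth, eventually_gt_atTop 0] with g hΨ hg
  have h1 : StronglyMeasurable (a0 P σ g) := (contDiff_aL P σ rfl hg).continuous.stronglyMeasurable
  have h2 : StronglyMeasurable (a1 P σ g) := by
    have hc : Continuous (a1 P σ g) := by
      unfold a1
      exact (((contDiff_kap σ.r).continuous).comp (continuous_snd.norm.pow 2)).mul
        (contDiff_aL P σ rfl hg).continuous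
    exact hc.stronglyMeasurable
  have h3 : StronglyMeasurable (psT P σ χ g) := RhoM151.sm_omL P σ hΨ.continuous χ _
  have h4 : StronglyMeasurable (reT P σ α χ g) := RhoM151.sm_rhoE P σ hΨ.continuous α χ _
  have h5 : StronglyMeasurable (rsT P σ m α χ g) :=
    RhoM151.sm_rhoS P σ (hΨ.of_le (by norm_num)) m α χ _
  exact ⟨(sm_err2 (bT σ) (bU σ) g h1 h3 h4).aestronglyMeasurable,
    (sm_err3 (bT σ) (bU σ) g h1 h2 h3 h4 h5).aestronglyMeasurable⟩

/-- the support of the sizes -/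
theorem supp (P : TPack C M R G) (σ : Sl C) (m : ℝ) (α : Fin 16) (χ : Amp M G σ) :
    (szT P σ m α χ).Supp (Sb σ (Tup C.kk)) := by
  have hr := σ.pos
  filter_upwards [P.Psi_smooth, P.s_lim.eventually (gt_mem_nhds (show (0 : ℝ) < σ.r / 6 by
    positivity))] with g hΨ hs q hq
  have hq' : σ.r / 3 < ‖q‖ := not_le.1 hq
  obtain ⟨h1, h2, h3⟩ := LightM916.out_zero (P := P) (X0 := σ.X0) (g := g) (χ := χ.fn) hr
    (χ.supp.trans Metric.ball_subset_closedBall) (hΨ.of_le (by norm_num)) hs.le hq'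
  refine ⟨?_, ?_, ?_, ?_⟩
  · change ‖psT P σ χ g q‖ = 0
    rw [show psT P σ χ g q = 0 from h1.eq_of_nhds, norm_zero]
  · change ‖fderiv ℝ (psT P σ χ g) q‖ = 0
    have h4 : fderiv ℝ (psT P σ χ g) q = 0 := by
      have h5 : psT P σ χ g =ᶠ[𝓝 q] fun _ => 0 := h1
      rw [h5.fderiv_eq]
      simp
    rw [h4]
    exact ContinuousLinearMap.opNorm_zero
  · change ‖reT P σ α χ g q‖ = 0
    rw [show reT P σ α χ g q = 0 from h2 α, norm_zero]
  · change ‖rsT P σ m α χ g q‖ = 0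
    rw [show rsT P σ m α χ g q = 0 from h3 m α, norm_zero]

/-- **The expansion.** -/
theorem errAt (P : TPack C M R G) (σ : Sl C) (hr1 : σ.r ≤ 1)
    (hBR : ∀ X : Pos p, ‖X - σ.X0‖ < σ.r → C.BReg X) {Γ : F →ₗ[ℂ] F} (hΓ : ParT M G σ Γ)
    (hv : VacAt P σ Γ) (m : ℝ) (α : Fin 16) (χ : Amp M G σ) :
    ErrAt P σ (aT5 P σ) Γ m α χ := by
  obtain ⟨c1, c2, c3⟩ := classes P σ hr1 hBR hΓ m α χ
  have h23 := meas23 P σ Γ m α χ
  refine ⟨szT P σ m α χ, E1 P σ Γ m α χ, E2 P σ Γ α χ, E3 P σ Γ m α χ, fun _ => rfl,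
    LightM916.moms P σ.X0 m α χ.smooth χ.compact χ.off, supp P σ m α χ, c1, c2, c3, ?_⟩
  filter_upwards [meas1 P σ Γ m α χ (h23.mono fun g h => h.1) (h23.mono fun g h => h.2), h23,
    odd P σ hΓ m α χ, sum_eq P σ Γ m α χ, off_supp P σ m α χ, eventually_gt_atTop 0]
    with g g1 g2 g3 g4 g5 g6
  exact ⟨g1, g2.1, g2.2, g3, fun q hq => hv g g6 α χ q hq, g4, g5⟩

/-- **The parity of a chart.** -/
theorem exists_parT [Nontrivial F] (P : TPack C M R G) (σ : Sl C) (hX : C.BReg σ.X0) :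
    ∃ Γ : F →ₗ[ℂ] F, ParT M G σ Γ := by
  obtain ⟨Γ, hΓ, hv⟩ := FibP581.exists_par b G M (AFld984.comc_cf C σ.X0)
  refine ⟨Γ, parT_of P hX (par_of_isPar hΓ) fun f hf => hv _ ?_⟩
  have h1 := (LemP342.isVac_iff P hX.reg (P.U σ.X0 f)).1
    fun z hz α => P.U_kill σ.X0 hX f hf z hz α
  have h2 : kc (actB b) (C.cf σ.X0) = C.kk := hX.reg
  have e : FibP581.JX b G (C.cf σ.X0) (C.cf σ.X0) = Fib892.Jl b G C.kk (C.cf σ.X0) := by
    unfold FibP581.JX
    rw [h2]
  rw [e]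
  exact h1

/-- **(T5) for a small chart.** -/
theorem dualAt_of_test [Nontrivial F] (P : TPack C M R G) (σ : Sl C) (hr1 : σ.r ≤ 1)
    (hBR : ∀ X : Pos p, ‖X - σ.X0‖ < σ.r → C.BReg X)
    (hv : ∀ Γ : F →ₗ[ℂ] F, ParT M G σ Γ → VacAt P σ Γ) (hT : TestAt P σ) : DualAt P σ := by
  obtain ⟨Γ, hΓ⟩ := exists_parT P σ (hBR σ.X0 (by simpa using σ.pos))
  exact dualAt_of P σ hΓ hT (fibMomT P σ) (memLpT P σ)
    fun m _ α χ => errAt P σ hr1 hBR hΓ (hv Γ hΓ) m α χ

/-- **Small charts.** -/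
theorem exists_small (X0 : Pos p) (h0 : C.BReg X0) {δ : ℝ} (hδ : 0 < δ) :
    ∃ σ : Sl C, σ.X0 = X0 ∧ σ.r ≤ δ ∧ σ.r ≤ 1 ∧ ∀ X : Pos p, ‖X - σ.X0‖ < σ.r → C.BReg X := by
  obtain ⟨ε, hε, hball⟩ := Metric.isOpen_iff.1 C.isOpen_breg X0 h0
  obtain ⟨σ, hσ, hr⟩ := SlEx814.exists_Sl C h0.reg (lt_min (lt_min hδ one_pos) hε)
  refine ⟨σ, hσ, (hr.trans_le ((min_le_left _ _).trans (min_le_left _ _))).le,
    (hr.trans_le ((min_le_left _ _).trans (min_le_right _ _))).le, fun X hX => hball ?_⟩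
  rw [Metric.mem_ball, dist_eq_norm, ← hσ]
  exact hX.trans (hr.trans_le (min_le_right _ _))

end Crest.Agent.R330.T5Fin714

end
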