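import Crest.Agent.R330.PairT_714
import Crest.Agent.R330.Gram_167
import Crest.Agent.R330.ChSys_399
import Crest.Agent.R330.Gram3_893

/-!
# Row 330, T5-SM (helper581): (T5) from small charts

* `dual_move` : the dual estimate moves from a chart `σ'` to a chart `σ` for a common amplitude.
* `dualT_of_small` : `DualT P` from `DualAt P σ` for one chart `σ` at every position in `BReg`.
-/

set_option autoImplicit false
set_option linter.unusedSectionVars false

open MeasureTheory Filter Topology Crest.MathPhysics.MatrixQM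
open scoped ContDiff InnerProductSpace ENNReal

noncomputable section

namespace Crest.Agent.R330.T5Sm581

open Crest.Agent.R330.Defs478 Crest.Agent.R330.TDef414 Crest.Agent.R330.TrialSys796
  Crest.Agent.R330.PairT714 Crest.Agent.R330.Gram167 Crest.Agent.R330.Brid837
  Crest.Agent.R330.Perm167 Crest.Agent.R330.Gram893

variable {N p : ℕ} {b : ColorBasis N} {S : Type} [Group S] [Fintype S] {C : Chn b p S}
variable {F : Type} [NormedAddCommGroup F] [InnerProductSpace ℂ F] [FiniteDimensional ℂ F]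
variable {M : FermionRep N F} {R : GaugeAction b M} {G : GammaNine}

/-- the error vector of the trial state -/
def ev (P : TPack C M R G) (σ : Sl C) (g m : ℝ) (α : Fin 16) (χ : Pos p → C.Fx M G)
    (x : Cfg N) : F :=
  dcharge b M G g m α (Tgen P σ g χ) x - Tgen P σ g (C.Dx M G m α χ) x

theorem qf_nonneg' (g m : ℝ) (φ : Cfg N → F) : 0 ≤ qf b M G g m φ := by
  unfold qf
  refine mul_nonneg (by norm_num) (Finset.sum_nonneg fun α _ => integral_nonneg fun x => ?_)
  positivity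

theorem norm_sq_le_En (g m : ℝ) (φ : Cfg N → F) : ∫ x, ‖φ x‖ ^ 2 ≤ En b M G g m φ := by
  unfold En
  have := qf_nonneg' (b := b) (M := M) (G := G) g m φ
  linarith

theorem dcharge_sq_le_En (g m : ℝ) (α : Fin 16) (φ : Cfg N → F) :
    ∫ x, ‖dcharge b M G g m α φ x‖ ^ 2 ≤ 16 * En b M G g m φ := by
  have h1 : ∫ x, ‖dcharge b M G g m α φ x‖ ^ 2 ≤
      ∑ α : Fin 16, ∫ x, ‖dcharge b M G g m α φ x‖ ^ 2 :=
    Finset.single_le_sum (f := fun α : Fin 16 => ∫ x, ‖dcharge b M G g m α φ x‖ ^ 2)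
      (fun α _ => integral_nonneg fun x => by positivity) (Finset.mem_univ α)
  have h2 : 0 ≤ ∫ x, ‖φ x‖ ^ 2 := integral_nonneg fun x => by positivity
  unfold En qf
  linarith

/-- The free charges of a finite sum. -/
theorem Dx_sum (m : ℝ) (α : Fin 16) {ι : Type*} (s : Finset ι) {χ : ι → Pos p → C.Fx M G}
    (h : ∀ i, ContDiff ℝ ∞ (χ i)) (X : Pos p) :
    C.Dx M G m α (fun X => ∑ i ∈ s, χ i X) X = ∑ i ∈ s, C.Dx M G m α (χ i) X := by
  unfold Chn.Dx IBP837.dirac
  have h1 : ∀ i ∈ s, DifferentiableAt ℝ (χ i) X := fun i _ => (h i).differentiable (by simp) X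
  rw [fderiv_fun_sum h1, map_sum, Finset.sum_add_distrib, Finset.sum_comm]
  congr 1
  refine Finset.sum_congr rfl fun k _ => ?_
  rw [_root_.sum_apply, map_sum, Finset.smul_sum]

variable {P : TPack C M R G}

/-- The dual estimate for a common amplitude of two charts. -/
theorem dual_move (hcore : ∀ (σ : Sl C) (χ : Amp M G σ), ∀ᶠ g in atTop,
      IsCoreVec b R (Tgen P σ g χ.fn)) (hch : HChart P) {σ σ' : Sl C} (hD : DualAt P σ')
    (χ : Amp M G σ) (χ' : Amp M G σ') (h : χ.fn = χ'.fn) {m : ℝ} (hm : m = 0 ∨ m = 1)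
    (α : Fin 16) {ε : ℝ} (hε : 0 < ε) :
    ∀ᶠ g in atTop, ∀ φ : Cfg N → F, IsCoreVec b R φ →
      ‖∫ x, ⟪φ x, ev P σ g m α χ.fn x⟫_ℂ‖ ≤ ε * Real.sqrt (En b M G g m φ) := by
  have hD' := hD m hm χ' α (ε / 6) (by positivity)
  have h1 := hch σ σ' χ χ' h
  have h2 := hch σ σ' (χ.D m α) (χ'.D m α) (by
    show C.Dx M G m α χ.fn = C.Dx M G m α χ'.fn
    rw [h])
  have hε2 : 0 < (ε / 6) ^ 2 := by positivity
  filter_upwards [hD', h1.eventually (gt_mem_nhds hε2), h2.eventually (gt_mem_nhds hε2),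
    hcore σ χ, hcore σ' χ', hcore σ (χ.D m α), hcore σ' (χ'.D m α)] with g g1 g2 g3 c1 c2 c3 c4
  intro φ hφ
  set T := Tgen P σ g χ.fn with hT
  set T' := Tgen P σ' g χ'.fn with hT'
  set W := Tgen P σ g (χ.D m α).fn with hW
  set W' := Tgen P σ' g (χ'.D m α).fn with hW'
  have cT : ContDiff ℝ 1 T := c1.1.of_le (by norm_num)
  have cT' : ContDiff ℝ 1 T' := c2.1.of_le (by norm_num)
  have cφ : ContDiff ℝ 1 φ := hφ.1.of_le (by norm_num)
  have mφ : MemLp φ 2 volume := memLp_core' hφ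
  have mT : MemLp T 2 volume := memLp_core' c1
  have mT' : MemLp T' 2 volume := memLp_core' c2
  have mW : MemLp W 2 volume := memLp_core' c3
  have mW' : MemLp W' 2 volume := memLp_core' c4
  have mQφ : MemLp (dcharge b M G g m α φ) 2 volume := core_memLp_dcharge hφ
  have mQT : MemLp (dcharge b M G g m α T) 2 volume := core_memLp_dcharge c1
  have mQT' : MemLp (dcharge b M G g m α T') 2 volume := core_memLp_dcharge c2
  have i1 : Integrable (fun x => ⟪φ x, dcharge b M G g m α T' x - W' x⟫_ℂ) volume :=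
    integrable_inner' mφ (mQT'.sub mW')
  have i2 : Integrable (fun x => ⟪φ x, dcharge b M G g m α T x - dcharge b M G g m α T' x⟫_ℂ)
      volume := integrable_inner' mφ (mQT.sub mQT')
  have i3 : Integrable (fun x => ⟪φ x, W x - W' x⟫_ℂ) volume :=
    integrable_inner' mφ (mW.sub mW')
  have e0 : ∀ x, ⟪φ x, ev P σ g m α χ.fn x⟫_ℂ =
      ⟪φ x, dcharge b M G g m α T' x - W' x⟫_ℂ +
        ⟪φ x, dcharge b M G g m α T x - dcharge b M G g m α T' x⟫_ℂ - ⟪φ x, W x - W' x⟫_ℂ := by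
    intro x
    rw [← inner_add_right, ← inner_sub_right]
    congr 1
    show dcharge b M G g m α T x - W x = _
    abel
  have e1 : ∫ x, ⟪φ x, dcharge b M G g m α T x - dcharge b M G g m α T' x⟫_ℂ =
      ∫ x, ⟪dcharge b M G g m α φ x, T x - T' x⟫_ℂ := by
    have h3 := dcharge_symm (b := b) (M := M) (G := G) (g := g) (m := m) (α := α) cφ
      (cT.sub cT') (Or.inl hφ.2.1)
    have h4 : dcharge b M G g m α (T - T') = dcharge b M G g m α T - dcharge b M G g m α T' :=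
      dcharge_sub (cT.differentiable (by norm_num)) (cT'.differentiable (by norm_num))
    have h5 : (fun x => T x - T' x) = T - T' := rfl
    rw [h5, h4] at h3
    exact h3.symm
  have k1 := g1 φ hφ
  have k2 : ‖∫ x, ⟪dcharge b M G g m α φ x, T x - T' x⟫_ℂ‖ ≤
      (4 * (ε / 6)) * Real.sqrt (En b M G g m φ) := by
    refine (norm_integral_inner_le mQφ (mT.sub mT')).trans ?_
    have h3 : Real.sqrt (∫ x, ‖dcharge b M G g m α φ x‖ ^ 2) ≤ 4 * Real.sqrt (En b M G g m φ) := by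
      refine (Real.sqrt_le_sqrt (dcharge_sq_le_En g m α φ)).trans (le_of_eq ?_)
      rw [Real.sqrt_mul (by norm_num)]
      congr 1
      rw [show (16 : ℝ) = 4 ^ 2 by norm_num, Real.sqrt_sq (by norm_num)]
    have h4 : Real.sqrt (∫ x, ‖(T - T') x‖ ^ 2) ≤ ε / 6 := by
      rw [Real.sqrt_le_left (by positivity)]
      exact g2.le
    calc _ ≤ (4 * Real.sqrt (En b M G g m φ)) * (ε / 6) :=
          mul_le_mul h3 h4 (Real.sqrt_nonneg _) (by positivity)
      _ = _ := by ring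
  have k3 : ‖∫ x, ⟪φ x, W x - W' x⟫_ℂ‖ ≤ (ε / 6) * Real.sqrt (En b M G g m φ) := by
    refine (norm_integral_inner_le mφ (mW.sub mW')).trans ?_
    have h3 : Real.sqrt (∫ x, ‖φ x‖ ^ 2) ≤ Real.sqrt (En b M G g m φ) :=
      Real.sqrt_le_sqrt (norm_sq_le_En g m φ)
    have h4 : Real.sqrt (∫ x, ‖(W - W') x‖ ^ 2) ≤ ε / 6 := by
      rw [Real.sqrt_le_left (by positivity)]
      exact g3.le
    calc _ ≤ Real.sqrt (En b M G g m φ) * (ε / 6) :=
          mul_le_mul h3 h4 (Real.sqrt_nonneg _) (by positivity)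
      _ = _ := by ring
  have e5 : ∫ x, ⟪φ x, ev P σ g m α χ.fn x⟫_ℂ =
      (∫ x, ⟪φ x, dcharge b M G g m α T' x - W' x⟫_ℂ) +
        (∫ x, ⟪dcharge b M G g m α φ x, T x - T' x⟫_ℂ) - ∫ x, ⟪φ x, W x - W' x⟫_ℂ := by
    rw [← e1, ← integral_add i1 i2]
    have h3 := integral_sub (i1.add i2) i3
    refine Eq.trans ?_ h3
    refine integral_congr_ae (Eventually.of_forall fun x => ?_)
    exact e0 x
  rw [e5]
  refine (norm_sub_le _ _).trans ((add_le_add (norm_add_le _ _) le_rfl).trans ?_)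
  have k1' : ‖∫ x, ⟪φ x, dcharge b M G g m α T' x - W' x⟫_ℂ‖ ≤
      ε / 6 * Real.sqrt (En b M G g m φ) := k1
  calc _ ≤ ε / 6 * Real.sqrt (En b M G g m φ) + (4 * (ε / 6)) * Real.sqrt (En b M G g m φ) +
        (ε / 6) * Real.sqrt (En b M G g m φ) := add_le_add (add_le_add k1' k2) k3
    _ = _ := by ring

/-- **(T5) from small charts.** -/
theorem dualT_of_small (hcore : ChSys399.CoreT P) (hch : HChart P)
    (hS : ∀ X0 : Pos p, C.BReg X0 → ∃ σ : Sl C, σ.X0 = X0 ∧ DualAt P σ) : ChSys399.DualT P := by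
  classical
  intro m hm σ χ α ε hε
  have hS' : ∀ X0 : {X : Pos p // X ∈ tsupport χ.fn}, ∃ σ : Sl C, σ.X0 = X0.1 ∧ DualAt P σ :=
    fun X0 => hS X0.1 (χ.off X0.1 X0.2)
  choose σ1 hσ1 hD1 using hS'
  have hcov : tsupport χ.fn ⊆ ⋃ i : {X : Pos p // X ∈ tsupport χ.fn},
      Metric.ball (i : Pos p) ((σ1 i).r / 4) := by
    intro X hX
    exact Set.mem_iUnion.2 ⟨⟨X, hX⟩, Metric.mem_ball_self (by linarith [(σ1 ⟨X, hX⟩).pos])⟩
  obtain ⟨I, χi, hs1, hs2, hs3, hs4⟩ := Pou365.exists_rep (fun i => Metric.isOpen_ball)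
    χ.smooth χ.compact hcov
  let A : {X : Pos p // X ∈ tsupport χ.fn} → Amp M G σ := fun i =>
    ⟨χi i, hs1 i, fun X hX => χ.supp ((hs3 i hX).2), fun X hX => χ.off X (hs3 i hX).2⟩
  let A' : ∀ i : {X : Pos p // X ∈ tsupport χ.fn}, Amp M G (σ1 i) := fun i =>
    ⟨χi i, hs1 i, fun X hX => by
      rw [hσ1 i]
      exact (hs3 i hX).1, fun X hX => χ.off X (hs3 i hX).2⟩
  set n : ℝ := (I.card : ℝ) + 1 with hn
  have hn0 : 0 < n := by positivity
  have hε' : 0 < ε / n := div_pos hε hn0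
  have hall : ∀ᶠ g in atTop, ∀ i ∈ I, ∀ φ : Cfg N → F, IsCoreVec b R φ →
      ‖∫ x, ⟪φ x, ev P σ g m α (A i).fn x⟫_ℂ‖ ≤ ε / n * Real.sqrt (En b M G g m φ) :=
    (Filter.eventually_all_finset I).2 fun i _ =>
      dual_move hcore hch (hD1 i) (A i) (A' i) rfl hm α hε'
  have hc1 : ∀ᶠ g in atTop, ∀ i ∈ I, IsCoreVec b R (Tgen P σ g (A i).fn) :=
    (Filter.eventually_all_finset I).2 fun i _ => hcore σ (A i)
  have hc2 : ∀ᶠ g in atTop, ∀ i ∈ I, IsCoreVec b R (Tgen P σ g ((A i).D m α).fn) :=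
    (Filter.eventually_all_finset I).2 fun i _ => hcore σ ((A i).D m α)
  filter_upwards [hall, hc1, hc2] with g g1 g2 g3 φ hφ
  have e1 : χ.fn = fun X => ∑ i ∈ I, χi i X := funext hs4
  have e2 : ∀ x, dcharge b M G g m α (Tgen P σ g χ.fn) x =
      ∑ i ∈ I, dcharge b M G g m α (Tgen P σ g (A i).fn) x := by
    intro x
    have h1 : Tgen P σ g χ.fn = fun x => ∑ i ∈ I, Tgen P σ g (A i).fn x := by
      funext y
      exact (congrFun (congrArg (Tgen P σ g) e1) y).trans (Tgen_sum P σ g I χi y)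
    rw [h1]
    exact ChSum718.dcharge_sum I (fun i hi => (g2 i hi).1.differentiable (by simp)) g m α x
  have e3 : ∀ x, Tgen P σ g (C.Dx M G m α χ.fn) x =
      ∑ i ∈ I, Tgen P σ g ((A i).D m α).fn x := by
    intro x
    have h1 : C.Dx M G m α χ.fn = fun X => ∑ i ∈ I, C.Dx M G m α (χi i) X := by
      funext X
      exact (congrFun (congrArg (C.Dx M G m α) e1) X).trans (Dx_sum m α I hs1 X)
    rw [h1]
    exact Tgen_sum P σ g I (fun i => C.Dx M G m α (χi i)) x
  have e4 : ∀ x, ⟪φ x, dcharge b M G g m α (Tgen P σ g χ.fn) x -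
      Tgen P σ g (C.Dx M G m α χ.fn) x⟫_ℂ = ∑ i ∈ I, ⟪φ x, ev P σ g m α (A i).fn x⟫_ℂ := by
    intro x
    rw [e2, e3, ← Finset.sum_sub_distrib, inner_sum]
    rfl
  simp only [e4]
  have hint : ∀ i ∈ I, Integrable (fun x => ⟪φ x, ev P σ g m α (A i).fn x⟫_ℂ) volume :=
    fun i hi => integrable_inner' (memLp_core' hφ)
      ((core_memLp_dcharge (g := g) (m := m) (α := α) (g2 i hi)).sub (memLp_core' (g3 i hi)))
  rw [integral_finsetSum I hint]
  refine (norm_sum_le _ _).trans ((Finset.sum_le_sum fun i hi => g1 i hi φ hφ).trans ?_)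
  rw [Finset.sum_const, nsmul_eq_mul, ← mul_assoc]
  refine mul_le_mul_of_nonneg_right ?_ (Real.sqrt_nonneg _)
  rw [mul_div_assoc', div_le_iff₀ hn0, hn]
  nlinarith

end Crest.Agent.R330.T5Sm581

end
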