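import Crest.Agent.R330.T5Fin_714
import Crest.Agent.R330.PairV_776
import Crest.Agent.R330.TestB_350

/-!
# R330/T5Top_714 : (T5), closed (helper714)

`dual` : around every `X0 ∈ BReg` there is a chart with the dual estimate `DualAt`.
-/

set_option autoImplicit false
set_option linter.unusedSectionVars false

open MeasureTheory Filter Topology Crest.MathPhysics.MatrixQM
open scoped ContDiff InnerProductSpace ENNReal

noncomputable section

namespace Crest.Agent.R330.T5Top714

open Crest.Agent.R330.TDef414 Crest.Agent.R330.PairT714 Crest.Agent.R330.T5Fin714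
  Crest.Agent.R330.T5Err714

variable {N p : ℕ} {b : ColorBasis N} {S : Type} [Group S] [Fintype S] {C : Chn b p S}
variable {F : Type*} [NormedAddCommGroup F] [InnerProductSpace ℂ F] [FiniteDimensional ℂ F]
variable {M : FermionRep N F} {R : GaugeAction b M} {G : GammaNine}

theorem vacAt [Nontrivial F] (P : TPack C M R G) (σ : Sl C) {Γ : F →ₗ[ℂ] F}
    (hΓ : ParT M G σ Γ) : VacAt P σ Γ := fun _ hg α χ _ hq =>
  PairV776.vac_T5 P σ hΓ hg α χ (bT σ) (bU σ) hq

/-- **(T5), closed.** -/
theorem dual [Nontrivial F] (P : TPack C M R G) (X0 : Pos p) (h0 : C.BReg X0) :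
    ∃ σ : Sl C, σ.X0 = X0 ∧ DualAt P σ := by
  obtain ⟨δ, hδ, hT⟩ := TestB350.testAt P h0
  obtain ⟨σ, hσ, hr, hr1, hBR⟩ := exists_small X0 h0 hδ
  exact ⟨σ, hσ, dualAt_of_test P σ hr1 hBR (fun Γ hΓ => vacAt P σ hΓ) (hT σ hσ hr)⟩

end Crest.Agent.R330.T5Top714

end
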