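import Crest.Agent.R330.TPk_776
import Crest.Agent.R330.TDefB_414
import Crest.Agent.R330.AFld_984

/-!
# Row 330, S8 (T7): assembly of the trial data (helper776)

* `aData C` : the Gaussian exponent `Afld C` has all its properties.
* `tpack hU hPsi` : the trial data with `A = Afld C`.
-/

set_option autoImplicit false
set_option linter.unusedSectionVars false

open MeasureTheory Filter Topology Crest.MathPhysics.MatrixQM
open scoped ContDiff InnerProductSpace ENNReal

noncomputable section

namespace Crest.Agent.R330.T7776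

open Crest.Agent.R330.TDef414 Crest.Agent.R330.TPk776 Crest.Agent.R330.AFld984

variable {N p : ℕ} {b : ColorBasis N} {S : Type} [Group S] [Fintype S] (C : Chn b p S)
  {F : Type*} [NormedAddCommGroup F] [InnerProductSpace ℂ F] [FiniteDimensional ℂ F]
  {M : FermionRep N F} {R : GaugeAction b M} {G : GammaNine}

theorem aData : AData C (Afld C) where
  A_smooth := A_smooth C
  A_symm := A_symm C
  A_nonneg := A_nonneg C
  A_off := A_off C
  A_gauge := A_gauge C
  A_low := A_low C
  A_cov := A_cov C

variable {C}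

/-- The trial data with the Gaussian exponent `Afld C`. -/
def tpack {U : Pos p → F →L[ℂ] F} {Psi : ℝ → Cfg N → F →L[ℂ] F} {s : ℝ → ℝ}
    (hU : UData C M R G (Afld C) U) (hPsi : PsiData C M R G Psi s) : TPack C M R G :=
  tpackOf (aData C) hU hPsi

theorem tpack_Psi {U : Pos p → F →L[ℂ] F} {Psi : ℝ → Cfg N → F →L[ℂ] F} {s : ℝ → ℝ}
    (hU : UData C M R G (Afld C) U) (hPsi : PsiData C M R G Psi s) :
    (tpack hU hPsi).Psi = Psi := rfl

theorem tpack_A {U : Pos p → F →L[ℂ] F} {Psi : ℝ → Cfg N → F →L[ℂ] F} {s : ℝ → ℝ}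
    (hU : UData C M R G (Afld C) U) (hPsi : PsiData C M R G Psi s) :
    (tpack hU hPsi).A = Afld C := rfl

theorem tpack_U {U : Pos p → F →L[ℂ] F} {Psi : ℝ → Cfg N → F →L[ℂ] F} {s : ℝ → ℝ}
    (hU : UData C M R G (Afld C) U) (hPsi : PsiData C M R G Psi s) :
    (tpack hU hPsi).U = U := rfl

end Crest.Agent.R330.T7776

end
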