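import Crest.Agent.R330.T7_776
import Crest.Agent.R330.PsiDef_477
import Crest.Agent.R330.LinkInst_973
import Crest.Agent.R330.Close_478

/-!
# Row 330, S8 (T7): the trial data of the channel of a partition (helper776)

* `Small` : colour bases, fermions and gauge actions for all sizes; `nonempty_small`.
* `exists_tpack_of` : the trial data exist for `chn b P`, from `Below N` and the three open inputs
  (heavy vacuum, block state, block Hardy property).
-/

set_option autoImplicit false
set_option linter.unusedSectionVars false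

open MeasureTheory Filter Topology Crest.MathPhysics.MatrixQM
open scoped ContDiff InnerProductSpace ENNReal

noncomputable section

namespace Crest.Agent.R330.T7776

open Crest.Agent.R330.TDef414 Crest.Agent.R330.TPk776 Crest.Agent.R330.AFld984
  Crest.Agent.R330.Parts879 Crest.Agent.R330.Geo692 Crest.Agent.R330.Psi477
  Crest.Agent.R330.Link973 Crest.Agent.R330.Close478 Crest.Agent.R330.SInd478

theorem nonempty_cb (n : ℕ) : Nonempty (ColorBasis n) := by
  rcases Nat.eq_zero_or_pos n with rfl | hn
  · exact ⟨{ T := fun _ => 0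
             herm := fun A => Fin.elim0 A
             traceless := fun A => Fin.elim0 A
             orthonormal := fun A => Fin.elim0 A }⟩
  · exact Exist973.nonempty_colorBasis hn

/-- Data for all sizes of the blocks. -/
structure Small where
  /-- colour bases -/
  bn : ∀ n, ColorBasis n
  /-- Fock spaces -/
  Fn : ℕ → Type
  i1 : ∀ n, NormedAddCommGroup (Fn n)
  i2 : ∀ n, InnerProductSpace ℂ (Fn n)
  i3 : ∀ n, FiniteDimensional ℂ (Fn n)
  i4 : ∀ n, Nontrivial (Fn n)
  /-- fermions -/
  Mn : ∀ n, FermionRep n (Fn n)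
  /-- gauge actions -/
  Rn : ∀ n, GaugeAction (bn n) (Mn n)

attribute [instance] Small.i1 Small.i2 Small.i3 Small.i4

theorem nonempty_small : Nonempty Small := by
  have h : ∀ n, ∃ (b : ColorBasis n) (F : Type) (_ : NormedAddCommGroup F)
      (_ : InnerProductSpace ℂ F) (_ : FiniteDimensional ℂ F) (_ : Nontrivial F)
      (M : FermionRep n F), Nonempty (GaugeAction b M) := by
    intro n
    obtain ⟨b⟩ := nonempty_cb n
    exact ⟨b, Exist973.exists_data b⟩
  choose b F i1 i2 i3 i4 M hR using h
  exact ⟨⟨b, F, i1, i2, i3, i4, M, fun n => (hR n).some⟩⟩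

variable {N : ℕ} {b : ColorBasis N} {F : Type*} [NormedAddCommGroup F] [InnerProductSpace ℂ F]
  [FiniteDimensional ℂ F] {M : FermionRep N F} {R : GaugeAction b M} {G : GammaNine}

/-- The block state of the partition `P` made of the small data `D`, `T`. -/
def psiOf (M : FermionRep N F) (b : ColorBasis N) (P : Lam N) (D : Small)
    (T : Fml D.bn D.Mn D.Rn G P.k) : ℝ → Cfg N → F →L[ℂ] F :=
  T.Psi M (eps b P D.bn) (link b P D.bn).ho

theorem exists_small_fml (hB : Below N) (P : Lam N) (G : GammaNine) :
    ∃ D : Small, Nonempty (Fml D.bn D.Mn D.Rn G P.k) := by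
  obtain ⟨D⟩ := nonempty_small
  exact ⟨D, exists_fml D.bn D.Mn D.Rn G P.k fun q => hB _ (P.k_pos q) (P.k_lt q)⟩

/-- **(T7)** from its three inputs. -/
theorem exists_tpack_of (hB : Below N) (P : Lam N)
    (hU : ∃ U, UData (chn b P) M R G (Afld (chn b P)) U)
    (hPsi : ∀ (D : Small) (T : Fml D.bn D.Mn D.Rn G P.k),
      PsiData (chn b P) M R G (psiOf M b P D T) T.s)
    (hH : ∀ (D : Small) (T : Fml D.bn D.Mn D.Rn G P.k) (Pk : TPack (chn b P) M R G),
      Pk.Psi = psiOf M b P D T → PsiHardy Pk) :
    ∃ Pk : TPack (chn b P) M R G, PsiHardy Pk := by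
  obtain ⟨D, ⟨T⟩⟩ := exists_small_fml hB P G
  obtain ⟨U, hU⟩ := hU
  exact ⟨tpack hU (hPsi D T), hH D T _ rfl⟩

end Crest.Agent.R330.T7776

end
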