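import Crest.Agent.R330.LitA_974
import Crest.Agent.R330.Gram2_372

/-!
# Row 330, S8-ISO (helper372): trial functions for an arbitrary block state

`tauG P σ g Φ χ`, `TG P σ g Φ χ` = 414's `tau`, `Tgen` with the block state `P.Psi g` replaced by
an arbitrary `Φ : Cfg N → F →L[ℂ] F`; `IsBlk P Φ ρ`: smooth, supported in the ball of radius `ρ`,
covariant.  `splitC C : Ovl372.Split b`.
-/

set_option autoImplicit false
set_option linter.unusedSectionVars false

open MeasureTheory Filter Topology Crest.MathPhysics.MatrixQM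
open scoped ContDiff InnerProductSpace ENNReal

noncomputable section

namespace Crest.Agent.R330.TG372

open Crest.Agent.R330.Defs478 Crest.Agent.R330.LS839 Crest.Agent.R330.Frame839
  Crest.Agent.R330.Clus839 Crest.Agent.R330.Bind6839 Crest.Agent.R330.SlG944
  Crest.Agent.R330.SlF944 Crest.Agent.R330.TDef414 Crest.Agent.R330.LitA974
open Crest.Agent.R330.SlB314 (Nor Tan brx)
open Crest.Agent.R330.SlD314 (tube)

variable {N p : ℕ} {b : ColorBasis N} {S : Type} [Group S] [Fintype S]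

/-! ## the splitting of a channel -/

theorem actB_cf_mem (C : Chn b p S) (w : Colg N) (X : Pos p) : actB b w (C.cf X) ∈ Tup C.kkᗮ := by
  intro i
  rw [comp_act, C.comp_cf, Submodule.mem_orthogonal]
  intro u hu
  rw [(colAlg b).anti w, inner_neg_right, real_inner_comm, (colAlg b).skew,
    C.cen_comm _ u hu, inner_zero_right, neg_zero, neg_zero]

/-- the projections of a channel as a `Split` -/
def splitC (C : Chn b p S) : Ovl372.Split b where
  PX := C.cf.toContinuousLinearMap.comp C.cfT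
  PY := C.PK - C.cf.toContinuousLinearMap.comp C.cfT
  PM := ContinuousLinearMap.id ℝ (Cfg N) - C.PK
  sum u := by
    show C.cf (C.cfT u) + (C.PK u - C.cf (C.cfT u)) + (u - C.PK u) = u
    abel
  XX u := by
    show C.cf (C.cfT (C.cf (C.cfT u))) = C.cf (C.cfT u)
    rw [C.cfT_cf]
  YY u := by
    show C.PK (C.PY u) - C.cf (C.cfT (C.PY u)) = C.PY u
    rw [cfT_Blk C (PY_mem C u), PK_of_mem C (PY_mem C u).1, map_zero, sub_zero]
  MM u := by
    show C.PM u - C.PK (C.PM u) = C.PM u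
    rw [PK_of_orth C (PM_mem C u), sub_zero]
  XY u := by
    show C.cf (C.cfT (C.PY u)) = 0
    rw [cfT_Blk C (PY_mem C u), map_zero]
  XM u := by
    show C.cf (C.cfT (C.PM u)) = 0
    rw [cfT_orth C (PM_mem C u), map_zero]
  YX u := by
    show C.PK (C.cf (C.cfT u)) - C.cf (C.cfT (C.cf (C.cfT u))) = 0
    rw [C.cfT_cf, PK_of_mem C (cf_mem_Tup C _), sub_self]
  YM u := by
    show C.PK (C.PM u) - C.cf (C.cfT (C.PM u)) = 0
    rw [cfT_orth C (PM_mem C u), map_zero, PK_of_orth C (PM_mem C u), sub_zero]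
  MX u := by
    show C.cf (C.cfT u) - C.PK (C.cf (C.cfT u)) = 0
    rw [PK_of_mem C (cf_mem_Tup C _), sub_self]
  MY u := by
    show C.PY u - C.PK (C.PY u) = 0
    rw [PK_of_mem C (PY_mem C u).1, sub_self]
  symX u v := by
    show ⟪C.cf (C.cfT u), v⟫_ℝ = ⟪u, C.cf (C.cfT v)⟫_ℝ
    have h1 := inner_cf_cfT C v (C.cfT u)
    have h2 := inner_cf_cfT C u (C.cfT v)
    rw [inner_sub_left, sub_eq_zero] at h1 h2
    rw [real_inner_comm, h1, h2, LinearIsometry.inner_map_map, LinearIsometry.inner_map_map,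
      real_inner_comm]
  symY u v := by
    show ⟪C.PK u - C.cf (C.cfT u), v⟫_ℝ = ⟪u, C.PK v - C.cf (C.cfT v)⟫_ℝ
    have h1 := inner_cf_cfT C v (C.cfT u)
    have h2 := inner_cf_cfT C u (C.cfT v)
    rw [inner_sub_left, sub_eq_zero] at h1 h2
    have h3 : ⟪C.cf (C.cfT u), v⟫_ℝ = ⟪u, C.cf (C.cfT v)⟫_ℝ := by
      rw [real_inner_comm, h1, h2, LinearIsometry.inner_map_map, LinearIsometry.inner_map_map,
        real_inner_comm]
    rw [inner_sub_left, inner_sub_right, h3]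
    congr 1
    exact Submodule.inner_starProjection_left_eq_right _ u v
  br om u := by
    show brx b om (C.cf (C.cfT u)) - C.PK (brx b om (C.cf (C.cfT u))) =
      brx b om (C.cf (C.cfT u))
    have h := actB_cf_mem C (WithLp.toLp 2 om) (C.cfT u)
    rw [actB_apply] at h
    rw [PK_of_orth C h, sub_zero]

theorem splitC_PX (C : Chn b p S) (u : Cfg N) : (splitC C).PX u = C.cf (C.cfT u) := rfl

theorem splitC_PY (C : Chn b p S) (u : Cfg N) : (splitC C).PY u = C.PY u := rfl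

theorem splitC_PM (C : Chn b p S) (u : Cfg N) : (splitC C).PM u = C.PM u := rfl

/-! ## block states -/

variable {C : Chn b p S} {F : Type*} [NormedAddCommGroup F] [InnerProductSpace ℂ F]
  [FiniteDimensional ℂ F] {M : FermionRep N F} {R : GaugeAction b M} {G : GammaNine}

/-- the trial function on the slice for the block state `Φ` -/
def tauG (P : TPack C M R G) (σ : Sl C) (g : ℝ) (Φ : Cfg N → F →L[ℂ] F) (χ : Pos p → C.Fx M G)
    (u : Cfg N) : F :=
  ((nrm P σ g (σ.X0 + C.cfT u) * kap σ.r (‖C.PM u‖ ^ 2) *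
    Real.exp (-(g / 2 * ⟪P.A (σ.X0 + C.cfT u) (C.PM u), C.PM u⟫_ℝ)) : ℝ) : ℂ) •
    P.U (σ.X0 + C.cfT u) (Φ (C.PY u) (χ (σ.X0 + C.cfT u) : F))

/-- the trial state for the block state `Φ` -/
def TG (P : TPack C M R G) (σ : Sl C) (g : ℝ) (Φ : Cfg N → F →L[ℂ] F) (χ : Pos p → C.Fx M G) :
    Cfg N → F :=
  ext R (C.cf σ.X0) σ.r fun u => (((σ.j u)⁻¹ : ℝ) : ℂ) • tauG P σ g Φ χ u

theorem tau_eq (P : TPack C M R G) (σ : Sl C) (g : ℝ) (χ : Pos p → C.Fx M G) :
    tau P σ g χ = tauG P σ g (P.Psi g) χ := rfl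

theorem Tgen_eq (P : TPack C M R G) (σ : Sl C) (g : ℝ) (χ : Pos p → C.Fx M G) :
    Tgen P σ g χ = TG P σ g (P.Psi g) χ := rfl

/-- a covariant smooth block state supported in the ball of radius `ρ` -/
structure IsBlk (P : TPack C M R G) (Φ : Cfg N → F →L[ℂ] F) (ρ : ℝ) : Prop where
  smooth : ContDiff ℝ ∞ Φ
  supp : ∀ Y ∈ C.Blk, ρ ≤ ‖Y‖ → Φ Y = 0
  mem : ∀ Y ∈ C.Blk, ∀ f ∈ C.Fx M G, Φ Y f ∈ C.Fl M G
  cov : ∀ (h : Matrix.specialUnitaryGroup (Fin N) ℂ) (X X' : Pos p), C.Reg X → C.Reg X' →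
    b.act h (C.cf X) = C.cf X' → ∀ Y ∈ C.Blk, ∀ f ∈ C.Fx M G,
      R.ρ h f ∈ C.Fx M G ∧ R.ρ h (Φ Y f) = Φ (b.act h Y) (R.ρ h f)

theorem isBlk_Psi (P : TPack C M R G) : ∀ᶠ g in atTop, IsBlk P (P.Psi g) (P.s g) := by
  filter_upwards [P.Psi_smooth] with g hg
  exact ⟨hg, P.Psi_supp g, P.Psi_mem g, fun h X X' hX hX' he Y hY f hf =>
    P.Psi_cov h X X' hX hX' he g Y hY f hf⟩

theorem isBlk_scale {P : TPack C M R G} {Φ : Cfg N → F →L[ℂ] F} {ρ : ℝ} (H : IsBlk P Φ ρ)
    (k : ℂ) {l : ℝ} (hl : 0 < l) : IsBlk P (fun Y => k • Φ (l • Y)) (ρ / l) where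
  smooth := (H.smooth.comp (contDiff_const_smul l)).const_smul k
  supp Y hY hn := by
    rw [H.supp (l • Y) (Submodule.smul_mem _ _ hY) (by
      rw [norm_smul, Real.norm_eq_abs, abs_of_pos hl]
      rw [div_le_iff₀ hl] at hn
      linarith), smul_zero]
  mem Y hY f hf := by
    rw [ContinuousLinearMap.smul_apply]
    exact Submodule.smul_mem _ _ (H.mem _ (Submodule.smul_mem _ _ hY) f hf)
  cov h X X' hX hX' he Y hY f hf := by
    obtain ⟨h1, h2⟩ := H.cov h X X' hX hX' he (l • Y) (Submodule.smul_mem _ _ hY) f hf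
    refine ⟨h1, ?_⟩
    rw [ContinuousLinearMap.smul_apply, ContinuousLinearMap.smul_apply, map_smul, h2,
      SlA314.act_smul]

theorem tauG_sub (P : TPack C M R G) (σ : Sl C) (g : ℝ) (Φ Φ' : Cfg N → F →L[ℂ] F)
    (χ : Pos p → C.Fx M G) (u : Cfg N) :
    tauG P σ g Φ χ u - tauG P σ g Φ' χ u = tauG P σ g (fun Y => Φ Y - Φ' Y) χ u := by
  unfold tauG
  rw [← smul_sub, ← map_sub, ContinuousLinearMap.sub_apply]

end Crest.Agent.R330.TG372
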