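import Crest.Agent.R330.TCore_383
import Crest.Agent.R330.TG_372

/-!
# Row 330, S8 (T1) for an arbitrary block state (helper383)

`core_TG : IsBlk P Φ ρ → ρ ≤ σ.r / 4 → IsSliceFun .. ∧ IsCoreVec b R (TG P σ g Φ χ.fn)`, every `g > 0`;
`TG_apply`, `TG_slice`, `TG_off`, `TG_act`, `tauG_ne`, `TG_ne`, `supp_TG`.
-/

set_option autoImplicit false
set_option linter.unusedSectionVars false

open MeasureTheory Filter Topology Crest.MathPhysics.MatrixQM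
open scoped ContDiff InnerProductSpace ENNReal Real

noncomputable section

namespace Crest.Agent.R330.TCoreG383

open Crest.Agent.R330.Defs478 Crest.Agent.R330.LS839 Crest.Agent.R330.Frame839
  Crest.Agent.R330.Clus839
  Crest.Agent.R330.Bind6839 Crest.Agent.R330.SlG944 Crest.Agent.R330.SlF944
  Crest.Agent.R330.IBP837 Crest.Agent.R330.FreeC122 Crest.Agent.R330.TDef414
  Crest.Agent.R330.TCore383
open Crest.Agent.R330.SlB314 (Nor Tan br brx)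
open Crest.Agent.R330.SlD314 (tube)
open Crest.Agent.R330.SlA314 (act_inner act_norm act_add act_sub)
open Crest.Agent.R330.TG372 (tauG TG IsBlk isBlk_Psi isBlk_scale)

variable {N p : ℕ} {b : ColorBasis N} {S : Type} [Group S] [Fintype S] {C : Chn b p S}
  {F : Type*} [NormedAddCommGroup F] [InnerProductSpace ℂ F] [FiniteDimensional ℂ F]
  {M : FermionRep N F} {R : GaugeAction b M} {G : GammaNine}

local notation "SU" => Matrix.specialUnitaryGroup (Fin N) ℂ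

/-- The vector factor. -/
def wG (P : TPack C M R G) (σ : Sl C) (Φ : Cfg N → F →L[ℂ] F) (χ : Pos p → C.Fx M G)
    (u : Cfg N) : F :=
  P.U (σ.X0 + C.cfT u) (Φ (C.PY u) (χ (σ.X0 + C.cfT u) : F))

theorem tauG_eq (P : TPack C M R G) (σ : Sl C) (g : ℝ) (Φ : Cfg N → F →L[ℂ] F)
    (χ : Pos p → C.Fx M G) (u : Cfg N) :
    tauG P σ g Φ χ u = ((aT P σ g u : ℝ) : ℂ) • wG P σ Φ χ u := rfl

theorem contDiffAt_wG' (P : TPack C M R G) (σ : Sl C) {Φ : Cfg N → F →L[ℂ] F}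
    (hΦ : ContDiff ℝ ∞ Φ) {χ : Pos p → C.Fx M G} (hχ : ContDiff ℝ ∞ χ) {y : Cfg N}
    (hy : C.BReg (σ.X0 + C.cfT y)) : ContDiffAt ℝ ∞ (wG P σ Φ χ) y := by
  have hX := contDiffAt_pos (C := C) σ y
  have hχ' : ContDiff ℝ ∞ (fun X : Pos p => ((χ X : C.Fx M G) : F)) :=
    (((C.Fx M G).subtypeL).restrictScalars ℝ).contDiff.comp hχ
  have h1 : ContDiffAt ℝ ∞ (fun u : Cfg N => ((χ (σ.X0 + C.cfT u) : C.Fx M G) : F)) y :=
    hχ'.contDiffAt.comp y hX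
  have hR : ContDiff ℝ ∞ (fun L : F →L[ℂ] F => L.restrictScalars ℝ) :=
    (ContinuousLinearMap.restrictScalarsL ℂ F F ℝ ℝ).contDiff
  have h2 : ContDiffAt ℝ ∞ (fun u : Cfg N => (Φ (C.PY u)).restrictScalars ℝ) y :=
    hR.contDiffAt.comp y (hΦ.comp contDiff_PY).contDiffAt
  have h3 : ContDiffAt ℝ ∞ (fun u : Cfg N => (P.U (σ.X0 + C.cfT u)).restrictScalars ℝ) y :=
    hR.contDiffAt.comp y ((P.U_smooth _ hy).comp y hX)
  exact h3.clm_apply (h2.clm_apply h1)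

theorem wG_eventually (P : TPack C M R G) (σ : Sl C) (Φ : Cfg N → F →L[ℂ] F)
    (χ : Pos p → C.Fx M G) {y : Cfg N}
    (hy : σ.X0 + C.cfT y ∉ tsupport χ) : wG P σ Φ χ =ᶠ[𝓝 y] fun _ => 0 := by
  have h1 : ∀ᶠ u in 𝓝 y, σ.X0 + C.cfT u ∉ tsupport χ :=
    (contDiffAt_pos (C := C) σ y).continuousAt.eventually
      ((isClosed_tsupport χ).isOpen_compl.mem_nhds hy)
  filter_upwards [h1] with u hu
  unfold wG
  rw [image_eq_zero_of_notMem_tsupport hu]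
  simp

theorem contDiffAt_wG (P : TPack C M R G) (σ : Sl C) {Φ : Cfg N → F →L[ℂ] F}
    (hΦ : ContDiff ℝ ∞ Φ) (χ : Amp M G σ) (y : Cfg N) :
    ContDiffAt ℝ ∞ (wG P σ Φ χ.fn) y := by
  by_cases h : σ.X0 + C.cfT y ∈ tsupport χ.fn
  · exact contDiffAt_wG' P σ hΦ χ.smooth (χ.off _ h)
  · exact contDiffAt_const.congr_of_eventuallyEq (wG_eventually P σ Φ χ.fn h)

theorem contDiffAt_tauG (P : TPack C M R G) (σ : Sl C) {g : ℝ} (hg : 0 < g)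
    {Φ : Cfg N → F →L[ℂ] F} (hΦ : ContDiff ℝ ∞ Φ) (χ : Amp M G σ) {y : Cfg N}
    (hy : ‖σ.X0 + C.cfT y - σ.X0‖ < σ.r) : ContDiffAt ℝ ∞ (tauG P σ g Φ χ.fn) y :=
  (Complex.ofRealCLM.contDiff.contDiffAt.comp y (contDiffAt_aT P σ hg hy)).smul
    (contDiffAt_wG P σ hΦ χ y)

theorem wG_act (P : TPack C M R G) (σ : Sl C) {Φ : Cfg N → F →L[ℂ] F} {ρ : ℝ}
    (hΦ : IsBlk P Φ ρ) (χ : Pos p → C.Fx M G) {k : SU}
    (hk : b.act k (C.cf σ.X0) = C.cf σ.X0) {y : Cfg N}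
    (hy : χ (σ.X0 + C.cfT y) ≠ 0 → C.BReg (σ.X0 + C.cfT y)) :
    wG P σ Φ χ (b.act k y) = R.ρ k (wG P σ Φ χ y) := by
  have h0 : C.Reg σ.X0 := σ.reg σ.X0 (by simpa using σ.pos)
  by_cases hχ : χ (σ.X0 + C.cfT y) = 0
  · unfold wG
    rw [cfT_act h0 hk, hχ]
    simp
  have hB : C.BReg (σ.X0 + C.cfT y) := hy hχ
  have hX := act_cf h0 hk (σ.X0 + C.cfT y)
  unfold wG
  rw [cfT_act h0 hk, PY_act h0 hk]
  set f : F := (χ (σ.X0 + C.cfT y) : F) with hf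
  have hfm : f ∈ C.Fx M G := (χ (σ.X0 + C.cfT y)).2
  have h1 := (hΦ.cov k _ _ hB.reg hB.reg hX (C.PY y) (PY_mem y) f hfm).2
  rw [P.stab_fix k _ hB.reg hX f hfm] at h1
  rw [← h1]
  exact ((P.U_cov k _ _ hB hB hX _ (hΦ.mem _ (PY_mem y) f hfm)).2).symm

theorem tauG_act (P : TPack C M R G) (σ : Sl C) (g : ℝ) {Φ : Cfg N → F →L[ℂ] F} {ρ : ℝ}
    (hΦ : IsBlk P Φ ρ) (χ : Amp M G σ) {k : SU}
    (hk : b.act k (C.cf σ.X0) = C.cf σ.X0) {y : Cfg N} (hy : ‖σ.X0 + C.cfT y - σ.X0‖ < σ.r) :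
    tauG P σ g Φ χ.fn (b.act k y) = R.ρ k (tauG P σ g Φ χ.fn y) := by
  rw [tauG_eq, tauG_eq, aT_act P σ g hk hy,
    wG_act P σ hΦ χ.fn hk fun h => χ.off _ (subset_tsupport _ h), map_smul]

theorem sliceFunG (P : TPack C M R G) (σ : Sl C) (g : ℝ) {Φ : Cfg N → F →L[ℂ] F} {ρ : ℝ}
    (hΦ : IsBlk P Φ ρ) (χ : Amp M G σ) :
    IsSliceFun R (C.cf σ.X0) σ.r (fun u => (((σ.j u)⁻¹ : ℝ) : ℂ) • tauG P σ g Φ χ.fn u) := by
  intro k y hk hy hr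
  simp only
  rw [σ.inv k hk y hy hr, tauG_act P σ g hΦ χ hk (cfT_ball σ hr), map_smul]

/-- values on the tube -/
theorem TG_apply (P : TPack C M R G) (σ : Sl C) (g : ℝ) {Φ : Cfg N → F →L[ℂ] F} {ρ : ℝ}
    (hΦ : IsBlk P Φ ρ) (χ : Amp M G σ) (h : SU)
    {y : Cfg N} (hy : y ∈ Nor b (C.cf σ.X0)) (hr : ‖y‖ < σ.r) :
    TG P σ g Φ χ.fn (b.act h (C.cf σ.X0 + y)) =
      R.ρ h ((((σ.j y)⁻¹ : ℝ) : ℂ) • tauG P σ g Φ χ.fn y) :=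
  ext_apply R σ.good (sliceFunG P σ g hΦ χ) h hy hr

theorem TG_slice (P : TPack C M R G) (σ : Sl C) (g : ℝ) {Φ : Cfg N → F →L[ℂ] F} {ρ : ℝ}
    (hΦ : IsBlk P Φ ρ) (χ : Amp M G σ)
    {y : Cfg N} (hy : y ∈ Nor b (C.cf σ.X0)) (hr : ‖y‖ < σ.r) :
    TG P σ g Φ χ.fn (C.cf σ.X0 + y) = (((σ.j y)⁻¹ : ℝ) : ℂ) • tauG P σ g Φ χ.fn y :=
  ext_slice R σ.good (sliceFunG P σ g hΦ χ) hy hr

theorem TG_off (P : TPack C M R G) (σ : Sl C) (g : ℝ) (Φ : Cfg N → F →L[ℂ] F)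
    (χ : Pos p → C.Fx M G) {x : Cfg N}
    (hx : x ∉ tube b (C.cf σ.X0) σ.r) : TG P σ g Φ χ x = 0 := ext_off R _ hx

theorem TG_act (P : TPack C M R G) (σ : Sl C) (g : ℝ) {Φ : Cfg N → F →L[ℂ] F} {ρ : ℝ}
    (hΦ : IsBlk P Φ ρ) (χ : Amp M G σ) (h : SU)
    (x : Cfg N) : TG P σ g Φ χ.fn (b.act h x) = R.ρ h (TG P σ g Φ χ.fn x) :=
  ext_equivariant R σ.good (sliceFunG P σ g hΦ χ) h x

/-- the trial function is supported in small balls -/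
theorem tauG_ne (P : TPack C M R G) (σ : Sl C) (g : ℝ) {Φ : Cfg N → F →L[ℂ] F} {ρ : ℝ}
    (hΦ : IsBlk P Φ ρ) (χ : Amp M G σ) {y : Cfg N}
    (h : tauG P σ g Φ χ.fn y ≠ 0) : σ.X0 + C.cfT y ∈ tsupport χ.fn ∧ ‖C.cfT y‖ < σ.r / 4 ∧
      ‖C.PY y‖ < ρ ∧ ‖C.PM y‖ < σ.r / 4 := by
  have h1 : χ.fn (σ.X0 + C.cfT y) ≠ 0 := by
    intro h0
    apply h
    rw [tauG_eq]
    unfold wG
    rw [h0]
    simp
  have h2 := subset_tsupport _ h1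
  refine ⟨h2, ?_, ?_, ?_⟩
  · have h3 := χ.supp h2
    rw [Metric.mem_ball, dist_eq_norm, add_sub_cancel_left] at h3
    exact h3
  · by_contra h3
    apply h
    rw [tauG_eq]
    unfold wG
    rw [hΦ.supp _ (PY_mem y) (not_lt.1 h3)]
    simp
  · by_contra h3
    apply h
    rw [tauG_eq]
    unfold aT
    rw [kap_zero σ.pos (by
      have h4 := not_lt.1 h3
      have h5 := σ.pos
      nlinarith [norm_nonneg (C.PM y)])]
    simp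

/-- the trial functions are core vectors, every `g > 0` -/
theorem isCore_TG [Nontrivial F] (P : TPack C M R G) (σ : Sl C) {g : ℝ} (hg : 0 < g)
    {Φ : Cfg N → F →L[ℂ] F} {ρ : ℝ} (hΦ : IsBlk P Φ ρ) (hρ : ρ ≤ σ.r / 4) (χ : Amp M G σ) :
    IsCoreVec b R (TG P σ g Φ χ.fn) := by
  have hr' : 3 * σ.r / 4 < σ.r := by have := σ.pos; linarith
  refine ext_core' R σ.good (sliceFunG P σ g hΦ χ) (fun y hy hr => ?_) hr' fun y hy h1 h2 => ?_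
  · have h3 := contDiffAt_tauG P σ hg hΦ.smooth χ (cfT_ball σ hr)
    have h4 := (σ.smooth y hy hr).inv (σ.jpos y hy hr).ne'
    exact (Complex.ofRealCLM.contDiff.contDiffAt.comp y h4).smul h3
  · by_contra h3
    have h4 : tauG P σ g Φ χ.fn y ≠ 0 := by
      intro h5
      apply h3
      rw [h5, smul_zero]
    obtain ⟨-, h5, h6, h7⟩ := tauG_ne P σ g hΦ χ h4
    have h8 := norm_le_sum (C := C) y
    linarith

/-- **(T1) for any block state** -/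
theorem core_TG [Nontrivial F] (P : TPack C M R G) (σ : Sl C) {g : ℝ} (hg : 0 < g)
    {Φ : Cfg N → F →L[ℂ] F} {ρ : ℝ} (hΦ : IsBlk P Φ ρ) (hρ : ρ ≤ σ.r / 4) (χ : Amp M G σ) :
    IsSliceFun R (C.cf σ.X0) σ.r (fun u => (((σ.j u)⁻¹ : ℝ) : ℂ) • tauG P σ g Φ χ.fn u) ∧
      IsCoreVec b R (TG P σ g Φ χ.fn) :=
  ⟨sliceFunG P σ g hΦ χ, isCore_TG P σ hg hΦ hρ χ⟩

/-- positions of the points of the support -/
theorem TG_ne (P : TPack C M R G) (σ : Sl C) (g : ℝ) {Φ : Cfg N → F →L[ℂ] F} {ρ : ℝ}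
    (hΦ : IsBlk P Φ ρ) (χ : Amp M G σ) {x : Cfg N} (hx : TG P σ g Φ χ.fn x ≠ 0) :
    ∃ (h : SU) (y : Cfg N), y ∈ Nor b (C.cf σ.X0) ∧ ‖y‖ < σ.r ∧ x = b.act h (C.cf σ.X0 + y) ∧
      σ.X0 + C.cfT y ∈ tsupport χ.fn ∧ ‖C.PY y‖ < ρ ∧ ‖C.PM y‖ < σ.r / 4 := by
  have hx' : x ∈ tube b (C.cf σ.X0) σ.r := by
    by_contra h
    exact hx (TG_off P σ g Φ χ.fn h)
  obtain ⟨h, y, hy, hr, rfl⟩ := (SlD314.mem_tube_iff b _ _ x).1 hx'
  rw [TG_apply P σ g hΦ χ h hy hr] at hx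
  have h2 : tauG P σ g Φ χ.fn y ≠ 0 := by
    intro h3
    apply hx
    rw [h3, smul_zero, map_zero]
  obtain ⟨h3, -, h5, h6⟩ := tauG_ne P σ g hΦ χ h2
  exact ⟨h, y, hy, hr, rfl, h3, h5, h6⟩

/-- supports: away from the origin and bounded, uniformly in `g` and in the block state -/
theorem supp_TG (h0 : ¬ C.BReg 0) (P : TPack C M R G) (σ : Sl C) (χ : Amp M G σ) :
    ∃ δ ρ' : ℝ, 0 < δ ∧ 0 < ρ' ∧ ∀ (g : ℝ) (Φ : Cfg N → F →L[ℂ] F) (ρ : ℝ), IsBlk P Φ ρ →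
      ∀ x, TG P σ g Φ χ.fn x ≠ 0 → δ ≤ ‖x‖ ∧ ‖x‖ ≤ ρ' := by
  have h1 : (0 : Pos p) ∉ tsupport χ.fn := fun h => h0 (χ.off _ h)
  obtain ⟨δ, hδ, hδ'⟩ : ∃ δ > 0, ∀ X ∈ tsupport χ.fn, δ ≤ ‖X‖ := by
    have h2 : (tsupport χ.fn)ᶜ ∈ 𝓝 (0 : Pos p) :=
      (isClosed_tsupport _).isOpen_compl.mem_nhds h1
    obtain ⟨δ, hδ, h3⟩ := Metric.mem_nhds_iff.1 h2
    refine ⟨δ, hδ, fun X hX => ?_⟩
    by_contra h4
    exact h3 (by simpa using not_le.1 h4) hX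
  refine ⟨δ, ‖C.cf σ.X0‖ + σ.r, hδ, by have := σ.pos; positivity, fun g Φ ρ hΦ x hx => ?_⟩
  obtain ⟨h, y, hy, hr, rfl, h3, -, -⟩ := TG_ne P σ g hΦ χ hx
  rw [act_norm]
  constructor
  · have h4 : C.cfT (C.cf σ.X0 + y) = σ.X0 + C.cfT y := by rw [map_add, Chn.cfT_cf]
    have h5 := norm_cfT_le (C := C) (C.cf σ.X0 + y)
    rw [h4] at h5
    exact (hδ' _ h3).trans h5
  · exact (norm_add_le _ _).trans (by gcongr)

end Crest.Agent.R330.TCoreG383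

end
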