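import Crest.Agent.R330.LemC_342
import Crest.Agent.R330.PairD_714
import Crest.Agent.R330.SlQE_87

/-!
# Row 330, T5-TEST (helper350), part A: the test function of a core vector

Slice coordinates `x = (u, z) ∈ Sc b c`, `Φ = half b c η φ`.

* `exists_cut` : the cut-off `η`.
* `contDiff_half`, `hcs_half`, `memLp_half`, `half_zero`.
* `adm_of` : 714's `Adm` from 342's `Out` and the fibre inequality (F2).
-/

set_option autoImplicit false
set_option linter.unusedSectionVars false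

open MeasureTheory Filter Topology Crest.MathPhysics.MatrixQM Set
open Crest.Agent.R330.Defs478 Crest.Agent.R330.Frame839
open Crest.Agent.R330.LS839 Crest.Agent.R330.Clus839 Crest.Agent.R330.Bind6839
open Crest.Agent.R330.LemA342 Crest.Agent.R330.LemC342 Crest.Agent.R330.SlQE87
open Crest.Agent.R330.PairD714
open scoped ContDiff InnerProductSpace ENNReal

noncomputable section

namespace Crest.Agent.R330.TestA350

variable {N : ℕ} {b : ColorBasis N} {c : Cfg N}
  {F : Type*} [NormedAddCommGroup F] [InnerProductSpace ℂ F] [FiniteDimensional ℂ F]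
  {M : FermionRep N F} {G : GammaNine}

/-- the cut-off on the slice -/
theorem exists_cut (b : ColorBasis N) (c : Cfg N) {s s' : ℝ} (hs : 0 < s) (hs' : s < s') :
    ∃ η : Sc b c → ℝ, ContDiff ℝ ∞ η ∧ HasCompactSupport η ∧ (∀ x, 0 ≤ η x) ∧ (∀ x, η x ≤ 1) ∧
      (∀ x, ‖x.1‖ ^ 2 + ‖x.2‖ ^ 2 ≤ s ^ 2 → η x = 1) ∧
      (∀ x, s' ^ 2 ≤ ‖x.1‖ ^ 2 + ‖x.2‖ ^ 2 → η x = 0) := by
  have hd : 0 < s' ^ 2 - s ^ 2 := by nlinarith
  let f : Sc b c → ℝ := fun x => (s' ^ 2 - (‖x.1‖ ^ 2 + ‖x.2‖ ^ 2)) / (s' ^ 2 - s ^ 2)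
  have hf : ContDiff ℝ ∞ f := by
    refine ContDiff.div_const (contDiff_const.sub ?_) _
    exact (contDiff_fst.norm_sq ℝ).add (contDiff_snd.norm_sq ℝ)
  refine ⟨fun x => Real.smoothTransition (f x), Real.smoothTransition.contDiff.comp hf, ?_,
    fun x => Real.smoothTransition.nonneg _, fun x => Real.smoothTransition.le_one _,
    fun x hx => ?_, fun x hx => ?_⟩
  · refine HasCompactSupport.of_support_subset_isCompact
      (isCompact_closedBall (0 : Sc b c) s') fun x hx => ?_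
    rw [Metric.mem_closedBall, dist_zero_right]
    by_contra hx'
    rw [not_le] at hx'
    refine hx (Real.smoothTransition.zero_of_nonpos ?_)
    refine div_nonpos_of_nonpos_of_nonneg ?_ hd.le
    rw [Prod.norm_def, lt_sup_iff] at hx'
    rcases hx' with h | h
    · nlinarith [norm_nonneg x.1, sq_nonneg ‖x.2‖]
    · nlinarith [norm_nonneg x.2, sq_nonneg ‖x.1‖]
  · refine Real.smoothTransition.one_of_one_le ?_
    rw [le_div_iff₀ hd]
    linarith
  · refine Real.smoothTransition.zero_of_nonpos ?_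
    exact div_nonpos_of_nonpos_of_nonneg (by linarith) hd.le

section half

variable {η : Sc b c → ℝ} {φ : Cfg N → F}

theorem contDiff_half {n : WithTop ℕ∞} (hη : ContDiff ℝ n η) (hφ : ContDiff ℝ n φ) :
    ContDiff ℝ n (half b c η φ) := by
  unfold half
  refine hη.smul (hφ.comp ?_)
  have : (fun x : Sc b c => c + (x.1 : Cfg N) + (x.2 : Cfg N)) = fun x => c + slL b c x := by
    funext x
    rw [slL_apply, add_assoc]
  rw [this]
  exact contDiff_const.add (slL b c).contDiff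

theorem hcs_half (hη : HasCompactSupport η) : HasCompactSupport (half b c η φ) := by
  refine hη.mono fun x hx => ?_
  intro h0
  apply hx
  show η x • φ _ = 0
  rw [h0, zero_smul]

theorem half_zero {x : Sc b c} (h : η x = 0) : half b c η φ x = 0 := by
  show η x • φ _ = 0
  rw [h, zero_smul]

theorem half_one {x : Sc b c} (h : η x = 1) : half b c η φ x = φ (c + x.1 + x.2) := by
  show η x • φ _ = _
  rw [h, one_smul]

theorem memLp_half (hη : ContDiff ℝ 1 η) (hc : HasCompactSupport η) (hφ : ContDiff ℝ 1 φ)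
    (μ : Measure (Sc b c)) [IsFiniteMeasureOnCompacts μ] : MemLp (half b c η φ) 2 μ :=
  (contDiff_half hη hφ).continuous.memLp_of_hasCompactSupport (hcs_half hc)

end half

/-! ### Admissibility -/

section adm

variable {ι κ κ' : Type*} [Fintype ι] [Fintype κ] [Fintype κ']

/-- the fibre projection in the form of 714 -/
def Pr (gs : Uk b c → Zs b c → ℝ) (P : Uk b c → F →L[ℂ] F) (u : Uk b c) (f : Zs b c → F)
    (z : Zs b c) : F := gs u z • P u (∫ z', gs u z' • f z')

/-- **(F2)** on the fibres `c + u`, `‖u‖ ≤ ρ`, in the form of 714. -/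
def F2 (M : FermionRep N F) (G : GammaNine) (v : OrthonormalBasis κ ℝ (Zs b c))
    (t : OrthonormalBasis κ' ℝ (Tn (actB b) c)) (gs : Uk b c → Zs b c → ℝ)
    (P : Uk b c → F →L[ℂ] F) (y : Uk b c → ℝ) (ρ g K : ℝ) : Prop :=
  ∀ u : Uk b c, ‖u‖ ≤ ρ → ∀ f : Zs b c → F, ContDiff ℝ 2 f → HasCompactSupport f →
    g * ∫ z, ‖f z - Pr gs P u f z‖ ^ 2 ≤
      K * ((∑ α, ∫ z, ‖Bfib b c M G g α v t (c + u) f z‖ ^ 2) +
        y u ^ 2 * (g * ∫ z, ‖f z‖ ^ 2))

theorem adm_of {r B ρ g m K E : ℝ} (hr0 : 0 < r) (hr : GapAt (actB b) c r)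
    (hB : ActBound (actB b) B) (hρ : B * ρ ≤ r / 2) (hB0 : 0 ≤ B) (hK : 0 ≤ K)
    {Γ : F →ₗ[ℂ] F} {e : OrthonormalBasis ι ℝ (Uk b c)} {v : OrthonormalBasis κ ℝ (Zs b c)}
    {t : OrthonormalBasis κ' ℝ (Tn (actB b) c)} {gs : Uk b c → Zs b c → ℝ}
    {P : Uk b c → F →L[ℂ] F} {y : Uk b c → ℝ} (hF : F2 M G v t gs P y ρ g K)
    {Φ : Sc b c → F} (hΦ : ContDiff ℝ 2 Φ) (hc : HasCompactSupport Φ)
    (h0 : ∀ x : Sc b c, ρ < ‖x.1‖ → Φ x = 0)
    (hO : Out (volume.prod volume) M G Γ e v t g m Φ E) (S : Set (Uk b c)) :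
    Adm volume volume S gs P Γ y (Real.sqrt K) g Φ ((1 + K) * E) := by
  have hE : 0 ≤ E := (integral_nonneg fun x => by positivity).trans hO.s0
  have hE1 : E ≤ (1 + K) * E := by nlinarith [mul_nonneg hK hE]
  obtain ⟨i1, i2⟩ := integrable_en (μU := volume) (μZ := volume) (M := M) (G := G) (v := v)
    (t := t) (g := g) (K := K) hr0 hr hB hρ hB0 (hΦ.of_le (by norm_num)) hc h0
  refine ⟨hΦ.continuous.memLp_of_hasCompactSupport hc, hO.s0.trans hE1, hO.s1.trans hE1,
    en volume M G v t g K Φ, en_nonneg hK Φ, i1, ?_, Eventually.of_forall fun u _ => ?_⟩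
  · rw [i2]
    have := mul_le_mul_of_nonneg_left hO.sB hK
    nlinarith
  · unfold F2 at hF
    refine (h2_of (μZ := volume) (M := M) (G := G) (v := v) (t := t) (ρ := ρ) (g := g)
      (Pr := Pr gs P) (d := y) (fun u z => ?_) hK hF hΦ hc h0 u)
    unfold Pr
    simp

end adm

end Crest.Agent.R330.TestA350

end
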