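import Crest.Agent.R330.Defs_478

/-!
# Row 330: master derivation of S0512 (helper478, after r330_doc 0)

For `N ≥ 2`, over all data `(F, b, M, R, G)`:

* `Weak N` : `dim ker Q^{g,1} = p(N)` for all small `g > 0`.
* `ConstZ N` : `dim ker Q^{g,1}` does not depend on `g > 0`.
* `Strong N` : `dim ker Q^{g,1} = dim ker Q^{1,0} + (p(N) - 1)` for all large `g`.
* `Dim1 N` : `dim ker Q^{1,0} = 1`.
* `dim1_of` : `Dim1 N` from `Weak`, `ConstZ`, and `Strong` given the induction hypotheses `S k`,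
  `k < N`; `s0512_of` : the statement of S0512.
-/

set_option autoImplicit false

open MeasureTheory Filter Topology Crest.MathPhysics.MatrixQM
open scoped ContDiff InnerProductSpace ENNReal Cardinal

noncomputable section

namespace Crest.Agent.R330.Top478

open Crest.Agent.R330.Defs478

/-- The number of partitions of `N`. -/
def pN (N : ℕ) : ℕ := Fintype.card (Nat.Partition N)

theorem one_le_pN (N : ℕ) : 1 ≤ pN N := by
  unfold pN
  exact Fintype.card_pos

/-- (WEAK) -/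
def Weak (N : ℕ) : Prop :=
  ∀ (F : Type) [NormedAddCommGroup F] [InnerProductSpace ℂ F] [FiniteDimensional ℂ F]
    [Nontrivial F] (b : ColorBasis N) (M : FermionRep N F) (R : GaugeAction b M) (G : GammaNine),
    ∃ g₀ : ℝ, 0 < g₀ ∧ ∀ g : ℝ, 0 < g → g < g₀ → HasDim b M R G g 1 (pN N)

/-- (CONST) -/
def ConstZ (N : ℕ) : Prop :=
  ∀ (F : Type) [NormedAddCommGroup F] [InnerProductSpace ℂ F] [FiniteDimensional ℂ F]
    [Nontrivial F] (b : ColorBasis N) (M : FermionRep N F) (R : GaugeAction b M) (G : GammaNine)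
    (g g' : ℝ), 0 < g → 0 < g' →
    Module.rank ℂ (zker b M R G g 1) = Module.rank ℂ (zker b M R G g' 1)

/-- (STRONG) -/
def Strong (N : ℕ) : Prop :=
  ∀ (F : Type) [NormedAddCommGroup F] [InnerProductSpace ℂ F] [FiniteDimensional ℂ F]
    [Nontrivial F] (b : ColorBasis N) (M : FermionRep N F) (R : GaugeAction b M) (G : GammaNine),
    ∃ g₁ : ℝ, ∀ g : ℝ, 0 < g → g₁ < g →
      Module.rank ℂ (zker b M R G g 1) = Module.rank ℂ (zker b M R G 1 0) + (pN N - 1 : ℕ)

/-- `dim ker Q^{1,0} = 1`. -/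
def Dim1 (N : ℕ) : Prop :=
  ∀ (F : Type) [NormedAddCommGroup F] [InnerProductSpace ℂ F] [FiniteDimensional ℂ F]
    [Nontrivial F] (b : ColorBasis N) (M : FermionRep N F) (R : GaugeAction b M) (G : GammaNine),
    HasDim b M R G 1 0 1

theorem card_arith {r : Cardinal} {p : ℕ} (hp : 1 ≤ p) (h : (p : Cardinal) = r + (p - 1 : ℕ)) :
    r = 1 := by
  have h1 : r < ℵ₀ := by
    refine lt_of_le_of_lt ?_ (Cardinal.natCast_lt_aleph0 (n := p))
    rw [h]
    exact self_le_add_right _ _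
  obtain ⟨n, rfl⟩ := Cardinal.lt_aleph0.1 h1
  have h2 : p = n + (p - 1) := by exact_mod_cast h
  have h3 : n = 1 := by omega
  rw [h3, Nat.cast_one]

theorem dim1_of_parts {N : ℕ} (hW : Weak N) (hC : ConstZ N) (hS : Strong N) : Dim1 N := by
  intro F _ _ _ _ b M R G
  obtain ⟨g₀, hg₀, hW⟩ := hW F b M R G
  obtain ⟨g₁, hS⟩ := hS F b M R G
  have h1 := hW (g₀ / 2) (half_pos hg₀) (half_lt_self hg₀)
  have hg : 0 < max g₁ 0 + 1 := by positivity
  have h2 := hS (max g₁ 0 + 1) hg ((le_max_left _ _).trans_lt (lt_add_one _))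
  have h3 := hC F b M R G (g₀ / 2) (max g₁ 0 + 1) (half_pos hg₀) hg
  unfold HasDim at h1 ⊢
  rw [Nat.cast_one]
  exact card_arith (one_le_pN N) (by rw [← h1, h3, h2])

/-- **The induction.** `S k` : the induction hypothesis. -/
theorem dim1_of {S : ℕ → Prop} (hW : ∀ N, 2 ≤ N → Weak N) (hC : ∀ N, 2 ≤ N → ConstZ N)
    (hStr : ∀ N, 2 ≤ N → (∀ k, 2 ≤ k → k < N → S k) → Strong N)
    (hS : ∀ N, 2 ≤ N → (∀ k, 2 ≤ k → k < N → S k) → Dim1 N → S N) :
    ∀ N, 2 ≤ N → Dim1 N ∧ S N := by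
  intro N
  induction N using Nat.strong_induction_on with
  | _ N ih =>
    intro hN
    have h1 : ∀ k, 2 ≤ k → k < N → S k := fun k hk hkN => (ih k hkN hk).2
    have h2 : Dim1 N := dim1_of_parts (hW N hN) (hC N hN) (hStr N hN h1)
    exact ⟨h2, hS N hN h1 h2⟩

/-- **The statement of S0512** from `Dim1`. -/
theorem s0512_of_dim1 {N : ℕ} (h : Dim1 N) (F : Type) [NormedAddCommGroup F]
    [InnerProductSpace ℂ F] [FiniteDimensional ℂ F] [Nontrivial F] (b : ColorBasis N)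
    (M : FermionRep N F) (R : GaugeAction b M) (G : GammaNine) :
    ∃ Ψ₀ ∈ zeroEnergyStates b M R G, ¬ (Ψ₀ =ᵐ[volume] 0) ∧
      ∀ Ψ ∈ zeroEnergyStates b M R G, ∃ c : ℂ, Ψ =ᵐ[volume] c • Ψ₀ :=
  line_of_hasDim (h F b M R G)

end Crest.Agent.R330.Top478

end
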