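import Crest.Agent.R330.Rot_149
import Crest.Agent.R330.SDefs_726
import Crest.Agent.R330.Lift_406

/-!
# Row 330, section 2: the spin lifts of the plane rotations (helper149)

`eS M G (rot j k) t` (726) intertwines the fermions by `Cp G j k t`, is unitary, commutes with the
gauge action and with the lifts of the other planes.
-/

set_option autoImplicit false
set_option linter.unusedSectionVars false
set_option linter.style.haveILetI false

open MeasureTheory Filter Topology Crest.MathPhysics.MatrixQM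
open scoped ContDiff InnerProductSpace ENNReal
open NormedSpace (exp)

noncomputable section

namespace Crest.Agent.R330.TorA149

open Crest.Agent.R330.Defs478 Crest.Agent.R330.Rot149 Crest.Agent.R330.SDefs726
  Crest.Agent.R330.Lift406 Crest.Agent.R330.Gam962

variable {N : ℕ} {F : Type*} [NormedAddCommGroup F] [InnerProductSpace ℂ F]
  [FiniteDimensional ℂ F]

/-! ## Abstract lemmas -/

section abstractAlg

variable {𝔸 : Type*} [NormedRing 𝔸] [NormedAlgebra ℝ 𝔸] [CompleteSpace 𝔸]

theorem rot_intertwine (B X Y : 𝔸) (h1 : B * X - X * B = -((1 / 2 : ℝ) • Y))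
    (h2 : B * Y - Y * B = (1 / 2 : ℝ) • X) (t : ℝ) :
    X * exp (t • B) = exp (t • B) * (Real.cos (t / 2) • X + Real.sin (t / 2) • Y) := by
  set f : ℝ → 𝔸 := fun t => exp (t • B) * (Real.cos (t / 2) • X + Real.sin (t / 2) • Y) *
    exp (-(t • B)) with hf
  have hd : ∀ t, HasDerivAt f 0 t := by
    intro t
    have e1 : HasDerivAt (fun u : ℝ => exp (u • B)) (exp (t • B) * B) t :=
      hasDerivAt_exp_smul_const B t
    have e2 : HasDerivAt (fun u : ℝ => exp (u • (-B))) ((-B) * exp (t • (-B))) t :=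
      hasDerivAt_exp_smul_const' (-B) t
    have e3 : HasDerivAt (fun u : ℝ => Real.cos (u / 2)) (-Real.sin (t / 2) * (1 / 2)) t :=
      ((hasDerivAt_id t).div_const 2).cos
    have e4 : HasDerivAt (fun u : ℝ => Real.sin (u / 2)) (Real.cos (t / 2) * (1 / 2)) t :=
      ((hasDerivAt_id t).div_const 2).sin
    have e5 : HasDerivAt (fun u : ℝ => Real.cos (u / 2) • X + Real.sin (u / 2) • Y)
        ((-Real.sin (t / 2) * (1 / 2)) • X + (Real.cos (t / 2) * (1 / 2)) • Y) t :=
      (e3.smul_const X).add (e4.smul_const Y)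
    have e6 := (e1.mul e5).mul e2
    refine (e6.congr_deriv ?_).congr_of_eventuallyEq (Eventually.of_forall fun u => ?_)
    · have hX : B * X = X * B - (1 / 2 : ℝ) • Y := by rw [sub_eq_iff_eq_add.1 h1]; abel
      have hY : B * Y = Y * B + (1 / 2 : ℝ) • X := by rw [← h2]; abel
      have h3 : B * (Real.cos (t / 2) • X + Real.sin (t / 2) • Y) =
          (Real.cos (t / 2) • X + Real.sin (t / 2) • Y) * B -
          ((-Real.sin (t / 2) * (1 / 2)) • X + (Real.cos (t / 2) * (1 / 2)) • Y) := by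
        simp only [mul_add, add_mul, mul_smul_comm, smul_mul_assoc, hX, hY]
        module
      simp only [Pi.mul_apply]
      rw [mul_assoc (exp (t • B)) B, h3]
      noncomm_ring
    · simp [hf]
  have hc := is_const_of_deriv_eq_zero (fun x => (hd x).differentiableAt) (fun x => (hd x).deriv) t 0
  have h0 : f 0 = X := by simp [hf]
  rw [h0] at hc
  calc X * exp (t • B) = f t * exp (t • B) := by rw [hc]
    _ = exp (t • B) * (Real.cos (t / 2) • X + Real.sin (t / 2) • Y) *
        (exp (-(t • B)) * exp (t • B)) := by simp only [hf, mul_assoc]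
    _ = _ := by rw [exp_neg_mul_exp, mul_one]

theorem commute_exp {B X : 𝔸} (h : X * B = B * X) (t : ℝ) :
    X * exp (t • B) = exp (t • B) * X := by
  letI : NormedAlgebra ℚ 𝔸 := NormedAlgebra.restrictScalars ℚ ℝ 𝔸
  have h1 : Commute X (t • B) := (show Commute X B from h).smul_right t
  exact h1.exp_right

end abstractAlg

/-! ## The spin generator of a plane -/

/-- The generator `(1/4) θ γ^j γ^k θ` as a continuous operator. -/
def SC (M : FermionRep N F) (G : GammaNine) (j k : Fin 9) : F →L[ℂ] F :=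
  LinearMap.toContinuousLinearMap (Sp M G (rot j k))

theorem SC_apply (M : FermionRep N F) (G : GammaNine) (j k : Fin 9) (v : F) :
    SC M G j k v = Sp M G (rot j k) v := rfl

theorem Sp_rot (M : FermionRep N F) {G : GammaNine} {j k : Fin 9} (h : j ≠ k) (v : F) :
    Sp M G (rot j k) v = (1 / 4 : ℂ) • ∑ A : Fin (N ^ 2 - 1), ∑ α : Fin 16, ∑ β : Fin 16,
      (((G.γ j * G.γ k) α β : ℝ) : ℂ) • M.θ α A (M.θ β A v) := by
  set X : Fin 9 → Fin 9 → F := fun i l => ∑ A : Fin (N ^ 2 - 1),
    ∑ α : Fin 16, ∑ β : Fin 16, (((G.γ i * G.γ l) α β : ℝ) : ℂ) • M.θ α A (M.θ β A v) with hX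
  have h1 : Sp M G (rot j k) v = (1 / 8 : ℂ) • ∑ i, ∑ l, (rot j k l i : ℂ) • X i l := by
    simp only [Sp, LinearMap.smul_apply, LinearMap.sum_apply, LinearMap.comp_apply, hX]
  have h2 : ∑ i, ∑ l, (rot j k l i : ℂ) • X i l = X j k - X k j := by
    have e : ∀ i l, (rot j k l i : ℂ) • X i l =
        (if l = k ∧ i = j then X i l else 0) - (if l = j ∧ i = k then X i l else 0) := by
      intro i l
      simp only [rot, Matrix.sub_apply, Matrix.single_apply, Complex.ofReal_sub, sub_smul]
      congr 1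
      · by_cases hh : l = k ∧ i = j
        · rw [if_pos hh, if_pos ⟨hh.1.symm, hh.2.symm⟩, Complex.ofReal_one, one_smul]
        · rw [if_neg hh, if_neg (fun h' => hh ⟨h'.1.symm, h'.2.symm⟩), Complex.ofReal_zero,
            zero_smul]
      · by_cases hh : l = j ∧ i = k
        · rw [if_pos hh, if_pos ⟨hh.1.symm, hh.2.symm⟩, Complex.ofReal_one, one_smul]
        · rw [if_neg hh, if_neg (fun h' => hh ⟨h'.1.symm, h'.2.symm⟩), Complex.ofReal_zero,
            zero_smul]
    simp only [e, Finset.sum_sub_distrib]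
    congr 1
    · rw [Finset.sum_eq_single j (fun i _ hi => by simp [hi]) (by simp),
        Finset.sum_eq_single k (fun i _ hi => by simp [hi]) (by simp)]
      simp
    · rw [Finset.sum_eq_single k (fun i _ hi => by simp [hi]) (by simp),
        Finset.sum_eq_single j (fun i _ hi => by simp [hi]) (by simp)]
      simp
  have h3 : X k j = - X j k := by
    simp only [hX, anti G h.symm, Matrix.neg_apply, Complex.ofReal_neg, neg_smul,
      Finset.sum_neg_distrib]
  rw [h1, h2, h3, sub_neg_eq_add, ← two_smul ℂ, smul_smul]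
  have e8 : (1 / 8 : ℂ) * 2 = 1 / 4 := by norm_num
  rw [e8]

/-- The commutator of the generator with a fermion. -/
theorem SC_comm (M : FermionRep N F) {G : GammaNine} {j k : Fin 9} (h : j ≠ k) (δ : Fin 16)
    (A : Fin (N ^ 2 - 1)) :
    SC M G j k * th M (δ, A) - th M (δ, A) * SC M G j k =
      -((1 / 2 : ℝ) • ∑ β, ((G.γ j * G.γ k) δ β) • th M (β, A)) := by
  set a : Matrix (Idx N) (Idx N) ℝ := fun p q =>
    if p.2 = q.2 then 1 / 2 * (G.γ j * G.γ k) p.1 q.1 else 0 with ha
  have hanti : ∀ α β, (G.γ j * G.γ k) α β = - (G.γ j * G.γ k) β α := fun α β => by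
    have := congrFun (congrFun (gjk_transpose G h) β) α
    simpa [Matrix.transpose_apply] using this
  have haa : ∀ p q, a p q = - a q p := fun p q => by
    simp only [ha, eq_comm (a := q.2)]
    split_ifs
    · rw [hanti p.1 q.1]; ring
    · simp
  have hS : SC M G j k = spin M a := by
    ext v
    rw [SC_apply, Sp_rot M h]
    simp only [spin, _root_.smul_apply, _root_.sum_apply, mulA, th_apply]
    rw [Fintype.sum_prod_type_right]
    have e : ∀ A : Fin (N ^ 2 - 1), ∀ α : Fin 16, (∑ q : Idx N, ((a (α, A) q : ℝ) : ℂ) •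
        M.θ α A (M.θ q.1 q.2 v)) = (1 / 2 : ℂ) • ∑ β : Fin 16,
          (((G.γ j * G.γ k) α β : ℝ) : ℂ) • M.θ α A (M.θ β A v) := fun A α => by
      rw [Fintype.sum_prod_type_right, Finset.sum_eq_single A]
      · rw [Finset.smul_sum]
        refine Finset.sum_congr rfl fun β _ => ?_
        simp only [ha, if_true, smul_smul]
        congr 1
        push_cast
        ring
      · intro B _ hB
        refine Finset.sum_eq_zero fun β _ => ?_
        simp only [ha, if_neg (Ne.symm hB), Complex.ofReal_zero, zero_smul]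
      · simp
    simp only [e, ← Finset.smul_sum, smul_smul]
    norm_num
  rw [hS, spin_comm M a haa, Fintype.sum_prod_type_right, Finset.sum_eq_single A]
  · rw [Finset.smul_sum, ← Finset.sum_neg_distrib]
    refine Finset.sum_congr rfl fun β _ => ?_
    simp only [ha, if_true]
    rw [hanti β δ, Complex.coe_smul, smul_smul, ← neg_smul]
    congr 1
    ring
  · intro B _ hB
    refine Finset.sum_eq_zero fun β _ => ?_
    simp only [ha, if_neg hB, Complex.ofReal_zero, zero_smul]
  · simp

theorem eS_eq (M : FermionRep N F) (G : GammaNine) (j k : Fin 9) (t : ℝ) :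
    eS M G (rot j k) t = exp (t • SC M G j k) := by
  unfold eS
  rw [Complex.coe_smul]
  rfl

/-- **The lift intertwines the fermions.** -/
theorem theta_eS (M : FermionRep N F) {G : GammaNine} {j k : Fin 9} (h : j ≠ k) (t : ℝ)
    (β : Fin 16) (A : Fin (N ^ 2 - 1)) (v : F) :
    M.θ β A (eS M G (rot j k) t v) =
      eS M G (rot j k) t (∑ δ, (Cp G j k t β δ : ℂ) • M.θ δ A v) := by
  haveI : CompleteSpace F := FiniteDimensional.complete ℂ F
  set Y : Fin 16 → (F →L[ℂ] F) := fun δ => ∑ β, ((G.γ j * G.γ k) δ β) • th M (β, A) with hY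
  have h3 : SC M G j k * Y β - Y β * SC M G j k = (1 / 2 : ℝ) • th M (β, A) := by
    have e1 : SC M G j k * Y β - Y β * SC M G j k = ∑ γ, ((G.γ j * G.γ k) β γ) •
        (SC M G j k * th M (γ, A) - th M (γ, A) * SC M G j k) := by
      simp only [hY, Finset.mul_sum, Finset.sum_mul, mul_smul_comm, smul_mul_assoc, smul_sub,
        Finset.sum_sub_distrib]
    rw [e1]
    simp only [SC_comm M h]
    have e2 : ∑ γ, ((G.γ j * G.γ k) β γ) • -((1 / 2 : ℝ) • ∑ δ, ((G.γ j * G.γ k) γ δ) •
        th M (δ, A)) = -((1 / 2 : ℝ) • ∑ δ, (((G.γ j * G.γ k) * (G.γ j * G.γ k)) β δ) •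
        th M (δ, A)) := by
      simp only [smul_neg, Finset.sum_neg_distrib, Finset.smul_sum, smul_smul,
        Matrix.mul_apply (M := G.γ j * G.γ k) (N := G.γ j * G.γ k), Finset.sum_smul]
      rw [Finset.sum_comm]
      congr 1
      refine Finset.sum_congr rfl fun δ _ => Finset.sum_congr rfl fun γ _ => ?_
      congr 1
      ring
    rw [e2, gjk_sq G h]
    simp [Matrix.one_apply, ite_smul, neg_ite]
  have h4 := rot_intertwine (SC M G j k) (th M (β, A)) (Y β) (SC_comm M h β A) h3 t
  have h5 := congrArg (fun f : F →L[ℂ] F => f v) h4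
  simp only [mulA, th_apply] at h5
  rw [eS_eq]
  refine h5.trans ?_
  congr 1
  have e3 : ∀ δ, (Cp G j k t β δ : ℂ) • M.θ δ A v =
      (if β = δ then (Real.cos (t / 2) : ℂ) • M.θ δ A v else 0) +
      (Real.sin (t / 2) : ℂ) • ((((G.γ j * G.γ k) β δ : ℝ) : ℂ) • M.θ δ A v) := fun δ => by
    simp only [Cp, Matrix.add_apply, Matrix.smul_apply, Matrix.one_apply, smul_eq_mul]
    split_ifs <;> push_cast <;> module
  simp only [e3, Finset.sum_add_distrib, Finset.sum_ite_eq, Finset.mem_univ, if_true, hY,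
    _root_.add_apply, _root_.smul_apply, _root_.sum_apply, th_apply, Complex.coe_smul,
    Finset.smul_sum]

/-! ## Unitarity, group law, smoothness -/

theorem SC_skew (M : FermionRep N F) {G : GammaNine} {j k : Fin 9} (h : j ≠ k) (v w : F) :
    ⟪SC M G j k v, w⟫_ℂ = - ⟪v, SC M G j k w⟫_ℂ := by
  have hanti : ∀ α β, (G.γ j * G.γ k) α β = - (G.γ j * G.γ k) β α := fun α β => by
    have := congrFun (congrFun (gjk_transpose G h) β) α
    simpa [Matrix.transpose_apply] using this
  rw [SC_apply, SC_apply, Sp_rot M h, Sp_rot M h]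
  simp only [inner_smul_left, inner_smul_right, sum_inner, inner_sum]
  rw [← mul_neg, ← Finset.sum_neg_distrib]
  congr 1
  · rw [map_div₀, map_one, map_ofNat]
  refine Finset.sum_congr rfl fun A _ => ?_
  rw [Finset.sum_comm, ← Finset.sum_neg_distrib]
  refine Finset.sum_congr rfl fun α _ => ?_
  rw [← Finset.sum_neg_distrib]
  refine Finset.sum_congr rfl fun β _ => ?_
  rw [M.selfAdjoint β A, M.selfAdjoint α A, hanti β α]
  simp

section exp

theorem eS_add (M : FermionRep N F) (G : GammaNine) (j k : Fin 9) (s t : ℝ) :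
    eS M G (rot j k) (s + t) = eS M G (rot j k) s * eS M G (rot j k) t := by
  haveI : CompleteSpace F := FiniteDimensional.complete ℂ F
  simp only [eS_eq]
  exact exp_add_smul _ s t

theorem eS_zero (M : FermionRep N F) (G : GammaNine) (j k : Fin 9) :
    eS M G (rot j k) 0 = 1 := by
  rw [eS_eq, zero_smul]
  exact NormedSpace.exp_zero

theorem hasDerivAt_eS (M : FermionRep N F) (G : GammaNine) (j k : Fin 9) (t : ℝ) :
    HasDerivAt (fun t : ℝ => eS M G (rot j k) t) (SC M G j k * eS M G (rot j k) t) t := by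
  haveI : CompleteSpace F := FiniteDimensional.complete ℂ F
  simp only [eS_eq]
  exact hasDerivAt_exp_smul_const' (SC M G j k) t

theorem hasDerivAt_eS_apply (M : FermionRep N F) (G : GammaNine) (j k : Fin 9) (t : ℝ) (v : F) :
    HasDerivAt (fun t : ℝ => eS M G (rot j k) t v) (SC M G j k (eS M G (rot j k) t v)) t := by
  have h5 := (((ContinuousLinearMap.apply ℂ F v).restrictScalars ℝ).hasFDerivAt
    (x := eS M G (rot j k) t))
  exact h5.comp_hasDerivAt t (hasDerivAt_eS M G j k t)

theorem contDiff_eS (M : FermionRep N F) (G : GammaNine) (j k : Fin 9) {n : WithTop ℕ∞} :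
    ContDiff ℝ n (fun t : ℝ => eS M G (rot j k) t) := by
  haveI : CompleteSpace F := FiniteDimensional.complete ℂ F
  simp only [eS_eq]
  have h1 : ContDiff ℝ n (fun A : F →L[ℂ] F => exp A) := by
    rw [contDiff_iff_contDiffAt]
    intro A
    exact (NormedSpace.exp_analytic (𝕂 := ℝ) A).contDiffAt
  exact h1.comp (contDiff_id.smul contDiff_const)

/-- **The lift is unitary.** -/
theorem inner_eS (M : FermionRep N F) {G : GammaNine} {j k : Fin 9} (h : j ≠ k) (t : ℝ)
    (v w : F) : ⟪eS M G (rot j k) t v, eS M G (rot j k) t w⟫_ℂ = ⟪v, w⟫_ℂ := by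
  have hd : ∀ t, HasDerivAt (fun t : ℝ => ⟪eS M G (rot j k) t v, eS M G (rot j k) t w⟫_ℂ) 0 t := by
    intro t
    have h1 := (hasDerivAt_eS_apply M G j k t v).inner ℂ (hasDerivAt_eS_apply M G j k t w)
    refine h1.congr_deriv ?_
    rw [SC_skew M h]
    ring
  have hc := is_const_of_deriv_eq_zero (fun x => (hd x).differentiableAt) (fun x => (hd x).deriv) t 0
  simp only [eS_zero] at hc
  exact hc

theorem norm_eS (M : FermionRep N F) {G : GammaNine} {j k : Fin 9} (h : j ≠ k) (t : ℝ)
    (v : F) : ‖eS M G (rot j k) t v‖ = ‖v‖ := by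
  have h1 := inner_eS M (G := G) h t v v
  rw [inner_self_eq_norm_sq_to_K, inner_self_eq_norm_sq_to_K] at h1
  have h2 : ‖eS M G (rot j k) t v‖ ^ 2 = ‖v‖ ^ 2 := by exact_mod_cast h1
  exact (sq_eq_sq₀ (norm_nonneg _) (norm_nonneg _)).1 h2

end exp

/-! ## Commutation with the gauge action -/

theorem SC_rho {b : ColorBasis N} {M : FermionRep N F} (R : GaugeAction b M) {G : GammaNine}
    {j k : Fin 9} (h : j ≠ k) (u : Matrix.specialUnitaryGroup (Fin N) ℂ) (v : F) :
    R.ρ u (SC M G j k v) = SC M G j k (R.ρ u v) := by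
  have hi : ∀ α A w, R.ρ u (M.θ α A w) = ∑ B, (b.adjMat u B A : ℂ) • M.θ α B (R.ρ u w) := by
    intro α A w
    have := congrArg (fun f : F →ₗ[ℂ] F => f w) (R.intertwine u α A)
    simpa [LinearMap.sum_apply] using this
  rw [SC_apply, SC_apply, Sp_rot M h, Sp_rot M h]
  rw [map_smul]
  congr 1
  have key : ∀ (α β : Fin 16), (∑ A, ∑ B, ∑ C, ((b.adjMat u B A : ℂ) * (b.adjMat u C A : ℂ)) •
      M.θ α B (M.θ β C (R.ρ u v))) = ∑ A, M.θ α A (M.θ β A (R.ρ u v)) := by
    intro α β
    rw [Finset.sum_comm]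
    refine Finset.sum_congr rfl fun B _ => ?_
    rw [Finset.sum_comm]
    simp only [← Finset.sum_smul]
    have e : ∀ C, (∑ A, (b.adjMat u B A : ℂ) * (b.adjMat u C A : ℂ)) = if B = C then 1 else 0 := by
      intro C
      have h9 := congrArg Complex.ofReal (Col962.adjMat_orth' b u B C)
      rw [Complex.ofReal_sum] at h9
      simp only [Complex.ofReal_mul] at h9
      rw [h9]
      split_ifs <;> simp
    simp only [e, ite_smul, one_smul, zero_smul, Finset.sum_ite_eq, Finset.mem_univ, if_true]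
  have hL : ∀ A : Fin (N ^ 2 - 1), R.ρ u (∑ α : Fin 16, ∑ β : Fin 16,
      (((G.γ j * G.γ k) α β : ℝ) : ℂ) • M.θ α A (M.θ β A v)) =
      ∑ α : Fin 16, ∑ β : Fin 16, (((G.γ j * G.γ k) α β : ℝ) : ℂ) •
        ∑ B, ∑ C, ((b.adjMat u B A : ℂ) * (b.adjMat u C A : ℂ)) •
          M.θ α B (M.θ β C (R.ρ u v)) := by
    intro A
    simp only [map_sum, map_smul, hi, Finset.smul_sum, smul_smul]
  rw [map_sum]
  simp only [hL]
  rw [Finset.sum_comm]
  conv_rhs => rw [Finset.sum_comm]
  refine Finset.sum_congr rfl fun α _ => ?_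
  rw [Finset.sum_comm]
  conv_rhs => rw [Finset.sum_comm]
  refine Finset.sum_congr rfl fun β _ => ?_
  rw [← Finset.smul_sum, ← Finset.smul_sum, key]

theorem eS_rho {b : ColorBasis N} {M : FermionRep N F} (R : GaugeAction b M) {G : GammaNine}
    {j k : Fin 9} (h : j ≠ k) (u : Matrix.specialUnitaryGroup (Fin N) ℂ) (t : ℝ) (v : F) :
    R.ρ u (eS M G (rot j k) t v) = eS M G (rot j k) t (R.ρ u v) := by
  haveI : CompleteSpace F := FiniteDimensional.complete ℂ F
  have h1 : LinearMap.toContinuousLinearMap (R.ρ u) * SC M G j k =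
      SC M G j k * LinearMap.toContinuousLinearMap (R.ρ u) := by
    ext w
    exact SC_rho R h u w
  have h2 := commute_exp h1 t
  rw [← eS_eq] at h2
  exact congrArg (fun f : F →L[ℂ] F => f v) h2

/-! ## Different planes commute -/

theorem SC_eS (M : FermionRep N F) {G : GammaNine} {j k j' k' : Fin 9} (h : j ≠ k) (h' : j' ≠ k')
    (hjj : j ≠ j') (hjk : j ≠ k') (hkj : k ≠ j') (hkk : k ≠ k') (t : ℝ) (v : F) :
    SC M G j' k' (eS M G (rot j k) t v) = eS M G (rot j k) t (SC M G j' k' v) := by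
  have hcomm : (G.γ j * G.γ k) * (G.γ j' * G.γ k') = (G.γ j' * G.γ k') * (G.γ j * G.γ k) := by
    rw [Matrix.mul_assoc, gl_gjk G hkj hkk, ← Matrix.mul_assoc, gl_gjk G hjj hjk,
      Matrix.mul_assoc]
  have hcomm' : Cp G j k t * (G.γ j' * G.γ k') = (G.γ j' * G.γ k') * Cp G j k t := by
    simp only [Cp, add_mul, mul_add, smul_mul_assoc, mul_smul_comm, one_mul, mul_one, hcomm]
  have hC : (Cp G j k t).transpose * (G.γ j' * G.γ k') * Cp G j k t = G.γ j' * G.γ k' := by
    rw [Matrix.mul_assoc, ← hcomm', ← Matrix.mul_assoc, Cp_orth G h, Matrix.one_mul]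
  have hCe : ∀ γ δ, ∑ α, ∑ β, Cp G j k t α γ * (G.γ j' * G.γ k') α β * Cp G j k t β δ =
      (G.γ j' * G.γ k') γ δ := by
    intro γ δ
    rw [← congrFun (congrFun hC γ) δ]
    simp only [Matrix.mul_apply (M := (Cp G j k t).transpose * (G.γ j' * G.γ k')),
      Matrix.mul_apply (M := (Cp G j k t).transpose), Matrix.transpose_apply, Finset.sum_mul]
    rw [Finset.sum_comm]
  rw [SC_apply, SC_apply, Sp_rot M h', Sp_rot M h', map_smul, map_sum]
  congr 1
  refine Finset.sum_congr rfl fun A _ => ?_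
  simp only [theta_eS M h, map_sum, map_smul, Finset.smul_sum, smul_smul]
  rw [sum4]
  refine Finset.sum_congr rfl fun γ _ => ?_
  refine Finset.sum_congr rfl fun δ _ => ?_
  rw [← hCe γ δ]
  push_cast
  simp only [Finset.sum_smul]
  refine Finset.sum_congr rfl fun α _ => ?_
  refine Finset.sum_congr rfl fun β _ => ?_
  congr 1
  ring

theorem eS_comm (M : FermionRep N F) {G : GammaNine} {j k j' k' : Fin 9} (h : j ≠ k) (h' : j' ≠ k')
    (hjj : j ≠ j') (hjk : j ≠ k') (hkj : k ≠ j') (hkk : k ≠ k') (s t : ℝ) (v : F) :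
    eS M G (rot j k) t (eS M G (rot j' k') s v) = eS M G (rot j' k') s (eS M G (rot j k) t v) := by
  haveI : CompleteSpace F := FiniteDimensional.complete ℂ F
  have h1 : eS M G (rot j k) t * SC M G j' k' = SC M G j' k' * eS M G (rot j k) t := by
    ext w
    exact (SC_eS M h h' hjj hjk hkj hkk t w).symm
  have h2 := commute_exp h1 s
  rw [← eS_eq M G j' k'] at h2
  exact congrArg (fun f : F →L[ℂ] F => f v) h2

end Crest.Agent.R330.TorA149

end
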