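import Crest.Agent.R330.Brid_837

/-!
# Row 330, S5d-UP: interface of the upper bound `z ≤ p(N)` at weak coupling (helper8)

* `wlin b G p α β A y` : the linear part of the coefficients of the charges `Q^{g,1}` at `p / g`;
  `wpot_shift` : `w^{g,1}(p/g + y) = wlin p y + g w^{quad}(y)` if `w^{1,1}(p) = 0`.
* `qlin b M G p α` : the linear charges at `p`; `dcharge_shift`.
* `adv b om p` : the gauge direction `[om, p]`.
* `PolyL2 f`, `Liou b M G p Φ` : the Liouville property of the linear charges.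
-/

set_option autoImplicit false
set_option linter.unusedSectionVars false

open MeasureTheory Filter Topology Metric Crest.MathPhysics.MatrixQM
open scoped ContDiff InnerProductSpace ENNReal

noncomputable section

namespace Crest.Agent.R330.UpDef8

open Crest.Agent.R330.Defs478 Crest.Agent.R330.IBP837 Crest.Agent.R330.Cov837
  Crest.Agent.R330.Brid837

variable {N : ℕ} {F : Type*} [NormedAddCommGroup F] [InnerProductSpace ℂ F]

/-- The linear part at `p`. -/
def wlin (b : ColorBasis N) (G : GammaNine) (p : Cfg N) (α β : Fin 16) (A : Fin (N ^ 2 - 1))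
    (y : Cfg N) : ℝ :=
  (∑ B : Fin (N ^ 2 - 1), ∑ C : Fin (N ^ 2 - 1), ∑ i : Fin 9, ∑ j : Fin 9,
    1 / 2 * b.structConst A B C * (p (i, B) * y (j, C) + y (i, B) * p (j, C)) * G.γ2 i j α β) -
  ∑ j : Fin 9, cc j * y (j, A) * (Gam G * G.γ j) α β

theorem wpot_shift (b : ColorBasis N) (G : GammaNine) {g : ℝ} (hg : g ≠ 0) (p y : Cfg N)
    (α β : Fin 16) (A : Fin (N ^ 2 - 1)) (hp : wpot b G 1 1 α β A p = 0) :
    wpot b G g 1 α β A (g⁻¹ • p + y) = wlin b G p α β A y + g * wco b G α β A y := by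
  have e1 : wpot b G g 1 α β A (g⁻¹ • p + y) =
      g⁻¹ * wpot b G 1 1 α β A p + (wlin b G p α β A y + g * wco b G α β A y) := by
    unfold wpot wlin wco
    have h1 : (∑ B : Fin (N ^ 2 - 1), ∑ C : Fin (N ^ 2 - 1), ∑ i : Fin 9, ∑ j : Fin 9,
        1 / 2 * b.structConst A B C * (g⁻¹ • p + y : Cfg N) (i, B) * (g⁻¹ • p + y : Cfg N) (j, C) *
          G.γ2 i j α β) =
        g⁻¹ * (g⁻¹ * ∑ B : Fin (N ^ 2 - 1), ∑ C : Fin (N ^ 2 - 1), ∑ i : Fin 9, ∑ j : Fin 9,
          1 / 2 * b.structConst A B C * p (i, B) * p (j, C) * G.γ2 i j α β) +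
        (g⁻¹ * (∑ B : Fin (N ^ 2 - 1), ∑ C : Fin (N ^ 2 - 1), ∑ i : Fin 9, ∑ j : Fin 9,
          1 / 2 * b.structConst A B C * (p (i, B) * y (j, C) + y (i, B) * p (j, C)) *
            G.γ2 i j α β) +
        ∑ B : Fin (N ^ 2 - 1), ∑ C : Fin (N ^ 2 - 1), ∑ i : Fin 9, ∑ j : Fin 9,
          1 / 2 * b.structConst A B C * y (i, B) * y (j, C) * G.γ2 i j α β) := by
      simp only [Finset.mul_sum, ← Finset.sum_add_distrib]
      refine Finset.sum_congr rfl fun B _ => Finset.sum_congr rfl fun C _ =>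
        Finset.sum_congr rfl fun i _ => Finset.sum_congr rfl fun j _ => ?_
      simp only [PiLp.add_apply, PiLp.smul_apply, smul_eq_mul]
      ring
    have h2 : (∑ j : Fin 9, cc j * (g⁻¹ • p + y : Cfg N) (j, A) * (Gam G * G.γ j) α β) =
        g⁻¹ * (∑ j : Fin 9, cc j * p (j, A) * (Gam G * G.γ j) α β) +
        ∑ j : Fin 9, cc j * y (j, A) * (Gam G * G.γ j) α β := by
      simp only [Finset.mul_sum, ← Finset.sum_add_distrib]
      refine Finset.sum_congr rfl fun j _ => ?_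
      simp only [PiLp.add_apply, PiLp.smul_apply, smul_eq_mul]
      ring
    rw [h1, h2]
    field_simp
    ring
  rw [e1, hp, mul_zero, zero_add]

/-- The linear charges at `p`. -/
def qlin (b : ColorBasis N) (M : FermionRep N F) (G : GammaNine) (p : Cfg N) (α : Fin 16)
    (ψ : Cfg N → F) (y : Cfg N) : F :=
  kin M G α ψ y + ∑ A : Fin (N ^ 2 - 1), ∑ β : Fin 16,
    ((wlin b G p α β A y : ℝ) : ℂ) • M.θ β A (ψ y)

theorem kin_shift (M : FermionRep N F) (G : GammaNine) (α : Fin 16) (φ : Cfg N → F)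
    (q y : Cfg N) : kin M G α (fun z => φ (q + z)) y = kin M G α φ (q + y) := by
  unfold kin
  have h : fderiv ℝ (fun z => φ (q + z)) y = fderiv ℝ φ (q + y) := by
    rw [fderiv_comp_add_left]
  simp only [h]

/-- **The charges at `p / g`.** -/
theorem dcharge_shift (b : ColorBasis N) (M : FermionRep N F) (G : GammaNine) {g : ℝ}
    (hg : g ≠ 0) (p : Cfg N) (hp : ∀ α β A, wpot b G 1 1 α β A p = 0) (α : Fin 16)
    (φ : Cfg N → F) (y : Cfg N) :
    dcharge b M G g 1 α φ (g⁻¹ • p + y) =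
      qlin b M G p α (fun z => φ (g⁻¹ • p + z)) y +
      ((g : ℝ) : ℂ) • ∑ A : Fin (N ^ 2 - 1), ∑ β : Fin 16,
        ((wco b G α β A y : ℝ) : ℂ) • M.θ β A (φ (g⁻¹ • p + y)) := by
  unfold dcharge qlin
  rw [kin_shift, add_assoc, Finset.smul_sum, ← Finset.sum_add_distrib]
  congr 1
  refine Finset.sum_congr rfl fun A _ => ?_
  rw [Finset.smul_sum, ← Finset.sum_add_distrib]
  refine Finset.sum_congr rfl fun β _ => ?_
  rw [wpot_shift b G hg p y α β A (hp α β A), smul_smul, ← add_smul]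
  push_cast
  rfl

/-- The gauge direction `[om, x]`. -/
def adv (b : ColorBasis N) (om : Fin (N ^ 2 - 1) → ℝ) (x : Cfg N) : Cfg N :=
  WithLp.toLp 2 fun iC => ∑ A, ∑ B, b.structConst A B iC.2 * om A * x (iC.1, B)

theorem adv_add (b : ColorBasis N) (om : Fin (N ^ 2 - 1) → ℝ) (x y : Cfg N) :
    adv b om (x + y) = adv b om x + adv b om y := by
  ext iC
  simp only [adv, PiLp.add_apply, mul_add, Finset.sum_add_distrib]

theorem adv_smul (b : ColorBasis N) (om : Fin (N ^ 2 - 1) → ℝ) (c : ℝ) (x : Cfg N) :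
    adv b om (c • x) = c • adv b om x := by
  ext iC
  simp only [adv, PiLp.smul_apply, smul_eq_mul, Finset.mul_sum]
  exact Finset.sum_congr rfl fun A _ => Finset.sum_congr rfl fun B _ => by ring

theorem adv_smul_left (b : ColorBasis N) (c : ℝ) (om : Fin (N ^ 2 - 1) → ℝ) (x : Cfg N) :
    adv b (c • om) x = c • adv b om x := by
  ext iC
  simp only [adv, PiLp.smul_apply, smul_eq_mul, Pi.smul_apply, Finset.mul_sum]
  exact Finset.sum_congr rfl fun A _ => Finset.sum_congr rfl fun B _ => by ring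

/-- Polynomial growth of the local `L²` norms. -/
def PolyL2 (f : Cfg N → F) : Prop :=
  ∃ (C : ℝ) (D : ℕ), ∀ R : ℝ, 1 ≤ R →
    IntegrableOn (fun y => ‖f y‖ ^ 2) (closedBall 0 R) volume ∧
      ∫ y in closedBall 0 R, ‖f y‖ ^ 2 ≤ C * R ^ D

/-- **The Liouville property** of the linear charges at `p`: a weak zero mode of polynomial growth,
constant in the gauge directions, is a multiple of `Φ`. -/
def Liou (b : ColorBasis N) (M : FermionRep N F) (G : GammaNine) (p : Cfg N) (Φ : Cfg N → F) :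
    Prop :=
  ∀ f : Cfg N → F, AEStronglyMeasurable f volume → PolyL2 f →
    (∀ α : Fin 16, ∀ ψ : Cfg N → F, ContDiff ℝ ∞ ψ → HasCompactSupport ψ →
      ∫ y, ⟪f y, qlin b M G p α ψ y⟫_ℂ = 0) →
    (∀ om : Fin (N ^ 2 - 1) → ℝ, ∀ ψ : Cfg N → F, ContDiff ℝ ∞ ψ → HasCompactSupport ψ →
      ∫ y, ⟪f y, fderiv ℝ ψ y (adv b om p)⟫_ℂ = 0) →
    ∃ c : ℂ, f =ᵐ[volume] c • Φ

end Crest.Agent.R330.UpDef8

end
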