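import Crest.Agent.R330.Haar_596
import Crest.Agent.R330.Avg_798
import Crest.Agent.R330.S5Defs_798
import Crest.Agent.R330.UpDef_8
import Crest.Agent.R330.Ims_714

/-!
# Row 330, S5e (helper798), part A: averaging over `SU(N)` on the literal objects

* `symR R` : the symmetry data of helper596; `fopD` : the deformed charge as a first order
  expression; `op_fopD`.
* `gavg R f x = ∫ g, R.ρ g⁻¹ (f (act g x)) ∂haarSU`; `core_gavg`, `dcharge_gavg`.
* `gavg_upper`, `gavg_lower` : the two norm bounds in real form.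
-/

set_option autoImplicit false
set_option linter.unusedSectionVars false
set_option linter.unusedVariables false
set_option linter.style.haveILetI false

open MeasureTheory Filter Topology Metric Set Module Crest.MathPhysics.MatrixQM
open scoped ContDiff InnerProductSpace ENNReal NNReal

noncomputable section

namespace Crest.Agent.R330.TrA798

open Crest.Agent.R330.Defs478 Crest.Agent.R330.SUgrp596 Crest.Agent.R330.Haar596
  Crest.Agent.R330.WS596 Crest.Agent.R330.Dbl798 Crest.Agent.R330.Avg798
  Crest.Agent.R330.S5Defs798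

variable {N : ℕ} {F : Type} [NormedAddCommGroup F] [InnerProductSpace ℂ F]
  [FiniteDimensional ℂ F] {b : ColorBasis N} {M : FermionRep N F}

/-! ## the abstract data -/

theorem isoAct (b : ColorBasis N) : IsoAct (G := SU N) (b.act) where
  one := Cov837.act_one b
  mul g h x := Cov837.act_mul b g h x
  dist_eq g x y := (Cov837.actL b g).dist_map x y
  cont := Cov837.act_continuous₂ b

theorem urep (R : GaugeAction b M) : URep R.ρ := ⟨R.continuous, R.unitary⟩

theorem act_mp (b : ColorBasis N) (g : SU N) :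
    MeasurePreserving (b.act g) (volume : Measure (Cfg N)) volume :=
  Cov837.act_measurePreserving b g

/-- helper596's symmetry data -/
def symR (R : GaugeAction b M) : Sym (SU N) (Cfg N) F where
  L g := Cov837.actL b g
  ρ g := LinearMap.toContinuousLinearMap (R.ρ g)
  L_mul g h x := Cov837.act_mul b g h x
  ρ_mul g h v := by simp [map_mul]
  L_one x := Cov837.act_one b x
  ρ_one v := by simp [map_one]
  L_cont x := (isoAct b).cont_left x
  ρ_cont := R.continuous
  ρ_unitary g v w := R.unitary g v w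

/-- the average over the gauge group -/
def gavg (R : GaugeAction b M) (f : Cfg N → F) (x : Cfg N) : F :=
  avg (haarSU N) R.ρ b.act f x

theorem gavg_eq (R : GaugeAction b M) (f : Cfg N → F) : gavg R f = (symR R).avg f := rfl

theorem core_gavg (R : GaugeAction b M) {f : Cfg N → F} (hf : ContDiff ℝ ∞ f)
    (hc : HasCompactSupport f) : IsCoreVec b R (gavg R f) := by
  refine ⟨?_, ?_, ?_⟩
  · rw [gavg_eq]; exact (symR R).avg_contDiff hf
  · rw [gavg_eq]; exact (symR R).avg_supp hc
  · intro g x
    rw [gavg_eq]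
    exact (symR R).avg_equi hf.continuous g x

/-! ## the charges as first order expressions -/

/-- derivative part -/
def fopA (M : FermionRep N F) (G : GammaNine) (α : Fin 16) : (Cfg N →L[ℝ] F) →L[ℝ] F :=
  ∑ i : Fin 9, ∑ A : Fin (N ^ 2 - 1), ∑ β : Fin 16,
    (((-Complex.I * (G.γ i α β : ℂ)) • LinearMap.toContinuousLinearMap (M.θ β A)).restrictScalars
      ℝ).comp (ContinuousLinearMap.apply ℝ F (EuclideanSpace.single (i, A) 1 : Cfg N))

/-- potential part -/
def fopB (b : ColorBasis N) (M : FermionRep N F) (G : GammaNine) (g m : ℝ) (α : Fin 16)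
    (x : Cfg N) : F →L[ℝ] F :=
  ∑ A : Fin (N ^ 2 - 1), ∑ β : Fin 16,
    (wpot b G g m α β A x) • (LinearMap.toContinuousLinearMap (M.θ β A)).restrictScalars ℝ

theorem fopB_cont (b : ColorBasis N) (M : FermionRep N F) (G : GammaNine) (g m : ℝ)
    (α : Fin 16) : Continuous (fopB b M G g m α) := by
  unfold fopB
  refine continuous_finsetSum _ fun A _ => continuous_finsetSum _ fun β _ => ?_
  exact (continuous_wpot b G g m α β A).smul continuous_const

/-- the deformed charge -/
def fopD (b : ColorBasis N) (M : FermionRep N F) (G : GammaNine) (g m : ℝ) (α : Fin 16) :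
    FOp (Cfg N) F := ⟨fopA M G α, fopB b M G g m α, fopB_cont b M G g m α⟩

theorem op_fopD (b : ColorBasis N) (M : FermionRep N F) (G : GammaNine) (g m : ℝ) (α : Fin 16)
    (φ : Cfg N → F) : (fopD b M G g m α).op φ = dcharge b M G g m α φ := by
  funext x
  unfold FOp.op fopD fopA fopB dcharge kin
  simp only [_root_.sum_apply, ContinuousLinearMap.comp_apply,
    ContinuousLinearMap.coe_restrictScalars', _root_.smul_apply,
    ContinuousLinearMap.apply_apply, LinearMap.coe_toContinuousLinearMap', Complex.coe_smul]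

theorem cov_fopD (R : GaugeAction b M) (G : GammaNine) (g m : ℝ) (α : Fin 16) :
    (symR R).Cov (fopD b M G g m α) := by
  intro h φ hφ
  rw [op_fopD, op_fopD]
  exact Brid837.dcharge_tg R h (hφ.differentiable (by simp))

/-- the charges commute with the average -/
theorem dcharge_gavg (R : GaugeAction b M) (G : GammaNine) (g m : ℝ) (α : Fin 16)
    {f : Cfg N → F} (hf : ContDiff ℝ ∞ f) :
    dcharge b M G g m α (gavg R f) = gavg R (dcharge b M G g m α f) := by
  rw [gavg_eq, gavg_eq, ← op_fopD, (symR R).op_avg (cov_fopD R G g m α) hf, op_fopD]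

/-! ## norm bounds -/

/-- measure of the group elements moving `p` by at most `r` -/
def nu (b : ColorBasis N) (p : Cfg N) (r : ℝ) : ℝ := (haarSU N).real (near b.act p r)

theorem nu_nonneg (b : ColorBasis N) (p : Cfg N) (r : ℝ) : 0 ≤ nu b p r := measureReal_nonneg

theorem nu_pos (b : ColorBasis N) (p : Cfg N) {r : ℝ} (hr : 0 < r) : 0 < nu b p r := by
  unfold nu
  rw [measureReal_def]
  exact ENNReal.toReal_pos (near_pos (haarSU N) (isoAct b) p hr).ne' (measure_ne_top _ _)

theorem nu_doubling (b : ColorBasis N) (p : Cfg N) {r R : ℝ} (hr : 0 < r) (hR : 0 ≤ R) :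
    nu b p R ≤ (1 + 2 * R / r) ^ finrank ℝ (Cfg N) * nu b p r := by
  have h := doubling (haarSU N) (isoAct b) p hr hR
  have hK : 0 ≤ (1 + 2 * R / r) ^ finrank ℝ (Cfg N) := by positivity
  unfold nu
  rw [measureReal_def, measureReal_def, ← ENNReal.toReal_ofReal hK, ← ENNReal.toReal_mul]
  exact ENNReal.toReal_mono (ENNReal.mul_ne_top ENNReal.ofReal_ne_top (measure_ne_top _ _)) h

theorem ofReal_integral_normSq {f : Cfg N → F} (hf : Continuous f) (hc : HasCompactSupport f) :
    ENNReal.ofReal (∫ x, ‖f x‖ ^ 2) = ∫⁻ x, ‖f x‖ₑ ^ 2 := by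
  have hint : Integrable fun x => ‖f x‖ ^ 2 := by
    refine (hf.norm.pow 2).integrable_of_hasCompactSupport ?_
    exact hc.norm.comp_left (g := fun t : ℝ => t ^ 2) (by norm_num)
  rw [ofReal_integral_eq_lintegral_ofReal hint (Eventually.of_forall fun x => by positivity)]
  refine lintegral_congr fun x => ?_
  rw [ENNReal.ofReal_pow (norm_nonneg _), ofReal_norm]

theorem gavg_upper (R : GaugeAction b M) {f : Cfg N → F} (hf : Continuous f) {p : Cfg N} {ρ : ℝ}
    (hsupp : ∀ x, f x ≠ 0 → dist x p ≤ ρ) :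
    ∫ x, ‖gavg R f x‖ ^ 2 ≤ nu b p (2 * ρ) * ∫ x, ‖f x‖ ^ 2 := by
  have hfc : HasCompactSupport f :=
    HasCompactSupport.intro (isCompact_closedBall p ρ) fun x hx => by
      by_contra hne
      exact hx (hsupp x hne)
  have h := avg_upper (haarSU N) (volume : Measure (Cfg N)) (isoAct b) (act_mp b) (urep R) hf hsupp
  have hac : Continuous (gavg R f) := continuous_avg (haarSU N) (isoAct b) (urep R) hf
  have hcc : HasCompactSupport (gavg R f) := hasCompactSupport_avg (haarSU N) R.ρ (isoAct b) hsupp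
  have h1 := ofReal_integral_normSq hac hcc
  have h2 := ofReal_integral_normSq hf hfc
  have h3 : ENNReal.ofReal (∫ x, ‖gavg R f x‖ ^ 2) ≤
      ENNReal.ofReal (nu b p (2 * ρ) * ∫ x, ‖f x‖ ^ 2) := by
    rw [h1, ENNReal.ofReal_mul (nu_nonneg _ _ _), h2]
    refine h.trans (le_of_eq ?_)
    congr 1
    unfold nu
    rw [measureReal_def, ENNReal.ofReal_toReal (measure_ne_top _ _)]
  refine (ENNReal.ofReal_le_ofReal_iff ?_).1 h3
  exact mul_nonneg (nu_nonneg _ _ _) (integral_nonneg fun x => by positivity)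

/-- lower bound; `hpos` : the overlaps are nonnegative, `h1` : they are at least `c I` near `1`. -/
theorem gavg_lower (R : GaugeAction b M) {f : Cfg N → F} (hf : Continuous f) {p : Cfg N}
    {ρ a c I : ℝ} (hsupp : ∀ x, f x ≠ 0 → dist x p ≤ ρ) (ha : a ≤ 2 * ρ) (hI : 0 ≤ I)
    (h1 : ∀ g : SU N, dist (b.act g p) p ≤ a →
      c * I ≤ (∫ x, ⟪f x, R.ρ g⁻¹ (f (b.act g x))⟫_ℂ).re)
    (hpos : ∀ g : SU N, dist (b.act g p) p ≤ 2 * ρ →
      0 ≤ (∫ x, ⟪f x, R.ρ g⁻¹ (f (b.act g x))⟫_ℂ).re) :
    c * nu b p a * I ≤ ∫ x, ‖gavg R f x‖ ^ 2 := by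
  have h := avg_lower (haarSU N) (volume : Measure (Cfg N)) (isoAct b) (act_mp b) hf (urep R)
    hsupp ha le_rfl hI (c := c) (ε := 0) (fun g hg => h1 g hg) (fun g hg => by
      rw [zero_mul, neg_zero]; exact hpos g hg)
  rw [zero_mul, sub_zero] at h
  exact h

end Crest.Agent.R330.TrA798

end
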