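import Crest.Agent.R330.TrA_798
import Crest.Agent.R330.TrB_798

/-!
# Row 330, S5e (helper798), part C: the trial state at one vacuum

* `exists_near_stab` : compactness; `ov_eq` : the overlap of the local trial function with its
  gauge transform; `trial_one` : the trial state.
-/

set_option autoImplicit false
set_option linter.unusedSectionVars false
set_option linter.unusedVariables false

open MeasureTheory Filter Topology Metric Set Module Crest.MathPhysics.MatrixQM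
open scoped ContDiff InnerProductSpace ENNReal NNReal

noncomputable section

namespace Crest.Agent.R330.TrC798

open Crest.Agent.R330.Defs478 Crest.Agent.R330.S5Defs798 Crest.Agent.R330.Moll596
  Crest.Agent.R330.Ims714 Crest.Agent.R330.TrA798 Crest.Agent.R330.TrB798
  Crest.Agent.R330.SUgrp596

variable {N : ℕ} {F : Type} [NormedAddCommGroup F] [InnerProductSpace ℂ F]
  [FiniteDimensional ℂ F] {b : ColorBasis N} {M : FermionRep N F}

theorem exists_near_stab (b : ColorBasis N) (c : Cfg N) {U : Set (SU N)} (hU : IsOpen U)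
    (hs : ∀ h, b.act h c = c → h ∈ U) :
    ∃ δ : ℝ, 0 < δ ∧ ∀ h : SU N, dist (b.act h c) c ≤ δ → h ∈ U := by
  have hK : IsCompact (Uᶜ) := hU.isClosed_compl.isCompact
  have hcont : Continuous fun h : SU N => dist (b.act h c) c :=
    ((isoAct b).cont_left c).dist continuous_const
  rcases (Uᶜ).eq_empty_or_nonempty with h0 | h0
  · exact ⟨1, one_pos, fun h _ => by
      by_contra hh
      have : h ∈ Uᶜ := hh
      rw [h0] at this
      exact this⟩
  · obtain ⟨k, hk, hmin⟩ := hK.exists_isMinOn h0 hcont.continuousOn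
    have hpos : 0 < dist (b.act k c) c := by
      rw [dist_pos]
      intro hh
      exact hk (hs k hh)
    refine ⟨dist (b.act k c) c / 2, by positivity, fun h hh => ?_⟩
    by_contra hn
    have h1 : dist (b.act k c) c ≤ dist (b.act h c) c := hmin hn
    linarith

theorem exists_spin (R : GaugeAction b M) (c : Cfg N) {Ω : F} (hΩ : ‖Ω‖ = 1)
    (hn : ∀ h, b.act h c = c → R.ρ h Ω = Ω) :
    ∃ δ : ℝ, 0 < δ ∧ ∀ h : SU N, dist (b.act h c) c ≤ δ → 1 / 2 ≤ (⟪Ω, R.ρ h⁻¹ Ω⟫_ℂ).re := by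
  have hcont : Continuous fun h : SU N => (⟪Ω, R.ρ h⁻¹ Ω⟫_ℂ).re := by
    refine Complex.continuous_re.comp (continuous_const.inner ?_)
    have h1 : Continuous fun h : SU N => LinearMap.toContinuousLinearMap (R.ρ h⁻¹) :=
      R.continuous.comp continuous_inv
    exact h1.clm_apply continuous_const
  obtain ⟨δ, hδ, h⟩ := exists_near_stab b c (U := {h : SU N | 1 / 2 < (⟪Ω, R.ρ h⁻¹ Ω⟫_ℂ).re})
    (isOpen_lt continuous_const hcont) (fun h hh => by
      have h1 : R.ρ h⁻¹ Ω = Ω := by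
        have h2 := Cov837.rho_inv_apply (g := h) R Ω
        rwa [hn h hh] at h2
      show 1 / 2 < (⟪Ω, R.ρ h⁻¹ Ω⟫_ℂ).re
      rw [h1, inner_self_eq_norm_sq_to_K, hΩ]
      norm_num)
  exact ⟨δ, hδ, fun k hk => (h k hk).le⟩

/-- the difference of the conjugated quadratic form -/
def dif (b : ColorBasis N) (A : Cfg N →ₗ[ℝ] Cfg N) (h : SU N) : Cfg N →L[ℝ] Cfg N :=
  LinearMap.toContinuousLinearMap
    ((((Cov837.actL b h).symm.toLinearEquiv : Cfg N →ₗ[ℝ] Cfg N) ∘ₗ A ∘ₗ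
      ((Cov837.actL b h).toLinearEquiv : Cfg N →ₗ[ℝ] Cfg N)) - A)

theorem dif_apply (b : ColorBasis N) (A : Cfg N →ₗ[ℝ] Cfg N) (h : SU N) (u : Cfg N) :
    dif b A h u = b.act h⁻¹ (A (b.act h u)) - A u := rfl

attribute [irreducible] dif

theorem act_cont₂ (b : ColorBasis N) : Continuous fun p : SU N × Cfg N => b.act p.1 p.2 :=
  Cov837.act_continuous₂ b

theorem dif_cont_apply (b : ColorBasis N) (A : Cfg N →ₗ[ℝ] Cfg N) (u : Cfg N) :
    Continuous fun h : SU N => b.act h⁻¹ (A (b.act h u)) - A u := by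
  have h1 : Continuous fun h : SU N => A (b.act h u) :=
    A.continuous_of_finiteDimensional.comp ((isoAct b).cont_left u)
  have h2 : Continuous fun h : SU N => ((h⁻¹, A (b.act h u)) : SU N × Cfg N) :=
    continuous_inv.prodMk h1
  have h3 := (act_cont₂ b).comp h2
  have h4 : ((fun p : SU N × Cfg N => b.act p.1 p.2) ∘
      fun h : SU N => ((h⁻¹, A (b.act h u)) : SU N × Cfg N)) =
      fun h : SU N => b.act h⁻¹ (A (b.act h u)) := rfl
  rw [h4] at h3
  exact h3.sub continuous_const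

theorem dif_cont (b : ColorBasis N) (A : Cfg N →ₗ[ℝ] Cfg N) : Continuous (dif b A) := by
  refine continuous_clm_apply.2 fun u => ?_
  have h : (fun h : SU N => dif b A h u) = fun h : SU N => b.act h⁻¹ (A (b.act h u)) - A u :=
    funext fun h => dif_apply b A h u
  rw [h]
  exact dif_cont_apply b A u

theorem exists_form (b : ColorBasis N) {A : Cfg N →ₗ[ℝ] Cfg N} (c : Cfg N)
    (inv : ∀ h, b.act h c = c → ∀ u, A (b.act h u) = b.act h (A u)) {δ : ℝ} (hδ : 0 < δ) :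
    ∃ η : ℝ, 0 < η ∧ ∀ h : SU N, dist (b.act h c) c ≤ η → ∀ u,
      ⟪b.act h u, A (b.act h u)⟫_ℝ ≤ ⟪u, A u⟫_ℝ + δ * ‖u‖ ^ 2 := by
  obtain ⟨η, hη, h⟩ := exists_near_stab b c (U := {h : SU N | ‖dif b A h‖ < δ})
    (isOpen_lt (dif_cont b A).norm continuous_const) (fun h hh => by
      have h1 : dif b A h = 0 := by
        ext1 u
        rw [dif_apply, inv h hh u, Cov837.act_inv_act, sub_self]
        rfl
      show ‖dif b A h‖ < δ
      rw [h1, norm_zero]
      exact hδ)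
  refine ⟨η, hη, fun k hk u => ?_⟩
  have h1 : ‖dif b A k‖ < δ := h k hk
  have h2 : ⟪b.act k u, A (b.act k u)⟫_ℝ = ⟪u, A u⟫_ℝ + ⟪u, dif b A k u⟫_ℝ := by
    rw [dif_apply, inner_sub_right]
    have h3 : ⟪b.act k u, A (b.act k u)⟫_ℝ = ⟪u, b.act k⁻¹ (A (b.act k u))⟫_ℝ := by
      conv_lhs => rw [← Cov837.act_act_inv (b := b) (g := k) (A (b.act k u))]
      exact Cov837.inner_act _ _ _ _
    rw [h3]
    ring
  rw [h2]
  have h3 : ⟪u, dif b A k u⟫_ℝ ≤ ‖u‖ * ‖dif b A k u‖ := real_inner_le_norm _ _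
  have h4 : ‖dif b A k u‖ ≤ δ * ‖u‖ :=
    ((dif b A k).le_opNorm u).trans (mul_le_mul_of_nonneg_right h1.le (norm_nonneg _))
  have h5 := mul_le_mul_of_nonneg_left h4 (norm_nonneg u)
  nlinarith

/-! ## vacuum configurations along the orbit -/

theorem wpot_zero_orbit {G : GammaNine} {c : Cfg N} (hc : ∀ α β B, wpot b G 1 1 α β B c = 0)
    {g : ℝ} (hg : 0 < g) (h : SU N) (α β : Fin 16) (B : Fin (N ^ 2 - 1)) :
    wpot b G g 1 α β B (b.act h (g⁻¹ • c)) = 0 := by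
  rw [Brid837.isCov_wpot h (g⁻¹ • c) α β B]
  refine Finset.sum_eq_zero fun C _ => ?_
  have h1 := wpot_shift b G (hc α β C) hg.ne' 0
  rw [add_zero] at h1
  have h2 : wpot b G 1 0 α β C (0 : Cfg N) = 0 := by
    unfold wpot; simp
  have h3 : wlin b G c α β C 0 = 0 := by
    unfold wlin
    rw [add_zero, h2]; ring
  rw [h1, h2, h3]
  simp

/-! ## the overlap -/

/-- the scalar profile -/
def prof (r : ℝ) (A : Cfg N →ₗ[ℝ] Cfg N) (u : Cfg N) : ℝ :=
  cut r u * Real.exp (-(1 / 2) * ⟪u, A u⟫_ℝ)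

theorem f0_eq (r : ℝ) (A : Cfg N →ₗ[ℝ] Cfg N) (Ω : F) (u : Cfg N) :
    f0 r A Ω u = prof r A u • Ω := by
  unfold f0 gau prof
  rw [smul_smul]

theorem prof_nonneg (r : ℝ) (A : Cfg N →ₗ[ℝ] Cfg N) (u : Cfg N) : 0 ≤ prof r A u :=
  mul_nonneg (cut_nonneg _ _) (Real.exp_pos _).le

theorem prof_cont (r : ℝ) (A : Cfg N →ₗ[ℝ] Cfg N) : Continuous (prof r A) :=
  (cut_smooth r).continuous.mul (gexp_cont A (1 / 2))

/-- the scalar overlap integral -/
def ovJ (b : ColorBasis N) (r : ℝ) (A : Cfg N →ₗ[ℝ] Cfg N) (h : SU N) (τ : Cfg N) : ℝ :=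
  ∫ u, prof r A u * prof r A (τ + b.act h u)

theorem ov_eq (R : GaugeAction b M) (r : ℝ) (A : Cfg N →ₗ[ℝ] Cfg N) (Ω : F) (p : Cfg N)
    (h : SU N) :
    (∫ x, ⟪floc r A Ω p x, R.ρ h⁻¹ (floc r A Ω p (b.act h x))⟫_ℂ) =
      (ovJ b r A h (b.act h p - p) : ℂ) * ⟪Ω, R.ρ h⁻¹ Ω⟫_ℂ := by
  rw [← integral_add_left_eq_self _ p]
  have h1 : ∀ u, ⟪floc r A Ω p (p + u), R.ρ h⁻¹ (floc r A Ω p (b.act h (p + u)))⟫_ℂ =
      ((prof r A u * prof r A ((b.act h p - p) + b.act h u) : ℝ) : ℂ) * ⟪Ω, R.ρ h⁻¹ Ω⟫_ℂ := by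
    intro u
    unfold floc
    rw [add_sub_cancel_left, Cov837.act_add, add_sub_right_comm, f0_eq, f0_eq,
      ← Complex.coe_smul, ← Complex.coe_smul, map_smul, inner_smul_left, inner_smul_right,
      Complex.conj_ofReal]
    push_cast
    ring
  simp only [h1]
  rw [integral_mul_const, integral_complex_ofReal]
  rfl

theorem ovJ_nonneg (b : ColorBasis N) (r : ℝ) (A : Cfg N →ₗ[ℝ] Cfg N) (h : SU N) (τ : Cfg N) :
    0 ≤ ovJ b r A h τ :=
  integral_nonneg fun u => mul_nonneg (prof_nonneg _ _ _) (prof_nonneg _ _ _)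

theorem ovJ_lower {A : Cfg N →ₗ[ℝ] Cfg N} (symm : ∀ u v, ⟪A u, v⟫_ℝ = ⟪u, A v⟫_ℝ)
    (pos : ∀ u, 0 ≤ ⟪u, A u⟫_ℝ) {r : ℝ} (hr : 0 < r) {h : SU N} {τ : Cfg N}
    (hτ : ‖τ‖ ≤ r / 2) (hS : ⟪τ, A τ⟫_ℝ ≤ 1)
    (hf : ∀ u, ⟪b.act h u, A (b.act h u)⟫_ℝ ≤ ⟪u, A u⟫_ℝ + 1 / r ^ 2 * ‖u‖ ^ 2) :
    Real.exp (-2) * gint A (3 / 2) (r / 2) ≤ ovJ b r A h τ := by
  have hint : Integrable fun u => prof r A u * prof r A (τ + b.act h u) := by
    refine Continuous.integrable_of_hasCompactSupport ?_ ?_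
    · refine (prof_cont r A).mul ((prof_cont r A).comp (continuous_const.add ?_))
      exact (Cov837.actL b h).continuous
    · have : HasCompactSupport (prof r A) := by
        unfold prof
        exact (cut_supp hr).mul_right
      exact this.mul_right
  have h1 : ∫ u in closedBall (0 : Cfg N) (r / 2), prof r A u * prof r A (τ + b.act h u) ≤
      ovJ b r A h τ :=
    setIntegral_le_integral hint (Eventually.of_forall fun u =>
      mul_nonneg (prof_nonneg _ _ _) (prof_nonneg _ _ _))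
  refine le_trans ?_ h1
  unfold gint
  rw [← integral_const_mul]
  refine setIntegral_mono_on ((gexp_integrableOn A _ _).const_mul _) hint.integrableOn
    measurableSet_closedBall fun u hu => ?_
  rw [mem_closedBall_zero_iff] at hu
  have c1 : cut r u = 1 := cut_one hr (hu.trans (by linarith))
  have c2 : cut r (τ + b.act h u) = 1 := by
    refine cut_one hr ?_
    calc ‖τ + b.act h u‖ ≤ ‖τ‖ + ‖b.act h u‖ := norm_add_le _ _
      _ = ‖τ‖ + ‖u‖ := by rw [Cov837.norm_act]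
      _ ≤ r := by linarith
  unfold prof
  rw [c1, c2, one_mul, one_mul, ← Real.exp_add, ← Real.exp_add]
  apply Real.exp_le_exp.2
  have h2 := S_add_le symm pos τ (b.act h u)
  have h3 := hf u
  have h4 : 1 / r ^ 2 * ‖u‖ ^ 2 ≤ 1 / 4 := by
    have h5 : ‖u‖ ^ 2 ≤ (r / 2) ^ 2 := pow_le_pow_left₀ (norm_nonneg _) hu 2
    rw [one_div, inv_mul_le_iff₀ (by positivity)]
    nlinarith
  have h5 := pos u
  nlinarith

/-! ## the trial state -/

theorem dist_orbit (b : ColorBasis N) (c : Cfg N) {g : ℝ} (hg : 0 < g) (k : SU N) :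
    dist (b.act k c) c = g * dist (b.act k (g⁻¹ • c)) (g⁻¹ • c) := by
  rw [Cov837.act_smul, dist_eq_norm, dist_eq_norm, ← smul_sub, norm_smul, norm_inv,
    Real.norm_of_nonneg hg.le, ← mul_assoc, mul_inv_cancel₀ hg.ne', one_mul]

theorem dcharge_floc_supp {G : GammaNine} {r : ℝ} (hr : 0 < r) (A : Cfg N →ₗ[ℝ] Cfg N) (Ω : F)
    (p : Cfg N) (g m : ℝ) (α : Fin 16) (x : Cfg N)
    (hx : dcharge b M G g m α (floc r A Ω p) x ≠ 0) : dist x p ≤ 2 * r := by
  have h1 : x ∈ tsupport (floc r A Ω p) :=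
    Brid837.tsupport_dcharge_subset (subset_tsupport _ hx)
  have h2 : tsupport (floc r A Ω p) ⊆ closedBall p (2 * r) :=
    closure_minimal (fun y hy => floc_supp hr A Ω p hy) isClosed_closedBall
  exact h2 h1

theorem gavg_supp (R : GaugeAction b M) {f : Cfg N → F} {x : Cfg N} (hx : gavg R f x ≠ 0) :
    ∃ k : SU N, f (b.act k x) ≠ 0 := by
  by_contra h
  push Not at h
  apply hx
  unfold gavg Avg798.avg
  simp [h]

theorem trial_one (R : GaugeAction b M) {G : GammaNine} {c : Cfg N} {A : Cfg N →ₗ[ℝ] Cfg N}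
    {Ω : F} (h : VacPack b M R G c A Ω) (hc : ∀ α β B, wpot b G 1 1 α β B c = 0) {ε : ℝ}
    (hε : 0 < ε) :
    ∃ r : ℝ, 0 < r ∧ ∃ g₀ : ℝ, 0 < g₀ ∧ ∀ g : ℝ, 0 < g → g < g₀ →
      ∃ φ : Cfg N → F, IsCoreVec b R φ ∧ 0 < ∫ x, ‖φ x‖ ^ 2 ∧
        qf b M G g 1 φ ≤ ε * ∫ x, ‖φ x‖ ^ 2 ∧
        ∀ x, φ x ≠ 0 → ∃ k : SU N, dist x (b.act k (g⁻¹ • c)) ≤ 2 * r := by
  obtain ⟨C₁, hC₁0, hC₁⟩ := exists_cut0_bound (Cfg N)
  obtain ⟨C₂, hC₂0, hC₂⟩ := exists_quad_bound b G
  set d := finrank ℝ (Cfg N) with hd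
  set κ : ℝ := 1 / 2 * Real.exp (-2) with hκ
  have hκ0 : 0 < κ := by rw [hκ]; positivity
  set K : ℝ := 17 ^ d * 4 ^ d / κ with hK
  have hK0 : 0 < K := by rw [hK]; positivity
  set r : ℝ := 1 + 2 * K * C₁ ^ 2 / ε with hr_def
  have hr1 : 1 ≤ r := by
    have : 0 ≤ 2 * K * C₁ ^ 2 / ε := by positivity
    rw [hr_def]; linarith
  have hr : 0 < r := by linarith
  have hKr : K * (C₁ / r) ^ 2 ≤ ε / 2 := by
    rw [div_pow, mul_div_assoc', div_le_iff₀ (by positivity)]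
    have h1 : 2 * K * C₁ ^ 2 / ε ≤ r ^ 2 := by
      have : r ≤ r ^ 2 := by nlinarith
      rw [hr_def] at this ⊢
      linarith
    rw [div_le_iff₀ hε] at h1
    linarith
  obtain ⟨δ₁, hδ₁, hspin⟩ := exists_spin R c h.unit h.neut
  obtain ⟨η, hη, hform⟩ := exists_form b c h.inv (δ := 1 / r ^ 2) (by positivity)
  set L : ℝ := K * (C₂ * (2 * r) ^ 4) with hL
  have hL0 : 0 ≤ L := by rw [hL]; positivity
  set T : ℝ := Real.sqrt C₂ * (4 * r) ^ 3 with hT
  have hT0 : 0 ≤ T := by rw [hT]; positivity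
  refine ⟨r, hr, min (min 1 (ε / 2 / (L + 1))) (min (min δ₁ η / (4 * r)) (1 / (T + 1))), ?_, ?_⟩
  · have : 0 < min δ₁ η := lt_min hδ₁ hη
    refine lt_min (lt_min one_pos (by positivity)) (lt_min (by positivity) (by positivity))
  intro g hg hg₀
  have hg1 : g < 1 := hg₀.trans_le ((min_le_left _ _).trans (min_le_left _ _))
  have hg2 : g < ε / 2 / (L + 1) := hg₀.trans_le ((min_le_left _ _).trans (min_le_right _ _))
  have hg3 : g < min δ₁ η / (4 * r) := hg₀.trans_le ((min_le_right _ _).trans (min_le_left _ _))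
  have hg4 : g < 1 / (T + 1) := hg₀.trans_le ((min_le_right _ _).trans (min_le_right _ _))
  have hgL : g ^ 2 * L ≤ ε / 2 := by
    rw [lt_div_iff₀ (by positivity)] at hg2
    have h1 : g ^ 2 * L ≤ g * L := by
      refine mul_le_mul_of_nonneg_right ?_ hL0
      nlinarith
    nlinarith
  have hgr : g * (4 * r) < min δ₁ η := by rwa [lt_div_iff₀ (by positivity)] at hg3
  have hgT : g * T ≤ 1 := by
    rw [lt_div_iff₀ (by positivity)] at hg4
    nlinarith
  set p : Cfg N := g⁻¹ • c with hp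
  set f := floc r A Ω p with hf
  have hfs : ContDiff ℝ ∞ f := floc_smooth r A Ω p
  have hfc : HasCompactSupport f := floc_compact hr A Ω p
  have hfsupp : ∀ x, f x ≠ 0 → dist x p ≤ 2 * r := fun x hx => floc_supp hr A Ω p hx
  set I := gint A (3 / 2) (r / 2) with hI
  have hI0 : 0 < I := gint_pos A _ (by positivity)
  -- group elements moving `p` by at most `4 r`
  have hnear : ∀ k : SU N, dist (b.act k p) p ≤ 2 * (2 * r) →
      dist (b.act k c) c ≤ δ₁ ∧ dist (b.act k c) c ≤ η := by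
    intro k hk
    have h1 : dist (b.act k c) c ≤ g * (4 * r) := by
      rw [dist_orbit b c hg k]
      refine mul_le_mul_of_nonneg_left ?_ hg.le
      linarith
    exact ⟨h1.trans (hgr.le.trans (min_le_left _ _)), h1.trans (hgr.le.trans (min_le_right _ _))⟩
  have hov : ∀ k : SU N, (∫ x, ⟪f x, R.ρ k⁻¹ (f (b.act k x))⟫_ℂ).re =
      ovJ b r A k (b.act k p - p) * (⟪Ω, R.ρ k⁻¹ Ω⟫_ℂ).re := by
    intro k
    rw [hf, ov_eq, Complex.re_ofReal_mul]
  have hlow : κ * nu b p (r / 2) * I ≤ ∫ x, ‖gavg R f x‖ ^ 2 := by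
    refine gavg_lower R hfs.continuous hfsupp (by linarith) hI0.le ?_ ?_
    · intro k hk
      have hk2 : dist (b.act k p) p ≤ 2 * (2 * r) := hk.trans (by linarith)
      obtain ⟨h1, h2⟩ := hnear k hk2
      rw [hov]
      have h3 := hspin k h1
      have hτ : ‖b.act k p - p‖ ≤ r / 2 := by rwa [← dist_eq_norm]
      have hτ0 : ∀ α β B, wpot b G g 1 α β B (g⁻¹ • c + (b.act k p - p)) = 0 := by
        intro α β B
        rw [← hp, add_sub_cancel]
        exact wpot_zero_orbit hc hg k α β B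
      have hS : ⟪b.act k p - p, A (b.act k p - p)⟫_ℝ ≤ 1 := by
        refine (tau_bound h hc hg hC₂0 hC₂ hτ0).trans ?_
        have h4 : ‖b.act k p - p‖ ^ 3 ≤ (4 * r) ^ 3 :=
          pow_le_pow_left₀ (norm_nonneg _) (hτ.trans (by linarith)) 3
        calc g * Real.sqrt C₂ * ‖b.act k p - p‖ ^ 3 ≤ g * Real.sqrt C₂ * (4 * r) ^ 3 :=
              mul_le_mul_of_nonneg_left h4 (by positivity)
          _ = g * T := by rw [hT]; ring
          _ ≤ 1 := hgT
      have h5 := ovJ_lower h.symm h.pos hr hτ hS (hform k h2)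
      calc κ * I = (Real.exp (-2) * I) * (1 / 2) := by rw [hκ]; ring
        _ ≤ ovJ b r A k (b.act k p - p) * (⟪Ω, R.ρ k⁻¹ Ω⟫_ℂ).re :=
          mul_le_mul h5 h3 (by norm_num) (ovJ_nonneg _ _ _ _ _)
    · intro k hk
      rw [hov]
      exact mul_nonneg (ovJ_nonneg _ _ _ _ _) (by linarith [hspin k (hnear k hk).1])
  have hpos : 0 < ∫ x, ‖gavg R f x‖ ^ 2 := by
    refine lt_of_lt_of_le ?_ hlow
    have := nu_pos b p (r := r / 2) (by positivity)
    positivity
  refine ⟨gavg R f, core_gavg R hfs hfc, hpos, ?_, ?_⟩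
  · -- the energy
    have hup : ∀ α, ∫ x, ‖dcharge b M G g 1 α (gavg R f) x‖ ^ 2 ≤
        nu b p (2 * (2 * r)) * (((C₁ / r) ^ 2 + g ^ 2 * (C₂ * (2 * r) ^ 4)) * gint A 1 (2 * r)) := by
      intro α
      rw [dcharge_gavg R G g 1 α hfs]
      refine (gavg_upper R (continuous_dcharge b M G g 1 α (hfs.of_le (by exact_mod_cast le_top)))
        (fun x hx => dcharge_floc_supp hr A Ω p g 1 α x hx)).trans ?_
      exact mul_le_mul_of_nonneg_left (int_dcharge_floc h hc hg hr hC₁ hC₂0 hC₂ α)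
        (nu_nonneg _ _ _)
    have hqf : qf b M G g 1 (gavg R f) ≤
        nu b p (2 * (2 * r)) * (((C₁ / r) ^ 2 + g ^ 2 * (C₂ * (2 * r) ^ 4)) * gint A 1 (2 * r)) := by
      unfold qf
      have h1 : ∑ α : Fin 16, ∫ x, ‖dcharge b M G g 1 α (gavg R f) x‖ ^ 2 ≤
          ∑ _α : Fin 16, nu b p (2 * (2 * r)) *
            (((C₁ / r) ^ 2 + g ^ 2 * (C₂ * (2 * r) ^ 4)) * gint A 1 (2 * r)) :=
        Finset.sum_le_sum fun α _ => hup α
      rw [Finset.sum_const, Finset.card_univ, Fintype.card_fin, nsmul_eq_mul] at h1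
      push_cast at h1
      linarith
    have hdbl : nu b p (2 * (2 * r)) ≤ 17 ^ d * nu b p (r / 2) := by
      have h1 := nu_doubling b p (r := r / 2) (R := 2 * (2 * r)) (by positivity) (by positivity)
      have h2 : 1 + 2 * (2 * (2 * r)) / (r / 2) = 17 := by
        field_simp
        norm_num
      rwa [h2] at h1
    have hgi : gint A 1 (2 * r) ≤ 4 ^ d * I := gint_le h.pos r
    have hE : 0 ≤ (C₁ / r) ^ 2 + g ^ 2 * (C₂ * (2 * r) ^ 4) := by positivity
    calc qf b M G g 1 (gavg R f) ≤ _ := hqf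
      _ ≤ (17 ^ d * nu b p (r / 2)) *
          (((C₁ / r) ^ 2 + g ^ 2 * (C₂ * (2 * r) ^ 4)) * (4 ^ d * I)) := by
          refine mul_le_mul hdbl (mul_le_mul_of_nonneg_left hgi hE)
            (mul_nonneg hE (gint_nonneg _ _ _)) ?_
          have := nu_nonneg b p (r / 2)
          positivity
      _ = (K * (C₁ / r) ^ 2 + g ^ 2 * L) * (κ * nu b p (r / 2) * I) := by
          rw [hL, hK]
          field_simp
      _ ≤ ε * (κ * nu b p (r / 2) * I) := by
          refine mul_le_mul_of_nonneg_right (by linarith) ?_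
          have := nu_nonneg b p (r / 2)
          positivity
      _ ≤ ε * ∫ x, ‖gavg R f x‖ ^ 2 := mul_le_mul_of_nonneg_left hlow hε.le
  · intro x hx
    obtain ⟨k, hk⟩ := gavg_supp R hx
    refine ⟨k⁻¹, ?_⟩
    have h1 := hfsupp _ hk
    have h2 := (Cov837.actL b k⁻¹).dist_map (b.act k x) p
    rw [← h2] at h1
    simp only [Cov837.actL_apply, Cov837.act_inv_act] at h1
    exact h1

end Crest.Agent.R330.TrC798

end
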