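import Mathlib
import Crest.Prelude.Def_MatrixModel

/-!
Row 330 (helper317), leaf S12-TRANS part A: completeness of a colour basis, the orthogonal matrix
`O_AB = Re Tr(T'_A T_B)` between two colour bases, transformation of `structConst` and `adjMat`.
-/

set_option autoImplicit false
set_option linter.unusedSectionVars false
set_option linter.deprecated false

noncomputable section

namespace Crest.Agent.R330.TransA317

open Matrix Crest.MathPhysics.MatrixQM
open scoped InnerProductSpace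

variable {N : ℕ}

/-- expansion coefficient -/
def cf (b : ColorBasis N) (H : Matrix (Fin N) (Fin N) ℂ) (A : Fin (N ^ 2 - 1)) : ℂ :=
  (b.T A * H).trace

theorem linInd (b : ColorBasis N) : LinearIndependent ℂ b.T := by
  rw [Fintype.linearIndependent_iff]
  intro g hg i
  have h := congrArg (fun H => (b.T i * H).trace) hg
  simp only [Finset.mul_sum, Matrix.mul_smul, Matrix.trace_sum, Matrix.trace_smul,
    b.orthonormal, mul_zero, Matrix.trace_zero, smul_eq_mul, mul_ite, mul_one] at h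
  simpa using h

/-- the traceless matrices -/
def tl (N : ℕ) : Submodule ℂ (Matrix (Fin N) (Fin N) ℂ) :=
  LinearMap.ker (Matrix.traceLinearMap (Fin N) ℂ ℂ)

theorem mem_tl {H : Matrix (Fin N) (Fin N) ℂ} : H ∈ tl N ↔ H.trace = 0 := by
  simp [tl]

theorem finrank_tl : Module.finrank ℂ (tl N) = N ^ 2 - 1 := by
  rcases Nat.eq_zero_or_pos N with h0 | h0
  · subst h0
    have : Module.finrank ℂ (tl 0) ≤ Module.finrank ℂ (Matrix (Fin 0) (Fin 0) ℂ) :=
      Submodule.finrank_le _
    have h2 : Module.finrank ℂ (Matrix (Fin 0) (Fin 0) ℂ) = 0 := by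
      rw [Module.finrank_matrix]; simp
    omega
  · have h1 := LinearMap.finrank_range_add_finrank_ker (Matrix.traceLinearMap (Fin N) ℂ ℂ)
    have h2 : LinearMap.range (Matrix.traceLinearMap (Fin N) ℂ ℂ) = ⊤ := by
      rw [LinearMap.range_eq_top]
      intro c
      refine ⟨Matrix.diagonal (fun i => if i = ⟨0, h0⟩ then c else 0), ?_⟩
      simp [Matrix.trace, Matrix.diagonal]
    rw [h2, finrank_top, Module.finrank_matrix] at h1
    simp only [Fintype.card_fin, Module.finrank_self, mul_one] at h1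
    show Module.finrank ℂ (tl N) = _
    unfold tl
    rw [pow_two]
    omega

theorem span_T (b : ColorBasis N) : Submodule.span ℂ (Set.range b.T) = tl N := by
  apply Submodule.eq_of_le_of_finrank_eq
  · rw [Submodule.span_le]
    rintro _ ⟨A, rfl⟩
    exact mem_tl.mpr (b.traceless A)
  · rw [finrank_span_eq_card (linInd b), finrank_tl, Fintype.card_fin]

/-- completeness -/
theorem expand (b : ColorBasis N) {H : Matrix (Fin N) (Fin N) ℂ} (hH : H.trace = 0) :
    H = ∑ A, (b.T A * H).trace • b.T A := by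
  have h : H ∈ Submodule.span ℂ (Set.range b.T) := by
    rw [span_T]; exact mem_tl.mpr hH
  obtain ⟨c, hc⟩ := (Submodule.mem_span_range_iff_exists_fun ℂ).mp h
  have hcA : ∀ A, (b.T A * H).trace = c A := by
    intro A
    rw [← hc]
    simp [Finset.mul_sum, Matrix.mul_smul, Matrix.trace_sum, Matrix.trace_smul, b.orthonormal]
  conv_lhs => rw [← hc]
  exact Finset.sum_congr rfl fun A _ => by rw [hcA]

theorem trace_mul_real {X Y : Matrix (Fin N) (Fin N) ℂ} (hX : X.IsHermitian) (hY : Y.IsHermitian) :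
    (((X * Y).trace).re : ℂ) = (X * Y).trace := by
  have h : star (X * Y).trace = (X * Y).trace := by
    rw [← Matrix.trace_conjTranspose, Matrix.conjTranspose_mul, hX.eq, hY.eq, Matrix.trace_mul_comm]
  exact Complex.conj_eq_iff_re.mp h

/-- completeness, real coefficients -/
theorem expand_real (b : ColorBasis N) {H : Matrix (Fin N) (Fin N) ℂ} (hH : H.trace = 0)
    (hh : H.IsHermitian) : H = ∑ A, ((b.T A * H).trace.re : ℂ) • b.T A := by
  conv_lhs => rw [expand b hH]
  exact Finset.sum_congr rfl fun A _ => by rw [trace_mul_real (b.herm A) hh]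

/-- the orthogonal matrix between two colour bases: `T'_A = Σ_B O_AB T_B` -/
def O (b b' : ColorBasis N) (A B : Fin (N ^ 2 - 1)) : ℝ := (b'.T A * b.T B).trace.re

theorem O_cast (b b' : ColorBasis N) (A B : Fin (N ^ 2 - 1)) :
    ((O b b' A B : ℝ) : ℂ) = (b'.T A * b.T B).trace := trace_mul_real (b'.herm A) (b.herm B)

theorem O_symm (b b' : ColorBasis N) (A B : Fin (N ^ 2 - 1)) : O b' b B A = O b b' A B := by
  unfold O; rw [Matrix.trace_mul_comm]

theorem T_eq (b b' : ColorBasis N) (A : Fin (N ^ 2 - 1)) :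
    b'.T A = ∑ B, ((O b b' A B : ℝ) : ℂ) • b.T B := by
  conv_lhs => rw [expand_real b (b'.traceless A) (b'.herm A)]
  exact Finset.sum_congr rfl fun B _ => by rw [O, Matrix.trace_mul_comm]

theorem O_mul_O (b b' : ColorBasis N) (A C : Fin (N ^ 2 - 1)) :
    ∑ B, O b b' A B * O b b' C B = if A = C then 1 else 0 := by
  have h := b'.orthonormal A C
  have h2 : (b'.T A * b'.T C).trace = ((∑ B, O b b' A B * O b b' C B : ℝ) : ℂ) := by
    conv_lhs => rw [T_eq b b' C]
    rw [Finset.mul_sum, Matrix.trace_sum]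
    push_cast
    refine Finset.sum_congr rfl fun B _ => ?_
    rw [Matrix.mul_smul, Matrix.trace_smul, ← O_cast, smul_eq_mul, mul_comm]
  rw [h2] at h
  have h3 := congrArg Complex.re h
  rw [Complex.ofReal_re] at h3
  rw [h3]
  split_ifs <;> simp

theorem O_mul_O' (b b' : ColorBasis N) (B C : Fin (N ^ 2 - 1)) :
    ∑ A, O b b' A B * O b b' A C = if B = C then 1 else 0 := by
  have h := O_mul_O b' b B C
  simpa [O_symm] using h

/-- trilinear form behind the structure constants -/
def tri (X Y Z : Matrix (Fin N) (Fin N) ℂ) : ℂ :=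
  -Complex.I * ((X * Y - Y * X) * Z).trace

theorem structConst_eq (b : ColorBasis N) (A B C : Fin (N ^ 2 - 1)) :
    b.structConst A B C = (tri (b.T A) (b.T B) (b.T C)).re := rfl

theorem tri_conj {X Y Z : Matrix (Fin N) (Fin N) ℂ} (hX : X.IsHermitian) (hY : Y.IsHermitian)
    (hZ : Z.IsHermitian) : star (tri X Y Z) = tri X Y Z := by
  unfold tri
  rw [star_mul', ← Matrix.trace_conjTranspose, Matrix.conjTranspose_mul,
    Matrix.conjTranspose_sub, Matrix.conjTranspose_mul, Matrix.conjTranspose_mul, hX.eq, hY.eq,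
    hZ.eq, Matrix.trace_mul_comm]
  have : star (-Complex.I) = Complex.I := by simp
  rw [this]
  have h2 : (Y * X - X * Y) = -(X * Y - Y * X) := by abel
  rw [h2, Matrix.neg_mul, Matrix.trace_neg]
  ring

theorem structConst_cast (b : ColorBasis N) (A B C : Fin (N ^ 2 - 1)) :
    ((b.structConst A B C : ℝ) : ℂ) = tri (b.T A) (b.T B) (b.T C) := by
  rw [structConst_eq]
  exact Complex.conj_eq_iff_re.mp (tri_conj (b.herm A) (b.herm B) (b.herm C))

theorem tri_sum_left {ι : Type*} (s : Finset ι) (c : ι → ℂ) (X : ι → Matrix (Fin N) (Fin N) ℂ)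
    (Y Z : Matrix (Fin N) (Fin N) ℂ) :
    tri (∑ i ∈ s, c i • X i) Y Z = ∑ i ∈ s, c i * tri (X i) Y Z := by
  simp only [tri, Finset.sum_mul, Finset.mul_sum, Matrix.smul_mul, Matrix.mul_smul,
    ← Finset.sum_sub_distrib, ← smul_sub, Matrix.trace_sum, Matrix.trace_smul, smul_eq_mul]
  exact Finset.sum_congr rfl fun i _ => by ring

theorem tri_sum_mid {ι : Type*} (s : Finset ι) (c : ι → ℂ) (Y : ι → Matrix (Fin N) (Fin N) ℂ)
    (X Z : Matrix (Fin N) (Fin N) ℂ) :
    tri X (∑ i ∈ s, c i • Y i) Z = ∑ i ∈ s, c i * tri X (Y i) Z := by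
  simp only [tri, Finset.sum_mul, Finset.mul_sum, Matrix.smul_mul, Matrix.mul_smul,
    ← Finset.sum_sub_distrib, ← smul_sub, Matrix.trace_sum, Matrix.trace_smul, smul_eq_mul]
  exact Finset.sum_congr rfl fun i _ => by ring

theorem tri_sum_right {ι : Type*} (s : Finset ι) (c : ι → ℂ) (Z : ι → Matrix (Fin N) (Fin N) ℂ)
    (X Y : Matrix (Fin N) (Fin N) ℂ) :
    tri X Y (∑ i ∈ s, c i • Z i) = ∑ i ∈ s, c i * tri X Y (Z i) := by
  simp only [tri, Finset.mul_sum, Matrix.mul_smul, Matrix.trace_sum, Matrix.trace_smul,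
    smul_eq_mul]
  exact Finset.sum_congr rfl fun i _ => by ring

/-- transformation of the structure constants -/
theorem structConst_trans (b b' : ColorBasis N) (A B C : Fin (N ^ 2 - 1)) :
    b'.structConst A B C = ∑ A', ∑ B', ∑ C', O b b' A A' * O b b' B B' * O b b' C C' *
      b.structConst A' B' C' := by
  have h : ((b'.structConst A B C : ℝ) : ℂ) = ((∑ A', ∑ B', ∑ C',
      O b b' A A' * O b b' B B' * O b b' C C' * b.structConst A' B' C' : ℝ) : ℂ) := by
    rw [structConst_cast, T_eq b b' A, T_eq b b' B, T_eq b b' C, tri_sum_left]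
    push_cast
    refine Finset.sum_congr rfl fun A' _ => ?_
    rw [tri_sum_mid, Finset.mul_sum]
    refine Finset.sum_congr rfl fun B' _ => ?_
    rw [tri_sum_right, Finset.mul_sum, Finset.mul_sum]
    refine Finset.sum_congr rfl fun C' _ => ?_
    rw [structConst_cast]
    ring
  exact_mod_cast h

/-- bilinear form behind the adjoint matrix -/
def bil (g : Matrix (Fin N) (Fin N) ℂ) (X Y : Matrix (Fin N) (Fin N) ℂ) : ℂ :=
  (X * g * Y * star g).trace

theorem adjMat_eq (b : ColorBasis N) (g : Matrix.specialUnitaryGroup (Fin N) ℂ)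
    (A B : Fin (N ^ 2 - 1)) : b.adjMat g A B = (bil (g : Matrix (Fin N) (Fin N) ℂ) (b.T A)
      (b.T B)).re := rfl

theorem adjMat_cast (b : ColorBasis N) (g : Matrix.specialUnitaryGroup (Fin N) ℂ)
    (A B : Fin (N ^ 2 - 1)) : ((b.adjMat g A B : ℝ) : ℂ) =
      bil (g : Matrix (Fin N) (Fin N) ℂ) (b.T A) (b.T B) := by
  rw [adjMat_eq]
  have h : ((g : Matrix (Fin N) (Fin N) ℂ) * b.T B * star (g : Matrix (Fin N) (Fin N) ℂ)).IsHermitian := by
    show _ᴴ = _
    rw [Matrix.conjTranspose_mul, Matrix.conjTranspose_mul, (b.herm B).eq]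
    show star (star (g : Matrix (Fin N) (Fin N) ℂ)) * (b.T B * star (g : Matrix (Fin N) (Fin N) ℂ)) = _
    rw [star_star, Matrix.mul_assoc]
  have h2 := trace_mul_real (b.herm A) h
  unfold bil
  rw [Matrix.mul_assoc, Matrix.mul_assoc, ← Matrix.mul_assoc (g : Matrix (Fin N) (Fin N) ℂ)]
  exact h2

theorem bil_sum_left (g : Matrix (Fin N) (Fin N) ℂ) {ι : Type*} (s : Finset ι) (c : ι → ℂ)
    (X : ι → Matrix (Fin N) (Fin N) ℂ) (Y : Matrix (Fin N) (Fin N) ℂ) :
    bil g (∑ i ∈ s, c i • X i) Y = ∑ i ∈ s, c i * bil g (X i) Y := by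
  simp only [bil, Finset.sum_mul, Matrix.smul_mul, Matrix.trace_sum, Matrix.trace_smul,
    smul_eq_mul]

theorem bil_sum_right (g : Matrix (Fin N) (Fin N) ℂ) {ι : Type*} (s : Finset ι) (c : ι → ℂ)
    (Y : ι → Matrix (Fin N) (Fin N) ℂ) (X : Matrix (Fin N) (Fin N) ℂ) :
    bil g X (∑ i ∈ s, c i • Y i) = ∑ i ∈ s, c i * bil g X (Y i) := by
  simp only [bil, Finset.sum_mul, Finset.mul_sum, Matrix.smul_mul, Matrix.mul_smul,
    Matrix.trace_sum, Matrix.trace_smul, smul_eq_mul]

theorem adjMat_trans (b b' : ColorBasis N) (g : Matrix.specialUnitaryGroup (Fin N) ℂ)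
    (A B : Fin (N ^ 2 - 1)) :
    b'.adjMat g A B = ∑ A', ∑ B', O b b' A A' * O b b' B B' * b.adjMat g A' B' := by
  have h : ((b'.adjMat g A B : ℝ) : ℂ) = ((∑ A', ∑ B',
      O b b' A A' * O b b' B B' * b.adjMat g A' B' : ℝ) : ℂ) := by
    rw [adjMat_cast, T_eq b b' A, T_eq b b' B, bil_sum_left]
    push_cast
    refine Finset.sum_congr rfl fun A' _ => ?_
    rw [bil_sum_right, Finset.mul_sum]
    refine Finset.sum_congr rfl fun B' _ => ?_
    rw [adjMat_cast]
    ring
  exact_mod_cast h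

end Crest.Agent.R330.TransA317
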