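import Mathlib
import Crest.Prelude.Def_MatrixModel
import Crest.Agent.R330.IBP_837
import Crest.Agent.R330.TransA_317

/-!
Row 330 (helper317), leaf S12-TRANS part B: equivalences of data `(F, b, M, R)` and transport of
core vectors, charges, zero-energy states and eigenpairs.
-/

set_option autoImplicit false
set_option linter.unusedSectionVars false
set_option linter.deprecated false

noncomputable section

namespace Crest.Agent.R330.Trans317

open MeasureTheory Filter Topology Crest.MathPhysics.MatrixQM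
open Crest.Agent.R330.IBP837 Crest.Agent.R330.TransA317
open scoped ContDiff InnerProductSpace ENNReal

variable {N : ℕ}

/-! ### 1. The rotation of configurations -/

/-- `(O x)_i^A = Σ_B O_AB x_i^B` as a linear map -/
def oLin (b b' : ColorBasis N) : Cfg N →ₗ[ℝ] Cfg N where
  toFun x := WithLp.toLp 2 (fun iA => ∑ B, O b b' iA.2 B * x (iA.1, B))
  map_add' x y := by
    ext iA
    simp [mul_add, Finset.sum_add_distrib]
  map_smul' c x := by
    ext iA
    simp only [PiLp.smul_apply, smul_eq_mul, RingHom.id_apply, Finset.mul_sum]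
    exact Finset.sum_congr rfl fun B _ => by ring

theorem oLin_apply (b b' : ColorBasis N) (x : Cfg N) (i : Fin 9) (A : Fin (N ^ 2 - 1)) :
    oLin b b' x (i, A) = ∑ B, O b b' A B * x (i, B) := rfl

theorem oLin_oLin (b b' : ColorBasis N) (x : Cfg N) : oLin b' b (oLin b b' x) = x := by
  ext ⟨i, A⟩
  rw [oLin_apply]
  simp only [oLin_apply, Finset.mul_sum]
  rw [Finset.sum_comm]
  have h : ∀ C, ∑ B, O b' b A B * (O b b' B C * x (i, C)) =
      (if A = C then 1 else 0) * x (i, C) := by
    intro C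
    rw [← O_mul_O' b b' A C, Finset.sum_mul]
    exact Finset.sum_congr rfl fun B _ => by rw [O_symm b b' B A]; ring
  simp [h]

theorem oLin_norm (b b' : ColorBasis N) (x : Cfg N) : ‖oLin b b' x‖ = ‖x‖ := by
  have h : ‖oLin b b' x‖ ^ 2 = ‖x‖ ^ 2 := by
    rw [EuclideanSpace.norm_sq_eq, EuclideanSpace.norm_sq_eq, Fintype.sum_prod_type,
      Fintype.sum_prod_type]
    refine Finset.sum_congr rfl fun i _ => ?_
    simp only [oLin_apply, Real.norm_eq_abs, sq_abs]
    have h1 : ∀ A, (∑ B, O b b' A B * x (i, B)) ^ 2 =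
        ∑ B, ∑ C, O b b' A B * O b b' A C * (x (i, B) * x (i, C)) := by
      intro A
      rw [pow_two, Finset.sum_mul_sum]
      exact Finset.sum_congr rfl fun B _ => Finset.sum_congr rfl fun C _ => by ring
    simp only [h1]
    rw [Finset.sum_comm]
    refine Finset.sum_congr rfl fun B _ => ?_
    rw [Finset.sum_comm]
    simp only [← Finset.sum_mul, O_mul_O']
    simp [pow_two]
  have h1 := norm_nonneg (oLin b b' x)
  have h2 := norm_nonneg x
  nlinarith [h, sq_nonneg (‖oLin b b' x‖ - ‖x‖), sq_nonneg (‖oLin b b' x‖ + ‖x‖)]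

/-- the isometry `x ↦ O x` of configuration space -/
def oIso (b b' : ColorBasis N) : Cfg N ≃ₗᵢ[ℝ] Cfg N where
  toLinearEquiv :=
    { oLin b b' with
      invFun := oLin b' b
      left_inv := oLin_oLin b b'
      right_inv := oLin_oLin b' b }
  norm_map' := oLin_norm b b'

theorem oIso_apply (b b' : ColorBasis N) (x : Cfg N) (i : Fin 9) (A : Fin (N ^ 2 - 1)) :
    oIso b b' x (i, A) = ∑ B, O b b' A B * x (i, B) := rfl

theorem oIso_symm (b b' : ColorBasis N) : (oIso b b').symm = oIso b' b := by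
  ext x
  rfl

theorem oIso_symm_apply (b b' : ColorBasis N) (x : Cfg N) (i : Fin 9) (A : Fin (N ^ 2 - 1)) :
    (oIso b b').symm x (i, A) = ∑ B, O b b' B A * x (i, B) := by
  rw [oIso_symm, oIso_apply]
  exact Finset.sum_congr rfl fun B _ => by rw [O_symm b b' B A]

theorem oIso_act (b b' : ColorBasis N) (g : Matrix.specialUnitaryGroup (Fin N) ℂ) (x : Cfg N) :
    b'.act g (oIso b b' x) = oIso b b' (b.act g x) := by
  ext ⟨i, A⟩
  rw [oIso_apply]
  show ∑ B, b'.adjMat g A B * (oIso b b' x) (i, B) =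
    ∑ B, O b b' A B * ∑ C, b.adjMat g B C * x (i, C)
  have h1 : ∀ B, b'.adjMat g A B * (oIso b b' x) (i, B) =
      ∑ A', ∑ B', ∑ C, (O b b' A A' * b.adjMat g A' B') *
        ((O b b' B B' * O b b' B C) * x (i, C)) := by
    intro B
    rw [adjMat_trans b b', oIso_apply, Finset.sum_mul]
    refine Finset.sum_congr rfl fun A' _ => ?_
    rw [Finset.sum_mul]
    refine Finset.sum_congr rfl fun B' _ => ?_
    rw [Finset.mul_sum]
    exact Finset.sum_congr rfl fun C _ => by ring
  simp only [h1]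
  rw [Finset.sum_comm]
  refine Finset.sum_congr rfl fun A' _ => ?_
  rw [Finset.sum_comm, Finset.mul_sum]
  refine Finset.sum_congr rfl fun B' _ => ?_
  rw [Finset.sum_comm]
  have h2 : ∀ C, ∑ B, (O b b' A A' * b.adjMat g A' B') *
      ((O b b' B B' * O b b' B C) * x (i, C)) =
      (O b b' A A' * b.adjMat g A' B') * ((if B' = C then 1 else 0) * x (i, C)) := by
    intro C
    rw [← O_mul_O' b b' B' C, Finset.sum_mul, Finset.mul_sum]
  simp only [h2]
  simp
  ring

/-- `O⁻¹ e_{iA} = Σ_B O_AB e_{iB}` -/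
theorem oIso_symm_single (b b' : ColorBasis N) (i : Fin 9) (A : Fin (N ^ 2 - 1)) :
    (oIso b b').symm (EuclideanSpace.single (i, A) (1 : ℝ)) =
      ∑ B, O b b' A B • (EuclideanSpace.single (i, B) (1 : ℝ) : Cfg N) := by
  ext ⟨j, C⟩
  rw [oIso_symm_apply]
  rw [WithLp.ofLp_sum, Finset.sum_apply]
  simp only [PiLp.smul_apply, smul_eq_mul, EuclideanSpace.single_apply, Prod.mk.injEq]
  by_cases h : j = i
  · subst h; simp
  · simp [h]

/-! ### 2. Transport of `FermionRep`, `GaugeAction` along a change of basis -/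

section Rot

variable {F : Type*} [NormedAddCommGroup F] [InnerProductSpace ℂ F]

theorem OOc (b b' : ColorBasis N) (A C : Fin (N ^ 2 - 1)) :
    ∑ B, ((O b b' A B : ℝ) : ℂ) * ((O b b' C B : ℝ) : ℂ) = if A = C then 1 else 0 := by
  have h := congrArg (fun r : ℝ => (r : ℂ)) (O_mul_O b b' A C)
  simp only [Complex.ofReal_sum, Complex.ofReal_mul] at h
  rw [h]
  split_ifs <;> simp

theorem OO'c (b b' : ColorBasis N) (B C : Fin (N ^ 2 - 1)) :
    ∑ A, ((O b b' A B : ℝ) : ℂ) * ((O b b' A C : ℝ) : ℂ) = if B = C then 1 else 0 := by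
  have h := congrArg (fun r : ℝ => (r : ℂ)) (O_mul_O' b b' B C)
  simp only [Complex.ofReal_sum, Complex.ofReal_mul] at h
  rw [h]
  split_ifs <;> simp

/-- `θ'_α^A = Σ_B O_AB θ_α^B` -/
def rotθ (b b' : ColorBasis N) (M : FermionRep N F) (α : Fin 16) (A : Fin (N ^ 2 - 1)) :
    F →ₗ[ℂ] F := ∑ B, ((O b b' A B : ℝ) : ℂ) • M.θ α B

theorem rotθ_apply (b b' : ColorBasis N) (M : FermionRep N F) (α : Fin 16)
    (A : Fin (N ^ 2 - 1)) (v : F) :
    rotθ b b' M α A v = ∑ B, ((O b b' A B : ℝ) : ℂ) • M.θ α B v := by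
  simp [rotθ]

theorem θ_eq_rotθ (b b' : ColorBasis N) (M : FermionRep N F) (α : Fin 16)
    (B : Fin (N ^ 2 - 1)) : M.θ α B = ∑ A, ((O b b' A B : ℝ) : ℂ) • rotθ b b' M α A := by
  simp only [rotθ, Finset.smul_sum, smul_smul]
  rw [Finset.sum_comm]
  simp only [← Finset.sum_smul]
  simp [OO'c]

theorem isSymm_smul {L : F →ₗ[ℂ] F} (hL : L.IsSymmetric) (r : ℝ) :
    ((r : ℂ) • L).IsSymmetric := by
  intro v w
  simp only [LinearMap.smul_apply, inner_smul_left, inner_smul_right, hL v w]
  simp

theorem isSymm_sum {ι : Type*} (s : Finset ι) {L : ι → F →ₗ[ℂ] F}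
    (hL : ∀ i ∈ s, (L i).IsSymmetric) : (∑ i ∈ s, L i).IsSymmetric := by
  intro v w
  simp only [LinearMap.sum_apply, sum_inner, inner_sum]
  exact Finset.sum_congr rfl fun i hi => hL i hi v w

/-- the rotated fermion representation -/
def rotM (b b' : ColorBasis N) (M : FermionRep N F) : FermionRep N F where
  θ := rotθ b b' M
  selfAdjoint α A := isSymm_sum _ fun B _ => isSymm_smul (M.selfAdjoint α B) _
  anticomm α A β B := by
    have h1 : rotθ b b' M α A ∘ₗ rotθ b b' M β B + rotθ b b' M β B ∘ₗ rotθ b b' M α A =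
        ∑ C, ∑ D, (((O b b' A C : ℝ) : ℂ) * ((O b b' B D : ℝ) : ℂ)) •
          (M.θ α C ∘ₗ M.θ β D + M.θ β D ∘ₗ M.θ α C) := by
      have e1 : rotθ b b' M α A ∘ₗ rotθ b b' M β B =
          ∑ C, ∑ D, (((O b b' A C : ℝ) : ℂ) * ((O b b' B D : ℝ) : ℂ)) •
            (M.θ α C ∘ₗ M.θ β D) := by
        ext v
        simp only [LinearMap.comp_apply, rotθ_apply, map_sum, map_smul, LinearMap.sum_apply,
          LinearMap.smul_apply, Finset.smul_sum, smul_smul]
        rw [Finset.sum_comm]
        exact Finset.sum_congr rfl fun C _ => Finset.sum_congr rfl fun D _ => by rw [mul_comm]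
      have e2 : rotθ b b' M β B ∘ₗ rotθ b b' M α A =
          ∑ C, ∑ D, (((O b b' A C : ℝ) : ℂ) * ((O b b' B D : ℝ) : ℂ)) •
            (M.θ β D ∘ₗ M.θ α C) := by
        ext v
        simp only [LinearMap.comp_apply, rotθ_apply, map_sum, map_smul, LinearMap.sum_apply,
          LinearMap.smul_apply, Finset.smul_sum, smul_smul]
      rw [e1, e2]
      simp only [smul_add, Finset.sum_add_distrib]
    rw [h1]
    have h2 : ∀ C D, (((O b b' A C : ℝ) : ℂ) * ((O b b' B D : ℝ) : ℂ)) •
        (M.θ α C ∘ₗ M.θ β D + M.θ β D ∘ₗ M.θ α C) =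
        if C = D then (if α = β then (((O b b' A C : ℝ) : ℂ) * ((O b b' B C : ℝ) : ℂ)) •
          (LinearMap.id : F →ₗ[ℂ] F) else 0) else 0 := by
      intro C D
      rw [M.anticomm]
      by_cases hCD : C = D
      · subst hCD; by_cases hαβ : α = β <;> simp [hαβ]
      · simp [hCD]
    simp only [h2, Finset.sum_ite_eq, Finset.mem_univ, if_true]
    by_cases hαβ : α = β
    · simp only [hαβ, if_true, true_and]
      rw [← Finset.sum_smul]
      rw [OOc]
      split_ifs <;> simp
    · simp [hαβ]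
  irreducible W hW := by
    apply M.irreducible W
    intro α B v hv
    rw [θ_eq_rotθ b b' M α B]
    simp only [LinearMap.sum_apply, LinearMap.smul_apply]
    exact W.sum_mem fun A _ => W.smul_mem _ (hW α A v hv)

variable [FiniteDimensional ℂ F]

/-- the same gauge action, over the rotated data -/
def rotR (b b' : ColorBasis N) {M : FermionRep N F} (R : GaugeAction b M) :
    GaugeAction b' (rotM b b' M) where
  ρ := R.ρ
  continuous := R.continuous
  unitary := R.unitary
  intertwine g α A := by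
    show R.ρ g ∘ₗ rotθ b b' M α A = (∑ B, (b'.adjMat g B A : ℂ) • rotθ b b' M α B) ∘ₗ R.ρ g
    have h1 : R.ρ g ∘ₗ rotθ b b' M α A =
        (∑ C, ∑ D, (((O b b' A C : ℝ) : ℂ) * (b.adjMat g D C : ℂ)) • M.θ α D) ∘ₗ R.ρ g := by
      have e : R.ρ g ∘ₗ rotθ b b' M α A =
          ∑ C, ((O b b' A C : ℝ) : ℂ) • (R.ρ g ∘ₗ M.θ α C) := by
        ext v
        simp only [LinearMap.comp_apply, rotθ_apply, map_sum, map_smul, LinearMap.sum_apply,
          LinearMap.smul_apply]
      rw [e]
      simp only [R.intertwine]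
      ext v
      simp only [LinearMap.comp_apply, LinearMap.sum_apply, LinearMap.smul_apply,
        Finset.smul_sum, smul_smul]
    rw [h1]
    congr 1
    -- both sides as combinations of θ_D
    have h2 : ∀ B, (b'.adjMat g B A : ℂ) • rotθ b b' M α B =
        ∑ D, ((b'.adjMat g B A : ℂ) * ((O b b' B D : ℝ) : ℂ)) • M.θ α D := by
      intro B
      simp only [rotθ, Finset.smul_sum, smul_smul]
    simp only [h2]
    rw [Finset.sum_comm, Finset.sum_comm (γ := Fin (N ^ 2 - 1)) (s := Finset.univ)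
      (f := fun B D => ((b'.adjMat g B A : ℂ) * ((O b b' B D : ℝ) : ℂ)) • M.θ α D)]
    refine Finset.sum_congr rfl fun D _ => ?_
    rw [← Finset.sum_smul, ← Finset.sum_smul]
    congr 1
    have h3 : ∑ C, O b b' A C * b.adjMat g D C = ∑ B, b'.adjMat g B A * O b b' B D := by
      have h4 : ∀ B, b'.adjMat g B A * O b b' B D =
          ∑ D', ∑ C, (O b b' B D' * O b b' B D) * (O b b' A C * b.adjMat g D' C) := by
        intro B
        rw [adjMat_trans b b', Finset.sum_mul]
        refine Finset.sum_congr rfl fun D' _ => ?_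
        rw [Finset.sum_mul]
        exact Finset.sum_congr rfl fun C _ => by ring
      simp only [h4]
      rw [Finset.sum_comm]
      have h5 : ∀ D', ∑ B, ∑ C, (O b b' B D' * O b b' B D) * (O b b' A C * b.adjMat g D' C) =
          (if D' = D then 1 else 0) * ∑ C, O b b' A C * b.adjMat g D' C := by
        intro D'
        rw [← O_mul_O' b b' D' D, Finset.sum_mul]
        exact Finset.sum_congr rfl fun B _ => by rw [Finset.mul_sum]
      simp [h5]
    exact_mod_cast h3

end Rot

end Crest.Agent.R330.Trans317
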