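import Mathlib
import Crest.Prelude.Def_MatrixModel
import Crest.Agent.R330.Defs_478
import Crest.Agent.R330.TransB_317

/-!
Row 330 (helper317), leaf S12-TRANS part C: equivalences of data `(F, b, M, R)` and transport of
core vectors, charges `Q^{g,m}`, zero states, kernels and eigenpairs.
-/

set_option autoImplicit false
set_option linter.unusedSectionVars false
set_option linter.deprecated false

noncomputable section

namespace Crest.Agent.R330.Trans317

open MeasureTheory Filter Topology Crest.MathPhysics.MatrixQM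
open Crest.Agent.R330.TransA317 Crest.Agent.R330.Defs478
open scoped ContDiff InnerProductSpace ENNReal

variable {N : ℕ}

/-! ### 3. Equivalence of data -/

section Data

variable {F : Type*} [NormedAddCommGroup F] [InnerProductSpace ℂ F] [FiniteDimensional ℂ F]
  {F' : Type*} [NormedAddCommGroup F'] [InnerProductSpace ℂ F'] [FiniteDimensional ℂ F']

/-- equivalence of two data of the model, over possibly different colour bases -/
structure DEquiv {b : ColorBasis N} {M : FermionRep N F} (R : GaugeAction b M)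
    {b' : ColorBasis N} {M' : FermionRep N F'} (R' : GaugeAction b' M') where
  /-- the unitary between the fermion spaces -/
  u : F ≃ₗᵢ[ℂ] F'
  hθ : ∀ α A v, M'.θ α A (u v) = u (rotθ b b' M α A v)
  hρ : ∀ g v, R'.ρ g (u v) = u (R.ρ g v)

variable {b : ColorBasis N} {M : FermionRep N F} {R : GaugeAction b M}
  {b' : ColorBasis N} {M' : FermionRep N F'} {R' : GaugeAction b' M'}

/-- the rotated data are equivalent to the original data -/
def DEquiv.rot (b' : ColorBasis N) (R : GaugeAction b M) : DEquiv R (rotR b b' R) where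
  u := LinearIsometryEquiv.refl ℂ F
  hθ _ _ _ := rfl
  hρ _ _ := rfl

theorem rotθ_rotθ (b b' : ColorBasis N) (M : FermionRep N F) (M' : FermionRep N F')
    (u : F ≃ₗᵢ[ℂ] F') (hθ : ∀ α A v, M'.θ α A (u v) = u (rotθ b b' M α A v))
    (α : Fin 16) (A : Fin (N ^ 2 - 1)) (v : F') :
    M.θ α A (u.symm v) = u.symm (rotθ b' b M' α A v) := by
  apply u.injective
  rw [u.apply_symm_apply, rotθ_apply]
  have h : ∀ B, ((O b' b A B : ℝ) : ℂ) • M'.θ α B v =
      u (((O b b' B A : ℝ) : ℂ) • rotθ b b' M α B (u.symm v)) := by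
    intro B
    rw [O_symm b b', map_smul, ← hθ, u.apply_symm_apply]
  rw [Finset.sum_congr rfl fun B _ => h B, ← map_sum]
  congr 1
  rw [θ_eq_rotθ b b' M α A]
  simp only [LinearMap.sum_apply, LinearMap.smul_apply]

/-- inverse equivalence -/
def DEquiv.symm (e : DEquiv R R') : DEquiv R' R where
  u := e.u.symm
  hθ α A v := rotθ_rotθ b b' M M' e.u e.hθ α A v
  hρ g v := by
    apply e.u.injective
    rw [e.u.apply_symm_apply, ← e.hρ, e.u.apply_symm_apply]

/-- a unitary as a real continuous linear equivalence -/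
def uR (u : F ≃ₗᵢ[ℂ] F') : F ≃L[ℝ] F' :=
  { u.toLinearEquiv.restrictScalars ℝ with
    continuous_toFun := u.continuous
    continuous_invFun := u.symm.continuous }

theorem uR_apply (u : F ≃ₗᵢ[ℂ] F') (v : F) : uR u v = u v := rfl

/-- transport of wave functions -/
def DEquiv.tr (e : DEquiv R R') (φ : Cfg N → F) (y : Cfg N) : F' :=
  e.u (φ ((oIso b b').symm y))

theorem DEquiv.tr_apply (e : DEquiv R R') (φ : Cfg N → F) (x : Cfg N) :
    e.tr φ (oIso b b' x) = e.u (φ x) := by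
  unfold DEquiv.tr
  rw [LinearIsometryEquiv.symm_apply_apply]

theorem DEquiv.tr_symm_tr (e : DEquiv R R') (φ : Cfg N → F) : e.symm.tr (e.tr φ) = φ := by
  funext x
  show e.u.symm (e.u (φ ((oIso b b').symm ((oIso b' b).symm x)))) = φ x
  rw [e.u.symm_apply_apply, oIso_symm b' b, LinearIsometryEquiv.symm_apply_apply]

theorem DEquiv.tr_tr_symm (e : DEquiv R R') (φ : Cfg N → F') : e.tr (e.symm.tr φ) = φ := by
  funext x
  show e.u (e.u.symm (φ ((oIso b' b).symm ((oIso b b').symm x)))) = φ x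
  rw [e.u.apply_symm_apply, oIso_symm b b', LinearIsometryEquiv.symm_apply_apply]

theorem DEquiv.tr_add (e : DEquiv R R') (φ ψ : Cfg N → F) :
    e.tr (φ + ψ) = e.tr φ + e.tr ψ := by
  funext y; simp [DEquiv.tr]

theorem DEquiv.tr_sub (e : DEquiv R R') (φ ψ : Cfg N → F) :
    e.tr (φ - ψ) = e.tr φ - e.tr ψ := by
  funext y; simp [DEquiv.tr]

theorem DEquiv.tr_smul (e : DEquiv R R') (c : ℂ) (φ : Cfg N → F) :
    e.tr (c • φ) = c • e.tr φ := by
  funext y; simp [DEquiv.tr]

theorem DEquiv.tr_zero (e : DEquiv R R') : e.tr (0 : Cfg N → F) = 0 := by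
  funext y; simp [DEquiv.tr]

/-! ### 4. Core vectors -/

theorem DEquiv.core (e : DEquiv R R') {φ : Cfg N → F} (h : IsCoreVec b R φ) :
    IsCoreVec b' R' (e.tr φ) := by
  obtain ⟨h1, h2, h3⟩ := h
  refine ⟨?_, ?_, fun g y => ?_⟩
  · exact (uR e.u).contDiff.comp
      (h1.comp (oIso b b').symm.contDiff)
  · have h4 : HasCompactSupport (φ ∘ (oIso b b').symm) :=
      h2.comp_homeomorph (oIso b b').symm.toHomeomorph
    refine h4.mono fun y hy => ?_
    rw [Function.mem_support] at hy ⊢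
    intro h0
    apply hy
    show e.u ((φ ∘ (oIso b b').symm) y) = 0
    rw [h0, map_zero]
  · obtain ⟨x, rfl⟩ := (oIso b b').surjective y
    rw [oIso_act, e.tr_apply, e.tr_apply, h3, ← e.hρ]

theorem DEquiv.core_iff (e : DEquiv R R') {φ : Cfg N → F} :
    IsCoreVec b' R' (e.tr φ) ↔ IsCoreVec b R φ :=
  ⟨fun h => by simpa [e.tr_symm_tr] using e.symm.core h, e.core⟩

/-! ### 5. The charges -/

theorem DEquiv.fderiv_tr (e : DEquiv R R') (φ : Cfg N → F) (x v : Cfg N) :
    fderiv ℝ (e.tr φ) (oIso b b' x) v = e.u (fderiv ℝ φ x ((oIso b b').symm v)) := by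
  have h : e.tr φ = (uR e.u) ∘ (φ ∘ (oIso b b').symm.toContinuousLinearEquiv) := rfl
  rw [h, ContinuousLinearEquiv.comp_fderiv, ContinuousLinearEquiv.comp_right_fderiv]
  simp only [ContinuousLinearMap.comp_apply, ContinuousLinearEquiv.coe_coe]
  show e.u (fderiv ℝ φ ((oIso b b').symm (oIso b b' x)) ((oIso b b').symm v)) = _
  rw [LinearIsometryEquiv.symm_apply_apply]

theorem contract_vec (b b' : ColorBasis N) (M : FermionRep N F) (β : Fin 16)
    (D : Fin (N ^ 2 - 1) → F) :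
    ∑ A, rotθ b b' M β A (∑ B, O b b' A B • D B) = ∑ B, M.θ β B (D B) := by
  have h1 : ∀ A, rotθ b b' M β A (∑ B, O b b' A B • D B) =
      ∑ C, ∑ B, (((O b b' A C : ℝ) : ℂ) * ((O b b' A B : ℝ) : ℂ)) • M.θ β C (D B) := by
    intro A
    rw [rotθ_apply]
    refine Finset.sum_congr rfl fun C _ => ?_
    rw [map_sum, Finset.smul_sum]
    refine Finset.sum_congr rfl fun B _ => ?_
    rw [← Complex.coe_smul, map_smul, smul_smul]
  simp only [h1]
  rw [Finset.sum_comm]
  refine Finset.sum_congr rfl fun C _ => ?_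
  rw [Finset.sum_comm]
  simp only [← Finset.sum_smul, OO'c]
  simp

theorem contract_scal (b b' : ColorBasis N) (M : FermionRep N F) (β : Fin 16)
    (w w' : Fin (N ^ 2 - 1) → ℝ) (hw : ∀ A, w' A = ∑ B, O b b' A B * w B) (v : F) :
    ∑ A, ((w' A : ℝ) : ℂ) • rotθ b b' M β A v = ∑ B, ((w B : ℝ) : ℂ) • M.θ β B v := by
  have h1 : ∀ A, ((w' A : ℝ) : ℂ) • rotθ b b' M β A v =
      ∑ C, ∑ B, (((O b b' A C : ℝ) : ℂ) * ((O b b' A B : ℝ) : ℂ)) •
        ((w B : ℝ) : ℂ) • M.θ β C v := by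
    intro A
    rw [rotθ_apply, Finset.smul_sum]
    refine Finset.sum_congr rfl fun C _ => ?_
    rw [hw A]
    push_cast
    rw [Finset.sum_smul]
    refine Finset.sum_congr rfl fun B _ => ?_
    rw [smul_smul, smul_smul]
    congr 1
    ring
  simp only [h1]
  rw [Finset.sum_comm]
  refine Finset.sum_congr rfl fun C _ => ?_
  rw [Finset.sum_comm]
  simp only [← Finset.sum_smul, OO'c]
  simp

/-- the matrix of a colour vector -/
def cmat (b : ColorBasis N) (p : Fin (N ^ 2 - 1) → ℝ) : Matrix (Fin N) (Fin N) ℂ :=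
  ∑ A, ((p A : ℝ) : ℂ) • b.T A

theorem cmat_rot (b b' : ColorBasis N) (p p' : Fin (N ^ 2 - 1) → ℝ)
    (hp : ∀ A, p' A = ∑ B, O b b' A B * p B) : cmat b' p' = cmat b p := by
  unfold cmat
  have h1 : ∀ A, ((p' A : ℝ) : ℂ) • b'.T A =
      ∑ C, ∑ B, (((O b b' A C : ℝ) : ℂ) * ((O b b' A B : ℝ) : ℂ)) •
        ((p B : ℝ) : ℂ) • b.T C := by
    intro A
    rw [T_eq b b' A, Finset.smul_sum]
    refine Finset.sum_congr rfl fun C _ => ?_
    rw [hp A]
    push_cast
    rw [Finset.sum_smul]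
    refine Finset.sum_congr rfl fun B _ => ?_
    rw [smul_smul, smul_smul]
    congr 1
    ring
  simp only [h1]
  rw [Finset.sum_comm]
  refine Finset.sum_congr rfl fun C _ => ?_
  rw [Finset.sum_comm]
  simp only [← Finset.sum_smul, OO'c]
  simp

theorem tri_colour (b : ColorBasis N) (A : Fin (N ^ 2 - 1)) (p q : Fin (N ^ 2 - 1) → ℝ) :
    ((∑ B, ∑ C, b.structConst A B C * p B * q C : ℝ) : ℂ) =
      tri (b.T A) (cmat b p) (cmat b q) := by
  unfold cmat
  rw [tri_sum_mid]
  push_cast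
  refine Finset.sum_congr rfl fun B _ => ?_
  rw [tri_sum_right, Finset.mul_sum]
  refine Finset.sum_congr rfl fun C _ => ?_
  rw [structConst_cast]
  ring

theorem bracket_rot (b b' : ColorBasis N) (p q p' q' : Fin (N ^ 2 - 1) → ℝ)
    (hp : ∀ A, p' A = ∑ B, O b b' A B * p B) (hq : ∀ A, q' A = ∑ B, O b b' A B * q B)
    (A : Fin (N ^ 2 - 1)) :
    ∑ B, ∑ C, b'.structConst A B C * p' B * q' C =
      ∑ A', O b b' A A' * ∑ B, ∑ C, b.structConst A' B C * p B * q C := by
  have h : ((∑ B, ∑ C, b'.structConst A B C * p' B * q' C : ℝ) : ℂ) =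
      ((∑ A', O b b' A A' * ∑ B, ∑ C, b.structConst A' B C * p B * q C : ℝ) : ℂ) := by
    rw [tri_colour, cmat_rot b b' p p' hp, cmat_rot b b' q q' hq, T_eq b b' A, tri_sum_left,
      Complex.ofReal_sum]
    refine Finset.sum_congr rfl fun A' _ => ?_
    rw [Complex.ofReal_mul, tri_colour]
  exact_mod_cast h

theorem wpot_eq (b : ColorBasis N) (G : GammaNine) (g m : ℝ) (α β : Fin 16)
    (A : Fin (N ^ 2 - 1)) (x : Cfg N) : wpot b G g m α β A x =
      g * (∑ i, ∑ j, (1 / 2 * G.γ2 i j α β) *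
        ∑ B, ∑ C, b.structConst A B C * x (i, B) * x (j, C)) -
      m * ∑ j : Fin 9, (cc j * (Gam G * G.γ j) α β) * x (j, A) := by
  unfold wpot
  congr 2
  · rw [show (∑ B : Fin (N ^ 2 - 1), ∑ C : Fin (N ^ 2 - 1), ∑ i : Fin 9, ∑ j : Fin 9,
        1 / 2 * b.structConst A B C * x (i, B) * x (j, C) * G.γ2 i j α β) =
        ∑ B : Fin (N ^ 2 - 1), ∑ i : Fin 9, ∑ j : Fin 9, ∑ C : Fin (N ^ 2 - 1),
        1 / 2 * b.structConst A B C * x (i, B) * x (j, C) * G.γ2 i j α β from
        Finset.sum_congr rfl fun B _ => by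
          rw [Finset.sum_comm]
          exact Finset.sum_congr rfl fun i _ => Finset.sum_comm]
    rw [Finset.sum_comm]
    refine Finset.sum_congr rfl fun i _ => ?_
    rw [Finset.sum_comm]
    refine Finset.sum_congr rfl fun j _ => ?_
    rw [Finset.mul_sum]
    refine Finset.sum_congr rfl fun B _ => ?_
    rw [Finset.mul_sum]
    exact Finset.sum_congr rfl fun C _ => by ring
  · exact Finset.sum_congr rfl fun j _ => by ring

theorem wpot_rot (b b' : ColorBasis N) (G : GammaNine) (g m : ℝ) (α β : Fin 16)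
    (A : Fin (N ^ 2 - 1)) (x : Cfg N) : wpot b' G g m α β A (oIso b b' x) =
      ∑ B, O b b' A B * wpot b G g m α β B x := by
  simp only [wpot_eq]
  have h1 : ∀ i j, ∑ B, ∑ C, b'.structConst A B C * (oIso b b' x) (i, B) *
      (oIso b b' x) (j, C) = ∑ A', O b b' A A' * ∑ B, ∑ C, b.structConst A' B C *
        x (i, B) * x (j, C) := fun i j =>
    bracket_rot b b' (fun B => x (i, B)) (fun C => x (j, C)) _ _
      (fun A => oIso_apply b b' x i A) (fun A => oIso_apply b b' x j A) A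
  simp only [h1]
  simp only [mul_sub, Finset.sum_sub_distrib]
  congr 1
  · simp only [Finset.mul_sum]
    rw [show (∑ B, ∑ i, ∑ j, ∑ B', ∑ C, O b b' A B * (g * (1 / 2 * G.γ2 i j α β *
        (b.structConst B B' C * x (i, B') * x (j, C))))) =
        ∑ i, ∑ j, ∑ B, ∑ B', ∑ C, O b b' A B * (g * (1 / 2 * G.γ2 i j α β *
        (b.structConst B B' C * x (i, B') * x (j, C)))) from by
      rw [Finset.sum_comm]
      exact Finset.sum_congr rfl fun i _ => Finset.sum_comm]
    refine Finset.sum_congr rfl fun i _ => Finset.sum_congr rfl fun j _ =>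
      Finset.sum_congr rfl fun B _ => Finset.sum_congr rfl fun B' _ =>
      Finset.sum_congr rfl fun C _ => by ring
  · simp only [oIso_apply, Finset.mul_sum]
    rw [Finset.sum_comm]
    exact Finset.sum_congr rfl fun B _ => Finset.sum_congr rfl fun j _ => by ring

theorem DEquiv.kin_tr (e : DEquiv R R') (G : GammaNine) (α : Fin 16) (φ : Cfg N → F)
    (x : Cfg N) : kin M' G α (e.tr φ) (oIso b b' x) = e.u (kin M G α φ x) := by
  unfold kin
  rw [map_sum]
  refine Finset.sum_congr rfl fun i _ => ?_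
  rw [Finset.sum_comm, map_sum, Finset.sum_congr rfl fun A _ => map_sum e.u _ _]
  rw [Finset.sum_comm (f := fun (A : Fin (N ^ 2 - 1)) (β : Fin 16) =>
    e.u ((-Complex.I * (G.γ i α β : ℂ)) • M.θ β A (fderiv ℝ φ x (EuclideanSpace.single (i, A) 1))))]
  refine Finset.sum_congr rfl fun β _ => ?_
  have h1 : ∀ A, (-Complex.I * (G.γ i α β : ℂ)) • M'.θ β A (fderiv ℝ (e.tr φ) (oIso b b' x)
      (EuclideanSpace.single (i, A) 1)) = (-Complex.I * (G.γ i α β : ℂ)) •
        e.u (rotθ b b' M β A (∑ B, O b b' A B •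
          fderiv ℝ φ x (EuclideanSpace.single (i, B) 1))) := by
    intro A
    rw [e.fderiv_tr, oIso_symm_single, e.hθ]
    congr 3
    rw [map_sum]
    exact Finset.sum_congr rfl fun B _ => by rw [map_smul]
  rw [Finset.sum_congr rfl fun A _ => h1 A, ← Finset.smul_sum, ← map_sum, contract_vec,
    map_sum, Finset.smul_sum]
  exact Finset.sum_congr rfl fun B _ => by rw [map_smul]

/-- **transport of the charges** `Q^{g,m}` -/
theorem DEquiv.dcharge_tr (e : DEquiv R R') (G : GammaNine) (g m : ℝ) (α : Fin 16)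
    (φ : Cfg N → F) :
    dcharge b' M' G g m α (e.tr φ) = e.tr (dcharge b M G g m α φ) := by
  funext y
  obtain ⟨x, rfl⟩ := (oIso b b').surjective y
  rw [e.tr_apply]
  unfold dcharge
  rw [e.kin_tr, map_add]
  congr 1
  rw [Finset.sum_comm, map_sum, Finset.sum_congr rfl fun A _ => map_sum e.u _ _]
  rw [Finset.sum_comm (f := fun (A : Fin (N ^ 2 - 1)) (β : Fin 16) =>
    e.u (((wpot b G g m α β A x : ℝ) : ℂ) • M.θ β A (φ x)))]
  refine Finset.sum_congr rfl fun β _ => ?_
  have h1 : ∀ A, ((wpot b' G g m α β A (oIso b b' x) : ℝ) : ℂ) •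
      M'.θ β A (e.tr φ (oIso b b' x)) =
      e.u (((wpot b' G g m α β A (oIso b b' x) : ℝ) : ℂ) • rotθ b b' M β A (φ x)) := by
    intro A
    rw [e.tr_apply, e.hθ, map_smul]
  rw [Finset.sum_congr rfl fun A _ => h1 A, ← map_sum, ← map_sum,
    contract_scal b b' M β _ _ (fun A => wpot_rot b b' G g m α β A x)]

/-- transport of the Prelude supercharge -/
theorem DEquiv.supercharge_tr (e : DEquiv R R') (G : GammaNine) (α : Fin 16)
    (φ : Cfg N → F) :
    supercharge b' M' G α (e.tr φ) = e.tr (supercharge b M G α φ) := by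
  have h1 : ∀ (ψ : Cfg N → F'), supercharge b' M' G α ψ = dcharge b' M' G 1 0 α ψ := fun ψ =>
    funext fun x => (dcharge_one_zero b' M' G α ψ x).symm
  have h2 : supercharge b M G α φ = dcharge b M G 1 0 α φ :=
    funext fun x => (dcharge_one_zero b M G α φ x).symm
  rw [h1, h2, e.dcharge_tr]

/-! ### 6. Norms and integrals -/

theorem volume_map (b b' : ColorBasis N) :
    Measure.map (oIso b b').symm (volume : Measure (Cfg N)) = volume :=
  (oIso b b').symm.measurePreserving.map_eq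

theorem emb (b b' : ColorBasis N) : MeasurableEmbedding (oIso b b').symm :=
  (oIso b b').symm.toHomeomorph.measurableEmbedding

theorem DEquiv.eLpNorm_tr (e : DEquiv R R') (f : Cfg N → F) (p : ℝ≥0∞) :
    eLpNorm (e.tr f) p volume = eLpNorm f p volume := by
  have h1 : eLpNorm (e.tr f) p volume = eLpNorm (f ∘ (oIso b b').symm) p volume :=
    eLpNorm_congr_norm_ae (Eventually.of_forall fun y => e.u.norm_map _)
  rw [h1, ← (emb b b').eLpNorm_map_measure, volume_map]

theorem DEquiv.aesm_tr (e : DEquiv R R') {f : Cfg N → F}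
    (hf : AEStronglyMeasurable f volume) : AEStronglyMeasurable (e.tr f) volume := by
  have h : AEStronglyMeasurable (f ∘ (oIso b b').symm) volume :=
    hf.comp_measurePreserving (oIso b b').symm.measurePreserving
  exact e.u.continuous.comp_aestronglyMeasurable h

theorem DEquiv.memLp_tr (e : DEquiv R R') {f : Cfg N → F} {p : ℝ≥0∞}
    (hf : MemLp f p volume) : MemLp (e.tr f) p volume :=
  ⟨e.aesm_tr hf.1, by rw [e.eLpNorm_tr]; exact hf.2⟩

theorem DEquiv.memLp_tr_iff (e : DEquiv R R') {f : Cfg N → F} {p : ℝ≥0∞} :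
    MemLp (e.tr f) p volume ↔ MemLp f p volume :=
  ⟨fun h => by simpa [e.tr_symm_tr] using e.symm.memLp_tr h, e.memLp_tr⟩

theorem DEquiv.ae_tr (e : DEquiv R R') {f f' : Cfg N → F} (h : f =ᵐ[volume] f') :
    e.tr f =ᵐ[volume] e.tr f' := by
  have h2 := (oIso b b').symm.measurePreserving.quasiMeasurePreserving.ae_eq_comp h
  filter_upwards [h2] with y hy
  show e.u _ = e.u _
  exact congrArg e.u hy

theorem DEquiv.ae_tr_iff (e : DEquiv R R') {f f' : Cfg N → F} :
    e.tr f =ᵐ[volume] e.tr f' ↔ f =ᵐ[volume] f' :=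
  ⟨fun h => by simpa [e.tr_symm_tr] using e.symm.ae_tr h, e.ae_tr⟩

theorem DEquiv.integral_inner_tr (e : DEquiv R R') (f f' : Cfg N → F) :
    ∫ y, ⟪e.tr f y, e.tr f' y⟫_ℂ = ∫ x, ⟪f x, f' x⟫_ℂ := by
  have h : ∀ y, ⟪e.tr f y, e.tr f' y⟫_ℂ =
      (fun x => ⟪f x, f' x⟫_ℂ) ((oIso b b').symm y) := fun y => e.u.inner_map_map _ _
  simp only [h]
  exact (oIso b b').symm.measurePreserving.integral_comp (emb b b') (fun x => ⟪f x, f' x⟫_ℂ)

theorem DEquiv.integral_norm_sq_tr (e : DEquiv R R') (f : Cfg N → F) :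
    ∫ y, ‖e.tr f y‖ ^ 2 = ∫ x, ‖f x‖ ^ 2 := by
  have h : ∀ y, ‖e.tr f y‖ ^ 2 = (fun x => ‖f x‖ ^ 2) ((oIso b b').symm y) := fun y => by
    show ‖e.u _‖ ^ 2 = _
    rw [e.u.norm_map]
  simp only [h]
  exact (oIso b b').symm.measurePreserving.integral_comp (emb b b') (fun x => ‖f x‖ ^ 2)

theorem DEquiv.qf_tr (e : DEquiv R R') (G : GammaNine) (g m : ℝ) (φ : Cfg N → F) :
    qf b' M' G g m (e.tr φ) = qf b M G g m φ := by
  unfold qf
  simp only [e.dcharge_tr, e.integral_norm_sq_tr]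

/-! ### 7. Zero states, kernels, eigenpairs -/

theorem DEquiv.zset_tr (e : DEquiv R R') (G : GammaNine) (g m : ℝ) {Ψ : Cfg N → F}
    (h : Ψ ∈ zset b M R G g m) : e.tr Ψ ∈ zset b' M' R' G g m := by
  obtain ⟨h0, φ, h1, h2, h3⟩ := h
  refine ⟨e.memLp_tr h0, fun n => e.tr (φ n), fun n => e.core (h1 n), ?_, fun α => ?_⟩
  · simpa only [← e.tr_sub, e.eLpNorm_tr] using h2
  · simpa only [e.dcharge_tr, e.eLpNorm_tr] using h3 α

theorem DEquiv.zset_tr_iff (e : DEquiv R R') (G : GammaNine) (g m : ℝ) {Ψ : Cfg N → F} :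
    e.tr Ψ ∈ zset b' M' R' G g m ↔ Ψ ∈ zset b M R G g m :=
  ⟨fun h => by simpa [e.tr_symm_tr] using e.symm.zset_tr G g m h, e.zset_tr G g m⟩

theorem DEquiv.zeroEnergy_tr_iff (e : DEquiv R R') (G : GammaNine) {Ψ : Cfg N → F} :
    e.tr Ψ ∈ zeroEnergyStates b' M' R' G ↔ Ψ ∈ zeroEnergyStates b M R G := by
  rw [← zset_one_zero, ← zset_one_zero, e.zset_tr_iff]

theorem DEquiv.eigen_tr (e : DEquiv R R') (G : GammaNine) {E : ℝ} {Ψ : Cfg N → F}
    (h : IsEigenpair b M R G E Ψ) : IsEigenpair b' M' R' G E (e.tr Ψ) := by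
  obtain ⟨h0, φ, h1, h2, h3, h4⟩ := h
  refine ⟨e.memLp_tr h0, fun n => e.tr (φ n), fun n => e.core (h1 n), ?_, fun α => ?_,
    fun ψ hψ => ?_⟩
  · simpa only [← e.tr_sub, e.eLpNorm_tr] using h2
  · simpa only [e.supercharge_tr, ← e.tr_sub, e.eLpNorm_tr] using h3 α
  · obtain ⟨ψ', rfl⟩ : ∃ ψ', e.tr ψ' = ψ := ⟨e.symm.tr ψ, e.tr_tr_symm ψ⟩
    have h5 := h4 ψ' (e.core_iff.mp hψ)
    simpa only [e.supercharge_tr, e.integral_inner_tr] using h5

theorem DEquiv.eigen_tr_iff (e : DEquiv R R') (G : GammaNine) {E : ℝ} {Ψ : Cfg N → F} :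
    IsEigenpair b' M' R' G E (e.tr Ψ) ↔ IsEigenpair b M R G E Ψ :=
  ⟨fun h => by simpa [e.tr_symm_tr] using e.symm.eigen_tr G h, e.eigen_tr G⟩

end Data

end Crest.Agent.R330.Trans317
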