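import Mathlib
import Crest.Prelude.Def_MatrixModel
import Crest.Agent.R330.Defs_478
import Crest.Agent.R330.TransC_317

/-!
Row 330 (helper317), leaf S12-TRANS part D: the kernels `zker` of equivalent data are linearly
isometric; `HasDim`, the conclusions of S0512 and S0513 do not depend on the datum.
-/

set_option autoImplicit false
set_option linter.unusedSectionVars false
set_option linter.deprecated false

noncomputable section

namespace Crest.Agent.R330.Trans317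

open MeasureTheory Filter Topology Crest.MathPhysics.MatrixQM
open Crest.Agent.R330.TransA317 Crest.Agent.R330.Defs478
open scoped ContDiff InnerProductSpace ENNReal

variable {N : ℕ}
  {F : Type*} [NormedAddCommGroup F] [InnerProductSpace ℂ F] [FiniteDimensional ℂ F]
  {F' : Type*} [NormedAddCommGroup F'] [InnerProductSpace ℂ F'] [FiniteDimensional ℂ F']
  {F'' : Type*} [NormedAddCommGroup F''] [InnerProductSpace ℂ F''] [FiniteDimensional ℂ F'']
  {b : ColorBasis N} {M : FermionRep N F} {R : GaugeAction b M}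
  {b' : ColorBasis N} {M' : FermionRep N F'} {R' : GaugeAction b' M'}
  {b'' : ColorBasis N} {M'' : FermionRep N F''} {R'' : GaugeAction b'' M''}

/-- the transport on `L²` classes -/
def DEquiv.trLp (e : DEquiv R R') (ψ : Lp F 2 (volume : Measure (Cfg N))) :
    Lp F' 2 (volume : Measure (Cfg N)) := (e.memLp_tr (Lp.memLp ψ)).toLp (e.tr ψ)

theorem DEquiv.trLp_coe (e : DEquiv R R') (ψ : Lp F 2 (volume : Measure (Cfg N))) :
    (e.trLp ψ : Cfg N → F') =ᵐ[volume] e.tr ψ := MemLp.coeFn_toLp _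

theorem DEquiv.trLp_toLp (e : DEquiv R R') {f : Cfg N → F} (hf : MemLp f 2 volume) :
    e.trLp (hf.toLp f) = (e.memLp_tr hf).toLp (e.tr f) := by
  apply Lp.ext
  exact (e.trLp_coe _).trans ((e.ae_tr hf.coeFn_toLp).trans (MemLp.coeFn_toLp _).symm)

theorem DEquiv.trLp_add (e : DEquiv R R') (ψ φ : Lp F 2 (volume : Measure (Cfg N))) :
    e.trLp (ψ + φ) = e.trLp ψ + e.trLp φ := by
  apply Lp.ext
  refine (e.trLp_coe _).trans ((e.ae_tr (Lp.coeFn_add ψ φ)).trans ?_)
  rw [e.tr_add]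
  exact ((e.trLp_coe ψ).symm.add (e.trLp_coe φ).symm).trans (Lp.coeFn_add _ _).symm

theorem DEquiv.trLp_smul (e : DEquiv R R') (c : ℂ) (ψ : Lp F 2 (volume : Measure (Cfg N))) :
    e.trLp (c • ψ) = c • e.trLp ψ := by
  apply Lp.ext
  refine (e.trLp_coe _).trans ((e.ae_tr (Lp.coeFn_smul c ψ)).trans ?_)
  rw [e.tr_smul]
  exact ((e.trLp_coe ψ).symm.const_smul c).trans (Lp.coeFn_smul _ _).symm

theorem DEquiv.trLp_symm (e : DEquiv R R') (ψ : Lp F 2 (volume : Measure (Cfg N))) :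
    e.symm.trLp (e.trLp ψ) = ψ := by
  apply Lp.ext
  refine (e.symm.trLp_coe _).trans ((e.symm.ae_tr (e.trLp_coe ψ)).trans ?_)
  rw [e.tr_symm_tr]

theorem DEquiv.symm_trLp (e : DEquiv R R') (ψ : Lp F' 2 (volume : Measure (Cfg N))) :
    e.trLp (e.symm.trLp ψ) = ψ := by
  apply Lp.ext
  refine (e.trLp_coe _).trans ((e.ae_tr (e.symm.trLp_coe ψ)).trans ?_)
  rw [e.tr_tr_symm]

theorem DEquiv.trLp_norm (e : DEquiv R R') (ψ : Lp F 2 (volume : Measure (Cfg N))) :
    ‖e.trLp ψ‖ = ‖ψ‖ := by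
  rw [Lp.norm_def, Lp.norm_def, eLpNorm_congr_ae (e.trLp_coe ψ), e.eLpNorm_tr]

/-- **the unitary** `L²(Cfg N; F) ≃ L²(Cfg N; F')` of an equivalence of data -/
def DEquiv.uLp (e : DEquiv R R') :
    Lp F 2 (volume : Measure (Cfg N)) ≃ₗᵢ[ℂ] Lp F' 2 (volume : Measure (Cfg N)) where
  toFun := e.trLp
  map_add' := e.trLp_add
  map_smul' := e.trLp_smul
  invFun := e.symm.trLp
  left_inv := e.trLp_symm
  right_inv := e.symm_trLp
  norm_map' := e.trLp_norm

theorem DEquiv.uLp_apply (e : DEquiv R R') (ψ : Lp F 2 (volume : Measure (Cfg N))) :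
    e.uLp ψ = e.trLp ψ := rfl

theorem DEquiv.mem_zker (e : DEquiv R R') (G : GammaNine) (g m : ℝ)
    (ψ : Lp F 2 (volume : Measure (Cfg N))) :
    e.trLp ψ ∈ zker b' M' R' G g m ↔ ψ ∈ zker b M R G g m := by
  rw [Defs478.mem_zker, Defs478.mem_zker, ← e.zset_tr_iff G g m]
  exact ⟨fun h => zset_congr h (e.trLp_coe ψ), fun h => zset_congr h (e.trLp_coe ψ).symm⟩

theorem DEquiv.map_zker (e : DEquiv R R') (G : GammaNine) (g m : ℝ) :
    (zker b M R G g m).map (e.uLp.toLinearEquiv : Lp F 2 (volume : Measure (Cfg N)) →ₗ[ℂ]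
      Lp F' 2 (volume : Measure (Cfg N))) = zker b' M' R' G g m := by
  ext ψ
  rw [Submodule.mem_map]
  constructor
  · rintro ⟨φ, hφ, rfl⟩
    exact (e.mem_zker G g m φ).mpr hφ
  · intro h
    refine ⟨e.symm.trLp ψ, (e.symm.mem_zker G g m ψ).mpr h, e.symm_trLp ψ⟩

/-- the kernels are linearly equivalent -/
def DEquiv.zkerEquiv (e : DEquiv R R') (G : GammaNine) (g m : ℝ) :
    zker b M R G g m ≃ₗ[ℂ] zker b' M' R' G g m :=
  (e.uLp.toLinearEquiv.submoduleMap (zker b M R G g m)).trans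
    (LinearEquiv.ofEq _ _ (e.map_zker G g m))

theorem DEquiv.hasDim (e : DEquiv R R') (G : GammaNine) (g m : ℝ) {d : ℕ}
    (h : HasDim b M R G g m d) : HasDim b' M' R' G g m d := by
  have h1 := (e.zkerEquiv G g m).lift_rank_eq
  unfold HasDim at h ⊢
  rw [h, Cardinal.lift_natCast] at h1
  exact (Cardinal.nat_eq_lift_iff.mp h1).symm

theorem DEquiv.hasDim_iff (e : DEquiv R R') (G : GammaNine) (g m : ℝ) {d : ℕ} :
    HasDim b M R G g m d ↔ HasDim b' M' R' G g m d :=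
  ⟨e.hasDim G g m, e.symm.hasDim G g m⟩

/-- the conclusion of S0512 does not depend on the datum -/
theorem DEquiv.line (e : DEquiv R R') (G : GammaNine)
    (h : ∃ Ψ₀ ∈ zeroEnergyStates b M R G, ¬ (Ψ₀ =ᵐ[volume] 0) ∧
      ∀ Ψ ∈ zeroEnergyStates b M R G, ∃ c : ℂ, Ψ =ᵐ[volume] c • Ψ₀) :
    ∃ Ψ₀ ∈ zeroEnergyStates b' M' R' G, ¬ (Ψ₀ =ᵐ[volume] 0) ∧
      ∀ Ψ ∈ zeroEnergyStates b' M' R' G, ∃ c : ℂ, Ψ =ᵐ[volume] c • Ψ₀ := by
  obtain ⟨Ψ₀, h0, h1, h2⟩ := h
  refine ⟨e.tr Ψ₀, (e.zeroEnergy_tr_iff G).mpr h0, fun h3 => h1 ?_, fun Ψ hΨ => ?_⟩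
  · rw [← e.tr_zero] at h3
    exact e.ae_tr_iff.mp h3
  · obtain ⟨Φ, rfl⟩ : ∃ Φ, e.tr Φ = Ψ := ⟨e.symm.tr Ψ, e.tr_tr_symm Ψ⟩
    obtain ⟨c, hc⟩ := h2 Φ ((e.zeroEnergy_tr_iff G).mp hΨ)
    exact ⟨c, by rw [← e.tr_smul]; exact e.ae_tr hc⟩

/-- the conclusion of S0513 does not depend on the datum -/
theorem DEquiv.seq (e : DEquiv R R') (G : GammaNine)
    (h : ∃ (Ψ : ℕ → Cfg N → F) (E : ℕ → ℝ),
      (∀ j k, ∫ x, ⟪Ψ j x, Ψ k x⟫_ℂ = if j = k then (1 : ℂ) else 0) ∧
      (∀ j, 0 < E j) ∧ Tendsto E atTop atTop ∧ ∀ j, IsEigenpair b M R G (E j) (Ψ j)) :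
    ∃ (Ψ : ℕ → Cfg N → F') (E : ℕ → ℝ),
      (∀ j k, ∫ x, ⟪Ψ j x, Ψ k x⟫_ℂ = if j = k then (1 : ℂ) else 0) ∧
      (∀ j, 0 < E j) ∧ Tendsto E atTop atTop ∧ ∀ j, IsEigenpair b' M' R' G (E j) (Ψ j) := by
  obtain ⟨Ψ, E, h1, h2, h3, h4⟩ := h
  exact ⟨fun j => e.tr (Ψ j), E, fun j k => by rw [e.integral_inner_tr]; exact h1 j k, h2, h3,
    fun j => e.eigen_tr G (h4 j)⟩

/-- composition of the orthogonal matrices -/
theorem O_comp (b b' b'' : ColorBasis N) (A C : Fin (N ^ 2 - 1)) :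
    ∑ B, O b' b'' A B * O b b' B C = O b b'' A C := by
  have h : ((∑ B, O b' b'' A B * O b b' B C : ℝ) : ℂ) = ((O b b'' A C : ℝ) : ℂ) := by
    rw [O_cast b b'', T_eq b' b'' A, Finset.sum_mul, Matrix.trace_sum]
    push_cast
    refine Finset.sum_congr rfl fun B _ => ?_
    rw [Matrix.smul_mul, Matrix.trace_smul, ← O_cast, smul_eq_mul]
  exact_mod_cast h

theorem rotθ_comp (b b' b'' : ColorBasis N) (M : FermionRep N F) (α : Fin 16)
    (A : Fin (N ^ 2 - 1)) (v : F) :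
    ∑ B, ((O b' b'' A B : ℝ) : ℂ) • rotθ b b' M α B v = rotθ b b'' M α A v := by
  simp only [rotθ_apply, Finset.smul_sum, smul_smul]
  rw [Finset.sum_comm]
  refine Finset.sum_congr rfl fun C _ => ?_
  rw [← Finset.sum_smul]
  congr 1
  rw [← O_comp b b' b'' A C]
  push_cast
  rfl

/-- composition of equivalences -/
def DEquiv.trans (e : DEquiv R R') (e' : DEquiv R' R'') : DEquiv R R'' where
  u := e.u.trans e'.u
  hθ α A v := by
    show M''.θ α A (e'.u (e.u v)) = e'.u (e.u (rotθ b b'' M α A v))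
    rw [e'.hθ]
    congr 1
    rw [rotθ_apply, ← rotθ_comp b b' b'' M α A v, map_sum]
    exact Finset.sum_congr rfl fun B _ => by rw [e.hθ, map_smul]
  hρ g v := by
    show R''.ρ g (e'.u (e.u v)) = e'.u (e.u (R.ρ g v))
    rw [e'.hρ, e.hρ]

/-- **any two data are equivalent**, given uniqueness of the module and of the gauge action -/
theorem dequiv_of_unique
    (hM : ∀ (M₁ : FermionRep N F) (M₂ : FermionRep N F'),
      ∃ u : F ≃ₗᵢ[ℂ] F', ∀ α A v, M₂.θ α A (u v) = u (M₁.θ α A v))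
    (hR : ∀ (b : ColorBasis N) (M : FermionRep N F) (R₁ R₂ : GaugeAction b M) (g) (v : F),
      R₁.ρ g v = R₂.ρ g v)
    (R : GaugeAction b M) (R' : GaugeAction b' M') : Nonempty (DEquiv R R') := by
  obtain ⟨u, hu⟩ := hM (rotM b b' M) M'
  -- pull back the gauge action of the second datum
  let R₂ : GaugeAction b' (rotM b b' M) :=
    { ρ :=
        { toFun := fun g => (u.symm.toLinearEquiv : F' →ₗ[ℂ] F) ∘ₗ R'.ρ g ∘ₗ
            (u.toLinearEquiv : F →ₗ[ℂ] F')
          map_one' := by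
            ext v
            simp
          map_mul' := fun g h => by
            ext v
            simp [map_mul] }
      continuous := by
        have h1 : Continuous fun g => LinearMap.toContinuousLinearMap (R'.ρ g) := R'.continuous
        have h2 : (fun g => LinearMap.toContinuousLinearMap
            ((u.symm.toLinearEquiv : F' →ₗ[ℂ] F) ∘ₗ R'.ρ g ∘ₗ (u.toLinearEquiv : F →ₗ[ℂ] F'))) =
            fun g => ((u.symm.toContinuousLinearEquiv : F' →L[ℂ] F).comp
              (LinearMap.toContinuousLinearMap (R'.ρ g))).comp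
                (u.toContinuousLinearEquiv : F →L[ℂ] F') := by
          funext g
          ext v
          rfl
        show Continuous (fun g => LinearMap.toContinuousLinearMap
            ((u.symm.toLinearEquiv : F' →ₗ[ℂ] F) ∘ₗ R'.ρ g ∘ₗ (u.toLinearEquiv : F →ₗ[ℂ] F')))
        rw [h2]
        exact (continuous_const.clm_comp h1).clm_comp continuous_const
      unitary := fun g v w => by
        show ⟪u.symm (R'.ρ g (u v)), u.symm (R'.ρ g (u w))⟫_ℂ = ⟪v, w⟫_ℂ
        rw [u.symm.inner_map_map, R'.unitary, u.inner_map_map]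
      intertwine := fun g α A => by
        ext v
        show u.symm (R'.ρ g (u ((rotM b b' M).θ α A v))) =
          (∑ B, (b'.adjMat g B A : ℂ) • (rotM b b' M).θ α B) (u.symm (R'.ρ g (u v)))
        apply u.injective
        rw [u.apply_symm_apply, ← hu]
        have h3 := LinearMap.congr_fun (R'.intertwine g α A) (u v)
        simp only [LinearMap.comp_apply, LinearMap.sum_apply, LinearMap.smul_apply] at h3 ⊢
        rw [h3, map_sum]
        refine Finset.sum_congr rfl fun B _ => ?_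
        rw [map_smul, ← hu, u.apply_symm_apply] }
  refine ⟨⟨u, fun α A v => hu α A v, fun g v => ?_⟩⟩
  have h4 := hR b' (rotM b b' M) (rotR b b' R) R₂ g v
  have h5 : R.ρ g v = u.symm (R'.ρ g (u v)) := h4
  rw [h5, u.apply_symm_apply]

end Crest.Agent.R330.Trans317
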