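import Crest.Agent.R330.TransD_317
import Crest.Agent.R330.GaugeUn_973
import Crest.Agent.R330.SInd_478

/-!
# Row 330 (helper317): any two data of the same `N` are equivalent

* `module_unique` : two irreducible modules are unitarily equivalent.
* `any_equiv` : any two data `(b, M, R)`, `(b', M', R')` (modules `F`, `F'`) are `DEquiv`.
* `dimGe_iff`, `hasDim_any`, `gapZ_iff`, `line_any`, `seq_any`: transfer between any two data.
-/

set_option autoImplicit false
set_option linter.unusedSectionVars false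

noncomputable section

open MeasureTheory Filter Topology
open scoped InnerProductSpace ENNReal

namespace Crest.Agent.R330.Trans317

open Crest.MathPhysics.MatrixQM Crest.Agent.R330.Vac973 Crest.Agent.R330.GaugeEx973
  Crest.Agent.R330.GaugeUn973 Crest.Agent.R330.Defs478

variable {N : ℕ} {F F' : Type*} [NormedAddCommGroup F] [InnerProductSpace ℂ F]
  [FiniteDimensional ℂ F] [NormedAddCommGroup F'] [InnerProductSpace ℂ F']
  [FiniteDimensional ℂ F']

/-- **Two irreducible modules are unitarily equivalent.** -/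
theorem module_unique [Nontrivial F] [Nontrivial F'] (M₁ : FermionRep N F)
    (M₂ : FermionRep N F') :
    ∃ u : F ≃ₗᵢ[ℂ] F', ∀ α A v, M₂.θ α A (u v) = u (M₁.θ α A v) := by
  obtain ⟨Ω, h⟩ := exists_vac M₁
  obtain ⟨Ω₀, h₀⟩ := exists_vac M₂
  -- normalise the second vacuum
  have hn0 : ‖Ω₀‖ ≠ 0 := norm_ne_zero_iff.2 h₀.ne
  set c : ℂ := ((‖Ω‖ / ‖Ω₀‖ : ℝ) : ℂ) with hc
  have hcne : c ≠ 0 := by
    rw [hc]
    exact_mod_cast div_ne_zero (norm_ne_zero_iff.2 h.ne) hn0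
  have h' : IsVac M₂ (c • Ω₀) := ⟨smul_ne_zero hcne h₀.ne, fun j => by
    rw [map_smul, h₀.ann, smul_zero]⟩
  have hnorm : ‖c • Ω₀‖ = ‖Ω‖ := by
    rw [norm_smul, hc, Complex.norm_real, Real.norm_eq_abs,
      abs_of_nonneg (div_nonneg (norm_nonneg _) (norm_nonneg _)), div_mul_cancel₀ _ hn0]
  obtain ⟨U, hU0, hU⟩ := exists_intertwiner h h'
  have hin : ∀ x y, ⟪U x, U y⟫_ℂ = ⟪x, y⟫_ℂ := inner_intertwiner h (by rw [hU0, hnorm]) hU
  have hUn : ∀ x, ‖U x‖ = ‖x‖ := fun x => by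
    have h1 := hin x x
    rw [inner_self_eq_norm_sq_to_K, inner_self_eq_norm_sq_to_K] at h1
    have h2 : ‖U x‖ ^ 2 = ‖x‖ ^ 2 := by exact_mod_cast h1
    exact (sq_eq_sq₀ (norm_nonneg _) (norm_nonneg _)).1 h2
  have hinj : Function.Injective U := by
    rw [injective_iff_map_eq_zero]
    intro x hx
    rw [← norm_eq_zero, ← hUn, hx, norm_zero]
  have hsurj : Function.Surjective U := by
    rw [← LinearMap.range_eq_top]
    have h1 : U.range = ⊥ ∨ U.range = ⊤ := by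
      refine M₂.irreducible _ fun α A v hv => ?_
      obtain ⟨w, rfl⟩ := hv
      exact ⟨M₁.θ α A w, hU α A w⟩
    rcases h1 with h1 | h1
    · exfalso
      have h2 : U Ω ∈ U.range := ⟨Ω, rfl⟩
      rw [h1, Submodule.mem_bot] at h2
      rw [← norm_eq_zero, hUn, norm_eq_zero] at h2
      exact h.ne h2
    · exact h1
  refine ⟨⟨LinearEquiv.ofBijective U ⟨hinj, hsurj⟩, hUn⟩, fun α A v => ?_⟩
  exact (hU α A v).symm

/-- **Any two data are equivalent.** -/
theorem any_equiv [Nontrivial F] [Nontrivial F'] {b b' : ColorBasis N} {M : FermionRep N F}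
    {M' : FermionRep N F'} (R : GaugeAction b M) (R' : GaugeAction b' M') :
    Nonempty (DEquiv R R') :=
  dequiv_of_unique (fun M₁ M₂ => module_unique M₁ M₂)
    (fun _ _ R₁ R₂ _ _ => by rw [gaugeAction_unique R₁ R₂]) R R'

/-! ### Transfer of the section Props -/

section transfer

open Crest.Agent.R330.Sec478 Crest.Agent.R330.SInd478

variable {b b' : ColorBasis N} {M : FermionRep N F} {M' : FermionRep N F'}
  {R : GaugeAction b M} {R' : GaugeAction b' M'}

theorem DEquiv.dimGe (e : DEquiv R R') (G : GammaNine) (g m : ℝ) {k : ℕ}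
    (h : DimGe b M R G g m k) : DimGe b' M' R' G g m k := by
  have h1 := (e.zkerEquiv G g m).lift_rank_eq
  unfold DimGe at h ⊢
  have h2 : Cardinal.lift (k : Cardinal) ≤ Cardinal.lift (Module.rank ℂ (zker b M R G g m)) :=
    Cardinal.lift_le.2 h
  rw [h1, Cardinal.lift_natCast] at h2
  exact Cardinal.nat_le_lift_iff.1 h2

theorem DEquiv.dimGe_iff (e : DEquiv R R') (G : GammaNine) (g m : ℝ) {k : ℕ} :
    DimGe b M R G g m k ↔ DimGe b' M' R' G g m k :=
  ⟨e.dimGe G g m, e.symm.dimGe G g m⟩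

theorem DEquiv.gapZ (e : DEquiv R R') (G : GammaNine) (g m δ : ℝ)
    (h : GapZ b M R G g m δ) : GapZ b' M' R' G g m δ := by
  intro φ hφ
  obtain ⟨ψ, h1, h2⟩ := h (e.symm.tr φ) (e.symm.core hφ)
  refine ⟨e.tr ψ, e.zset_tr G g m h1, ?_⟩
  rw [e.symm.qf_tr] at h2
  refine le_trans (le_of_eq ?_) h2
  congr 1
  have h3 := e.integral_norm_sq_tr (e.symm.tr φ - ψ)
  rw [e.tr_sub, e.tr_tr_symm] at h3
  exact h3

theorem DEquiv.gapZ_iff (e : DEquiv R R') (G : GammaNine) (g m δ : ℝ) :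
    GapZ b M R G g m δ ↔ GapZ b' M' R' G g m δ :=
  ⟨e.gapZ G g m δ, e.symm.gapZ G g m δ⟩

/-- reference vacua are transported -/
theorem DEquiv.isGVac (e : DEquiv R R') {G : GammaNine} {Ω : F} (h : IsGVac M G Ω) :
    IsGVac M' G (e.u Ω) := by
  intro α A
  have h1 : rotθ b b' M α A Ω =
      Complex.I • ∑ β : Fin 16, ((Gam G β α : ℝ) : ℂ) • rotθ b b' M β A Ω := by
    simp only [rotθ_apply]
    have h2 : ∀ B, M.θ α B Ω = Complex.I • ∑ β : Fin 16, ((Gam G β α : ℝ) : ℂ) • M.θ β B Ω :=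
      fun B => h α B
    rw [Finset.sum_congr rfl fun B _ => by rw [h2 B]]
    simp only [Finset.smul_sum, smul_smul]
    rw [Finset.sum_comm]
    refine Finset.sum_congr rfl fun β _ => Finset.sum_congr rfl fun B _ => ?_
    congr 1
    ring
  rw [e.hθ, h1, map_smul, map_sum]
  congr 1
  exact Finset.sum_congr rfl fun β _ => by rw [map_smul, e.hθ]

/-- the parity is transported -/
theorem DEquiv.isParity (e : DEquiv R R') {G : GammaNine} {P : F' →ₗ[ℂ] F'}
    (h : IsParity M' G P) :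
    IsParity M G ((e.u.symm.toLinearEquiv : F' →ₗ[ℂ] F) ∘ₗ P ∘ₗ
      (e.u.toLinearEquiv : F →ₗ[ℂ] F')) where
  anti α A v := by
    show e.u.symm (P (e.u (M.θ α A v))) = -M.θ α A (e.u.symm (P (e.u v)))
    have h1 : ∀ w : F', M.θ α A (e.u.symm w) = e.u.symm (rotθ b' b M' α A w) := fun w =>
      e.symm.hθ α A w
    have h2 : e.u (M.θ α A v) = rotθ b' b M' α A (e.u v) := by
      have h3 := h1 (e.u v)
      rw [e.u.symm_apply_apply] at h3
      rw [h3, e.u.apply_symm_apply]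
    rw [h1, h2, ← map_neg]
    congr 1
    simp only [rotθ_apply, map_sum, map_smul, h.anti, smul_neg, Finset.sum_neg_distrib]
  vac Ω hΩ := by
    show e.u.symm (P (e.u Ω)) = Ω
    rw [h.vac _ (e.isGVac hΩ), e.u.symm_apply_apply]

/-- **the ground state is transported** -/
theorem DEquiv.ground (e : DEquiv R R') {G : GammaNine} {ψ : Cfg N → F}
    (h : Ground b M R G ψ) : Ground b' M' R' G (e.tr ψ) where
  mem := e.zset_tr G 1 0 h.mem
  norm := by rw [e.integral_norm_sq_tr]; exact h.norm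
  line φ hφ := by
    have h1 := h.line (e.symm.tr φ) (e.symm.zset_tr G 1 0 hφ)
    have h2 := e.ae_tr h1
    rw [e.tr_tr_symm] at h2
    refine h2.trans (Eventually.of_forall fun y => ?_)
    have h3 := e.integral_inner_tr ψ (e.symm.tr φ)
    rw [e.tr_tr_symm] at h3
    show e.u ((∫ y, ⟪ψ y, e.symm.tr φ y⟫_ℂ) • ψ _) = (∫ y, ⟪e.tr ψ y, φ y⟫_ℂ) • e.tr ψ y
    rw [h3, map_smul]
    rfl
  moment s h0 h1 := by
    have h2 := h.moment s h0 h1
    have h3 := ((oIso b b').symm.measurePreserving).integrable_comp_of_integrable h2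
    refine h3.congr (Eventually.of_forall fun y => ?_)
    show ‖(oIso b b').symm y‖ ^ (2 * s) * ‖ψ ((oIso b b').symm y)‖ ^ 2 =
      ‖y‖ ^ (2 * s) * ‖e.u (ψ ((oIso b b').symm y))‖ ^ 2
    rw [LinearIsometryEquiv.norm_map, LinearIsometryEquiv.norm_map]
  hardy := by
    obtain ⟨c, hc, h1⟩ := h.hardy
    refine ⟨c, hc, fun φ hφ => ?_⟩
    have h2 := h1 (e.symm.tr φ) (e.symm.core hφ)
    rw [e.symm.qf_tr] at h2
    refine le_trans (le_of_eq ?_) h2
    congr 1
    have h3 := e.integral_inner_tr ψ (e.symm.tr φ)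
    rw [e.tr_tr_symm] at h3
    rw [h3]
    have h6 := (oIso b b').symm.measurePreserving.integral_comp (emb b b')
      (fun x => (1 + ‖x‖ ^ 2)⁻¹ * ‖e.symm.tr φ x - (∫ y, ⟪ψ y, e.symm.tr φ y⟫_ℂ) • ψ x‖ ^ 2)
    refine Eq.trans ?_ h6
    refine integral_congr_ae (Eventually.of_forall fun y => ?_)
    show (1 + ‖y‖ ^ 2)⁻¹ * ‖φ y - (∫ y, ⟪ψ y, e.symm.tr φ y⟫_ℂ) • e.tr ψ y‖ ^ 2 =
      (1 + ‖(oIso b b').symm y‖ ^ 2)⁻¹ * ‖e.symm.tr φ ((oIso b b').symm y) -
        (∫ y, ⟪ψ y, e.symm.tr φ y⟫_ℂ) • ψ ((oIso b b').symm y)‖ ^ 2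
    rw [LinearIsometryEquiv.norm_map]
    congr 2
    have h4 : e.u (e.symm.tr φ ((oIso b b').symm y) -
        (∫ y, ⟪ψ y, e.symm.tr φ y⟫_ℂ) • ψ ((oIso b b').symm y)) =
        φ y - (∫ y, ⟪ψ y, e.symm.tr φ y⟫_ℂ) • e.tr ψ y := by
      rw [map_sub, map_smul]
      congr 1
      have h5 := congrFun (e.tr_tr_symm φ) y
      exact h5
    rw [← h4, e.u.norm_map]
  even P hP := by
    have h1 := h.even _ (e.isParity hP)
    have h2 : (fun x => (((e.u.symm.toLinearEquiv : F' →ₗ[ℂ] F) ∘ₗ P ∘ₗ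
      (e.u.toLinearEquiv : F →ₗ[ℂ] F')) (ψ x))) =ᵐ[volume] ψ := h1
    have h3 := e.ae_tr h2
    filter_upwards [h3] with y hy
    have h4 : e.u (e.u.symm (P (e.u (ψ ((oIso b b').symm y))))) = e.tr ψ y := hy
    rw [e.u.apply_symm_apply] at h4
    exact h4

/-- **It suffices to prove `SInd N` for one convenient set of data** (all `G`). -/
theorem sInd_of_one {F₀ : Type*} [NormedAddCommGroup F₀] [InnerProductSpace ℂ F₀]
    [FiniteDimensional ℂ F₀] [Nontrivial F₀] {b₀ : ColorBasis N} {M₀ : FermionRep N F₀}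
    (R₀ : GaugeAction b₀ M₀) (h : ∀ G : GammaNine, ∃ ψ, Ground b₀ M₀ R₀ G ψ) : SInd N := by
  intro F₁ _ _ _ _ b₁ M₁ R₁ G
  obtain ⟨e⟩ := any_equiv R₀ R₁
  obtain ⟨ψ, hψ⟩ := h G
  exact ⟨e.tr ψ, e.ground hψ⟩

end transfer

end Crest.Agent.R330.Trans317

end
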