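import Crest.Agent.R330.SlP_314

/-!
Row 330, S8-ISO (helper372), part T: transition between two slices.
Chart `Psi b c'` at `c'`; for `X` with `X - c' ∈ Nor b c'` small, the normal coordinate
`Th x = P_N (Psi⁻¹ x)` is strictly differentiable at `X`, is `x ↦ x - c'` on the slice, and its
derivative `L` satisfies `z = [om, X] + L z` for some `om` (so `L z` is `z` modulo the gauge
directions at `X`).
-/

set_option autoImplicit false
noncomputable section

open Matrix
open Crest.MathPhysics.MatrixQM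
open Crest.Agent.R330.SlA314 Crest.Agent.R330.SlB314 Crest.Agent.R330.SlC314
open Crest.Agent.R330.SlD314 Crest.Agent.R330.SlP314
open scoped ContDiff Topology

namespace Crest.Agent.R330.Trans372

variable {N : ℕ} (b : ColorBasis N)

/-- derivative of the chart at a point of the slice -/
theorem fderiv_Psi_nor {c y : Cfg N} (hy : y ∈ Nor b c) (w : Cfg N) :
    fderiv ℝ (Psi b c) y w = brx b (omL b c w) (c + y) + PN b c w := by
  have h1 : HasFDerivAt (Psi b c) (fderiv ℝ (Psi b c) y) y :=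
    ((contDiff_Psi b c).differentiable (by simp)).differentiableAt.hasFDerivAt
  have h2 : HasDerivAt (fun τ : ℝ => y + τ • w) w 0 := by
    simpa using ((hasDerivAt_id (0 : ℝ)).smul_const w).const_add y
  have h3 : HasDerivAt (fun τ : ℝ => Psi b c (y + τ • w)) (fderiv ℝ (Psi b c) y w) 0 := by
    have h1' : HasFDerivAt (Psi b c) (fderiv ℝ (Psi b c) y) (y + (0 : ℝ) • w) := by
      rwa [zero_smul, add_zero]
    exact h1'.comp_hasDerivAt (0 : ℝ) h2
  have h4 : HasDerivAt (fun τ : ℝ => b.act (gexp b (τ • omL b c w)) (c + y))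
      (brx b (omL b c w) (c + y)) 0 := hasDerivAt_act_zero b _ _
  have h5 : HasDerivAt (fun τ : ℝ => b.act (gexp b (τ • omL b c w)) (PN b c w))
      (brx b (omL b c w) (PN b c w)) 0 := hasDerivAt_act_zero b _ _
  have h6 := h4.add ((hasDerivAt_id (0 : ℝ)).smul h5)
  simp only [id_eq, zero_smul, gexp_zero, act_one, zero_add, one_smul] at h6
  have e1 : (fun τ : ℝ => Psi b c (y + τ • w)) =
      ((fun τ : ℝ => b.act (gexp b (τ • omL b c w)) (c + y)) +
        ((id : ℝ → ℝ) • fun τ : ℝ => b.act (gexp b (τ • omL b c w)) (PN b c w))) := by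
    funext τ
    simp only [Psi, Pi.add_apply, Pi.smul_apply', id_eq]
    rw [map_add, map_smul, map_add, map_smul, omL_of_Nor b hy, zero_add, PN_of_mem b hy,
      ← add_assoc, act_add, act_smul]
  rw [e1] at h3
  exact h3.unique h6

variable {b}

/-- the point `c' + y` of the slice lies in the chart -/
theorem mem_image_of_nor {c y : Cfg N} {δ : ℝ} (hy : y ∈ Nor b c) (h : ‖y‖ < δ) :
    c + y ∈ Psi b c '' box b c δ := by
  have h0 : 0 < δ := lt_of_le_of_lt (norm_nonneg _) h
  refine ⟨y, ?_, Psi_nor b hy⟩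
  constructor
  · rw [PT_of_mem_Nor b hy, norm_zero]; exact h0
  · rw [PN_of_mem b hy]; exact h

theorem PsiInv_nor {c y : Cfg N} {δ : ℝ} (hg : GoodRad b c δ) (hy : y ∈ Nor b c) (h : ‖y‖ < δ) :
    PsiInv b c δ (c + y) = y := by
  have h0 : 0 < δ := hg.pos
  have hm : y ∈ box b c δ := by
    constructor
    · rw [PT_of_mem_Nor b hy, norm_zero]; exact h0
    · rw [PN_of_mem b hy]; exact h
  have := hg.PsiInv_Psi hm
  rwa [Psi_nor b hy] at this

variable (b)

/-- normal coordinate -/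
def Th (c : Cfg N) (δ : ℝ) (x : Cfg N) : Cfg N := PN b c (PsiInv b c δ x)

/-- gauge coordinate -/
def Om (c : Cfg N) (δ : ℝ) (x : Cfg N) : Fin (N ^ 2 - 1) → ℝ := omL b c (PsiInv b c δ x)

variable {b}

theorem Th_mem {c : Cfg N} {δ : ℝ} (x : Cfg N) : Th b c δ x ∈ Nor b c := PN_mem b _ _

theorem act_Th {c : Cfg N} {δ : ℝ} {x : Cfg N} (hx : x ∈ Psi b c '' box b c δ) :
    b.act (gexp b (Om b c δ x)) (c + Th b c δ x) = x := Psi_PsiInv hx

theorem norm_Th_lt {c : Cfg N} {δ : ℝ} {x : Cfg N} (hx : x ∈ Psi b c '' box b c δ) :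
    ‖Th b c δ x‖ < δ := (PsiInv_mem hx).2

theorem Th_nor {c y : Cfg N} {δ : ℝ} (hg : GoodRad b c δ) (hy : y ∈ Nor b c) (h : ‖y‖ < δ) :
    Th b c δ (c + y) = y := by
  unfold Th
  rw [PsiInv_nor hg hy h, PN_of_mem b hy]

theorem Om_nor {c y : Cfg N} {δ : ℝ} (hg : GoodRad b c δ) (hy : y ∈ Nor b c) (h : ‖y‖ < δ) :
    Om b c δ (c + y) = 0 := by
  unfold Om
  rw [PsiInv_nor hg hy h, omL_of_Nor b hy]

theorem continuousAt_Om {c : Cfg N} {δ : ℝ} (hg : GoodRad b c δ) {x : Cfg N}
    (hx : x ∈ Psi b c '' box b c δ) : ContinuousAt (Om b c δ) x :=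
  ((omL b c).continuous.continuousAt).comp (hg.contDiffAt_PsiInv hx).continuousAt

/-- the transition map is strictly differentiable on the slice and its derivative is the
projection modulo the gauge directions at the point -/
theorem exists_strict {c y : Cfg N} {δ : ℝ} (hg : GoodRad b c δ) (hy : y ∈ Nor b c)
    (h : ‖y‖ < δ) : ∃ L : Cfg N →L[ℝ] Cfg N, HasStrictFDerivAt (Th b c δ) L (c + y) ∧
      ∀ z, L z ∈ Nor b c ∧ ∃ om : Fin (N ^ 2 - 1) → ℝ, z = brx b om (c + y) + L z := by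
  have hx : c + y ∈ Psi b c '' box b c δ := mem_image_of_nor hy h
  have h1 : HasStrictFDerivAt (PsiInv b c δ) (fderiv ℝ (PsiInv b c δ) (c + y)) (c + y) :=
    (hg.contDiffAt_PsiInv hx).hasStrictFDerivAt (by simp)
  refine ⟨(PN b c).comp (fderiv ℝ (PsiInv b c δ) (c + y)), (PN b c).hasStrictFDerivAt.comp _ h1,
    fun z => ⟨PN_mem b _ _, omL b c (fderiv ℝ (PsiInv b c δ) (c + y) z), ?_⟩⟩
  set w := fderiv ℝ (PsiInv b c δ) (c + y) z with hw
  have h2 : HasFDerivAt (Psi b c) (fderiv ℝ (Psi b c) y) (PsiInv b c δ (c + y)) := by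
    rw [PsiInv_nor hg hy h]
    exact ((contDiff_Psi b c).differentiable (by simp)).differentiableAt.hasFDerivAt
  have h3 := h2.comp (c + y) h1.hasFDerivAt
  have h4 : (Psi b c ∘ PsiInv b c δ) =ᶠ[𝓝 (c + y)] id := by
    filter_upwards [hg.isOpen_image.mem_nhds hx] with x hx'
    exact Psi_PsiInv hx'
  have h5 : HasFDerivAt (Psi b c ∘ PsiInv b c δ) (ContinuousLinearMap.id ℝ (Cfg N)) (c + y) :=
    (hasFDerivAt_id (c + y)).congr_of_eventuallyEq h4
  have h6 := DFunLike.congr_fun (h3.unique h5) z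
  have h7 : fderiv ℝ (Psi b c) y w = z := h6
  rw [fderiv_Psi_nor b hy w] at h7
  exact h7.symm

end Crest.Agent.R330.Trans372
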