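import Crest.Agent.R330.SlP_314

/-!
# Row 330, S8-TRANSIT (i) (helper815): transition to the fixed slice at another centre

For a centre `p` with good radius `δ` (chart of `SlP_314`): every point `x` near a point
`x0 ∈ p + Nor p`, `‖x0 - p‖ ≤ δ/2`, is `x = exp(om) . (p + u)` with `u ∈ Nor p`, where
`om = omOf x`, `u = uOf x` are smooth in `x`, `|om| ≤ C |x - x0|`, `|u - (x0 - p)| ≤ 2 |x - x0|`
and `p + u = x - [om, x] + O(|x - x0|²)`.
-/

set_option autoImplicit false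
noncomputable section

open Matrix
open Crest.MathPhysics.MatrixQM
open Crest.Agent.R330.SlA314 Crest.Agent.R330.SlB314 Crest.Agent.R330.SlC314
open Crest.Agent.R330.SlD314 Crest.Agent.R330.SlP314
open scoped ContDiff Topology

namespace Crest.Agent.R330.Trans815

variable {N : ℕ} (b : ColorBasis N)

/-- the bracket as a bilinear map -/
def brxL : (Fin (N ^ 2 - 1) → ℝ) →ₗ[ℝ] Cfg N →ₗ[ℝ] Cfg N :=
  LinearMap.mk₂ ℝ (brx b) (brx_add_left b) (brx_smul_left b) (brx_add_right b)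
    (fun t u x => brx_smul_right b t u x)

theorem exists_brx_bound : ∃ B : ℝ, 0 < B ∧ ∀ (om : Fin (N ^ 2 - 1) → ℝ) (x : Cfg N),
    ‖brx b om x‖ ≤ B * ‖om‖ * ‖x‖ := by
  refine ⟨‖(brxL b).toContinuousBilinearMap‖ + 1, by positivity, fun om x => ?_⟩
  have h := (brxL b).toContinuousBilinearMap.le_opNorm₂ om x
  refine le_trans h ?_
  gcongr
  linarith

/-- Taylor expansion of the action of `exp(om)`, first order -/
theorem norm_act_gexp_sub (B : ℝ) (hB : 0 < B)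
    (hb : ∀ (om : Fin (N ^ 2 - 1) → ℝ) (x : Cfg N), ‖brx b om x‖ ≤ B * ‖om‖ * ‖x‖)
    (om : Fin (N ^ 2 - 1) → ℝ) (x : Cfg N) (t : ℝ) (ht : t ∈ Set.Icc (0 : ℝ) 1) :
    ‖b.act (gexp b (t • om)) x - x‖ ≤ B * ‖om‖ * ‖x‖ := by
  have h1 : ∀ s ∈ Set.Icc (0 : ℝ) 1, HasDerivWithinAt (fun t : ℝ => b.act (gexp b (t • om)) x)
      (brx b om (b.act (gexp b (s • om)) x)) (Set.Icc (0 : ℝ) 1) s := fun s _ =>
    (hasDerivAt_act b om x s).hasDerivWithinAt
  have h2 := (convex_Icc (0 : ℝ) 1).norm_image_sub_le_of_norm_hasDerivWithin_le h1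
    (C := B * ‖om‖ * ‖x‖) (fun s _ => (hb _ _).trans (by rw [act_norm])) (x := 0) (y := t)
    (Set.left_mem_Icc.2 zero_le_one) ht
  rw [zero_smul, gexp_zero, act_one, sub_zero, Real.norm_eq_abs, abs_of_nonneg ht.1] at h2
  refine h2.trans ?_
  have : 0 ≤ B * ‖om‖ * ‖x‖ := by positivity
  nlinarith [ht.2]

/-- Taylor expansion of the action of `exp(om)`, second order -/
theorem norm_act_gexp_sub_sub (B : ℝ) (hB : 0 < B)
    (hb : ∀ (om : Fin (N ^ 2 - 1) → ℝ) (x : Cfg N), ‖brx b om x‖ ≤ B * ‖om‖ * ‖x‖)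
    (om : Fin (N ^ 2 - 1) → ℝ) (x : Cfg N) :
    ‖b.act (gexp b om) x - x - brx b om x‖ ≤ B ^ 2 * ‖om‖ ^ 2 * ‖x‖ := by
  have h1 : ∀ s ∈ Set.Icc (0 : ℝ) 1, HasDerivWithinAt
      (fun t : ℝ => b.act (gexp b (t • om)) x - t • brx b om x)
      (brx b om (b.act (gexp b (s • om)) x) - (1 : ℝ) • brx b om x) (Set.Icc (0 : ℝ) 1) s :=
    fun s _ => (((hasDerivAt_act b om x s).sub
      ((hasDerivAt_id s).smul_const (brx b om x)))).hasDerivWithinAt
  have h2 := (convex_Icc (0 : ℝ) 1).norm_image_sub_le_of_norm_hasDerivWithin_le h1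
    (C := B ^ 2 * ‖om‖ ^ 2 * ‖x‖) (fun s hs => by
      have e : brx b om (b.act (gexp b (s • om)) x) - (1 : ℝ) • brx b om x =
          brx b om (b.act (gexp b (s • om)) x - x) := by
        rw [one_smul, sub_eq_add_neg, sub_eq_add_neg, brx_add_right]
        congr 1
        rw [← neg_one_smul ℝ x, brx_smul_right, neg_one_smul]
      rw [e]
      refine (hb _ _).trans ?_
      have h3 := norm_act_gexp_sub b B hB hb om x s hs
      calc B * ‖om‖ * ‖b.act (gexp b (s • om)) x - x‖ ≤ B * ‖om‖ * (B * ‖om‖ * ‖x‖) := by gcongr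
        _ = B ^ 2 * ‖om‖ ^ 2 * ‖x‖ := by ring) (x := 0) (y := 1)
    (Set.left_mem_Icc.2 zero_le_one) (Set.right_mem_Icc.2 zero_le_one)
  simp only [zero_smul, gexp_zero, act_one, sub_zero, one_smul, norm_one, mul_one] at h2
  have e2 : b.act (gexp b om) x - x - brx b om x =
      b.act (gexp b om) x - brx b om x - x := by abel
  rw [e2]
  exact h2

variable {b}

/-- a uniform neighbourhood of the normal disc of radius `δ/2` is in the chart -/
theorem exists_nbhd {p : Cfg N} {δ : ℝ} (h : GoodRad b p δ) :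
    ∃ ε : ℝ, 0 < ε ∧ ∀ x0 x : Cfg N, x0 - p ∈ Nor b p → ‖x0 - p‖ ≤ δ / 2 → ‖x - x0‖ < ε →
      x ∈ Psi b p '' box b p δ := by
  set K : Set (Cfg N) := {x0 | x0 - p ∈ Nor b p ∧ ‖x0 - p‖ ≤ δ / 2} with hK
  have hKc : IsCompact K := by
    have h1 : K ⊆ Metric.closedBall p (δ / 2) := fun x hx => by
      rw [mem_closedBall_iff_norm]
      exact hx.2
    have h2 : IsClosed K := by
      refine IsClosed.inter ?_ ?_
      · exact (Submodule.closed_of_finiteDimensional (Nor b p)).preimage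
          (continuous_id.sub continuous_const)
      · exact isClosed_le (continuous_id.sub continuous_const).norm continuous_const
    exact (isCompact_closedBall p (δ / 2)).of_isClosed_subset h2 h1
  have hsub : K ⊆ Psi b p '' box b p δ := by
    rintro x0 ⟨h1, h2⟩
    have hpos := h.pos
    refine ⟨x0 - p, ⟨?_, ?_⟩, ?_⟩
    · rw [PT_of_mem_Nor b h1, norm_zero]
      exact hpos
    · rw [PN_of_mem b h1]
      linarith
    · rw [Psi_nor b h1]
      abel
  obtain ⟨ε, hε, h3⟩ := hKc.exists_thickening_subset_open h.isOpen_image hsub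
  refine ⟨ε, hε, fun x0 x h1 h2 h4 => h3 ?_⟩
  rw [Metric.mem_thickening_iff]
  exact ⟨x0, ⟨h1, h2⟩, by rwa [dist_eq_norm]⟩

variable (b)

/-- the rotation angle of the transition -/
def omOf (p : Cfg N) (δ : ℝ) (x : Cfg N) : Fin (N ^ 2 - 1) → ℝ := omL b p (PsiInv b p δ x)

/-- the slice coordinate of the transition -/
def uOf (p : Cfg N) (δ : ℝ) (x : Cfg N) : Cfg N := PN b p (PsiInv b p δ x)

variable {b}

theorem uOf_mem (p : Cfg N) (δ : ℝ) (x : Cfg N) : uOf b p δ x ∈ Nor b p := PN_mem b p _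

theorem act_uOf {p : Cfg N} {δ : ℝ} {x : Cfg N} (hx : x ∈ Psi b p '' box b p δ) :
    b.act (gexp b (omOf b p δ x)) (p + uOf b p δ x) = x := Psi_PsiInv hx

theorem uOf_norm_lt {p : Cfg N} {δ : ℝ} {x : Cfg N} (hx : x ∈ Psi b p '' box b p δ) :
    ‖uOf b p δ x‖ < δ := (PsiInv_mem hx).2

theorem omOf_slice {p : Cfg N} {δ : ℝ} (h : GoodRad b p δ) {x0 : Cfg N} (h1 : x0 - p ∈ Nor b p)
    (h2 : ‖x0 - p‖ < δ) : omOf b p δ x0 = 0 ∧ uOf b p δ x0 = x0 - p := by
  have hb : x0 - p ∈ box b p δ := by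
    refine ⟨?_, ?_⟩
    · rw [PT_of_mem_Nor b h1, norm_zero]
      exact h.pos
    · rw [PN_of_mem b h1]
      exact h2
  have h3 : Psi b p (x0 - p) = x0 := by
    rw [Psi_nor b h1]
    abel
  have h4 : PsiInv b p δ x0 = x0 - p := by
    have := h.PsiInv_Psi hb
    rwa [h3] at this
  unfold omOf uOf
  rw [h4, omL_of_Nor b h1, PN_of_mem b h1]
  exact ⟨rfl, rfl⟩

theorem contDiffAt_omOf {p : Cfg N} {δ : ℝ} (h : GoodRad b p δ) {x : Cfg N}
    (hx : x ∈ Psi b p '' box b p δ) : ContDiffAt ℝ ∞ (omOf b p δ) x :=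
  (omL b p).contDiff.contDiffAt.comp x (h.contDiffAt_PsiInv hx)

theorem contDiffAt_uOf {p : Cfg N} {δ : ℝ} (h : GoodRad b p δ) {x : Cfg N}
    (hx : x ∈ Psi b p '' box b p δ) : ContDiffAt ℝ ∞ (uOf b p δ) x :=
  (PN b p).contDiff.contDiffAt.comp x (h.contDiffAt_PsiInv hx)

/-- **Transition (i).** -/
theorem trans {p : Cfg N} {δ : ℝ} (h : GoodRad b p δ) :
    ∃ ε C : ℝ, 0 < ε ∧ 0 < C ∧ ∀ x0 x : Cfg N, x0 - p ∈ Nor b p → ‖x0 - p‖ ≤ δ / 2 →
      ‖x - x0‖ < ε →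
      x ∈ Psi b p '' box b p δ ∧
      b.act (gexp b (omOf b p δ x)) (p + uOf b p δ x) = x ∧
      ‖omOf b p δ x‖ ≤ C * ‖x - x0‖ ∧
      ‖uOf b p δ x - (x0 - p)‖ ≤ 2 * ‖x - x0‖ ∧
      ‖(p + uOf b p δ x) - (x - brx b (omOf b p δ x) x)‖ ≤ C * ‖x - x0‖ ^ 2 := by
  obtain ⟨ε, hε, hn⟩ := exists_nbhd h
  obtain ⟨B, hB, hb⟩ := exists_brx_bound b
  set O : ℝ := ‖omL b p‖ + 1 with hO
  have hO0 : 0 < O := by positivity
  set X : ℝ := ‖p‖ + δ + 1 with hX
  have hX0 : 0 < X := by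
    have := h.pos
    positivity
  have hkey : ∀ x0 x : Cfg N, x0 - p ∈ Nor b p → ‖x0 - p‖ ≤ δ / 2 → ‖x - x0‖ < ε →
      ‖PsiInv b p δ x - (x0 - p)‖ ≤ 2 * ‖x - x0‖ := by
    intro x0 x h1 h2 h3
    have hx := hn x0 x h1 h2 h3
    have hpos := h.pos
    have hb0 : x0 - p ∈ box b p δ := by
      refine ⟨?_, ?_⟩
      · rw [PT_of_mem_Nor b h1, norm_zero]
        exact hpos
      · rw [PN_of_mem b h1]
        linarith
    have h4 := h.antilip (box_subset_ball b p δ (PsiInv_mem hx)) (box_subset_ball b p δ hb0)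
    rw [Psi_PsiInv hx, Psi_nor b h1] at h4
    have e : p + (x0 - p) = x0 := by abel
    rwa [e] at h4
  have hom : ∀ x0 x : Cfg N, x0 - p ∈ Nor b p → ‖x0 - p‖ ≤ δ / 2 → ‖x - x0‖ < ε →
      ‖omOf b p δ x‖ ≤ 2 * O * ‖x - x0‖ := by
    intro x0 x h1 h2 h3
    have h4 := hkey x0 x h1 h2 h3
    have e : omOf b p δ x = omL b p (PsiInv b p δ x - (x0 - p)) := by
      unfold omOf
      rw [map_sub, omL_of_Nor b h1, sub_zero]
    rw [e]
    calc ‖omL b p (PsiInv b p δ x - (x0 - p))‖ ≤ ‖omL b p‖ * ‖PsiInv b p δ x - (x0 - p)‖ :=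
          (omL b p).le_opNorm _
      _ ≤ O * (2 * ‖x - x0‖) := by
          gcongr
          rw [hO]
          linarith
      _ = 2 * O * ‖x - x0‖ := by ring
  refine ⟨min ε 1, max (2 * O) (B ^ 2 * (2 * O) ^ 2 * X), lt_min hε one_pos,
    lt_max_of_lt_left (by positivity), fun x0 x h1 h2 h3' => ?_⟩
  have h3 : ‖x - x0‖ < ε := h3'.trans_le (min_le_left _ _)
  have h31 : ‖x - x0‖ < 1 := h3'.trans_le (min_le_right _ _)
  have hx := hn x0 x h1 h2 h3
  refine ⟨hx, act_uOf hx, ?_, ?_, ?_⟩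
  · refine (hom x0 x h1 h2 h3).trans ?_
    gcongr
    exact le_max_left _ _
  · have e : uOf b p δ x - (x0 - p) = PN b p (PsiInv b p δ x - (x0 - p)) := by
      unfold uOf
      rw [map_sub, PN_of_mem b h1]
    rw [e]
    exact (norm_PN_le b p _).trans (hkey x0 x h1 h2 h3)
  · have e1 : p + uOf b p δ x = b.act (gexp b (-(omOf b p δ x))) x := by
      have h8 : b.act (gexp b (omOf b p δ x))⁻¹
          (b.act (gexp b (omOf b p δ x)) (p + uOf b p δ x)) =
          b.act (gexp b (omOf b p δ x))⁻¹ x := by rw [act_uOf hx]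
      rw [act_inv_act] at h8
      rw [gexp_neg]
      exact h8
    have e2 : x - brx b (omOf b p δ x) x = x + brx b (-(omOf b p δ x)) x := by
      rw [sub_eq_add_neg, ← neg_one_smul ℝ (omOf b p δ x), brx_smul_left, neg_one_smul]
    have h5 := norm_act_gexp_sub_sub b B hB hb (-(omOf b p δ x)) x
    rw [e1, e2]
    have e3 : b.act (gexp b (-(omOf b p δ x))) x - (x + brx b (-(omOf b p δ x)) x) =
        b.act (gexp b (-(omOf b p δ x))) x - x - brx b (-(omOf b p δ x)) x := by abel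
    rw [e3]
    refine h5.trans ?_
    rw [norm_neg]
    have h6 := hom x0 x h1 h2 h3
    have h7 : ‖x‖ ≤ X := by
      have : x = p + (x0 - p) + (x - x0) := by abel
      calc ‖x‖ = ‖p + (x0 - p) + (x - x0)‖ := by rw [← this]
        _ ≤ ‖p‖ + ‖x0 - p‖ + ‖x - x0‖ := norm_add₃_le
        _ ≤ X := by
          have := h.pos
          rw [hX]
          linarith
    calc B ^ 2 * ‖omOf b p δ x‖ ^ 2 * ‖x‖ ≤ B ^ 2 * (2 * O * ‖x - x0‖) ^ 2 * X := by gcongr
      _ = B ^ 2 * (2 * O) ^ 2 * X * ‖x - x0‖ ^ 2 := by ring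
      _ ≤ _ := by
        gcongr
        exact le_max_right _ _

end Crest.Agent.R330.Trans815

end
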