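import Crest.Agent.R330.Transp3_491
import Crest.Agent.R330.GBind_984
import Crest.Agent.R330.FibC_892

/-!
# Row 330, section 9.1(e) (helper491): (F1), (F2) at commuting `X` on the fixed slice `Zs b c`

Constants uniform in `c` (bounded, gap `r`), `X` (`B‖X-c‖ ≤ r/2`), `g > 0`.
-/

set_option autoImplicit false
set_option linter.unusedSectionVars false

open MeasureTheory Filter Topology Crest.MathPhysics.MatrixQM
open Crest.Agent.R330.IBP837 Crest.Agent.R330.Defs478 Crest.Agent.R330.Frame839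
open Crest.Agent.R330.LS839 Crest.Agent.R330.Clus839 Crest.Agent.R330.Bind6839
open Crest.Agent.R330.Transp491 Crest.Agent.R330.Transp2491 Crest.Agent.R330.Transp3491
open Crest.Agent.R330.GBind984 Crest.Agent.R330.AX984
open Crest.Agent.R330.SqrtPD984 Crest.Agent.R330.GPar984
open scoped ContDiff InnerProductSpace ENNReal

noncomputable section

namespace Crest.Agent.R330.Transp4491

variable {N : ℕ} {b : ColorBasis N} {c X : Cfg N} {r B : ℝ}

/-- `‖[w, X]‖² = Σ ‖[X_i, w]‖²`. -/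
theorem norm_act_sq (w : Colg N) : ‖actB b w X‖ ^ 2 = ∑ i, ‖adX b X i w‖ ^ 2 := by
  have h2 := (tenC (N := N)).norm_sq ((tenC (N := N)).gd (adX b X) w)
  have h1 : actB b w X = -(tenC (N := N)).gd (adX b X) w := by
    rw [gd_adX, neg_neg]
  rw [h1, norm_neg, h2]
  refine Finset.sum_congr rfl fun i _ => ?_
  rw [(tenC (N := N)).pr_gd]

section abs

variable {V E : Type*} [NormedAddCommGroup V] [InnerProductSpace ℝ V] [FiniteDimensional ℝ V]
  [NormedAddCommGroup E] [InnerProductSpace ℝ E] [FiniteDimensional ℝ E]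

theorem S_norm_le {A : V →L[ℝ] E →L[ℝ] E} {c x : E} {w : V} (hw : w ∈ (kc A c)ᗮ) :
    ‖S A c x ⟨w, hw⟩‖ ≤ ‖A w x‖ := by
  rw [S_apply]
  exact proj_norm_le _ _

theorem S_low' {A : V →L[ℝ] E →L[ℝ] E} {c x : E} {r B : ℝ} (hr : GapAt A c r)
    (hB : ActBound A B) (hx : B * ‖x - c‖ ≤ r / 2) {w : V} (hw : w ∈ (kc A c)ᗮ) :
    r / 2 * ‖w‖ ≤ ‖S A c x ⟨w, hw⟩‖ := S_low hr hB hx ⟨w, hw⟩

theorem sq_low {a x y : ℝ} (h0 : 0 ≤ a) (hx : 0 ≤ x) (h : a * x ≤ y) :
    a ^ 2 * x ^ 2 ≤ y ^ 2 := by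
  have h4 : 0 ≤ a * x := by positivity
  calc a ^ 2 * x ^ 2 = (a * x) ^ 2 := by ring
    _ ≤ _ := pow_le_pow_left₀ h4 h 2

theorem A_low {A : V →L[ℝ] E →L[ℝ] E} {c x : E} {r B : ℝ} (hr0 : 0 < r) (hr : GapAt A c r)
    (hB : ActBound A B) (hx : B * ‖x - c‖ ≤ r / 2) {w : V} (hw : w ∈ (kc A c)ᗮ) :
    (r / 2) ^ 2 * ‖w‖ ^ 2 ≤ ‖A w x‖ ^ 2 :=
  sq_low (by linarith) (norm_nonneg _) ((S_low' hr hB hx hw).trans (S_norm_le hw))

end abs

/-- The family `ad X` has gap `r/2`. -/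
theorem fam_gap (hr0 : 0 < r) (hr : GapAt (actB b) c r) (hB : ActBound (actB b) B)
    (hX : Comc b X) (hk : kc (actB b) X = kc (actB b) c) (hx : B * ‖X - c‖ ≤ r / 2) :
    Fam (kc (actB b) X) (r / 2) (adX b X) where
  skew := adX_skew b X
  comm i j v := (colAlg b).comm_ad hX i j v
  ker i w hw := (mem_kc_iff' b).mp hw i
  gap w hw := by
    rw [hk] at hw
    have h := A_low hr0 hr hB hx hw
    rw [norm_act_sq] at h
    exact h

/-- Upper bound of the frequency operator. -/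
theorem norm_cmp_le {s : ℝ} (hs : 0 < s) (hB : ActBound (actB b) B) (hB0 : 0 ≤ B)
    (h : Fam (kc (actB b) X) s (adX b X)) (z : tenC.ZZ (kc (actB b) X) (adX b X)) :
    ‖cmp (tenC.ZZ (kc (actB b) X) (adX b X)) (tenC.AX (kc (actB b) X) (adX b X)) z‖ ≤
      B * ‖X‖ * ‖z‖ := by
  refine le_of_sq_le_sq ?_ (by positivity)
  have e1 : ‖cmp (tenC.ZZ (kc (actB b) X) (adX b X))
      (tenC.AX (kc (actB b) X) (adX b X)) z‖ ^ 2 =
      ∑ i, ‖lr (kc (actB b) X) (adX b X) (tenC.pr i (z : Cfg N))‖ ^ 2 := by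
    have e2 := tenC.norm_sq ((cmp (tenC.ZZ (kc (actB b) X) (adX b X))
      (tenC.AX (kc (actB b) X) (adX b X)) z : tenC.ZZ (kc (actB b) X) (adX b X)) : Cfg N)
    simp only [Fib892.pr_cmp tenC h hs] at e2
    exact e2
  have e3 : ‖z‖ ^ 2 = ∑ i, ‖tenC.pr i (z : Cfg N)‖ ^ 2 := tenC.norm_sq (z : Cfg N)
  rw [e1, mul_pow, e3, Finset.mul_sum]
  refine Finset.sum_le_sum fun i _ => ?_
  rw [h.norm_lr_sq hs (z.2.1 i), ← norm_act_sq]
  have h1 := hB (tenC.pr i (z : Cfg N)) X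
  calc ‖actB b (tenC.pr i (z : Cfg N)) X‖ ^ 2 ≤ (B * ‖tenC.pr i (z : Cfg N)‖ * ‖X‖) ^ 2 :=
        pow_le_pow_left₀ (norm_nonneg _) h1 2
    _ = _ := by ring

/-- Trace bound. -/
theorem trace_le {s : ℝ} (hs : 0 < s) (hB : ActBound (actB b) B) (hB0 : 0 ≤ B)
    (h : Fam (kc (actB b) X) s (adX b X)) {ι : Type*} [Fintype ι]
    (e : OrthonormalBasis ι ℝ (tenC.ZZ (kc (actB b) X) (adX b X))) :
    ∑ i, ⟪cmp (tenC.ZZ (kc (actB b) X) (adX b X))
      (tenC.AX (kc (actB b) X) (adX b X)) (e i), e i⟫_ℝ ≤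
      Fintype.card ι * (B * ‖X‖) := by
  have h1 : ∀ i, ⟪cmp (tenC.ZZ (kc (actB b) X) (adX b X))
      (tenC.AX (kc (actB b) X) (adX b X)) (e i), e i⟫_ℝ ≤ B * ‖X‖ := by
    intro i
    refine (real_inner_le_norm _ _).trans ?_
    have h2 := norm_cmp_le hs hB hB0 h (e i)
    rw [e.orthonormal.1 i, mul_one] at h2
    rw [e.orthonormal.1 i, mul_one]
    exact h2
  refine (Finset.sum_le_sum fun i _ => h1 i).trans (le_of_eq ?_)
  rw [Finset.sum_const, Finset.card_univ, nsmul_eq_mul]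

variable {F : Type*} [NormedAddCommGroup F] [InnerProductSpace ℂ F] [FiniteDimensional ℂ F]

theorem ZZ_eq (hk : kc (actB b) X = kc (actB b) c) :
    tenC.ZZ (kc (actB b) X) (adX b X) = Zb (actB b) c (Zs b c) X := by
  rw [← Zb_eq hk]
  ext z
  exact (mem_Zs_iff b).symm

section param

open Crest.Agent.R330.Cliff442

variable {W : Type*} [NormedAddCommGroup W] [InnerProductSpace ℝ W] [FiniteDimensional ℝ W]

/-- The Gaussian weight. -/
def gam (b : ColorBasis N) (g : ℝ) (X z : Cfg N) : ℝ :=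
  Real.exp (-(g / 2) * QX b (kc (actB b) X) X z)

theorem gam_act (hX : Comc b X) (g : ℝ) (w : Cfg N) (v : Colg N) :
    gam b g X (w + actB b v X) = gam b g X w := by
  unfold gam
  rw [QX_act hX rfl]

/-- **(F1) and (F2) on the fixed slice**, from a realisation of the Clifford module. -/
theorem fib_param (M : FermionRep N F) (G : GammaNine) (σ : Ten (Fin 16) (Colg N) W)
    (CM : CRep W F) (hr0 : 0 < r) (hB : ActBound (actB b) B) (hB0 : 0 ≤ B) {R : ℝ}
    (hch : ∀ (X : Cfg N) (ι : Type) [Fintype ι]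
      (e : OrthonormalBasis ι ℝ (tenC.ZZ (kc (actB b) X) (adX b X))) (g : ℝ) (α : Fin 16)
      (f : tenC.ZZ (kc (actB b) X) (adX b X) → F) (z : tenC.ZZ (kc (actB b) X) (adX b X)),
      Fib892.chg CM (fun α => Fib892.Gm G tenC σ α ∘ₗ
        (tenC.ZZ (kc (actB b) X) (adX b X)).subtype) (-Fib892.Sm G σ (adX b X)) e g α f z =
      Bf (thL M G α) (wBL b M G g α X) e f z) :
    ∃ C : ℝ, 0 ≤ C ∧ ∀ c : Cfg N, ‖c‖ ≤ R → GapAt (actB b) c r →
      ∀ X ∈ Uk b c, Comc b X → kc (actB b) X = kc (actB b) c → B * ‖X - c‖ ≤ r / 2 →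
      ∀ g : ℝ, 0 < g → ∀ (κ η : Type) [Fintype κ] [Fintype η]
        (v : OrthonormalBasis κ ℝ (Zs b c)) (t : OrthonormalBasis η ℝ (Tn (actB b) c))
        (f : Zs b c → F), ContDiff ℝ 2 f → HasCompactSupport f →
        (F1b581.Dn volume v g f ≤ C * (F1b581.SB b c M G v t g X f + g * ∫ z, ‖f z‖ ^ 2)) ∧
        (g * ∫ z, ‖f z - PrK (Zs b c) (gam b g X)
            (CM.proj (Fib892.Jm G σ (kc (actB b) X) (adX b X))) f z‖ ^ 2 ≤
          C * F1b581.SB b c M G v t g X f) := by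
  set D : ℝ := (Module.finrank ℝ (Cfg N) : ℝ) with hD
  set τ : ℝ := D * (B * |R| + r / 2) with hτ
  set C1 : ℝ := 2 * (1 + ((r / 2)⁻¹) ^ 2) * ((2 * 8)⁻¹ + τ / 2) with hC1
  set C2 : ℝ := (r / 2)⁻¹ * (2 * 8)⁻¹ with hC2
  have hD0 : 0 ≤ D := Nat.cast_nonneg _
  have hτ0 : 0 ≤ τ := by positivity
  have hC10 : 0 ≤ C1 := by positivity
  have hC20 : 0 ≤ C2 := by positivity
  refine ⟨(D + 4) * C1 + C2, by positivity,
    fun c hcR hr X hXU hX hk hx g hg κ η _ _ v t f hf hfc => ?_⟩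
  have hs : 0 < r / 2 := by linarith
  have hfam := fam_gap hr0 hr hB hX hk hx
  have hK := ZZ_eq (b := b) (c := c) (X := X) hk
  set e := stdOrthonormalBasis ℝ (tenC.ZZ (kc (actB b) X) (adX b X)) with he
  have hL := Fib892.lin G tenC σ hfam hs e
  have hJ := Fib892.linJ G σ hfam hs
  have hlow := fun z => hfam.cmp_low tenC hs z
  have htr : ∑ i, ⟪cmp (tenC.ZZ (kc (actB b) X) (adX b X))
      (tenC.AX (kc (actB b) X) (adX b X)) (e i), e i⟫_ℝ ≤ τ := by
    refine (trace_le hs hB hB0 hfam e).trans ?_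
    rw [hτ]
    have h1 : (Fintype.card (Fin (Module.finrank ℝ
        (tenC.ZZ (kc (actB b) X) (adX b X)))) : ℝ) ≤ D := by
      rw [Fintype.card_fin, hD]
      exact_mod_cast Submodule.finrank_le _
    have h2 : B * ‖X‖ ≤ B * |R| + r / 2 := by
      have h3 : ‖X‖ ≤ ‖c‖ + ‖X - c‖ := by
        calc ‖X‖ = ‖c + (X - c)‖ := by rw [add_sub_cancel]
          _ ≤ _ := norm_add_le _ _
      have h4 : ‖c‖ ≤ |R| := hcR.trans (le_abs_self R)
      calc B * ‖X‖ ≤ B * (‖c‖ + ‖X - c‖) := by gcongr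
        _ = B * ‖c‖ + B * ‖X - c‖ := by ring
        _ ≤ _ := by gcongr
    exact mul_le_mul h1 h2 (by positivity) hD0
  have hSB : 0 ≤ F1b581.SB b c M G v t g X f :=
    F1b581.Sn_nonneg (μ := volume) v (F1b581.bz b c M G v t X) (F1b581.wz b c M G g X) f
  have hQ : 0 ≤ g * ∫ z, ‖f z‖ ^ 2 := mul_nonneg hg.le (integral_nonneg fun _ => by positivity)
  have hκ : (Fintype.card κ : ℝ) ≤ D := by
    have h1 : Fintype.card κ = Module.finrank ℝ (Zs b c) :=
      (Module.finrank_eq_card_basis v.toBasis).symm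
    rw [h1, hD]
    exact_mod_cast Submodule.finrank_le _
  constructor
  · have h1 := F1_D M G hr0 hr hB hB0 hXU hX hx hK e v t (C := C1) (g := g) (fun f' hf' hfc' => by
      have h2 := F1_of_lin (M := CM) hL hs hlow htr hg.le hf' hfc'
      simp only [hch X _ e g] at h2
      exact h2) hf hfc
    refine h1.trans ?_
    have h3 : 0 ≤ F1b581.SB b c M G v t g X f + g * ∫ z, ‖f z‖ ^ 2 := by linarith
    refine mul_le_mul_of_nonneg_right ?_ h3
    have h4 : ((Fintype.card κ : ℝ) + 4) * C1 ≤ (D + 4) * C1 := by gcongr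
    linarith
  · have h1 := F2_D M G hr0 hr hB hXU hX hx hK e v t (C := C2) (g := g)
      (γ := gam b g X) (gam_act hX g)
      (CM.proj (Fib892.Jm G σ (kc (actB b) X) (adX b X))) (fun f' hf' hfc' => by
      have h2 := F2_of_lin (M := CM) hL hJ hs hlow hg (γ := gam b g X) (fun z => by
        unfold gam
        rw [inner_cmp]
        rfl) hf' hfc'
      simp only [hch X _ e g] at h2
      exact h2) hf hfc
    refine h1.trans ?_
    refine mul_le_mul_of_nonneg_right ?_ hSB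
    have : 0 ≤ (D + 4) * C1 := by positivity
    linarith

end param

end Crest.Agent.R330.Transp4491
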