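import Crest.Agent.R330.Transp4_491
import Crest.Agent.R330.FactI_161

/-!
# Row 330, section 9.1(e) (helper491): the literal fibre inequalities

`tenW : Ten (Fin 16) (Colg N) (W16 N)`; `chg` of `Fib892` at `ad X` is the heavy charge `Bf` with
`Theta`, `wB`; `fib` : (F1) and (F2) at commuting `X ∈ Uk b c` on the fixed slice `Zs b c`.
-/

set_option autoImplicit false
set_option linter.unusedSectionVars false

open MeasureTheory Filter Topology Crest.MathPhysics.MatrixQM
open Crest.Agent.R330.IBP837 Crest.Agent.R330.Defs478 Crest.Agent.R330.Frame839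
open Crest.Agent.R330.LS839 Crest.Agent.R330.Clus839 Crest.Agent.R330.Bind6839
open Crest.Agent.R330.Transp491 Crest.Agent.R330.Transp2491 Crest.Agent.R330.Transp3491
open Crest.Agent.R330.GBind984 Crest.Agent.R330.AX984 Crest.Agent.R330.Transp4491
open Crest.Agent.R330.FactI161 Crest.Agent.R330.Cliff442
open scoped ContDiff InnerProductSpace ENNReal

noncomputable section

namespace Crest.Agent.R330.Transp5491

variable {N : ℕ} {F : Type*} [NormedAddCommGroup F] [InnerProductSpace ℂ F]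
  [FiniteDimensional ℂ F]

/-- `W16 N = ℝ¹⁶ ⊗ su(N)`. -/
def tenW (N : ℕ) : Ten (Fin 16) (Colg N) (W16 N) where
  pr β := LinearMap.toContinuousLinearMap (row β)
  ij β := LinearMap.toContinuousLinearMap (ins β)
  pr_same β v := row_ins_self β v
  pr_ne β β' v h := by
    change row β (ins β' v) = 0
    rw [row_ins, if_neg h]
  sum_ij e := sum_ins_row e
  adj β v e := inner_ins β v e

theorem tenW_pr (β : Fin 16) (x : W16 N) : (tenW N).pr β x = row β x := rfl

theorem tenW_ij (β : Fin 16) (u : Colg N) : (tenW N).ij β u = ins β u := rfl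

/-- `vco` is a sum of `thv`. -/
theorem vco_thv (M : FermionRep N F) (w : Fin 16 → Colg N) :
    vco M (fun β A => w β A) = ∑ β, thv M β (w β) := by
  unfold vco thv
  rw [Finset.sum_comm]

theorem cr_vco (M : FermionRep N F) (x : W16 N) (f : F) :
    (cr M).θ x f = vco M (fun β A => row β x A) f := by
  rw [cr_eq_sum, vco_thv M (fun β => row β x), LinearMap.sum_apply]

section

variable (b : ColorBasis N) (M : FermionRep N F) (G : GammaNine)

theorem row_Gm (α β : Fin 16) (z : Cfg N) :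
    row β (Fib892.Gm G tenC (tenW N) α z) = ∑ j, G.γ j α β • comp z j :=
  Fib892.pr_Gm G tenC (tenW N) α β z

/-- `θ(Γ_α z) = Theta_α(z)`. -/
theorem cr_Gm (α : Fin 16) (z : Cfg N) (f : F) :
    (cr M).θ (Fib892.Gm G tenC (tenW N) α z) f = Theta M G α z f := by
  rw [cr_vco, Theta_eq]
  congr 2
  funext β A
  rw [row_Gm]
  simp [comp]

theorem row_Sm_Gm (X z : Cfg N) (α β : Fin 16) :
    row β (Fib892.Sm G (tenW N) (adX b X) (Fib892.Gm G tenC (tenW N) α z)) =
      ∑ i, ∑ j, (G.γ j * G.γ i) α β • (colAlg b).br (comp X i) (comp z j) := by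
  have h1 := Fib892.pr_Sm G (tenW N) (adX b X) β (Fib892.Gm G tenC (tenW N) α z)
  simp only [tenW_pr, row_Gm] at h1
  rw [h1]
  refine Finset.sum_congr rfl fun i _ => ?_
  have h2 : ∀ β', G.γ i β β' • adX b X i (∑ j, G.γ j α β' • comp z j) =
      ∑ j, (G.γ j α β' * G.γ i β' β) • (colAlg b).br (comp X i) (comp z j) := by
    intro β'
    rw [map_sum, Finset.smul_sum]
    refine Finset.sum_congr rfl fun j _ => ?_
    rw [map_smul, smul_smul, Fib892.g_sym G i β β', mul_comm]
    rfl
  simp only [h2]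
  rw [Finset.sum_comm]
  refine Finset.sum_congr rfl fun j _ => ?_
  rw [← Finset.sum_smul, Matrix.mul_apply]

theorem gg_flip (i j : Fin 9) (α β : Fin 16) :
    -(G.γ j * G.γ i) α β = G.γ2 i j α β - if i = j then (1 : Matrix _ _ ℝ) α β else 0 := by
  unfold GammaNine.γ2
  have h := congrArg (fun T : Matrix (Fin 16) (Fin 16) ℝ => T α β) (G.clifford i j)
  simp only [Matrix.add_apply] at h
  simp only [Matrix.smul_apply, Matrix.sub_apply, smul_eq_mul]
  by_cases hij : i = j
  · subst hij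
    rw [Fib892.g_sq, if_pos rfl]
    ring
  · rw [if_neg hij] at h ⊢
    simp only [Matrix.zero_apply] at h
    linarith

/-- `θ(T Γ_α z) = wB_α(z)` on the transverse space. -/
theorem row_T (X z : Cfg N) (hz : tenC.dv (adX b X) z = 0) (α β : Fin 16) :
    row β ((-Fib892.Sm G (tenW N) (adX b X)) (Fib892.Gm G tenC (tenW N) α z)) =
      (2 : ℝ) • (WithLp.toLp 2 (fun A => wb b G α β A X z) : Colg N) := by
  rw [LinearMap.neg_apply, map_neg, row_Sm_Gm, wbv_eq, Finset.smul_sum, ← Finset.sum_neg_distrib]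
  rw [dv_adX] at hz
  have h1 : ∀ i, -∑ j, (G.γ j * G.γ i) α β • (colAlg b).br (comp X i) (comp z j) =
      (∑ j, G.γ2 i j α β • (colAlg b).br (comp X i) (comp z j)) -
        (1 : Matrix (Fin 16) (Fin 16) ℝ) α β • (colAlg b).br (comp X i) (comp z i) := by
    intro i
    have h2 : ∀ j, -((G.γ j * G.γ i) α β • (colAlg b).br (comp X i) (comp z j)) =
        G.γ2 i j α β • (colAlg b).br (comp X i) (comp z j) -
          (if i = j then (1 : Matrix (Fin 16) (Fin 16) ℝ) α β else 0) •
            (colAlg b).br (comp X i) (comp z j) := by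
      intro j
      rw [← neg_smul, gg_flip, sub_smul]
    rw [← Finset.sum_neg_distrib]
    simp only [h2]
    rw [Finset.sum_sub_distrib]
    congr 1
    simp only [ite_smul, zero_smul]
    rw [Finset.sum_ite_eq]
    simp
  simp only [h1]
  rw [Finset.sum_sub_distrib, ← Finset.smul_sum, hz, smul_zero, sub_zero]
  refine Finset.sum_congr rfl fun i _ => ?_
  rw [Finset.smul_sum]
  refine Finset.sum_congr rfl fun j _ => ?_
  rw [smul_smul]
  congr 1
  ring

theorem cr_T (g : ℝ) (X z : Cfg N) (hz : tenC.dv (adX b X) z = 0) (α : Fin 16) (f : F) :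
    (g : ℂ) • (cr M).θ ((-Fib892.Sm G (tenW N) (adX b X)) (Fib892.Gm G tenC (tenW N) α z)) f =
      wB b M G g α X z f := by
  have e : (g : ℂ) • (cr M).θ ((-Fib892.Sm G (tenW N) (adX b X))
      (Fib892.Gm G tenC (tenW N) α z)) f =
      (cr M).θ (g • (-Fib892.Sm G (tenW N) (adX b X)) (Fib892.Gm G tenC (tenW N) α z)) f := by
    rw [(cr M).smul]
    rfl
  rw [e, cr_vco]
  unfold wB
  congr 2
  funext β A
  rw [map_smul, row_T b G X z hz]
  simp only [PiLp.smul_apply, smul_eq_mul]
  ring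

/-- **The bridge.** -/
theorem chg_eq (X : Cfg N) {ι : Type*} [Fintype ι]
    (e : OrthonormalBasis ι ℝ (tenC.ZZ (kc (actB b) X) (adX b X))) (g : ℝ) (α : Fin 16)
    (f : tenC.ZZ (kc (actB b) X) (adX b X) → F) (z : tenC.ZZ (kc (actB b) X) (adX b X)) :
    Fib892.chg (cr M) (fun α => Fib892.Gm G tenC (tenW N) α ∘ₗ
        (tenC.ZZ (kc (actB b) X) (adX b X)).subtype) (-Fib892.Sm G (tenW N) (adX b X)) e g α f z =
      Bf (thL M G α) (wBL b M G g α X) e f z := by
  rw [Fib892.chg_apply]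
  unfold Bf
  congr 1
  · rw [Finset.smul_sum]
    refine Finset.sum_congr rfl fun s _ => ?_
    exact congrArg (fun x : F => (-Complex.I) • x)
      (cr_Gm M G α (e s : Cfg N) (fderiv ℝ f z (e s)))
  · have hz : tenC.dv (adX b X) (z : Cfg N) = 0 := z.2.2
    have h := cr_T b M G g X (z : Cfg N) hz α (f z)
    have h2 : wBL b M G g α X (z : Cfg N) = wB b M G g α X z := rfl
    rw [h2, ← h, LinearMap.comp_apply, Submodule.subtype_apply]

end

/-- The complex structure at `X`. -/
def JX (b : ColorBasis N) (G : GammaNine) (X : Cfg N) : W16 N →ₗ[ℝ] W16 N :=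
  Fib892.Jm G (tenW N) (kc (actB b) X) (adX b X)

/-- The fibre projection at `X` on the slice `Zs b c`. -/
def PX (b : ColorBasis N) (c : Cfg N) (M : FermionRep N F) (G : GammaNine) (g : ℝ) (X : Cfg N)
    (f : Zs b c → F) : Zs b c → F :=
  PrK (Zs b c) (gam b g X) ((cr M).proj (JX b G X)) f

/-- **(F1) and (F2) at commuting `X` on the fixed slice**, literal, uniform constants. -/
theorem fib (b : ColorBasis N) (M : FermionRep N F) (G : GammaNine) {r B : ℝ} (hr0 : 0 < r)
    (hB : ActBound (actB b) B) (hB0 : 0 ≤ B) (R : ℝ) :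
    ∃ C : ℝ, 0 ≤ C ∧ ∀ c : Cfg N, ‖c‖ ≤ R → GapAt (actB b) c r →
      ∀ X ∈ Uk b c, Comc b X → kc (actB b) X = kc (actB b) c → B * ‖X - c‖ ≤ r / 2 →
      ∀ g : ℝ, 0 < g → ∀ (κ η : Type) [Fintype κ] [Fintype η]
        (v : OrthonormalBasis κ ℝ (Zs b c)) (t : OrthonormalBasis η ℝ (Tn (actB b) c))
        (f : Zs b c → F), ContDiff ℝ 2 f → HasCompactSupport f →
        (F1b581.Dn volume v g f ≤ C * (F1b581.SB b c M G v t g X f + g * ∫ z, ‖f z‖ ^ 2)) ∧
        (g * ∫ z, ‖f z - PX b c M G g X f z‖ ^ 2 ≤ C * F1b581.SB b c M G v t g X f) :=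
  fib_param M G (tenW N) (cr M) hr0 hB hB0 fun X _ _ e g α f z => chg_eq b M G X e g α f z

end Crest.Agent.R330.Transp5491
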