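import Crest.Agent.R330.Chan_441
import Crest.Agent.R330.ChSum_718

/-!
# Row 330: the direct sum of the channels (helper879)

* `isLim_sum` : the limit side of the sum.
* `isChan_sum` : the trial side of the sum.
* `capAnn_sum` : capture for the sum from capture for the family.
* `sysAll_of` : `ChanAll N → SysAll N`.
-/

set_option autoImplicit false

open MeasureTheory Filter Topology Crest.MathPhysics.MatrixQM
open scoped ContDiff InnerProductSpace ENNReal

noncomputable section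

namespace Crest.Agent.R330.TrialSum879

open Crest.Agent.R330.Defs478 Crest.Agent.R330.Top478 Crest.Agent.R330.Sec478
  Crest.Agent.R330.TrialSys796 Crest.Agent.R330.Chan441
  Crest.Agent.R330.ChSum718

/-! ## the limit side -/

section lim

variable {ι : Type} [Fintype ι] {L X : ι → Type} [∀ i, NormedAddCommGroup (L i)]
  [∀ i, InnerProductSpace ℂ (L i)] [∀ i, AddCommGroup (X i)] [∀ i, Module ℂ (X i)]

/-- The amplitudes of the sum. -/
def eS (e : ∀ i, X i →ₗ[ℂ] L i) : (∀ i, X i) →ₗ[ℂ] PiLp 2 L where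
  toFun χ := WithLp.toLp 2 fun i => e i (χ i)
  map_add' χ χ' := by
    ext i
    simp
  map_smul' c χ := by
    ext i
    simp

/-- A family of linear maps acts on the product. -/
def piM (A : ∀ i, X i →ₗ[ℂ] X i) : (∀ i, X i) →ₗ[ℂ] (∀ i, X i) where
  toFun χ i := A i (χ i)
  map_add' χ χ' := by
    funext i
    simp
  map_smul' c χ := by
    funext i
    simp

omit [Fintype ι] in
theorem eS_apply (e : ∀ i, X i →ₗ[ℂ] L i) (χ : ∀ i, X i) (i : ι) : eS e χ i = e i (χ i) := rfl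

omit [Fintype ι] in
theorem piM_apply (A : ∀ i, X i →ₗ[ℂ] X i) (χ : ∀ i, X i) (i : ι) : piM A χ i = A i (χ i) := rfl

omit [∀ i, InnerProductSpace ℂ (L i)] in
theorem norm_sq_pi (f : PiLp 2 L) : ‖f‖ ^ 2 = ∑ i, ‖f i‖ ^ 2 := PiLp.norm_sq_eq_of_L2 L f

omit [∀ i, InnerProductSpace ℂ (L i)] in
theorem norm_le_of {f : PiLp 2 L} {ε : ℝ} (hε : 0 ≤ ε)
    (h : ∀ i, ‖f i‖ ≤ ε / (Fintype.card ι + 1)) : ‖f‖ ≤ ε := by
  have hc : (0 : ℝ) < Fintype.card ι + 1 := by positivity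
  have hn : (0 : ℝ) ≤ Fintype.card ι := by positivity
  refine abs_le_of_sq_le_sq' ?_ hε |>.2
  rw [norm_sq_pi]
  calc ∑ i, ‖f i‖ ^ 2 ≤ ∑ _i : ι, (ε / (Fintype.card ι + 1)) ^ 2 :=
        Finset.sum_le_sum fun i _ => pow_le_pow_left₀ (norm_nonneg _) (h i) 2
    _ = (Fintype.card ι : ℝ) * (ε / (Fintype.card ι + 1)) ^ 2 := by
        rw [Finset.sum_const, Finset.card_univ, nsmul_eq_mul]
    _ ≤ ε ^ 2 := by
        rw [div_pow, mul_div_assoc', div_le_iff₀ (by positivity), mul_comm]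
        refine mul_le_mul_of_nonneg_left ?_ (sq_nonneg _)
        nlinarith

theorem inner_single [DecidableEq ι] (e : ∀ i, X i →ₗ[ℂ] L i) (i : ι) (χ : X i) (f : PiLp 2 L) :
    ⟪eS e (Pi.single i χ), f⟫_ℂ = ⟪e i χ, f i⟫_ℂ := by
  rw [PiLp.inner_apply, Finset.sum_eq_single i]
  · simp [eS_apply]
  · intro j _ hj
    simp [eS_apply, Pi.single_eq_of_ne hj]
  · intro hi
    exact absurd (Finset.mem_univ i) hi

omit [Fintype ι] in
theorem piM_single [DecidableEq ι] (A : ∀ i, X i →ₗ[ℂ] X i) (i : ι) (χ : X i) :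
    piM A (Pi.single i χ) = Pi.single i (A i χ) := by
  funext j
  by_cases hj : j = i
  · subst hj
    simp [piM_apply]
  · simp [piM_apply, Pi.single_eq_of_ne hj]

variable {e : ∀ i, X i →ₗ[ℂ] L i} {D : ∀ i, ℝ → Fin 16 → X i →ₗ[ℂ] X i}
  {W : ∀ i, (ℝ → ℝ) → X i →ₗ[ℂ] X i} {K0 : ∀ i, Submodule ℂ (L i)}

omit [Fintype ι] in
theorem dense_eS (h : ∀ i, DenseRange (e i)) : DenseRange (eS e) := by
  have h1 : DenseRange (Pi.map fun i => (e i : X i → L i)) := DenseRange.piMap h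
  have h2 : (eS e : (∀ i, X i) → PiLp 2 L) =
      (PiLp.homeomorph 2 L).symm ∘ Pi.map fun i => (e i : X i → L i) := rfl
  rw [h2]
  exact (PiLp.homeomorph 2 L).symm.surjective.denseRange.comp h1
    (PiLp.homeomorph 2 L).symm.continuous

omit [∀ i, InnerProductSpace ℂ (L i)] in
theorem sep_pi (h : ∀ i, TopologicalSpace.SeparableSpace (L i)) :
    TopologicalSpace.SeparableSpace (PiLp 2 L) :=
  (PiLp.homeomorph 2 L).symm.surjective.denseRange.separableSpace
    (PiLp.homeomorph 2 L).symm.continuous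

/-- The zero modes of the sum. -/
theorem isFree_sum {D1 : ∀ i, Fin 16 → X i →ₗ[ℂ] X i} (h : ∀ i, IsFree (e i) (D1 i) (K0 i) 1) :
    IsFree (eS e) (fun α => piM fun i => D1 i α) (piSub K0) (Fintype.card ι) where
  rank := by
    have h1 : ∀ i, Module.finrank ℂ (K0 i) = 1 := fun i => by
      rw [Module.finrank, (h i).rank]
      simp
    have h2 : ∀ i, FiniteDimensional ℂ (K0 i) := fun i =>
      FiniteDimensional.of_finrank_pos (by rw [h1 i]; exact one_pos)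
    have h3 : FiniteDimensional ℂ (piSub K0) :=
      LinearEquiv.finiteDimensional (piSubEquiv K0).symm
    rw [← Module.finrank_eq_rank, finrank_piSub_one h1]
  uniq f hf := by
    classical
    intro i
    refine (h i).uniq (f i) fun χ α => ?_
    have h1 := hf (Pi.single i χ) α
    rwa [piM_single, inner_single] at h1
  approx f hf ε hε := by
    have hc : (0 : ℝ) < Fintype.card ι + 1 := by positivity
    choose χ h1 h2 using fun i => (h i).approx (f i) (hf i) (ε / (Fintype.card ι + 1))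
      (by positivity)
    exact ⟨χ, norm_le_of hε.le h1, fun α => norm_le_of hε.le fun i => h2 i α⟩

/-- **The limit side of the sum.** -/
theorem isLim_sum (h : ∀ i, IsLim (e i) (D i) (W i) (K0 i) 1) :
    IsLim (eS e) (fun m α => piM fun i => D i m α) (fun w => piM fun i => W i w) (piSub K0)
      (Fintype.card ι) where
  dense := dense_eS fun i => (h i).dense
  sep := sep_pi fun i => (h i).sep
  symm m α χ χ' := by
    rw [PiLp.inner_apply, PiLp.inner_apply]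
    exact Finset.sum_congr rfl fun i _ => (h i).symm m α (χ i) (χ' i)
  sq α β χ := by
    funext i
    exact (h i).sq α β (χ i)
  ws f k hk ε hε := by
    classical
    have hc : (0 : ℝ) < Fintype.card ι + 1 := by positivity
    have h0 : ∀ i, ∀ χ α, ⟪e i (D i 0 α χ), f i⟫_ℂ = ⟪e i χ, k α i⟫_ℂ := fun i χ α => by
      have h1 := hk (Pi.single i χ) α
      rwa [piM_single, inner_single, inner_single] at h1
    choose χ h1 h2 using fun i => (h i).ws (f i) (fun α => k α i) (h0 i)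
      (ε / (Fintype.card ι + 1)) (by positivity)
    exact ⟨χ, norm_le_of hε.le h1, fun α => norm_le_of hε.le fun i => h2 i α⟩
  hardy w hw hw1 χ := by
    have h1 : ∀ α, ‖eS e (piM (fun i => D i 0 α) χ)‖ ^ 2 = ∑ i, ‖e i (D i 0 α (χ i))‖ ^ 2 :=
      fun α => norm_sq_pi _
    have h2 : ‖eS e (piM (fun i => W i w) χ)‖ ^ 2 = ∑ i, ‖e i (W i w (χ i))‖ ^ 2 :=
      norm_sq_pi _
    simp only [h1]
    rw [h2, Finset.sum_comm, Finset.mul_sum, Finset.mul_sum]
    exact Finset.sum_le_sum fun i _ => (h i).hardy w hw hw1 (χ i)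
  free := isFree_sum fun i => (h i).free

end lim

/-! ## the trial side -/

section trial

variable {N : ℕ} {F : Type} [NormedAddCommGroup F] [InnerProductSpace ℂ F]
  [FiniteDimensional ℂ F] {b : ColorBasis N} {M : FermionRep N F} {R : GaugeAction b M}
  {G : GammaNine}

variable {ι : Type} [Fintype ι] {L X : ι → Type} [∀ i, NormedAddCommGroup (L i)]
  [∀ i, InnerProductSpace ℂ (L i)] [∀ i, AddCommGroup (X i)] [∀ i, Module ℂ (X i)]

/-- The trial states of the sum. -/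
def TS (T : ∀ i, ℝ → X i → Cfg N → F) (g : ℝ) (χ : ∀ i, X i) (x : Cfg N) : F :=
  ∑ i, T i g (χ i) x

variable {e : ∀ i, X i →ₗ[ℂ] L i} {D : ∀ i, ℝ → Fin 16 → X i →ₗ[ℂ] X i}
  {W : ∀ i, (ℝ → ℝ) → X i →ₗ[ℂ] X i} {T : ∀ i, ℝ → X i → Cfg N → F}

omit [∀ i, AddCommGroup (X i)] [∀ i, Module ℂ (X i)] in
theorem core_TS (h : ∀ i χ, ∀ᶠ g in atTop, IsCoreVec b R (T i g χ)) (χ : ∀ i, X i) :
    ∀ᶠ g in atTop, IsCoreVec b R (TS T g χ) := by
  filter_upwards [eventually_all.2 fun i => h i (χ i)] with g hg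
  exact sum_core _ fun i _ => hg i

omit [∀ i, AddCommGroup (X i)] [∀ i, Module ℂ (X i)] in
theorem inner_TS {g : ℝ} {χ χ' : ∀ i, X i} (h1 : ∀ i, IsCoreVec b R (T i g (χ i)))
    (h2 : ∀ i, IsCoreVec b R (T i g (χ' i))) :
    ∫ x, ⟪TS T g χ x, TS T g χ' x⟫_ℂ =
      ∑ i, ∑ j, ∫ x, ⟪T i g (χ i) x, T j g (χ' j) x⟫_ℂ := by
  have h3 : ∀ x, ⟪TS T g χ x, TS T g χ' x⟫_ℂ =
      ∑ i, ∑ j, ⟪T i g (χ i) x, T j g (χ' j) x⟫_ℂ := fun x => by
    simp only [TS, sum_inner, inner_sum]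
    exact Finset.sum_comm
  simp only [h3]
  have h4 : ∀ i j, Integrable fun x => ⟪T i g (χ i) x, T j g (χ' j) x⟫_ℂ := fun i j =>
    core_inner_int (h1 i) (core_cont (h2 j))
  rw [integral_finsetSum _ fun i _ => integrable_finsetSum _ fun j _ => h4 i j]
  exact Finset.sum_congr rfl fun i _ => integral_finsetSum _ fun j _ => h4 i j

theorem gram_TS (hcore : ∀ i χ, ∀ᶠ g in atTop, IsCoreVec b R (T i g χ))
    (hiso : ∀ i χ χ', Tendsto (fun g => ∫ x, ⟪T i g χ x, T i g χ' x⟫_ℂ) atTop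
      (𝓝 ⟪e i χ, e i χ'⟫_ℂ))
    (horth : ∀ i j, i ≠ j → Orth (T i) (T j)) (χ χ' : ∀ i, X i) :
    Tendsto (fun g : ℝ => ∫ x, ⟪TS T g χ x, TS T g χ' x⟫_ℂ) atTop
      (𝓝 ⟪eS e χ, eS e χ'⟫_ℂ) := by
  classical
  have h1 : ⟪eS e χ, eS e χ'⟫_ℂ =
      ∑ i, ∑ j, if i = j then ⟪e i (χ i), e i (χ' i)⟫_ℂ else 0 := by
    rw [PiLp.inner_apply]
    simp [eS_apply]
  have h2 : Tendsto (fun g : ℝ => ∑ i, ∑ j, ∫ x, ⟪T i g (χ i) x, T j g (χ' j) x⟫_ℂ)
      atTop (𝓝 ⟪eS e χ, eS e χ'⟫_ℂ) := by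
    rw [h1]
    refine tendsto_finsetSum _ fun i _ => tendsto_finsetSum _ fun j _ => ?_
    by_cases hij : i = j
    · subst hij
      simpa using hiso i (χ i) (χ' i)
    · simpa [hij] using horth i j hij (χ i) (χ' j)
  refine h2.congr' ?_
  filter_upwards [eventually_all.2 fun i => hcore i (χ i),
    eventually_all.2 fun i => hcore i (χ' i)] with g hg hg'
  exact (inner_TS hg hg').symm

theorem dual_TS {D1 : ∀ i, Fin 16 → X i →ₗ[ℂ] X i} {m : ℝ}
    (hcore : ∀ i χ, ∀ᶠ g in atTop, IsCoreVec b R (T i g χ))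
    (hd : ∀ i χ α, ∀ ε : ℝ, 0 < ε → ∀ᶠ g in atTop, ∀ φ : Cfg N → F, IsCoreVec b R φ →
      ‖∫ x, ⟪φ x, dcharge b M G g m α (T i g χ) x - T i g (D1 i α χ) x⟫_ℂ‖ ≤
        ε * Real.sqrt (TrialSys796.En b M G g m φ))
    (χ : ∀ i, X i) (α : Fin 16) (ε : ℝ) (hε : 0 < ε) :
    ∀ᶠ g : ℝ in atTop, ∀ φ : Cfg N → F, IsCoreVec b R φ →
      ‖∫ x, ⟪φ x, dcharge b M G g m α (TS T g χ) x - TS T g (piM (fun i => D1 i α) χ) x⟫_ℂ‖ ≤
        ε * Real.sqrt (TrialSys796.En b M G g m φ) := by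
  have hc : (0 : ℝ) < Fintype.card ι + 1 := by positivity
  have h1 : ∀ i, ∀ᶠ g : ℝ in atTop, ∀ φ : Cfg N → F, IsCoreVec b R φ →
      ‖∫ x, ⟪φ x, dcharge b M G g m α (T i g (χ i)) x - T i g (D1 i α (χ i)) x⟫_ℂ‖ ≤
        ε / (Fintype.card ι + 1) * √(TrialSys796.En b M G g m φ) := fun i =>
    hd i (χ i) α _ (by positivity)
  filter_upwards [eventually_all.2 h1, eventually_all.2 fun i => hcore i (χ i),
    eventually_all.2 fun i => hcore i (D1 i α (χ i))] with g hg hg1 hg2 φ hφ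
  have h2 : ∀ x, ⟪φ x, dcharge b M G g m α (TS T g χ) x -
      TS T g (piM (fun i => D1 i α) χ) x⟫_ℂ =
      ∑ i, ⟪φ x, dcharge b M G g m α (T i g (χ i)) x - T i g (D1 i α (χ i)) x⟫_ℂ := by
    intro x
    have h3 : dcharge b M G g m α (TS T g χ) x =
        ∑ i, dcharge b M G g m α (T i g (χ i)) x :=
      dcharge_sum _ (fun i _ => cv_diff (hg1 i)) g m α x
    rw [h3]
    change ⟪φ x, ∑ i, _ - ∑ i, T i g (D1 i α (χ i)) x⟫_ℂ = _
    rw [← Finset.sum_sub_distrib, inner_sum]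
  simp only [h2]
  have h4 : ∀ i, Integrable fun x => ⟪φ x, dcharge b M G g m α (T i g (χ i)) x -
      T i g (D1 i α (χ i)) x⟫_ℂ := fun i => core_inner_int hφ
    ((continuous_dcharge b M G g m α (cv_c1 (hg1 i))).sub (core_cont (hg2 i)))
  rw [integral_finsetSum _ fun i _ => h4 i]
  calc ‖∑ i, ∫ x, ⟪φ x, dcharge b M G g m α (T i g (χ i)) x - T i g (D1 i α (χ i)) x⟫_ℂ‖
      ≤ ∑ _i : ι, ε / (Fintype.card ι + 1) * √(TrialSys796.En b M G g m φ) :=
        (norm_sum_le _ _).trans (Finset.sum_le_sum fun i _ => hg i φ hφ)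
    _ = (Fintype.card ι : ℝ) / (Fintype.card ι + 1) *
        (ε * √(TrialSys796.En b M G g m φ)) := by
        rw [Finset.sum_const, Finset.card_univ, nsmul_eq_mul]
        ring
    _ ≤ 1 * (ε * √(TrialSys796.En b M G g m φ)) := by
        refine mul_le_mul_of_nonneg_right ?_ (by positivity)
        rw [div_le_one hc]
        linarith
    _ = _ := one_mul _

omit [InnerProductSpace ℂ F] [FiniteDimensional ℂ F] [∀ i, AddCommGroup (X i)]
  [∀ i, Module ℂ (X i)] in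
theorem supp_TS (h : ∀ i χ, ∃ r ρ : ℝ, 0 < r ∧ ∀ᶠ g in atTop, ∀ x, T i g χ x ≠ 0 →
    r ≤ ‖x‖ ∧ ‖x‖ ≤ ρ) (χ : ∀ i, X i) :
    ∃ r ρ : ℝ, 0 < r ∧ ∀ᶠ g in atTop, ∀ x, TS T g χ x ≠ 0 → r ≤ ‖x‖ ∧ ‖x‖ ≤ ρ := by
  choose r ρ hr h1 using fun i => h i (χ i)
  have h2 : ∀ i, ∀ᶠ δ : ℝ in 𝓝[>] 0, δ ≤ r i := fun i => by
    filter_upwards [Ioo_mem_nhdsGT (hr i)] with δ hδ using hδ.2.le
  obtain ⟨δ, h3, h4⟩ := ((eventually_all.2 h2).and self_mem_nhdsWithin).exists
  obtain ⟨κ, h5⟩ := (eventually_all.2 fun i => eventually_ge_atTop (ρ i)).exists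
  refine ⟨δ, κ, h4, ?_⟩
  filter_upwards [eventually_all.2 h1] with g hg x hx
  obtain ⟨i, -, hi⟩ := Finset.exists_ne_zero_of_sum_ne_zero hx
  exact ⟨(h3 i).trans (hg i x hi).1, (hg i x hi).2.trans (h5 i)⟩

omit [InnerProductSpace ℂ F] [FiniteDimensional ℂ F] in
theorem int_sq_sum_le {v : ι → Cfg N → F} (hv : ∀ i, Integrable fun x => ‖v i x‖ ^ 2) :
    ∫ x, ‖∑ i, v i x‖ ^ 2 ≤ (Fintype.card ι : ℝ) * ∑ i, ∫ x, ‖v i x‖ ^ 2 := by
  rw [← integral_finsetSum _ fun i _ => hv i, ← integral_const_mul]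
  refine integral_mono_of_nonneg (Eventually.of_forall fun x => by positivity)
    ((integrable_finsetSum _ fun i _ => hv i).const_mul _) (Eventually.of_forall fun x => ?_)
  refine (pow_le_pow_left₀ (norm_nonneg _) (norm_sum_le _ _) 2).trans ?_
  have h6 := sq_sum_le_card_mul_sum_sq (s := (Finset.univ : Finset ι)) (f := fun i => ‖v i x‖)
  rwa [Finset.card_univ] at h6

theorem core_rad_int {φ ψ : Cfg N → F} (hφ : IsCoreVec b R φ) (hψ : IsCoreVec b R ψ)
    {w : Cfg N → ℂ} (hw : Continuous w) : Integrable fun x => ‖φ x - w x • ψ x‖ ^ 2 := by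
  have hs : HasCompactSupport (φ - fun x => w x • ψ x) := hφ.2.1.sub hψ.2.1.smul_left
  have hc : Continuous (φ - fun x => w x • ψ x) :=
    (core_cont hφ).sub (hw.smul (core_cont hψ))
  have h1 : HasCompactSupport fun x => ‖(φ - fun x => w x • ψ x) x‖ ^ 2 :=
    hs.norm.comp_left (g := fun t : ℝ => t ^ 2) (by simp)
  exact (hc.norm.pow 2).integrable_of_hasCompactSupport h1

theorem rad_TS (hcore : ∀ i χ, ∀ᶠ g in atTop, IsCoreVec b R (T i g χ))
    {w : ℝ → ℝ} (hw : ContDiff ℝ ∞ w) {A : ∀ i, X i →ₗ[ℂ] X i}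
    (h : ∀ i χ, Tendsto (fun g =>
      ∫ x, ‖T i g (A i χ) x - ((w (‖x‖ ^ 2) : ℝ) : ℂ) • T i g χ x‖ ^ 2) atTop (𝓝 0))
    (χ : ∀ i, X i) :
    Tendsto (fun g => ∫ x, ‖TS T g (piM A χ) x - ((w (‖x‖ ^ 2) : ℝ) : ℂ) • TS T g χ x‖ ^ 2)
      atTop (𝓝 0) := by
  have hlim : Tendsto (fun g => (Fintype.card ι : ℝ) * ∑ i,
      ∫ x, ‖T i g (A i (χ i)) x - ((w (‖x‖ ^ 2) : ℝ) : ℂ) • T i g (χ i) x‖ ^ 2)
      atTop (𝓝 0) := by
    have h1 : Tendsto (fun g => (Fintype.card ι : ℝ) * ∑ i,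
      ∫ x, ‖T i g (A i (χ i)) x - ((w (‖x‖ ^ 2) : ℝ) : ℂ) • T i g (χ i) x‖ ^ 2)
      atTop (𝓝 ((Fintype.card ι : ℝ) * ∑ _i : ι, (0 : ℝ))) :=
      (tendsto_finsetSum _ fun i _ => h i (χ i)).const_mul _
    rwa [Finset.sum_const_zero, mul_zero] at h1
  have h5 : ∀ g x, TS T g (piM A χ) x - ((w (‖x‖ ^ 2) : ℝ) : ℂ) • TS T g χ x =
      ∑ i, (T i g (A i (χ i)) x - ((w (‖x‖ ^ 2) : ℝ) : ℂ) • T i g (χ i) x) := fun g x => by
    rw [Finset.sum_sub_distrib, ← Finset.smul_sum]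
    rfl
  refine squeeze_zero' (Eventually.of_forall fun g => integral_nonneg fun x => sq_nonneg _) ?_
    hlim
  filter_upwards [eventually_all.2 fun i => hcore i (χ i),
    eventually_all.2 fun i => hcore i (A i (χ i))] with g hg hg'
  have hwc : Continuous fun x : Cfg N => ((w (‖x‖ ^ 2) : ℝ) : ℂ) :=
    Complex.continuous_ofReal.comp (hw.continuous.comp (continuous_norm.pow 2))
  simp only [h5]
  exact int_sq_sum_le fun i => core_rad_int (hg' i) (hg i) hwc

/-- **The trial side of the sum.** -/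
theorem isChan_sum (h : ∀ i, IsChan b M R G (e i) (D i) (W i) (T i))
    (horth : ∀ i j, i ≠ j → Orth (T i) (T j)) :
    IsChan b M R G (eS e) (fun m α => piM fun i => D i m α) (fun w => piM fun i => W i w)
      (TS T) where
  core := core_TS fun i => (h i).core
  add g χ χ' := by
    funext x
    change ∑ i, T i g (χ i + χ' i) x = ∑ i, T i g (χ i) x + ∑ i, T i g (χ' i) x
    rw [← Finset.sum_add_distrib]
    exact Finset.sum_congr rfl fun i _ => by rw [(h i).add]; rfl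
  smul g c χ := by
    funext x
    change ∑ i, T i g (c • χ i) x = c • ∑ i, T i g (χ i) x
    rw [Finset.smul_sum]
    exact Finset.sum_congr rfl fun i _ => by rw [(h i).smul]; rfl
  supp := supp_TS fun i => (h i).supp
  iso := gram_TS (fun i => (h i).core) (fun i => (h i).iso) horth
  dual m hm χ α ε hε := dual_TS (fun i => (h i).core) (fun i => (h i).dual m hm) χ α ε hε
  rad w hw χ := rad_TS (fun i => (h i).core) hw (fun i => (h i).rad w hw) χ

omit [FiniteDimensional ℂ F] in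
theorem TS_single [DecidableEq ι] (hs : ∀ i g (c : ℂ) χ, T i g (c • χ) = c • T i g χ) (g : ℝ)
    (i : ι) (χ : X i) : TS T g (Pi.single i χ) = T i g χ := by
  funext x
  rw [TS, Finset.sum_eq_single i]
  · simp
  · intro j _ hj
    rw [Pi.single_eq_of_ne hj]
    have h1 := hs j g 0 0
    rw [zero_smul, zero_smul] at h1
    rw [h1]
    rfl
  · intro hi
    exact absurd (Finset.mem_univ i) hi

/-- **Capture for the sum.** -/
theorem capAnn_sum {m : ℝ} (hs : ∀ i g (c : ℂ) χ, T i g (c • χ) = c • T i g χ)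
    (h : CapFam b M R G m T) : CapAnn b M R G m (TS T) := by
  classical
  intro g φ C hg hφ hE hT
  refine h g φ C hg hφ hE fun i χ => ?_
  have h1 := hT (Pi.single i χ)
  simpa only [TS_single hs] using h1

end trial

/-- **The direct sum of the channels.** -/
theorem sysAll_of {N : ℕ} (h : ChanAll N) : SysAll N := by
  intro F _ _ _ _ b M R G
  obtain ⟨ι, hι, C, hcard, horth, h0, h1⟩ := h F b M R G
  refine ⟨PiLp 2 fun i => (C i).L, inferInstance, inferInstance, inferInstance,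
    ∀ i, (C i).X, inferInstance, inferInstance, eS fun i => (C i).e,
    fun m α => piM fun i => (C i).D m α, fun w => piM fun i => (C i).W w,
    TS fun i => (C i).T, piSub fun i => (C i).K0, ?_, ?_, ?_, ?_⟩
  · rw [← hcard]
    exact isLim_sum fun i => (C i).lim
  · exact isChan_sum (fun i => (C i).chan) horth
  · exact capAnn_sum (fun i => (C i).chan.smul) h0
  · exact capAnn_sum (fun i => (C i).chan.smul) h1

end Crest.Agent.R330.TrialSum879

end
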