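import Crest.Agent.R330.VacSec4_255
import Crest.Agent.R330.Bind6_839

/-!
# Row 330, S8 / T7 (helper331): the vacuum section commutes with the parity of the heavy fermions

* `refM K` : matrix of the reflection of colour space in `K` (spinor index untouched).
* `par_through` : an operator `P` anticommuting with `θ_β(u)`, `u ∈ Kᗮ`, and commuting with
  `θ_β(u)`, `u ∈ K`, satisfies `P θ_q = lc θ (refM K) q P`.
* `Op_refM` : `refM K * Op b (pa J r) * (refM K)ᵀ = Op b (pa J r)` if the elements of `K` vanish at
  the heavy pairs of `r`.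
* `Wop_par` : `P (Wop r f) = Wop r (P f)`.
-/

set_option autoImplicit false
set_option linter.unusedSectionVars false
set_option linter.style.haveILetI false

noncomputable section

open scoped InnerProductSpace Matrix
open Crest.MathPhysics.MatrixQM
open Crest.Agent.R330.VacSec255 Crest.Agent.R330.LS839 Crest.Agent.R330.Bind6839

namespace Crest.Agent.R330.UPar331

variable {N : ℕ} {F : Type*} [NormedAddCommGroup F] [InnerProductSpace ℂ F]
  [FiniteDimensional ℂ F] {b : ColorBasis N} {G : GammaNine} {M : FermionRep N F}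

/-- The projection onto `ℝ¹⁶ ⊗ K` as a matrix. -/
def prM (K : Submodule ℝ (Colg N)) : Matrix (IX N) (IX N) ℂ :=
  Matrix.of fun p q => if p.1 = q.1 then
    (((K.starProjection (EuclideanSpace.single q.2 (1 : ℝ)) : Colg N) p.2 : ℝ) : ℂ) else 0

/-- The reflection in `ℝ¹⁶ ⊗ K` as a matrix. -/
def refM (K : Submodule ℝ (Colg N)) : Matrix (IX N) (IX N) ℂ := (2 : ℂ) • prM K - 1

theorem prM_transpose (K : Submodule ℝ (Colg N)) : (prM K)ᵀ = prM K := by
  ext p q
  have h : ∀ A B : Fin (N ^ 2 - 1),
      (K.starProjection (EuclideanSpace.single A (1 : ℝ)) : Colg N) B =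
      (K.starProjection (EuclideanSpace.single B (1 : ℝ)) : Colg N) A := by
    intro A B
    have h1 := Submodule.inner_starProjection_left_eq_right K
      (EuclideanSpace.single A (1 : ℝ) : Colg N) (EuclideanSpace.single B (1 : ℝ))
    rw [EuclideanSpace.inner_single_right, EuclideanSpace.inner_single_left] at h1
    simpa using h1
  simp only [Matrix.transpose_apply, prM, Matrix.of_apply]
  by_cases hpq : p.1 = q.1
  · rw [if_pos hpq, if_pos hpq.symm, h]
  · rw [if_neg hpq, if_neg (Ne.symm hpq)]

theorem thv_single (M : FermionRep N F) (q : IX N) :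
    thv M q.1 (EuclideanSpace.single q.2 (1 : ℝ)) = M.θ q.1 q.2 := by
  unfold thv
  rw [Finset.sum_eq_single q.2]
  · simp
  · intro B _ hB
    have : (EuclideanSpace.single q.2 (1 : ℝ) : Colg N) B = 0 := by simp [hB]
    rw [this]
    simp
  · simp

/-- **Transport of the generators by a heavy parity.** -/
theorem par_through {K : Submodule ℝ (Colg N)} {P : F →ₗ[ℂ] F}
    (h1 : ∀ β, ∀ u ∈ Kᗮ, ∀ f, P (thv M β u f) = -thv M β u (P f))
    (h2 : ∀ β, ∀ u ∈ K, ∀ f, P (thv M β u f) = thv M β u (P f)) (q : IX N) :
    LinearMap.toContinuousLinearMap P * thC M q =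
      lc (thC M) (refM K) q * LinearMap.toContinuousLinearMap P := by
  ext f
  change P (M.θ q.1 q.2 f) = lc (thC M) (refM K) q (P f)
  set e : Colg N := EuclideanSpace.single q.2 (1 : ℝ) with he
  set x := K.starProjection e with hx
  have hxK : x ∈ K := Submodule.starProjection_apply_mem _ _
  have hyK : e - x ∈ Kᗮ := Submodule.sub_starProjection_mem_orthogonal _
  have hsub : ∀ u v : Colg N, ∀ f : F, thv M q.1 (u - v) f = thv M q.1 u f - thv M q.1 v f := by
    intro u v f
    unfold thv
    simp only [LinearMap.sum_apply, LinearMap.smul_apply, ← Finset.sum_sub_distrib, ← sub_smul]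
    refine Finset.sum_congr rfl fun A _ => ?_
    congr 1
    simp
  have e1 : P (M.θ q.1 q.2 f) = thv M q.1 x (P f) - thv M q.1 (e - x) (P f) := by
    rw [← thv_single, ← he]
    have : thv M q.1 e f = thv M q.1 x f + thv M q.1 (e - x) f := by rw [hsub]; abel
    rw [this, map_add, h2 _ _ hxK, h1 _ _ hyK, ← sub_eq_add_neg]
  rw [e1, hsub]
  have e2 : thv M q.1 e (P f) = thC M q (P f) := by rw [he, thv_single]; rfl
  have e3 : lc (thC M) (prM K) q (P f) = thv M q.1 x (P f) := by
    unfold lc thv
    rw [_root_.sum_apply, Fintype.sum_prod_type, LinearMap.sum_apply, Finset.sum_eq_single q.1]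
    · refine Finset.sum_congr rfl fun B _ => ?_
      simp only [prM, Matrix.of_apply, if_true]
      rfl
    · intro β _ hβ
      refine Finset.sum_eq_zero fun B _ => ?_
      simp only [prM, Matrix.of_apply, if_neg hβ, zero_smul]
      rfl
    · simp
  rw [e2, refM, lc_sub, lc_smul, lc_one, _root_.sub_apply, _root_.smul_apply, e3]
  module

/-- The elements of `K` vanish at the heavy pairs of `r`. -/
def Lt (b : ColorBasis N) (K : Submodule ℝ (Colg N)) (r : Fin N → E9) : Prop :=
  ∀ u ∈ K, ∀ a d, r a ≠ r d → SlA314.cm b u.ofLp a d = 0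

theorem Op_prM {K : Submodule ℝ (Colg N)} {r : Fin N → E9} (hK : Lt b K r) {J : E9 → M16}
    (hJ : Good J) : Op b (pa J r) * prM K = 0 := by
  ext p q
  have h : Op b (pa J r) *ᵥ (fun s => prM K s q) = 0 := by
    refine Op_mulVec_light b fun a d => ?_
    by_cases had : r a = r d
    · left
      change J (r a - r d) = 0
      rw [had, sub_self, hJ.zero]
    · right
      intro β
      unfold cm
      by_cases hβ : β = q.1
      · have h1 := hK _ (Submodule.starProjection_apply_mem K
          (EuclideanSpace.single q.2 (1 : ℝ))) a d had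
        rw [← h1]
        simp only [prM, Matrix.of_apply, hβ, if_true]
        rfl
      · simp only [prM, Matrix.of_apply, if_neg hβ, zero_smul, Finset.sum_const_zero]
        rfl
  exact congrFun h p

theorem Op_refM {K : Submodule ℝ (Colg N)} {r : Fin N → E9} (hK : Lt b K r) {J : E9 → M16}
    (hJ : Good J) : refM K * Op b (pa J r) * (refM K)ᵀ = Op b (pa J r) := by
  have h1 := Op_prM (b := b) hK hJ
  have h2 : prM K * Op b (pa J r) = 0 := by
    have h3 := congrArg Matrix.transpose h1
    rw [Matrix.transpose_mul, prM_transpose, pa_skew b hJ r, Matrix.mul_neg,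
      Matrix.transpose_zero, neg_eq_zero] at h3
    exact h3
  have h4 : (refM K)ᵀ = refM K := by
    rw [refM, Matrix.transpose_sub, Matrix.transpose_smul, prM_transpose, Matrix.transpose_one]
  rw [h4, refM, sub_mul, Matrix.smul_mul, h2, smul_zero, one_mul, zero_sub, Matrix.neg_mul,
    mul_sub, Matrix.mul_smul, h1, smul_zero, mul_one, zero_sub, neg_neg]

/-- **The section commutes with the parity of the heavy fermions.** -/
theorem Wop_par {K : Submodule ℝ (Colg N)} {r : Fin N → E9} (hK : Lt b K r) {P : F →ₗ[ℂ] F}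
    (h1 : ∀ β, ∀ u ∈ Kᗮ, ∀ f, P (thv M β u f) = -thv M β u (P f))
    (h2 : ∀ β, ∀ u ∈ K, ∀ f, P (thv M β u f) = thv M β u (P f)) (f : F) :
    P (Wop b G M r f) = Wop b G M r (P f) := by
  haveI : CompleteSpace F := FiniteDimensional.complete ℂ F
  have key : ∀ {J : E9 → M16}, Good J →
      LinearMap.toContinuousLinearMap P * W (thC M) (Op b (pa J r)) =
        W (thC M) (Op b (pa J r)) * LinearMap.toContinuousLinearMap P := by
    intro J hJ
    have h3 := W_through (par_through h1 h2) (Op b (pa J r))
    rwa [Op_refM hK hJ] at h3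
  have e1 : LinearMap.toContinuousLinearMap P * W1 b G M r =
      W1 b G M r * LinearMap.toContinuousLinearMap P := key (good_K1 G)
  have e2 : LinearMap.toContinuousLinearMap P * W2 b G M r =
      W2 b G M r * LinearMap.toContinuousLinearMap P := key (good_K2 G)
  have e3 : LinearMap.toContinuousLinearMap P * Wop b G M r =
      Wop b G M r * LinearMap.toContinuousLinearMap P := by
    rw [Wop, ← mul_assoc, e2, mul_assoc, e1, ← mul_assoc]
  exact congrArg (fun T : F →L[ℂ] F => T f) e3

end Crest.Agent.R330.UPar331
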