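import Crest.Agent.R330.VLowC_737
import Crest.Agent.R330.CoerCfg_87
import Crest.Agent.R330.Col_962
import Crest.Agent.R330.Gauge_406
import Crest.Agent.R330.SUgrp_596

/-!
# Row 330, section 5a (helper737): literal lower bound of the mass deformed potential

`VR b g x = ½ Σ_cyc |x_i/3 - g [x_{i+1}, x_{i+2}]|² + (1/72) Σ_{j ≥ 3} |x_j|²` (the part of
`V_{g,1}` without the other commutators), `Crit b g` its zero set.

* `VR_lower`   : `∃ c > 0, ∀ g > 0, ∀ x, c * infDist x (Crit b g)^2 ≤ VR b g x`;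
* `VR_orbit`   : near one orbit: `∃ c > 0, ∃ r > 0, ∀ g > 0, ∀ x₀ ∈ Crit b g, ∀ x,
  infDist x (orb b x₀) ≤ r / g → c * infDist x (orb b x₀)^2 ≤ VR b g x`;
* `orbit_isol` : `∃ r > 0, ∀ g > 0, ∀ x₀ x₁ ∈ Crit b g, infDist x₁ (orb b x₀) ≤ r / g → x₁ ∈ orb b x₀`;
* `crit_finite` : `Crit b 1` is a finite union of orbits; `isCompact_Crit`; `Crit_scale`.
-/

set_option autoImplicit false
set_option linter.unusedSectionVars false

open Metric Set Topology Filter Crest.MathPhysics.MatrixQM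
open scoped InnerProductSpace Pointwise

namespace Crest.Agent.R330.VLow737

noncomputable section

variable {N : ℕ} (b : ColorBasis N)

/-- The structure constants satisfy the generic hypotheses. -/
theorem isStr (b : ColorBasis N) : IsStr b.structConst where
  a12 A B C := Col962.f_swap12 b B A C
  a23 A B C := Col962.f_swap23 b A C B
  jac A B C D := Col962.jacobi b A B C D

/-- The part of the potential which vanishes exactly on the vacua. -/
def VR (g : ℝ) (x : Cfg N) : ℝ := 1 / 2 * CoerCfg87.Vcyc b g 1 x + 1 / 72 * CoerCfg87.Vhi x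

theorem sum_fin9 {M : Type*} [AddCommMonoid M] (h : Fin 9 → M) :
    ∑ i, h i = (h 0 + h 1 + h 2) + ∑ i : Fin 6, h ⟨i + 3, by omega⟩ := by
  rw [Fin.sum_univ_succ, Fin.sum_univ_succ, Fin.sum_univ_succ]
  simp only [add_assoc]
  rfl

theorem normsq_Res (x : Cfg N) : ‖Res b.structConst x‖ ^ 2 = 2 * VR b 1 x := by
  rw [tgt_normsq, sum_fin9]
  have h0 : ∀ i : Fin 9, (i : ℕ) < 3 → ‖Res b.structConst x i‖ ^ 2 =
      ∑ A, (1 * x (i, A) / 3 - 1 * CoerCfg87.br b (CoerCfg87.comp x (nx i))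
        (CoerCfg87.comp x (nx (nx i))) A) ^ 2 := by
    intro i hi
    rw [Res_apply, if_pos hi, EuclideanSpace.norm_sq_eq]
    refine Finset.sum_congr rfl fun A _ => ?_
    rw [Real.norm_eq_abs, sq_abs]
    congr 1
    rw [PiLp.sub_apply, PiLp.smul_apply, col_apply, brL_apply, smul_eq_mul]
    unfold CoerCfg87.br CoerCfg87.comp
    simp only [col_apply]
    ring
  have h1 : ∀ i : Fin 6, ‖Res b.structConst x (⟨i + 3, by omega⟩ : Fin 9)‖ ^ 2 =
      1 / 36 * ∑ A, (CoerCfg87.comp x ⟨i + 3, by omega⟩ A) ^ 2 := by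
    intro i
    rw [Res_apply, if_neg (by simp), EuclideanSpace.norm_sq_eq, Finset.mul_sum]
    refine Finset.sum_congr rfl fun A _ => ?_
    rw [Real.norm_eq_abs, sq_abs, PiLp.smul_apply, col_apply, smul_eq_mul]
    unfold CoerCfg87.comp
    ring
  rw [Finset.sum_congr rfl fun i _ => h1 i, h0 0 (by decide), h0 1 (by decide), h0 2 (by decide)]
  unfold VR CoerCfg87.Vcyc CoerCfg87.Vhi
  rw [Fin.sum_univ_three, ← Finset.mul_sum]
  have e : ∀ a c : ℝ, a + 1 / 36 * c = 2 * (1 / 2 * a + 1 / 72 * c) := fun a c => by ring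
  exact e _ _

theorem VR_nonneg (g : ℝ) (x : Cfg N) : 0 ≤ VR b g x := by
  unfold VR CoerCfg87.Vcyc CoerCfg87.Vhi
  positivity

theorem VR_scale {g : ℝ} (hg : 0 < g) (x : Cfg N) : VR b g x = (1 / g ^ 2) * VR b 1 (g • x) := by
  unfold VR
  have h1 : CoerCfg87.Vcyc b 1 1 (g • x) = g ^ 2 * CoerCfg87.Vcyc b g 1 x := by
    unfold CoerCfg87.Vcyc
    rw [Finset.mul_sum]
    refine Finset.sum_congr rfl fun i _ => ?_
    rw [Finset.mul_sum]
    refine Finset.sum_congr rfl fun A _ => ?_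
    have e : ∀ j, CoerCfg87.comp (g • x) j = fun B => g * CoerCfg87.comp x j B := fun j => rfl
    rw [e, e, e, CoerCfg87.br_smul_smul]
    ring
  have h2 : CoerCfg87.Vhi (g • x) = g ^ 2 * CoerCfg87.Vhi x := by
    unfold CoerCfg87.Vhi
    rw [Finset.mul_sum]
    refine Finset.sum_congr rfl fun i _ => ?_
    rw [Finset.mul_sum]
    refine Finset.sum_congr rfl fun A _ => ?_
    have e : CoerCfg87.comp (g • x) ⟨i + 3, by omega⟩ A =
      g * CoerCfg87.comp x ⟨i + 3, by omega⟩ A := rfl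
    rw [e]
    ring
  rw [h1, h2]
  field_simp

/-- The vacua at coupling `g`. -/
def Crit (g : ℝ) : Set (Cfg N) := {x | VR b g x = 0}

theorem Crit_one : Crit b 1 = Zs b.structConst := by
  ext x
  change VR b 1 x = 0 ↔ Res b.structConst x = 0
  have e : Res b.structConst x = 0 ↔ ‖Res b.structConst x‖ ^ 2 = 0 := by
    rw [pow_eq_zero_iff two_ne_zero, norm_eq_zero]
  rw [e, normsq_Res]
  constructor
  · intro h; rw [h, mul_zero]
  · intro h; linarith

theorem mem_Crit_iff {g : ℝ} (hg : 0 < g) (x : Cfg N) : x ∈ Crit b g ↔ g • x ∈ Crit b 1 := by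
  change VR b g x = 0 ↔ VR b 1 (g • x) = 0
  rw [VR_scale b hg]
  have : (1 : ℝ) / g ^ 2 ≠ 0 := by positivity
  rw [mul_eq_zero, or_iff_right this]

theorem Crit_scale {g : ℝ} (hg : 0 < g) : Crit b g = (fun x => g⁻¹ • x) '' Crit b 1 := by
  ext x
  rw [mem_Crit_iff b hg]
  constructor
  · intro h
    exact ⟨g • x, h, by simp [smul_smul, inv_mul_cancel₀ hg.ne']⟩
  · rintro ⟨y, hy, rfl⟩
    simpa [smul_smul, mul_inv_cancel₀ hg.ne'] using hy

theorem coer (hN : 0 < N) : Coer b.structConst := by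
  have hN' : (0 : ℝ) < N := by exact_mod_cast hN
  refine ⟨2 / (432 * (N : ℝ) ^ 3), by positivity, 2 * (1152 * (N : ℝ) ^ 10), fun x => ?_⟩
  have h := CoerCfg87.coercivity b hN one_pos x
  rw [one_pow, div_one] at h
  rw [normsq_Res]
  unfold VR
  have e : 2 / (432 * (N : ℝ) ^ 3) * ‖x‖ ^ 2 = 2 * (‖x‖ ^ 2 / (432 * (N : ℝ) ^ 3)) := by ring
  rw [e]
  linarith

theorem isCompact_Crit_one (hN : 0 < N) : IsCompact (Crit b 1) := by
  rw [Crit_one]
  exact isCompact_Zs (coer b hN)

theorem isCompact_Crit (hN : 0 < N) {g : ℝ} (hg : 0 < g) : IsCompact (Crit b g) := by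
  rw [Crit_scale b hg]
  exact (isCompact_Crit_one b hN).image (continuous_const_smul _)

/-! ### Flows -/

/-- The orbit of a configuration. -/
def orb (x : Cfg N) : Set (Cfg N) := range fun h => b.act h x

/-- The flow of a gauge direction. -/
theorem flow (ω : EuclideanSpace ℝ (Fin (N ^ 2 - 1))) (c : Cfg N) :
    b.act (Lift406.gSU b ω 0) c = c ∧
      HasDerivAt (fun t => b.act (Lift406.gSU b ω t) c) (gd b.structConst ω c) 0 := by
  refine ⟨by rw [Lift406.gSU_zero, Col962.act_one], ?_⟩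
  have h1 : ∀ t, b.act (Lift406.gSU b ω t) c = WithLp.toLp 2 fun p : Fin 9 × Fin (N ^ 2 - 1) =>
      NormedSpace.exp (t • Lift406.adL b ω) (fun B => c (p.1, B)) p.2 := by
    intro t
    ext p
    change b.act (Lift406.gSU b ω t) c p = _
    rw [Col962.act_apply]
    exact Lift406.adjMat_gSU_sum b ω t _ _
  have h2 : (fun t => b.act (Lift406.gSU b ω t) c) =
      fun t => WithLp.toLp 2 fun p : Fin 9 × Fin (N ^ 2 - 1) =>
      NormedSpace.exp (t • Lift406.adL b ω) (fun B => c (p.1, B)) p.2 := funext h1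
  rw [h2]
  have h3 : HasDerivAt (fun t : ℝ => NormedSpace.exp (t • Lift406.adL b ω))
      (Lift406.adL b ω) 0 := by
    have := hasDerivAt_exp_smul_const (𝕂 := ℝ) (Lift406.adL b ω) (0 : ℝ)
    simpa using this
  have h4 : ∀ v : Fin (N ^ 2 - 1) → ℝ, HasDerivAt
      (fun t : ℝ => NormedSpace.exp (t • Lift406.adL b ω) v) (Lift406.adL b ω v) 0 := by
    intro v
    have := h3.clm_apply (hasDerivAt_const (0 : ℝ) v)
    simpa using this
  have h5 : HasDerivAt (fun t : ℝ => fun p : Fin 9 × Fin (N ^ 2 - 1) =>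
      NormedSpace.exp (t • Lift406.adL b ω) (fun B => c (p.1, B)) p.2)
      (fun p => Lift406.adL b ω (fun B => c (p.1, B)) p.2) 0 := by
    rw [hasDerivAt_pi]
    intro p
    exact (hasDerivAt_pi.1 (h4 fun B => c (p.1, B))) p.2
  have h6 := ((PiLp.continuousLinearEquiv 2 ℝ
    (fun _ : Fin 9 × Fin (N ^ 2 - 1) => ℝ)).symm.toContinuousLinearMap.hasFDerivAt
      (x := fun p : Fin 9 × Fin (N ^ 2 - 1) =>
        NormedSpace.exp ((0 : ℝ) • Lift406.adL b ω) (fun B => c (p.1, B)) p.2)).comp_hasDerivAt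
        (0 : ℝ) h5
  have h7 : gd b.structConst ω c = (PiLp.continuousLinearEquiv 2 ℝ
      (fun _ : Fin 9 × Fin (N ^ 2 - 1) => ℝ)).symm.toContinuousLinearMap
      (fun p => Lift406.adL b ω (fun B => c (p.1, B)) p.2) := by
    ext p
    change brL b.structConst ω (col p.1 c) p.2 = Lift406.adL b ω (fun B => c (p.1, B)) p.2
    rw [brL_apply, Lift406.adL_apply]
    refine Finset.sum_congr rfl fun B _ => Finset.sum_congr rfl fun C _ => ?_
    rw [col_apply, Col962.f_cyc b p.2 B C]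
  rw [h7]
  exact h6

theorem flowInv_of {S : Set (Cfg N)} (hS : ∀ h, ∀ c ∈ S, b.act h c ∈ S) :
    FlowInv b.structConst S := fun ω c hc =>
  ⟨fun t => b.act (Lift406.gSU b ω t) c, (flow b ω c).1, (flow b ω c).2, fun _ => hS _ c hc⟩

/-- The bracket is equivariant. -/
theorem brL_act (h : Matrix.specialUnitaryGroup (Fin N) ℂ) (x y : Cfg N) (i j : Fin 9)
    (A : Fin (N ^ 2 - 1)) :
    brL b.structConst (col i (b.act h x)) (col j (b.act h y)) A =
      ∑ D, b.adjMat h A D * brL b.structConst (col i x) (col j y) D := by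
  simp only [brL_apply, col_apply, Col962.act_apply]
  have h1 : ∀ B C, b.structConst A B C * (∑ B', b.adjMat h B B' * x (i, B')) *
      (∑ C', b.adjMat h C C' * y (j, C')) =
      ∑ B', ∑ C', b.adjMat h B B' * b.adjMat h C C' * b.structConst B C A *
        (x (i, B') * y (j, C')) := by
    intro B C
    rw [mul_assoc, Finset.sum_mul_sum, Finset.mul_sum]
    refine Finset.sum_congr rfl fun B' _ => ?_
    rw [Finset.mul_sum]
    refine Finset.sum_congr rfl fun C' _ => ?_
    rw [Col962.f_cyc b A B C]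
    ring
  simp only [h1]
  have h2 : ∑ B, ∑ C, ∑ B', ∑ C', b.adjMat h B B' * b.adjMat h C C' * b.structConst B C A *
        (x (i, B') * y (j, C')) = ∑ B', ∑ C', (∑ B, ∑ C, b.adjMat h B B' * b.adjMat h C C' *
          b.structConst B C A) * (x (i, B') * y (j, C')) := by
    calc _ = ∑ B, ∑ B', ∑ C, ∑ C', b.adjMat h B B' * b.adjMat h C C' * b.structConst B C A *
        (x (i, B') * y (j, C')) := Finset.sum_congr rfl fun B _ => Finset.sum_comm
      _ = ∑ B', ∑ B, ∑ C, ∑ C', b.adjMat h B B' * b.adjMat h C C' * b.structConst B C A *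
        (x (i, B') * y (j, C')) := Finset.sum_comm
      _ = ∑ B', ∑ B, ∑ C', ∑ C, b.adjMat h B B' * b.adjMat h C C' * b.structConst B C A *
        (x (i, B') * y (j, C')) := Finset.sum_congr rfl fun B' _ =>
          Finset.sum_congr rfl fun B _ => Finset.sum_comm
      _ = ∑ B', ∑ C', ∑ B, ∑ C, b.adjMat h B B' * b.adjMat h C C' * b.structConst B C A *
        (x (i, B') * y (j, C')) := Finset.sum_congr rfl fun B' _ => Finset.sum_comm
      _ = _ := by simp only [Finset.sum_mul]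
  rw [h2]
  have h3 : ∀ B' C', (∑ B, ∑ C, b.adjMat h B B' * b.adjMat h C C' * b.structConst B C A) =
      ∑ D, b.structConst B' C' D * b.adjMat h A D := fun B' C' => Col962.adjMat_struct b h B' C' A
  simp only [h3]
  have h4 : ∑ B', ∑ C', (∑ D, b.structConst B' C' D * b.adjMat h A D) * (x (i, B') * y (j, C')) =
      ∑ D, ∑ B', ∑ C', b.adjMat h A D * (b.structConst D B' C' * x (i, B') * y (j, C')) := by
    calc _ = ∑ B', ∑ C', ∑ D, b.adjMat h A D * (b.structConst D B' C' * x (i, B') * y (j, C')) := by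
          refine Finset.sum_congr rfl fun B' _ => Finset.sum_congr rfl fun C' _ => ?_
          rw [Finset.sum_mul]
          refine Finset.sum_congr rfl fun D _ => ?_
          rw [← Col962.f_cyc b D B' C']
          ring
      _ = ∑ B', ∑ D, ∑ C', b.adjMat h A D * (b.structConst D B' C' * x (i, B') * y (j, C')) :=
          Finset.sum_congr rfl fun B' _ => Finset.sum_comm
      _ = _ := Finset.sum_comm
  rw [h4]
  simp only [Finset.mul_sum]

/-- The residual as a configuration. -/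
def resC (x : Cfg N) : Cfg N := WithLp.toLp 2 fun p => Res b.structConst x p.1 p.2

theorem resC_act (h : Matrix.specialUnitaryGroup (Fin N) ℂ) (x : Cfg N) :
    resC b (b.act h x) = b.act h (resC b x) := by
  ext ⟨i, A⟩
  rw [Col962.act_apply]
  change Res b.structConst (b.act h x) i A = ∑ B, b.adjMat h A B * Res b.structConst x i B
  rw [Res_apply, Res_apply]
  split_ifs with hi
  · rw [PiLp.sub_apply, PiLp.smul_apply, brL_act, col_apply, Col962.act_apply, smul_eq_mul,
      Finset.mul_sum, ← Finset.sum_sub_distrib]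
    refine Finset.sum_congr rfl fun B _ => ?_
    rw [PiLp.sub_apply, PiLp.smul_apply, col_apply, smul_eq_mul]
    ring
  · rw [PiLp.smul_apply, col_apply, Col962.act_apply, smul_eq_mul, Finset.mul_sum]
    refine Finset.sum_congr rfl fun B _ => ?_
    rw [PiLp.smul_apply, col_apply, smul_eq_mul]
    ring

theorem norm_resC (x : Cfg N) : ‖resC b x‖ ^ 2 = ‖Res b.structConst x‖ ^ 2 := by
  rw [normsq_eq_col, tgt_normsq]
  rfl

/-- The potential is invariant. -/
theorem VR_act_one (h : Matrix.specialUnitaryGroup (Fin N) ℂ) (x : Cfg N) :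
    VR b 1 (b.act h x) = VR b 1 x := by
  have h1 := normsq_Res b (b.act h x)
  have h2 := normsq_Res b x
  rw [← norm_resC] at h1 h2
  rw [resC_act, Col962.norm_act, h2] at h1
  linarith

theorem VR_act {g : ℝ} (hg : 0 < g) (h : Matrix.specialUnitaryGroup (Fin N) ℂ) (x : Cfg N) :
    VR b g (b.act h x) = VR b g x := by
  rw [VR_scale b hg, VR_scale b hg x, ← Col962.act_smul, VR_act_one]

theorem Crit_act {g : ℝ} (hg : 0 < g) (h : Matrix.specialUnitaryGroup (Fin N) ℂ) {x : Cfg N}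
    (hx : x ∈ Crit b g) : b.act h x ∈ Crit b g := by
  change VR b g (b.act h x) = 0
  rw [VR_act b hg]
  exact hx

theorem infDist_smul_inv {g : ℝ} (hg : 0 < g) (S : Set (Cfg N)) (x : Cfg N) :
    infDist x ((fun y => g⁻¹ • y) '' S) = g⁻¹ * infDist (g • x) S := by
  have h1 : (fun y : Cfg N => g⁻¹ • y) '' S = g⁻¹ • S := rfl
  have h2 : x = g⁻¹ • (g • x) := by rw [smul_smul, inv_mul_cancel₀ hg.ne', one_smul]
  conv_lhs => rw [h1, h2]
  rw [infDist_smul₀ (inv_ne_zero hg.ne'), norm_inv, Real.norm_of_nonneg hg.le]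

/-- **The global lower bound** (V4): the potential dominates the squared distance to the vacua,
with a constant independent of the coupling. -/
theorem VR_lower (hN : 0 < N) :
    ∃ c > 0, ∀ g : ℝ, 0 < g → ∀ x, c * infDist x (Crit b g) ^ 2 ≤ VR b g x := by
  obtain ⟨c, hc, h⟩ := lower_glob (isStr b) (coer b hN) (flowInv_of b fun h y hy => by
    rw [← Crit_one] at hy ⊢
    exact Crit_act b one_pos h hy)
  refine ⟨c / 2, by positivity, fun g hg x => ?_⟩
  have h1 := h (g • x)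
  rw [← Crit_one, normsq_Res] at h1
  rw [Crit_scale b hg, infDist_smul_inv hg, VR_scale b hg x, mul_pow, inv_pow]
  have h2 : c / 2 * infDist (g • x) (Crit b 1) ^ 2 ≤ VR b 1 (g • x) := by linarith
  calc c / 2 * ((g ^ 2)⁻¹ * infDist (g • x) (Crit b 1) ^ 2)
      = (1 / g ^ 2) * (c / 2 * infDist (g • x) (Crit b 1) ^ 2) := by ring
    _ ≤ _ := mul_le_mul_of_nonneg_left h2 (by positivity)

theorem mem_orb_self (x : Cfg N) : x ∈ orb b x := ⟨1, Col962.act_one b x⟩

theorem continuous_adjMat (A B : Fin (N ^ 2 - 1)) :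
    Continuous fun h : Matrix.specialUnitaryGroup (Fin N) ℂ => b.adjMat h A B := by
  unfold ColorBasis.adjMat
  refine Complex.continuous_re.comp ?_
  refine Continuous.matrix_trace ?_
  exact (((continuous_const.matrix_mul continuous_subtype_val).matrix_mul continuous_const)).matrix_mul
    continuous_subtype_val.star

theorem isCompact_orb (x : Cfg N) : IsCompact (orb b x) := by
  refine isCompact_range ?_
  refine (PiLp.continuous_toLp 2 _).comp (continuous_pi fun p => ?_)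
  exact continuous_finsetSum _ fun B _ => (continuous_adjMat b _ _).mul continuous_const

theorem orb_nonempty (x : Cfg N) : (orb b x).Nonempty := ⟨x, mem_orb_self b x⟩

theorem orb_act {x y : Cfg N} (hy : y ∈ orb b x) (h : Matrix.specialUnitaryGroup (Fin N) ℂ) :
    b.act h y ∈ orb b x := by
  obtain ⟨k, rfl⟩ := hy
  exact ⟨h * k, Col962.act_mul b h k x⟩

theorem orb_subset_Crit {g : ℝ} (hg : 0 < g) {x : Cfg N} (hx : x ∈ Crit b g) :
    orb b x ⊆ Crit b g := by
  rintro _ ⟨h, rfl⟩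
  exact Crit_act b hg h hx

theorem orb_eq_of_mem {x y : Cfg N} (hy : y ∈ orb b x) : orb b y = orb b x := by
  obtain ⟨k, rfl⟩ := hy
  ext z
  constructor
  · rintro ⟨h, rfl⟩
    exact ⟨h * k, Col962.act_mul b h k x⟩
  · rintro ⟨h, rfl⟩
    refine ⟨h * k⁻¹, ?_⟩
    change b.act (h * k⁻¹) (b.act k x) = b.act h x
    rw [← Col962.act_mul, inv_mul_cancel_right]

theorem orb_smul {g : ℝ} (hg : 0 < g) (x : Cfg N) :
    orb b x = (fun y => g⁻¹ • y) '' orb b (g • x) := by
  ext z
  constructor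
  · rintro ⟨h, rfl⟩
    refine ⟨b.act h (g • x), ⟨h, rfl⟩, ?_⟩
    change g⁻¹ • b.act h (g • x) = b.act h x
    rw [Col962.act_smul, smul_smul, inv_mul_cancel₀ hg.ne', one_smul]
  · rintro ⟨_, ⟨h, rfl⟩, rfl⟩
    refine ⟨h, ?_⟩
    change b.act h x = g⁻¹ • b.act h (g • x)
    rw [Col962.act_smul, smul_smul, inv_mul_cancel₀ hg.ne', one_smul]

/-- **The lower bound near one orbit of vacua.** -/
theorem VR_orbit (hN : 0 < N) :
    ∃ c > 0, ∃ r > 0, ∀ g : ℝ, 0 < g → ∀ x₀ ∈ Crit b g, ∀ x,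
      infDist x (orb b x₀) ≤ r / g → c * infDist x (orb b x₀) ^ 2 ≤ VR b g x := by
  obtain ⟨κ, hκ, r, hr, h⟩ := lower_near (isStr b) (coer b hN)
  refine ⟨κ ^ 2 / 2, by positivity, r, hr, fun g hg x₀ hx₀ x hx => ?_⟩
  have hz : g • x₀ ∈ Crit b 1 := (mem_Crit_iff b hg x₀).1 hx₀
  have h1 := h (orb b (g • x₀)) (by rw [← Crit_one]; exact orb_subset_Crit b one_pos hz)
    (isCompact_orb b _).isClosed (orb_nonempty b _) (flowInv_of b fun k y hy => orb_act b hy k)
    (g • x)
  rw [orb_smul b hg, infDist_smul_inv hg] at hx ⊢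
  rw [← div_eq_inv_mul, div_le_div_iff_of_pos_right hg] at hx
  have h2 := h1 hx
  have h3 : (κ * infDist (g • x) (orb b (g • x₀))) ^ 2 ≤ 2 * VR b 1 (g • x) := by
    rw [← normsq_Res]
    exact pow_le_pow_left₀ (mul_nonneg hκ.le infDist_nonneg) h2 2
  rw [VR_scale b hg x, mul_pow, inv_pow]
  calc κ ^ 2 / 2 * ((g ^ 2)⁻¹ * infDist (g • x) (orb b (g • x₀)) ^ 2)
      = (1 / g ^ 2) * ((κ * infDist (g • x) (orb b (g • x₀))) ^ 2 / 2) := by ring
    _ ≤ _ := mul_le_mul_of_nonneg_left (by linarith) (by positivity)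

/-- **Isolation of the orbits of vacua.** -/
theorem orbit_isol (hN : 0 < N) :
    ∃ r > 0, ∀ g : ℝ, 0 < g → ∀ x₀ ∈ Crit b g, ∀ x₁ ∈ Crit b g,
      infDist x₁ (orb b x₀) ≤ r / g → x₁ ∈ orb b x₀ := by
  obtain ⟨r, hr, h⟩ := orbit_gap (isStr b) (coer b hN)
  refine ⟨r, hr, fun g hg x₀ hx₀ x₁ hx₁ hx => ?_⟩
  have hz : g • x₀ ∈ Crit b 1 := (mem_Crit_iff b hg x₀).1 hx₀
  have hz1 : g • x₁ ∈ Crit b 1 := (mem_Crit_iff b hg x₁).1 hx₁
  have h1 := h (orb b (g • x₀)) (by rw [← Crit_one]; exact orb_subset_Crit b one_pos hz)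
    (isCompact_orb b _).isClosed (orb_nonempty b _) (flowInv_of b fun k y hy => orb_act b hy k)
    (g • x₁) (by rw [← Crit_one]; exact hz1)
  rw [orb_smul b hg, infDist_smul_inv hg] at hx
  rw [← div_eq_inv_mul, div_le_div_iff_of_pos_right hg] at hx
  rw [orb_smul b hg]
  exact ⟨g • x₁, h1 hx, by simp [smul_smul, inv_mul_cancel₀ hg.ne']⟩

/-- Two points of one orbit have the same distance to an orbit. -/
theorem infDist_orb_act (h : Matrix.specialUnitaryGroup (Fin N) ℂ) (x y : Cfg N) :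
    infDist (b.act h x) (orb b y) = infDist x (orb b y) := by
  have key : ∀ (k : Matrix.specialUnitaryGroup (Fin N) ℂ) (z : Cfg N),
      infDist (b.act k z) (orb b y) ≤ infDist z (orb b y) := by
    intro k z
    obtain ⟨w, hw, hwz⟩ := (isCompact_orb b y).exists_infDist_eq_dist (orb_nonempty b y) z
    rw [hwz]
    have h1 : dist (b.act k z) (b.act k w) = dist z w := by
      have h2 : b.act k z - b.act k w = b.act k (z - w) := (map_sub (Col962.actLI b k) z w).symm
      rw [dist_eq_norm, h2, Col962.norm_act, dist_eq_norm]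
    rw [← h1]
    exact infDist_le_dist_of_mem (orb_act b hw k)
  refine le_antisymm (key h x) ?_
  have h1 := key h⁻¹ (b.act h x)
  rwa [← Col962.act_mul, inv_mul_cancel, Col962.act_one] at h1

/-- **The vacua at coupling `1` are finitely many orbits**, at mutual distance `> r`. -/
theorem crit_finite (hN : 0 < N) :
    ∃ P : Finset (Cfg N), (∀ p ∈ P, p ∈ Crit b 1) ∧ (Crit b 1 = ⋃ p ∈ P, orb b p) ∧
      ∀ p ∈ P, ∀ q ∈ P, p ≠ q → Disjoint (orb b p) (orb b q) := by
  classical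
  obtain ⟨r, hr, hisol⟩ := orbit_isol b hN
  have hiso : ∀ x₀ ∈ Crit b 1, ∀ x₁ ∈ Crit b 1, dist x₁ x₀ < r → orb b x₁ = orb b x₀ := by
    intro x₀ h0 x₁ h1 hd
    refine orb_eq_of_mem b (hisol 1 one_pos x₀ h0 x₁ h1 ?_)
    rw [div_one]
    exact (infDist_le_dist_of_mem (mem_orb_self b x₀)).trans hd.le
  -- finitely many balls
  obtain ⟨t, htC, htf, hcov⟩ := (isCompact_Crit_one b hN).finite_cover_balls hr
  have hfin : ((fun x => orb b x) '' Crit b 1).Finite := by
    refine (htf.image fun x => orb b x).subset ?_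
    rintro _ ⟨x, hx, rfl⟩
    have h1 := hcov hx
    simp only [mem_iUnion, mem_ball] at h1
    obtain ⟨y, hy, hxy⟩ := h1
    exact ⟨y, hy, (hiso y (htC hy) x hx hxy).symm⟩
  -- choose representatives
  obtain ⟨P, hP1, hP2, hP3⟩ : ∃ P : Finset (Cfg N), (∀ p ∈ P, p ∈ Crit b 1) ∧
      (∀ x ∈ Crit b 1, ∃ p ∈ P, orb b p = orb b x) ∧
      ∀ p ∈ P, ∀ q ∈ P, orb b p = orb b q → p = q := by
    have hch : ∀ O ∈ (fun x => orb b x) '' Crit b 1, ∃ x, x ∈ Crit b 1 ∧ orb b x = O := by
      rintro _ ⟨x, hx, rfl⟩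
      exact ⟨x, hx, rfl⟩
    choose! rep hrep1 hrep2 using hch
    refine ⟨hfin.toFinset.image rep, ?_, ?_, ?_⟩
    · intro p hp
      obtain ⟨O, hO, rfl⟩ := Finset.mem_image.1 hp
      exact hrep1 O (hfin.mem_toFinset.1 hO)
    · intro x hx
      have hO : orb b x ∈ (fun x => orb b x) '' Crit b 1 := ⟨x, hx, rfl⟩
      exact ⟨rep (orb b x), Finset.mem_image.2 ⟨_, hfin.mem_toFinset.2 hO, rfl⟩, hrep2 _ hO⟩
    · intro p hp q hq hpq
      obtain ⟨O, hO, rfl⟩ := Finset.mem_image.1 hp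
      obtain ⟨O', hO', rfl⟩ := Finset.mem_image.1 hq
      rw [hrep2 O (hfin.mem_toFinset.1 hO), hrep2 O' (hfin.mem_toFinset.1 hO')] at hpq
      rw [hpq]
  refine ⟨P, hP1, ?_, ?_⟩
  · ext x
    simp only [mem_iUnion]
    constructor
    · intro hx
      obtain ⟨p, hp, hpx⟩ := hP2 x hx
      exact ⟨p, hp, hpx ▸ mem_orb_self b x⟩
    · rintro ⟨p, hp, hx⟩
      exact orb_subset_Crit b one_pos (hP1 p hp) hx
  · intro p hp q hq hpq
    rw [Set.disjoint_left]
    intro z hz hz'
    exact hpq (hP3 p hp q hq ((orb_eq_of_mem b hz).symm.trans (orb_eq_of_mem b hz')))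

end

end Crest.Agent.R330.VLow737
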