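import Crest.Agent.R330.S5Defs_798
import Crest.Agent.R330.VLow_737

/-!
# Row 330, S5d-UP: the two energy hypotheses (helper8; to be proved by helper682)

* `EnProp` : `¼ ∫ ‖Dφ‖² + ½ ∫ VR ‖φ‖² ≤ q_{g,1}(φ) + C ∫ ‖φ‖²`, `C` independent of `0 < g ≤ 1`.
* `VzProp` : `c₀ r² ≤ VR` off the tubes of radius `r` about the orbits `SU(N)·g⁻¹ c_l`.
-/

set_option autoImplicit false

open MeasureTheory Crest.MathPhysics.MatrixQM
open scoped ContDiff InnerProductSpace ENNReal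

noncomputable section

namespace Crest.Agent.R330.UpHyp8

open Crest.Agent.R330.Defs478 Crest.Agent.R330.S5Defs798

/-- (EN) -/
def EnProp (N : ℕ) : Prop :=
  ∀ (F : Type) [NormedAddCommGroup F] [InnerProductSpace ℂ F] [FiniteDimensional ℂ F]
    [Nontrivial F] (b : ColorBasis N) (M : FermionRep N F) (R : GaugeAction b M) (G : GammaNine),
    ∃ C : ℝ, ∀ g : ℝ, 0 < g → g ≤ 1 → ∀ φ : Cfg N → F, IsCoreVec b R φ →
      (1 / 4) * (∫ x, ‖fderiv ℝ φ x‖ ^ 2) + (1 / 2) * (∫ x, VLow737.VR b g x * ‖φ x‖ ^ 2) ≤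
        qf b M G g 1 φ + C * ∫ x, ‖φ x‖ ^ 2

/-- (VZ) -/
def VzProp (N : ℕ) : Prop :=
  ∀ (b : ColorBasis N) (c : Nat.Partition N → Cfg N), OrbitList b c →
    ∃ c₀ : ℝ, 0 < c₀ ∧ ∀ g : ℝ, 0 < g → ∀ r : ℝ, 0 ≤ r → ∀ x : Cfg N,
      (∀ l h, r ≤ ‖x - b.act h (g⁻¹ • c l)‖) → c₀ * r ^ 2 ≤ VLow737.VR b g x

end Crest.Agent.R330.UpHyp8

end
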