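import Crest.Agent.R330.UpLoc_8
import Crest.Agent.R330.UpHyp_8
import Crest.Agent.R330.Avg_798
import Crest.Agent.R330.SUgrp_596
import Crest.Agent.R330.RhoB_406
import Crest.Agent.R330.Lit_416

/-!
# Row 330, S5d-UP, part A (helper8): localisation of invariant integrals about `p`

* `isoAct` : `b.act` is a continuous isometric action.
* `norm_core`, `norm_fderiv_core` : invariance of `‖φ‖`, `‖Dφ‖` for core vectors.
* `mu1 b p` : Haar measure of `{h | |act h p - p| ≤ 1}`.
* `loc_upper`, `loc_lower` : integrals over balls about `p` against invariant integrals.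
-/

set_option autoImplicit false
set_option linter.unusedSectionVars false

open MeasureTheory Filter Set Metric Topology Crest.MathPhysics.MatrixQM
open scoped ContDiff InnerProductSpace ENNReal

noncomputable section

namespace Crest.Agent.R330.UpA8

open Crest.Agent.R330.Defs478 Crest.Agent.R330.S5Defs798 Crest.Agent.R330.Dbl798
  Crest.Agent.R330.Avg798 Crest.Agent.R330.SUgrp596 Crest.Agent.R330.UpLoc8

variable {N : ℕ} {F : Type*} [NormedAddCommGroup F] [InnerProductSpace ℂ F]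
  [FiniteDimensional ℂ F]

/-- the gauge action -/
theorem isoAct (b : ColorBasis N) : IsoAct (G := SU N) b.act where
  one := Cov837.act_one b
  mul := Cov837.act_mul b
  dist_eq h x y := (Cov837.actL b h).dist_map x y
  cont := Cov837.act_continuous₂ b

theorem norm_core {b : ColorBasis N} {M : FermionRep N F} {R : GaugeAction b M}
    {φ : Cfg N → F} (hφ : IsCoreVec b R φ) (h : SU N) (x : Cfg N) :
    ‖φ (b.act h x)‖ = ‖φ x‖ := by
  rw [hφ.2.2 h x, Cov837.norm_rho]

theorem norm_fderiv_core {b : ColorBasis N} {M : FermionRep N F} {R : GaugeAction b M}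
    {φ : Cfg N → F} (hφ : IsCoreVec b R φ) (h : SU N) (x : Cfg N) :
    ‖fderiv ℝ φ (b.act h x)‖ = ‖fderiv ℝ φ x‖ := by
  have hle : ∀ (h : SU N) (x : Cfg N), ‖fderiv ℝ φ x‖ ≤ ‖fderiv ℝ φ (b.act h x)‖ := by
    intro h x
    refine ContinuousLinearMap.opNorm_le_bound _ (norm_nonneg _) fun v => ?_
    have h1 := Cov837.fderiv_tg R h (x := x) (cv_diff hφ (b.act h x)) v
    rw [((Cov837.isCoreVec_iff R φ).1 hφ).2.2 h] at h1
    rw [h1, Cov837.norm_rho]
    refine (ContinuousLinearMap.le_opNorm _ _).trans (le_of_eq ?_)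
    rw [Cov837.norm_act]
  refine le_antisymm ?_ (hle h x)
  have h2 := hle h⁻¹ (b.act h x)
  rwa [Cov837.act_inv_act] at h2

/-- the measure of the group elements moving `p` by at most `1` -/
def mu1 (b : ColorBasis N) (p : Cfg N) : ℝ := (haarSU N).real (near (G := SU N) b.act p 1)

theorem mu1_pos (b : ColorBasis N) (p : Cfg N) : 0 < mu1 b p :=
  ENNReal.toReal_pos (near_pos (haarSU N) (isoAct b) p one_pos).ne' (measure_ne_top _ _)

theorem ofReal_mu1 (b : ColorBasis N) (p : Cfg N) :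
    ENNReal.ofReal (mu1 b p) = (haarSU N) (near (G := SU N) b.act p 1) :=
  ENNReal.ofReal_toReal (measure_ne_top _ _)

/-- growth function -/
def gr (N : ℕ) (r : ℝ) : ℝ := (1 + 4 * r) ^ Module.finrank ℝ (Cfg N)

theorem gr_nonneg {r : ℝ} (hr : 0 ≤ r) : 0 ≤ gr N r := by unfold gr; positivity

section loc

variable {V : Type*} [NormedAddCommGroup V] {u : Cfg N → V}

theorem ball_shift (u : Cfg N → V) (p : Cfg N) (r : ℝ) :
    ∫ y in closedBall (0 : Cfg N) r, ‖u (p + y)‖ ^ 2 = ∫ x in closedBall p r, ‖u x‖ ^ 2 := by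
  have h1 : (fun y : Cfg N => p + y) ⁻¹' (closedBall p r) = closedBall 0 r := by
    ext y
    simp [dist_eq_norm]
  have hmp : MeasurePreserving (fun y : Cfg N => p + y) volume volume :=
    measurePreserving_add_left volume p
  have hemb : MeasurableEmbedding (fun y : Cfg N => p + y) :=
    (MeasurableEquiv.addLeft p).measurableEmbedding
  have h2 := hmp.setIntegral_preimage_emb hemb (fun x => ‖u x‖ ^ 2) (closedBall p r)
  rw [h1] at h2
  exact h2

theorem intOn_ball (hu : Continuous u) (p : Cfg N) (r : ℝ) :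
    IntegrableOn (fun x => ‖u x‖ ^ 2) (closedBall p r) volume :=
  (hu.norm.pow 2).continuousOn.integrableOn_compact (isCompact_closedBall p r)

theorem int_cc (hu : Continuous u) (hc : HasCompactSupport u) :
    Integrable (fun x => ‖u x‖ ^ 2) volume := by
  have h1 : Continuous fun x => ‖u x‖ ^ 2 := hu.norm.pow 2
  have h2 : HasCompactSupport fun x => ‖u x‖ ^ 2 := by
    refine hc.mono fun x hx => ?_
    rw [Function.mem_support] at hx ⊢
    intro h0
    exact hx (by rw [h0, norm_zero]; norm_num)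
  exact h1.integrable_of_hasCompactSupport h2

/-- upper bound on balls about `p` -/
theorem loc_upper {b : ColorBasis N} (hu : Continuous u) (hc : HasCompactSupport u)
    (hinv : ∀ h x, ‖u (b.act h x)‖ = ‖u x‖) (p : Cfg N) {r : ℝ} (hr : 0 ≤ r) :
    ∫ y in closedBall (0 : Cfg N) r, ‖u (p + y)‖ ^ 2 ≤ gr N r * mu1 b p * ∫ x, ‖u x‖ ^ 2 := by
  have hi : Integrable (fun x => ‖u x‖ ^ 2) volume := int_cc hu hc
  rw [ball_shift]
  have h0 : 0 ≤ ∫ x, ‖u x‖ ^ 2 := integral_nonneg fun x => by positivity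
  have hg := gr_nonneg (N := N) hr
  have hm := (mu1_pos b p).le
  refine int_le_of_lint (intOn_ball hu p r) (by positivity) ?_
  have hF : Measurable fun x => ‖u x‖ₑ ^ 2 := hu.enorm.measurable.pow_const 2
  have h1 := ball_le (haarSU N) (volume : Measure (Cfg N)) (isoAct b)
    (fun g => Cov837.act_measurePreserving b g) hF (fun g x => by
      show ‖u (b.act g x)‖ₑ ^ 2 = ‖u x‖ₑ ^ 2
      rw [← ofReal_norm, ← ofReal_norm, hinv]) p r
  have e1 : ∫⁻ x, ‖u x‖ₑ ^ 2 = ENNReal.ofReal (∫ x, ‖u x‖ ^ 2) := lint_eq hi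
  have h2 := doubling (haarSU N) (isoAct b) p one_pos (show (0 : ℝ) ≤ 2 * r by positivity)
  have e2 : (1 + 2 * (2 * r) / 1) ^ Module.finrank ℝ (Cfg N) = gr N r := by
    unfold gr
    congr 1
    ring
  rw [e2] at h2
  calc ∫⁻ x in closedBall p r, ‖u x‖ₑ ^ 2
      ≤ (haarSU N) (near (G := SU N) b.act p (2 * r)) * ∫⁻ x, ‖u x‖ₑ ^ 2 := h1
    _ = (haarSU N) (near (G := SU N) b.act p (2 * r)) * ENNReal.ofReal (∫ x, ‖u x‖ ^ 2) := by
        rw [e1]
    _ ≤ (ENNReal.ofReal (gr N r) * (haarSU N) (near (G := SU N) b.act p 1)) *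
          ENNReal.ofReal (∫ x, ‖u x‖ ^ 2) := mul_le_mul_left h2 _
    _ = ENNReal.ofReal (gr N r * mu1 b p * ∫ x, ‖u x‖ ^ 2) := by
        rw [ENNReal.ofReal_mul (by positivity), ENNReal.ofReal_mul hg, ofReal_mu1]

/-- lower bound on balls about `p` -/
theorem loc_lower {b : ColorBasis N} (hu : Continuous u) (hc : HasCompactSupport u)
    (hinv : ∀ h x, ‖u (b.act h x)‖ = ‖u x‖) (p : Cfg N) (r : ℝ) {S : Set (Cfg N)}
    (hSm : MeasurableSet S) (hS : ∀ x ∈ S, ∃ h : SU N, dist x (b.act h p) ≤ r) :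
    mu1 b p * ∫ x in S, ‖u x‖ ^ 2 ≤ ∫ y in closedBall (0 : Cfg N) (r + 1), ‖u (p + y)‖ ^ 2 := by
  have hi : Integrable (fun x => ‖u x‖ ^ 2) volume := int_cc hu hc
  rw [ball_shift]
  have hF : Measurable fun x => ‖u x‖ₑ ^ 2 := hu.enorm.measurable.pow_const 2
  have h1 := le_ball (haarSU N) (volume : Measure (Cfg N)) (isoAct b)
    (fun g => Cov837.act_measurePreserving b g) hF (fun g x => by
      show ‖u (b.act g x)‖ₑ ^ 2 = ‖u x‖ₑ ^ 2
      rw [← ofReal_norm, ← ofReal_norm, hinv]) p r 1 hSm hS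
  have e1 : ∫⁻ x in S, ‖u x‖ₑ ^ 2 = ENNReal.ofReal (∫ x in S, ‖u x‖ ^ 2) :=
    lint_eq hi.integrableOn
  have e2 : ∫⁻ x in closedBall p (r + 1), ‖u x‖ₑ ^ 2 =
      ENNReal.ofReal (∫ x in closedBall p (r + 1), ‖u x‖ ^ 2) := lint_eq (intOn_ball hu p (r + 1))
  have h2 : ENNReal.ofReal (mu1 b p * ∫ x in S, ‖u x‖ ^ 2) ≤
      ENNReal.ofReal (∫ x in closedBall p (r + 1), ‖u x‖ ^ 2) := by
    rw [ENNReal.ofReal_mul (mu1_pos b p).le, ofReal_mu1, ← e1, ← e2]
    exact h1
  exact (ENNReal.ofReal_le_ofReal_iff (integral_nonneg fun x => by positivity)).1 h2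

end loc

end Crest.Agent.R330.UpA8

end
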