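import Crest.Agent.R330.UpA_8

/-!
# Row 330, S5d-UP, part B (helper8): the shifted vectors and their weak equations

* `cs_ball` : Cauchy–Schwarz against a function supported in a ball.
* `lf φ p s y = s • φ (p + y)`.
* `int_lcharge`, `int_brk` : the weak equations of `lf φ (g⁻¹ c) s` up to errors of order `g`.
-/

set_option autoImplicit false
set_option linter.unusedSectionVars false

open MeasureTheory Filter Set Metric Topology Crest.MathPhysics.MatrixQM
open scoped ContDiff InnerProductSpace ENNReal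

noncomputable section

namespace Crest.Agent.R330.UpB8

open Crest.Agent.R330.Defs478 Crest.Agent.R330.S5Defs798 Crest.Agent.R330.IBP837
  Crest.Agent.R330.UpLoc8 Crest.Agent.R330.UpA8

/-! ### Cauchy–Schwarz -/

section cs

variable {ι : Type*} [Fintype ι]
  {F : Type*} [NormedAddCommGroup F] [InnerProductSpace ℂ F]

local notation "E" => EuclideanSpace ℝ ι

theorem cs_ball {h ψ : E → F} {r : ℝ}
    (hm : AEStronglyMeasurable h (volume.restrict (closedBall (0 : E) r)))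
    (hh : IntegrableOn (fun x => ‖h x‖ ^ 2) (closedBall 0 r) volume)
    (hψ : Continuous ψ) (hψ0 : ∀ x, x ∉ closedBall (0 : E) r → ψ x = 0) :
    ‖∫ x, ⟪h x, ψ x⟫_ℂ‖ ^ 2 ≤
      (∫ x in closedBall (0 : E) r, ‖h x‖ ^ 2) * ∫ x in closedBall (0 : E) r, ‖ψ x‖ ^ 2 := by
  set B := closedBall (0 : E) r with hB
  have hp : IntegrableOn (fun x => ‖ψ x‖ ^ 2) B volume :=
    (hψ.norm.pow 2).continuousOn.integrableOn_compact (isCompact_closedBall 0 r)
  have hmul : IntegrableOn (fun x => ‖h x‖ * ‖ψ x‖) B volume := by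
    refine Integrable.mono' (hh.add hp) (hm.norm.mul hψ.norm.aestronglyMeasurable)
      (Eventually.of_forall fun x => ?_)
    rw [Real.norm_of_nonneg (by positivity)]
    show ‖h x‖ * ‖ψ x‖ ≤ ‖h x‖ ^ 2 + ‖ψ x‖ ^ 2
    nlinarith [sq_nonneg (‖h x‖ - ‖ψ x‖), sq_nonneg (‖h x‖), sq_nonneg (‖ψ x‖)]
  have e1 : ∫ x, ⟪h x, ψ x⟫_ℂ = ∫ x in B, ⟪h x, ψ x⟫_ℂ := by
    rw [setIntegral_eq_integral_of_forall_compl_eq_zero]
    intro x hx
    rw [hψ0 x hx, inner_zero_right]
  have e2 : ‖∫ x, ⟪h x, ψ x⟫_ℂ‖ ≤ ∫ x in B, ‖h x‖ * ‖ψ x‖ := by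
    rw [e1]
    refine (norm_integral_le_integral_norm _).trans ?_
    refine integral_mono_of_nonneg (Eventually.of_forall fun x => norm_nonneg _) hmul
      (Eventually.of_forall fun x => norm_inner_le_norm _ _)
  have e3 : ∀ t : ℝ, 0 ≤ (∫ x in B, ‖ψ x‖ ^ 2) * (t * t) +
      (-2 * ∫ x in B, ‖h x‖ * ‖ψ x‖) * t + ∫ x in B, ‖h x‖ ^ 2 := by
    intro t
    have e4 : 0 ≤ ∫ x in B, (‖h x‖ - t * ‖ψ x‖) ^ 2 := integral_nonneg fun x => sq_nonneg _
    have e5 : ∫ x in B, (‖h x‖ - t * ‖ψ x‖) ^ 2 =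
        ∫ x in B, ((t * t) * ‖ψ x‖ ^ 2 + (-2 * t) * (‖h x‖ * ‖ψ x‖) + ‖h x‖ ^ 2) := by
      refine integral_congr_ae (Eventually.of_forall fun x => ?_)
      show (‖h x‖ - t * ‖ψ x‖) ^ 2 = _
      ring
    have i1 : Integrable (fun x => (t * t) * ‖ψ x‖ ^ 2) (volume.restrict B) := hp.const_mul _
    have i2 : Integrable (fun x => (-2 * t) * (‖h x‖ * ‖ψ x‖)) (volume.restrict B) :=
      hmul.const_mul _
    have i12 : Integrable (fun x => (t * t) * ‖ψ x‖ ^ 2 + (-2 * t) * (‖h x‖ * ‖ψ x‖))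
      (volume.restrict B) := i1.add i2
    rw [e5, integral_add i12 hh, integral_add i1 i2, integral_const_mul, integral_const_mul] at e4
    linarith
  have e6 := discrim_le_zero e3
  rw [discrim] at e6
  have e7 : 0 ≤ ∫ x in B, ‖h x‖ * ‖ψ x‖ := integral_nonneg fun x => by positivity
  calc ‖∫ x, ⟪h x, ψ x⟫_ℂ‖ ^ 2 ≤ (∫ x in B, ‖h x‖ * ‖ψ x‖) ^ 2 :=
        pow_le_pow_left₀ (norm_nonneg _) e2 2
    _ ≤ _ := by nlinarith

theorem tendsto_of_sq {X : Type*} {l : Filter X} {V : Type*} [NormedAddCommGroup V] {z : X → V}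
    (h : Tendsto (fun n => ‖z n‖ ^ 2) l (𝓝 0)) : Tendsto z l (𝓝 0) := by
  rw [tendsto_zero_iff_norm_tendsto_zero]
  have h1 := (Real.continuous_sqrt.tendsto 0).comp h
  simp only [Real.sqrt_zero] at h1
  refine h1.congr fun n => ?_
  exact Real.sqrt_sq (norm_nonneg _)

theorem exists_ball_supp {V : Type*} [NormedAddCommGroup V] {ψ : E → V}
    (hc : HasCompactSupport ψ) : ∃ r : ℝ, 0 ≤ r ∧ ∀ x, x ∉ closedBall (0 : E) r → ψ x = 0 := by
  obtain ⟨r, hr⟩ := (isBounded_iff_subset_closedBall (0 : E)).1 hc.isCompact.isBounded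
  refine ⟨max r 0, le_max_right _ _, fun x hx => image_eq_zero_of_notMem_tsupport fun h => ?_⟩
  exact hx (closedBall_subset_closedBall (le_max_left _ _) (hr h))

/-- pairing of a sequence tending to zero locally -/
theorem tendsto_pair_zero {X : Type*} {l : Filter X} {h : X → E → F} {ψ : E → F}
    (hψ : Continuous ψ) (hc : HasCompactSupport ψ)
    (hm : ∀ n r, AEStronglyMeasurable (h n) (volume.restrict (closedBall (0 : E) r)))
    (hh : ∀ n r, IntegrableOn (fun x => ‖h n x‖ ^ 2) (closedBall (0 : E) r) volume)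
    (ht : ∀ r : ℝ, 0 ≤ r → Tendsto (fun n => ∫ x in closedBall (0 : E) r, ‖h n x‖ ^ 2) l (𝓝 0)) :
    Tendsto (fun n => ∫ x, ⟪h n x, ψ x⟫_ℂ) l (𝓝 0) := by
  obtain ⟨r, hr, hψ0⟩ := exists_ball_supp hc
  refine tendsto_of_sq ?_
  have h2 := (ht r hr).mul_const (∫ x in closedBall (0 : E) r, ‖ψ x‖ ^ 2)
  rw [zero_mul] at h2
  exact squeeze_zero (fun n => by positivity) (fun n => cs_ball (hm n r) (hh n r) hψ hψ0) h2

end cs

variable {N : ℕ} {F : Type*} [NormedAddCommGroup F] [InnerProductSpace ℂ F]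
  [FiniteDimensional ℂ F]

/-! ### the shifted vectors -/

/-- `y ↦ s • φ (p + y)` -/
def lf (φ : Cfg N → F) (p : Cfg N) (s : ℝ) (y : Cfg N) : F := (s : ℂ) • φ (p + y)

theorem contDiff_lf {φ : Cfg N → F} (hφ : ContDiff ℝ ∞ φ) (p : Cfg N) (s : ℝ) :
    ContDiff ℝ ∞ (lf φ p s) :=
  contDiff_const.smul (hφ.comp (contDiff_const.add contDiff_id))

theorem fderiv_lf {φ : Cfg N → F} (hφ : Differentiable ℝ φ) (p : Cfg N) (s : ℝ) (y v : Cfg N) :
    fderiv ℝ (lf φ p s) y v = (s : ℂ) • fderiv ℝ φ (p + y) v := by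
  have h1 : HasFDerivAt (fun y : Cfg N => p + y) (ContinuousLinearMap.id ℝ (Cfg N)) y :=
    (hasFDerivAt_id y).const_add p
  have h2 := ((hφ (p + y)).hasFDerivAt.comp y h1).const_smul (s : ℂ)
  have h3 : fderiv ℝ (lf φ p s) y = _ := h2.fderiv
  rw [h3]
  rfl

theorem norm_lf (φ : Cfg N → F) (p : Cfg N) (s : ℝ) (y : Cfg N) :
    ‖lf φ p s y‖ ^ 2 = s ^ 2 * ‖φ (p + y)‖ ^ 2 := by
  unfold lf
  rw [norm_smul, mul_pow, Complex.norm_real, Real.norm_eq_abs, sq_abs]

theorem norm_fderiv_lf {φ : Cfg N → F} (hφ : Differentiable ℝ φ) (p : Cfg N) (s : ℝ)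
    (y : Cfg N) : ‖fderiv ℝ (lf φ p s) y‖ ^ 2 ≤ s ^ 2 * ‖fderiv ℝ φ (p + y)‖ ^ 2 := by
  have h1 : ‖fderiv ℝ (lf φ p s) y‖ ≤ |s| * ‖fderiv ℝ φ (p + y)‖ := by
    refine ContinuousLinearMap.opNorm_le_bound _ (by positivity) fun v => ?_
    rw [fderiv_lf hφ, norm_smul, Complex.norm_real, Real.norm_eq_abs, mul_assoc]
    exact mul_le_mul_of_nonneg_left (ContinuousLinearMap.le_opNorm _ _) (abs_nonneg _)
  calc ‖fderiv ℝ (lf φ p s) y‖ ^ 2 ≤ (|s| * ‖fderiv ℝ φ (p + y)‖) ^ 2 :=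
        pow_le_pow_left₀ (norm_nonneg _) h1 2
    _ = _ := by rw [mul_pow, sq_abs]

/-! ### the linearised charge -/

section lin

variable (b : ColorBasis N) (M : FermionRep N F) (G : GammaNine) (c : Cfg N) (α : Fin 16)

theorem lcharge_eq (φ : Cfg N → F) :
    lcharge b M G c α φ = chargeW M G (wlin b G c) α φ := by
  funext x
  rw [chargeW_apply]
  unfold lcharge kin
  congr 1
  · rw [Fintype.sum_prod_type]
    refine Finset.sum_congr rfl fun i _ => Finset.sum_congr rfl fun A _ => ?_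
    rw [dco_apply, Finset.smul_sum]
    refine Finset.sum_congr rfl fun β _ => ?_
    rw [smul_smul]
  · rw [vco_apply]

theorem wlin_continuous (β : Fin 16) (A : Fin (N ^ 2 - 1)) : Continuous (wlin b G c α β A) := by
  unfold wlin
  have h1 := Brid837.wpot_continuous (b := b) (G := G) (g := 1) (m := 1) (α := α) β A
  have h2 := Brid837.wpot_continuous (b := b) (G := G) (g := 1) (m := 0) (α := α) β A
  exact ((h1.comp (continuous_const.add continuous_id)).sub continuous_const).sub h2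

theorem continuous_lcharge {ψ : Cfg N → F} (hψ : ContDiff ℝ 1 ψ) :
    Continuous (lcharge b M G c α ψ) := by
  rw [lcharge_eq]
  exact continuous_chargeW (wlin_continuous b G c α) hψ

theorem hcs_lcharge {ψ : Cfg N → F} (hψ : HasCompactSupport ψ) :
    HasCompactSupport (lcharge b M G c α ψ) := by
  rw [lcharge_eq]
  exact hasCompactSupport_chargeW hψ

/-- the quadratic part -/
def vq (ψ : Cfg N → F) (y : Cfg N) : F := vco M (fun β A => wpot b G 1 0 α β A y) (ψ y)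

theorem continuous_vq {ψ : Cfg N → F} (hψ : Continuous ψ) : Continuous (vq b M G α ψ) := by
  unfold vq
  simp only [vco_apply]
  refine continuous_finsetSum _ fun A _ => continuous_finsetSum _ fun β _ => ?_
  exact (Complex.continuous_ofReal.comp (continuous_wpot b G 1 0 α β A)).smul
    ((continuous_theta M β A).comp hψ)

theorem hcs_vq {ψ : Cfg N → F} (hψ : HasCompactSupport ψ) :
    HasCompactSupport (vq b M G α ψ) := by
  refine hψ.mono fun x hx => ?_
  rw [Function.mem_support] at hx ⊢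
  intro h0
  exact hx (by unfold vq; rw [h0, map_zero])

end lin

theorem chargeW_shift {M : FermionRep N F} {G : GammaNine}
    {W : Fin 16 → Fin 16 → Fin (N ^ 2 - 1) → Cfg N → ℝ} {α : Fin 16} {φ : Cfg N → F}
    (hφ : Differentiable ℝ φ) (p : Cfg N) (s : ℝ) (y : Cfg N) :
    chargeW M G (fun α β A y => W α β A (p + y)) α (lf φ p s) y =
      (s : ℂ) • chargeW M G W α φ (p + y) := by
  rw [chargeW_apply, chargeW_apply, smul_add, Finset.smul_sum]
  congr 1
  · refine Finset.sum_congr rfl fun k _ => ?_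
    rw [fderiv_lf hφ, map_smul, smul_comm]
  · rw [lf, map_smul]

/-- the linearised charge as shifted charge minus the quadratic part -/
theorem lcharge_split {b : ColorBasis N} (M : FermionRep N F) {G : GammaNine} {c : Cfg N}
    (hc : ∀ α β A, wpot b G 1 1 α β A c = 0) {g : ℝ} (hg : g ≠ 0) (α : Fin 16)
    (ψ : Cfg N → F) (y : Cfg N) :
    lcharge b M G c α ψ y =
      chargeW M G (fun α β A y => wpot b G g 1 α β A (g⁻¹ • c + y)) α ψ y -
        (g : ℂ) • vq b M G α ψ y := by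
  rw [lcharge_eq]
  have h1 := chargeW_sub_chargeW (M := M) (G := G) (α := α) (φ := ψ)
    (W := fun α β A y => wpot b G g 1 α β A (g⁻¹ • c + y)) (wlin b G c) y
  have h2 : vco M (fun β A => wpot b G g 1 α β A (g⁻¹ • c + y) - wlin b G c α β A y) (ψ y) =
      (g : ℂ) • vq b M G α ψ y := by
    unfold vq
    rw [vco_apply, vco_apply, Finset.smul_sum]
    refine Finset.sum_congr rfl fun A _ => ?_
    rw [Finset.smul_sum]
    refine Finset.sum_congr rfl fun β _ => ?_
    rw [wpot_shift b G (hc α β A) hg, smul_smul]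
    congr 1
    push_cast
    ring
  rw [← h2, ← h1]
  abel

/-- the weak linearised equation with its error -/
theorem int_lcharge {b : ColorBasis N} {M : FermionRep N F} {G : GammaNine} {c : Cfg N}
    (hc : ∀ α β A, wpot b G 1 1 α β A c = 0) {g : ℝ} (hg : g ≠ 0) (α : Fin 16) {φ : Cfg N → F}
    (hφ : ContDiff ℝ ∞ φ) (s : ℝ) {ψ : Cfg N → F} (hψ : ContDiff ℝ ∞ ψ)
    (hψc : HasCompactSupport ψ) :
    ∫ y, ⟪lf φ (g⁻¹ • c) s y, lcharge b M G c α ψ y⟫_ℂ =
      (∫ y, ⟪lf (dcharge b M G g 1 α φ) (g⁻¹ • c) s y, ψ y⟫_ℂ) -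
        (g : ℂ) * ∫ y, ⟪lf φ (g⁻¹ • c) s y, vq b M G α ψ y⟫_ℂ := by
  set p := g⁻¹ • c with hp
  have hWc : ∀ β A, Continuous fun y : Cfg N => wpot b G g 1 α β A (p + y) := fun β A =>
    (Brid837.wpot_continuous (b := b) (G := G) (g := g) (m := 1) (α := α) β A).comp
      (continuous_const.add continuous_id)
  have hlf := contDiff_lf hφ p s
  have hψ1 : ContDiff ℝ 1 ψ := hψ.of_le (by simp)
  have h1 : Integrable fun y => ⟪lf φ p s y, chargeW M G
      (fun α β A y => wpot b G g 1 α β A (p + y)) α ψ y⟫_ℂ :=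
    integrable_inner_of_cont hlf.continuous (continuous_chargeW hWc hψ1)
      (Or.inr (hasCompactSupport_chargeW hψc))
  have h2 : Integrable fun y => ⟪lf φ p s y, (g : ℂ) • vq b M G α ψ y⟫_ℂ := by
    refine integrable_inner_of_cont hlf.continuous
      (continuous_const.smul (continuous_vq b M G α hψ.continuous)) (Or.inr ?_)
    exact (hcs_vq b M G α hψc).smul_left (f := fun _ => (g : ℂ))
  have h3 : ∫ y, ⟪lf φ p s y, lcharge b M G c α ψ y⟫_ℂ =
      ∫ y, (⟪lf φ p s y, chargeW M G (fun α β A y => wpot b G g 1 α β A (p + y)) α ψ y⟫_ℂ -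
        ⟪lf φ p s y, (g : ℂ) • vq b M G α ψ y⟫_ℂ) := by
    refine integral_congr_ae (Eventually.of_forall fun y => ?_)
    show ⟪lf φ p s y, lcharge b M G c α ψ y⟫_ℂ = _
    rw [lcharge_split M hc hg α ψ y, inner_sub_right]
  rw [h3, integral_sub h1 h2]
  congr 1
  · rw [← chargeW_symm (W := fun α β A y => wpot b G g 1 α β A (p + y)) hWc
      (hlf.of_le (by simp)) hψ1 (Or.inr hψc)]
    refine integral_congr_ae (Eventually.of_forall fun y => ?_)
    show ⟪chargeW M G (fun α β A y => wpot b G g 1 α β A (p + y)) α (lf φ p s) y, ψ y⟫_ℂ = _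
    rw [chargeW_shift (hφ.differentiable (by simp)), ← Brid837.dcharge_eq]
    rfl
  · rw [← integral_const_mul]
    refine integral_congr_ae (Eventually.of_forall fun y => ?_)
    show ⟪lf φ p s y, (g : ℂ) • vq b M G α ψ y⟫_ℂ = _
    rw [inner_smul_right]

/-! ### the gauge direction -/

theorem brk_eq (b : ColorBasis N) (om : Fin (N ^ 2 - 1) → ℝ) (x : Cfg N) :
    brk b om x = Lift406.brC b om x := by
  unfold brk Lift406.brC
  congr 1
  funext iA
  rw [Lift406.adL_apply, CoerCfg87.br]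
  refine Finset.sum_congr rfl fun A _ => Finset.sum_congr rfl fun B _ => ?_
  rw [Lift406.structConst_cyc b iA.2 A B]
  rfl

/-- the gauge direction as a linear map of the configuration -/
def brkL (b : ColorBasis N) (om : Fin (N ^ 2 - 1) → ℝ) : Cfg N →L[ℝ] Cfg N :=
  LinearMap.toContinuousLinearMap
    { toFun := brk b om
      map_add' := fun x y => by
        rw [brk_eq, brk_eq, brk_eq]
        ext iA
        show Lift406.adL b om (fun B => (x + y) (iA.1, B)) iA.2 = _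
        have h : (fun B => (x + y) (iA.1, B)) = (fun B => x (iA.1, B)) + fun B => y (iA.1, B) := rfl
        rw [h, map_add]
        rfl
      map_smul' := fun r x => by
        rw [brk_eq, brk_eq]
        ext iA
        show Lift406.adL b om (fun B => (r • x) (iA.1, B)) iA.2 = _
        have h : (fun B => (r • x) (iA.1, B)) = r • (fun B => x (iA.1, B)) := rfl
        rw [h, map_smul]
        rfl }

theorem brkL_apply (b : ColorBasis N) (om : Fin (N ^ 2 - 1) → ℝ) (x : Cfg N) :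
    brkL b om x = brk b om x := rfl

theorem fderiv_lf_brk [Nontrivial F] {b : ColorBasis N} {M : FermionRep N F}
    {R : GaugeAction b M} {φ : Cfg N → F} (hφ : IsCoreVec b R φ) (c : Cfg N) {g : ℝ}
    (hg : g ≠ 0) (s : ℝ) (om : Fin (N ^ 2 - 1) → ℝ) (y : Cfg N) :
    fderiv ℝ (lf φ (g⁻¹ • c) s) y (brk b om c) =
      g • (Lift406.Bop b M om (lf φ (g⁻¹ • c) s y) -
        fderiv ℝ (lf φ (g⁻¹ • c) s) y (brk b om y)) := by
  have h1 : brk b om c = g • (brk b om (g⁻¹ • c + y) - brk b om y) := by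
    rw [← brkL_apply, ← brkL_apply, ← brkL_apply, map_add, map_smul, add_sub_cancel_right,
      smul_smul, mul_inv_cancel₀ hg, one_smul]
  have h2 : fderiv ℝ (lf φ (g⁻¹ • c) s) y (brk b om (g⁻¹ • c + y)) =
      Lift406.Bop b M om (lf φ (g⁻¹ • c) s y) := by
    rw [fderiv_lf (cv_diff hφ), brk_eq, Lift406.fderiv_equivariant R φ hφ.2.2 om _
      (cv_diff hφ _), lf, map_smul]
  conv_lhs => rw [h1]
  rw [map_smul, map_sub, h2]

/-- the error in the gauge direction -/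
def be (b : ColorBasis N) (M : FermionRep N F) (om : Fin (N ^ 2 - 1) → ℝ) (f : Cfg N → F)
    (y : Cfg N) : F := Lift406.Bop b M om (f y) - fderiv ℝ f y (brk b om y)

theorem continuous_be (b : ColorBasis N) (M : FermionRep N F) (om : Fin (N ^ 2 - 1) → ℝ)
    {f : Cfg N → F} (hf : ContDiff ℝ ∞ f) : Continuous (be b M om f) := by
  unfold be
  refine ((Lift406.Bop b M om).continuous.comp hf.continuous).sub ?_
  exact (hf.continuous_fderiv (by simp)).clm_apply (brkL b om).continuous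

/-- the weak gauge equation with its error -/
theorem int_brk [Nontrivial F] {b : ColorBasis N} {M : FermionRep N F} {R : GaugeAction b M}
    {φ : Cfg N → F} (hφ : IsCoreVec b R φ) (c : Cfg N) {g : ℝ} (hg : g ≠ 0) (s : ℝ)
    (om : Fin (N ^ 2 - 1) → ℝ) {ψ : Cfg N → F} (hψ : ContDiff ℝ ∞ ψ)
    (hψc : HasCompactSupport ψ) :
    ∫ y, ⟪lf φ (g⁻¹ • c) s y, fderiv ℝ ψ y (brk b om c)⟫_ℂ =
      -((g : ℂ) * ∫ y, ⟪be b M om (lf φ (g⁻¹ • c) s) y, ψ y⟫_ℂ) := by
  have hl1 : ContDiff ℝ 1 (lf φ (g⁻¹ • c) s) := (contDiff_lf hφ.1 (g⁻¹ • c) s).of_le (by simp)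
  have h1 := ibp (μ := (volume : Measure (Cfg N))) hl1 (hψ.of_le (by simp)) (Or.inr hψc)
    (brk b om c)
  have h2 : ∫ y, ⟪fderiv ℝ (lf φ (g⁻¹ • c) s) y (brk b om c), ψ y⟫_ℂ =
      (g : ℂ) * ∫ y, ⟪be b M om (lf φ (g⁻¹ • c) s) y, ψ y⟫_ℂ := by
    rw [← integral_const_mul]
    refine integral_congr_ae (Eventually.of_forall fun y => ?_)
    show ⟪fderiv ℝ (lf φ (g⁻¹ • c) s) y (brk b om c), ψ y⟫_ℂ = _
    rw [fderiv_lf_brk hφ c hg s om y, ← be]
    show ⟪g • be b M om (lf φ (g⁻¹ • c) s) y, ψ y⟫_ℂ = _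
    rw [← Complex.coe_smul, inner_smul_left, Complex.conj_ofReal]
  rw [h2] at h1
  rw [h1, neg_neg]

theorem norm_be_sq (b : ColorBasis N) (M : FermionRep N F) (om : Fin (N ^ 2 - 1) → ℝ)
    (f : Cfg N → F) (y : Cfg N) :
    ‖be b M om f y‖ ^ 2 ≤ 2 * ‖Lift406.Bop b M om‖ ^ 2 * ‖f y‖ ^ 2 +
      2 * (‖brkL b om‖ * ‖y‖) ^ 2 * ‖fderiv ℝ f y‖ ^ 2 := by
  have h1 : ‖be b M om f y‖ ≤ ‖Lift406.Bop b M om‖ * ‖f y‖ +
      ‖fderiv ℝ f y‖ * (‖brkL b om‖ * ‖y‖) := by
    unfold be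
    refine (norm_sub_le _ _).trans (add_le_add (ContinuousLinearMap.le_opNorm _ _) ?_)
    refine (ContinuousLinearMap.le_opNorm _ _).trans ?_
    exact mul_le_mul_of_nonneg_left (ContinuousLinearMap.le_opNorm (brkL b om) y) (norm_nonneg _)
  have h2 := pow_le_pow_left₀ (norm_nonneg _) h1 2
  nlinarith [sq_nonneg (‖Lift406.Bop b M om‖ * ‖f y‖ - ‖fderiv ℝ f y‖ * (‖brkL b om‖ * ‖y‖))]

end Crest.Agent.R330.UpB8

end
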