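import Crest.Agent.R330.UpB_8

/-!
# Row 330, S5d-UP, part C (helper8): the local limit of a low energy sequence

`local_limit` : for core vectors `φ n` with `∫ ‖φ n‖² = 1`, bounded `∫ ‖Dφ n‖²` and
`qf (g n) 1 (φ n) → 0`, `g n → 0`, the functions `lf (φ n) ((g n)⁻¹ c) (μ₁)^(-1/2)` converge in
`L²_loc` along the hyperfilter to a weak solution of the linearised equations of moderate growth.
-/

set_option autoImplicit false
set_option linter.unusedSectionVars false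

open MeasureTheory Filter Set Metric Topology Crest.MathPhysics.MatrixQM
open scoped ContDiff InnerProductSpace ENNReal

noncomputable section

namespace Crest.Agent.R330.UpC8

open Crest.Agent.R330.Defs478 Crest.Agent.R330.S5Defs798 Crest.Agent.R330.IBP837
  Crest.Agent.R330.UpLoc8 Crest.Agent.R330.UpA8 Crest.Agent.R330.UpB8

local notation "𝓤" => (hyperfilter ℕ : Filter ℕ)

/-! ### analysis on `ℝ^ι` -/

section an

variable {ι : Type*} [Fintype ι] {F : Type*} [NormedAddCommGroup F] [InnerProductSpace ℂ F]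

local notation "E" => EuclideanSpace ℝ ι

theorem int_pair {h χ : E → F} (hm : AEStronglyMeasurable h volume)
    (hh : ∀ r : ℝ, IntegrableOn (fun x => ‖h x‖ ^ 2) (closedBall (0 : E) r) volume)
    (hχ : Continuous χ) (hc : HasCompactSupport χ) :
    Integrable (fun x => ⟪h x, χ x⟫_ℂ) volume := by
  obtain ⟨r, hr, hχ0⟩ := exists_ball_supp hc
  have hp : IntegrableOn (fun x => ‖χ x‖ ^ 2) (closedBall (0 : E) r) volume :=
    (hχ.norm.pow 2).continuousOn.integrableOn_compact (isCompact_closedBall 0 r)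
  have h1 : IntegrableOn (fun x => ⟪h x, χ x⟫_ℂ) (closedBall (0 : E) r) volume := by
    refine Integrable.mono' ((hh r).add hp) (hm.restrict.inner hχ.aestronglyMeasurable)
      (Eventually.of_forall fun x => ?_)
    refine (norm_inner_le_norm _ _).trans ?_
    show ‖h x‖ * ‖χ x‖ ≤ ‖h x‖ ^ 2 + ‖χ x‖ ^ 2
    nlinarith [sq_nonneg (‖h x‖ - ‖χ x‖), sq_nonneg (‖h x‖), sq_nonneg (‖χ x‖)]
  refine (integrableOn_iff_integrable_of_support_subset ?_).1 h1
  intro x hx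
  by_contra hx'
  exact hx (by
    show ⟪h x, χ x⟫_ℂ = 0
    rw [hχ0 x hx', inner_zero_right])

theorem tendsto_pair {f : ℕ → E → F} {f₀ χ : E → F} (hf : ∀ n, Continuous (f n))
    (hm : AEStronglyMeasurable f₀ volume)
    (hh : ∀ r : ℝ, IntegrableOn (fun x => ‖f₀ x‖ ^ 2) (closedBall (0 : E) r) volume)
    (ht : ∀ r : ℝ, Tendsto (fun n => ∫ x in closedBall (0 : E) r, ‖f n x - f₀ x‖ ^ 2) 𝓤 (𝓝 0))
    (hχ : Continuous χ) (hc : HasCompactSupport χ) :
    Tendsto (fun n => ∫ x, ⟪f n x, χ x⟫_ℂ) 𝓤 (𝓝 (∫ x, ⟪f₀ x, χ x⟫_ℂ)) := by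
  have hfi : ∀ n (r : ℝ), IntegrableOn (fun x => ‖f n x‖ ^ 2) (closedBall (0 : E) r) volume :=
    fun n r => ((hf n).norm.pow 2).continuousOn.integrableOn_compact (isCompact_closedBall 0 r)
  have hdi : ∀ n (r : ℝ), IntegrableOn (fun x => ‖f n x - f₀ x‖ ^ 2) (closedBall (0 : E) r)
      volume := by
    intro n r
    refine Integrable.mono' (((hfi n r).const_mul 2).add ((hh r).const_mul 2))
      (((hf n).aestronglyMeasurable.sub hm.restrict).norm.pow 2) (Eventually.of_forall fun x => ?_)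
    rw [Real.norm_of_nonneg (by positivity)]
    show ‖f n x - f₀ x‖ ^ 2 ≤ 2 * ‖f n x‖ ^ 2 + 2 * ‖f₀ x‖ ^ 2
    have h1 := norm_sub_le (f n x) (f₀ x)
    have h2 := pow_le_pow_left₀ (norm_nonneg _) h1 2
    nlinarith [sq_nonneg (‖f n x‖ - ‖f₀ x‖)]
  have h1 := tendsto_pair_zero (l := 𝓤) (h := fun n x => f n x - f₀ x) hχ hc
    (fun n r => (hf n).aestronglyMeasurable.sub hm.restrict) hdi (fun r _ => ht r)
  have h2 : ∀ n, ∫ x, ⟪f n x - f₀ x, χ x⟫_ℂ = (∫ x, ⟪f n x, χ x⟫_ℂ) - ∫ x, ⟪f₀ x, χ x⟫_ℂ := by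
    intro n
    rw [← integral_sub (int_pair (hf n).aestronglyMeasurable (hfi n) hχ hc)
      (int_pair hm hh hχ hc)]
    refine integral_congr_ae (Eventually.of_forall fun x => ?_)
    show ⟪f n x - f₀ x, χ x⟫_ℂ = _
    rw [inner_sub_left]
  simp only [h2] at h1
  exact tendsto_sub_nhds_zero_iff.1 h1

/-- norms pass to the limit up to a factor `2` -/
theorem limit_le {f : ℕ → E → F} {f₀ : E → F} (hf : ∀ n, Continuous (f n))
    (hm : AEStronglyMeasurable f₀ volume)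
    (hh : ∀ r : ℝ, IntegrableOn (fun x => ‖f₀ x‖ ^ 2) (closedBall (0 : E) r) volume)
    {r : ℝ}
    (ht : Tendsto (fun n => ∫ x in closedBall (0 : E) r, ‖f n x - f₀ x‖ ^ 2) 𝓤 (𝓝 0)) {K : ℝ}
    (hK : ∀ n, ∫ x in closedBall (0 : E) r, ‖f n x‖ ^ 2 ≤ K) :
    ∫ x in closedBall (0 : E) r, ‖f₀ x‖ ^ 2 ≤ 2 * K := by
  have hfi : ∀ n, IntegrableOn (fun x => ‖f n x‖ ^ 2) (closedBall (0 : E) r) volume :=
    fun n => ((hf n).norm.pow 2).continuousOn.integrableOn_compact (isCompact_closedBall 0 r)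
  have hdi : ∀ n, IntegrableOn (fun x => ‖f n x - f₀ x‖ ^ 2) (closedBall (0 : E) r)
      volume := by
    intro n
    refine Integrable.mono' (((hfi n).const_mul 2).add ((hh r).const_mul 2))
      (((hf n).aestronglyMeasurable.sub hm.restrict).norm.pow 2) (Eventually.of_forall fun x => ?_)
    rw [Real.norm_of_nonneg (by positivity)]
    show ‖f n x - f₀ x‖ ^ 2 ≤ 2 * ‖f n x‖ ^ 2 + 2 * ‖f₀ x‖ ^ 2
    have h1 := norm_sub_le (f n x) (f₀ x)
    have h2 := pow_le_pow_left₀ (norm_nonneg _) h1 2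
    nlinarith [sq_nonneg (‖f n x‖ - ‖f₀ x‖)]
  have h1 : ∀ n, ∫ x in closedBall (0 : E) r, ‖f₀ x‖ ^ 2 ≤
      2 * K + 2 * ∫ x in closedBall (0 : E) r, ‖f n x - f₀ x‖ ^ 2 := by
    intro n
    calc ∫ x in closedBall (0 : E) r, ‖f₀ x‖ ^ 2
        ≤ ∫ x in closedBall (0 : E) r, (2 * ‖f n x‖ ^ 2 + 2 * ‖f n x - f₀ x‖ ^ 2) := by
          refine integral_mono (hh r) (((hfi n).const_mul 2).add ((hdi n).const_mul 2))
            fun x => ?_
          show ‖f₀ x‖ ^ 2 ≤ 2 * ‖f n x‖ ^ 2 + 2 * ‖f n x - f₀ x‖ ^ 2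
          have h1 : ‖f₀ x‖ ≤ ‖f n x‖ + ‖f n x - f₀ x‖ := by
            have := norm_sub_le (f n x) (f n x - f₀ x)
            rwa [sub_sub_cancel] at this
          have h2 := pow_le_pow_left₀ (norm_nonneg _) h1 2
          nlinarith [sq_nonneg (‖f n x‖ - ‖f n x - f₀ x‖)]
      _ = 2 * (∫ x in closedBall (0 : E) r, ‖f n x‖ ^ 2) +
          2 * ∫ x in closedBall (0 : E) r, ‖f n x - f₀ x‖ ^ 2 := by
          rw [integral_add ((hfi n).const_mul 2) ((hdi n).const_mul 2), integral_const_mul,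
            integral_const_mul]
      _ ≤ _ := by linarith [hK n]
  have h2 : Tendsto (fun n => 2 * K + 2 * ∫ x in closedBall (0 : E) r, ‖f n x - f₀ x‖ ^ 2) 𝓤
      (𝓝 (2 * K + 2 * 0)) := (ht.const_mul 2).const_add _
  have h3 := ge_of_tendsto' h2 h1
  linarith

theorem limit_ge {f : ℕ → E → F} {f₀ : E → F} (hf : ∀ n, Continuous (f n))
    (hm : AEStronglyMeasurable f₀ volume)
    (hh : ∀ r : ℝ, IntegrableOn (fun x => ‖f₀ x‖ ^ 2) (closedBall (0 : E) r) volume)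
    {r : ℝ}
    (ht : Tendsto (fun n => ∫ x in closedBall (0 : E) r, ‖f n x - f₀ x‖ ^ 2) 𝓤 (𝓝 0)) {K : ℝ}
    (hK : ∀ᶠ n in 𝓤, K ≤ ∫ x in closedBall (0 : E) r, ‖f n x‖ ^ 2) :
    K ≤ 2 * ∫ x in closedBall (0 : E) r, ‖f₀ x‖ ^ 2 := by
  have hfi : ∀ n, IntegrableOn (fun x => ‖f n x‖ ^ 2) (closedBall (0 : E) r) volume :=
    fun n => ((hf n).norm.pow 2).continuousOn.integrableOn_compact (isCompact_closedBall 0 r)
  have hdi : ∀ n, IntegrableOn (fun x => ‖f n x - f₀ x‖ ^ 2) (closedBall (0 : E) r)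
      volume := by
    intro n
    refine Integrable.mono' (((hfi n).const_mul 2).add ((hh r).const_mul 2))
      (((hf n).aestronglyMeasurable.sub hm.restrict).norm.pow 2) (Eventually.of_forall fun x => ?_)
    rw [Real.norm_of_nonneg (by positivity)]
    show ‖f n x - f₀ x‖ ^ 2 ≤ 2 * ‖f n x‖ ^ 2 + 2 * ‖f₀ x‖ ^ 2
    have h1 := norm_sub_le (f n x) (f₀ x)
    have h2 := pow_le_pow_left₀ (norm_nonneg _) h1 2
    nlinarith [sq_nonneg (‖f n x‖ - ‖f₀ x‖)]
  have h1 : ∀ n, ∫ x in closedBall (0 : E) r, ‖f n x‖ ^ 2 ≤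
      2 * (∫ x in closedBall (0 : E) r, ‖f₀ x‖ ^ 2) +
      2 * ∫ x in closedBall (0 : E) r, ‖f n x - f₀ x‖ ^ 2 := by
    intro n
    calc ∫ x in closedBall (0 : E) r, ‖f n x‖ ^ 2
        ≤ ∫ x in closedBall (0 : E) r, (2 * ‖f₀ x‖ ^ 2 + 2 * ‖f n x - f₀ x‖ ^ 2) := by
          refine integral_mono (hfi n) (((hh r).const_mul 2).add ((hdi n).const_mul 2))
            fun x => ?_
          show ‖f n x‖ ^ 2 ≤ 2 * ‖f₀ x‖ ^ 2 + 2 * ‖f n x - f₀ x‖ ^ 2
          have h1 : ‖f n x‖ ≤ ‖f₀ x‖ + ‖f n x - f₀ x‖ := by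
            have := norm_add_le (f₀ x) (f n x - f₀ x)
            rwa [add_sub_cancel] at this
          have h2 := pow_le_pow_left₀ (norm_nonneg _) h1 2
          nlinarith [sq_nonneg (‖f₀ x‖ - ‖f n x - f₀ x‖)]
      _ = _ := by
          rw [integral_add ((hh r).const_mul 2) ((hdi n).const_mul 2), integral_const_mul,
            integral_const_mul]
  have h2 : Tendsto (fun n => 2 * (∫ x in closedBall (0 : E) r, ‖f₀ x‖ ^ 2) +
      2 * ∫ x in closedBall (0 : E) r, ‖f n x - f₀ x‖ ^ 2) 𝓤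
      (𝓝 (2 * (∫ x in closedBall (0 : E) r, ‖f₀ x‖ ^ 2) + 2 * 0)) := (ht.const_mul 2).const_add _
  have h3 := ge_of_tendsto h2 (hK.mono fun n hn => hn.trans (h1 n))
  linarith

/-- polynomial growth of the mass of balls gives the exponential weight -/
theorem exp_weight {f₀ : E → F} (hm : AEStronglyMeasurable f₀ volume)
    (hh : ∀ r : ℝ, IntegrableOn (fun x => ‖f₀ x‖ ^ 2) (closedBall (0 : E) r) volume)
    (d : ℕ) (hK : ∀ r : ℝ, 0 ≤ r → ∫ x in closedBall (0 : E) r, ‖f₀ x‖ ^ 2 ≤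
      2 * (1 + 4 * r) ^ d) :
    ∫⁻ x, ENNReal.ofReal (Real.exp (-2 * ‖x‖)) * ‖f₀ x‖ₑ ^ 2 < ⊤ := by
  have hcov : (⋃ k : ℕ, (closedBall (0 : E) (k + 1) \ ball 0 k)) = univ := by
    refine eq_univ_of_forall fun x => ?_
    refine mem_iUnion.2 ⟨⌊‖x‖⌋₊, ?_, ?_⟩
    · rw [mem_closedBall_zero_iff]
      exact (Nat.lt_floor_add_one _).le
    · rw [mem_ball_zero_iff, not_lt]
      exact Nat.floor_le (norm_nonneg _)
  have h1 : ∫⁻ x, ENNReal.ofReal (Real.exp (-2 * ‖x‖)) * ‖f₀ x‖ₑ ^ 2 ≤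
      ∑' k : ℕ, ENNReal.ofReal (Real.exp (-2 * k) * (2 * (1 + 4 * ((k : ℝ) + 1)) ^ d)) := by
    rw [← setLIntegral_univ, ← hcov]
    refine (lintegral_iUnion_le _ _).trans (ENNReal.tsum_le_tsum fun k => ?_)
    calc ∫⁻ x in closedBall (0 : E) (k + 1) \ ball 0 k,
          ENNReal.ofReal (Real.exp (-2 * ‖x‖)) * ‖f₀ x‖ₑ ^ 2
        ≤ ∫⁻ x in closedBall (0 : E) (k + 1) \ ball 0 k,
          ENNReal.ofReal (Real.exp (-2 * k)) * ‖f₀ x‖ₑ ^ 2 := by
          refine setLIntegral_mono' (measurableSet_closedBall.diff measurableSet_ball)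
            fun x hx => ?_
          refine mul_le_mul_left (ENNReal.ofReal_le_ofReal (Real.exp_le_exp.2 ?_)) _
          have : (k : ℝ) ≤ ‖x‖ := by
            have := hx.2
            rwa [mem_ball_zero_iff, not_lt] at this
          linarith
      _ ≤ ∫⁻ x in closedBall (0 : E) (k + 1),
          ENNReal.ofReal (Real.exp (-2 * k)) * ‖f₀ x‖ₑ ^ 2 :=
          lintegral_mono_set sdiff_subset
      _ = ENNReal.ofReal (Real.exp (-2 * k)) * ∫⁻ x in closedBall (0 : E) (k + 1),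
          ‖f₀ x‖ₑ ^ 2 := lintegral_const_mul' _ _ ENNReal.ofReal_ne_top
      _ = ENNReal.ofReal (Real.exp (-2 * k)) *
          ENNReal.ofReal (∫ x in closedBall (0 : E) (k + 1), ‖f₀ x‖ ^ 2) := by
          rw [show ∫⁻ x in closedBall (0 : E) (k + 1), ‖f₀ x‖ₑ ^ 2 =
            ENNReal.ofReal (∫ x in closedBall (0 : E) (k + 1), ‖f₀ x‖ ^ 2) from lint_eq (hh _)]
      _ ≤ ENNReal.ofReal (Real.exp (-2 * k)) *
          ENNReal.ofReal (2 * (1 + 4 * ((k : ℝ) + 1)) ^ d) := by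
          gcongr
          exact hK _ (by positivity)
      _ = _ := by rw [ENNReal.ofReal_mul (Real.exp_pos _).le]
  refine h1.trans_lt ?_
  have hs : Summable fun k : ℕ => Real.exp (-2 * k) * (2 * (1 + 4 * ((k : ℝ) + 1)) ^ d) := by
    have h2 := (summable_nat_add_iff 1).2
      (Real.summable_pow_mul_exp_neg_nat_mul d (show (0 : ℝ) < 2 by norm_num))
    have h3 := h2.mul_left (2 * 5 ^ d * Real.exp 2)
    refine Summable.of_nonneg_of_le (fun k => by positivity) (fun k => ?_) h3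
    have h4 : (1 + 4 * ((k : ℝ) + 1)) ^ d ≤ 5 ^ d * ((k : ℝ) + 1) ^ d := by
      rw [← mul_pow]
      refine pow_le_pow_left₀ (by positivity) ?_ d
      have : (0 : ℝ) ≤ k := Nat.cast_nonneg k
      linarith
    have h5 : Real.exp (-2 * (k : ℝ)) = Real.exp 2 * Real.exp (-2 * ((k + 1 : ℕ) : ℝ)) := by
      rw [← Real.exp_add]
      congr 1
      push_cast
      ring
    rw [h5]
    push_cast
    calc Real.exp 2 * Real.exp (-2 * ((k : ℝ) + 1)) * (2 * (1 + 4 * ((k : ℝ) + 1)) ^ d)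
        ≤ Real.exp 2 * Real.exp (-2 * ((k : ℝ) + 1)) * (2 * (5 ^ d * ((k : ℝ) + 1) ^ d)) := by
          gcongr
      _ = _ := by ring
  rw [← ENNReal.ofReal_tsum_of_nonneg (fun k => by positivity) hs]
  exact ENNReal.ofReal_lt_top

end an

/-! ### the normalised shifted vectors -/

variable {N : ℕ} {F : Type*} [NormedAddCommGroup F] [InnerProductSpace ℂ F]
  [FiniteDimensional ℂ F]

/-- the normalisation -/
def sn (b : ColorBasis N) (p : Cfg N) : ℝ := (Real.sqrt (mu1 b p))⁻¹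

theorem sn_sq (b : ColorBasis N) (p : Cfg N) : sn b p ^ 2 * mu1 b p = 1 := by
  unfold sn
  rw [inv_pow, Real.sq_sqrt (mu1_pos b p).le, inv_mul_cancel₀ (mu1_pos b p).ne']

theorem sn_sq_nonneg (b : ColorBasis N) (p : Cfg N) : 0 ≤ sn b p ^ 2 := sq_nonneg _

/-- the upper bound in normalised form -/
theorem norm_upper {V : Type*} [NormedAddCommGroup V] {u : Cfg N → V} {b : ColorBasis N}
    (hu : Continuous u) (hc : HasCompactSupport u)
    (hinv : ∀ h x, ‖u (b.act h x)‖ = ‖u x‖) (p : Cfg N) {r : ℝ} (hr : 0 ≤ r) :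
    sn b p ^ 2 * ∫ y in closedBall (0 : Cfg N) r, ‖u (p + y)‖ ^ 2 ≤
      gr N r * ∫ x, ‖u x‖ ^ 2 := by
  have h1 := mul_le_mul_of_nonneg_left (loc_upper hu hc hinv p hr) (sn_sq_nonneg b p)
  refine h1.trans (le_of_eq ?_)
  calc sn b p ^ 2 * (gr N r * mu1 b p * ∫ x, ‖u x‖ ^ 2) =
      (sn b p ^ 2 * mu1 b p) * (gr N r * ∫ x, ‖u x‖ ^ 2) := by ring
    _ = _ := by rw [sn_sq, one_mul]

/-- the lower bound in normalised form -/
theorem norm_lower {V : Type*} [NormedAddCommGroup V] {u : Cfg N → V} {b : ColorBasis N}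
    (hu : Continuous u) (hc : HasCompactSupport u)
    (hinv : ∀ h x, ‖u (b.act h x)‖ = ‖u x‖) (p : Cfg N) (r : ℝ) {S : Set (Cfg N)}
    (hSm : MeasurableSet S) (hS : ∀ x ∈ S, ∃ h : SUgrp596.SU N, dist x (b.act h p) ≤ r) :
    ∫ x in S, ‖u x‖ ^ 2 ≤
      sn b p ^ 2 * ∫ y in closedBall (0 : Cfg N) (r + 1), ‖u (p + y)‖ ^ 2 := by
  have h1 := mul_le_mul_of_nonneg_left (loc_lower hu hc hinv p r hSm hS) (sn_sq_nonneg b p)
  refine le_trans (le_of_eq ?_) h1
  rw [← mul_assoc, sn_sq, one_mul]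

section bounds

variable {b : ColorBasis N} {M : FermionRep N F} {R : GaugeAction b M} {φ : Cfg N → F}

theorem lf_int (φ : Cfg N → F) (p : Cfg N) (s r : ℝ) :
    ∫ y in closedBall (0 : Cfg N) r, ‖lf φ p s y‖ ^ 2 =
      s ^ 2 * ∫ y in closedBall (0 : Cfg N) r, ‖φ (p + y)‖ ^ 2 := by
  rw [← integral_const_mul]
  exact integral_congr_ae (Eventually.of_forall fun y => norm_lf φ p s y)

theorem bound_lf (hφ : IsCoreVec b R φ) (p : Cfg N) {r : ℝ} (hr : 0 ≤ r) :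
    ∫ y in closedBall (0 : Cfg N) r, ‖lf φ p (sn b p) y‖ ^ 2 ≤ gr N r * ∫ x, ‖φ x‖ ^ 2 := by
  rw [lf_int]
  exact norm_upper hφ.1.continuous hφ.2.1 (norm_core hφ) p hr

theorem bound_fderiv (hφ : IsCoreVec b R φ) (p : Cfg N) {r : ℝ} (hr : 0 ≤ r) :
    ∫ y in closedBall (0 : Cfg N) r, ‖fderiv ℝ (lf φ p (sn b p)) y‖ ^ 2 ≤
      gr N r * ∫ x, ‖fderiv ℝ φ x‖ ^ 2 := by
  have hcd : Continuous (fderiv ℝ φ) := hφ.1.continuous_fderiv (by simp)
  have h1 := norm_upper (u := fderiv ℝ φ) hcd (hφ.2.1.fderiv (𝕜 := ℝ))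
    (norm_fderiv_core hφ) p hr
  refine le_trans ?_ h1
  rw [← integral_const_mul]
  have hcl : Continuous (fderiv ℝ (lf φ p (sn b p))) :=
    (contDiff_lf hφ.1 p (sn b p)).continuous_fderiv (by simp)
  refine integral_mono
    ((hcl.norm.pow 2).continuousOn.integrableOn_compact (isCompact_closedBall 0 r)) ?_
    fun y => norm_fderiv_lf (cv_diff hφ) p (sn b p) y
  exact ((continuous_const.mul ((hcd.comp (continuous_const.add continuous_id)).norm.pow
    2)).continuousOn.integrableOn_compact (isCompact_closedBall 0 r))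

theorem bound_charge (hφ : IsCoreVec b R φ) (G : GammaNine) (g : ℝ) (α : Fin 16) (p : Cfg N)
    {r : ℝ} (hr : 0 ≤ r) :
    ∫ y in closedBall (0 : Cfg N) r, ‖lf (dcharge b M G g 1 α φ) p (sn b p) y‖ ^ 2 ≤
      gr N r * (16 * qf b M G g 1 φ) := by
  have hQ : IsCoreVec b R (dcharge b M G g 1 α φ) := Brid837.core_dcharge hφ
  refine (bound_lf hQ p hr).trans (mul_le_mul_of_nonneg_left ?_ (gr_nonneg hr))
  unfold qf
  have h1 : ∫ x, ‖dcharge b M G g 1 α φ x‖ ^ 2 ≤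
      ∑ α : Fin 16, ∫ x, ‖dcharge b M G g 1 α φ x‖ ^ 2 :=
    Finset.single_le_sum (f := fun α => ∫ x, ‖dcharge b M G g 1 α φ x‖ ^ 2)
      (fun α _ => integral_nonneg fun x => by positivity) (Finset.mem_univ α)
  linarith

end bounds

/-- **the local limit** -/
theorem local_limit [Nontrivial F] {b : ColorBasis N} {M : FermionRep N F}
    {R : GaugeAction b M} {G : GammaNine} {c : Cfg N}
    (hc : ∀ α β A, wpot b G 1 1 α β A c = 0) {g : ℕ → ℝ} (hg : ∀ n, 0 < g n)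
    (hg0 : Tendsto g atTop (𝓝 0)) {φ : ℕ → Cfg N → F} (hφ : ∀ n, IsCoreVec b R (φ n))
    (h1 : ∀ n, ∫ x, ‖φ n x‖ ^ 2 ≤ 1) {C : ℝ} (hD : ∀ n, ∫ x, ‖fderiv ℝ (φ n) x‖ ^ 2 ≤ C)
    (hq : Tendsto (fun n => qf b M G (g n) 1 (φ n)) atTop (𝓝 0)) :
    ∃ f₀ : Cfg N → F, AEStronglyMeasurable f₀ volume ∧
      (∀ r : ℝ, IntegrableOn (fun x => ‖f₀ x‖ ^ 2) (closedBall 0 r) volume) ∧
      (∀ r : ℝ, Tendsto (fun n => ∫ x in closedBall (0 : Cfg N) r,
        ‖lf (φ n) ((g n)⁻¹ • c) (sn b ((g n)⁻¹ • c)) x - f₀ x‖ ^ 2) 𝓤 (𝓝 0)) ∧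
      (∫⁻ x, ENNReal.ofReal (Real.exp (-2 * ‖x‖)) * ‖f₀ x‖ₑ ^ 2 < ⊤) ∧
      (∀ ψ : Cfg N → F, ContDiff ℝ ∞ ψ → HasCompactSupport ψ →
        ∀ α, ∫ x, ⟪f₀ x, lcharge b M G c α ψ x⟫_ℂ = 0) ∧
      (∀ ψ : Cfg N → F, ContDiff ℝ ∞ ψ → HasCompactSupport ψ →
        ∀ om, ∫ x, ⟪f₀ x, fderiv ℝ ψ x (brk b om c)⟫_ℂ = 0) := by
  set p : ℕ → Cfg N := fun n => (g n)⁻¹ • c with hp
  set f : ℕ → Cfg N → F := fun n => lf (φ n) (p n) (sn b (p n)) with hf
  have hfs : ∀ n, ContDiff ℝ ∞ (f n) := fun n => contDiff_lf (hφ n).1 _ _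
  have hC : 0 ≤ C := (integral_nonneg fun x => by positivity).trans (hD 0)
  have hf1 : ∀ (r : ℝ), 0 ≤ r → ∀ n, ∫ y in closedBall (0 : Cfg N) r, ‖f n y‖ ^ 2 ≤ gr N r := by
    intro r hr n
    refine (bound_lf (hφ n) (p n) hr).trans ?_
    calc gr N r * ∫ x, ‖φ n x‖ ^ 2 ≤ gr N r * 1 :=
          mul_le_mul_of_nonneg_left (h1 n) (gr_nonneg hr)
      _ = _ := mul_one _
  have hf2 : ∀ (r : ℝ), 0 ≤ r → ∀ n, ∫ y in closedBall (0 : Cfg N) r,
      ‖fderiv ℝ (f n) y‖ ^ 2 ≤ gr N r * C := by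
    intro r hr n
    exact (bound_fderiv (hφ n) (p n) hr).trans
      (mul_le_mul_of_nonneg_left (hD n) (gr_nonneg hr))
  have hi1 : ∀ n (r : ℝ), IntegrableOn (fun y => ‖f n y‖ ^ 2) (closedBall (0 : Cfg N) r) volume :=
    fun n r => intOn_of_cont (hfs n).continuous r
  have hi2 : ∀ n (r : ℝ), IntegrableOn (fun y => ‖fderiv ℝ (f n) y‖ ^ 2)
      (closedBall (0 : Cfg N) r) volume := fun n r =>
    (((hfs n).continuous_fderiv (by simp)).norm.pow 2).continuousOn.integrableOn_compact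
      (isCompact_closedBall 0 r)
  obtain ⟨f₀, hm, hh, ht⟩ := loc_hyper hfs fun r => by
    refine ⟨max (gr N (max r 0)) (gr N (max r 0) * C), fun n => ⟨?_, ?_⟩⟩
    · refine le_trans ?_ ((hf1 (max r 0) (le_max_right _ _) n).trans (le_max_left _ _))
      exact setIntegral_mono_set (hi1 n _) (Eventually.of_forall fun y => by positivity)
        (closedBall_subset_closedBall (le_max_left _ _)).eventuallyLE
    · refine le_trans ?_ ((hf2 (max r 0) (le_max_right _ _) n).trans (le_max_right _ _))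
      exact setIntegral_mono_set (hi2 n _) (Eventually.of_forall fun y => by positivity)
        (closedBall_subset_closedBall (le_max_left _ _)).eventuallyLE
  have hcont : ∀ n, Continuous (f n) := fun n => (hfs n).continuous
  have hgu : Tendsto g 𝓤 (𝓝 0) := hg0.mono_left hyper_le
  have hqu : Tendsto (fun n => qf b M G (g n) 1 (φ n)) 𝓤 (𝓝 0) := hq.mono_left hyper_le
  refine ⟨f₀, hm, hh, ht, ?_, ?_, ?_⟩
  · refine exp_weight hm hh (Module.finrank ℝ (Cfg N)) fun r hr => ?_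
    exact limit_le hcont hm hh (ht r) (hf1 r hr)
  · intro ψ hψ hψc α
    have hψ1 : ContDiff ℝ 1 ψ := hψ.of_le (by simp)
    have t1 := tendsto_pair hcont hm hh ht (continuous_lcharge b M G c α hψ1)
      (hcs_lcharge b M G c α hψc)
    have t2 := tendsto_pair hcont hm hh ht (continuous_vq b M G α hψ.continuous)
      (hcs_vq b M G α hψc)
    have hQs : ∀ n, ContDiff ℝ ∞ (lf (dcharge b M G (g n) 1 α (φ n)) (p n) (sn b (p n))) :=
      fun n => contDiff_lf (Brid837.contDiff_dcharge (hφ n).1) _ _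
    have t3 : Tendsto (fun n => ∫ y, ⟪lf (dcharge b M G (g n) 1 α (φ n)) (p n) (sn b (p n)) y,
        ψ y⟫_ℂ) 𝓤 (𝓝 0) := by
      refine tendsto_pair_zero hψ.continuous hψc (fun n r => (hQs n).continuous.aestronglyMeasurable)
        (fun n r => intOn_of_cont (hQs n).continuous r) fun r hr => ?_
      have h4 : Tendsto (fun n => gr N r * (16 * qf b M G (g n) 1 (φ n))) 𝓤 (𝓝 0) := by
        have := (hqu.const_mul 16).const_mul (gr N r)
        simpa using this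
      exact squeeze_zero (fun n => integral_nonneg fun y => by positivity)
        (fun n => bound_charge (hφ n) G (g n) α (p n) hr) h4
    have t4 : Tendsto (fun n => ((g n : ℝ) : ℂ) * ∫ y, ⟪f n y, vq b M G α ψ y⟫_ℂ) 𝓤 (𝓝 0) := by
      have h5 : Tendsto (fun n => ((g n : ℝ) : ℂ)) 𝓤 (𝓝 0) := by
        have := (Complex.continuous_ofReal.tendsto 0).comp hgu
        simpa [Function.comp_def] using this
      have := h5.mul t2
      simpa using this
    have t5 := t3.sub t4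
    have t6 : Tendsto (fun n => ∫ y, ⟪f n y, lcharge b M G c α ψ y⟫_ℂ) 𝓤 (𝓝 (0 - 0)) := by
      refine t5.congr fun n => ?_
      exact (int_lcharge hc (hg n).ne' α (hφ n).1 (sn b (p n)) hψ hψc).symm
    rw [sub_zero] at t6
    exact tendsto_nhds_unique t1 t6
  · intro ψ hψ hψc om
    have hψ1 : ContDiff ℝ 1 ψ := hψ.of_le (by simp)
    have t1 := tendsto_pair hcont hm hh ht (fderiv_apply_continuous hψ1 (brk b om c))
      (hasCompactSupport_fderiv_apply hψc (brk b om c))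
    set K : ℝ → ℝ := fun r => 2 * ‖Lift406.Bop b M om‖ ^ 2 * gr N r +
      2 * (‖brkL b om‖ * r) ^ 2 * (gr N r * C) with hK
    have hbc : ∀ n, Continuous (be b M om (f n)) := fun n => continuous_be b M om (hfs n)
    have hbe : ∀ n r, 0 ≤ r → ∫ y in closedBall (0 : Cfg N) r, ‖be b M om (f n) y‖ ^ 2 ≤ K r := by
      intro n r hr
      calc ∫ y in closedBall (0 : Cfg N) r, ‖be b M om (f n) y‖ ^ 2
          ≤ ∫ y in closedBall (0 : Cfg N) r, (2 * ‖Lift406.Bop b M om‖ ^ 2 * ‖f n y‖ ^ 2 +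
              2 * (‖brkL b om‖ * r) ^ 2 * ‖fderiv ℝ (f n) y‖ ^ 2) := by
            refine setIntegral_mono_on (intOn_of_cont (hbc n) r)
              (((hi1 n r).const_mul _).add ((hi2 n r).const_mul _)) measurableSet_closedBall
              fun y hy => ?_
            refine (norm_be_sq b M om (f n) y).trans ?_
            have : ‖y‖ ≤ r := by rwa [mem_closedBall_zero_iff] at hy
            gcongr
        _ = 2 * ‖Lift406.Bop b M om‖ ^ 2 * (∫ y in closedBall (0 : Cfg N) r, ‖f n y‖ ^ 2) +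
              2 * (‖brkL b om‖ * r) ^ 2 *
                ∫ y in closedBall (0 : Cfg N) r, ‖fderiv ℝ (f n) y‖ ^ 2 := by
            rw [integral_add ((hi1 n r).const_mul _) ((hi2 n r).const_mul _),
              integral_const_mul, integral_const_mul]
        _ ≤ K r := by
            exact add_le_add
              (mul_le_mul_of_nonneg_left (hf1 r hr n) (by positivity))
              (mul_le_mul_of_nonneg_left (hf2 r hr n) (by positivity))
    have hgbc : ∀ n, Continuous fun y => ((g n : ℝ) : ℂ) • be b M om (f n) y := fun n =>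
      continuous_const.smul (hbc n)
    have t2 : Tendsto (fun n => ∫ y, ⟪((g n : ℝ) : ℂ) • be b M om (f n) y, ψ y⟫_ℂ) 𝓤 (𝓝 0) := by
      refine tendsto_pair_zero hψ.continuous hψc (fun n r => (hgbc n).aestronglyMeasurable)
        (fun n r => intOn_of_cont (hgbc n) r) fun r hr => ?_
      have h4 : Tendsto (fun n => g n ^ 2 * K r) 𝓤 (𝓝 0) := by
        have := (hgu.pow 2).mul_const (K r)
        simpa using this
      refine squeeze_zero (fun n => integral_nonneg fun y => by positivity) (fun n => ?_) h4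
      have h5 : ∫ y in closedBall (0 : Cfg N) r, ‖((g n : ℝ) : ℂ) • be b M om (f n) y‖ ^ 2 =
          g n ^ 2 * ∫ y in closedBall (0 : Cfg N) r, ‖be b M om (f n) y‖ ^ 2 := by
        rw [← integral_const_mul]
        refine integral_congr_ae (Eventually.of_forall fun y => ?_)
        show ‖((g n : ℝ) : ℂ) • be b M om (f n) y‖ ^ 2 = _
        rw [norm_smul, mul_pow, Complex.norm_real, Real.norm_eq_abs, sq_abs]
      rw [h5]
      exact mul_le_mul_of_nonneg_left (hbe n r hr) (sq_nonneg _)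
    have t3 : Tendsto (fun n => ∫ y, ⟪f n y, fderiv ℝ ψ y (brk b om c)⟫_ℂ) 𝓤 (𝓝 (-0)) := by
      refine t2.neg.congr fun n => ?_
      have h6 := int_brk (hφ n) c (hg n).ne' (sn b (p n)) om hψ hψc
      have h7 : ∫ y, ⟪((g n : ℝ) : ℂ) • be b M om (f n) y, ψ y⟫_ℂ =
          ((g n : ℝ) : ℂ) * ∫ y, ⟪be b M om (f n) y, ψ y⟫_ℂ := by
        rw [← integral_const_mul]
        refine integral_congr_ae (Eventually.of_forall fun y => ?_)
        show ⟪((g n : ℝ) : ℂ) • be b M om (f n) y, ψ y⟫_ℂ = _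
        rw [inner_smul_left, Complex.conj_ofReal]
      rw [h7]
      exact h6.symm
    rw [neg_zero] at t3
    exact tendsto_nhds_unique t1 t3

end Crest.Agent.R330.UpC8

end
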