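import Crest.Agent.R330.LiouFin_674
import Crest.Agent.R330.UpFin_8

/-!
# Row 330, S5: `dim ker ≤ p(N)` for small coupling, no open input (8 + 561 + 350 + 674)
-/

set_option autoImplicit false

namespace Crest.Agent.R330.UpClose674

open Crest.Agent.R330.S5Defs798

/-- Field `up` closed. -/
theorem upper {N : ℕ} (hN : 0 < N) : Upper N :=
  UpFin8.upper hN (Lin561.vacPackProp N) (LiouFin674.liouvilleProp N)

end Crest.Agent.R330.UpClose674
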