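import Crest.Agent.R330.Rellich_893
import Crest.Agent.R330.IBP_837
import Crest.Agent.R330.Moll_596

/-!
# Row 330, S5d-UP: local limits along the hyperfilter (helper8)

* `lint_eq` : `∫⁻ ‖f‖ₑ² = ofReal ∫ ‖f‖²` on a set.
* `loc_hyper` : a sequence bounded in `H¹` of every ball converges in `L²` of every ball along the
  hyperfilter.
* `tendsto_inner_loc` : inner products with compactly supported continuous functions converge.
-/

set_option autoImplicit false
set_option linter.unusedSectionVars false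

open MeasureTheory Filter Set Metric
open scoped ENNReal Topology ContDiff InnerProductSpace

noncomputable section
namespace Crest.Agent.R330.UpLoc8

open Crest.Agent.R330.Rel893

variable {ι : Type*} [Fintype ι]
  {F : Type*} [NormedAddCommGroup F] [InnerProductSpace ℂ F] [FiniteDimensional ℂ F]

local notation "E" => EuclideanSpace ℝ ι

/-- the hyperfilter -/
local notation "𝓤" => (hyperfilter ℕ : Filter ℕ)

theorem hyper_le : 𝓤 ≤ atTop := by
  rw [← Nat.cofinite_eq_atTop]; exact hyperfilter_le_cofinite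

theorem setball (R : ℝ) : {x : E | ‖x‖ ≤ R} = closedBall 0 R := by
  ext x; simp

theorem lint_eq {X G : Type*} [MeasurableSpace X] {μ : Measure X} [NormedAddCommGroup G]
    {f : X → G} (hf : Integrable (fun x => ‖f x‖ ^ 2) μ) :
    ∫⁻ x, ‖f x‖ₑ ^ 2 ∂μ = ENNReal.ofReal (∫ x, ‖f x‖ ^ 2 ∂μ) := by
  rw [ofReal_integral_eq_lintegral_ofReal hf (Eventually.of_forall fun x => by positivity)]
  refine lintegral_congr fun x => ?_
  rw [ENNReal.ofReal_pow (norm_nonneg _), ofReal_norm]

/-- the converse bound -/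
theorem int_le_of_lint {X G : Type*} [MeasurableSpace X] {μ : Measure X} [NormedAddCommGroup G]
    {f : X → G} (hf : Integrable (fun x => ‖f x‖ ^ 2) μ) {C : ℝ} (hC : 0 ≤ C)
    (h : ∫⁻ x, ‖f x‖ₑ ^ 2 ∂μ ≤ ENNReal.ofReal C) : ∫ x, ‖f x‖ ^ 2 ∂μ ≤ C := by
  rw [lint_eq hf] at h
  exact (ENNReal.ofReal_le_ofReal_iff hC).1 h

theorem intOn_of_cont {f : E → F} (hf : Continuous f) (R : ℝ) :
    IntegrableOn (fun x => ‖f x‖ ^ 2) (closedBall 0 R) volume :=
  (hf.norm.pow 2).continuousOn.integrableOn_compact (isCompact_closedBall 0 R)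

theorem int_sub_le {S : Set E} {f g h : E → F}
    (hfg : IntegrableOn (fun x => ‖f x - g x‖ ^ 2) S volume)
    (hfh : IntegrableOn (fun x => ‖f x - h x‖ ^ 2) S volume)
    (hgh : IntegrableOn (fun x => ‖g x - h x‖ ^ 2) S volume) :
    ∫ x in S, ‖g x - h x‖ ^ 2 ≤
      2 * (∫ x in S, ‖f x - g x‖ ^ 2) + 2 * (∫ x in S, ‖f x - h x‖ ^ 2) := by
  rw [← integral_const_mul, ← integral_const_mul, ← integral_add (hfg.const_mul 2)
    (hfh.const_mul 2)]
  refine integral_mono hgh ((hfg.const_mul 2).add (hfh.const_mul 2)) fun x => ?_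
  have h1 : g x - h x = (f x - h x) - (f x - g x) := by abel
  have h2 : ‖g x - h x‖ ≤ ‖f x - h x‖ + ‖f x - g x‖ := by rw [h1]; exact norm_sub_le _ _
  have h3 : ‖g x - h x‖ ^ 2 ≤ (‖f x - h x‖ + ‖f x - g x‖) ^ 2 := by gcongr
  show ‖g x - h x‖ ^ 2 ≤ 2 * ‖f x - g x‖ ^ 2 + 2 * ‖f x - h x‖ ^ 2
  nlinarith [sq_nonneg (‖f x - h x‖ - ‖f x - g x‖)]

/-- smooth cut-offs -/
theorem exists_chi (m : ℕ) : ∃ χ : E → ℝ, ContDiff ℝ ∞ χ ∧ HasCompactSupport χ ∧
    (∀ x, 0 ≤ χ x) ∧ (∀ x, χ x ≤ 1) ∧ (∀ x, ‖x‖ ≤ m + 1 → χ x = 1) ∧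
    (∀ x, m + 2 < ‖x‖ → χ x = 0) := by
  let β : ContDiffBump (0 : E) := ⟨m + 1, m + 2, by positivity, by linarith⟩
  refine ⟨β, β.contDiff, β.hasCompactSupport, fun x => β.nonneg, fun x => β.le_one, ?_, ?_⟩
  · intro x hx
    exact β.one_of_mem_closedBall (by simpa [mem_closedBall, β] using hx)
  · intro x hx
    exact β.zero_of_le_dist (by simpa [β] using hx.le)

set_option maxHeartbeats 1000000 in
/-- **local limits along the hyperfilter** -/
theorem loc_hyper {f : ℕ → E → F} (hs : ∀ n, ContDiff ℝ ∞ (f n))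
    (hb : ∀ R : ℝ, ∃ C : ℝ, ∀ n, ∫ x in closedBall 0 R, ‖f n x‖ ^ 2 ≤ C ∧
      ∫ x in closedBall 0 R, ‖fderiv ℝ (f n) x‖ ^ 2 ≤ C) :
    ∃ f₀ : E → F, AEStronglyMeasurable f₀ volume ∧
      (∀ R : ℝ, IntegrableOn (fun x => ‖f₀ x‖ ^ 2) (closedBall 0 R) volume) ∧
      ∀ R : ℝ, Tendsto (fun n => ∫ x in closedBall 0 R, ‖f n x - f₀ x‖ ^ 2) 𝓤 (𝓝 0) := by
  classical
  -- the limits of the cut-off functions
  have key : ∀ m : ℕ, ∃ Ψ : E → F, MemLp Ψ 2 volume ∧
      Tendsto (fun n => ∫ x in closedBall 0 (m + 1 : ℝ), ‖f n x - Ψ x‖ ^ 2) 𝓤 (𝓝 0) := by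
    intro m
    obtain ⟨χ, hχs, hχc, hχ0, hχ1, hχe, hχz⟩ := exists_chi (ι := ι) m
    obtain ⟨C, hC⟩ := hb (m + 2)
    obtain ⟨K, hK⟩ : ∃ K : ℝ, ∀ x, ‖fderiv ℝ χ x‖ ≤ K := by
      have hcont : Continuous fun x => fderiv ℝ χ x := hχs.continuous_fderiv (by simp)
      obtain ⟨K, hK⟩ := (hχc.fderiv (𝕜 := ℝ)).exists_bound_of_continuous hcont
      exact ⟨K, hK⟩
    have hK0 : 0 ≤ K := (norm_nonneg _).trans (hK 0)
    have hgs : ∀ n, ContDiff ℝ ∞ (fun x => χ x • f n x) := fun n => hχs.smul (hs n)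
    have hgc : ∀ n, HasCompactSupport (fun x => χ x • f n x) := fun n => hχc.smul_right
    have hsupp : ∀ n, ∀ x, x ∉ closedBall (0 : E) (m + 2) → χ x • f n x = 0 := by
      intro n x hx
      rw [hχz x (by simpa using hx), zero_smul]
    have h0 : ∀ n, ∫ x, ‖χ x • f n x‖ ^ 2 ≤ C := by
      intro n
      have e1 : ∫ x, ‖χ x • f n x‖ ^ 2 = ∫ x in closedBall (0 : E) (m + 2), ‖χ x • f n x‖ ^ 2 := by
        rw [setIntegral_eq_integral_of_forall_compl_eq_zero]
        intro x hx
        rw [hsupp n x hx]; simp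
      rw [e1]
      refine le_trans ?_ (hC n).1
      refine integral_mono (intOn_of_cont (hgs n).continuous _) (intOn_of_cont (hs n).continuous _)
        fun x => ?_
      show ‖χ x • f n x‖ ^ 2 ≤ ‖f n x‖ ^ 2
      rw [norm_smul, Real.norm_of_nonneg (hχ0 x)]
      have : χ x * ‖f n x‖ ≤ 1 * ‖f n x‖ := by gcongr; exact hχ1 x
      rw [one_mul] at this
      exact pow_le_pow_left₀ (mul_nonneg (hχ0 x) (norm_nonneg _)) this 2
    -- derivative
    set c : ℝ := (Fintype.card ι : ℝ) * (2 * K ^ 2 * C + 2 * C) with hc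
    have hCn : 0 ≤ C := (integral_nonneg fun x => by positivity).trans (hC 0).1
    have hder : ∀ n x, ‖fderiv ℝ (fun y => χ y • f n y) x‖ ^ 2 ≤
        2 * K ^ 2 * ‖f n x‖ ^ 2 + 2 * ‖fderiv ℝ (f n) x‖ ^ 2 := by
      intro n x
      have hd1 : DifferentiableAt ℝ χ x := (hχs.differentiable (by simp)) x
      have hd2 : DifferentiableAt ℝ (f n) x := ((hs n).differentiable (by simp)) x
      rw [fderiv_fun_smul hd1 hd2]
      have h1 : ‖χ x • fderiv ℝ (f n) x + (fderiv ℝ χ x).smulRight (f n x)‖ ≤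
          ‖fderiv ℝ (f n) x‖ + K * ‖f n x‖ := by
        refine (norm_add_le _ _).trans (add_le_add ?_ ?_)
        · rw [norm_smul, Real.norm_of_nonneg (hχ0 x)]
          calc χ x * ‖fderiv ℝ (f n) x‖ ≤ 1 * ‖fderiv ℝ (f n) x‖ := by
                gcongr; exact hχ1 x
            _ = _ := one_mul _
        · rw [ContinuousLinearMap.norm_smulRight_apply]
          gcongr
          exact hK x
      have h2 : ‖χ x • fderiv ℝ (f n) x + (fderiv ℝ χ x).smulRight (f n x)‖ ^ 2 ≤
          (‖fderiv ℝ (f n) x‖ + K * ‖f n x‖) ^ 2 := by gcongr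
      nlinarith [sq_nonneg (‖fderiv ℝ (f n) x‖ - K * ‖f n x‖)]
    have h1 : ∀ n, ∫ x, ∑ i, ‖fderiv ℝ (fun y => χ y • f n y) x (EuclideanSpace.single i 1)‖ ^ 2
        ≤ c := by
      intro n
      have hcd : Continuous fun x => fderiv ℝ (f n) x := (hs n).continuous_fderiv (by simp)
      have hcg : Continuous fun x => fderiv ℝ (fun y => χ y • f n y) x :=
        (hgs n).continuous_fderiv (by simp)
      have e1 : ∫ x, ∑ i, ‖fderiv ℝ (fun y => χ y • f n y) x (EuclideanSpace.single i 1)‖ ^ 2 =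
          ∫ x in closedBall (0 : E) (m + 2),
            ∑ i, ‖fderiv ℝ (fun y => χ y • f n y) x (EuclideanSpace.single i 1)‖ ^ 2 := by
        rw [setIntegral_eq_integral_of_forall_compl_eq_zero]
        intro x hx
        have h2 : (fun y => χ y • f n y) =ᶠ[𝓝 x] fun _ => 0 := by
          have : (closedBall (0 : E) (m + 2))ᶜ ∈ 𝓝 x :=
            isClosed_closedBall.isOpen_compl.mem_nhds hx
          filter_upwards [this] with y hy
          exact hsupp n y hy
        have h3 : fderiv ℝ (fun y => χ y • f n y) x = 0 := by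
          rw [h2.fderiv_eq]; simp
        simp [h3]
      rw [e1]
      have hi1 : IntegrableOn (fun x => ‖f n x‖ ^ 2) (closedBall (0 : E) (m + 2)) volume :=
        intOn_of_cont (hs n).continuous _
      have hi2 : IntegrableOn (fun x => ‖fderiv ℝ (f n) x‖ ^ 2) (closedBall (0 : E) (m + 2))
          volume :=
        (hcd.norm.pow 2).continuousOn.integrableOn_compact (isCompact_closedBall 0 _)
      have hi3 : IntegrableOn (fun x => ∑ i : ι,
          ‖fderiv ℝ (fun y => χ y • f n y) x (EuclideanSpace.single i 1)‖ ^ 2)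
          (closedBall (0 : E) (m + 2)) volume := by
        have hc3 : Continuous fun x => ∑ i : ι,
            ‖fderiv ℝ (fun y => χ y • f n y) x (EuclideanSpace.single i 1)‖ ^ 2 :=
          continuous_finsetSum _ fun i _ => (hcg.clm_apply continuous_const).norm.pow 2
        exact hc3.continuousOn.integrableOn_compact (isCompact_closedBall 0 _)
      calc ∫ x in closedBall (0 : E) (m + 2),
            ∑ i, ‖fderiv ℝ (fun y => χ y • f n y) x (EuclideanSpace.single i 1)‖ ^ 2
          ≤ ∫ x in closedBall (0 : E) (m + 2),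
            ((Fintype.card ι : ℝ) * (2 * K ^ 2 * ‖f n x‖ ^ 2 + 2 * ‖fderiv ℝ (f n) x‖ ^ 2)) := by
            refine integral_mono hi3 ?_ fun x => ?_
            · exact (((hi1.const_mul (2 * K ^ 2)).add (hi2.const_mul 2))).const_mul _
            · show ∑ i, ‖fderiv ℝ (fun y => χ y • f n y) x (EuclideanSpace.single i 1)‖ ^ 2 ≤ _
              have h4 : ∀ i ∈ (Finset.univ : Finset ι),
                  ‖fderiv ℝ (fun y => χ y • f n y) x (EuclideanSpace.single i 1)‖ ^ 2 ≤
                  2 * K ^ 2 * ‖f n x‖ ^ 2 + 2 * ‖fderiv ℝ (f n) x‖ ^ 2 := by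
                intro i _
                refine le_trans ?_ (hder n x)
                have h5 := (fderiv ℝ (fun y => χ y • f n y) x).le_opNorm
                  (EuclideanSpace.single i (1 : ℝ))
                rw [EuclideanSpace.norm_single, norm_one, mul_one] at h5
                gcongr
              have h6 := Finset.sum_le_card_nsmul _ _ _ h4
              rwa [nsmul_eq_mul, Finset.card_univ] at h6
        _ = (Fintype.card ι : ℝ) * (2 * K ^ 2 * (∫ x in closedBall (0 : E) (m + 2), ‖f n x‖ ^ 2) +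
            2 * (∫ x in closedBall (0 : E) (m + 2), ‖fderiv ℝ (f n) x‖ ^ 2)) := by
            rw [integral_const_mul, integral_add (hi1.const_mul _) (hi2.const_mul _),
              integral_const_mul, integral_const_mul]
        _ ≤ c := by
            rw [hc]
            have := hC n
            gcongr
            · exact this.1
            · exact this.2
    obtain ⟨Ψ, hΨ, hR⟩ := rellich_hyper (C := max C c) hgs hgc
      (fun n => (h0 n).trans (le_max_left _ _)) (fun n => (h1 n).trans (le_max_right _ _))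
    refine ⟨Ψ, hΨ, (hR (m + 1)).congr fun n => ?_⟩
    rw [setball]
    refine setIntegral_congr_fun measurableSet_closedBall fun x hx => ?_
    have hx' : ‖x‖ ≤ m + 1 := by simpa using hx
    show ‖χ x • f n x - Ψ x‖ ^ 2 = ‖f n x - Ψ x‖ ^ 2
    rw [hχe x hx', one_smul]
  choose Ψ hΨ hlim using key
  -- agreement
  have hagree : ∀ k m : ℕ, k ≤ m → ∀ᵐ x ∂volume, ‖x‖ < k + 1 → Ψ k x = Ψ m x := by
    intro k m hkm
    have hS : closedBall (0 : E) (k + 1 : ℝ) ⊆ closedBall (0 : E) (m + 1 : ℝ) := by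
      refine closedBall_subset_closedBall ?_
      have : (k : ℝ) ≤ m := by exact_mod_cast hkm
      linarith
    have hi : ∀ n j, IntegrableOn (fun x => ‖f n x - Ψ j x‖ ^ 2) (closedBall (0 : E) (m + 1))
        volume := by
      intro n j
      have hc1 : MemLp (f n) 2 (volume.restrict (closedBall (0 : E) (m + 1))) :=
        (memLp_two_iff_integrable_sq_norm (hs n).continuous.aestronglyMeasurable).2
          (intOn_of_cont (hs n).continuous _)
      have := hc1.sub ((hΨ j).restrict (closedBall (0 : E) (m + 1)))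
      exact (memLp_two_iff_integrable_sq_norm this.1).1 this
    have hkm' : IntegrableOn (fun x => ‖Ψ k x - Ψ m x‖ ^ 2) (closedBall (0 : E) (k + 1))
        volume := by
      have := ((hΨ k).sub (hΨ m)).restrict (closedBall (0 : E) (k + 1))
      exact (memLp_two_iff_integrable_sq_norm this.1).1 this
    have h1 : ∫ x in closedBall (0 : E) (k + 1), ‖Ψ k x - Ψ m x‖ ^ 2 ≤ 0 := by
      have h2 : Tendsto (fun n => 2 * (∫ x in closedBall (0 : E) (k + 1), ‖f n x - Ψ k x‖ ^ 2) +
          2 * (∫ x in closedBall (0 : E) (m + 1), ‖f n x - Ψ m x‖ ^ 2)) 𝓤 (𝓝 (2 * 0 + 2 * 0)) :=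
        ((hlim k).const_mul 2).add ((hlim m).const_mul 2)
      rw [mul_zero, add_zero] at h2
      refine ge_of_tendsto h2 (Eventually.of_forall fun n => ?_)
      refine (int_sub_le ((hi n k).mono_set hS) ((hi n m).mono_set hS) hkm').trans ?_
      have h3 : ∫ x in closedBall (0 : E) (k + 1), ‖f n x - Ψ m x‖ ^ 2 ≤
          ∫ x in closedBall (0 : E) (m + 1), ‖f n x - Ψ m x‖ ^ 2 :=
        setIntegral_mono_set (hi n m) (Eventually.of_forall fun x => by positivity)
          (Eventually.of_forall hS)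
      linarith
    have h4 : ∫ x in closedBall (0 : E) (k + 1), ‖Ψ k x - Ψ m x‖ ^ 2 = 0 :=
      le_antisymm h1 (integral_nonneg fun x => by positivity)
    rw [setIntegral_eq_zero_iff_of_nonneg_ae (Eventually.of_forall fun x => by positivity) hkm']
      at h4
    rw [Filter.EventuallyEq, ae_restrict_iff' measurableSet_closedBall] at h4
    filter_upwards [h4] with x hx hlt
    have h5 := hx (by simpa using hlt.le)
    have h6 : ‖Ψ k x - Ψ m x‖ = 0 := by
      have : ‖Ψ k x - Ψ m x‖ ^ 2 = 0 := h5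
      exact pow_eq_zero_iff (two_ne_zero) |>.1 this
    exact sub_eq_zero.1 (norm_eq_zero.1 h6)
  set f₀ : E → F := fun x => Ψ ⌊‖x‖⌋₊ x with hf₀
  have hae : ∀ m : ℕ, ∀ᵐ x ∂volume, ‖x‖ < m + 1 → f₀ x = Ψ m x := by
    intro m
    have h1 : ∀ᵐ x ∂(volume : Measure E), ∀ k : ℕ, k ≤ m → ‖x‖ < k + 1 → Ψ k x = Ψ m x := by
      rw [ae_all_iff]
      intro k
      by_cases hk : k ≤ m
      · filter_upwards [hagree k m hk] with x hx _ using hx
      · exact Eventually.of_forall fun x h => absurd h hk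
    filter_upwards [h1] with x hx hlt
    refine hx _ ?_ (Nat.lt_floor_add_one _)
    have h2 : (⌊‖x‖⌋₊ : ℝ) ≤ ‖x‖ := Nat.floor_le (norm_nonneg _)
    have h3 : (⌊‖x‖⌋₊ : ℝ) < m + 1 := h2.trans_lt hlt
    exact_mod_cast Nat.lt_succ_iff.1 (by exact_mod_cast h3)
  have hball : ∀ R : ℝ, ∃ m : ℕ, closedBall (0 : E) R ⊆ ball (0 : E) (m + 1) := by
    intro R
    obtain ⟨m, hm⟩ := exists_nat_ge R
    exact ⟨m, closedBall_subset_ball (by linarith)⟩
  have hrest : ∀ R : ℝ, ∃ m : ℕ, closedBall (0 : E) R ⊆ closedBall (0 : E) (m + 1) ∧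
      f₀ =ᵐ[volume.restrict (closedBall (0 : E) R)] Ψ m := by
    intro R
    obtain ⟨m, hm⟩ := hball R
    refine ⟨m, hm.trans ball_subset_closedBall, ?_⟩
    rw [Filter.EventuallyEq, ae_restrict_iff' measurableSet_closedBall]
    filter_upwards [hae m] with x hx hxR
    exact hx (by simpa using hm hxR)
  have hmeas : AEStronglyMeasurable f₀ volume := by
    have h1 : ∀ m : ℕ, AEStronglyMeasurable f₀ (volume.restrict (closedBall (0 : E) m)) := by
      intro m
      obtain ⟨k, -, hk⟩ := hrest m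
      exact ((hΨ k).1.restrict).congr hk.symm
    have h2 : (⋃ m : ℕ, closedBall (0 : E) m) = univ := by
      refine eq_univ_of_forall fun x => ?_
      obtain ⟨m, hm⟩ := exists_nat_ge ‖x‖
      exact mem_iUnion.2 ⟨m, by simpa using hm⟩
    rw [← Measure.restrict_univ (μ := volume), ← h2]
    exact aestronglyMeasurable_iUnion_iff.2 h1
  refine ⟨f₀, hmeas, fun R => ?_, fun R => ?_⟩
  · obtain ⟨m, -, hm⟩ := hrest R
    have h1 : Integrable (fun x => ‖Ψ m x‖ ^ 2) (volume.restrict (closedBall (0 : E) R)) :=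
      (memLp_two_iff_integrable_sq_norm ((hΨ m).restrict _).1).1 ((hΨ m).restrict _)
    refine h1.congr ?_
    filter_upwards [hm] with x hx
    rw [hx]
  · obtain ⟨m, hsub, hm⟩ := hrest R
    have h1 : ∀ n, IntegrableOn (fun x => ‖f n x - Ψ m x‖ ^ 2) (closedBall (0 : E) (m + 1))
        volume := by
      intro n
      have hc1 : MemLp (f n) 2 (volume.restrict (closedBall (0 : E) (m + 1))) :=
        (memLp_two_iff_integrable_sq_norm (hs n).continuous.aestronglyMeasurable).2
          (intOn_of_cont (hs n).continuous _)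
      have := hc1.sub ((hΨ m).restrict (closedBall (0 : E) (m + 1)))
      exact (memLp_two_iff_integrable_sq_norm this.1).1 this
    refine squeeze_zero (fun n => integral_nonneg fun x => by positivity) (fun n => ?_) (hlim m)
    have h2 : ∫ x in closedBall (0 : E) R, ‖f n x - f₀ x‖ ^ 2 =
        ∫ x in closedBall (0 : E) R, ‖f n x - Ψ m x‖ ^ 2 := by
      refine integral_congr_ae ?_
      filter_upwards [hm] with x hx
      rw [hx]
    rw [h2]
    exact setIntegral_mono_set (h1 n) (Eventually.of_forall fun x => by positivity)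
      (Eventually.of_forall hsub)

end Crest.Agent.R330.UpLoc8

end
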