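import Crest.Agent.R330.UpC_8

/-!
# Row 330, S5d-UP (helper8): `dim ker Q^{g,1} ≤ p(N)` for small coupling

`upper_of` : `Upper N` from the leaves `OrbitsProp`, `VacPackProp`, `VacWpot`, `LiouvilleProp`
(S5Defs_798) and `EnProp`, `VzProp` (UpHyp_8).
-/

set_option autoImplicit false
set_option linter.unusedSectionVars false

open MeasureTheory Filter Set Metric Topology Crest.MathPhysics.MatrixQM
open scoped ContDiff InnerProductSpace ENNReal Cardinal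

noncomputable section

namespace Crest.Agent.R330.Up8

open Crest.Agent.R330.Defs478 Crest.Agent.R330.Top478 Crest.Agent.R330.S5Defs798
  Crest.Agent.R330.IBP837 Crest.Agent.R330.UpLoc8 Crest.Agent.R330.UpA8 Crest.Agent.R330.UpB8
  Crest.Agent.R330.UpC8 Crest.Agent.R330.UpHyp8

local notation "𝓤" => (hyperfilter ℕ : Filter ℕ)

variable {N : ℕ} {F : Type*} [NormedAddCommGroup F] [InnerProductSpace ℂ F]
  [FiniteDimensional ℂ F]

/-! ### normalisation -/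

section norm

variable {b : ColorBasis N} {M : FermionRep N F} {R : GaugeAction b M} {G : GammaNine} {g m : ℝ}

theorem qf_smul (t : ℝ) {φ : Cfg N → F} (hφ : Differentiable ℝ φ) :
    qf b M G g m ((t : ℂ) • φ) = t ^ 2 * qf b M G g m φ := by
  unfold qf
  have h1 : ∀ α : Fin 16, ∫ x, ‖dcharge b M G g m α ((t : ℂ) • φ) x‖ ^ 2 =
      t ^ 2 * ∫ x, ‖dcharge b M G g m α φ x‖ ^ 2 := by
    intro α
    rw [dcharge_smul b M G g m α (t : ℂ) hφ, ← integral_const_mul]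
    refine integral_congr_ae (Eventually.of_forall fun x => ?_)
    show ‖(t : ℂ) • dcharge b M G g m α φ x‖ ^ 2 = _
    rw [norm_smul, mul_pow, Complex.norm_real, Real.norm_eq_abs, sq_abs]
  simp only [h1, ← Finset.mul_sum]
  ring

/-- a normalised core vector violating the lower bound -/
theorem exists_unit {k : ℕ} (v : Fin k → Cfg N → F) {c C : ℝ} (hC : 0 ≤ C)
    (h : ¬ ∀ φ : Cfg N → F, IsCoreVec b R φ → c * ∫ x, ‖φ x‖ ^ 2 ≤
      qf b M G g m φ + C * ∑ i, ‖∫ x, ⟪v i x, φ x⟫_ℂ‖ ^ 2) (hc : 0 < c) :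
    ∃ φ : Cfg N → F, IsCoreVec b R φ ∧ ∫ x, ‖φ x‖ ^ 2 = 1 ∧
      qf b M G g m φ + C * ∑ i, ‖∫ x, ⟪v i x, φ x⟫_ℂ‖ ^ 2 < c := by
  push Not at h
  obtain ⟨φ, hφ, hlt⟩ := h
  set a := ∫ x, ‖φ x‖ ^ 2 with ha
  have hq := Lit416.qf_nonneg (b := b) (M := M) (G := G) (g := g) (m := m) φ
  have hs : 0 ≤ C * ∑ i, ‖∫ x, ⟪v i x, φ x⟫_ℂ‖ ^ 2 := by positivity
  have ha0 : 0 < a := by
    by_contra hn
    have : c * a ≤ 0 := mul_nonpos_of_nonneg_of_nonpos hc.le (not_lt.1 hn)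
    linarith
  set t : ℝ := (Real.sqrt a)⁻¹ with ht
  have ht2 : t ^ 2 = a⁻¹ := by rw [ht, inv_pow, Real.sq_sqrt ha0.le]
  refine ⟨(t : ℂ) • φ, cv_smul _ hφ, ?_, ?_⟩
  · have : ∫ x, ‖((t : ℂ) • φ) x‖ ^ 2 = t ^ 2 * a := by
      rw [ha, ← integral_const_mul]
      refine integral_congr_ae (Eventually.of_forall fun x => ?_)
      show ‖(t : ℂ) • φ x‖ ^ 2 = _
      rw [norm_smul, mul_pow, Complex.norm_real, Real.norm_eq_abs, sq_abs]
    rw [this, ht2, inv_mul_cancel₀ ha0.ne']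
  · have h1 : ∀ i, ‖∫ x, ⟪v i x, ((t : ℂ) • φ) x⟫_ℂ‖ ^ 2 = t ^ 2 * ‖∫ x, ⟪v i x, φ x⟫_ℂ‖ ^ 2 := by
      intro i
      have : ∫ x, ⟪v i x, ((t : ℂ) • φ) x⟫_ℂ = (t : ℂ) * ∫ x, ⟪v i x, φ x⟫_ℂ := by
        rw [← integral_const_mul]
        refine integral_congr_ae (Eventually.of_forall fun x => ?_)
        show ⟪v i x, (t : ℂ) • φ x⟫_ℂ = _
        rw [inner_smul_right]
      rw [this, norm_mul, mul_pow, Complex.norm_real, Real.norm_eq_abs, sq_abs]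
    rw [qf_smul t (cv_diff hφ)]
    simp only [h1, ← Finset.mul_sum]
    have h2 : t ^ 2 * (qf b M G g m φ + C * ∑ i, ‖∫ x, ⟪v i x, φ x⟫_ℂ‖ ^ 2) < t ^ 2 * (c * a) := by
      refine mul_lt_mul_of_pos_left hlt ?_
      rw [ht2]
      exact inv_pos.2 ha0
    calc t ^ 2 * qf b M G g m φ + C * (t ^ 2 * ∑ i, ‖∫ x, ⟪v i x, φ x⟫_ℂ‖ ^ 2) =
        t ^ 2 * (qf b M G g m φ + C * ∑ i, ‖∫ x, ⟪v i x, φ x⟫_ℂ‖ ^ 2) := by ring
      _ < t ^ 2 * (c * a) := h2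
      _ = c := by rw [ht2]; field_simp

end norm

/-! ### the test functions -/

/-- the cut-off vacuum -/
def wt (χ : Cfg N → ℝ) (A : Cfg N →ₗ[ℝ] Cfg N) (Ω : F) (y : Cfg N) : F :=
  (χ y : ℂ) • gau A Ω y

theorem continuous_gau (A : Cfg N →ₗ[ℝ] Cfg N) (Ω : F) : Continuous (gau A Ω) := by
  unfold gau
  have hA : Continuous A := A.continuous_of_finiteDimensional
  exact (Real.continuous_exp.comp (continuous_const.mul (continuous_id.inner hA))).smul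
    continuous_const

theorem continuous_wt {χ : Cfg N → ℝ} (hχ : Continuous χ) (A : Cfg N →ₗ[ℝ] Cfg N) (Ω : F) :
    Continuous (wt χ A Ω) :=
  (Complex.continuous_ofReal.comp hχ).smul (continuous_gau A Ω)

theorem hcs_wt {χ : Cfg N → ℝ} (hχ : HasCompactSupport χ) (A : Cfg N →ₗ[ℝ] Cfg N) (Ω : F) :
    HasCompactSupport (wt χ A Ω) := by
  refine hχ.mono fun x hx => ?_
  rw [Function.mem_support] at hx ⊢
  intro h0
  exact hx (by unfold wt; rw [h0, Complex.ofReal_zero, zero_smul])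

theorem pair_ne_zero {χ : Cfg N → ℝ} (hχ : Continuous χ) (hχc : HasCompactSupport χ)
    (hχ0 : ∀ x, 0 ≤ χ x) (hχ1 : χ 0 = 1) (A : Cfg N →ₗ[ℝ] Cfg N) {Ω : F} (hΩ : ‖Ω‖ = 1)
    {k : ℂ} (hk : k ≠ 0) {f₀ : Cfg N → F} (hf : f₀ =ᵐ[volume] fun x => k • gau A Ω x) :
    ∫ x, ⟪f₀ x, wt χ A Ω x⟫_ℂ ≠ 0 := by
  have h1 : ∫ x, ⟪f₀ x, wt χ A Ω x⟫_ℂ =
      (starRingEnd ℂ) k * ((∫ x, χ x * ‖gau A Ω x‖ ^ 2 : ℝ) : ℂ) := by
    rw [← integral_complex_ofReal, ← integral_const_mul]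
    refine integral_congr_ae ?_
    filter_upwards [hf] with x hx
    rw [hx, wt, inner_smul_left, inner_smul_right, inner_self_eq_norm_sq_to_K]
    push_cast
    rfl
  have h2 : 0 < ∫ x, χ x * ‖gau A Ω x‖ ^ 2 := by
    refine Continuous.integral_pos_of_hasCompactSupport_nonneg_nonzero (x := 0)
      (hχ.mul ((continuous_gau A Ω).norm.pow 2)) hχc.mul_right
      (fun x => mul_nonneg (hχ0 x) (sq_nonneg _)) ?_
    have : gau A Ω 0 = Ω := by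
      unfold gau
      simp
    rw [this, hχ1, hΩ]
    norm_num
  rw [h1]
  exact mul_ne_zero (by simpa using hk) (by exact_mod_cast h2.ne')

/-- overlaps of the shifted vector -/
theorem pair_shift (w φ : Cfg N → F) (p : Cfg N) (s : ℝ) :
    ‖∫ y, ⟪lf φ p s y, w y⟫_ℂ‖ ^ 2 = s ^ 2 * ‖∫ x, ⟪w (x - p), φ x⟫_ℂ‖ ^ 2 := by
  have h1 : ∫ x, ⟪w (x - p), φ x⟫_ℂ = ∫ y, ⟪w y, φ (p + y)⟫_ℂ := by
    rw [← integral_add_left_eq_self (fun x => ⟪w (x - p), φ x⟫_ℂ) p]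
    refine integral_congr_ae (Eventually.of_forall fun y => ?_)
    show ⟪w (p + y - p), φ (p + y)⟫_ℂ = _
    rw [add_sub_cancel_left]
  have h2 : ∫ y, ⟪lf φ p s y, w y⟫_ℂ = (s : ℂ) * (starRingEnd ℂ) (∫ y, ⟪w y, φ (p + y)⟫_ℂ) := by
    rw [← integral_conj, ← integral_const_mul]
    refine integral_congr_ae (Eventually.of_forall fun y => ?_)
    show ⟪lf φ p s y, w y⟫_ℂ = (s : ℂ) * (starRingEnd ℂ) ⟪w y, φ (p + y)⟫_ℂ
    rw [lf, inner_smul_left, Complex.conj_ofReal, inner_conj_symm]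
  rw [h2, h1, norm_mul, mul_pow, Complex.norm_real, Real.norm_eq_abs, sq_abs, Complex.norm_conj]

/-! ### mass near the orbits -/

/-- tube about the orbit of `p` -/
def tb (b : ColorBasis N) (p : Cfg N) (r : ℝ) : Set (Cfg N) :=
  {x | ∃ h : SUgrp596.SU N, dist x (b.act h p) ≤ r}

theorem isClosed_tb (b : ColorBasis N) (p : Cfg N) (r : ℝ) : IsClosed (tb b p r) := by
  have hK : IsCompact (range fun h : SUgrp596.SU N => b.act h p) :=
    isCompact_range ((isoAct b).cont_left p)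
  have hne : (range fun h : SUgrp596.SU N => b.act h p).Nonempty := ⟨_, mem_range_self 1⟩
  have h2 : tb b p r = {x | infDist x (range fun h : SUgrp596.SU N => b.act h p) ≤ r} := by
    ext x
    constructor
    · rintro ⟨h, hh⟩
      exact (infDist_le_dist_of_mem (mem_range_self h)).trans hh
    · intro hx
      obtain ⟨y, ⟨h, rfl⟩, hy⟩ := hK.exists_infDist_eq_dist hne x
      exact ⟨h, by rw [← hy]; exact hx⟩
  rw [h2]
  exact isClosed_le (continuous_infDist_pt _) continuous_const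

theorem eventually_exists {ι : Type*} [Finite ι] {P : ι → ℕ → Prop} (h : ∀ n, ∃ i, P i n) :
    ∃ i, ∀ᶠ n in 𝓤, P i n := by
  by_contra hcon
  push Not at hcon
  have h2 : ∀ᶠ n in 𝓤, ∀ i, ¬ P i n := eventually_all.2 fun i => by
    have := hcon i
    first
      | exact Ultrafilter.eventually_not.2 this
      | exact this
  obtain ⟨n, hn⟩ := h2.exists
  obtain ⟨i, hi⟩ := h n
  exact hn i hi

/-- at least half of the mass is near the orbits -/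
theorem mass_near {b : ColorBasis N} {M : FermionRep N F} {R : GaugeAction b M}
    {c : Nat.Partition N → Cfg N} {c₀ : ℝ} (hc₀ : 0 < c₀) {g : ℝ} {r : ℝ}
    (hV : ∀ x : Cfg N, (∀ l h, r ≤ ‖x - b.act h (g⁻¹ • c l)‖) → c₀ * r ^ 2 ≤ VLow737.VR b g x)
    {φ : Cfg N → F} (hφ : IsCoreVec b R φ) (h1 : ∫ x, ‖φ x‖ ^ 2 = 1) {C : ℝ}
    (hE : ∫ x, VLow737.VR b g x * ‖φ x‖ ^ 2 ≤ C) (hr : 2 * C ≤ c₀ * r ^ 2) (hr0 : 0 < r) :
    ∃ l, 1 / (2 * (pN N : ℝ)) ≤ ∫ x in tb b (g⁻¹ • c l) r, ‖φ x‖ ^ 2 := by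
  have hi : Integrable (fun x => ‖φ x‖ ^ 2) volume := int_cc hφ.1.continuous hφ.2.1
  set U : Set (Cfg N) := ⋃ l, tb b (g⁻¹ • c l) r with hU
  have hUm : MeasurableSet U := MeasurableSet.iUnion fun l => (isClosed_tb b _ r).measurableSet
  have hVRc : Continuous fun x => VLow737.VR b g x := by
    unfold VLow737.VR CoerCfg87.Vcyc CoerCfg87.Vhi CoerCfg87.br CoerCfg87.comp
    fun_prop
  have hVi : Integrable (fun x => VLow737.VR b g x * ‖φ x‖ ^ 2) volume := by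
    have hcc : Continuous fun x => VLow737.VR b g x * ‖φ x‖ ^ 2 :=
      hVRc.mul (hφ.1.continuous.norm.pow 2)
    refine hcc.integrable_of_hasCompactSupport ?_
    refine hφ.2.1.mono fun x hx => ?_
    rw [Function.mem_support] at hx ⊢
    intro h0
    exact hx (by rw [h0, norm_zero]; norm_num)
  have hoff : ∫ x in Uᶜ, ‖φ x‖ ^ 2 ≤ 1 / 2 := by
    have h2 : c₀ * r ^ 2 * ∫ x in Uᶜ, ‖φ x‖ ^ 2 ≤ C := by
      rw [← integral_const_mul]
      calc ∫ x in Uᶜ, c₀ * r ^ 2 * ‖φ x‖ ^ 2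
          ≤ ∫ x in Uᶜ, VLow737.VR b g x * ‖φ x‖ ^ 2 := by
            refine setIntegral_mono_on (hi.const_mul _).integrableOn hVi.integrableOn hUm.compl
              fun x hx => ?_
            refine mul_le_mul_of_nonneg_right (hV x fun l h => ?_) (sq_nonneg _)
            by_contra hlt
            refine hx (mem_iUnion.2 ⟨l, h, ?_⟩)
            rw [dist_eq_norm]
            exact (not_le.1 hlt).le
        _ ≤ ∫ x, VLow737.VR b g x * ‖φ x‖ ^ 2 :=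
            setIntegral_le_integral hVi (Eventually.of_forall fun x =>
              mul_nonneg (VLow737.VR_nonneg b g x) (sq_nonneg _))
        _ ≤ C := hE
    have h3 : 0 < c₀ * r ^ 2 := by positivity
    have h4 : 0 ≤ ∫ x in Uᶜ, ‖φ x‖ ^ 2 := integral_nonneg fun x => sq_nonneg _
    by_contra hlt
    have h5 : c₀ * r ^ 2 * (1 / 2) < c₀ * r ^ 2 * ∫ x in Uᶜ, ‖φ x‖ ^ 2 :=
      mul_lt_mul_of_pos_left (not_le.1 hlt) h3
    linarith
  have hon : 1 / 2 ≤ ∫ x in U, ‖φ x‖ ^ 2 := by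
    have := integral_add_compl hUm hi
    linarith
  by_contra hcon
  push Not at hcon
  have hsum : ∫ x in U, ‖φ x‖ ^ 2 ≤ ∑ l, ∫ x in tb b (g⁻¹ • c l) r, ‖φ x‖ ^ 2 := by
    have e1 : ∀ S : Set (Cfg N), ∫⁻ x in S, ‖φ x‖ₑ ^ 2 =
        ENNReal.ofReal (∫ x in S, ‖φ x‖ ^ 2) := fun S => lint_eq hi.integrableOn
    have e2 : ∫⁻ x in U, ‖φ x‖ₑ ^ 2 ≤ ∑ l, ∫⁻ x in tb b (g⁻¹ • c l) r, ‖φ x‖ₑ ^ 2 := by
      rw [hU]
      refine (lintegral_iUnion_le _ _).trans ?_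
      rw [tsum_fintype]
    simp only [e1] at e2
    rw [← ENNReal.ofReal_sum_of_nonneg (fun l _ => integral_nonneg fun x => sq_nonneg _)] at e2
    exact (ENNReal.ofReal_le_ofReal_iff (Finset.sum_nonneg fun l _ =>
      integral_nonneg fun x => sq_nonneg _)).1 e2
  have hK : (0 : ℝ) < pN N := by exact_mod_cast one_le_pN N
  have hlt : ∑ l, ∫ x in tb b (g⁻¹ • c l) r, ‖φ x‖ ^ 2 <
      ∑ _l : Nat.Partition N, 1 / (2 * (pN N : ℝ)) :=
    Finset.sum_lt_sum_of_nonempty Finset.univ_nonempty fun l _ => hcon l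
  rw [Finset.sum_const, Finset.card_univ, nsmul_eq_mul] at hlt
  have : ((Fintype.card (Nat.Partition N) : ℕ) : ℝ) * (1 / (2 * (pN N : ℝ))) = 1 / 2 := by
    show (pN N : ℝ) * (1 / (2 * (pN N : ℝ))) = 1 / 2
    field_simp
  rw [this] at hlt
  linarith

/-! ### the upper bound -/

theorem succ_le {r : Cardinal} {p : ℕ} (h : (p : Cardinal) < r) : ((p + 1 : ℕ) : Cardinal) ≤ r := by
  by_contra hcon
  have h3 : r < ((p + 1 : ℕ) : Cardinal) := not_le.1 hcon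
  obtain ⟨n, rfl⟩ := Cardinal.lt_aleph0.1 (h3.trans (Cardinal.natCast_lt_aleph0 (n := p + 1)))
  have h4 : p < n := by exact_mod_cast h
  have h5 : n < p + 1 := by exact_mod_cast h3
  omega

/-- the contradiction sequence of one vacuum -/
theorem no_seq [Nontrivial F] {b : ColorBasis N} {M : FermionRep N F}
    {R : GaugeAction b M} {G : GammaNine} {c : Cfg N}
    (hc : ∀ α β A, wpot b G 1 1 α β A c = 0) {A : Cfg N →ₗ[ℝ] Cfg N} {Ω : F} (hΩ : ‖Ω‖ = 1)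
    (hL : ∀ f : Cfg N → F, AEStronglyMeasurable f volume →
      (∫⁻ x, ENNReal.ofReal (Real.exp (-2 * ‖x‖)) * ‖f x‖ₑ ^ 2 < ⊤) →
      (∀ ψ : Cfg N → F, ContDiff ℝ ∞ ψ → HasCompactSupport ψ →
        ∀ α, ∫ x, ⟪f x, lcharge b M G c α ψ x⟫_ℂ = 0) →
      (∀ ψ : Cfg N → F, ContDiff ℝ ∞ ψ → HasCompactSupport ψ →
        ∀ om, ∫ x, ⟪f x, fderiv ℝ ψ x (brk b om c)⟫_ℂ = 0) →
      ∃ k : ℂ, f =ᵐ[volume] fun x => k • gau A Ω x)
    {g : ℕ → ℝ} (hg : ∀ n, 0 < g n)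
    (hg0 : Tendsto g atTop (𝓝 0)) {φ : ℕ → Cfg N → F} (hφ : ∀ n, IsCoreVec b R (φ n))
    (h1 : ∀ n, ∫ x, ‖φ n x‖ ^ 2 ≤ 1) {C : ℝ} (hD : ∀ n, ∫ x, ‖fderiv ℝ (φ n) x‖ ^ 2 ≤ C)
    (hq : Tendsto (fun n => qf b M G (g n) 1 (φ n)) atTop (𝓝 0))
    {χ : Cfg N → ℝ} (hχ : Continuous χ) (hχc : HasCompactSupport χ)
    (hχ0 : ∀ x, 0 ≤ χ x) (hχ1 : χ 0 = 1)
    (hov : Tendsto (fun n => sn b ((g n)⁻¹ • c) ^ 2 *
      ‖∫ x, ⟪wt χ A Ω (x - (g n)⁻¹ • c), φ n x⟫_ℂ‖ ^ 2) atTop (𝓝 0))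
    {κ r : ℝ} (hκ : 0 < κ)
    (hmass : ∀ᶠ n in 𝓤, κ ≤ ∫ x in tb b ((g n)⁻¹ • c) r, ‖φ n x‖ ^ 2) : False := by
  obtain ⟨f₀, hm, hh, ht, hexp, hlc, hbr⟩ := local_limit hc hg hg0 hφ h1 hD hq
  obtain ⟨k, hk⟩ := hL f₀ hm hexp hlc hbr
  have hcont : ∀ n, Continuous (lf (φ n) ((g n)⁻¹ • c) (sn b ((g n)⁻¹ • c))) := fun n =>
    (contDiff_lf (hφ n).1 _ _).continuous
  -- the limit is not zero
  have hk0 : k ≠ 0 := by
    intro hk0
    have h2 : κ ≤ 2 * ∫ x in closedBall (0 : Cfg N) (r + 1), ‖f₀ x‖ ^ 2 := by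
      refine limit_ge hcont hm hh (ht (r + 1)) (hmass.mono fun n hn => hn.trans ?_)
      rw [lf_int]
      exact norm_lower (hφ n).1.continuous (hφ n).2.1 (norm_core (hφ n)) _ r
        (isClosed_tb b _ r).measurableSet fun x hx => hx
    have h3 : ∫ x in closedBall (0 : Cfg N) (r + 1), ‖f₀ x‖ ^ 2 = 0 := by
      rw [integral_eq_zero_of_ae]
      refine ae_restrict_of_ae ?_
      filter_upwards [hk] with x hx
      rw [hx, hk0]
      simp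
    linarith
  -- the overlap of the limit
  have h4 := tendsto_pair hcont hm hh ht (continuous_wt hχ A Ω) (hcs_wt hχc A Ω)
  have h5 : Tendsto (fun n => ∫ x, ⟪lf (φ n) ((g n)⁻¹ • c) (sn b ((g n)⁻¹ • c)) x,
      wt χ A Ω x⟫_ℂ) 𝓤 (𝓝 0) := by
    refine tendsto_of_sq ?_
    simp only [pair_shift]
    exact hov.mono_left hyper_le
  exact pair_ne_zero hχ hχc hχ0 hχ1 A hΩ hk0 hk (tendsto_nhds_unique h4 h5)

set_option maxHeartbeats 1000000 in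
/-- **`dim ker Q^{g,1} ≤ p(N)` for small `g`** -/
theorem upper_of {N : ℕ} (hO : OrbitsProp N) (hP : VacPackProp N) (hW : VacWpot N)
    (hL : LiouvilleProp N) (hE : EnProp N) (hV : VzProp N) : Upper N := by
  intro F _ _ _ _ b M R G
  obtain ⟨c, hc⟩ := hO b
  have hvac : ∀ l α β A, wpot b G 1 1 α β A (c l) = 0 := fun l => (hW b G (c l)).1 (hc.vac l)
  choose A Ω hpack using fun l => hP F b M R G (c l) (hc.vac l)
  obtain ⟨C, hC⟩ := hE F b M R G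
  obtain ⟨c₀, hc₀, hVz⟩ := hV b c hc
  obtain ⟨χ, hχs, hχc, hχ0, hχ1, hχe, -⟩ := exists_chi (ι := Fin 9 × Fin (N ^ 2 - 1)) 0
  by_contra hcon
  push Not at hcon
  -- the sequence of couplings
  choose g hg hglt hrank using fun n : ℕ => hcon (1 / ((n : ℝ) + 1)) (by positivity)
  have hg1 : ∀ n, g n ≤ 1 := fun n => (hglt n).le.trans (by
    rw [div_le_one (by positivity)]
    have : (0 : ℝ) ≤ n := Nat.cast_nonneg n
    linarith)
  have hg0 : Tendsto g atTop (𝓝 0) :=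
    squeeze_zero (fun n => (hg n).le) (fun n => (hglt n).le) tendsto_one_div_add_atTop_nhds_zero_nat
  -- the test functions
  let e : Fin (pN N) ≃ Nat.Partition N := (Fintype.equivFin (Nat.Partition N)).symm
  let v : ℕ → Fin (pN N) → Cfg N → F := fun n i x =>
    wt χ (A (e i)) (Ω (e i)) (x - (g n)⁻¹ • c (e i))
  have hv : ∀ n i, MemLp (v n i) 2 volume := by
    intro n i
    have h1 : Continuous (v n i) :=
      (continuous_wt hχs.continuous (A (e i)) (Ω (e i))).comp (continuous_id.sub continuous_const)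
    have h2 : HasCompactSupport (v n i) :=
      (hcs_wt hχc (A (e i)) (Ω (e i))).comp_homeomorph (Homeomorph.subRight ((g n)⁻¹ • c (e i)))
    exact h1.memLp_of_hasCompactSupport h2
  let Cn : ℕ → ℝ := fun n => ∑ l, sn b ((g n)⁻¹ • c l) ^ 2
  have hCn : ∀ n, 0 ≤ Cn n := fun n => Finset.sum_nonneg fun l _ => sq_nonneg _
  have hex : ∀ n : ℕ, ∃ φ : Cfg N → F, IsCoreVec b R φ ∧ ∫ x, ‖φ x‖ ^ 2 = 1 ∧
      qf b M G (g n) 1 φ + Cn n * ∑ i, ‖∫ x, ⟪v n i x, φ x⟫_ℂ‖ ^ 2 < 1 / ((n : ℝ) + 1) := by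
    intro n
    refine exists_unit (v n) (hCn n) (fun h => ?_) (by positivity)
    have h1 := Lit416.not_dimGe_of_functionals (v n) (hv n) (c := 1 / ((n : ℝ) + 1)) (C := Cn n)
      (by positivity) h
    refine h1 ?_
    exact succ_le (hrank n)
  choose φ hφ hφ1 hφlt using hex
  have hq0 : ∀ n, 0 ≤ qf b M G (g n) 1 (φ n) := fun n => Lit416.qf_nonneg _
  have hov0 : ∀ n, 0 ≤ Cn n * ∑ i, ‖∫ x, ⟪v n i x, φ n x⟫_ℂ‖ ^ 2 := fun n =>
    mul_nonneg (hCn n) (Finset.sum_nonneg fun i _ => sq_nonneg _)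
  have hqle : ∀ n : ℕ, qf b M G (g n) 1 (φ n) ≤ 1 / ((n : ℝ) + 1) := fun n => by
    linarith [hφlt n, hov0 n]
  have hq1 : ∀ n : ℕ, (1 : ℝ) / ((n : ℝ) + 1) ≤ 1 := fun n => by
    rw [div_le_one (by positivity)]
    have : (0 : ℝ) ≤ n := Nat.cast_nonneg n
    linarith
  have hq : Tendsto (fun n => qf b M G (g n) 1 (φ n)) atTop (𝓝 0) :=
    squeeze_zero hq0 hqle tendsto_one_div_add_atTop_nhds_zero_nat
  -- energy
  have hEn : ∀ n, (1 / 4) * (∫ x, ‖fderiv ℝ (φ n) x‖ ^ 2) +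
      (1 / 2) * (∫ x, VLow737.VR b (g n) x * ‖φ n x‖ ^ 2) ≤ 1 + |C| := by
    intro n
    have h1 := hC (g n) (hg n) (hg1 n) (φ n) (hφ n)
    rw [hφ1 n, mul_one] at h1
    linarith [hqle n, hq1 n, le_abs_self C]
  have hD0 : ∀ n, 0 ≤ ∫ x, ‖fderiv ℝ (φ n) x‖ ^ 2 := fun n =>
    integral_nonneg fun x => sq_nonneg _
  have hV0 : ∀ n, 0 ≤ ∫ x, VLow737.VR b (g n) x * ‖φ n x‖ ^ 2 := fun n =>
    integral_nonneg fun x => mul_nonneg (VLow737.VR_nonneg b (g n) x) (sq_nonneg _)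
  have hD : ∀ n, ∫ x, ‖fderiv ℝ (φ n) x‖ ^ 2 ≤ 4 * (1 + |C|) := fun n => by
    linarith [hEn n, hV0 n]
  have hVb : ∀ n, ∫ x, VLow737.VR b (g n) x * ‖φ n x‖ ^ 2 ≤ 2 * (1 + |C|) := fun n => by
    linarith [hEn n, hD0 n]
  -- the radius
  set r : ℝ := Real.sqrt (4 * (1 + |C|) / c₀) with hr
  have hpos : 0 < 4 * (1 + |C|) / c₀ := by positivity
  have hr0 : 0 < r := Real.sqrt_pos.2 hpos
  have hr2 : 2 * (2 * (1 + |C|)) ≤ c₀ * r ^ 2 := by
    rw [hr, Real.sq_sqrt hpos.le]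
    field_simp
    linarith
  have hmass : ∀ n, ∃ l, 1 / (2 * (pN N : ℝ)) ≤ ∫ x in tb b ((g n)⁻¹ • c l) r, ‖φ n x‖ ^ 2 :=
    fun n => mass_near hc₀ (fun x hx => hVz (g n) (hg n) r hr0.le x hx) (hφ n) (hφ1 n) (hVb n)
      hr2 hr0
  obtain ⟨l, hl⟩ := eventually_exists hmass
  have hK : (0 : ℝ) < pN N := by exact_mod_cast one_le_pN N
  -- the overlap with the vacuum `l`
  have hov : Tendsto (fun n => sn b ((g n)⁻¹ • c l) ^ 2 *
      ‖∫ x, ⟪wt χ (A l) (Ω l) (x - (g n)⁻¹ • c l), φ n x⟫_ℂ‖ ^ 2) atTop (𝓝 0) := by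
    refine squeeze_zero (fun n => by positivity) (fun n => ?_)
      tendsto_one_div_add_atTop_nhds_zero_nat
    have h1 : sn b ((g n)⁻¹ • c l) ^ 2 ≤ Cn n :=
      Finset.single_le_sum (f := fun l => sn b ((g n)⁻¹ • c l) ^ 2) (fun l _ => sq_nonneg _)
        (Finset.mem_univ l)
    have h2 : ‖∫ x, ⟪wt χ (A l) (Ω l) (x - (g n)⁻¹ • c l), φ n x⟫_ℂ‖ ^ 2 ≤
        ∑ i, ‖∫ x, ⟪v n i x, φ n x⟫_ℂ‖ ^ 2 := by
      have h3 := Finset.single_le_sum (f := fun i => ‖∫ x, ⟪v n i x, φ n x⟫_ℂ‖ ^ 2)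
        (fun i _ => sq_nonneg _) (Finset.mem_univ (e.symm l))
      have h4 : v n (e.symm l) = fun x => wt χ (A l) (Ω l) (x - (g n)⁻¹ • c l) := by
        show (fun x => wt χ (A (e (e.symm l))) (Ω (e (e.symm l)))
          (x - (g n)⁻¹ • c (e (e.symm l)))) = _
        rw [Equiv.apply_symm_apply]
      simp only [h4] at h3
      exact h3
    calc sn b ((g n)⁻¹ • c l) ^ 2 *
        ‖∫ x, ⟪wt χ (A l) (Ω l) (x - (g n)⁻¹ • c l), φ n x⟫_ℂ‖ ^ 2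
        ≤ Cn n * ∑ i, ‖∫ x, ⟪v n i x, φ n x⟫_ℂ‖ ^ 2 :=
          mul_le_mul h1 h2 (sq_nonneg _) (hCn n)
      _ ≤ 1 / ((n : ℝ) + 1) := by linarith [hφlt n, hq0 n]
  exact no_seq (hvac l) (hpack l).unit
    (fun f h1 h2 h3 h4 => hL F b M R G (c l) (A l) (Ω l) (hc.vac l) (hpack l) f h1 h2 h3 h4)
    hg hg0 hφ (fun n => (hφ1 n).le) hD hq hχs.continuous hχc hχ0 (hχe 0 (by simp)) hov
    (show (0 : ℝ) < 1 / (2 * (pN N : ℝ)) by positivity) hl

end Crest.Agent.R330.Up8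

end
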