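import Crest.Agent.R330.Bind6_839
import Crest.Agent.R330.RhoB_406

/-!
# Row 330, S8-V4 (helper331): the vacuum component of `Θ(t) B(ω)`

Colour space `Colg N = K ⊕ Kᗮ`, `K` light, `Kᗮ` heavy; `h j` antisymmetric maps of `Kᗮ` commuting
with `ad T`, `T ∈ K`; `Jm G h u β = Σ_j Σ_β' γ^j_ββ' h_j (u β')`.

* `TH M u = Σ_β θ_β(u_β)`; `HV M G K h` : the heavy vacuum space, `TH u f = i TH (J u) f` for all
  heavy `u` (no `J² = -1` is used; the other sign is `h ↦ -h`).
* `HV.light`, `HV.one`, `HV.two`, `HV.hlh`, `HV.hhh` : contractions between vacuum vectors.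
* `Bop_sum` : `B(ω)` in an adapted basis of colour space.
* `vac_gen` : the vacuum component of `TH u B(ω)`, `u` heavy, `ω` heavy or not.
* `jzero` : for commuting `c` and `X` central in `R⁹ ⊗ k(c)`, the frame `ω_t` of `Frame_839` at `X`
  satisfies `[ω_t, h_j t_i] ⟂ k`.
* `vac_ThB`, `vac_BTh`, `vac_sum` : the vacuum components of `Θ_α(t) B(ω_t)` and `B(ω_t) Θ_α(t)` are
  `∓ (1/2) Θ_α(prU [ω_t, t])`.
-/

set_option autoImplicit false
set_option linter.unusedSectionVars false

open MeasureTheory Filter Topology Crest.MathPhysics.MatrixQM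
open Crest.Agent.R330.IBP837 Crest.Agent.R330.Defs478 Crest.Agent.R330.Frame839
open Crest.Agent.R330.LS839 Crest.Agent.R330.Clus839 Crest.Agent.R330.Bind6839
open scoped ContDiff InnerProductSpace

noncomputable section

namespace Crest.Agent.R330.VComp331

variable {N : ℕ} {F : Type*} [NormedAddCommGroup F] [InnerProductSpace ℂ F]
  [FiniteDimensional ℂ F]

/-! ## Fermion vectors -/

theorem thv_add (M : FermionRep N F) (β : Fin 16) (u v : Colg N) :
    thv M β (u + v) = thv M β u + thv M β v := by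
  unfold thv
  rw [← Finset.sum_add_distrib]
  refine Finset.sum_congr rfl fun A _ => ?_
  rw [← add_smul]
  congr 1
  simp

theorem thv_smul (M : FermionRep N F) (β : Fin 16) (r : ℝ) (u : Colg N) :
    thv M β (r • u) = (r : ℂ) • thv M β u := by
  unfold thv
  rw [Finset.smul_sum]
  refine Finset.sum_congr rfl fun A _ => ?_
  rw [smul_smul]
  congr 1
  simp

theorem thv_zero (M : FermionRep N F) (β : Fin 16) : thv M β (0 : Colg N) = 0 := by
  have h := thv_smul M β 0 (0 : Colg N)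
  simpa using h

theorem thv_sum {ι : Type*} (s : Finset ι) (M : FermionRep N F) (β : Fin 16) (u : ι → Colg N) :
    thv M β (∑ a ∈ s, u a) = ∑ a ∈ s, thv M β (u a) := by
  classical
  induction s using Finset.induction_on with
  | empty => simp [thv_zero]
  | insert a s ha ih => rw [Finset.sum_insert ha, Finset.sum_insert ha, thv_add, ih]

theorem thv_neg (M : FermionRep N F) (β : Fin 16) (u : Colg N) :
    thv M β (-u) = - thv M β u := by
  have h := thv_smul M β (-1) u
  simpa using h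

theorem thv_symm (M : FermionRep N F) (β : Fin 16) (u : Colg N) :
    (thv M β u).IsSymmetric :=
  isSymmetric_sum _ fun A _ => isSymmetric_real_smul (M.selfAdjoint β A) _

theorem thv_406 (M : FermionRep N F) (β : Fin 16) (u : Colg N) (f : F) :
    thv M β u f = Lift406.thv M β u.ofLp f := by
  rw [Lift406.thv_apply]
  simp [thv, LinearMap.sum_apply]

/-- `Σ_β θ_β(u_β)` -/
def TH (M : FermionRep N F) (u : Fin 16 → Colg N) : F →ₗ[ℂ] F := ∑ β, thv M β (u β)

theorem TH_apply (M : FermionRep N F) (u : Fin 16 → Colg N) (f : F) :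
    TH M u f = ∑ β, thv M β (u β) f := by
  unfold TH
  rw [LinearMap.sum_apply]

theorem TH_single (M : FermionRep N F) (β : Fin 16) (v : Colg N) :
    TH M (Pi.single β v) = thv M β v := by
  classical
  unfold TH
  rw [Finset.sum_eq_single β]
  · rw [Pi.single_eq_same]
  · intro γ _ hγ
    rw [Pi.single_eq_of_ne hγ, thv_zero]
  · simp

theorem TH_symm (M : FermionRep N F) (u : Fin 16 → Colg N) : (TH M u).IsSymmetric :=
  isSymmetric_sum _ fun β _ => thv_symm M β (u β)

theorem TH_anti (M : FermionRep N F) (u v : Fin 16 → Colg N) (f : F) :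
    TH M u (TH M v f) + TH M v (TH M u f) = ((∑ β, ⟪u β, v β⟫_ℝ : ℝ) : ℂ) • f := by
  simp only [TH_apply, map_sum]
  rw [Finset.sum_comm (f := fun β γ => thv M γ (v γ) (thv M β (u β) f))]
  rw [← Finset.sum_add_distrib]
  simp only [← Finset.sum_add_distrib]
  push_cast
  rw [Finset.sum_smul]
  rw [Finset.sum_comm]
  refine Finset.sum_congr rfl fun α _ => ?_
  rw [Finset.sum_eq_single α]
  · rw [thv_anti, if_pos rfl]
  · intro β _ hβ
    rw [thv_anti, if_neg (Ne.symm hβ), zero_smul]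
  · simp

/-- `Θ_α(e)` as a fermion vector. -/
def uu (G : GammaNine) (α : Fin 16) (e : Cfg N) : Fin 16 → Colg N :=
  fun β => ∑ i, G.γ i α β • comp e i

theorem Theta_TH (M : FermionRep N F) (G : GammaNine) (α : Fin 16) (e : Cfg N) :
    Theta M G α e = TH M (uu G α e) := by
  rw [Theta_eq]
  have h : vco M (fun β A => ∑ i, G.γ i α β * e (i, A)) =
      ∑ β, thv M β (WithLp.toLp 2 (fun A => ∑ i, G.γ i α β * e (i, A))) := by
    unfold vco thv
    rw [Finset.sum_comm]
  rw [h]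
  unfold TH
  refine Finset.sum_congr rfl fun β _ => ?_
  congr 1

/-! ## The heavy vacuum space -/

/-- `(J u)_β = Σ_j Σ_β' γ^j_ββ' h_j (u_β')` -/
def Jm (G : GammaNine) (h : Fin 9 → Colg N →ₗ[ℝ] Colg N) (u : Fin 16 → Colg N) :
    Fin 16 → Colg N := fun β => ∑ j, ∑ β', G.γ j β β' • h j (u β')

/-- The data on the heavy colour space `Kᗮ`. -/
structure HH (b : ColorBasis N) (K : Submodule ℝ (Colg N)) (h : Fin 9 → Colg N →ₗ[ℝ] Colg N) :
    Prop where
  mem : ∀ j, ∀ u ∈ Kᗮ, h j u ∈ Kᗮ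
  skew : ∀ j, ∀ u ∈ Kᗮ, ∀ v ∈ Kᗮ, ⟪h j u, v⟫_ℝ = - ⟪u, h j v⟫_ℝ
  comm : ∀ j, ∀ T ∈ K, ∀ u ∈ Kᗮ, h j ((colAlg b).br T u) = (colAlg b).br T (h j u)

/-- The heavy vacuum space. -/
def HV (M : FermionRep N F) (G : GammaNine) (K : Submodule ℝ (Colg N))
    (h : Fin 9 → Colg N →ₗ[ℝ] Colg N) : Submodule ℂ F where
  carrier := {f | ∀ u : Fin 16 → Colg N, (∀ β, u β ∈ Kᗮ) →
    TH M u f = Complex.I • TH M (Jm G h u) f}
  add_mem' := by
    intro f g hf hg u hu
    rw [map_add, map_add, hf u hu, hg u hu, smul_add]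
  zero_mem' := fun u _ => by rw [map_zero, map_zero, smul_zero]
  smul_mem' := by
    intro r f hf u hu
    rw [map_smul, map_smul, hf u hu, smul_comm]

variable {M : FermionRep N F} {G : GammaNine} {K : Submodule ℝ (Colg N)}
  {h : Fin 9 → Colg N →ₗ[ℝ] Colg N} {b : ColorBasis N}

theorem mem_HV {f : F} : f ∈ HV M G K h ↔ ∀ u : Fin 16 → Colg N, (∀ β, u β ∈ Kᗮ) →
    TH M u f = Complex.I • TH M (Jm G h u) f := Iff.rfl

theorem Jm_mem (hh : HH b K h) {u : Fin 16 → Colg N} (hu : ∀ β, u β ∈ Kᗮ) (β : Fin 16) :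
    Jm G h u β ∈ Kᗮ :=
  Submodule.sum_mem _ fun j _ => Submodule.sum_mem _ fun β' _ =>
    Submodule.smul_mem _ _ (hh.mem j _ (hu β'))

/-- `θ_β(T)` and `TH u` anticommute if `u_β ⟂ T`. -/
theorem TH_swap (M : FermionRep N F) {u v : Fin 16 → Colg N} (huv : ∑ β, ⟪u β, v β⟫_ℝ = 0) (f : F) :
    TH M u (TH M v f) = - TH M v (TH M u f) := by
  have h1 := TH_anti M u v f
  rw [huv, Complex.ofReal_zero, zero_smul] at h1
  exact eq_neg_of_add_eq_zero_left h1

theorem swap_light (M : FermionRep N F) {u v : Fin 16 → Colg N} (hu : ∀ β, u β ∈ Kᗮ)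
    (hv : ∀ β, v β ∈ K) (f : F) : TH M u (TH M v f) = - TH M v (TH M u f) :=
  TH_swap M (Finset.sum_eq_zero fun β _ => (Submodule.mem_orthogonal' _ _).1 (hu β) _ (hv β)) f

/-- Light vectors preserve the heavy vacuum space. -/
theorem HV.light (hh : HH b K h) {f : F} (hf : f ∈ HV M G K h) {v : Fin 16 → Colg N}
    (hv : ∀ β, v β ∈ K) : TH M v f ∈ HV M G K h := by
  intro u hu
  rw [swap_light M hu hv, swap_light M (Jm_mem (G := G) hh hu) hv, hf u hu, map_smul, smul_neg]

theorem HV.light1 (hh : HH b K h) {f : F} (hf : f ∈ HV M G K h) (β : Fin 16) {v : Colg N}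
    (hv : v ∈ K) : thv M β v f ∈ HV M G K h := by
  classical
  rw [← TH_single]
  refine HV.light hh hf fun γ => ?_
  by_cases e : γ = β
  · subst e
    rw [Pi.single_eq_same]
    exact hv
  · rw [Pi.single_eq_of_ne e]
    exact K.zero_mem

/-- The creation half annihilates on the left. -/
theorem HV.left {g : F} (hg : g ∈ HV M G K h) {u : Fin 16 → Colg N} (hu : ∀ β, u β ∈ Kᗮ) (X : F) :
    ⟪g, TH M u X⟫_ℂ = -Complex.I * ⟪g, TH M (Jm G h u) X⟫_ℂ := by
  rw [← TH_symm M u g X, hg u hu, inner_smul_left, Complex.conj_I, TH_symm M _ g X]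

/-- One heavy vector. -/
theorem HV.one {f g : F} (hf : f ∈ HV M G K h) (hg : g ∈ HV M G K h) {u : Fin 16 → Colg N}
    (hu : ∀ β, u β ∈ Kᗮ) : ⟪g, TH M u f⟫_ℂ = 0 := by
  have h1 := HV.left hg hu f
  have h2 : ⟪g, TH M u f⟫_ℂ = Complex.I * ⟪g, TH M (Jm G h u) f⟫_ℂ := by
    rw [hf u hu, inner_smul_right]
  have h3 : (2 : ℂ) * ⟪g, TH M u f⟫_ℂ = 0 := by linear_combination h1 + h2
  simpa using h3

/-- **Contraction** of a heavy vector with any vector. -/
theorem HV.two {f g : F} (hf : f ∈ HV M G K h) (hg : g ∈ HV M G K h) {u : Fin 16 → Colg N}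
    (hu : ∀ β, u β ∈ Kᗮ) (v : Fin 16 → Colg N) :
    ⟪g, TH M u (TH M v f)⟫_ℂ = (1 / 2 : ℂ) * (((∑ β, ⟪u β, v β⟫_ℝ : ℝ) : ℂ) -
      Complex.I * ((∑ β, ⟪Jm G h u β, v β⟫_ℝ : ℝ) : ℂ)) * ⟪g, f⟫_ℂ := by
  have h1 := HV.left hg hu (TH M v f)
  have e1 := TH_anti M u v f
  have e2 := TH_anti M (Jm G h u) v f
  rw [hf u hu, map_smul] at e1
  have e3 : TH M u (TH M v f) - Complex.I • TH M (Jm G h u) (TH M v f) =
      (((∑ β, ⟪u β, v β⟫_ℝ : ℝ) : ℂ) -
      Complex.I * ((∑ β, ⟪Jm G h u β, v β⟫_ℝ : ℝ) : ℂ)) • f := by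
    rw [eq_sub_of_add_eq e1, eq_sub_of_add_eq e2, smul_sub, sub_smul, mul_smul]
    abel
  have e4 : ⟪g, TH M u (TH M v f)⟫_ℂ - Complex.I * ⟪g, TH M (Jm G h u) (TH M v f)⟫_ℂ =
      (((∑ β, ⟪u β, v β⟫_ℝ : ℝ) : ℂ) -
      Complex.I * ((∑ β, ⟪Jm G h u β, v β⟫_ℝ : ℝ) : ℂ)) * ⟪g, f⟫_ℂ := by
    rw [← inner_smul_right, ← inner_smul_right, ← inner_sub_right, e3]
  linear_combination (1 / 2 : ℂ) * e4 + (1 / 2 : ℂ) * h1

/-- heavy, light, heavy -/
theorem HV.hlh (hh : HH b K h) {f g : F} (hf : f ∈ HV M G K h) (hg : g ∈ HV M G K h)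
    {u a : Fin 16 → Colg N} (hu : ∀ β, u β ∈ Kᗮ) (ha : ∀ β, a β ∈ K) (v : Fin 16 → Colg N) :
    ⟪g, TH M u (TH M a (TH M v f))⟫_ℂ = -((1 / 2 : ℂ) * (((∑ β, ⟪u β, v β⟫_ℝ : ℝ) : ℂ) -
      Complex.I * ((∑ β, ⟪Jm G h u β, v β⟫_ℝ : ℝ) : ℂ)) * ⟪g, TH M a f⟫_ℂ) := by
  rw [swap_light M hu ha, inner_neg_right, ← TH_symm M a g, HV.two hf (HV.light hh hg ha) hu v,
    TH_symm M a g f]

/-- heavy, heavy, heavy -/
theorem HV.hhh (_hh : HH b K h) {f g : F} (hf : f ∈ HV M G K h) (hg : g ∈ HV M G K h)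
    {u v w : Fin 16 → Colg N} (hu : ∀ β, u β ∈ Kᗮ) (hv : ∀ β, v β ∈ Kᗮ) (hw : ∀ β, w β ∈ Kᗮ) :
    ⟪g, TH M u (TH M v (TH M w f))⟫_ℂ = 0 := by
  have key : ∀ a : Fin 16 → Colg N, ⟪g, TH M a (TH M v (TH M w f))⟫_ℂ =
      ⟪g, TH M v (TH M w (TH M a f))⟫_ℂ := by
    intro a
    rw [eq_sub_of_add_eq (TH_anti M a v (TH M w f)), eq_sub_of_add_eq (TH_anti M a w f),
      map_sub, map_smul]
    simp only [inner_sub_right, inner_smul_right, HV.one hf hg hv, HV.one hf hg hw]
    ring
  have h1 := HV.left hg hu (TH M v (TH M w f))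
  have h2 : ⟪g, TH M u (TH M v (TH M w f))⟫_ℂ =
      Complex.I * ⟪g, TH M (Jm G h u) (TH M v (TH M w f))⟫_ℂ := by
    rw [key u, hf u hu, map_smul, map_smul, inner_smul_right, ← key]
  have h3 : (2 : ℂ) * ⟪g, TH M u (TH M v (TH M w f))⟫_ℂ = 0 := by linear_combination h1 + h2
  simpa using h3


/-! ## The gauge generator in an adapted basis -/

/-- `(u, v) ↦ θ_β([ω, u]) θ_β(v) f` -/
def qb (b : ColorBasis N) (M : FermionRep N F) (om : Colg N) (β : Fin 16) (f : F) :
    Colg N →ₗ[ℝ] Colg N →ₗ[ℝ] F :=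
  LinearMap.mk₂ ℝ (fun u v => thv M β ((colAlg b).br om u) (thv M β v f))
    (fun u u' v => by rw [map_add, thv_add, LinearMap.add_apply])
    (fun r u v => by
      rw [map_smul, thv_smul, LinearMap.smul_apply]
      exact Complex.coe_smul _ _)
    (fun u v v' => by rw [thv_add, LinearMap.add_apply, map_add])
    (fun r u v => by
      rw [thv_smul, LinearMap.smul_apply, map_smul]
      exact Complex.coe_smul _ _)

theorem qb_apply (b : ColorBasis N) (M : FermionRep N F) (om : Colg N) (β : Fin 16) (f : F)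
    (u v : Colg N) : qb b M om β f u v = thv M β ((colAlg b).br om u) (thv M β v f) := rfl

theorem thv_basis (M : FermionRep N F) (β : Fin 16) (A : Fin (N ^ 2 - 1)) :
    thv M β (EuclideanSpace.single A (1 : ℝ)) = M.θ β A := by
  unfold thv
  rw [Finset.sum_eq_single A]
  · simp
  · intro B _ hB
    have : (EuclideanSpace.single A (1 : ℝ) : Colg N) B = 0 := by simp [hB]
    rw [this]
    simp
  · simp

theorem br_single (b : ColorBasis N) (om : Colg N) (C A : Fin (N ^ 2 - 1)) :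
    ((colAlg b).br om (EuclideanSpace.single C (1 : ℝ))) A =
      ∑ B, b.structConst B C A * om B := by
  change SlB314.br b om.ofLp (EuclideanSpace.single C (1 : ℝ) : Colg N).ofLp A = _
  unfold SlB314.br
  refine Finset.sum_congr rfl fun B _ => ?_
  rw [Finset.sum_eq_single C]
  · rw [Col962.f_cyc b A B C]
    simp
  · intro D _ hD
    simp [hD]
  · simp

/-- `B(ω) = (1/2) Σ_β Σ_A θ_β([ω, T_A]) θ_β(T_A)`, any orthonormal basis. -/
theorem Bop_basis {ι : Type*} [Fintype ι] (e : OrthonormalBasis ι ℝ (Colg N)) (om : Colg N)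
    (f : F) : Lift406.Bop b M om.ofLp f =
      (1 / 2 : ℂ) • ∑ β, ∑ a, thv M β ((colAlg b).br om (e a)) (thv M β (e a) f) := by
  have h1 : ∀ β, ∑ a, thv M β ((colAlg b).br om (e a)) (thv M β (e a) f) =
      ∑ A, thv M β ((colAlg b).br om (EuclideanSpace.single A (1 : ℝ)))
        (M.θ β A f) := by
    intro β
    have h2 := contraction_basis (qb b M om β f)
      (EuclideanSpace.basisFun (Fin (N ^ 2 - 1)) ℝ) e
    simp only [qb_apply, EuclideanSpace.basisFun_apply, thv_basis] at h2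
    exact h2.symm
  simp only [h1]
  unfold Lift406.Bop Lift406.spin
  rw [_root_.smul_apply, _root_.sum_apply]
  congr 1
  rw [Fintype.sum_prod_type]
  refine Finset.sum_congr rfl fun β _ => ?_
  simp only [_root_.sum_apply, Fintype.sum_prod_type]
  rw [Finset.sum_comm]
  rw [Finset.sum_eq_single β]
  · rw [Finset.sum_comm]
    refine Finset.sum_congr rfl fun C _ => ?_
    unfold thv
    rw [LinearMap.sum_apply]
    refine Finset.sum_congr rfl fun A _ => ?_
    rw [br_single, LinearMap.smul_apply]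
    have h3 : Lift406.gm b om.ofLp (β, A) (β, C) = ∑ B, b.structConst B C A * om B := by
      unfold Lift406.gm
      rw [if_pos rfl]
    rw [h3]
    rfl
  · intro γ _ hγ
    refine Finset.sum_eq_zero fun A _ => Finset.sum_eq_zero fun C _ => ?_
    have h3 : Lift406.gm b om.ofLp (β, A) (γ, C) = 0 := by
      unfold Lift406.gm
      rw [if_neg (Ne.symm hγ)]
    rw [h3]
    simp
  · simp

/-- `B(ω)` in a basis adapted to `K ⊕ Kᗮ`. -/
theorem Bop_sum {ι κ : Type*} [Fintype ι] [Fintype κ] (m : OrthonormalBasis ι ℝ Kᗮ)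
    (k : OrthonormalBasis κ ℝ K) (om : Colg N) (f : F) :
    Lift406.Bop b M om.ofLp f = (1 / 2 : ℂ) • ∑ β,
      (∑ r, thv M β ((colAlg b).br om (m r)) (thv M β (m r) f) +
        ∑ s, thv M β ((colAlg b).br om (k s)) (thv M β (k s) f)) := by
  rw [Bop_basis (sumBasis K m k) om f]
  simp only [Fintype.sum_sum_type, sumBasis_inl, sumBasis_inr]


/-! ## The vacuum component, general form -/

/-- `a ↦ ⟪g, θ_β(a) f⟫` -/
def ph (M : FermionRep N F) (β : Fin 16) (g f : F) : Colg N →ₗ[ℝ] ℂ where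
  toFun a := ⟪g, thv M β a f⟫_ℂ
  map_add' a a' := by rw [thv_add, LinearMap.add_apply, inner_add_right]
  map_smul' r a := by
    rw [thv_smul, LinearMap.smul_apply, inner_smul_right, RingHom.id_apply, Complex.real_smul]

theorem ph_apply (M : FermionRep N F) (β : Fin 16) (g f : F) (a : Colg N) :
    ph M β g f a = ⟪g, thv M β a f⟫_ℂ := rfl

theorem sum_basis_K {V : Type*} [NormedAddCommGroup V] [InnerProductSpace ℝ V]
    [FiniteDimensional ℝ V] {K : Submodule ℝ V} {κ : Type*} [Fintype κ]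
    (k : OrthonormalBasis κ ℝ K) (w : V) :
    ∑ s, ⟪w, ((k s : K) : V)⟫_ℝ • ((k s : K) : V) = K.starProjection w := by
  have h1 := congrArg (fun x : K => (x : V)) (k.orthogonalProjectionOnto_apply_eq_sum w)
  simp only [Submodule.coe_sum, Submodule.coe_smul] at h1
  rw [Submodule.starProjection_apply, h1]
  exact Finset.sum_congr rfl fun s _ => by rw [real_inner_comm]

theorem inner_single (u : Fin 16 → Colg N) (β : Fin 16) (v : Colg N) :
    ∑ γ, ⟪u γ, (Pi.single β v : Fin 16 → Colg N) γ⟫_ℝ = ⟪u β, v⟫_ℝ := by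
  classical
  rw [Finset.sum_eq_single β]
  · rw [Pi.single_eq_same]
  · intro γ _ hγ
    rw [Pi.single_eq_of_ne hγ, inner_zero_right]
  · simp

theorem single_mem {K : Submodule ℝ (Colg N)} (β : Fin 16) {v : Colg N} (hv : v ∈ K) (γ : Fin 16) :
    (Pi.single β v : Fin 16 → Colg N) γ ∈ K := by
  classical
  by_cases e : γ = β
  · subst e
    rw [Pi.single_eq_same]
    exact hv
  · rw [Pi.single_eq_of_ne e]
    exact K.zero_mem

/-- **Vacuum component of `TH u B(ω)`**, `u` and `ω` heavy. -/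
theorem vac_gen (hK : ∀ T ∈ K, ∀ w ∈ Kᗮ, (colAlg b).br T w ∈ Kᗮ) (hh : HH b K h) {f g : F}
    (hf : f ∈ HV M G K h) (hg : g ∈ HV M G K h) {u : Fin 16 → Colg N} (hu : ∀ β, u β ∈ Kᗮ)
    {om : Colg N} (hom : om ∈ Kᗮ) :
    ⟪g, TH M u (Lift406.Bop b M om.ofLp f)⟫_ℂ =
      -(1 / 2 : ℂ) * ∑ β, ⟪g, thv M β (K.starProjection ((colAlg b).br om (u β))) f⟫_ℂ +
      (Complex.I / 2) *
        ∑ β, ⟪g, thv M β (K.starProjection ((colAlg b).br om (Jm G h u β))) f⟫_ℂ := by
  classical
  set m := stdOrthonormalBasis ℝ (Kᗮ : Submodule ℝ (Colg N)) with hm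
  set k := stdOrthonormalBasis ℝ K with hk
  have hkm : ∀ s, (colAlg b).br om (k s : Colg N) ∈ Kᗮ := fun s => by
    rw [(colAlg b).anti]
    exact Submodule.neg_mem _ (hK _ (k s).2 _ hom)
  -- the light directions
  have hS : ∀ β, ∑ s, ⟪g, TH M u (thv M β ((colAlg b).br om (k s)) (thv M β (k s) f))⟫_ℂ =
      -(1 / 2 : ℂ) * ⟪g, thv M β (K.starProjection ((colAlg b).br om (u β))) f⟫_ℂ +
      (Complex.I / 2) * ⟪g, thv M β (K.starProjection ((colAlg b).br om (Jm G h u β))) f⟫_ℂ := by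
    intro β
    have e1 : ∀ s, ⟪g, TH M u (thv M β ((colAlg b).br om (k s)) (thv M β (k s) f))⟫_ℂ =
        -(1 / 2 : ℂ) * (((⟪(colAlg b).br om (u β), (k s : Colg N)⟫_ℝ : ℝ) : ℂ) *
          ph M β g f (k s)) +
        (Complex.I / 2) * (((⟪(colAlg b).br om (Jm G h u β), (k s : Colg N)⟫_ℝ : ℝ) : ℂ) *
          ph M β g f (k s)) := by
      intro s
      have h2 := HV.two (HV.light1 hh hf β (k s).2) hg hu
        (Pi.single β ((colAlg b).br om (k s : Colg N)))
      rw [TH_single, inner_single, inner_single] at h2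
      rw [h2, ph_apply, (colAlg b).skew om (u β), (colAlg b).skew om (Jm G h u β)]
      push_cast
      ring
    have e2 : ∀ w : Colg N, ∑ s, ((⟪w, (k s : Colg N)⟫_ℝ : ℝ) : ℂ) * ph M β g f (k s) =
        ⟪g, thv M β (K.starProjection w) f⟫_ℂ := by
      intro w
      rw [← ph_apply, ← sum_basis_K k w, map_sum]
      exact Finset.sum_congr rfl fun s _ => by rw [map_smul, Complex.real_smul]
    simp only [e1, Finset.sum_add_distrib, ← Finset.mul_sum, e2]
  -- the heavy directions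
  have hR : ∀ β, ∑ r, ⟪g, TH M u (thv M β ((colAlg b).br om (m r)) (thv M β (m r) f))⟫_ℂ =
      -(1 / 2 : ℂ) * ⟪g, thv M β (K.starProjection ((colAlg b).br om (u β))) f⟫_ℂ +
      (Complex.I / 2) * ⟪g, thv M β (K.starProjection ((colAlg b).br om (Jm G h u β))) f⟫_ℂ := by
    intro β
    have e1 : ∀ r, ⟪g, TH M u (thv M β ((colAlg b).br om (m r)) (thv M β (m r) f))⟫_ℂ =
        -(1 / 2 : ℂ) * (((⟪u β, (m r : Colg N)⟫_ℝ : ℝ) : ℂ) *
          ph M β g f (K.starProjection ((colAlg b).br om (m r)))) +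
        (Complex.I / 2) * (((⟪Jm G h u β, (m r : Colg N)⟫_ℝ : ℝ) : ℂ) *
          ph M β g f (K.starProjection ((colAlg b).br om (m r)))) := by
      intro r
      have hsp : (colAlg b).br om (m r : Colg N) =
          K.starProjection ((colAlg b).br om (m r)) +
            Kᗮ.starProjection ((colAlg b).br om (m r)) :=
        (Submodule.starProjection_add_starProjection_orthogonal (K := K) _).symm
      have h2 := HV.hlh hh hf hg hu
        (single_mem β (Submodule.starProjection_apply_mem K ((colAlg b).br om (m r))))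
        (Pi.single β (m r : Colg N))
      have h3 := HV.hhh hh hf hg hu
        (single_mem β (Submodule.starProjection_apply_mem Kᗮ ((colAlg b).br om (m r))))
        (single_mem β (m r).2)
      rw [TH_single, TH_single, inner_single, inner_single] at h2
      rw [TH_single, TH_single] at h3
      rw [hsp, thv_add, LinearMap.add_apply, map_add, inner_add_right, h2, h3, map_add,
        Submodule.starProjection_eq_self_iff.2 (Submodule.starProjection_apply_mem K _)]
      have h4 : K.starProjection (Kᗮ.starProjection ((colAlg b).br om (m r : Colg N))) = 0 := by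
        rw [Submodule.starProjection_apply_eq_zero_iff]
        exact Submodule.starProjection_apply_mem Kᗮ _
      rw [h4, add_zero, ph_apply]
      ring_nf
    have e2 : ∀ w ∈ (Kᗮ : Submodule ℝ (Colg N)), ∑ r, ((⟪w, (m r : Colg N)⟫_ℝ : ℝ) : ℂ) *
        ph M β g f (K.starProjection ((colAlg b).br om (m r))) =
        ⟪g, thv M β (K.starProjection ((colAlg b).br om w)) f⟫_ℂ := by
      intro w hw
      have h5 : w = ∑ r, ⟪w, (m r : Colg N)⟫_ℝ • (m r : Colg N) := by
        rw [sum_basis_K m w]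
        exact (Submodule.starProjection_eq_self_iff.2 hw).symm
      conv_rhs => rw [h5]
      rw [map_sum, map_sum, ← ph_apply, map_sum]
      exact Finset.sum_congr rfl fun s _ => by
        rw [map_smul, map_smul, map_smul, Complex.real_smul]
    simp only [e1, Finset.sum_add_distrib, ← Finset.mul_sum, e2 _ (hu β),
      e2 _ (Jm_mem (G := G) hh hu β)]
  rw [Bop_sum m k om f, map_smul, inner_smul_right, map_sum, inner_sum]
  simp only [map_add, map_sum, inner_add_right, inner_sum]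
  simp only [hS, hR, Finset.sum_add_distrib, ← Finset.mul_sum]
  ring


/-! ## The `J` part vanishes -/

section abs

variable {P : Type*} [NormedAddCommGroup P] [InnerProductSpace ℝ P] [FiniteDimensional ℝ P]
  {ι : Type*} [Fintype ι]

theorem abs_zero (a x : ι → Module.End ℝ P) (τ η : Module.End ℝ P)
    (ha : ∀ i, star (a i) = -a i) (hx : ∀ i, star (x i) = -x i) (hτ : star τ = -τ)
    (hη : star η = -η) (haa : ∀ i j, Commute (a i) (a j)) (hax : ∀ i j, Commute (a i) (x j))
    (haτ : ∀ i, Commute (a i) τ) (hxτ : ∀ i, Commute (x i) τ) (haη : ∀ i, Commute (a i) η)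
    (hxη : ∀ i, Commute (x i) η) (hτη : Commute τ η)
    (hinj : ∀ v, (∀ i, a i v = 0) → v = 0) {om w : P}
    (hom : ∑ i, a i (x i om) = ∑ i, a i (a i w)) (i : ι) : ⟪τ om, η (a i w)⟫_ℝ = 0 := by
  set Kc : Module.End ℝ P := ∑ i, a i * a i with hKc
  set S : Module.End ℝ P := ∑ i, a i * x i with hS
  have sK : star Kc = Kc := by
    rw [hKc, star_sum]
    refine Finset.sum_congr rfl fun j _ => ?_
    rw [star_mul, ha, neg_mul_neg]
  have sS : star S = S := by
    rw [hS, star_sum]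
    refine Finset.sum_congr rfl fun j _ => ?_
    rw [star_mul, ha, hx, neg_mul_neg, (hax j j).eq]
  have cKa : ∀ j, Commute Kc (a j) := fun j =>
    Commute.sum_left _ _ _ fun l _ => (haa l j).mul_left (haa l j)
  have cKx : ∀ j, Commute Kc (x j) := fun j =>
    Commute.sum_left _ _ _ fun l _ => (hax l j).mul_left (hax l j)
  have cSa : ∀ j, Commute S (a j) := fun j =>
    Commute.sum_left _ _ _ fun l _ => (haa l j).mul_left (hax j l).symm
  have cSK : Commute S Kc := Commute.sum_right _ _ _ fun l _ => (cSa l).mul_right (cSa l)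
  have cKτ : Commute Kc τ := Commute.sum_left _ _ _ fun l _ => (haτ l).mul_left (haτ l)
  have cSτ : Commute S τ := Commute.sum_left _ _ _ fun l _ => (haτ l).mul_left (hxτ l)
  have cKη : Commute Kc η := Commute.sum_left _ _ _ fun l _ => (haη l).mul_left (haη l)
  have cSη : Commute S η := Commute.sum_left _ _ _ fun l _ => (haη l).mul_left (hxη l)
  have hKinj : Function.Injective Kc := by
    rw [injective_iff_map_eq_zero]
    intro v hv
    refine hinj v ?_
    have h1 : ⟪Kc v, v⟫_ℝ = - ∑ j, ‖a j v‖ ^ 2 := by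
      rw [hKc, LinearMap.sum_apply, sum_inner, ← Finset.sum_neg_distrib]
      refine Finset.sum_congr rfl fun j _ => ?_
      rw [Module.End.mul_apply, ← LinearMap.adjoint_inner_right, ← LinearMap.star_eq_adjoint, ha,
        LinearMap.neg_apply, inner_neg_right, real_inner_self_eq_norm_sq]
    rw [hv, inner_zero_left] at h1
    have h2 : ∑ j, ‖a j v‖ ^ 2 = 0 := by linarith
    intro j
    have h3 := (Finset.sum_eq_zero_iff_of_nonneg (fun j _ => sq_nonneg _)).1 h2 j
      (Finset.mem_univ j)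
    simpa using h3
  obtain ⟨v, rfl⟩ := (LinearMap.injective_iff_surjective.1 hKinj) om
  have hw : w = S v := by
    apply hKinj
    have e1 : S (Kc v) = Kc w := by
      rw [hS, LinearMap.sum_apply]
      have e0 : Kc w = ∑ i, (a i * a i) w := by rw [hKc, LinearMap.sum_apply]
      rw [e0]
      exact hom
    rw [← e1]
    exact LinearMap.congr_fun cSK.eq v
  set D : Module.End ℝ P := Kc * η * a i * S with hD
  have sD : star D = D := by
    have c1 : star D = S * a i * η * Kc := by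
      rw [hD, star_mul, star_mul, star_mul, sK, sS, ha, hη]
      simp only [neg_mul, mul_neg, neg_neg, mul_assoc]
    have c2 : S * a i * η * Kc = Kc * η * a i * S := by
      have d1 : S * a i * η * Kc = Kc * (S * a i * η) :=
        ((cSK.mul_left (cKa i).symm).mul_left cKη.symm).eq
      have d2 : S * a i * η = η * (S * a i) := (cSη.mul_left (haη i)).eq
      have d3 : S * a i = a i * S := (cSa i).eq
      rw [d1, d2, d3]
      simp only [mul_assoc]
    rw [c1, c2]
  have cDτ : Commute D τ :=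
    (((cKτ.mul_left hτη.symm).mul_left (haτ i)).mul_left cSτ)
  have e2 : ⟪τ (Kc v), η (a i w)⟫_ℝ = ⟪τ v, D v⟫_ℝ := by
    have e3 : τ (Kc v) = Kc (τ v) := (LinearMap.congr_fun cKτ.eq v).symm
    rw [e3, hw]
    conv_lhs => rw [← sK]
    rw [LinearMap.star_eq_adjoint, LinearMap.adjoint_inner_left]
    rfl
  have e4 : ⟪τ v, D v⟫_ℝ = - ⟪τ v, D v⟫_ℝ := by
    calc ⟪τ v, D v⟫_ℝ = ⟪D (τ v), v⟫_ℝ := by
          conv_rhs => rw [← sD]
          rw [LinearMap.star_eq_adjoint, LinearMap.adjoint_inner_left]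
      _ = ⟪τ (D v), v⟫_ℝ := by rw [show D (τ v) = τ (D v) from LinearMap.congr_fun cDτ.eq v]
      _ = ⟪D v, (star τ) v⟫_ℝ := by
          rw [LinearMap.star_eq_adjoint, LinearMap.adjoint_inner_right]
      _ = - ⟪τ v, D v⟫_ℝ := by rw [hτ, LinearMap.neg_apply, inner_neg_right, real_inner_comm]
  rw [e2]
  linarith

end abs

/-- `L` skew on a real inner product space. -/
theorem star_neg_of_skew {P : Type*} [NormedAddCommGroup P] [InnerProductSpace ℝ P]
    [FiniteDimensional ℝ P] {A : Module.End ℝ P} (hA : ∀ x y, ⟪A x, y⟫_ℝ = - ⟪x, A y⟫_ℝ) :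
    star A = -A := by
  rw [LinearMap.star_eq_adjoint]
  symm
  rw [LinearMap.eq_adjoint_iff]
  intro x y
  rw [LinearMap.neg_apply, inner_neg_left, hA, neg_neg]

/-- **The `J` part vanishes.** -/
theorem jzero_alg {V : Type*} [NormedAddCommGroup V] [InnerProductSpace ℝ V]
    [FiniteDimensional ℝ V] (L : ColAlg V) {ι : Type*} [Fintype ι] {c X : ι → V}
    (hX : ∀ i, X i ∈ L.kk c) (hXT : ∀ i, ∀ T ∈ L.kk c, L.br T (X i) = 0)
    (hc : L.Comm c) {h : V →ₗ[ℝ] V} (hm : ∀ u ∈ (L.kk c)ᗮ, h u ∈ (L.kk c)ᗮ)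
    (hs : ∀ u ∈ (L.kk c)ᗮ, ∀ v ∈ (L.kk c)ᗮ, ⟪h u, v⟫_ℝ = - ⟪u, h v⟫_ℝ)
    (hT : ∀ T ∈ L.kk c, ∀ u ∈ (L.kk c)ᗮ, h (L.br T u) = L.br T (h u))
    {om w : V} (hom : om ∈ (L.kk c)ᗮ) (hw : w ∈ (L.kk c)ᗮ)
    (he : ∑ i, L.br (c i) (L.br (X i) om) = ∑ i, L.br (c i) (L.br (c i) w))
    {T : V} (hTk : T ∈ L.kk c) (i : ι) : ⟪L.br T om, h (L.br (c i) w)⟫_ℝ = 0 := by
  have hcc : ∀ i, c i ∈ L.kk c := fun i => L.self_mem_kk hc i
  have hbr : ∀ T ∈ L.kk c, ∀ u ∈ (L.kk c)ᗮ, L.br T u ∈ (L.kk c)ᗮ := fun T hT u hu =>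
    L.br_mem_perp hT hu
  have hcomm : ∀ S ∈ L.kk c, ∀ S' ∈ L.kk c, L.br S S' = 0 → ∀ u, L.br S (L.br S' u) =
      L.br S' (L.br S u) := by
    intro S _ S' _ h0 u
    rw [L.jac, h0]
    simp
  -- `[c_j, T] = 0` for `T` in `kk`
  have hcT : ∀ j, ∀ T ∈ L.kk c, L.br (c j) T = 0 := fun j T hT => hT j
  have hXT' : ∀ j, ∀ T ∈ L.kk c, L.br (X j) T = 0 := fun j T hT => by
    rw [L.anti, hXT j T hT, neg_zero]
  let r (T : V) (hT : T ∈ L.kk c) : Module.End ℝ ((L.kk c)ᗮ : Submodule ℝ V) :=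
    (L.br T).restrict (hbr T hT)
  have hr : ∀ T hT (u : ((L.kk c)ᗮ : Submodule ℝ V)), ((r T hT u : _) : V) = L.br T u :=
    fun T hT u => rfl
  have hrs : ∀ T hT, star (r T hT) = - r T hT := fun T hT =>
    star_neg_of_skew fun x y => L.skew T x y
  have hrc : ∀ T hT T' hT', L.br T T' = 0 → Commute (r T hT) (r T' hT') := by
    intro T hT T' hT' h0
    refine LinearMap.ext fun u => Subtype.ext ?_
    exact hcomm T hT T' hT' h0 u
  let η : Module.End ℝ ((L.kk c)ᗮ : Submodule ℝ V) := h.restrict hm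
  have hη : ∀ T hT, Commute (r T hT) η := by
    intro T hT'
    refine LinearMap.ext fun u => Subtype.ext ?_
    exact (hT T hT' u u.2).symm
  have key := abs_zero (P := ((L.kk c)ᗮ : Submodule ℝ V)) (fun j => r (c j) (hcc j))
    (fun j => r (X j) (hX j)) (r T hTk) η (fun j => hrs (c j) (hcc j))
    (fun j => hrs (X j) (hX j)) (hrs T hTk)
    (star_neg_of_skew fun x y => hs x x.2 y y.2)
    (fun j l => hrc (c j) (hcc j) (c l) (hcc l) (hc j l))
    (fun j l => hrc (c j) (hcc j) (X l) (hX l) (hcT j _ (hX l)))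
    (fun j => hrc (c j) (hcc j) T hTk (hcT j T hTk))
    (fun j => hrc (X j) (hX j) T hTk (hXT' j T hTk))
    (fun j => hη (c j) (hcc j)) (fun j => hη (X j) (hX j)) (hη T hTk)
    (fun v hv => by
      have h1 : (v : V) ∈ L.kk c := fun j => congrArg (fun x : ((L.kk c)ᗮ : Submodule ℝ V) =>
        (x : V)) (hv j)
      have h2 : ⟪(v : V), v⟫_ℝ = 0 := (Submodule.mem_orthogonal _ _).1 v.2 _ h1
      exact Subtype.ext (inner_self_eq_zero.1 h2))
    (om := ⟨om, hom⟩) (w := ⟨w, hw⟩)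
    (by
      apply Subtype.ext
      simp only [Submodule.coe_sum, hr]
      exact he) i
  exact key


section literal

variable {c : Cfg N}

/-! ## Literal statements in the frame of `Frame_839` -/

theorem comp_star (x : Cfg N) (i : Fin 9) :
    comp ((Uk b c).starProjection x) i = (kc (actB b) c).starProjection (comp x i) := by
  set y : Cfg N := mkc fun i => (kc (actB b) c).starProjection (comp x i) with hy
  have hyU : y ∈ Uk b c := fun i => by
    rw [hy, comp_mkc]
    exact Submodule.starProjection_apply_mem _ _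
  have h2 : x - y ∈ (Uk b c)ᗮ := by
    have h3 : x - y ∈ Tup (kc (actB b) c)ᗮ := fun i => by
      rw [comp_sub, hy, comp_mkc]
      exact Submodule.sub_starProjection_mem_orthogonal _
    rw [← Tup_orth] at h3
    exact h3
  have h1 : (Uk b c).starProjection x = y :=
    Submodule.eq_starProjection_of_mem_orthogonal hyU h2
  rw [h1, hy, comp_mkc]

theorem uu_star (G : GammaNine) (α : Fin 16) (x : Cfg N) (β : Fin 16) :
    uu G α ((Uk b c).starProjection x) β = (kc (actB b) c).starProjection (uu G α x β) := by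
  unfold uu
  rw [map_sum]
  exact Finset.sum_congr rfl fun i _ => by rw [map_smul, comp_star]

theorem uu_act (G : GammaNine) (α : Fin 16) (w : Colg N) (x : Cfg N) (β : Fin 16) :
    uu G α (actB b w x) β = (colAlg b).br w (uu G α x β) := by
  unfold uu
  rw [map_sum]
  exact Finset.sum_congr rfl fun i _ => by rw [map_smul, comp_act]

theorem uu_mem {K : Submodule ℝ (Colg N)} (G : GammaNine) (α : Fin 16) {x : Cfg N}
    (hx : x ∈ Tup K) (β : Fin 16) : uu G α x β ∈ K :=
  Submodule.sum_mem _ fun i _ => K.smul_mem _ (hx i)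

theorem hK (b : ColorBasis N) (c : Cfg N) : ∀ T ∈ kc (actB b) c, ∀ w ∈ (kc (actB b) c)ᗮ,
    (colAlg b).br T w ∈ (kc (actB b) c)ᗮ := by
  intro T hT w hw
  rw [kc_eq] at hT hw ⊢
  exact (colAlg b).br_mem_perp hT hw

/-- Vacuum component of `Θ_α(t) B(ω)` for `t ∈ R⁹ ⊗ kᗮ`, `ω ∈ kᗮ`: light part and `J` part. -/
theorem vac_Theta {f g : F} (hh : HH b (kc (actB b) c) h)
    (hf : f ∈ HV M G (kc (actB b) c) h) (hg : g ∈ HV M G (kc (actB b) c) h) (α : Fin 16)
    {t : Cfg N} (ht : t ∈ Mm b c) {om : Colg N} (hom : om ∈ (kc (actB b) c)ᗮ) :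
    ⟪g, Theta M G α t (Lift406.Bop b M om.ofLp f)⟫_ℂ =
      -(1 / 2 : ℂ) * ⟪g, Theta M G α ((Uk b c).starProjection (actB b om t)) f⟫_ℂ +
      (Complex.I / 2) * ∑ β, ⟪g, thv M β ((kc (actB b) c).starProjection
        ((colAlg b).br om (Jm G h (uu G α t) β))) f⟫_ℂ := by
  rw [Theta_TH, vac_gen (hK b c) hh hf hg (uu_mem G α ht) hom]
  congr 2
  rw [Theta_TH, TH_apply, inner_sum]
  exact Finset.sum_congr rfl fun β _ => by rw [uu_star, uu_act]

/-- Central positions: `X ∈ R⁹ ⊗ k(c)` commuting with `k(c)`. -/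
def Cen (b : ColorBasis N) (c X : Cfg N) : Prop :=
  X ∈ Uk b c ∧ ∀ T ∈ kc (actB b) c, actB b T X = 0

/-- The `J` part of `[ω_t, h_j t_i]` vanishes for the gauge frame at a central position. -/
theorem jzero (hc : Comc b c) (hh : HH b (kc (actB b) c) h) {r B : ℝ} (hr0 : 0 < r)
    (hr : GapAt (actB b) c r) (hB : ActBound (actB b) B) {X : Cfg N} (hX : Cen b c X)
    (hx : B * ‖X - c‖ ≤ r / 2) (t : Tn (actB b) c) (i j : Fin 9) :
    (kc (actB b) c).starProjection
      ((colAlg b).br (om (actB b) c X t) (h j (comp (t : Cfg N) i))) = 0 := by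
  set w0 : Colg N := ((om (actB b) c c t : (kc (actB b) c)ᗮ) : Colg N) with hw0
  have hxc : B * ‖c - c‖ ≤ r / 2 := by
    rw [sub_self, norm_zero, mul_zero]
    positivity
  -- `t = [w0, c]`
  have ht : (t : Cfg N) = actB b w0 c := by
    have h1 := S_om hr0 hr hB hxc t
    have h2 := S_self (A := actB b) (c := c) (om (actB b) c c t)
    rw [h1] at h2
    exact h2
  -- the frame equation
  have hfr : ∀ v : Colg N, ⟪actB b (om (actB b) c X t) X - actB b w0 c, actB b v c⟫_ℝ = 0 := by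
    intro v
    have h1 := S_om hr0 hr hB hx t
    have h2 : ((S (actB b) c X (om (actB b) c X t) : Tn (actB b) c) : Cfg N) =
        (Tn (actB b) c).starProjection (actB b (om (actB b) c X t) X) := rfl
    rw [h1] at h2
    have h3 : actB b (om (actB b) c X t) X - (t : Cfg N) ∈ (Tn (actB b) c)ᗮ := by
      rw [h2]
      exact Submodule.sub_starProjection_mem_orthogonal _
    rw [← ht]
    exact (Submodule.mem_orthogonal' _ _).1 h3 _ (mem_Tn _ _ v)
  have he : ∑ i, (colAlg b).br (comp c i) ((colAlg b).br (comp X i)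
      ((om (actB b) c X t : (kc (actB b) c)ᗮ) : Colg N)) =
      ∑ i, (colAlg b).br (comp c i) ((colAlg b).br (comp c i) w0) := by
    rw [← sub_eq_zero, ← Finset.sum_sub_distrib]
    rw [← inner_self_eq_zero (𝕜 := ℝ)]
    set v : Colg N := ∑ i, ((colAlg b).br (comp c i) ((colAlg b).br (comp X i)
      ((om (actB b) c X t : (kc (actB b) c)ᗮ) : Colg N)) -
      (colAlg b).br (comp c i) ((colAlg b).br (comp c i) w0)) with hv
    have h1 := hfr v
    rw [inner_comp] at h1
    have h2 : ∀ i, ⟪comp (actB b (om (actB b) c X t) X - actB b w0 c) i,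
        comp (actB b v c) i⟫_ℝ = - ⟪(colAlg b).br (comp c i) ((colAlg b).br (comp X i)
      ((om (actB b) c X t : (kc (actB b) c)ᗮ) : Colg N)) -
      (colAlg b).br (comp c i) ((colAlg b).br (comp c i) w0), v⟫_ℝ := by
      intro i
      rw [comp_sub, comp_act, comp_act, comp_act, (colAlg b).anti v, inner_neg_right,
        ← (colAlg b).skew, map_sub, (colAlg b).anti (om (actB b) c X t) (comp X i),
        (colAlg b).anti w0 (comp c i), map_neg, map_neg, ← inner_neg_left]
      congr 1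
      abel
    rw [Finset.sum_congr rfl fun i _ => h2 i, Finset.sum_neg_distrib, ← sum_inner, ← hv,
      neg_eq_zero] at h1
    exact h1
  rw [Submodule.starProjection_apply_eq_zero_iff, Submodule.mem_orthogonal']
  intro T hT
  have hkk := kc_eq (b := b) c
  have hti : comp (t : Cfg N) i = - (colAlg b).br (comp c i) w0 := by
    rw [ht, comp_act, (colAlg b).anti]
  have hTk : T ∈ (colAlg b).kk (comp c) := by rw [← hkk]; exact hT
  have key := jzero_alg (colAlg b) (c := comp c) (X := comp X) (h := h j)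
    (fun i => by rw [← hkk]; exact hX.1 i)
    (fun i T hT => by
      rw [← hkk] at hT
      have h1 := congrArg (fun x : Cfg N => comp x i) (hX.2 T hT)
      simp only [comp_act, comp_zero] at h1
      exact h1)
    hc (by rw [← hkk]; exact hh.mem j) (by rw [← hkk]; exact hh.skew j)
    (by rw [← hkk]; exact hh.comm j)
    (om := ((om (actB b) c X t : (kc (actB b) c)ᗮ) : Colg N)) (w := w0)
    (by rw [← hkk]; exact (om (actB b) c X t).2) (by rw [← hkk]; exact (om (actB b) c c t).2)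
    he hTk i
  rw [hti, map_neg, map_neg, inner_neg_left, neg_eq_zero, (colAlg b).inv,
    (colAlg b).anti _ T, inner_neg_right, ← (colAlg b).skew]
  exact key

theorem Jpart_zero (hc : Comc b c) (hh : HH b (kc (actB b) c) h) {r B : ℝ} (hr0 : 0 < r)
    (hr : GapAt (actB b) c r) (hB : ActBound (actB b) B) {X : Cfg N} (hX : Cen b c X)
    (hx : B * ‖X - c‖ ≤ r / 2) (α : Fin 16) (t : Tn (actB b) c) (β : Fin 16) :
    (kc (actB b) c).starProjection ((colAlg b).br (om (actB b) c X t)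
      (Jm G h (uu G α (t : Cfg N)) β)) = 0 := by
  unfold Jm uu
  simp only [map_sum, map_smul, jzero hc hh hr0 hr hB hX hx, smul_zero, Finset.sum_const_zero]

/-- The heavy part of a configuration has no vacuum component. -/
theorem Theta_vac {f g : F} (hf : f ∈ HV M G (kc (actB b) c) h)
    (hg : g ∈ HV M G (kc (actB b) c) h) (α : Fin 16) (x : Cfg N) :
    ⟪g, Theta M G α x f⟫_ℂ = ⟪g, Theta M G α ((Uk b c).starProjection x) f⟫_ℂ := by
  have h1 : x = (Uk b c).starProjection x + (Uk b c)ᗮ.starProjection x :=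
    (Submodule.starProjection_add_starProjection_orthogonal (K := Uk b c) x).symm
  have h2 : (Uk b c)ᗮ.starProjection x ∈ Mm b c := by
    have h3 := Submodule.starProjection_apply_mem (Uk b c)ᗮ x
    have h5 : (Uk b c)ᗮ = Mm b c := Tup_orth _
    exact h5.le h3
  conv_lhs => rw [h1]
  rw [Theta_add, LinearMap.add_apply, inner_add_right]
  have h4 : ⟪g, Theta M G α ((Uk b c)ᗮ.starProjection x) f⟫_ℂ = 0 := by
    rw [Theta_TH]
    exact HV.one hf hg (uu_mem G α h2)
  rw [h4, add_zero]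

/-- Light directions preserve the heavy vacuum space. -/
theorem Theta_light_mem {f : F} (hh : HH b (kc (actB b) c) h)
    (hf : f ∈ HV M G (kc (actB b) c) h) (α : Fin 16) {x : Cfg N} (hx : x ∈ Uk b c) :
    Theta M G α x f ∈ HV M G (kc (actB b) c) h := by
  rw [Theta_TH]
  exact HV.light hh hf (uu_mem G α hx)

/-- `[B(ω), Θ_α(x)] = Θ_α([ω, x])` -/
theorem Bop_Theta (b : ColorBasis N) (M : FermionRep N F) (G : GammaNine) (α : Fin 16)
    (w : Colg N) (x : Cfg N) (f : F) :
    Lift406.Bop b M w.ofLp (Theta M G α x f) =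
      Theta M G α x (Lift406.Bop b M w.ofLp f) + Theta M G α (actB b w x) f := by
  have h0 : ∀ v : Colg N, Lift406.adL b w.ofLp v.ofLp = ((colAlg b).br w v).ofLp := by
    intro v
    funext C
    have h3 : ((colAlg b).br w v).ofLp C = ∑ A, ∑ B, b.structConst C A B * w.ofLp A * v.ofLp B :=
      rfl
    rw [Lift406.adL_apply, h3]
    refine Finset.sum_congr rfl fun A _ => Finset.sum_congr rfl fun B _ => ?_
    rw [← Col962.f_cyc b C A B]
  have h1 : ∀ (β : Fin 16) (v : Colg N), Lift406.Bop b M w.ofLp (thv M β v f) =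
      thv M β v (Lift406.Bop b M w.ofLp f) + thv M β ((colAlg b).br w v) f := by
    intro β v
    have h2 := congrArg (fun L : F →L[ℂ] F => L f) (Lift406.Bop_comm_thv b M w.ofLp β v.ofLp)
    rw [h0] at h2
    simp only [_root_.sub_apply, Lift406.mulA] at h2
    rw [thv_406, thv_406, thv_406, ← h2]
    abel
  rw [Theta_TH, Theta_TH, TH_apply, TH_apply, TH_apply, map_sum, ← Finset.sum_add_distrib]
  exact Finset.sum_congr rfl fun β _ => by rw [h1, uu_act]

section frame

variable {f g : F} {r B : ℝ} {X : Cfg N}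

/-- **Vacuum component of `Θ_α(t) B(ω_t)`.** -/
theorem vac_ThB (hc : Comc b c) (hh : HH b (kc (actB b) c) h)
    (hf : f ∈ HV M G (kc (actB b) c) h) (hg : g ∈ HV M G (kc (actB b) c) h) (hr0 : 0 < r)
    (hr : GapAt (actB b) c r) (hB : ActBound (actB b) B) (hX : Cen b c X)
    (hx : B * ‖X - c‖ ≤ r / 2) (α : Fin 16) (t : Tn (actB b) c) :
    ⟪g, Theta M G α t (Lift406.Bop b M (om (actB b) c X t : Colg N).ofLp f)⟫_ℂ =
      -(1 / 2 : ℂ) * ⟪g, Theta M G α
        ((Uk b c).starProjection (actB b (om (actB b) c X t) t)) f⟫_ℂ := by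
  rw [vac_Theta hh hf hg α (Tn_le_Mm t.2) (om (actB b) c X t).2]
  simp only [Jpart_zero hc hh hr0 hr hB hX hx α t, thv_zero, LinearMap.zero_apply,
    inner_zero_right, Finset.sum_const_zero, mul_zero, add_zero]

/-- **Vacuum component of `B(ω_t) Θ_α(t)`.** -/
theorem vac_BTh (hc : Comc b c) (hh : HH b (kc (actB b) c) h)
    (hf : f ∈ HV M G (kc (actB b) c) h) (hg : g ∈ HV M G (kc (actB b) c) h) (hr0 : 0 < r)
    (hr : GapAt (actB b) c r) (hB : ActBound (actB b) B) (hX : Cen b c X)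
    (hx : B * ‖X - c‖ ≤ r / 2) (α : Fin 16) (t : Tn (actB b) c) :
    ⟪g, Lift406.Bop b M (om (actB b) c X t : Colg N).ofLp (Theta M G α t f)⟫_ℂ =
      (1 / 2 : ℂ) * ⟪g, Theta M G α
        ((Uk b c).starProjection (actB b (om (actB b) c X t) t)) f⟫_ℂ := by
  rw [Bop_Theta, inner_add_right, vac_ThB hc hh hf hg hr0 hr hB hX hx,
    Theta_vac hf hg α (actB b (om (actB b) c X t) t)]
  ring

theorem Theta_sum' {κ : Type*} (s : Finset κ) (M : FermionRep N F) (G : GammaNine) (α : Fin 16)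
    (x : κ → Cfg N) : Theta M G α (∑ a ∈ s, x a) = ∑ a ∈ s, Theta M G α (x a) := by
  classical
  induction s using Finset.induction_on with
  | empty =>
    have h := Theta_smul M G α 0 (0 : Cfg N)
    simpa using h
  | insert a s ha ih => rw [Finset.sum_insert ha, Finset.sum_insert ha, Theta_add, ih]

/-- **(V4)**, charge form: `P (-i Σ_a Θ(t_a) B(ω_a)) P = (i/2) Θ(prU Σ_a [ω_a, t_a])`. -/
theorem vac_sum {κ : Type*} [Fintype κ] (tt : κ → Tn (actB b) c) (hc : Comc b c)
    (hh : HH b (kc (actB b) c) h)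
    (hf : f ∈ HV M G (kc (actB b) c) h) (hg : g ∈ HV M G (kc (actB b) c) h) (hr0 : 0 < r)
    (hr : GapAt (actB b) c r) (hB : ActBound (actB b) B) (hX : Cen b c X)
    (hx : B * ‖X - c‖ ≤ r / 2) (α : Fin 16) :
    ⟪g, ∑ a, (-Complex.I) • Theta M G α (tt a)
        (Lift406.Bop b M (om (actB b) c X (tt a) : Colg N).ofLp f)⟫_ℂ =
      ⟪g, (Complex.I / 2) • Theta M G α ((Uk b c).starProjection
        (∑ a, actB b (om (actB b) c X (tt a)) (tt a))) f⟫_ℂ := by
  rw [map_sum, Theta_sum', LinearMap.sum_apply, Finset.smul_sum, inner_sum, inner_sum]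
  refine Finset.sum_congr rfl fun a _ => ?_
  rw [inner_smul_right, inner_smul_right, vac_ThB hc hh hf hg hr0 hr hB hX hx]
  ring

/-- **(V4)**, adjoint form (`Qd` of `PairA_547`):
`P (-i Σ_a B(ω_a) Θ(t_a)) P = -(i/2) Θ(prU Σ_a [ω_a, t_a])`. -/
theorem vac_sum' {κ : Type*} [Fintype κ] (tt : κ → Tn (actB b) c) (hc : Comc b c)
    (hh : HH b (kc (actB b) c) h)
    (hf : f ∈ HV M G (kc (actB b) c) h) (hg : g ∈ HV M G (kc (actB b) c) h) (hr0 : 0 < r)
    (hr : GapAt (actB b) c r) (hB : ActBound (actB b) B) (hX : Cen b c X)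
    (hx : B * ‖X - c‖ ≤ r / 2) (α : Fin 16) :
    ⟪g, ∑ a, (-Complex.I) • Lift406.Bop b M (om (actB b) c X (tt a) : Colg N).ofLp
        (Theta M G α (tt a) f)⟫_ℂ =
      ⟪g, (-Complex.I / 2) • Theta M G α ((Uk b c).starProjection
        (∑ a, actB b (om (actB b) c X (tt a)) (tt a))) f⟫_ℂ := by
  rw [map_sum, Theta_sum', LinearMap.sum_apply, Finset.smul_sum, inner_sum, inner_sum]
  refine Finset.sum_congr rfl fun a _ => ?_
  rw [inner_smul_right, inner_smul_right, vac_BTh hc hh hf hg hr0 hr hB hX hx]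
  ring

end frame

/-! ## Membership criterion -/

/-- It is enough to test single heavy vectors. -/
theorem mem_HV_iff {K : Submodule ℝ (Colg N)} {f : F} : f ∈ HV M G K h ↔
    ∀ β, ∀ v ∈ Kᗮ, thv M β v f =
      Complex.I • ∑ j, ∑ γ, ((G.γ j γ β : ℝ) : ℂ) • thv M γ (h j v) f := by
  classical
  have key : ∀ u : Fin 16 → Colg N, TH M (Jm G h u) f =
      ∑ β, ∑ j, ∑ γ, ((G.γ j γ β : ℝ) : ℂ) • thv M γ (h j (u β)) f := by
    intro u
    rw [TH_apply]
    unfold Jm
    simp only [thv_sum, thv_smul, LinearMap.sum_apply, LinearMap.smul_apply]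
    rw [Finset.sum_comm]
    rw [Finset.sum_comm (f := fun β j => ∑ γ, ((G.γ j γ β : ℝ) : ℂ) • thv M γ (h j (u β)) f)]
    exact Finset.sum_congr rfl fun j _ => Finset.sum_comm
  constructor
  · intro hf β v hv
    have h1 := hf (Pi.single β v) (single_mem β hv)
    rw [key, TH_single, Finset.sum_eq_single β] at h1
    · rw [Pi.single_eq_same] at h1
      exact h1
    · intro γ _ hγ
      refine Finset.sum_eq_zero fun j _ => Finset.sum_eq_zero fun γ' _ => ?_
      rw [Pi.single_eq_of_ne hγ, map_zero, thv_zero, LinearMap.zero_apply, smul_zero]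
    · simp
  · intro hf u hu
    rw [key, TH_apply, Finset.smul_sum]
    exact Finset.sum_congr rfl fun β _ => hf β _ (hu β)

end literal

end Crest.Agent.R330.VComp331
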