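import Crest.Agent.R330.Bind6_839

/-!
# Row 330, S8-V3: the logarithmic derivative of the frame determinant

Abstract setting of `Frame_839`: `J x := S A c x ∘ om A c c : Tn A c → Tn A c`
(`t ↦ Π_T [om_c t, x]`). For every `x` in the ball and every direction `e`,
`∂_e log |det (J x)| = Σ_a ⟪t_a, [om_x t_a, e]⟫`.
-/

set_option autoImplicit false
set_option linter.unusedSectionVars false

open scoped InnerProductSpace ContDiff

noncomputable section

namespace Crest.Agent.R330.VacJ288

open Crest.Agent.R330.Frame839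

/-! ## Determinant along a line -/

section det

variable {T : Type*} [AddCommGroup T] [Module ℝ T] [FiniteDimensional ℝ T]

theorem hasDerivAt_det_one (M : T →ₗ[ℝ] T) :
    HasDerivAt (fun s : ℝ => LinearMap.det (1 + s • M)) (LinearMap.trace ℝ T M) 0 := by
  classical
  set b := Module.finBasis ℝ T with hb
  set m := LinearMap.toMatrix b b M with hm
  have h1 : ∀ s : ℝ, LinearMap.det (1 + s • M) = (1 + s • m).det := by
    intro s
    rw [← LinearMap.det_toMatrix b, map_add, map_smul, LinearMap.toMatrix_one]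
  have h2 : LinearMap.trace ℝ T M = m.trace := LinearMap.trace_eq_matrix_trace ℝ b M
  rw [h2]
  have h1' : (fun s : ℝ => LinearMap.det (1 + s • M)) = fun s : ℝ => 1 + m.trace * s +
      ((Matrix.det (1 + (Polynomial.X : Polynomial ℝ) •
        m.map Polynomial.C)).divX.divX).eval s * s ^ 2 := by
    funext s
    rw [h1, Matrix.det_one_add_smul]
  rw [h1']
  set p : Polynomial ℝ := (Matrix.det (1 + (Polynomial.X : Polynomial ℝ) •
    m.map Polynomial.C)).divX.divX with hp
  have h3 : HasDerivAt (fun s : ℝ => 1 + m.trace * s + p.eval s * s ^ 2)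
      (m.trace * 1 + ((Polynomial.derivative p).eval 0 * 0 ^ 2 + p.eval 0 * (2 * 0))) 0 := by
    have a1 : HasDerivAt (fun s : ℝ => 1 + m.trace * s) (m.trace * 1) 0 :=
      ((hasDerivAt_id (0 : ℝ)).const_mul m.trace).const_add 1
    have a2 : HasDerivAt (fun s : ℝ => p.eval s * s ^ 2)
        ((Polynomial.derivative p).eval 0 * 0 ^ 2 + p.eval 0 * (2 * 0)) 0 := by
      have := (p.hasDerivAt 0).mul (hasDerivAt_pow 2 (0 : ℝ))
      refine this.congr_deriv ?_
      simp
    exact a1.add a2
  refine h3.congr_deriv ?_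
  ring

theorem hasDerivAt_det_line {J K I : T →ₗ[ℝ] T} (hJ : J ∘ₗ I = LinearMap.id) :
    HasDerivAt (fun s : ℝ => LinearMap.det (J + s • K))
      (LinearMap.det J * LinearMap.trace ℝ T (K ∘ₗ I)) 0 := by
  have hI : I ∘ₗ J = LinearMap.id := by
    exact (LinearMap.comp_eq_id_comm ℝ T).1 hJ
  have h1 : ∀ s : ℝ, LinearMap.det (J + s • K) =
      LinearMap.det (1 + s • (K ∘ₗ I)) * LinearMap.det J := by
    intro s
    rw [← LinearMap.det_comp]
    congr 1
    rw [LinearMap.add_comp, LinearMap.smul_comp, LinearMap.comp_assoc, hI]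
    rfl
  simp only [h1]
  have := (hasDerivAt_det_one (K ∘ₗ I)).mul_const (LinearMap.det J)
  rwa [mul_comm] at this

theorem hasDerivAt_log_det {J K I : T →ₗ[ℝ] T} (hJ : J ∘ₗ I = LinearMap.id) :
    HasDerivAt (fun s : ℝ => Real.log |LinearMap.det (J + s • K)|)
      (LinearMap.trace ℝ T (K ∘ₗ I)) 0 := by
  have hdet : LinearMap.det J ≠ 0 := by
    intro h0
    have := congrArg LinearMap.det hJ
    rw [LinearMap.det_comp, h0, zero_mul, LinearMap.det_id] at this
    exact zero_ne_one this
  simp only [Real.log_abs]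
  have h := hasDerivAt_det_line (K := K) hJ
  have h0 : LinearMap.det (J + (0 : ℝ) • K) ≠ 0 := by
    rw [zero_smul, add_zero]; exact hdet
  have h2 := h.log h0
  refine h2.congr_deriv ?_
  rw [zero_smul, add_zero]
  field_simp

end det

/-! ## The frame determinant -/

variable {V E : Type*} [NormedAddCommGroup V] [InnerProductSpace ℝ V] [FiniteDimensional ℝ V]
  [NormedAddCommGroup E] [InnerProductSpace ℝ E] [FiniteDimensional ℝ E]
  (A : V →L[ℝ] E →L[ℝ] E) (c : E)

/-- `t ↦ Π_T [om_c t, x]`. -/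
def J (x : E) : Tn A c →ₗ[ℝ] Tn A c := (S A c x ∘L om A c c).toLinearMap

theorem J_apply (x : E) (t : Tn A c) :
    J A c x t = (Tn A c).orthogonalProjectionOnto (A (om A c c t) x) := rfl

theorem J_add_smul (x e : E) (s : ℝ) : J A c (x + s • e) = J A c x + s • J A c e := by
  ext t
  rw [LinearMap.add_apply, LinearMap.smul_apply, J_apply, J_apply, J_apply, map_add, map_smul,
    map_add, map_smul]

/-- The inverse of `J x`. -/
def Ji (x : E) : Tn A c →ₗ[ℝ] Tn A c := (S A c c ∘L om A c x).toLinearMap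

variable {A c} {r B : ℝ}

theorem J_Ji (hr0 : 0 < r) (hr : GapAt A c r) (hB : ActBound A B) {x : E}
    (hx : B * ‖x - c‖ ≤ r / 2) : J A c x ∘ₗ Ji A c x = LinearMap.id := by
  have hc : B * ‖c - c‖ ≤ r / 2 := by
    rw [sub_self, norm_zero, mul_zero]; positivity
  ext t
  show ((S A c x (om A c c (S A c c (om A c x t)))) : E) = t
  rw [om_S hr0 hr hB hc, S_om hr0 hr hB hx]

theorem J_comp_Ji (hr0 : 0 < r) (hr : GapAt A c r) (hB : ActBound A B) (x e : E) (t : Tn A c) :
    (J A c e ∘ₗ Ji A c x) t = S A c e (om A c x t) := by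
  have hc : B * ‖c - c‖ ≤ r / 2 := by
    rw [sub_self, norm_zero, mul_zero]; positivity
  show S A c e (om A c c (S A c c (om A c x t))) = _
  rw [om_S hr0 hr hB hc]

theorem trace_frame (hr0 : 0 < r) (hr : GapAt A c r) (hB : ActBound A B) (x e : E)
    {κ : Type*} [Fintype κ] (t : OrthonormalBasis κ ℝ (Tn A c)) :
    LinearMap.trace ℝ (Tn A c) (J A c e ∘ₗ Ji A c x) =
      ∑ a, ⟪(t a : E), A (om A c x (t a)) e⟫_ℝ := by
  classical
  rw [LinearMap.trace_eq_sum_inner _ t]
  refine Finset.sum_congr rfl fun a _ => ?_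
  rw [J_comp_Ji hr0 hr hB, S_apply]
  exact Submodule.inner_orthogonalProjectionOnto_eq_of_mem_left _ _

/-- **V3**: the logarithmic derivative of the frame determinant along a line. -/
theorem hasDerivAt_log_detJ (hr0 : 0 < r) (hr : GapAt A c r) (hB : ActBound A B) {x : E}
    (hx : B * ‖x - c‖ ≤ r / 2) (e : E) {κ : Type*} [Fintype κ]
    (t : OrthonormalBasis κ ℝ (Tn A c)) :
    HasDerivAt (fun s : ℝ => Real.log |LinearMap.det (J A c (x + s • e))|)
      (∑ a, ⟪(t a : E), A (om A c x (t a)) e⟫_ℝ) 0 := by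
  rw [← trace_frame hr0 hr hB x e t]
  simp only [J_add_smul]
  exact hasDerivAt_log_det (J_Ji hr0 hr hB hx)

/-! ## The gradient of the log determinant -/

theorem contDiffAt_log_detJ (hr0 : 0 < r) (hr : GapAt A c r) (hB : ActBound A B) {x : E}
    (hx : B * ‖x - c‖ ≤ r / 2) :
    ContDiffAt ℝ ∞ (fun y : E => Real.log |LinearMap.det (J A c y)|) x := by
  have hdet : LinearMap.det (J A c x) ≠ 0 := by
    intro h0
    have := congrArg LinearMap.det (J_Ji hr0 hr hB hx)
    rw [LinearMap.det_comp, h0, zero_mul, LinearMap.det_id] at this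
    exact zero_ne_one this
  simp only [Real.log_abs]
  have hd : ContDiff ℝ ∞ (fun y : E => LinearMap.det (J A c y)) := by
    classical
    set b := Module.finBasis ℝ (Tn A c) with hb
    have h1 : ∀ y, LinearMap.det (J A c y) = (LinearMap.toMatrix b b (J A c y)).det := fun y =>
      (LinearMap.det_toMatrix b _).symm
    simp only [h1, Matrix.det_apply]
    refine ContDiff.sum fun σ _ => ?_
    refine ContDiff.const_smul _ (contDiff_prod fun i _ => ?_)
    have h2 : (fun y : E => LinearMap.toMatrix b b (J A c y) (σ i) i) = fun y : E =>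
        (b.repr ((Tn A c).orthogonalProjectionOnto (A (om A c c (b i)) y))) (σ i) := by
      funext y
      rw [LinearMap.toMatrix_apply, J_apply]
    rw [h2]
    have h3 : (fun y : E =>
        (b.repr ((Tn A c).orthogonalProjectionOnto (A (om A c c (b i)) y))) (σ i)) =
        fun y => (LinearMap.toContinuousLinearMap ((b.coord (σ i)) ∘ₗ
          ((Tn A c).orthogonalProjectionOnto ∘L (A (om A c c (b i)))).toLinearMap)) y := rfl
    rw [h3]
    exact ContinuousLinearMap.contDiff _
  exact hd.contDiffAt.log hdet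

/-- **V3**, gradient form. -/
theorem fderiv_log_detJ (hr0 : 0 < r) (hr : GapAt A c r) (hB : ActBound A B) {x : E}
    (hx : B * ‖x - c‖ ≤ r / 2) (e : E) {κ : Type*} [Fintype κ]
    (t : OrthonormalBasis κ ℝ (Tn A c)) :
    fderiv ℝ (fun y : E => Real.log |LinearMap.det (J A c y)|) x e =
      ∑ a, ⟪(t a : E), A (om A c x (t a)) e⟫_ℝ := by
  have hdf : DifferentiableAt ℝ (fun y : E => Real.log |LinearMap.det (J A c y)|) x :=
    (contDiffAt_log_detJ hr0 hr hB hx).differentiableAt (by simp)
  have h1 : HasDerivAt (fun s : ℝ => x + s • e) e 0 := by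
    have := ((hasDerivAt_id (0 : ℝ)).smul_const e).const_add x
    simpa using this
  have h0 : x + (0 : ℝ) • e = x := by rw [zero_smul, add_zero]
  have h2 := (h0.symm ▸ hdf.hasFDerivAt :
    HasFDerivAt (fun y : E => Real.log |LinearMap.det (J A c y)|)
      (fderiv ℝ (fun y : E => Real.log |LinearMap.det (J A c y)|) x) (x + (0 : ℝ) • e))
  have h3 := h2.comp_hasDerivAt (0 : ℝ) h1
  exact h3.unique (hasDerivAt_log_detJ hr0 hr hB hx e t)

/-- For a skew action the gradient is `- Σ_a [om_x t_a, t_a]`. -/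
theorem fderiv_log_detJ_skew (hr0 : 0 < r) (hr : GapAt A c r) (hB : ActBound A B)
    (hs : ∀ w u v, ⟪A w u, v⟫_ℝ = - ⟪u, A w v⟫_ℝ) {x : E}
    (hx : B * ‖x - c‖ ≤ r / 2) (e : E) {κ : Type*} [Fintype κ]
    (t : OrthonormalBasis κ ℝ (Tn A c)) :
    fderiv ℝ (fun y : E => Real.log |LinearMap.det (J A c y)|) x e =
      - ⟪∑ a, A (om A c x (t a)) (t a), e⟫_ℝ := by
  rw [fderiv_log_detJ hr0 hr hB hx e t, sum_inner, ← Finset.sum_neg_distrib]
  refine Finset.sum_congr rfl fun a _ => ?_
  rw [hs, neg_neg]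

/-! ## Literal form on configurations -/

section lit

open Crest.MathPhysics.MatrixQM Crest.Agent.R330.LS839 Crest.Agent.R330.Bind6839

variable {N : ℕ} {F : Type*} [NormedAddCommGroup F] [InnerProductSpace ℂ F]
  [FiniteDimensional ℂ F] (b : ColorBasis N)

theorem actB_skew (w : Colg N) (u v : Cfg N) : ⟪actB b w u, v⟫_ℝ = - ⟪u, actB b w v⟫_ℝ := by
  rw [inner_comp, inner_comp, ← Finset.sum_neg_distrib]
  refine Finset.sum_congr rfl fun i _ => ?_
  rw [comp_act, comp_act]
  exact (colAlg b).skew _ _ _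

/-- Projection on the normal space = projection on `R⁹ ⊗ k` + projection on `Z_c`. -/
theorem nor_proj_split (c w : Cfg N) : (Tn (actB b) c)ᗮ.starProjection w =
    (Uk b c).starProjection w + (Zs b c).starProjection w := by
  obtain ⟨y, hy, z, hz, hyz⟩ := nor_decomp
    (Submodule.starProjection_apply_mem (Tn (actB b) c)ᗮ w)
  rw [hyz]
  have hw : w - (y + z) ∈ ((Tn (actB b) c)ᗮ)ᗮ := by
    rw [← hyz]
    exact Submodule.sub_starProjection_mem_orthogonal _
  have h1 : (Uk b c).starProjection w = y := by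
    refine Submodule.eq_starProjection_of_mem_of_inner_eq_zero hy fun u hu => ?_
    have e : w - y = (w - (y + z)) + z := by abel
    rw [e, inner_add_left]
    have h2 : ⟪w - (y + z), u⟫_ℝ = 0 := by
      rw [real_inner_comm]
      exact (Submodule.mem_orthogonal _ _).1 hw u (Uk_le_Nor hu)
    have h3 : ⟪z, u⟫_ℝ = 0 := by
      rw [real_inner_comm]
      exact Zs_perp_Uk hu hz
    rw [h2, h3, add_zero]
  have h2 : (Zs b c).starProjection w = z := by
    refine Submodule.eq_starProjection_of_mem_of_inner_eq_zero hz fun u hu => ?_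
    have e : w - z = (w - (y + z)) + y := by abel
    rw [e, inner_add_left]
    have h2 : ⟪w - (y + z), u⟫_ℝ = 0 := by
      rw [real_inner_comm]
      exact (Submodule.mem_orthogonal _ _).1 hw u hu.2
    rw [h2, Zs_perp_Uk hy hu, add_zero]
  rw [h1, h2]

/-- `Σ_s ⟪w, n_s⟫ Θ(n_s) = Θ(Π w)` for an orthonormal basis of a subspace. -/
theorem Theta_basis (M : FermionRep N F) (G : GammaNine) (α : Fin 16) (K : Submodule ℝ (Cfg N))
    {ι : Type*} [Fintype ι] (n : OrthonormalBasis ι ℝ K) (w : Cfg N) :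
    ∑ s, ((⟪w, (n s : Cfg N)⟫_ℝ : ℝ) : ℂ) • Theta M G α (n s) =
      Theta M G α (K.starProjection w) := by
  have h1 : (K.starProjection w : Cfg N) = ∑ s, ⟪w, (n s : Cfg N)⟫_ℝ • ((n s : K) : Cfg N) := by
    have h2 := congrArg (fun u : K => (u : Cfg N)) (n.sum_repr' (K.orthogonalProjectionOnto w))
    simp only [Submodule.coe_sum, Submodule.coe_smul] at h2
    rw [Submodule.starProjection_apply, ← h2]
    refine Finset.sum_congr rfl fun s _ => ?_
    congr 1
    rw [real_inner_comm]
    exact Submodule.inner_orthogonalProjectionOnto_eq_of_mem_right _ _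
  rw [h1]
  have h3 : ∀ (f : ι → Cfg N) (σ : Finset ι),
      Theta M G α (∑ s ∈ σ, f s) = ∑ s ∈ σ, Theta M G α (f s) := by
    classical
    intro f σ
    induction σ using Finset.induction_on with
    | empty =>
      rw [Finset.sum_empty, Finset.sum_empty]
      have := Theta_smul M G α 0 (0 : Cfg N)
      rw [zero_smul] at this
      rw [this]
      simp
    | insert s σ hs ih => rw [Finset.sum_insert hs, Finset.sum_insert hs, Theta_add, ih]
  rw [h3]
  exact Finset.sum_congr rfl fun s _ => (Theta_smul M G α _ _).symm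

variable {b}

/-- **The gradient of the log determinant in the charges**:
`Σ_s (∂_{n_s} log |det J|) Θ(n_s) = - Θ(Π_{R⁹⊗k} W) - Θ(Π_{Z_c} W)`, `W = Σ_a [om_x t_a, t_a]`. -/
theorem Theta_grad (M : FermionRep N F) (G : GammaNine) (α : Fin 16) {c x : Cfg N} {r B : ℝ}
    (hr0 : 0 < r) (hr : GapAt (actB b) c r) (hB : ActBound (actB b) B)
    (hx : B * ‖x - c‖ ≤ r / 2) {ι κ : Type*} [Fintype ι] [Fintype κ]
    (n : OrthonormalBasis ι ℝ (Tn (actB b) c)ᗮ) (t : OrthonormalBasis κ ℝ (Tn (actB b) c)) :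
    ∑ s, ((fderiv ℝ (fun y : Cfg N => Real.log |LinearMap.det (J (actB b) c y)|) x (n s) : ℝ) : ℂ)
        • Theta M G α (n s) =
      - Theta M G α ((Uk b c).starProjection
          (∑ a, actB b (om (actB b) c x (t a)) (t a))) -
        Theta M G α ((Zs b c).starProjection
          (∑ a, actB b (om (actB b) c x (t a)) (t a))) := by
  have h1 : ∀ s, ((fderiv ℝ (fun y : Cfg N => Real.log |LinearMap.det (J (actB b) c y)|) x (n s)
      : ℝ) : ℂ) • Theta M G α (n s) =
      - (((⟪∑ a, actB b (om (actB b) c x (t a)) (t a), (n s : Cfg N)⟫_ℝ : ℝ) : ℂ) •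
        Theta M G α (n s)) := by
    intro s
    rw [fderiv_log_detJ_skew hr0 hr hB (fun w u v => actB_skew b w u v) hx (n s) t]
    push_cast
    rw [neg_smul]
  rw [Finset.sum_congr rfl fun s _ => h1 s, Finset.sum_neg_distrib, Theta_basis, nor_proj_split,
    Theta_add]
  abel

end lit

end Crest.Agent.R330.VacJ288
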