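import Crest.Agent.R330.VJac_969
import Crest.Agent.R330.VacJ_288
import Crest.Agent.R330.TrA_798
import Crest.Agent.R330.Cov_837

/-!
# Row 330, S8-V3a (helper969): smoothness of the slice density, link with `VacJ288.J`, the literal
`SlI712.Chart` and the literal slice integration formula
-/

set_option autoImplicit false
noncomputable section

open Matrix MeasureTheory
open Crest.MathPhysics.MatrixQM
open Crest.Agent.R330.SlA314 Crest.Agent.R330.SlB314 Crest.Agent.R330.SlC314
open Crest.Agent.R330.SlD314 Crest.Agent.R330.SlP314 Crest.Agent.R330.SlF944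
open Crest.Agent.R330.SUgrp596
open scoped ContDiff Topology ENNReal

namespace Crest.Agent.R330.VJac969

/-! ## smoothness of determinants -/

section Det

variable {X T : Type*} [NormedAddCommGroup X] [NormedSpace ℝ X]
  [NormedAddCommGroup T] [NormedSpace ℝ T] [FiniteDimensional ℝ T]

theorem contDiff_det {n : WithTop ℕ∞} (f : X → (T →ₗ[ℝ] T))
    (h : ∀ t, ContDiff ℝ n (fun x => f x t)) : ContDiff ℝ n (fun x => LinearMap.det (f x)) := by
  classical
  set e := Module.finBasis ℝ T with he
  have h1 : (fun x => LinearMap.det (f x)) = fun x => ∑ σ : Equiv.Perm (Fin (Module.finrank ℝ T)),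
      ((Equiv.Perm.sign σ : ℤ) : ℝ) * ∏ i, e.repr (f x (e i)) (σ i) := by
    funext x
    rw [← LinearMap.det_toMatrix e, Matrix.det_apply']
    simp only [LinearMap.toMatrix_apply]
  rw [h1]
  refine ContDiff.sum fun σ _ => contDiff_const.mul (contDiff_prod fun i _ => ?_)
  have h2 : (fun x => e.repr (f x (e i)) (σ i)) =
      (LinearMap.toContinuousLinearMap (e.coord (σ i))) ∘ fun x => f x (e i) := by
    funext x
    rfl
  rw [h2]
  exact (LinearMap.toContinuousLinearMap (e.coord (σ i))).contDiff.comp (h _)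

end Det

open scoped Matrix.Norms.Operator

variable {N : ℕ} (b : ColorBasis N)

theorem continuous_brx_left (x : Cfg N) : Continuous fun w => brx b w x :=
  (LinearMap.toContinuousLinearMap (adL b x)).continuous

theorem contDiff_det_JL (c : Cfg N) : ContDiff ℝ ∞ (fun u : Cfg N => LinearMap.det (JL b c u)) := by
  refine contDiff_det _ fun t => ?_
  have h1 : (fun u : Cfg N => JL b c u t) = fun u => (Tan b c).orthogonalProjectionOnto
      (brx b (omL b c t) (c + u)) := by
    funext u
    rfl
  rw [h1]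
  refine ((Tan b c).orthogonalProjectionOnto).contDiff.comp ?_
  have h2 : (fun u : Cfg N => brx b (omL b c t) (c + u)) = fun u =>
      (LS839.actB b (WithLp.toLp 2 (omL b c t))) (c + u) := rfl
  rw [h2]
  exact (LS839.actB b (WithLp.toLp 2 (omL b c t))).contDiff.comp (contDiff_const.add contDiff_id)

theorem contDiff_wL (d : Fin (N ^ 2 - 1) → ℝ) : ContDiff ℝ ∞ (fun om => wL b om d) := by
  set H : (Fin (N ^ 2 - 1) → ℝ) × (Fin (N ^ 2 - 1) → ℝ) → (Fin (N ^ 2 - 1) → ℝ) :=
    fun p => sk b (star (Ex b p.1) * Ex b p.2) with hH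
  have hHs : ContDiff ℝ ∞ H := by
    have h3 : ContDiff ℝ ∞ (fun om => star (Ex b om)) :=
      (LinearMap.toContinuousLinearMap (stL (N := N))).contDiff.comp (contDiff_Ex b)
    exact (LinearMap.toContinuousLinearMap (sk b)).contDiff.comp
      ((h3.comp contDiff_fst).mul ((contDiff_Ex b).comp contDiff_snd))
  have h1 : (fun om => wL b om d) = fun om => fderiv ℝ H (om, om) (0, d) := by
    funext om
    have hl : HasDerivAt (fun s : ℝ => ((om, om + s • d) :
        (Fin (N ^ 2 - 1) → ℝ) × (Fin (N ^ 2 - 1) → ℝ))) (0, d) 0 := by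
      have h0 : HasDerivAt (fun s : ℝ => om + s • d) d 0 := by
        simpa using ((hasDerivAt_id (0 : ℝ)).smul_const d).const_add om
      exact (hasDerivAt_const _ _).prodMk h0
    have hd : HasFDerivAt H (fderiv ℝ H (om, om)) (om, om + (0 : ℝ) • d) := by
      rw [zero_smul, add_zero]
      exact (hHs.differentiable (by simp)).differentiableAt.hasFDerivAt
    have h3 := hd.comp_hasDerivAt (0 : ℝ) hl
    have h4 : HasDerivAt (H ∘ fun s : ℝ => ((om, om + s • d) :
        (Fin (N ^ 2 - 1) → ℝ) × (Fin (N ^ 2 - 1) → ℝ))) (wL b om d) 0 :=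
      (LinearMap.toContinuousLinearMap (sk b ∘ₗ
        (LinearMap.mulLeft ℝ (star (Ex b om))))).hasFDerivAt.comp_hasDerivAt (0 : ℝ)
          (hasDerivAt_Ex b om d)
    exact h4.unique h3
  rw [h1]
  have h2 : ContDiff ℝ ∞ (fderiv ℝ H) := hHs.fderiv_right (m := ∞) (by simp)
  exact (h2.comp (contDiff_id.prodMk contDiff_id)).clm_apply contDiff_const

theorem contDiff_det_AL (c : Cfg N) : ContDiff ℝ ∞ (fun t : Cfg N => LinearMap.det (AL b c t)) := by
  refine contDiff_det _ fun s => ?_
  have h0 : (fun t : Cfg N => AL b c t s) = fun t => (Tan b c).orthogonalProjectionOnto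
      (adL b c (wL b (omL b c t) (omL b c s))) := by
    funext t
    exact (Submodule.orthogonalProjectionOnto_mem_subspace_eq_self (AL b c t s)).symm
  rw [h0]
  refine ((Tan b c).orthogonalProjectionOnto).contDiff.comp ?_
  exact (LinearMap.toContinuousLinearMap (adL b c)).contDiff.comp
    ((contDiff_wL b (omL b c s)).comp (omL b c).contDiff)

theorem continuous_jd (c : Cfg N) : Continuous (jd b c) :=
  continuous_abs.comp (contDiff_det_JL b c).continuous

theorem continuous_ad (c : Cfg N) : Continuous (ad b c) :=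
  continuous_abs.comp (contDiff_det_AL b c).continuous

/-- `det (JL u)` is positive on the good ball (normal directions), so `jd` is smooth there. -/
theorem det_JL_pos {c : Cfg N} {δ : ℝ} (h : GoodRad b c δ) {u : Cfg N} (hu : u ∈ Nor b c)
    (hn : ‖u‖ < 2 * δ) : 0 < LinearMap.det (JL b c u) := by
  by_contra hc
  have hc' : LinearMap.det (JL b c u) ≤ 0 := not_lt.1 hc
  have hcont : ContinuousOn (fun s : ℝ => LinearMap.det (JL b c (s • u))) (Set.Icc 0 1) :=
    ((contDiff_det_JL b c).continuous.comp (continuous_id.smul continuous_const)).continuousOn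
  have h1 : (0 : ℝ) ∈ Set.Icc (LinearMap.det (JL b c ((1 : ℝ) • u)))
      (LinearMap.det (JL b c ((0 : ℝ) • u))) := by
    rw [one_smul, zero_smul, JL_zero, LinearMap.det_id]
    exact ⟨hc', zero_le_one⟩
  obtain ⟨s, hs, hs0⟩ := intermediate_value_Icc' zero_le_one hcont h1
  have h2 := jd_pos b h (u := s • u) (Submodule.smul_mem _ _ hu) (by
    rw [norm_smul, Real.norm_eq_abs, abs_of_nonneg hs.1]
    refine lt_of_le_of_lt ?_ hn
    nlinarith [norm_nonneg u, hs.2])
  have hs0' : LinearMap.det (JL b c (s • u)) = 0 := hs0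
  rw [jd, hs0', abs_zero] at h2
  exact lt_irrefl _ h2

theorem jd_eq_det {c : Cfg N} {δ : ℝ} (h : GoodRad b c δ) {u : Cfg N} (hu : u ∈ Nor b c)
    (hn : ‖u‖ < 2 * δ) : jd b c u = LinearMap.det (JL b c u) :=
  abs_of_pos (det_JL_pos b h hu hn)

/-- smoothness on the ball of the normal space, for functions of the ambient variable -/
theorem contDiffAt_jd {c : Cfg N} {δ : ℝ} (h : GoodRad b c δ) {u : Cfg N} (hu : u ∈ Nor b c)
    (hn : ‖u‖ < 2 * δ) : ContDiffAt ℝ ∞ (jd b c) u := by
  have h1 : ∀ᶠ v in 𝓝 u, 0 < LinearMap.det (JL b c v) :=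
    (contDiff_det_JL b c).continuous.continuousAt.eventually
      (lt_mem_nhds (det_JL_pos b h hu hn))
  refine (contDiff_det_JL b c).contDiffAt.congr_of_eventuallyEq ?_
  filter_upwards [h1] with v hv
  exact abs_of_pos hv

/-! ## the link with 288's `J` -/

theorem PT_brx_eq {c u : Cfg N} (hu : u ∈ Nor b c) {w w' : Fin (N ^ 2 - 1) → ℝ}
    (h : brx b w c = brx b w' c) : PT b c (brx b w (c + u)) = PT b c (brx b w' (c + u)) := by
  rw [PT_brx b hu w, PT_brx b hu w', h]

/-- **`jd` is the absolute determinant of 288's `J`.** -/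
theorem jd_eq_J {r B : ℝ} {c : Cfg N} (hr0 : 0 < r) (hr : Frame839.GapAt (LS839.actB b) c r)
    (hB : Frame839.ActBound (LS839.actB b) B) {u : Cfg N} (hu : u ∈ Nor b c) :
    jd b c u = |LinearMap.det (VacJ288.J (LS839.actB b) c (c + u))| := by
  set e : Tan b c ≃ₗ[ℝ] Frame839.Tn (LS839.actB b) c :=
    LinearEquiv.ofEq _ _ (LS839.Tn_eq b c).symm with he
  have h1 : VacJ288.J (LS839.actB b) c (c + u) =
      (e : Tan b c →ₗ[ℝ] Frame839.Tn (LS839.actB b) c) ∘ₗ JL b c u ∘ₗ
        (e.symm : Frame839.Tn (LS839.actB b) c →ₗ[ℝ] Tan b c) := by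
    refine LinearMap.ext fun t => Subtype.ext ?_
    have h2 : B * ‖c - c‖ ≤ r / 2 := by
      rw [sub_self, norm_zero, mul_zero]; positivity
    have h3 := Frame839.S_om hr0 hr hB h2 t
    have h4 : brx b (WithLp.ofLp ((Frame839.om (LS839.actB b) c c t :
        (Frame839.kc (LS839.actB b) c)ᗮ) : LS839.Colg N)) c = (t : Cfg N) := by
      have h5 := Frame839.S_self (A := LS839.actB b) (c := c) (Frame839.om (LS839.actB b) c c t)
      rw [h3] at h5
      exact h5.symm
    have h6 : (((e.symm t : Tan b c) : Cfg N)) = (t : Cfg N) := rfl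
    have h7 : ((e (JL b c u (e.symm t)) : Frame839.Tn (LS839.actB b) c) : Cfg N) =
        PT b c (brx b (omL b c (t : Cfg N)) (c + u)) := rfl
    have h8 : ((VacJ288.J (LS839.actB b) c (c + u) t : Frame839.Tn (LS839.actB b) c) : Cfg N) =
        (Frame839.Tn (LS839.actB b) c).starProjection
          (brx b (WithLp.ofLp ((Frame839.om (LS839.actB b) c c t :
            (Frame839.kc (LS839.actB b) c)ᗮ) : LS839.Colg N)) (c + u)) := rfl
    have h9 : (t : Cfg N) ∈ Tan b c := (e.symm t).2
    have h10 : (Frame839.Tn (LS839.actB b) c).starProjection = PT b c := by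
      unfold PT
      congr 1
      exact LS839.Tn_eq b c
    rw [LinearMap.comp_apply, LinearMap.comp_apply]
    change _ = ((e (JL b c u (e.symm t)) : Frame839.Tn (LS839.actB b) c) : Cfg N)
    rw [h8, h7, h10]
    refine PT_brx_eq b hu ?_
    rw [h4, brx_omL b h9]
  rw [h1, LinearMap.det_conj]
  rfl

/-! ## the literal chart -/

/-- **The literal slice chart.** -/
theorem chart {c : Cfg N} {δ : ℝ} (h : GoodRad b c δ) :
    SlI712.Chart (G := SU N) b.act c (Tan b c).subtypeₗᵢ (Nor b c).subtypeₗᵢ
      (fun t : Tan b c => gexp b (omL b c t)) δ δ (fun t => ad b c t) (fun u => jd b c u) where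
  iso := TrA798.isoAct b
  mp g := Cov837.act_measurePreserving b g
  orth := orth b c
  span := span b c
  star g u u' hu hu' he := h.star g u u' u.2 u'.2 (by simpa using hu) (by simpa using hu') he
  stab g hg u hu := by
    refine ⟨⟨b.act g u, act_mem_Nor b u.2 hg⟩, ?_, ?_⟩
    · change ‖b.act g (u : Cfg N)‖ = ‖(u : Cfg N)‖
      exact act_norm b g _
    · change b.act g (c + (u : Cfg N)) = c + b.act g (u : Cfg N)
      rw [act_add, hg]
  inj := by
    intro t ht t' ht' he
    simp only [mem_ball_zero_iff] at ht ht'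
    have h1 : Psi b c (t : Cfg N) = Psi b c (t' : Cfg N) := by
      have e1 := Psi_add b t.2 (Submodule.zero_mem (Nor b c))
      have e2 := Psi_add b t'.2 (Submodule.zero_mem (Nor b c))
      rw [add_zero, add_zero] at e1 e2
      rw [e1, e2]
      exact he
    have h2 : ∀ s : Tan b c, ‖s‖ < δ → (s : Cfg N) ∈ box b c δ := by
      intro s hs
      have := add_mem_box b s.2 (Submodule.zero_mem (Nor b c)) hs (by rw [norm_zero]; exact h.pos)
      rwa [add_zero] at this
    exact Subtype.ext (h.injOn (h2 t ht) (h2 t' ht') h1)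
  der t _ u _ := chart_der b c (orth b c) (span b c) t u
  a_nonneg t := ad_nonneg b c t
  J_nonneg u := jd_nonneg b c u
  a_meas := ((continuous_ad b c).comp continuous_subtype_val).measurable
  J_meas := ((continuous_jd b c).comp continuous_subtype_val).measurable
  e_meas := by
    have h1 : Continuous fun t : Tan b c => (gexp b (omL b c t) : SU N) := by
      refine Continuous.subtype_mk ?_ _
      exact (contDiff_gen_exp b).continuous.comp ((omL b c).continuous.comp continuous_subtype_val)
    exact h1.measurable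

end Crest.Agent.R330.VJac969
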