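import Crest.Agent.R330.SlF_944
import Crest.Agent.R330.SlI_712
import Crest.Agent.R330.SlP_314
import Mathlib.Analysis.InnerProductSpace.NormDet

/-!
# Row 330, S8-V3a (helper969): the Jacobian of the slice chart

`(t, u) ↦ act (gexp (omL t)) (c + u)`, `t ∈ Tan b c`, `u ∈ Nor b c`, has
`|det| = |det (AL b c t)| * |det (JL b c u)|` with `JL b c u τ = P_T [omL τ, c + u]` on `Tan b c`
(all `t`, `u`, no smallness).  This is the field `der` of 712's `Chart`.
-/

set_option autoImplicit false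
noncomputable section

open Matrix MeasureTheory
open Crest.MathPhysics.MatrixQM
open Crest.Agent.R330.SlA314 Crest.Agent.R330.SlB314 Crest.Agent.R330.SlC314
open Crest.Agent.R330.SlD314 Crest.Agent.R330.SlP314 Crest.Agent.R330.SlF944
open scoped ContDiff Topology

namespace Crest.Agent.R330.VJac969

/-! ## block determinant -/

section Block

variable {E : Type*} [NormedAddCommGroup E] [InnerProductSpace ℝ E] [FiniteDimensional ℝ E]

theorem det_block (K : Submodule ℝ E) (M : E →ₗ[ℝ] E) (R : K →ₗ[ℝ] K)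
    (h1 : ∀ v ∈ Kᗮ, M v = v) (h2 : ∀ x : K, K.starProjection (M x) = R x) :
    LinearMap.det M = LinearMap.det R := by
  have he : Kᗮ ≤ Kᗮ.comap M := fun v hv => by
    rw [Submodule.mem_comap, h1 v hv]; exact hv
  rw [LinearMap.det_eq_det_mul_det Kᗮ M he]
  have e1 : M.restrict he = LinearMap.id := by
    ext v
    exact h1 v v.2
  have hc : IsCompl Kᗮ K := (Submodule.isCompl_orthogonal
    (K := K)).symm
  have e2 : Kᗮ.mapQ Kᗮ M he =
      ((Submodule.quotientEquivOfIsCompl Kᗮ K hc).symm : K →ₗ[ℝ] _) ∘ₗ R ∘ₗ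
        ((Submodule.quotientEquivOfIsCompl Kᗮ K hc) : (E ⧸ Kᗮ) →ₗ[ℝ] K) := by
    refine LinearMap.ext fun q => ?_
    obtain ⟨x, rfl⟩ := (Submodule.quotientEquivOfIsCompl Kᗮ K hc).symm.surjective q
    simp only [LinearMap.comp_apply, LinearEquiv.coe_coe, LinearEquiv.apply_symm_apply]
    rw [Submodule.quotientEquivOfIsCompl_symm_apply, Submodule.quotientEquivOfIsCompl_symm_apply,
      Submodule.mapQ_apply, Submodule.Quotient.eq, ← h2]
    exact Submodule.sub_starProjection_mem_orthogonal _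
  rw [e1, LinearMap.det_id, one_mul, e2]
  exact LinearMap.det_conj R (Submodule.quotientEquivOfIsCompl Kᗮ K hc).symm

end Block

/-! ## the derivative of the exponential action -/

open scoped Matrix.Norms.Operator

variable {N : ℕ} (b : ColorBasis N)

/-- coefficient vector of a skew-Hermitian matrix -/
def sk : Matrix (Fin N) (Fin N) ℂ →ₗ[ℝ] (Fin (N ^ 2 - 1) → ℝ) where
  toFun W := fun A => (b.T A * (Complex.I • W)).trace.re
  map_add' W W' := by
    funext A
    simp [Matrix.mul_add, trace_add]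
  map_smul' t W := by
    funext A
    simp [trace_smul]

theorem sk_apply (W : Matrix (Fin N) (Fin N) ℂ) (A : Fin (N ^ 2 - 1)) :
    sk b W A = (b.T A * (Complex.I • W)).trace.re := rfl

theorem mat_brx_sk {W : Matrix (Fin N) (Fin N) ℂ} (hW : Wᴴ = -W) (x : Cfg N) (i : Fin 9) :
    mat b (brx b (sk b W) x) i = W * mat b x i - mat b x i * W := by
  rcases Nat.eq_zero_or_pos N with hN | hN
  · subst hN
    exact Subsingleton.elim _ _
  set H : Matrix (Fin N) (Fin N) ℂ := Complex.I • W with hH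
  have hHh : H.IsHermitian := by
    unfold Matrix.IsHermitian
    rw [hH, Matrix.conjTranspose_smul, hW]
    simp
  have htr : ((H.trace.re : ℝ) : ℂ) = H.trace := by
    apply Complex.conj_eq_iff_re.1
    rw [starRingEnd_apply, ← Matrix.trace_conjTranspose, hHh.eq]
  set τ : ℝ := H.trace.re / N with hτ
  set H0 : Matrix (Fin N) (Fin N) ℂ := H - (τ : ℂ) • 1 with hH0
  have hH0h : H0.IsHermitian := by
    unfold Matrix.IsHermitian
    rw [hH0, Matrix.conjTranspose_sub, hHh.eq, Matrix.conjTranspose_smul,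
      Matrix.conjTranspose_one]
    simp
  have hN' : (N : ℂ) ≠ 0 := by exact_mod_cast hN.ne'
  have hH0t : H0.trace = 0 := by
    have h1 : H0.trace = H.trace - (τ : ℂ) * N := by
      rw [hH0, trace_sub, trace_smul (τ : ℂ) (1 : Matrix (Fin N) (Fin N) ℂ), trace_one,
        Fintype.card_fin, smul_eq_mul]
    rw [h1, hτ]
    push_cast
    rw [htr]
    field_simp
    ring
  have hsk : sk b W = fun A => (b.T A * H0).trace.re := by
    funext A
    have h1 : b.T A * ((τ : ℂ) • (1 : Matrix (Fin N) (Fin N) ℂ)) = (τ : ℂ) • b.T A := by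
      rw [Matrix.mul_smul, Matrix.mul_one]
    rw [sk_apply, ← hH, hH0, Matrix.mul_sub, h1, trace_sub, trace_smul,
      b.traceless, smul_zero, sub_zero]
  rw [hsk, mat_brx, exists_cm b H0 hH0h hH0t, hH0, hH]
  simp only [Matrix.sub_mul, Matrix.mul_sub, smul_mul_assoc, mul_smul_comm, Matrix.one_mul,
    Matrix.mul_one, smul_sub, smul_smul, neg_smul, neg_mul]
  simp

/-- `exp (gen om)` -/
def Ex (om : Fin (N ^ 2 - 1) → ℝ) : Matrix (Fin N) (Fin N) ℂ := NormedSpace.exp (gen b om)

theorem contDiff_Ex : ContDiff ℝ ∞ (Ex b) := contDiff_gen_exp b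

/-- its derivative -/
def Ex' (om : Fin (N ^ 2 - 1) → ℝ) : (Fin (N ^ 2 - 1) → ℝ) →L[ℝ] Matrix (Fin N) (Fin N) ℂ :=
  fderiv ℝ (Ex b) om

theorem star_Ex_mul (om : Fin (N ^ 2 - 1) → ℝ) : star (Ex b om) * Ex b om = 1 :=
  exp_gen_star_mul b om

theorem Ex_mul_star (om : Fin (N ^ 2 - 1) → ℝ) : Ex b om * star (Ex b om) = 1 :=
  mul_star_self' (gexp b om)

theorem hasDerivAt_Ex (om d : Fin (N ^ 2 - 1) → ℝ) :
    HasDerivAt (fun s : ℝ => Ex b (om + s • d)) (Ex' b om d) 0 := by
  have h1 : HasDerivAt (fun s : ℝ => om + s • d) d 0 := by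
    simpa using ((hasDerivAt_id (0 : ℝ)).smul_const d).const_add om
  have h2 : HasFDerivAt (Ex b) (Ex' b om) (om + (0 : ℝ) • d) := by
    rw [zero_smul, add_zero]
    exact ((contDiff_Ex b).differentiable (by simp)).differentiableAt.hasFDerivAt
  exact h2.comp_hasDerivAt (0 : ℝ) h1

/-- the adjoint as a real linear map -/
def stL : Matrix (Fin N) (Fin N) ℂ →ₗ[ℝ] Matrix (Fin N) (Fin N) ℂ where
  toFun := star
  map_add' := star_add
  map_smul' t A := by
    rw [star_smul]
    simp

theorem hasDerivAt_star_Ex (om d : Fin (N ^ 2 - 1) → ℝ) :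
    HasDerivAt (fun s : ℝ => star (Ex b (om + s • d))) (star (Ex' b om d)) 0 :=
  (LinearMap.toContinuousLinearMap (stL (N := N))).hasFDerivAt.comp_hasDerivAt (0 : ℝ)
    (hasDerivAt_Ex b om d)

theorem Ex_rel (om d : Fin (N ^ 2 - 1) → ℝ) :
    star (Ex' b om d) * Ex b om = -(star (Ex b om) * Ex' b om d) := by
  have h := (hasDerivAt_star_Ex b om d).mul (hasDerivAt_Ex b om d)
  have h0 : (fun s : ℝ => star (Ex b (om + s • d))) * (fun s : ℝ => Ex b (om + s • d)) =
      fun _ => 1 := by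
    funext s
    exact star_Ex_mul b _
  rw [h0] at h
  have h1 := h.unique (hasDerivAt_const (0 : ℝ) (1 : Matrix (Fin N) (Fin N) ℂ))
  rw [zero_smul, add_zero] at h1
  exact eq_neg_of_add_eq_zero_left h1

theorem skew_Ex (om d : Fin (N ^ 2 - 1) → ℝ) :
    (star (Ex b om) * Ex' b om d)ᴴ = -(star (Ex b om) * Ex' b om d) := by
  rw [← Ex_rel, Matrix.conjTranspose_mul, ← Matrix.star_eq_conjTranspose,
    ← Matrix.star_eq_conjTranspose, star_star]

/-- the left trivialised derivative of `gexp` at `om` -/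
def wL (om : Fin (N ^ 2 - 1) → ℝ) : (Fin (N ^ 2 - 1) → ℝ) →ₗ[ℝ] (Fin (N ^ 2 - 1) → ℝ) :=
  sk b ∘ₗ (LinearMap.mulLeft ℝ (star (Ex b om))) ∘ₗ (Ex' b om).toLinearMap

theorem wL_apply (om d : Fin (N ^ 2 - 1) → ℝ) :
    wL b om d = sk b (star (Ex b om) * Ex' b om d) := rfl

theorem mat_wL (om d : Fin (N ^ 2 - 1) → ℝ) (x : Cfg N) (i : Fin 9) :
    mat b (brx b (wL b om d) x) i = (star (Ex b om) * Ex' b om d) * mat b x i -
      mat b x i * (star (Ex b om) * Ex' b om d) := by
  rw [wL_apply]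
  exact mat_brx_sk b (skew_Ex b om d) x i

theorem act_gexp_eq' (om : Fin (N ^ 2 - 1) → ℝ) (x : Cfg N) :
    b.act (gexp b om) x = recon b (fun i => Ex b om * mat b x i * star (Ex b om)) := by
  rw [← recon_mat b (b.act (gexp b om) x)]
  congr 1
  funext i
  rw [mat_act]
  rfl

theorem hasDerivAt_line (om d : Fin (N ^ 2 - 1) → ℝ) (x : Cfg N) :
    HasDerivAt (fun s : ℝ => b.act (gexp b (om + s • d)) x)
      (b.act (gexp b om) (brx b (wL b om d) x)) 0 := by
  have h3 : HasDerivAt (fun s : ℝ => (fun i : Fin 9 =>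
      Ex b (om + s • d) * mat b x i * star (Ex b (om + s • d))))
      (fun i => Ex' b om d * mat b x i * star (Ex b om) +
        Ex b om * mat b x i * star (Ex' b om d)) 0 := by
    refine hasDerivAt_pi.2 fun i => ?_
    have := ((hasDerivAt_Ex b om d).mul_const (mat b x i)).mul (hasDerivAt_star_Ex b om d)
    rw [zero_smul, add_zero] at this
    exact this
  have h4 := (LinearMap.toContinuousLinearMap (recon b)).hasFDerivAt.comp_hasDerivAt (0 : ℝ) h3
  have e1 : (fun s : ℝ => b.act (gexp b (om + s • d)) x) =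
      (LinearMap.toContinuousLinearMap (recon b)) ∘ (fun s : ℝ => (fun i : Fin 9 =>
      Ex b (om + s • d) * mat b x i * star (Ex b (om + s • d)))) := by
    funext s
    exact act_gexp_eq' b _ _
  rw [e1]
  refine h4.congr_deriv ?_
  symm
  rw [← recon_mat b (b.act _ _)]
  change recon b _ = recon b _
  congr 1
  funext i
  rw [mat_act, mat_wL]
  change Ex b om * _ * star (Ex b om) = _
  have h1 := Ex_mul_star b om
  have h2 := Ex_rel b om d
  rw [Matrix.mul_sub, Matrix.sub_mul]
  have e2 : Ex b om * (star (Ex b om) * Ex' b om d * mat b x i) * star (Ex b om) =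
      Ex' b om d * mat b x i * star (Ex b om) := by
    rw [← Matrix.mul_assoc, ← Matrix.mul_assoc, h1, Matrix.one_mul]
  have e3 : Ex b om * (mat b x i * (star (Ex b om) * Ex' b om d)) * star (Ex b om) =
      -(Ex b om * mat b x i * star (Ex' b om d)) := by
    have e4 : star (Ex b om) * Ex' b om d = -(star (Ex' b om d) * Ex b om) := by
      rw [h2, neg_neg]
    rw [e4, Matrix.mul_neg, Matrix.mul_neg, Matrix.neg_mul, ← Matrix.mul_assoc,
      ← Matrix.mul_assoc, Matrix.mul_assoc _ (Ex b om) (star (Ex b om)), h1, Matrix.mul_one]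
  rw [e2, e3, sub_neg_eq_add]

/-- the joint derivative of the action in exponential coordinates -/
theorem fderiv_act (om : Fin (N ^ 2 - 1) → ℝ) (x : Cfg N) (d : Fin (N ^ 2 - 1) → ℝ) (y : Cfg N) :
    fderiv ℝ (fun p : (Fin (N ^ 2 - 1) → ℝ) × Cfg N => b.act (gexp b p.1) p.2) (om, x) (d, y) =
      b.act (gexp b om) (brx b (wL b om d) x + y) := by
  set F : (Fin (N ^ 2 - 1) → ℝ) × Cfg N → Cfg N := fun p => b.act (gexp b p.1) p.2 with hF
  have hd : HasFDerivAt F (fderiv ℝ F (om, x)) (om, x) :=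
    ((contDiff_act_gexp b).differentiable (by simp)).differentiableAt.hasFDerivAt
  have h1 : fderiv ℝ F (om, x) (d, 0) = b.act (gexp b om) (brx b (wL b om d) x) := by
    have hl : HasDerivAt (fun s : ℝ => (om + s • d, x)) (d, (0 : Cfg N)) 0 := by
      have h0 : HasDerivAt (fun s : ℝ => om + s • d) d 0 := by
        simpa using ((hasDerivAt_id (0 : ℝ)).smul_const d).const_add om
      exact h0.prodMk (hasDerivAt_const _ _)
    have hd' : HasFDerivAt F (fderiv ℝ F (om, x)) (om + (0 : ℝ) • d, x) := by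
      rwa [zero_smul, add_zero]
    have h3 := hd'.comp_hasDerivAt (0 : ℝ) hl
    have h4 : HasDerivAt (F ∘ fun s : ℝ => (om + s • d, x))
        (b.act (gexp b om) (brx b (wL b om d) x)) 0 := hasDerivAt_line b om d x
    exact h3.unique h4
  have h2 : fderiv ℝ F (om, x) (0, y) = b.act (gexp b om) y := by
    have hl : HasDerivAt (fun s : ℝ => (om, x + s • y)) ((0 : Fin (N ^ 2 - 1) → ℝ), y) 0 := by
      have h0 : HasDerivAt (fun s : ℝ => x + s • y) y 0 := by
        simpa using ((hasDerivAt_id (0 : ℝ)).smul_const y).const_add x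
      exact (hasDerivAt_const _ _).prodMk h0
    have hd' : HasFDerivAt F (fderiv ℝ F (om, x)) (om, x + (0 : ℝ) • y) := by
      rwa [zero_smul, add_zero]
    have h3 := hd'.comp_hasDerivAt (0 : ℝ) hl
    have h4 : HasDerivAt (F ∘ fun s : ℝ => (om, x + s • y)) (b.act (gexp b om) y) 0 := by
      have h5 : (F ∘ fun s : ℝ => (om, x + s • y)) =
          fun s : ℝ => b.act (gexp b om) x + s • b.act (gexp b om) y := by
        funext s
        change b.act (gexp b om) (x + s • y) = _
        rw [act_add, act_smul]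
      rw [h5]
      simpa using ((hasDerivAt_id (0 : ℝ)).smul_const (b.act (gexp b om) y)).const_add
        (b.act (gexp b om) x)
    exact h3.unique h4
  have h3 : ((d, y) : (Fin (N ^ 2 - 1) → ℝ) × Cfg N) = (d, 0) + (0, y) := by simp
  rw [h3, map_add, h1, h2, act_add]

/-! ## the two factors -/

/-- the projection of `[w, c + u]` to the tangent space only sees `[w, c]` -/
theorem PT_brx {c u : Cfg N} (hu : u ∈ Nor b c) (w : Fin (N ^ 2 - 1) → ℝ) :
    PT b c (brx b w (c + u)) = PT b c (brx b (omL b c (brx b w c)) (c + u)) := by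
  have h0 : brx b w c ∈ Tan b c := ⟨w, rfl⟩
  set k : Fin (N ^ 2 - 1) → ℝ := w - omL b c (brx b w c) with hk
  have hkc : brx b k c = 0 := by
    have h1 : brx b (k + omL b c (brx b w c)) c = brx b w c := by rw [hk, sub_add_cancel]
    rw [brx_add_left, brx_omL b h0] at h1
    simpa using h1
  have h1 : w = k + omL b c (brx b w c) := by rw [hk, sub_add_cancel]
  have h2 : PT b c (brx b k (c + u)) = 0 := by
    rw [brx_add_right, hkc, zero_add]
    exact PT_of_mem_Nor b (brx_mem_Nor b hu hkc)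
  conv_lhs => rw [h1]
  rw [brx_add_left, map_add, h2, zero_add]

/-- `τ ↦ P_T [om τ, c + u]` on the tangent space -/
def JL (c u : Cfg N) : Tan b c →ₗ[ℝ] Tan b c where
  toFun t := ⟨PT b c (brx b (omL b c t) (c + u)), PT_mem b c _⟩
  map_add' t t' := by
    apply Subtype.ext
    simp only [Submodule.coe_add, map_add, brx_add_left]
  map_smul' r t := by
    apply Subtype.ext
    simp only [Submodule.coe_smul, map_smul, brx_smul_left, RingHom.id_apply]

theorem JL_coe (c u : Cfg N) (t : Tan b c) :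
    ((JL b c u t : Tan b c) : Cfg N) = PT b c (brx b (omL b c t) (c + u)) := rfl

/-- `τ ↦ [D gexp_t (om τ), c]` on the tangent space -/
def AL (c t : Cfg N) : Tan b c →ₗ[ℝ] Tan b c where
  toFun s := ⟨brx b (wL b (omL b c t) (omL b c s)) c, ⟨_, rfl⟩⟩
  map_add' s s' := by
    apply Subtype.ext
    simp only [Submodule.coe_add, map_add, brx_add_left]
  map_smul' r s := by
    apply Subtype.ext
    simp only [Submodule.coe_smul, map_smul, brx_smul_left, RingHom.id_apply]

theorem AL_coe (c t : Cfg N) (s : Tan b c) :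
    ((AL b c t s : Tan b c) : Cfg N) = brx b (wL b (omL b c t) (omL b c s)) c := rfl

/-- the density on the normal space -/
def jd (c u : Cfg N) : ℝ := |LinearMap.det (JL b c u)|

/-- the density on the tangent space -/
def ad (c t : Cfg N) : ℝ := |LinearMap.det (AL b c t)|

theorem JL_zero (c : Cfg N) : JL b c 0 = LinearMap.id := by
  refine LinearMap.ext fun t => Subtype.ext ?_
  rw [JL_coe, add_zero, brx_omL b t.2]
  exact PT_of_mem b t.2

theorem jd_zero (c : Cfg N) : jd b c 0 = 1 := by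
  rw [jd, JL_zero, LinearMap.det_id, abs_one]

theorem jd_nonneg (c u : Cfg N) : 0 ≤ jd b c u := abs_nonneg _

theorem ad_nonneg (c t : Cfg N) : 0 ≤ ad b c t := abs_nonneg _

/-- the middle factor of the derivative -/
def ML (c t u : Cfg N) : Cfg N →ₗ[ℝ] Cfg N where
  toFun v := brx b (wL b (omL b c t) (omL b c v)) (c + u) + PN b c v
  map_add' v v' := by
    simp only [map_add, brx_add_left]
    abel
  map_smul' r v := by
    simp only [map_smul, brx_smul_left, RingHom.id_apply, smul_add]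

theorem ML_apply (c t u v : Cfg N) :
    ML b c t u v = brx b (wL b (omL b c t) (omL b c v)) (c + u) + PN b c v := rfl

theorem det_ML {c u : Cfg N} (hu : u ∈ Nor b c) (t : Cfg N) :
    LinearMap.det (ML b c t u) = LinearMap.det (JL b c u) * LinearMap.det (AL b c t) := by
  rw [← LinearMap.det_comp]
  refine det_block (Tan b c) _ _ ?_ ?_
  · intro v hv
    rw [ML_apply, omL_of_Nor b hv, map_zero, PN_of_mem b hv]
    have : brx b (0 : Fin (N ^ 2 - 1) → ℝ) (c + u) = 0 := by
      have := brx_smul_left b 0 (0 : Fin (N ^ 2 - 1) → ℝ) (c + u)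
      simpa using this
    rw [this, zero_add]
  · intro x
    change PT b c (ML b c t u x) = _
    rw [ML_apply, PN_of_mem_Tan b x.2, add_zero, PT_brx b hu]
    rfl

/-- the action as a linear isometry -/
def actI (g : Matrix.specialUnitaryGroup (Fin N) ℂ) : Cfg N →ₗᵢ[ℝ] Cfg N where
  toFun := b.act g
  map_add' := act_add b g
  map_smul' := act_smul b g
  norm_map' := act_norm b g

theorem actI_apply (g : Matrix.specialUnitaryGroup (Fin N) ℂ) (x : Cfg N) :
    actI b g x = b.act g x := rfl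

theorem abs_det_actI (g : Matrix.specialUnitaryGroup (Fin N) ℂ) :
    |LinearMap.det (actI b g).toLinearMap| = 1 := by
  rw [← LinearMap.normDet_eq_abs_det, LinearIsometry.normDet_eq_one]

/-- **The derivative of the slice chart and its determinant**, in the shape of 712's `Chart.der`;
no smallness of `t`, `u`. -/
theorem chart_der (c : Cfg N)
    (orth : ∀ (t : Tan b c) (u : Nor b c),
      inner ℝ ((Tan b c).subtypeₗᵢ t) ((Nor b c).subtypeₗᵢ u) = (0 : ℝ))
    (span : ∀ x : Cfg N, ∃ (t : Tan b c) (u : Nor b c),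
      x = (Tan b c).subtypeₗᵢ t + (Nor b c).subtypeₗᵢ u)
    (t : Tan b c) (u : Nor b c) :
    ∃ D : Tan b c × Nor b c →L[ℝ] Cfg N,
      HasFDerivAt (fun p : Tan b c × Nor b c =>
        b.act (gexp b (omL b c p.1)) (c + (Nor b c).subtypeₗᵢ p.2)) D (t, u) ∧
      |(D.comp ((SlI712.splitL (Tan b c).subtypeₗᵢ (Nor b c).subtypeₗᵢ orth span).symm :
        Cfg N →L[ℝ] Tan b c × Nor b c)).det| = ad b c t * jd b c u := by
  set F : (Fin (N ^ 2 - 1) → ℝ) × Cfg N → Cfg N := fun p => b.act (gexp b p.1) p.2 with hF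
  set inn : Tan b c × Nor b c →L[ℝ] (Fin (N ^ 2 - 1) → ℝ) × Cfg N :=
    (((omL b c).comp ((Tan b c).subtypeL)).comp (ContinuousLinearMap.fst ℝ _ _)).prod
      (((Nor b c).subtypeL).comp (ContinuousLinearMap.snd ℝ _ _)) with hinn
  have hi : HasFDerivAt (fun p : Tan b c × Nor b c =>
      ((omL b c p.1, c + (Nor b c).subtypeₗᵢ p.2) : (Fin (N ^ 2 - 1) → ℝ) × Cfg N)) inn (t, u) := by
    have h0 : (fun p : Tan b c × Nor b c =>
        ((omL b c p.1, c + (Nor b c).subtypeₗᵢ p.2) : (Fin (N ^ 2 - 1) → ℝ) × Cfg N)) =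
        fun p => ((0 : Fin (N ^ 2 - 1) → ℝ), c) + inn p := by
      funext p
      simp [hinn]
    rw [h0]
    exact inn.hasFDerivAt.const_add _
  have hd : HasFDerivAt F (fderiv ℝ F (omL b c t, c + (Nor b c).subtypeₗᵢ u))
      (omL b c t, c + (Nor b c).subtypeₗᵢ u) :=
    ((contDiff_act_gexp b).differentiable (by simp)).differentiableAt.hasFDerivAt
  have hc := HasFDerivAt.comp (t, u) (g := F) (f := fun p : Tan b c × Nor b c =>
      ((omL b c p.1, c + (Nor b c).subtypeₗᵢ p.2) : (Fin (N ^ 2 - 1) → ℝ) × Cfg N)) hd hi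
  refine ⟨(fderiv ℝ F (omL b c t, c + (Nor b c).subtypeₗᵢ u)).comp inn, hc, ?_⟩
  set e := SlI712.splitL (Tan b c).subtypeₗᵢ (Nor b c).subtypeₗᵢ orth span with he
  have hcomp : ((((fderiv ℝ F (omL b c t, c + (Nor b c).subtypeₗᵢ u)).comp inn).comp
      (e.symm : Cfg N →L[ℝ] Tan b c × Nor b c) : Cfg N →L[ℝ] Cfg N) : Cfg N →ₗ[ℝ] Cfg N) =
      (actI b (gexp b (omL b c t))).toLinearMap ∘ₗ ML b c t u := by
    refine LinearMap.ext fun v => ?_
    obtain ⟨p, rfl⟩ := e.surjective v
    change fderiv ℝ F (omL b c t, c + (Nor b c).subtypeₗᵢ u) (inn (e.symm (e p))) =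
      b.act (gexp b (omL b c t)) (ML b c t u (e p))
    rw [ContinuousLinearEquiv.symm_apply_apply]
    have h1 : e p = (p.1 : Cfg N) + (p.2 : Cfg N) := rfl
    have h2 : inn p = (omL b c (p.1 : Cfg N), (p.2 : Cfg N)) := rfl
    have h3 : omL b c ((p.1 : Cfg N) + (p.2 : Cfg N)) = omL b c (p.1 : Cfg N) := by
      rw [map_add, omL_of_Nor b p.2.2, add_zero]
    have h4 : PN b c ((p.1 : Cfg N) + (p.2 : Cfg N)) = (p.2 : Cfg N) := by
      rw [map_add, PN_of_mem b p.2.2, PN_of_mem_Tan b p.1.2, zero_add]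
    rw [h2, hF, fderiv_act, ML_apply, h1, h3, h4]
    rfl
  rw [ContinuousLinearMap.det, hcomp, LinearMap.det_comp, abs_mul, abs_det_actI, one_mul,
    det_ML b u.2, abs_mul, mul_comm]
  rfl

/-! ## nonvanishing -/

theorem orth (c : Cfg N) (t : Tan b c) (u : Nor b c) :
    inner ℝ ((Tan b c).subtypeₗᵢ t) ((Nor b c).subtypeₗᵢ u) = (0 : ℝ) :=
  (Submodule.mem_orthogonal _ _).1 u.2 _ t.2

theorem span (c x : Cfg N) : ∃ (t : Tan b c) (u : Nor b c),
    x = (Tan b c).subtypeₗᵢ t + (Nor b c).subtypeₗᵢ u :=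
  ⟨⟨PT b c x, PT_mem b c x⟩, ⟨PN b c x, PN_mem b c x⟩, (PT_add_PN b c x).symm⟩

theorem AL_zero (c : Cfg N) : AL b c 0 = LinearMap.id := by
  refine LinearMap.ext fun s => Subtype.ext ?_
  rw [AL_coe]
  have h1 := hasDerivAt_line b (omL b c 0) (omL b c s) c
  have h2 := hasDerivAt_act_zero b (omL b c s) c
  rw [map_zero] at h1
  rw [map_zero]
  simp only [zero_add] at h1
  rw [gexp_zero, act_one] at h1
  rw [h1.unique h2, brx_omL b s.2]
  rfl

theorem ad_zero (c : Cfg N) : ad b c 0 = 1 := by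
  rw [ad, AL_zero, LinearMap.det_id, abs_one]

/-- the determinant of the derivative of 314's chart -/
theorem abs_det_Psi (c t u : Cfg N) (ht : t ∈ Tan b c) (hu : u ∈ Nor b c) :
    |(fderiv ℝ (Psi b c) (t + u)).det| = ad b c t * jd b c u := by
  obtain ⟨D, hD, hdet⟩ := chart_der b c (orth b c) (span b c) ⟨t, ht⟩ ⟨u, hu⟩
  set e := SlI712.splitL (Tan b c).subtypeₗᵢ (Nor b c).subtypeₗᵢ (orth b c) (span b c) with he
  have h1 : Psi b c = (fun p : Tan b c × Nor b c =>
      b.act (gexp b (omL b c p.1)) (c + (Nor b c).subtypeₗᵢ p.2)) ∘ e.symm := by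
    funext v
    obtain ⟨p, rfl⟩ := e.surjective v
    rw [Function.comp_apply, ContinuousLinearEquiv.symm_apply_apply]
    exact Psi_add b p.1.2 p.2.2
  have h2 : e.symm (t + u) = (⟨t, ht⟩, ⟨u, hu⟩) := by
    rw [ContinuousLinearEquiv.symm_apply_eq]
    rfl
  have h3 : HasFDerivAt (Psi b c) (D.comp (e.symm : Cfg N →L[ℝ] Tan b c × Nor b c)) (t + u) := by
    rw [h1]
    refine HasFDerivAt.comp (t + u) ?_ e.symm.hasFDerivAt
    rw [h2]
    exact hD
  rw [h3.fderiv]
  exact hdet

/-- the density does not vanish on the good ball -/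
theorem jd_pos {c : Cfg N} {δ : ℝ} (h : GoodRad b c δ) {u : Cfg N} (hu : u ∈ Nor b c)
    (hn : ‖u‖ < 2 * δ) : 0 < jd b c u := by
  have h1 := h.det_ne_zero (v := u) (by rwa [mem_ball_zero_iff])
  have h2 := abs_det_Psi b c 0 u (Submodule.zero_mem _) hu
  rw [zero_add, ad_zero, one_mul] at h2
  rw [← h2]
  exact abs_pos.2 h1

/-- Haar density in exponential coordinates does not vanish on the good ball -/
theorem ad_pos {c : Cfg N} {δ : ℝ} (h : GoodRad b c δ) {t : Cfg N} (ht : t ∈ Tan b c)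
    (hn : ‖t‖ < 2 * δ) : 0 < ad b c t := by
  have h1 := h.det_ne_zero (v := t) (by rwa [mem_ball_zero_iff])
  have h2 := abs_det_Psi b c t 0 ht (Submodule.zero_mem _)
  rw [add_zero, jd_zero, mul_one] at h2
  rw [← h2]
  exact abs_pos.2 h1

end Crest.Agent.R330.VJac969
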