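import Mathlib

/-!
# Row 330, section 5a (helper737): abstract part of the quantitative lower bound of the potential

* `rigid` : in a real Lie algebra with ad-invariant inner product, a first order deformation of
  a triple `A_l = [A_j, A_k]` which is orthogonal to the gauge directions vanishes.
* `compact_bound` : a positive constant for an injective family over a compact set.
* `mb_lower` : Morse-Bott lower bound near the zero set, `c * min (dist ^ 2) 1 ≤ |R|^2`.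
-/

set_option autoImplicit false
set_option linter.unusedSectionVars false

open Metric Set Topology Filter
open scoped InnerProductSpace

namespace Crest.Agent.R330.VLow737

section Rigid

variable {V : Type*} [NormedAddCommGroup V] [InnerProductSpace ℝ V]

/-- **Rigidity** of the vacua modulo gauge directions (`H¹(su(2), g) = 0` on the gauge slice). -/
theorem rigid (br : V →ₗ[ℝ] V →ₗ[ℝ] V) (skew : ∀ u v, br u v = - br v u)
    (jac : ∀ u v w, br u (br v w) = br (br u v) w + br v (br u w))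
    (inv : ∀ u v w, ⟪br u v, w⟫_ℝ = ⟪u, br v w⟫_ℝ)
    (A₁ A₂ A₃ w₁ w₂ w₃ : V)
    (hA1 : A₁ = br A₂ A₃) (hA2 : A₂ = br A₃ A₁) (hA3 : A₃ = br A₁ A₂)
    (hw1 : w₁ = br w₂ A₃ + br A₂ w₃) (hw2 : w₂ = br w₃ A₁ + br A₃ w₁)
    (hw3 : w₃ = br w₁ A₂ + br A₁ w₂)
    (hg : br A₁ w₁ + br A₂ w₂ + br A₃ w₃ = 0) :
    w₁ = 0 ∧ w₂ = 0 ∧ w₃ = 0 := by
  have hs : ∀ A u v, ⟪br A u, v⟫_ℝ = - ⟪u, br A v⟫_ℝ := by
    intro A u v
    rw [skew A u, inner_neg_left, inv]
  -- commutators of the `ad A_j`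
  have c12 : ∀ w, br A₁ (br A₂ w) = br A₃ w + br A₂ (br A₁ w) := fun w => by
    rw [jac, ← hA3]
  have c23 : ∀ w, br A₂ (br A₃ w) = br A₁ w + br A₃ (br A₂ w) := fun w => by
    rw [jac, ← hA1]
  have c31 : ∀ w, br A₃ (br A₁ w) = br A₂ w + br A₁ (br A₃ w) := fun w => by
    rw [jac, ← hA2]
  have e1 : w₁ = br A₂ w₃ - br A₃ w₂ := by rw [hw1, skew w₂ A₃]; abel
  have e2 : w₂ = br A₃ w₁ - br A₁ w₃ := by rw [hw2, skew w₃ A₁]; abel
  have e3 : w₃ = br A₁ w₂ - br A₂ w₁ := by rw [hw3, skew w₁ A₂]; abel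
  have hd1 : ∀ A, br A (br A₁ w₁) + br A (br A₂ w₂) + br A (br A₃ w₃) = 0 := by
    intro A
    rw [← map_add, ← map_add, hg, map_zero]
  -- the Casimir kills `w`
  have k1 : br A₁ (br A₁ w₁) + br A₂ (br A₂ w₁) + br A₃ (br A₃ w₁) = 0 := by
    have h2 : br A₃ w₂ = br A₃ (br A₃ w₁) - br A₃ (br A₁ w₃) := by
      conv_lhs => rw [e2]
      rw [map_sub]
    have h3 : br A₂ w₃ = br A₂ (br A₁ w₂) - br A₂ (br A₂ w₁) := by
      conv_lhs => rw [e3]
      rw [map_sub]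
    have h7 : w₁ = (br A₂ (br A₁ w₂) - br A₂ (br A₂ w₁)) -
        (br A₃ (br A₃ w₁) - br A₃ (br A₁ w₃)) := by
      rw [← h2, ← h3]; exact e1
    linear_combination (norm := module) hd1 A₁ + h7 - c12 w₂ + c31 w₃ - e1
  have k2 : br A₁ (br A₁ w₂) + br A₂ (br A₂ w₂) + br A₃ (br A₃ w₂) = 0 := by
    have h2 : br A₁ w₃ = br A₁ (br A₁ w₂) - br A₁ (br A₂ w₁) := by
      conv_lhs => rw [e3]
      rw [map_sub]
    have h3 : br A₃ w₁ = br A₃ (br A₂ w₃) - br A₃ (br A₃ w₂) := by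
      conv_lhs => rw [e1]
      rw [map_sub]
    have h7 : w₂ = (br A₃ (br A₂ w₃) - br A₃ (br A₃ w₂)) -
        (br A₁ (br A₁ w₂) - br A₁ (br A₂ w₁)) := by
      rw [← h2, ← h3]; exact e2
    linear_combination (norm := module) hd1 A₂ + h7 - c23 w₃ + c12 w₁ - e2
  have k3 : br A₁ (br A₁ w₃) + br A₂ (br A₂ w₃) + br A₃ (br A₃ w₃) = 0 := by
    have h2 : br A₂ w₁ = br A₂ (br A₂ w₃) - br A₂ (br A₃ w₂) := by
      conv_lhs => rw [e1]
      rw [map_sub]
    have h3 : br A₁ w₂ = br A₁ (br A₃ w₁) - br A₁ (br A₁ w₃) := by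
      conv_lhs => rw [e2]
      rw [map_sub]
    have h7 : w₃ = (br A₁ (br A₃ w₁) - br A₁ (br A₁ w₃)) -
        (br A₂ (br A₂ w₃) - br A₂ (br A₃ w₂)) := by
      rw [← h2, ← h3]; exact e3
    linear_combination (norm := module) hd1 A₃ + h7 - c31 w₁ + c23 w₂ - e3
  have hz : ∀ w, br A₁ (br A₁ w) + br A₂ (br A₂ w) + br A₃ (br A₃ w) = 0 →
      br A₁ w = 0 ∧ br A₂ w = 0 ∧ br A₃ w = 0 := by
    intro w hw
    have h1 : ‖br A₁ w‖ ^ 2 + ‖br A₂ w‖ ^ 2 + ‖br A₃ w‖ ^ 2 = 0 := by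
      rw [← real_inner_self_eq_norm_sq, ← real_inner_self_eq_norm_sq,
        ← real_inner_self_eq_norm_sq, hs A₁ w, hs A₂ w, hs A₃ w]
      have h2 := congrArg (fun u => ⟪w, u⟫_ℝ) hw
      simp only [inner_add_right, inner_zero_right] at h2
      linarith
    have h2 := sq_nonneg ‖br A₁ w‖
    have h3 := sq_nonneg ‖br A₂ w‖
    have h4 := sq_nonneg ‖br A₃ w‖
    refine ⟨?_, ?_, ?_⟩ <;> rw [← norm_eq_zero, ← pow_eq_zero_iff two_ne_zero] <;> linarith
  obtain ⟨a11, a21, a31⟩ := hz w₁ k1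
  obtain ⟨a12, a22, a32⟩ := hz w₂ k2
  obtain ⟨a13, a23, a33⟩ := hz w₃ k3
  exact ⟨by rw [e1, a23, a32, sub_zero], by rw [e2, a31, a13, sub_zero],
    by rw [e3, a12, a21, sub_zero]⟩

end Rigid

section MorseBott

variable {E : Type*} [NormedAddCommGroup E] [NormedSpace ℝ E] [FiniteDimensional ℝ E]
variable {E' : Type*} [NormedAddCommGroup E'] [NormedSpace ℝ E']

/-- A uniform lower bound for a continuous family of linear maps, injective on a closed
homogeneous relation over a compact set. -/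
theorem compact_bound (K : Set E) (hK : IsCompact K) (T : Set (E × E)) (hT : IsClosed T)
    (hTs : ∀ c z, (c, z) ∈ T → ∀ s : ℝ, (c, s • z) ∈ T)
    (D : E → E → E') (hD : Continuous fun p : E × E => D p.1 p.2)
    (hDs : ∀ c z, ∀ s : ℝ, D c (s • z) = s • D c z)
    (hinj : ∀ c ∈ K, ∀ z, (c, z) ∈ T → z ≠ 0 → D c z ≠ 0) :
    ∃ κ > 0, ∀ c ∈ K, ∀ z, (c, z) ∈ T → κ * ‖z‖ ≤ ‖D c z‖ := by
  have : ProperSpace E := FiniteDimensional.proper_real E
  set S : Set (E × E) := (K ×ˢ sphere (0 : E) 1) ∩ T with hS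
  have hSc : IsCompact S := (hK.prod (isCompact_sphere _ _)).inter_right hT
  rcases S.eq_empty_or_nonempty with hE | hne
  · refine ⟨1, one_pos, fun c hc z hz => ?_⟩
    rcases eq_or_ne z 0 with h0 | h0
    · rw [h0, norm_zero, mul_zero]; exact norm_nonneg _
    · exfalso
      have h1 : (c, ‖z‖⁻¹ • z) ∈ S := by
        refine ⟨⟨hc, ?_⟩, hTs c z hz _⟩
        rw [mem_sphere_zero_iff_norm, norm_smul, norm_inv, norm_norm,
          inv_mul_cancel₀ (norm_ne_zero_iff.2 h0)]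
      rw [hE] at h1
      exact h1
  · obtain ⟨p, hpS, hp⟩ := hSc.exists_isMinOn hne (hD.norm.continuousOn)
    have hp0 : p.2 ≠ 0 := by
      intro h
      have h1 := hpS.1.2
      rw [mem_sphere_zero_iff_norm, h, norm_zero] at h1
      exact zero_ne_one h1
    have hpos : 0 < ‖D p.1 p.2‖ := norm_pos_iff.2 (hinj p.1 hpS.1.1 p.2 hpS.2 hp0)
    refine ⟨‖D p.1 p.2‖, hpos, fun c hc z hz => ?_⟩
    rcases eq_or_ne z 0 with h0 | h0
    · rw [h0, norm_zero, mul_zero]; exact norm_nonneg _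
    · have hz0 : 0 < ‖z‖ := norm_pos_iff.2 h0
      have h1 : (c, ‖z‖⁻¹ • z) ∈ S := by
        refine ⟨⟨hc, ?_⟩, hTs c z hz _⟩
        rw [mem_sphere_zero_iff_norm, norm_smul, norm_inv, norm_norm,
          inv_mul_cancel₀ (norm_ne_zero_iff.2 h0)]
      have h2 : ‖D p.1 p.2‖ ≤ ‖D c (‖z‖⁻¹ • z)‖ := hp h1
      rw [hDs, norm_smul, norm_inv, norm_norm] at h2
      rw [inv_mul_eq_div, le_div_iff₀ hz0] at h2
      exact h2

/-- Morse-Bott lower bound near a closed subset `S` of the zero set. -/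
theorem near_bound (K : Set E) {R : E → E'} {D : E → E → E'} {B : E → E'} {κ C : ℝ}
    (hRK : ∀ c ∈ K, R c = 0) (hR : ∀ c z, R (c + z) = R c + D c z + B z)
    (hB : ∀ z, ‖B z‖ ≤ C * ‖z‖ ^ 2) {T : Set (E × E)}
    (hκ : ∀ c ∈ K, ∀ z, (c, z) ∈ T → κ * ‖z‖ ≤ ‖D c z‖)
    {S : Set E} (hSK : S ⊆ K) (hSc : IsClosed S) (hSne : S.Nonempty)
    (hfirst : ∀ c ∈ S, ∀ y, dist y c = infDist y S → (c, y - c) ∈ T) (y : E) :
    κ * infDist y S - C * infDist y S ^ 2 ≤ ‖R y‖ := by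
  have : ProperSpace E := FiniteDimensional.proper_real E
  obtain ⟨c, hcS, hc⟩ := hSc.exists_infDist_eq_dist hSne y
  have h1 := hκ c (hSK hcS) (y - c) (hfirst c hcS y hc.symm)
  have h2 := hR c (y - c)
  rw [add_sub_cancel, hRK c (hSK hcS), zero_add] at h2
  have h3 : ‖D c (y - c)‖ ≤ ‖R y‖ + ‖B (y - c)‖ := by
    have h4 : D c (y - c) = R y - B (y - c) := by rw [h2]; abel
    rw [h4]; exact norm_sub_le _ _
  have h5 := hB (y - c)
  rw [hc, dist_eq_norm]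
  linarith

end MorseBott

end Crest.Agent.R330.VLow737
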