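import Crest.Agent.R330.VLowA_737

/-!
# Row 330, section 5a (helper737): generic structure constants

For totally antisymmetric `f` with the Jacobi identity: the residual map
`Res f x = (x_i / 3 - [x_{i+1}, x_{i+2}])_{i<3}, (x_i / 6)_{i≥3}` on `ℝ^9 ⊗ ℝ^n`, its zero set,
and the lower bound `c * min (dist(x, zero set)^2) 1 ≤ |Res f x|^2` from coercivity and the flows.
-/

set_option autoImplicit false
set_option linter.unusedSectionVars false

open Metric Set Topology Filter
open scoped InnerProductSpace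

namespace Crest.Agent.R330.VLow737

noncomputable section

variable {n : Type*} [Fintype n] [DecidableEq n]

/-- Structure constants: total antisymmetry and Jacobi. -/
structure IsStr (f : n → n → n → ℝ) : Prop where
  a12 : ∀ A B C, f A B C = - f B A C
  a23 : ∀ A B C, f A B C = - f A C B
  jac : ∀ A B C D, ∑ E, (f A B E * f E C D + f B C E * f E A D + f C A E * f E B D) = 0

/-- The bracket of colour vectors. -/
def brL (f : n → n → n → ℝ) :
    EuclideanSpace ℝ n →ₗ[ℝ] EuclideanSpace ℝ n →ₗ[ℝ] EuclideanSpace ℝ n :=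
  LinearMap.mk₂ ℝ (fun u v => WithLp.toLp 2 (fun A => ∑ B, ∑ C, f A B C * u B * v C))
    (by
      intro u u' v
      ext A
      simp only [PiLp.add_apply, ← Finset.sum_add_distrib]
      exact Finset.sum_congr rfl fun B _ => Finset.sum_congr rfl fun C _ => by ring)
    (by
      intro c u v
      ext A
      simp only [PiLp.smul_apply, smul_eq_mul, Finset.mul_sum]
      exact Finset.sum_congr rfl fun B _ => Finset.sum_congr rfl fun C _ => by ring)
    (by
      intro u v v'
      ext A
      simp only [PiLp.add_apply, ← Finset.sum_add_distrib]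
      exact Finset.sum_congr rfl fun B _ => Finset.sum_congr rfl fun C _ => by ring)
    (by
      intro c u v
      ext A
      simp only [PiLp.smul_apply, smul_eq_mul, Finset.mul_sum]
      exact Finset.sum_congr rfl fun B _ => Finset.sum_congr rfl fun C _ => by ring)

theorem brL_apply (f : n → n → n → ℝ) (u v : EuclideanSpace ℝ n) (A : n) :
    brL f u v A = ∑ B, ∑ C, f A B C * u B * v C := rfl

variable {f : n → n → n → ℝ}

theorem IsStr.skew (h : IsStr f) (u v : EuclideanSpace ℝ n) : brL f u v = - brL f v u := by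
  ext A
  rw [PiLp.neg_apply, brL_apply, brL_apply, Finset.sum_comm, ← Finset.sum_neg_distrib]
  refine Finset.sum_congr rfl fun B _ => ?_
  rw [← Finset.sum_neg_distrib]
  refine Finset.sum_congr rfl fun C _ => ?_
  rw [h.a23 A C B]
  ring

theorem inner_brL (f : n → n → n → ℝ) (u v w : EuclideanSpace ℝ n) :
    ⟪brL f u v, w⟫_ℝ = ∑ A, ∑ B, ∑ C, f A B C * w A * u B * v C := by
  rw [PiLp.inner_apply]
  refine Finset.sum_congr rfl fun A _ => ?_
  rw [RCLike.inner_apply, conj_trivial, brL_apply, Finset.mul_sum]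
  refine Finset.sum_congr rfl fun B _ => ?_
  rw [Finset.mul_sum]
  exact Finset.sum_congr rfl fun C _ => by ring

/-- The inner product is ad-invariant. -/
theorem IsStr.inv (h : IsStr f) (u v w : EuclideanSpace ℝ n) :
    ⟪brL f u v, w⟫_ℝ = ⟪u, brL f v w⟫_ℝ := by
  rw [← real_inner_comm u, inner_brL, inner_brL]
  -- `∑ f A B C w_A u_B v_C` and `∑ f A B C u_A v_B w_C`
  have h1 : ∑ A, ∑ B, ∑ C, f A B C * w A * u B * v C =
      ∑ A, ∑ C, ∑ B, f A B C * w A * u B * v C :=
    Finset.sum_congr rfl fun A _ => Finset.sum_comm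
  have h2 : ∑ A, ∑ B, ∑ C, f A B C * w A * u B * v C =
      ∑ B, ∑ A, ∑ C, f A B C * w A * u B * v C := Finset.sum_comm
  rw [h2]
  refine Finset.sum_congr rfl fun B _ => ?_
  rw [Finset.sum_comm]
  refine Finset.sum_congr rfl fun C _ => Finset.sum_congr rfl fun A _ => ?_
  have h3 : f A B C = f B C A := by
    rw [h.a12 A B C, h.a23 B A C, neg_neg]
  rw [h3]
  ring

/-- The Jacobi identity for the bracket. -/
theorem IsStr.jacobi (h : IsStr f) (u v w : EuclideanSpace ℝ n) :
    brL f u (brL f v w) = brL f (brL f u v) w + brL f v (brL f u w) := by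
  ext D
  rw [PiLp.add_apply]
  have e1 : brL f u (brL f v w) D =
      ∑ A, ∑ B, ∑ C, (∑ E, f D A E * f E B C) * u A * v B * w C := by
    rw [brL_apply]
    refine Finset.sum_congr rfl fun A _ => ?_
    simp only [brL_apply, Finset.mul_sum, Finset.sum_mul]
    rw [Finset.sum_comm]
    refine Finset.sum_congr rfl fun B _ => ?_
    rw [Finset.sum_comm]
    refine Finset.sum_congr rfl fun C _ => ?_
    exact Finset.sum_congr rfl fun E _ => by ring
  have e2 : brL f (brL f u v) w D =
      ∑ A, ∑ B, ∑ C, (∑ E, f D E C * f E A B) * u A * v B * w C := by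
    rw [brL_apply]
    simp only [brL_apply, Finset.mul_sum, Finset.sum_mul]
    rw [Finset.sum_comm]
    have h1 : ∀ C E, ∑ A, ∑ B, f D E C * (f E A B * u A * v B) * w C =
        ∑ A, ∑ B, f D E C * f E A B * u A * v B * w C := fun C E =>
      Finset.sum_congr rfl fun A _ => Finset.sum_congr rfl fun B _ => by ring
    simp only [h1]
    rw [Finset.sum_comm]
    have h2 : ∑ E, ∑ C, ∑ A, ∑ B, f D E C * f E A B * u A * v B * w C =
        ∑ A, ∑ B, ∑ C, ∑ E, f D E C * f E A B * u A * v B * w C := by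
      calc ∑ E, ∑ C, ∑ A, ∑ B, f D E C * f E A B * u A * v B * w C
          = ∑ E, ∑ A, ∑ C, ∑ B, f D E C * f E A B * u A * v B * w C :=
            Finset.sum_congr rfl fun E _ => Finset.sum_comm
        _ = ∑ A, ∑ E, ∑ C, ∑ B, f D E C * f E A B * u A * v B * w C := Finset.sum_comm
        _ = ∑ A, ∑ E, ∑ B, ∑ C, f D E C * f E A B * u A * v B * w C :=
            Finset.sum_congr rfl fun A _ => Finset.sum_congr rfl fun E _ => Finset.sum_comm
        _ = ∑ A, ∑ B, ∑ E, ∑ C, f D E C * f E A B * u A * v B * w C :=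
            Finset.sum_congr rfl fun A _ => Finset.sum_comm
        _ = _ := Finset.sum_congr rfl fun A _ => Finset.sum_congr rfl fun B _ => Finset.sum_comm
    exact h2
  have e3 : brL f v (brL f u w) D =
      ∑ A, ∑ B, ∑ C, (∑ E, f D B E * f E A C) * u A * v B * w C := by
    rw [brL_apply]
    simp only [brL_apply, Finset.mul_sum, Finset.sum_mul]
    have h2 : ∑ B, ∑ E, ∑ A, ∑ C, f D B E * v B * (f E A C * u A * w C) =
        ∑ A, ∑ B, ∑ C, ∑ E, f D B E * v B * (f E A C * u A * w C) := by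
      calc ∑ B, ∑ E, ∑ A, ∑ C, f D B E * v B * (f E A C * u A * w C)
          = ∑ B, ∑ A, ∑ E, ∑ C, f D B E * v B * (f E A C * u A * w C) :=
            Finset.sum_congr rfl fun B _ => Finset.sum_comm
        _ = ∑ A, ∑ B, ∑ E, ∑ C, f D B E * v B * (f E A C * u A * w C) := Finset.sum_comm
        _ = _ := Finset.sum_congr rfl fun A _ => Finset.sum_congr rfl fun B _ => Finset.sum_comm
    rw [h2]
    exact Finset.sum_congr rfl fun A _ => Finset.sum_congr rfl fun B _ =>
      Finset.sum_congr rfl fun C _ => Finset.sum_congr rfl fun E _ => by ring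
  rw [e1, e2, e3, ← Finset.sum_add_distrib]
  refine Finset.sum_congr rfl fun A _ => ?_
  rw [← Finset.sum_add_distrib]
  refine Finset.sum_congr rfl fun B _ => ?_
  rw [← Finset.sum_add_distrib]
  refine Finset.sum_congr rfl fun C _ => ?_
  rw [← add_mul, ← add_mul, ← add_mul, ← Finset.sum_add_distrib]
  congr 3
  have h0 := h.jac A B C D
  have h1 : ∑ E, f D A E * f E B C = ∑ E, (f D E C * f E A B + f D B E * f E A C) -
      ∑ E, (f A B E * f E C D + f B C E * f E A D + f C A E * f E B D) := by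
    rw [← Finset.sum_sub_distrib]
    refine Finset.sum_congr rfl fun E _ => ?_
    have a1 : f D A E = f E D A := by rw [h.a23 D A E, h.a12 D E A, neg_neg]
    have a1' : f E A D = - f E D A := h.a23 E A D
    have a2 : f B C E = f E B C := by rw [h.a23 B C E, h.a12 B E C, neg_neg]
    have a3 : f D E C = f E C D := by rw [h.a12 D E C, h.a23 E D C, neg_neg]
    have a4 : f A B E = f E A B := by rw [h.a23 A B E, h.a12 A E B, neg_neg]
    have a5 : f D B E = - f E B D := by rw [h.a23 D B E, h.a12 D E B, neg_neg, h.a23 E D B]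
    have a6 : f C A E = - f E A C := by rw [h.a23 C A E, h.a12 C E A, neg_neg, h.a23 E C A]
    rw [a1, a1', a2, a3, a4, a5, a6]
    ring
  rw [h1, h0, sub_zero]

/-! ### Configurations -/

/-- The `i`-th colour vector of a configuration. -/
def col (i : Fin 9) : EuclideanSpace ℝ (Fin 9 × n) →ₗ[ℝ] EuclideanSpace ℝ n where
  toFun x := WithLp.toLp 2 (fun A => x (i, A))
  map_add' _ _ := rfl
  map_smul' _ _ := rfl

theorem col_apply (i : Fin 9) (x : EuclideanSpace ℝ (Fin 9 × n)) (A : n) :
    col i x A = x (i, A) := rfl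

theorem continuous_col (i : Fin 9) :
    Continuous (col i : EuclideanSpace ℝ (Fin 9 × n) → EuclideanSpace ℝ n) :=
  (col i).continuous_of_finiteDimensional

theorem inner_eq_col (x y : EuclideanSpace ℝ (Fin 9 × n)) :
    ⟪x, y⟫_ℝ = ∑ i, ⟪col i x, col i y⟫_ℝ := by
  rw [PiLp.inner_apply, Fintype.sum_prod_type]
  exact Finset.sum_congr rfl fun i _ => by rw [PiLp.inner_apply]; rfl

theorem normsq_eq_col (x : EuclideanSpace ℝ (Fin 9 × n)) :
    ‖x‖ ^ 2 = ∑ i, ‖col i x‖ ^ 2 := by
  rw [← real_inner_self_eq_norm_sq, inner_eq_col]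
  exact Finset.sum_congr rfl fun i _ => real_inner_self_eq_norm_sq _

theorem norm_col_le (i : Fin 9) (x : EuclideanSpace ℝ (Fin 9 × n)) : ‖col i x‖ ≤ ‖x‖ := by
  refine le_of_sq_le_sq ?_ (norm_nonneg _)
  rw [normsq_eq_col x]
  exact Finset.single_le_sum (f := fun i => ‖col i x‖ ^ 2) (fun _ _ => sq_nonneg _)
    (Finset.mem_univ i)

theorem ext_col {x y : EuclideanSpace ℝ (Fin 9 × n)} (h : ∀ i, col i x = col i y) : x = y := by
  ext ⟨i, A⟩
  exact congrArg (fun u : EuclideanSpace ℝ n => u A) (h i)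

/-- The next direction in the block `{0,1,2}` (junk value for `i ≥ 3`). -/
def nx (i : Fin 9) : Fin 9 := if i = 0 then 1 else if i = 1 then 2 else 0

/-- The bracket is bounded. -/
theorem brL_bound (f : n → n → n → ℝ) :
    ∃ C, 0 ≤ C ∧ ∀ u v : EuclideanSpace ℝ n, ‖brL f u v‖ ≤ C * (‖u‖ * ‖v‖) := by
  refine ⟨∑ A, ∑ B, ∑ C, |f A B C|, by positivity, fun u v => ?_⟩
  have h1 : ‖brL f u v‖ ≤ ∑ A, ‖brL f u v A‖ := by
    have h2 : brL f u v = ∑ A, EuclideanSpace.single A (brL f u v A) := by
      ext B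
      rw [WithLp.ofLp_sum, Finset.sum_apply]
      simp
    conv_lhs => rw [h2]
    refine (norm_sum_le _ _).trans (le_of_eq ?_)
    exact Finset.sum_congr rfl fun A _ => by rw [EuclideanSpace.single, PiLp.norm_single]
  refine h1.trans ?_
  rw [Finset.sum_mul]
  refine Finset.sum_le_sum fun A _ => ?_
  rw [brL_apply, Finset.sum_mul]
  refine (norm_sum_le _ _).trans (Finset.sum_le_sum fun B _ => ?_)
  rw [Finset.sum_mul]
  refine (norm_sum_le _ _).trans (Finset.sum_le_sum fun C _ => ?_)
  rw [norm_mul, norm_mul, mul_assoc, Real.norm_eq_abs (f A B C)]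
  refine mul_le_mul_of_nonneg_left ?_ (abs_nonneg _)
  exact mul_le_mul (PiLp.norm_apply_le u B) (PiLp.norm_apply_le v C) (norm_nonneg _)
    (norm_nonneg _)

theorem continuous_brL (f : n → n → n → ℝ) :
    Continuous fun p : EuclideanSpace ℝ n × EuclideanSpace ℝ n => brL f p.1 p.2 := by
  refine (PiLp.continuous_toLp 2 _).comp (continuous_pi fun A => ?_)
  refine continuous_finsetSum _ fun B _ => continuous_finsetSum _ fun C _ => ?_
  have h1 : Continuous fun p : EuclideanSpace ℝ n × EuclideanSpace ℝ n => p.1 B :=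
    (PiLp.continuous_apply 2 _ B).comp continuous_fst
  have h2 : Continuous fun p : EuclideanSpace ℝ n × EuclideanSpace ℝ n => p.2 C :=
    (PiLp.continuous_apply 2 _ C).comp continuous_snd
  exact (continuous_const.mul h1).mul h2

/-- The target of the residual map. -/
abbrev Tgt (n : Type*) := PiLp 2 (fun _ : Fin 9 => EuclideanSpace ℝ n)

/-- The residual map at coupling `1`. -/
def Res (f : n → n → n → ℝ) (x : EuclideanSpace ℝ (Fin 9 × n)) : Tgt n :=
  WithLp.toLp 2 fun i : Fin 9 => if (i : ℕ) < 3 then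
    (1 / 3 : ℝ) • col i x - brL f (col (nx i) x) (col (nx (nx i)) x) else (1 / 6 : ℝ) • col i x

/-- Its derivative. -/
def DRes (f : n → n → n → ℝ) (c z : EuclideanSpace ℝ (Fin 9 × n)) : Tgt n :=
  WithLp.toLp 2 fun i : Fin 9 => if (i : ℕ) < 3 then
    (1 / 3 : ℝ) • col i z - (brL f (col (nx i) z) (col (nx (nx i)) c) +
      brL f (col (nx i) c) (col (nx (nx i)) z)) else (1 / 6 : ℝ) • col i z

/-- Its quadratic part. -/
def BRes (f : n → n → n → ℝ) (z : EuclideanSpace ℝ (Fin 9 × n)) : Tgt n :=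
  WithLp.toLp 2 fun i : Fin 9 => if (i : ℕ) < 3 then
    - brL f (col (nx i) z) (col (nx (nx i)) z) else 0

theorem Res_apply (f : n → n → n → ℝ) (x : EuclideanSpace ℝ (Fin 9 × n)) (i : Fin 9) :
    Res f x i = if (i : ℕ) < 3 then
    (1 / 3 : ℝ) • col i x - brL f (col (nx i) x) (col (nx (nx i)) x) else (1 / 6 : ℝ) • col i x :=
  rfl

theorem DRes_apply (f : n → n → n → ℝ) (c z : EuclideanSpace ℝ (Fin 9 × n)) (i : Fin 9) :
    DRes f c z i = if (i : ℕ) < 3 then
    (1 / 3 : ℝ) • col i z - (brL f (col (nx i) z) (col (nx (nx i)) c) +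
      brL f (col (nx i) c) (col (nx (nx i)) z)) else (1 / 6 : ℝ) • col i z := rfl

theorem BRes_apply (f : n → n → n → ℝ) (z : EuclideanSpace ℝ (Fin 9 × n)) (i : Fin 9) :
    BRes f z i = if (i : ℕ) < 3 then - brL f (col (nx i) z) (col (nx (nx i)) z) else 0 := rfl

theorem Res_add (f : n → n → n → ℝ) (c z : EuclideanSpace ℝ (Fin 9 × n)) :
    Res f (c + z) = Res f c + DRes f c z + BRes f z := by
  ext1 i
  change Res f (c + z) i = Res f c i + DRes f c z i + BRes f z i
  rw [Res_apply, Res_apply, DRes_apply, BRes_apply]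
  split_ifs with h
  · simp only [map_add, LinearMap.add_apply, smul_add]
    abel
  · rw [map_add, smul_add, add_zero]

theorem DRes_smul (f : n → n → n → ℝ) (c z : EuclideanSpace ℝ (Fin 9 × n)) (s : ℝ) :
    DRes f c (s • z) = s • DRes f c z := by
  ext1 i
  change DRes f c (s • z) i = s • DRes f c z i
  rw [DRes_apply, DRes_apply]
  split_ifs with h
  · simp only [map_smul, LinearMap.smul_apply, smul_sub, smul_add]
    rw [smul_comm s]
  · rw [map_smul, smul_comm s]

theorem continuous_tgt {X : Type*} [TopologicalSpace X] {F : X → Tgt n}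
    (h : ∀ i, Continuous fun x => F x i) : Continuous F :=
  (PiLp.continuous_toLp 2 _).comp (continuous_pi h)

theorem continuous_Res (f : n → n → n → ℝ) : Continuous (Res f) := by
  refine continuous_tgt fun i => ?_
  simp only [Res_apply]
  split_ifs with h
  · have h1 : Continuous fun x : EuclideanSpace ℝ (Fin 9 × n) => (1 / 3 : ℝ) • col i x :=
      (continuous_col i).const_smul (1 / 3 : ℝ)
    exact h1.sub ((continuous_brL f).comp ((continuous_col (nx i)).prodMk (continuous_col (nx (nx i)))))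
  · exact (continuous_col i).const_smul (1 / 6 : ℝ)

theorem continuous_DRes (f : n → n → n → ℝ) :
    Continuous fun p : EuclideanSpace ℝ (Fin 9 × n) × EuclideanSpace ℝ (Fin 9 × n) =>
      DRes f p.1 p.2 := by
  refine continuous_tgt fun i => ?_
  simp only [DRes_apply]
  split_ifs with h
  · have h1 : Continuous fun p : EuclideanSpace ℝ (Fin 9 × n) × EuclideanSpace ℝ (Fin 9 × n) =>
        (1 / 3 : ℝ) • col i p.2 := ((continuous_col i).comp continuous_snd).const_smul (1 / 3 : ℝ)
    refine h1.sub (Continuous.add ?_ ?_)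
    · exact (continuous_brL f).comp
        (((continuous_col _).comp continuous_snd).prodMk ((continuous_col _).comp continuous_fst))
    · exact (continuous_brL f).comp
        (((continuous_col _).comp continuous_fst).prodMk ((continuous_col _).comp continuous_snd))
  · exact ((continuous_col i).comp continuous_snd).const_smul (1 / 6 : ℝ)

theorem tgt_normsq (y : Tgt n) : ‖y‖ ^ 2 = ∑ i, ‖y i‖ ^ 2 := by
  rw [PiLp.norm_sq_eq_of_L2]

theorem BRes_bound (f : n → n → n → ℝ) :
    ∃ C, 0 < C ∧ ∀ z : EuclideanSpace ℝ (Fin 9 × n), ‖BRes f z‖ ≤ C * ‖z‖ ^ 2 := by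
  obtain ⟨C, hC0, hC⟩ := brL_bound f
  refine ⟨3 * C + 1, by positivity, fun z => ?_⟩
  refine le_of_sq_le_sq ?_ (by positivity)
  rw [tgt_normsq]
  have h1 : ∀ i : Fin 9, ‖BRes f z i‖ ^ 2 ≤ (C * ‖z‖ ^ 2) ^ 2 := by
    intro i
    refine pow_le_pow_left₀ (norm_nonneg _) ?_ 2
    rw [BRes_apply]
    split_ifs
    · rw [norm_neg]
      refine (hC _ _).trans ?_
      rw [sq]
      exact mul_le_mul_of_nonneg_left (mul_le_mul (norm_col_le _ _) (norm_col_le _ _)
        (norm_nonneg _) (norm_nonneg _)) hC0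
    · rw [norm_zero]; positivity
  calc ∑ i, ‖BRes f z i‖ ^ 2 ≤ ∑ _i : Fin 9, (C * ‖z‖ ^ 2) ^ 2 :=
        Finset.sum_le_sum fun i _ => h1 i
    _ = (3 * C * ‖z‖ ^ 2) ^ 2 := by
        rw [Finset.sum_const, Finset.card_univ, Fintype.card_fin, nsmul_eq_mul]; push_cast; ring
    _ ≤ ((3 * C + 1) * ‖z‖ ^ 2) ^ 2 := by
        refine pow_le_pow_left₀ (by positivity) ?_ 2
        exact mul_le_mul_of_nonneg_right (by linarith) (by positivity)

/-- The gauge direction at `c`. -/
def gd (f : n → n → n → ℝ) (ω : EuclideanSpace ℝ n) (c : EuclideanSpace ℝ (Fin 9 × n)) :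
    EuclideanSpace ℝ (Fin 9 × n) :=
  WithLp.toLp 2 fun p : Fin 9 × n => brL f ω (col p.1 c) p.2

theorem col_gd (ω : EuclideanSpace ℝ n) (c : EuclideanSpace ℝ (Fin 9 × n)) (i : Fin 9) :
    col i (gd f ω c) = brL f ω (col i c) := rfl

/-- The relation "orthogonal to the gauge directions". -/
def Tr (f : n → n → n → ℝ) :
    Set (EuclideanSpace ℝ (Fin 9 × n) × EuclideanSpace ℝ (Fin 9 × n)) :=
  {p | ∀ ω, ⟪gd f ω p.1, p.2⟫_ℝ = 0}

theorem isClosed_Tr (f : n → n → n → ℝ) : IsClosed (Tr f) := by
  have h : Tr f = ⋂ ω, {p | ⟪gd f ω p.1, p.2⟫_ℝ = 0} := by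
    ext p; simp [Tr]
  rw [h]
  refine isClosed_iInter fun ω => isClosed_eq ?_ continuous_const
  have h1 : (fun p : EuclideanSpace ℝ (Fin 9 × n) × EuclideanSpace ℝ (Fin 9 × n) =>
      ⟪gd f ω p.1, p.2⟫_ℝ) = fun p => ∑ i, ⟪brL f ω (col i p.1), col i p.2⟫_ℝ := by
    funext p
    rw [inner_eq_col]
    rfl
  rw [h1]
  refine continuous_finsetSum _ fun i _ => Continuous.inner ?_ ?_
  · exact ((brL f ω).continuous_of_finiteDimensional).comp ((continuous_col i).comp continuous_fst)
  · exact (continuous_col i).comp continuous_snd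

/-- The zero set. -/
def Zs (f : n → n → n → ℝ) : Set (EuclideanSpace ℝ (Fin 9 × n)) := {x | Res f x = 0}

theorem isClosed_Zs (f : n → n → n → ℝ) : IsClosed (Zs f) :=
  isClosed_eq (continuous_Res f) continuous_const

theorem nx0 : nx 0 = 1 := rfl
theorem nx1 : nx 1 = 2 := rfl
theorem nx2 : nx 2 = 0 := rfl

/-- Injectivity of the derivative on the orthogonal complement of the gauge directions. -/
theorem DRes_inj (h : IsStr f) {c : EuclideanSpace ℝ (Fin 9 × n)} (hc : c ∈ Zs f)
    {z : EuclideanSpace ℝ (Fin 9 × n)} (hz : (c, z) ∈ Tr f) (hD : DRes f c z = 0) : z = 0 := by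
  have hc' : ∀ i, Res f c i = 0 := fun i => by
    have : Res f c = 0 := hc
    rw [this]; rfl
  have hD' : ∀ i, DRes f c z i = 0 := fun i => by rw [hD]; rfl
  have c0 := hc' 0
  have c1 := hc' 1
  have c2 := hc' 2
  have d0 := hD' 0
  have d1 := hD' 1
  have d2 := hD' 2
  rw [Res_apply, if_pos (by decide), nx0, nx1] at c0
  rw [Res_apply, if_pos (by decide), nx1, nx2] at c1
  rw [Res_apply, if_pos (by decide), nx2, nx0] at c2
  rw [DRes_apply, if_pos (by decide), nx0, nx1] at d0
  rw [DRes_apply, if_pos (by decide), nx1, nx2] at d1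
  rw [DRes_apply, if_pos (by decide), nx2, nx0] at d2
  have cb : ∀ i : Fin 9, ¬ (i : ℕ) < 3 → col i c = 0 := by
    intro i hi
    have h1 := hc' i
    rw [Res_apply, if_neg hi, smul_eq_zero] at h1
    exact h1.resolve_left (by norm_num)
  have zb : ∀ i : Fin 9, ¬ (i : ℕ) < 3 → col i z = 0 := by
    intro i hi
    have h1 := hD' i
    rw [DRes_apply, if_neg hi, smul_eq_zero] at h1
    exact h1.resolve_left (by norm_num)
  -- gauge condition
  have hg : brL f (col 0 c) (col 0 z) + brL f (col 1 c) (col 1 z) +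
      brL f (col 2 c) (col 2 z) = 0 := by
    rw [← inner_self_eq_zero (𝕜 := ℝ)]
    set ω := brL f (col 0 c) (col 0 z) + brL f (col 1 c) (col 1 z) +
      brL f (col 2 c) (col 2 z) with hω
    have h1 := hz ω
    rw [inner_eq_col] at h1
    have h2 : ∀ i, ⟪col i (gd f ω (c, z).1), col i (c, z).2⟫_ℝ =
        ⟪ω, brL f (col i c) (col i z)⟫_ℝ := fun i => by
      rw [col_gd, h.inv]
    rw [Finset.sum_congr rfl fun i _ => h2 i] at h1
    have h3 : ∑ i : Fin 9, ⟪ω, brL f (col i c) (col i z)⟫_ℝ =
        ⟪ω, brL f (col 0 c) (col 0 z)⟫_ℝ + ⟪ω, brL f (col 1 c) (col 1 z)⟫_ℝ +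
          ⟪ω, brL f (col 2 c) (col 2 z)⟫_ℝ := by
      have hb : ∀ i : Fin 9, ¬ (i : ℕ) < 3 → ⟪ω, brL f (col i c) (col i z)⟫_ℝ = 0 := by
        intro i hi
        rw [cb i hi, map_zero, LinearMap.zero_apply, inner_zero_right]
      have hsub : ∑ i : Fin 9, ⟪ω, brL f (col i c) (col i z)⟫_ℝ =
          ∑ i ∈ ({0, 1, 2} : Finset (Fin 9)), ⟪ω, brL f (col i c) (col i z)⟫_ℝ :=
        (Finset.sum_subset (Finset.subset_univ _) (fun i _ hi => hb i (by
          revert hi; revert i; decide))).symm
      rw [hsub, Finset.sum_insert (by decide), Finset.sum_insert (by decide),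
        Finset.sum_singleton, add_assoc]
    rw [h3, ← inner_add_right, ← inner_add_right, ← hω] at h1
    exact h1
  have key := rigid (brL f) h.skew h.jacobi h.inv ((3 : ℝ) • col 0 c) ((3 : ℝ) • col 1 c)
    ((3 : ℝ) • col 2 c) (col 0 z) (col 1 z) (col 2 z)
    (by
      simp only [map_smul, LinearMap.smul_apply]
      linear_combination (norm := module) (9 : ℝ) • c0)
    (by
      simp only [map_smul, LinearMap.smul_apply]
      linear_combination (norm := module) (9 : ℝ) • c1)
    (by
      simp only [map_smul, LinearMap.smul_apply]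
      linear_combination (norm := module) (9 : ℝ) • c2)
    (by
      simp only [map_smul, LinearMap.smul_apply]
      linear_combination (norm := module) (3 : ℝ) • d0)
    (by
      simp only [map_smul, LinearMap.smul_apply]
      linear_combination (norm := module) (3 : ℝ) • d1)
    (by
      simp only [map_smul, LinearMap.smul_apply]
      linear_combination (norm := module) (3 : ℝ) • d2)
    (by
      simp only [map_smul, LinearMap.smul_apply]
      linear_combination (norm := module) (3 : ℝ) • hg)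
  obtain ⟨k0, k1, k2⟩ := key
  refine ext_col fun i => ?_
  rw [map_zero]
  by_cases hi : (i : ℕ) < 3
  · have : i = 0 ∨ i = 1 ∨ i = 2 := by
      revert hi; revert i; decide
    rcases this with rfl | rfl | rfl
    · exact k0
    · exact k1
    · exact k2
  · exact zb i hi

end

end Crest.Agent.R330.VLow737
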