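import Crest.Agent.R330.VLowB_737

/-!
# Row 330, section 5a (helper737): the global lower bound for generic structure constants

* `first_order` : the nearest point of a set invariant under a flow.
* `lower_glob` : `c * dist(x, Z)^2 ≤ |Res f x|^2` for all `x`.
* `lower_near` : `(κ/2) dist(x, S) ≤ |Res f x|` for `S ⊆ Z` closed invariant, near `S`.
* `orbit_gap` : two invariant closed pieces: a zero close to an invariant closed `S ⊆ Z` is in `S`.
-/

set_option autoImplicit false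
set_option linter.unusedSectionVars false

open Metric Set Topology Filter
open scoped InnerProductSpace

namespace Crest.Agent.R330.VLow737

noncomputable section

theorem first_order {E : Type*} [NormedAddCommGroup E] [InnerProductSpace ℝ E] {S : Set E}
    {c y v : E} (hmin : dist y c = infDist y S) (γ : ℝ → E) (h0 : γ 0 = c)
    (hd : HasDerivAt γ v 0) (hS : ∀ t, γ t ∈ S) : ⟪v, y - c⟫_ℝ = 0 := by
  have h1 : HasDerivAt (fun t => ‖y - γ t‖ ^ 2) (2 * ⟪y - γ 0, 0 - v⟫_ℝ) 0 :=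
    ((hasDerivAt_const (0 : ℝ) y).sub hd).norm_sq
  have h2 : IsLocalMin (fun t => ‖y - γ t‖ ^ 2) 0 := by
    refine Filter.Eventually.of_forall fun t => ?_
    have h3 : ‖y - γ 0‖ ≤ ‖y - γ t‖ := by
      rw [h0, ← dist_eq_norm, ← dist_eq_norm, hmin]
      exact infDist_le_dist_of_mem (hS t)
    exact pow_le_pow_left₀ (norm_nonneg _) h3 2
  have h3 := h2.hasDerivAt_eq_zero h1
  rw [h0, zero_sub, inner_neg_right] at h3
  rw [real_inner_comm]
  linarith

variable {n : Type*} [Fintype n] [DecidableEq n] {f : n → n → n → ℝ}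

/-- `S` is invariant under flows with generators the gauge directions. -/
def FlowInv (f : n → n → n → ℝ) (S : Set (EuclideanSpace ℝ (Fin 9 × n))) : Prop :=
  ∀ ω, ∀ c ∈ S, ∃ γ : ℝ → EuclideanSpace ℝ (Fin 9 × n), γ 0 = c ∧
    HasDerivAt γ (gd f ω c) 0 ∧ ∀ t, γ t ∈ S

theorem FlowInv.first {S : Set (EuclideanSpace ℝ (Fin 9 × n))} (h : FlowInv f S) :
    ∀ c ∈ S, ∀ y, dist y c = infDist y S → (c, y - c) ∈ Tr f := by
  intro c hc y hy ω
  obtain ⟨γ, h0, hd, hS⟩ := h ω c hc
  exact first_order hy γ h0 hd hS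

/-- Coercivity of the residual map. -/
def Coer (f : n → n → n → ℝ) : Prop :=
  ∃ c > 0, ∃ C, ∀ x : EuclideanSpace ℝ (Fin 9 × n), c * ‖x‖ ^ 2 - C ≤ ‖Res f x‖ ^ 2

theorem zero_mem_Zs (f : n → n → n → ℝ) : (0 : EuclideanSpace ℝ (Fin 9 × n)) ∈ Zs f := by
  change Res f 0 = 0
  ext1 i
  change Res f 0 i = 0
  rw [Res_apply]
  split_ifs
  · simp only [map_zero, smul_zero, sub_zero]
  · rw [map_zero, smul_zero]

theorem isCompact_Zs (hco : Coer f) : IsCompact (Zs f) := by
  obtain ⟨c, hc, C, h⟩ := hco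
  refine isCompact_of_isClosed_isBounded (isClosed_Zs f) ?_
  refine (Metric.isBounded_closedBall (x := (0 : EuclideanSpace ℝ (Fin 9 × n)))
    (r := Real.sqrt (C / c))).subset fun x hx => ?_
  rw [mem_closedBall_zero_iff]
  refine Real.le_sqrt_of_sq_le ?_
  have h1 := h x
  have hx' : Res f x = 0 := hx
  rw [hx', norm_zero] at h1
  rw [le_div_iff₀ hc]
  nlinarith

/-- The transversal constant. -/
theorem exists_kappa (hf : IsStr f) (hco : Coer f) :
    ∃ κ > 0, ∀ c ∈ Zs f, ∀ z, (c, z) ∈ Tr f → κ * ‖z‖ ≤ ‖DRes f c z‖ := by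
  refine compact_bound (Zs f) (isCompact_Zs hco) (Tr f) (isClosed_Tr f) ?_ (DRes f)
    (continuous_DRes f) (fun c z s => DRes_smul f c z s) ?_
  · intro c z hz s ω
    have h1 := hz ω
    change ⟪gd f ω c, s • z⟫_ℝ = 0
    rw [inner_smul_right]
    change ⟪gd f ω c, z⟫_ℝ = 0 at h1
    rw [h1, mul_zero]
  · intro c hc z hz h0 hD
    exact h0 (DRes_inj hf hc hz hD)

/-- Morse-Bott bound near any closed flow invariant subset of the zero set. -/
theorem exists_near (hf : IsStr f) (hco : Coer f) :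
    ∃ κ > 0, ∃ C > 0, ∀ S : Set (EuclideanSpace ℝ (Fin 9 × n)), S ⊆ Zs f → IsClosed S →
      S.Nonempty → FlowInv f S → ∀ y, κ * infDist y S - C * infDist y S ^ 2 ≤ ‖Res f y‖ := by
  obtain ⟨κ, hκ0, hκ⟩ := exists_kappa hf hco
  obtain ⟨C, hC0, hC⟩ := BRes_bound f
  refine ⟨κ, hκ0, C, hC0, fun S hS hSc hne hinv y => ?_⟩
  exact near_bound (Zs f) (R := Res f) (D := DRes f) (B := BRes f) (fun c hc => hc)
    (Res_add f) hC hκ hS hSc hne hinv.first y

/-- **Linear lower bound near** a closed flow invariant subset of the zero set. -/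
theorem lower_near (hf : IsStr f) (hco : Coer f) :
    ∃ κ > 0, ∃ r > 0, ∀ S : Set (EuclideanSpace ℝ (Fin 9 × n)), S ⊆ Zs f → IsClosed S →
      S.Nonempty → FlowInv f S → ∀ y, infDist y S ≤ r → κ * infDist y S ≤ ‖Res f y‖ := by
  obtain ⟨κ, hκ0, C, hC0, h⟩ := exists_near hf hco
  refine ⟨κ / 2, by positivity, κ / (2 * C), by positivity, fun S hS hSc hne hinv y hy => ?_⟩
  have h1 := h S hS hSc hne hinv y
  have h2 : C * infDist y S ≤ κ / 2 := by
    rw [le_div_iff₀ (by positivity)] at hy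
    linarith
  have h3 : 0 ≤ infDist y S := infDist_nonneg
  nlinarith

/-- **Isolation**: a zero close to a closed flow invariant set of zeros belongs to it. -/
theorem orbit_gap (hf : IsStr f) (hco : Coer f) :
    ∃ r > 0, ∀ S : Set (EuclideanSpace ℝ (Fin 9 × n)), S ⊆ Zs f → IsClosed S →
      S.Nonempty → FlowInv f S → ∀ y ∈ Zs f, infDist y S ≤ r → y ∈ S := by
  obtain ⟨κ, hκ0, r, hr, h⟩ := lower_near hf hco
  refine ⟨r, hr, fun S hS hSc hne hinv y hy hyr => ?_⟩
  have h1 := h S hS hSc hne hinv y hyr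
  have h2 : Res f y = 0 := hy
  rw [h2, norm_zero] at h1
  have h3 : infDist y S = 0 := le_antisymm (by nlinarith [infDist_nonneg (x := y) (s := S)])
    infDist_nonneg
  exact (hSc.mem_iff_infDist_zero hne).2 h3

/-- **The global lower bound.** -/
theorem lower_glob (hf : IsStr f) (hco : Coer f) (hinv : FlowInv f (Zs f)) :
    ∃ c > 0, ∀ y, c * infDist y (Zs f) ^ 2 ≤ ‖Res f y‖ ^ 2 := by
  have hne : (Zs f).Nonempty := ⟨0, zero_mem_Zs f⟩
  obtain ⟨κ, hκ0, r, hr, hnear⟩ := lower_near hf hco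
  have hnear' := hnear (Zs f) subset_rfl (isClosed_Zs f) hne hinv
  obtain ⟨c, hc, C, hcoer⟩ := hco
  -- radius beyond which coercivity suffices
  set R : ℝ := Real.sqrt (2 * |C| / c) with hR
  set A : Set (EuclideanSpace ℝ (Fin 9 × n)) := closedBall 0 R ∩ {y | r ≤ infDist y (Zs f)} with hA
  have hAc : IsCompact A := (isCompact_closedBall _ _).inter_right
    (isClosed_le continuous_const (continuous_infDist_pt _))
  have hA' : ∃ a > 0, ∀ y ∈ A, a ≤ ‖Res f y‖ := by
    rcases A.eq_empty_or_nonempty with h0 | h0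
    · exact ⟨1, one_pos, fun y hy => by rw [h0] at hy; exact absurd hy (notMem_empty _)⟩
    · obtain ⟨y₀, hy₀, hmin⟩ := hAc.exists_isMinOn h0 (continuous_Res f).norm.continuousOn
      refine ⟨‖Res f y₀‖, norm_pos_iff.2 ?_, fun y hy => hmin hy⟩
      intro h1
      have h2 : y₀ ∈ Zs f := h1
      have h3 := hy₀.2
      rw [mem_ofPred_eq, infDist_zero_of_mem h2] at h3
      linarith
  obtain ⟨a, ha, haA⟩ := hA'
  have hd : ∀ y, infDist y (Zs f) ≤ ‖y‖ := fun y => by
    have := infDist_le_dist_of_mem (x := y) (zero_mem_Zs f)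
    rwa [dist_zero_right] at this
  refine ⟨min (min (κ ^ 2) (c / 2)) (a ^ 2 / (R ^ 2 + 1)), by positivity, fun y => ?_⟩
  have hd0 : 0 ≤ infDist y (Zs f) := infDist_nonneg
  rcases le_total (infDist y (Zs f)) r with h1 | h1
  · calc _ ≤ κ ^ 2 * infDist y (Zs f) ^ 2 :=
          mul_le_mul_of_nonneg_right ((min_le_left _ _).trans (min_le_left _ _)) (sq_nonneg _)
      _ = (κ * infDist y (Zs f)) ^ 2 := by ring
      _ ≤ _ := pow_le_pow_left₀ (by positivity) (hnear' y h1) 2
  · rcases le_total ‖y‖ R with h2 | h2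
    · have hyA : y ∈ A := ⟨mem_closedBall_zero_iff.2 h2, h1⟩
      have h3 := haA y hyA
      have h4 : infDist y (Zs f) ^ 2 ≤ R ^ 2 + 1 := by
        have := pow_le_pow_left₀ hd0 ((hd y).trans h2) 2
        linarith
      calc _ ≤ a ^ 2 / (R ^ 2 + 1) * infDist y (Zs f) ^ 2 :=
            mul_le_mul_of_nonneg_right (min_le_right _ _) (sq_nonneg _)
        _ ≤ a ^ 2 / (R ^ 2 + 1) * (R ^ 2 + 1) := mul_le_mul_of_nonneg_left h4 (by positivity)
        _ = a ^ 2 := by field_simp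
        _ ≤ _ := pow_le_pow_left₀ ha.le h3 2
    · have h3 : 2 * |C| / c ≤ ‖y‖ ^ 2 := by
        have h4 : R ^ 2 ≤ ‖y‖ ^ 2 := pow_le_pow_left₀ (Real.sqrt_nonneg _) h2 2
        rwa [hR, Real.sq_sqrt (by positivity)] at h4
      rw [div_le_iff₀ hc] at h3
      have h5 := hcoer y
      have h6 := le_abs_self C
      have h7 : infDist y (Zs f) ^ 2 ≤ ‖y‖ ^ 2 := pow_le_pow_left₀ hd0 (hd y) 2
      calc _ ≤ c / 2 * infDist y (Zs f) ^ 2 :=
            mul_le_mul_of_nonneg_right ((min_le_left _ _).trans (min_le_right _ _)) (sq_nonneg _)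
        _ ≤ c / 2 * ‖y‖ ^ 2 := mul_le_mul_of_nonneg_left h7 (by positivity)
        _ ≤ _ := by nlinarith

end

end Crest.Agent.R330.VLow737
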