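import Crest.Agent.R330.Cliff7_442

/-!
# Row 330, S8-V4 (helper285): spin operators between heavy vacua

For a partial complex structure `J` (442's `PCS`), an operator `B` with
`[B, θ(u)] = θ(ad u)` and `f ∈ vacJ J`:

* `proj_creator` : `P (θ(v) + i θ(J v)) X = 0` for heavy `v`.
* `proj_spin_theta` : `P B θ(v) f = ½ θ(lgt (ad v)) f + (i/2) θ(lgt (ad (J v))) f` for heavy `v`.
* `proj_theta_spin` : `P θ(v) B f = -½ θ(lgt (ad v)) f + (i/2) θ(lgt (ad (J v))) f` for heavy `v`.

No expansion of `B` in bilinears is used.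
-/

set_option autoImplicit false
set_option linter.unusedSectionVars false

open scoped InnerProductSpace

noncomputable section

namespace Crest.Agent.R330.Cliff442

namespace CRep

variable {V F : Type*} [NormedAddCommGroup V] [InnerProductSpace ℝ V] [FiniteDimensional ℝ V]
  [NormedAddCommGroup F] [InnerProductSpace ℂ F]
  (M : CRep V F) {J : V →ₗ[ℝ] V}

/-- `θ(v) g = i θ(J v) g` on the vacuum space for heavy `v`. -/
theorem th_vac {g : F} (hg : g ∈ M.vacJ J) {v : V} (hv : J (J v) = -v) :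
    M.θ v g = Complex.I • M.θ (J v) g := by
  have h := hg (-(J v))
  rw [map_neg, hv, neg_neg] at h
  exact h

/-- Creators on the left are killed by the vacuum projection. -/
theorem proj_creator (hJ : PCS J) {v : V} (hv : J (J v) = -v) (X : F) :
    M.proj J (M.θ v X) = -(Complex.I • M.proj J (M.θ (J v) X)) := by
  have h1 : ∀ g ∈ M.vacJ J, ⟪g, M.θ v X + Complex.I • M.θ (J v) X⟫_ℂ = 0 := by
    intro g hg
    rw [inner_add_right, inner_smul_right, ← M.symm, ← M.symm, M.th_vac hg hv, inner_smul_left,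
      Complex.conj_I]
    ring
  set Y : F := M.θ v X + Complex.I • M.θ (J v) X with hY
  have h2 : M.proj J Y = 0 := by
    have h3 : ⟪M.proj J Y, M.proj J Y⟫_ℂ = 0 := by
      have h4 := h1 _ (M.proj_mem hJ Y)
      rw [← h4]
      conv_lhs => rw [← M.proj_symm hJ]
      rw [M.proj_of_mem hJ (M.proj_mem hJ Y)]
    exact inner_self_eq_zero.1 h3
  rw [hY, map_add, map_smul] at h2
  exact eq_neg_of_add_eq_zero_left h2

/-- Heavy operators between vacua. -/
theorem th_half {g : F} (hg : g ∈ M.vacJ J) {v : V} (hv : J (J v) = -v) :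
    M.θ v g = (1 / 2 : ℂ) • (M.θ v g + Complex.I • M.θ (J v) g) := by
  rw [← M.th_vac hg hv, ← two_smul ℂ, smul_smul]
  norm_num

/-- **Spin operator and a heavy generator, order `B θ`.** -/
theorem proj_spin_theta (hJ : PCS J) {B : F → F} (hB : ∀ f g, B (f + g) = B f + B g)
    (hBs : ∀ (c : ℂ) f, B (c • f) = c • B f) {ad : V → V}
    (hc : ∀ u f, B (M.θ u f) = M.θ u (B f) + M.θ (ad u) f) {f : F} (hf : f ∈ M.vacJ J) {v : V}
    (hv : J (J v) = -v) :
    M.proj J (B (M.θ v f)) = (1 / 2 : ℂ) • M.θ (lgt J (ad v)) f +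
      (Complex.I / 2) • M.θ (lgt J (ad (J v))) f := by
  rw [M.th_half hf hv, hBs, hB, hBs, hc, hc, map_smul, map_add, map_smul, map_add, map_add,
    M.proj_creator hJ hv, M.proj_th_gen hJ _ hf, M.proj_th_gen hJ _ hf]
  module

/-- **Spin operator and a heavy generator, order `θ B`.** -/
theorem proj_theta_spin (hJ : PCS J) {B : F → F} (hB : ∀ f g, B (f + g) = B f + B g)
    (hBs : ∀ (c : ℂ) f, B (c • f) = c • B f) {ad : V → V}
    (hc : ∀ u f, B (M.θ u f) = M.θ u (B f) + M.θ (ad u) f) {f : F} (hf : f ∈ M.vacJ J) {v : V}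
    (hv : J (J v) = -v) :
    M.proj J (M.θ v (B f)) = -((1 / 2 : ℂ) • M.θ (lgt J (ad v)) f) +
      (Complex.I / 2) • M.θ (lgt J (ad (J v))) f := by
  have h1 : M.θ v (B f) = B (M.θ v f) - M.θ (ad v) f := by rw [hc]; abel
  rw [h1, map_sub, M.proj_spin_theta hJ hB hBs hc hf hv, M.proj_th_gen hJ _ hf]
  module

end CRep

end Crest.Agent.R330.Cliff442

end
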