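import Crest.Agent.R330.Bind6_839

/-!
# Row 330, S8-V4 (helper285): the J-contraction of the frame vanishes (colour part)

`c` commuting, `x` a tuple in the centre of the stabiliser `k` of `c`, `S` an operator commuting
with `ad T` for all `T ∈ k`. If `ω ∈ kᗮ` is the gauge parameter at `x` of the tangent vector
`[w, c]`, then `⟪T, [ω, S [w, c_j]]⟫ = 0` for `T ∈ k` and every skew `S` as above.

* `evn_bil` : symmetric operators commuting with `ad k` move through `⟪T, [·,·]⟫`.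
* `jpart_zero` : the statement over a colour algebra.
* `jpart_lit` : the statement over `actB b`, `om`.
-/

set_option autoImplicit false
set_option linter.unusedSectionVars false

open scoped InnerProductSpace

noncomputable section

namespace Crest.Agent.R330.VacE285

open Crest.Agent.R330.Clus839

variable {V : Type*} [NormedAddCommGroup V] [InnerProductSpace ℝ V] (L : ColAlg V)
  {ι : Type*} [Fintype ι]

/-- `S` commutes with `ad T`, `T ∈ K`. -/
def CommK (K : Submodule ℝ V) (S : V →ₗ[ℝ] V) : Prop :=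
  ∀ T ∈ K, ∀ w, S (L.br T w) = L.br T (S w)

/-- `S` is symmetric. -/
def Sy (S : V →ₗ[ℝ] V) : Prop := ∀ u v, ⟪S u, v⟫_ℝ = ⟪u, S v⟫_ℝ

variable {L}

theorem CommK.comp {K : Submodule ℝ V} {S S' : V →ₗ[ℝ] V} (h : CommK L K S) (h' : CommK L K S') :
    CommK L K (S ∘ₗ S') := fun T hT w => by
  rw [LinearMap.comp_apply, LinearMap.comp_apply, h' T hT, h T hT]

/-- Symmetric operators commuting with `ad k` move through `⟪T, [·,·]⟫`. -/
theorem evn_bil {K : Submodule ℝ V} {S : V →ₗ[ℝ] V} (hS : CommK L K S) (hs : Sy S) {T : V}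
    (hT : T ∈ K) (a b : V) : ⟪T, L.br (S a) b⟫_ℝ = ⟪T, L.br a (S b)⟫_ℝ := by
  rw [← L.inv, ← L.inv, ← hS T hT, hs]

variable (L)

/-- `Σ_j [c_j, [x_j, w]]` -/
def Lx (c x : ι → V) : V →ₗ[ℝ] V := ∑ j, (L.br (c j)) ∘ₗ (L.br (x j))

theorem Lx_apply (c x : ι → V) (w : V) : Lx L c x w = ∑ j, L.br (c j) (L.br (x j) w) := by
  unfold Lx
  rw [LinearMap.sum_apply]
  rfl

variable {L}

theorem br_comm_of {a b : V} (h : L.br a b = 0) (w : V) :
    L.br a (L.br b w) = L.br b (L.br a w) := by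
  rw [L.jac, h]
  simp

theorem Lx_sy {c x : ι → V} (h : ∀ i j, L.br (x i) (c j) = 0) : Sy (Lx L c x) := by
  intro u v
  rw [Lx_apply, Lx_apply, sum_inner, inner_sum]
  refine Finset.sum_congr rfl fun j _ => ?_
  rw [L.skew, L.skew, neg_neg, br_comm_of (h j j)]

theorem Lx_commK {K : Submodule ℝ V} {c x : ι → V} (hc : ∀ i, ∀ T ∈ K, L.br (c i) T = 0)
    (hx : ∀ i, ∀ T ∈ K, L.br (x i) T = 0) : CommK L K (Lx L c x) := by
  intro T hT w
  rw [Lx_apply, Lx_apply, map_sum]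
  refine Finset.sum_congr rfl fun j _ => ?_
  rw [br_comm_of (hx j T hT), br_comm_of (hc j T hT)]

/-- Operators commuting with `ad k` commute with `Lx`. -/
theorem comm_Lx {K : Submodule ℝ V} {S : V →ₗ[ℝ] V} (hS : CommK L K S) {c x : ι → V}
    (hc : ∀ i, c i ∈ K) (hx : ∀ i, x i ∈ K) (w : V) : S (Lx L c x w) = Lx L c x (S w) := by
  rw [Lx_apply, Lx_apply, map_sum]
  refine Finset.sum_congr rfl fun j _ => ?_
  rw [hS _ (hc j), hS _ (hx j)]

/-- **The J-contraction vanishes.** -/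
theorem jpart_zero [FiniteDimensional ℝ V] {c x : ι → V} (hc : L.Comm c)
    (hxk : ∀ i, x i ∈ L.kk c) (hxc : ∀ i, ∀ T ∈ L.kk c, L.br (x i) T = 0)
    (hinj : ∀ v ∈ (L.kk c)ᗮ, Lx L c x v = 0 → v = 0) {w om : V} (hw : w ∈ (L.kk c)ᗮ)
    (hom : om ∈ (L.kk c)ᗮ)
    (ht : ∀ w1 ∈ (L.kk c)ᗮ, ∑ j, ⟪L.br om (x j), L.br w1 (c j)⟫_ℝ =
      ∑ j, ⟪L.br w (c j), L.br w1 (c j)⟫_ℝ)
    {H : V →ₗ[ℝ] V} (hH : CommK L (L.kk c) H) (hs : ∀ u v, ⟪H u, v⟫_ℝ = -⟪u, H v⟫_ℝ) (j : ι)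
    {T : V} (hT : T ∈ L.kk c) : ⟪T, L.br om (H (L.br w (c j)))⟫_ℝ = 0 := by
  set K := L.kk c with hK
  have hck : ∀ i, c i ∈ K := fun i => L.self_mem_kk hc i
  have hcc : ∀ i, ∀ T ∈ K, L.br (c i) T = 0 := fun i T hT => hT i
  have hxc' : ∀ i j, L.br (x i) (c j) = 0 := fun i j => hxc i _ (hck j)
  -- operators
  set A := Lx L c x with hA
  set D := Lx L c c with hD
  have sA : Sy A := Lx_sy hxc'
  have sD : Sy D := Lx_sy fun i j => hc i j
  have cA : CommK L K A := Lx_commK hcc hxc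
  have cD : CommK L K D := Lx_commK hcc hcc
  have mem : ∀ y : ι → V, ∀ v, Lx L c y v ∈ Kᗮ := fun y v => by
    rw [Lx_apply]
    exact Submodule.sum_mem _ fun i _ => L.ad_mem_perp i _
  -- `A om = D w`
  have e1 : ∀ y : ι → V, ∀ a w1, ∑ j, ⟪L.br a (y j), L.br w1 (c j)⟫_ℝ = -⟪Lx L c y a, w1⟫_ℝ := by
    intro y a w1
    rw [Lx_apply, sum_inner, ← Finset.sum_neg_distrib]
    refine Finset.sum_congr rfl fun i _ => ?_
    rw [L.anti a, L.anti w1, inner_neg_neg, L.skew (c i), neg_neg]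
  have h1 : A om = D w := by
    have h2 : ∀ w1 ∈ Kᗮ, ⟪A om - D w, w1⟫_ℝ = 0 := by
      intro w1 h1
      have h3 := ht w1 h1
      rw [e1, e1] at h3
      rw [inner_sub_left]
      linarith
    have h4 := h2 _ (Kᗮ.sub_mem (mem x om) (mem c w))
    exact sub_eq_zero.1 (inner_self_eq_zero.1 h4)
  -- `w = A v`, `om = D v`
  obtain ⟨v, hv, hvw⟩ : ∃ v ∈ Kᗮ, A v = w := by
    set A' : Kᗮ →ₗ[ℝ] Kᗮ := A.restrict (fun v _ => mem x v) with hA'
    have hi : Function.Injective A' := by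
      rw [← LinearMap.ker_eq_bot, LinearMap.ker_eq_bot']
      intro v hv
      have h5 : A (v : V) = 0 := congrArg (fun u : Kᗮ => (u : V)) hv
      exact Subtype.ext (hinj _ v.2 h5)
    obtain ⟨v, hv⟩ := (LinearMap.injective_iff_surjective.1 hi) ⟨w, hw⟩
    exact ⟨v, v.2, congrArg (fun u : Kᗮ => (u : V)) hv⟩
  have h2 : om = D v := by
    have h3 : A (om - D v) = 0 := by
      rw [map_sub, h1, ← hvw, sub_eq_zero]
      exact comm_Lx cD hck hxk v
    exact sub_eq_zero.1 (hinj _ (Kᗮ.sub_mem hom (mem c v)) h3)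
  -- the even operator `h = H ad c_j`
  set h := H ∘ₗ L.br (c j) with hh
  have sh : Sy h := by
    intro u u'
    rw [hh, LinearMap.comp_apply, LinearMap.comp_apply, hs, L.skew, neg_neg, hH _ (hck j)]
  have ch : CommK L K h := by
    intro T hT u
    rw [hh, LinearMap.comp_apply, LinearMap.comp_apply, br_comm_of (hcc j T hT), hH T hT]
  have e2 : L.br om (H (L.br w (c j))) = -L.br (D v) (h (A v)) := by
    rw [L.anti w, map_neg, map_neg, hvw, ← h2]
    rfl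
  rw [e2, inner_neg_right, neg_eq_zero]
  have a1 : ⟪T, L.br (D v) (h (A v))⟫_ℝ = ⟪T, L.br v (D (h (A v)))⟫_ℝ := evn_bil cD sD hT _ _
  have a2 : ⟪T, L.br (D v) (h (A v))⟫_ℝ = -⟪T, L.br v (A (h (D v)))⟫_ℝ := by
    rw [L.anti, inner_neg_right, evn_bil ch sh hT, evn_bil cA sA hT]
  have a3 : D (h (A v)) = A (h (D v)) := by
    rw [← comm_Lx ch hck hck, ← comm_Lx ch hck hxk]
    congr 1
    exact comm_Lx cD hck hxk v
  rw [a3] at a1
  linarith

end Crest.Agent.R330.VacE285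

end
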