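import Crest.Agent.R330.VacSec1_255
import Crest.Agent.R330.Gam_962

/-!
# Row 330, S8-UX (helper383, second of 255): no Berry connection, abstract part

* `gp_trace` : the trace of a product of an odd number of gammas vanishes if one of the nine does
  not occur; complex version `gpC_trace`.
* `pair_trace` : the trace of a pair operator vanishes if all its `16 × 16` blocks are traceless.
* `berry` : for `W(P) W(Q)` the derivative has no vacuum component.
-/

set_option autoImplicit false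
set_option linter.unusedSectionVars false

open scoped InnerProductSpace Matrix
open Crest.MathPhysics.MatrixQM

noncomputable section

namespace Crest.Agent.R330.VacF383

open Crest.Agent.R330.VacSec255

/-! ### Traces of odd products of gammas -/

section gammas

variable (G : GammaNine)

/-- `γ_l` through a product of other gammas. -/
theorem gp_comm (l : Fin 9) (L : List (Fin 9)) (h : l ∉ L) :
    G.γ l * (L.map G.γ).prod = (-1 : ℝ) ^ L.length • ((L.map G.γ).prod * G.γ l) := by
  induction L with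
  | nil => simp
  | cons k L ih =>
    rw [List.mem_cons, not_or] at h
    rw [List.map_cons, List.prod_cons, List.length_cons, ← mul_assoc,
      Gam962.anti G (show l ≠ k from h.1), neg_mul, mul_assoc, ih h.2, mul_smul_comm, pow_succ,
      mul_neg_one, neg_smul, ← mul_assoc]

/-- **Odd products are traceless.** -/
theorem gp_trace (L : List (Fin 9)) (hodd : Odd L.length) (l : Fin 9) (h : l ∉ L) :
    (L.map G.γ).prod.trace = 0 := by
  have h1 : (L.map G.γ).prod.trace = (G.γ l * (L.map G.γ).prod * G.γ l).trace := by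
    rw [Matrix.trace_mul_comm, ← mul_assoc, Gam962.sq_one, one_mul]
  have h2 : G.γ l * (L.map G.γ).prod * G.γ l = -(L.map G.γ).prod := by
    rw [gp_comm G l L h, hodd.neg_one_pow, neg_smul, one_smul, neg_mul, mul_assoc,
      Gam962.sq_one, mul_one]
  rw [h2, Matrix.trace_neg] at h1
  linarith

/-- Complexified gamma. -/
def gC (i : Fin 9) : Matrix (Fin 16) (Fin 16) ℂ := (G.γ i).map (fun t : ℝ => (t : ℂ))

theorem gC_prod (L : List (Fin 9)) :
    (L.map (gC G)).prod = ((L.map G.γ).prod).map (fun t : ℝ => (t : ℂ)) := by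
  induction L with
  | nil =>
    ext i j
    simp only [List.map_nil, List.prod_nil, Matrix.map_apply, Matrix.one_apply]
    split_ifs <;> simp
  | cons k L ih =>
    rw [List.map_cons, List.prod_cons, ih, List.map_cons, List.prod_cons]
    ext i j
    simp only [gC, Matrix.mul_apply, Matrix.map_apply]
    push_cast
    rfl

theorem gpC_trace (L : List (Fin 9)) (hodd : Odd L.length) (l : Fin 9) (h : l ∉ L) :
    (L.map (gC G)).prod.trace = 0 := by
  rw [gC_prod]
  have h1 := gp_trace G L hodd l h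
  have h2 : (((L.map G.γ).prod).map (fun t : ℝ => (t : ℂ))).trace =
      (((L.map G.γ).prod.trace : ℝ) : ℂ) := by
    simp only [Matrix.trace, Matrix.diag_apply, Matrix.map_apply]
    push_cast
    rfl
  rw [h2, h1, Complex.ofReal_zero]

end gammas

/-! ### Traces of pair operators -/

section pairs

variable {N : ℕ} {ι : Type*} [Fintype ι] {S : Type*} [Fintype S]

/-- **A pair operator with traceless blocks is traceless.** -/
theorem pair_trace (T : ι → Matrix (Fin N) (Fin N) ℂ) (c : Fin N → Fin N → Matrix S S ℂ)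
    (h : ∀ a d, (c a d).trace = 0) :
    ∑ α : S, ∑ A : ι, ∑ a, ∑ d, T A d a * (c a d α α * T A a d) = 0 := by
  rw [Finset.sum_comm]
  refine Finset.sum_eq_zero fun A _ => ?_
  rw [Finset.sum_comm]
  refine Finset.sum_eq_zero fun a _ => ?_
  rw [Finset.sum_comm]
  refine Finset.sum_eq_zero fun d _ => ?_
  have h1 : ∑ α : S, T A d a * (c a d α α * T A a d) = T A d a * ((c a d).trace * T A a d) := by
    rw [← Finset.mul_sum, ← Finset.sum_mul]
    rfl
  rw [h1, h, zero_mul, mul_zero]

end pairs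

/-! ### The derivative of a product of two quarter turns -/

section berry

variable {I : Type*} [Fintype I] [DecidableEq I] {F : Type*} [NormedAddCommGroup F]
  [InnerProductSpace ℂ F] [CompleteSpace F] {θ : I → (F →L[ℂ] F)}

/-- Data of a path of skew real matrices of square `-Π` at the time `t`. -/
structure Path (Q : ℝ → Matrix I I ℂ) (P : Matrix I I ℂ) (t : ℝ) : Prop where
  deriv : ∀ p q, HasDerivAt (fun s => Q s p q) (P p q) t
  skew : (Q t)ᵀ = -Q t
  skew' : Pᵀ = -P
  cube : Q t * Q t * Q t = -Q t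
  anti : P * Q t = -(Q t * P)
  left : Q t * Q t * P = -P
  real : IsReal (Q t)

/-- Derivative of `W(P) W(Q)`. -/
theorem hasDerivAt_WW (h : CF θ) {P Q : ℝ → Matrix I I ℂ} {P' Q' : Matrix I I ℂ} {t : ℝ}
    (hP : Path P P' t) (hQ : Path Q Q' t) :
    HasDerivAt (fun s => W θ (P s) * W θ (Q s))
      (W θ (P t) * spin θ (P' * P t) * W θ (Q t) +
        W θ (P t) * (W θ (Q t) * spin θ (Q' * Q t))) t :=
  (h.hasDerivAt_W hP.deriv hP.skew hP.skew' hP.cube hP.anti hP.left).mul
    (h.hasDerivAt_W hQ.deriv hQ.skew hQ.skew' hQ.cube hQ.anti hQ.left)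

theorem inner_W (h : CF θ) {Q : Matrix I I ℂ} (hQ : Qᵀ = -Q) (hr : IsReal Q) (u v : F) :
    ⟪W θ Q u, W θ Q v⟫_ℂ = ⟪u, v⟫_ℂ := by
  have h1 := (h.W_unitary hQ hr).1
  have h2 : ⟪W θ Q u, W θ Q v⟫_ℂ = ⟪u, (star (W θ Q) * W θ Q) v⟫_ℂ := by
    rw [ContinuousLinearMap.star_eq_adjoint]
    exact (ContinuousLinearMap.adjoint_inner_right (W θ Q) u (W θ Q v)).symm
  rw [h2, h1]
  rfl

/-- **No Berry connection.** -/
theorem berry (h : CF θ) {P Q : ℝ → Matrix I I ℂ} {P' Q' J : Matrix I I ℂ} {t : ℝ}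
    (hP : Path P P' t) (hQ : Path Q Q' t) (hJ : Jᵀ = -J) (hJr : IsReal J)
    (hQl : J * J * (Q' * Q t) = -(Q' * Q t)) (hQr : Q' * Q t * (J * J) = -(Q' * Q t))
    (hPl : rt (Q t) * (J * J) * rt (-Q t) * (P' * P t) = -(P' * P t))
    (hPr : P' * P t * (rt (Q t) * (J * J) * rt (-Q t)) = -(P' * P t))
    (htQ : (Q' * Q t * J).trace = 0)
    (htP : (P' * P t * (rt (Q t) * J * rt (-Q t))).trace = 0)
    {f f' : F} (hf : PVac θ J f) (hf' : PVac θ J f') :
    ⟪W θ (P t) (W θ (Q t) f'), (W θ (P t) * spin θ (P' * P t) * W θ (Q t) +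
        W θ (P t) * (W θ (Q t) * spin θ (Q' * Q t))) f⟫_ℂ = 0 := by
  have skewPQ : ∀ {Q : ℝ → Matrix I I ℂ} {P : Matrix I I ℂ}, Path Q P t →
      (P * Q t)ᵀ = -(P * Q t) := by
    intro Q P hp
    rw [Matrix.transpose_mul, hp.skew, hp.skew', neg_mul_neg, hp.anti, neg_neg]
  have hrt : (rt (Q t))ᵀ = rt (-Q t) := by
    unfold rt
    rw [Matrix.transpose_add, Matrix.transpose_add, Matrix.transpose_mul, hQ.skew,
      Matrix.transpose_one]
  have hR : rt (-Q t) * rt (Q t) = 1 := rt_neg_mul_rt hQ.cube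
  set J₁ : Matrix I I ℂ := rt (Q t) * J * rt (-Q t) with hJ₁
  have hrt' : (rt (-Q t))ᵀ = rt (Q t) := by rw [← hrt, Matrix.transpose_transpose]
  have hJ₁T : J₁ᵀ = -J₁ := by
    rw [hJ₁, Matrix.transpose_mul, Matrix.transpose_mul, hrt, hrt', hJ]
    noncomm_ring
  have hnr : IsReal (-Q t) := hQ.real.neg
  have hJ₁r : IsReal J₁ := (hQ.real.rt.mul hJr).mul hnr.rt
  have hJJ : J₁ * J₁ = rt (Q t) * (J * J) * rt (-Q t) := by
    calc J₁ * J₁ = rt (Q t) * J * (rt (-Q t) * rt (Q t)) * J * rt (-Q t) := by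
          rw [hJ₁]; noncomm_ring
      _ = rt (Q t) * (J * J) * rt (-Q t) := by rw [hR]; noncomm_ring
  have v1 : PVac θ J₁ (W θ (Q t) f) := hf.map (fun q => h.W_theta hQ.skew hQ.cube q) hR
  have v1' : PVac θ J₁ (W θ (Q t) f') := hf'.map (fun q => h.W_theta hQ.skew hQ.cube q) hR
  have e1 : ⟪W θ (P t) (W θ (Q t) f'), W θ (P t) (spin θ (P' * P t) (W θ (Q t) f))⟫_ℂ = 0 := by
    rw [inner_W h hP.skew hP.real, PVac.inner_spin h v1 v1' hJ₁T hJ₁r (skewPQ hP)
      (by rw [hJJ]; exact hPl) (by rw [hJJ]; exact hPr), htP]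
    ring
  have e2 : ⟪W θ (P t) (W θ (Q t) f'), W θ (P t) (W θ (Q t) (spin θ (Q' * Q t) f))⟫_ℂ = 0 := by
    rw [inner_W h hP.skew hP.real, inner_W h hQ.skew hQ.real,
      PVac.inner_spin h hf hf' hJ hJr (skewPQ hQ) hQl hQr, htQ]
    ring
  have e3 : (W θ (P t) * spin θ (P' * P t) * W θ (Q t) +
      W θ (P t) * (W θ (Q t) * spin θ (Q' * Q t))) f =
      W θ (P t) (spin θ (P' * P t) (W θ (Q t) f)) +
        W θ (P t) (W θ (Q t) (spin θ (Q' * Q t) f)) := rfl
  rw [e3, inner_add_right, e1, e2, add_zero]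

end berry

end Crest.Agent.R330.VacF383

end
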