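import Mathlib

/-!
# Row 330 (helper255): spin lifts of rotations on a Clifford family, polarised vacua

`θ : I → (F →L[ℂ] F)` with `{θ_p, θ_q} = δ_pq`, `θ_p` symmetric.

* `lc θ A q = Σ_p A_pq θ_p`, `spin θ a = (1/2) Σ a_pq θ_p θ_q`.
* `spin_lc` : `[spin a, lc A q] = lc (a A) q` (`a` antisymmetric).
* `rotE_lc` : `exp (t spin Q) θ_q = lc (1 + (1 - cos t) Q² + sin t Q) q exp (t spin Q)` if `Q³ = -Q`.
* `W θ Q = exp ((π/2) spin Q)`, `W_lc` with `rt Q = 1 + Q² + Q`.
* `Vac θ J Ω` : `Σ_p J_pq θ_p Ω = i θ_q Ω`; transport `Vac.map`, two point function, energy.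
* `conj_spin`, `conj_W` : covariance under symmetries of the family.
* `hasDerivAt_exp_comm`, `hasDerivAt_W` : derivative of `W` along a family with constant `Q²`.
-/

set_option autoImplicit false
set_option linter.unusedSectionVars false

noncomputable section

open scoped InnerProductSpace Matrix

namespace Crest.Agent.R330.VacSec255

variable {I : Type*} [Fintype I] [DecidableEq I] {F : Type*} [NormedAddCommGroup F]
  [InnerProductSpace ℂ F] [CompleteSpace F]

/-- A Clifford family. -/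
structure CF (θ : I → (F →L[ℂ] F)) : Prop where
  anti : ∀ p q, θ p * θ q + θ q * θ p = if p = q then 1 else 0
  symm : ∀ p (v w : F), ⟪θ p v, w⟫_ℂ = ⟪v, θ p w⟫_ℂ

variable (θ : I → (F →L[ℂ] F))

/-- `Σ_p A_pq θ_p`. -/
def lc (A : Matrix I I ℂ) (q : I) : F →L[ℂ] F := ∑ p, A p q • θ p

/-- `(1/2) Σ a_pq θ_p θ_q`. -/
def spin (a : Matrix I I ℂ) : F →L[ℂ] F := (1 / 2 : ℂ) • ∑ p, ∑ q, a p q • (θ p * θ q)

theorem lc_one (q : I) : lc θ 1 q = θ q := by
  unfold lc
  rw [Finset.sum_eq_single q (fun p _ hp => by rw [Matrix.one_apply_ne hp, zero_smul])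
    (fun h => absurd (Finset.mem_univ q) h), Matrix.one_apply_eq, one_smul]

theorem lc_add (A B : Matrix I I ℂ) (q : I) : lc θ (A + B) q = lc θ A q + lc θ B q := by
  simp only [lc, Matrix.add_apply, add_smul, Finset.sum_add_distrib]

theorem lc_sub (A B : Matrix I I ℂ) (q : I) : lc θ (A - B) q = lc θ A q - lc θ B q := by
  simp only [lc, Matrix.sub_apply, sub_smul, Finset.sum_sub_distrib]

theorem lc_neg (A : Matrix I I ℂ) (q : I) : lc θ (-A) q = -lc θ A q := by
  simp only [lc, Matrix.neg_apply, neg_smul, Finset.sum_neg_distrib]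

theorem lc_smul (c : ℂ) (A : Matrix I I ℂ) (q : I) : lc θ (c • A) q = c • lc θ A q := by
  simp only [lc, Matrix.smul_apply, smul_eq_mul, mul_smul, Finset.smul_sum]

theorem lc_zero (q : I) : lc θ 0 q = 0 := by
  simp only [lc, Matrix.zero_apply, zero_smul, Finset.sum_const_zero]

/-- `lc (A B) q = Σ_r B_rq lc A r`. -/
theorem lc_mul (A B : Matrix I I ℂ) (q : I) : lc θ (A * B) q = ∑ r, B r q • lc θ A r := by
  simp only [lc, Matrix.mul_apply, Finset.sum_smul, Finset.smul_sum]
  rw [Finset.sum_comm]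
  refine Finset.sum_congr rfl fun r _ => Finset.sum_congr rfl fun p _ => ?_
  rw [smul_smul, mul_comm]

theorem spin_add (a b : Matrix I I ℂ) : spin θ (a + b) = spin θ a + spin θ b := by
  simp only [spin, Matrix.add_apply, add_smul, Finset.sum_add_distrib, smul_add]

theorem spin_sub (a b : Matrix I I ℂ) : spin θ (a - b) = spin θ a - spin θ b := by
  simp only [spin, Matrix.sub_apply, sub_smul, Finset.sum_sub_distrib, smul_sub]

theorem spin_smul (c : ℂ) (a : Matrix I I ℂ) : spin θ (c • a) = c • spin θ a := by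
  simp only [spin, Matrix.smul_apply, smul_eq_mul, mul_smul, Finset.smul_sum]
  refine Finset.sum_congr rfl fun p _ => Finset.sum_congr rfl fun q _ => ?_
  rw [smul_comm]

theorem spin_neg (a : Matrix I I ℂ) : spin θ (-a) = -spin θ a := by
  rw [← neg_one_smul ℂ a, spin_smul, neg_one_smul]

theorem spin_zero : spin θ (0 : Matrix I I ℂ) = 0 := by
  simp only [spin, Matrix.zero_apply, zero_smul, Finset.sum_const_zero, smul_zero]

/-- `spin` as a real linear (even complex linear) map. -/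
def spinL : Matrix I I ℂ →ₗ[ℂ] (F →L[ℂ] F) where
  toFun := spin θ
  map_add' := spin_add θ
  map_smul' := spin_smul θ

variable {θ}

theorem CF.mul_swap (h : CF θ) (p q : I) :
    θ p * θ q = (if p = q then (1 : F →L[ℂ] F) else 0) - θ q * θ p :=
  eq_sub_of_add_eq (h.anti p q)

theorem CF.triple (h : CF θ) (p r q : I) :
    θ p * θ r * θ q - θ q * (θ p * θ r) =
      (if r = q then θ p else 0) - (if q = p then θ r else 0) := by
  have h1 : θ p * θ r * θ q = θ p * (if r = q then (1 : F →L[ℂ] F) else 0) - θ p * θ q * θ r := by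
    rw [mul_assoc, h.mul_swap r q, mul_sub, mul_assoc]
  have h2 : θ q * (θ p * θ r) = (if q = p then (1 : F →L[ℂ] F) else 0) * θ r - θ p * θ q * θ r := by
    rw [← mul_assoc, h.mul_swap q p, sub_mul]
  rw [h1, h2]
  split_ifs
  all_goals simp
  all_goals abel

/-- `[spin a, θ_q] = Σ_p a_pq θ_p`. -/
theorem CF.spin_theta (h : CF θ) {a : Matrix I I ℂ} (ha : aᵀ = -a) (q : I) :
    spin θ a * θ q - θ q * spin θ a = lc θ a q := by
  have hs : ∀ p r, a p r = -a r p := fun p r => by
    have := congrFun (congrFun ha r) p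
    rw [Matrix.transpose_apply, Matrix.neg_apply] at this
    exact this
  have h1 : spin θ a * θ q - θ q * spin θ a =
      (1 / 2 : ℂ) • ∑ p, ∑ r, a p r • (θ p * θ r * θ q - θ q * (θ p * θ r)) := by
    unfold spin
    simp only [smul_mul_assoc, mul_smul_comm, Finset.sum_mul, Finset.mul_sum, smul_sub,
      Finset.sum_sub_distrib]
  rw [h1]
  simp only [h.triple, smul_sub, Finset.sum_sub_distrib, smul_ite, smul_zero,
    Finset.sum_ite_eq', Finset.mem_univ, if_true]
  have h2 : ∑ p, ∑ r, (if q = p then a p r • θ r else 0) = ∑ r, a q r • θ r := by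
    rw [Finset.sum_comm]
    refine Finset.sum_congr rfl fun r _ => ?_
    rw [Finset.sum_ite_eq]
    simp
  rw [h2]
  have h3 : ∑ r, a q r • θ r = -∑ p, a p q • θ p := by
    rw [← Finset.sum_neg_distrib]
    refine Finset.sum_congr rfl fun r _ => ?_
    rw [hs q r, neg_smul]
  rw [h3]
  change (1 / 2 : ℂ) • lc θ a q - (1 / 2 : ℂ) • -lc θ a q = lc θ a q
  module

/-- `[spin a, lc A q] = lc (a A) q`. -/
theorem CF.spin_lc (h : CF θ) {a : Matrix I I ℂ} (ha : aᵀ = -a) (A : Matrix I I ℂ) (q : I) :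
    spin θ a * lc θ A q - lc θ A q * spin θ a = lc θ (a * A) q := by
  rw [lc_mul]
  unfold lc
  rw [Finset.mul_sum, Finset.sum_mul, ← Finset.sum_sub_distrib]
  refine Finset.sum_congr rfl fun p _ => ?_
  rw [mul_smul_comm, smul_mul_assoc, ← smul_sub, h.spin_theta ha p]
  rfl

/-! ### The rotation lifted -/

/-- `1 + (1 - cos t) Q² + sin t Q`. -/
def rot (Q : Matrix I I ℂ) (t : ℂ) : Matrix I I ℂ :=
  1 + (1 - Complex.cos t) • (Q * Q) + Complex.sin t • Q

theorem rot_zero (Q : Matrix I I ℂ) : rot Q 0 = 1 := by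
  simp [rot]

/-- **The lift of a rotation.** -/
theorem CF.exp_lc (h : CF θ) {Q : Matrix I I ℂ} (hQ : Qᵀ = -Q) (hQ3 : Q * Q * Q = -Q) (q : I)
    (t : ℂ) :
    lc θ (rot Q t) q * NormedSpace.exp (t • spin θ Q) =
      NormedSpace.exp (t • spin θ Q) * θ q := by
  set B := spin θ Q with hB
  set f : ℂ → (F →L[ℂ] F) := fun t =>
    NormedSpace.exp ((-t) • B) * lc θ (rot Q t) q * NormedSpace.exp (t • B) with hf
  have hL : ∀ t : ℂ, HasDerivAt (fun t => lc θ (rot Q t) q) (lc θ (Q * rot Q t) q) t := by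
    intro t
    have e1 : (fun t => lc θ (rot Q t) q) = fun t : ℂ =>
        θ q + (1 - Complex.cos t) • lc θ (Q * Q) q + Complex.sin t • lc θ Q q := by
      funext s
      rw [rot, lc_add, lc_add, lc_one, lc_smul, lc_smul]
    have e2 : lc θ (Q * rot Q t) q =
        Complex.sin t • lc θ (Q * Q) q + Complex.cos t • lc θ Q q := by
      have : Q * rot Q t = Complex.sin t • (Q * Q) + Complex.cos t • Q := by
        rw [rot, mul_add, mul_add, mul_one, mul_smul_comm, mul_smul_comm, ← mul_assoc, hQ3]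
        module
      rw [this, lc_add, lc_smul, lc_smul]
    rw [e1, e2]
    have h1 : HasDerivAt (fun t : ℂ => (1 - Complex.cos t) • lc θ (Q * Q) q)
        ((-(-Complex.sin t)) • lc θ (Q * Q) q) t :=
      ((Complex.hasDerivAt_cos t).const_sub 1).smul_const _
    have h2 : HasDerivAt (fun t : ℂ => Complex.sin t • lc θ Q q)
        (Complex.cos t • lc θ Q q) t := (Complex.hasDerivAt_sin t).smul_const _
    have h3 := ((h1.const_add (θ q)).add h2)
    rw [neg_neg] at h3
    exact h3
  have hE1 : ∀ t : ℂ, HasDerivAt (fun t : ℂ => NormedSpace.exp (t • B))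
      (B * NormedSpace.exp (t • B)) t := fun t => hasDerivAt_exp_smul_const' B t
  have hE2 : ∀ t : ℂ, HasDerivAt (fun t : ℂ => NormedSpace.exp ((-t) • B))
      (-(NormedSpace.exp ((-t) • B) * B)) t := by
    intro t
    have h1 := (hasDerivAt_exp_smul_const B (-t)).scomp t (hasDerivAt_neg t)
    rw [neg_one_smul] at h1
    exact h1
  have hd : ∀ t : ℂ, HasDerivAt f 0 t := by
    intro t
    have h1 := ((hE2 t).mul (hL t)).mul (hE1 t)
    have h2 : (-(NormedSpace.exp ((-t) • B) * B) * lc θ (rot Q t) q +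
        NormedSpace.exp ((-t) • B) * lc θ (Q * rot Q t) q) * NormedSpace.exp (t • B) +
        NormedSpace.exp ((-t) • B) * lc θ (rot Q t) q * (B * NormedSpace.exp (t • B)) = 0 := by
      rw [← h.spin_lc hQ (rot Q t) q]
      simp only [← hB]
      noncomm_ring
    exact h1.congr_deriv h2
  have hc : ∀ t : ℂ, f t = f 0 := fun t =>
    is_const_of_deriv_eq_zero (fun s => (hd s).differentiableAt) (fun s => (hd s).deriv) t 0
  have h0 : f 0 = θ q := by
    simp only [hf, neg_zero, zero_smul, NormedSpace.exp_zero, rot_zero, lc_one, one_mul, mul_one]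
  have h1 := hc t
  rw [h0] at h1
  have h2 : NormedSpace.exp (t • B) * NormedSpace.exp ((-t) • B) = (1 : F →L[ℂ] F) := by
    let _ : NormedAlgebra ℚ (F →L[ℂ] F) := NormedAlgebra.restrictScalars ℚ ℂ (F →L[ℂ] F)
    rw [← NormedSpace.exp_add_of_commute, ← add_smul, add_neg_cancel, zero_smul,
      NormedSpace.exp_zero]
    exact ((Commute.refl B).smul_left t).smul_right (-t)
  calc lc θ (rot Q t) q * NormedSpace.exp (t • B)
      = (NormedSpace.exp (t • B) * NormedSpace.exp ((-t) • B)) * lc θ (rot Q t) q *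
        NormedSpace.exp (t • B) := by rw [h2, one_mul]
    _ = NormedSpace.exp (t • B) * f t := by simp only [hf]; noncomm_ring
    _ = NormedSpace.exp (t • B) * θ q := by rw [h1]

/-! ### The quarter turn -/

/-- `W = exp ((π/2) spin Q)`. -/
def W (θ : I → (F →L[ℂ] F)) (Q : Matrix I I ℂ) : F →L[ℂ] F :=
  NormedSpace.exp (((Real.pi / 2 : ℝ) : ℂ) • spin θ Q)

/-- The quarter turn `1 + Q² + Q`. -/
def rt (Q : Matrix I I ℂ) : Matrix I I ℂ := 1 + Q * Q + Q

theorem rot_pi (Q : Matrix I I ℂ) : rot Q ((Real.pi / 2 : ℝ) : ℂ) = rt Q := by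
  rw [rot, rt, ← Complex.ofReal_cos, ← Complex.ofReal_sin, Real.cos_pi_div_two,
    Real.sin_pi_div_two]
  simp

theorem rt_mul_rt_neg {Q : Matrix I I ℂ} (hQ3 : Q * Q * Q = -Q) : rt Q * rt (-Q) = 1 := by
  have h4 : Q * Q * (Q * Q) = -(Q * Q) := by
    rw [← mul_assoc, hQ3, neg_mul]
  have h5 : Q * (Q * Q) = -Q := by rw [← mul_assoc, hQ3]
  unfold rt
  have : (1 + Q * Q + Q) * (1 + -Q * -Q + -Q) =
      1 + Q * Q + Q * Q + Q * Q * (Q * Q) - Q * Q + (Q * (Q * Q) - Q * Q * Q) := by
    noncomm_ring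
  rw [this, h4, h5, hQ3]
  abel

theorem neg_cube {Q : Matrix I I ℂ} (hQ3 : Q * Q * Q = -Q) : -Q * -Q * -Q = -(-Q) := by
  rw [neg_mul_neg, mul_neg, hQ3]

theorem rt_neg_mul_rt {Q : Matrix I I ℂ} (hQ3 : Q * Q * Q = -Q) : rt (-Q) * rt Q = 1 := by
  have := rt_mul_rt_neg (neg_cube hQ3)
  rwa [neg_neg] at this

/-- **`θ_q` through the lift.** -/
theorem CF.W_theta (h : CF θ) {Q : Matrix I I ℂ} (hQ : Qᵀ = -Q) (hQ3 : Q * Q * Q = -Q) (q : I) :
    W θ Q * θ q = lc θ (rt Q) q * W θ Q := by
  have := h.exp_lc hQ hQ3 q ((Real.pi / 2 : ℝ) : ℂ)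
  rw [rot_pi] at this
  exact this.symm

/-- General transport of `lc`. -/
theorem lc_through {E : F →L[ℂ] F} {R : Matrix I I ℂ} (hE : ∀ q, E * θ q = lc θ R q * E)
    (A : Matrix I I ℂ) (q : I) : E * lc θ A q = lc θ (R * A) q * E := by
  rw [lc_mul]
  unfold lc
  rw [Finset.mul_sum, Finset.sum_mul]
  refine Finset.sum_congr rfl fun p _ => ?_
  rw [mul_smul_comm, hE p, smul_mul_assoc]
  rfl

/-- `spin` through a symmetry. -/
theorem spin_through {E : F →L[ℂ] F} {R : Matrix I I ℂ} (hE : ∀ q, E * θ q = lc θ R q * E)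
    (a : Matrix I I ℂ) : E * spin θ a = spin θ (R * a * Rᵀ) * E := by
  have h1 : ∀ p q, E * (θ p * θ q) = lc θ R p * lc θ R q * E := fun p q => by
    rw [← mul_assoc, hE p, mul_assoc, hE q, mul_assoc]
  have h2 : ∑ p, ∑ q, a p q • (lc θ R p * lc θ R q) =
      ∑ r, ∑ s, (R * a * Rᵀ) r s • (θ r * θ s) := by
    have e1 : ∀ p q, a p q • (lc θ R p * lc θ R q) =
        ∑ r, ∑ s, (R r p * a p q * R s q) • (θ r * θ s) := fun p q => by
      unfold lc
      rw [Finset.sum_mul, Finset.smul_sum]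
      refine Finset.sum_congr rfl fun r _ => ?_
      rw [Finset.mul_sum, Finset.smul_sum]
      refine Finset.sum_congr rfl fun s _ => ?_
      rw [smul_mul_smul_comm, smul_smul]
      congr 1
      ring
    have e2 : ∀ r s, (R * a * Rᵀ) r s = ∑ p, ∑ q, R r p * a p q * R s q := fun r s => by
      rw [Matrix.mul_apply, Finset.sum_comm]
      refine Finset.sum_congr rfl fun q _ => ?_
      rw [Matrix.mul_apply, Finset.sum_mul]
      rfl
    simp only [e1, e2, Finset.sum_smul]
    calc ∑ p, ∑ q, ∑ r, ∑ s, (R r p * a p q * R s q) • (θ r * θ s)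
        = ∑ p, ∑ r, ∑ q, ∑ s, (R r p * a p q * R s q) • (θ r * θ s) := by
          refine Finset.sum_congr rfl fun p _ => Finset.sum_comm
      _ = ∑ r, ∑ p, ∑ q, ∑ s, (R r p * a p q * R s q) • (θ r * θ s) := Finset.sum_comm
      _ = ∑ r, ∑ p, ∑ s, ∑ q, (R r p * a p q * R s q) • (θ r * θ s) := by
          refine Finset.sum_congr rfl fun r _ => Finset.sum_congr rfl fun p _ => Finset.sum_comm
      _ = ∑ r, ∑ s, ∑ p, ∑ q, (R r p * a p q * R s q) • (θ r * θ s) := by
          refine Finset.sum_congr rfl fun r _ => Finset.sum_comm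
  unfold spin
  rw [mul_smul_comm, smul_mul_assoc, ← h2]
  congr 1
  rw [Finset.mul_sum, Finset.sum_mul]
  refine Finset.sum_congr rfl fun p _ => ?_
  rw [Finset.mul_sum, Finset.sum_mul]
  refine Finset.sum_congr rfl fun q _ => ?_
  rw [mul_smul_comm, h1, smul_mul_assoc]

/-- `W` through a symmetry. -/
theorem W_through {E : F →L[ℂ] F} {R : Matrix I I ℂ} (hE : ∀ q, E * θ q = lc θ R q * E)
    (Q : Matrix I I ℂ) : E * W θ Q = W θ (R * Q * Rᵀ) * E := by
  have h1 : SemiconjBy E (((Real.pi / 2 : ℝ) : ℂ) • spin θ Q)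
      (((Real.pi / 2 : ℝ) : ℂ) • spin θ (R * Q * Rᵀ)) := by
    unfold SemiconjBy
    rw [mul_smul_comm, spin_through hE, smul_mul_assoc]
  let _ : NormedAlgebra ℚ (F →L[ℂ] F) := NormedAlgebra.restrictScalars ℚ ℂ (F →L[ℂ] F)
  exact h1.exp_right

/-! ### Polarised vacua -/

/-- `Ω` is a vacuum for `J` : `Σ_p J_pq θ_p Ω = i θ_q Ω`. -/
def Vac (θ : I → (F →L[ℂ] F)) (J : Matrix I I ℂ) (Ω : F) : Prop :=
  ∀ q, lc θ J q Ω = Complex.I • θ q Ω

theorem Vac.lc {J : Matrix I I ℂ} {Ω : F} (hv : Vac θ J Ω) (A : Matrix I I ℂ) (q : I) :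
    VacSec255.lc θ (J * A) q Ω = Complex.I • VacSec255.lc θ A q Ω := by
  rw [lc_mul]
  have : VacSec255.lc θ A q Ω = ∑ p, A p q • θ p Ω := by
    unfold VacSec255.lc
    rw [_root_.sum_apply]
    rfl
  rw [this, _root_.sum_apply, Finset.smul_sum]
  refine Finset.sum_congr rfl fun p _ => ?_
  rw [_root_.smul_apply, hv p, smul_comm]

/-- Transport of vacua. -/
theorem Vac.map {J : Matrix I I ℂ} {Ω : F} (hv : Vac θ J Ω) {E : F →L[ℂ] F}
    {R R' : Matrix I I ℂ} (hE : ∀ q, E * θ q = VacSec255.lc θ R q * E) (hR : R * R' = 1) :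
    Vac θ (R * J * R') (E Ω) := by
  intro q
  have h1 : VacSec255.lc θ (R * J * R') q (E Ω) = E (VacSec255.lc θ (J * R') q Ω) := by
    have := lc_through hE (J * R') q
    rw [mul_assoc]
    exact (congrArg (fun T : F →L[ℂ] F => T Ω) this).symm
  have h2 : E (VacSec255.lc θ R' q Ω) = θ q (E Ω) := by
    have := lc_through hE R' q
    rw [hR, lc_one] at this
    exact congrArg (fun T : F →L[ℂ] F => T Ω) this
  rw [h1, hv.lc, map_smul, h2]

theorem Vac.smul {J : Matrix I I ℂ} {Ω : F} (hv : Vac θ J Ω) (c : ℂ) : Vac θ J (c • Ω) := by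
  intro q
  rw [map_smul, map_smul, hv q, smul_comm]

/-- **The energy of the vacuum**: `spin (J S) Ω = -(i/4) tr S Ω` if `S` is symmetric and `J S`
antisymmetric. -/
theorem Vac.energy (h : CF θ) {J S : Matrix I I ℂ} {Ω : F} (hv : Vac θ J Ω) (hS : Sᵀ = S)
    (hA : (J * S)ᵀ = -(J * S)) :
    spin θ (J * S) Ω = (-(Complex.I / 4) * S.trace) • Ω := by
  have hs : ∀ p r, (J * S) p r = -(J * S) r p := fun p r => by
    have := congrFun (congrFun hA r) p
    rw [Matrix.transpose_apply, Matrix.neg_apply] at this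
    exact this
  have h1 : spin θ (J * S) Ω = (1 / 2 : ℂ) • ∑ p, θ p (∑ r, (J * S) p r • θ r Ω) := by
    unfold spin
    rw [_root_.smul_apply, _root_.sum_apply]
    congr 1
    refine Finset.sum_congr rfl fun p _ => ?_
    rw [_root_.sum_apply, map_sum]
    refine Finset.sum_congr rfl fun r _ => ?_
    rw [_root_.smul_apply, map_smul]
    rfl
  have h2 : ∀ p, ∑ r, (J * S) p r • θ r Ω = -(Complex.I • ∑ r, S r p • θ r Ω) := fun p => by
    have e1 := hv.lc S p
    have e2 : ∀ A : Matrix I I ℂ, VacSec255.lc θ A p Ω = ∑ r, A r p • θ r Ω := fun A => by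
      unfold VacSec255.lc
      rw [_root_.sum_apply]
      rfl
    rw [e2, e2] at e1
    rw [← e1, ← Finset.sum_neg_distrib]
    refine Finset.sum_congr rfl fun r _ => ?_
    rw [hs p r, neg_smul]
  have h3 : ∑ p, θ p (∑ r, S r p • θ r Ω) = (1 / 2 : ℂ) • (S.trace • Ω) := by
    have hsym : ∀ p r, S p r = S r p := fun p r => by
      have := congrFun (congrFun hS r) p
      rw [Matrix.transpose_apply] at this
      exact this
    have e1 : ∑ p, θ p (∑ r, S r p • θ r Ω) = ∑ p, ∑ r, S p r • (θ p * θ r) Ω := by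
      refine Finset.sum_congr rfl fun p _ => ?_
      rw [map_sum]
      refine Finset.sum_congr rfl fun r _ => ?_
      rw [map_smul, hsym p r]
      rfl
    have e2 : (∑ p, ∑ r, S p r • (θ p * θ r) Ω) + ∑ p, ∑ r, S p r • (θ p * θ r) Ω =
        S.trace • Ω := by
      nth_rewrite 2 [Finset.sum_comm]
      rw [← Finset.sum_add_distrib, Matrix.trace, Finset.sum_smul]
      refine Finset.sum_congr rfl fun p _ => ?_
      rw [← Finset.sum_add_distrib]
      have e3 : ∀ r, S p r • (θ p * θ r) Ω + S r p • (θ r * θ p) Ω =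
          if p = r then S p r • Ω else 0 := fun r => by
        rw [hsym r p, ← smul_add, ← _root_.add_apply, h.anti p r]
        split_ifs <;> simp
      simp only [e3, Finset.sum_ite_eq, Finset.mem_univ, if_true, Matrix.diag_apply]
    rw [e1]
    rw [← e2, ← two_smul ℂ, smul_smul]
    norm_num
  rw [h1]
  simp only [h2, map_neg, map_smul, Finset.sum_neg_distrib]
  rw [← Finset.smul_sum, h3]
  module

/-! ### Derivatives -/

/-- If `X' = [Z, X]` then `(exp X)' = [Z, exp X]`. -/
theorem hasDerivAt_exp_comm {X : ℝ → (F →L[ℂ] F)} {Z : F →L[ℂ] F} {t : ℝ}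
    (hX : HasDerivAt X (Z * X t - X t * Z) t) :
    HasDerivAt (fun s => NormedSpace.exp (X s))
      (Z * NormedSpace.exp (X t) - NormedSpace.exp (X t) * Z) t := by
  let _ : NormedAlgebra ℝ (F →L[ℂ] F) := NormedAlgebra.restrictScalars ℝ ℂ (F →L[ℂ] F)
  let _ : NormedAlgebra ℚ (F →L[ℂ] F) := NormedAlgebra.restrictScalars ℚ ℂ (F →L[ℂ] F)
  have hd : DifferentiableAt ℝ (NormedSpace.exp : (F →L[ℂ] F) → (F →L[ℂ] F)) (X t) :=
    (NormedSpace.exp_analytic (𝕂 := ℝ) (X t)).differentiableAt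
  have h1 := hd.hasFDerivAt.comp_hasDerivAt t hX
  -- the conjugated curve
  set Y : ℝ → (F →L[ℂ] F) := fun s =>
    NormedSpace.exp (s • Z) * X t * NormedSpace.exp ((-s) • Z) with hY
  have hE1 : ∀ A : F →L[ℂ] F, ∀ s : ℝ, HasDerivAt (fun s : ℝ => NormedSpace.exp (s • A))
      (A * NormedSpace.exp (s • A)) s := fun A s => hasDerivAt_exp_smul_const' A s
  have hE2 : HasDerivAt (fun s : ℝ => NormedSpace.exp ((-s) • Z)) (-Z) 0 := by
    have h2 := (hE1 Z (-0)).scomp (0 : ℝ) (hasDerivAt_neg (0 : ℝ))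
    have h3 : HasDerivAt (fun s : ℝ => NormedSpace.exp ((-s) • Z))
        ((-1 : ℝ) • (Z * NormedSpace.exp ((-0 : ℝ) • Z))) 0 := h2
    refine h3.congr_deriv ?_
    simp
  have hE3 : HasDerivAt (fun s : ℝ => NormedSpace.exp (s • Z)) Z 0 := by
    simpa using hE1 Z 0
  have hYd : HasDerivAt Y (Z * X t - X t * Z) 0 := by
    have h2 := (hE3.mul_const (X t)).mul hE2
    refine h2.congr_deriv ?_
    simp [sub_eq_add_neg]
  have hY0 : Y 0 = X t := by simp [hY]
  have hcomp : HasDerivAt (fun s => NormedSpace.exp (Y s))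
      (fderiv ℝ NormedSpace.exp (X t) (Z * X t - X t * Z)) 0 := by
    have h2 : HasFDerivAt (NormedSpace.exp : (F →L[ℂ] F) → (F →L[ℂ] F))
        (fderiv ℝ NormedSpace.exp (X t)) (Y 0) := by
      rw [hY0]
      exact hd.hasFDerivAt
    exact h2.comp_hasDerivAt 0 hYd
  have hinv : ∀ s : ℝ, NormedSpace.exp (s • Z) * NormedSpace.exp ((-s) • Z) =
      (1 : F →L[ℂ] F) := fun s => by
    rw [← NormedSpace.exp_add_of_commute, ← add_smul, add_neg_cancel, zero_smul,
      NormedSpace.exp_zero]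
    exact ((Commute.refl Z).smul_left s).smul_right (-s)
  have hinv' : ∀ s : ℝ, NormedSpace.exp ((-s) • Z) * NormedSpace.exp (s • Z) =
      (1 : F →L[ℂ] F) := fun s => by
    have := hinv (-s)
    rwa [neg_neg] at this
  have hexpY : ∀ s, NormedSpace.exp (Y s) =
      NormedSpace.exp (s • Z) * NormedSpace.exp (X t) * NormedSpace.exp ((-s) • Z) := by
    intro s
    have hs : SemiconjBy (NormedSpace.exp (s • Z)) (X t) (Y s) := by
      unfold SemiconjBy
      simp only [hY]
      rw [mul_assoc, mul_assoc, hinv', mul_one]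
    have h3 := hs.exp_right
    unfold SemiconjBy at h3
    rw [h3, mul_assoc, hinv, mul_one]
  have h4 : HasDerivAt (fun s => NormedSpace.exp (Y s))
      (Z * NormedSpace.exp (X t) - NormedSpace.exp (X t) * Z) 0 := by
    have h5 := (hE3.mul_const (NormedSpace.exp (X t))).mul hE2
    have h6 : (fun s => NormedSpace.exp (Y s)) = (fun s : ℝ =>
        NormedSpace.exp (s • Z) * NormedSpace.exp (X t)) * fun s : ℝ =>
        NormedSpace.exp ((-s) • Z) := by
      funext s
      rw [hexpY s]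
      rfl
    rw [h6]
    refine h5.congr_deriv ?_
    simp [sub_eq_add_neg]
  have h7 := hcomp.unique h4
  rw [h7] at h1
  exact h1

/-- `[spin a, spin b] = spin [a, b]` for antisymmetric `a`. -/
theorem CF.spin_spin (h : CF θ) {a : Matrix I I ℂ} (ha : aᵀ = -a) (b : Matrix I I ℂ) :
    spin θ a * spin θ b - spin θ b * spin θ a = spin θ (a * b - b * a) := by
  have h1 : ∀ p r, spin θ a * (θ p * θ r) - θ p * θ r * spin θ a =
      lc θ a p * θ r + θ p * lc θ a r := fun p r => by
    have e1 : spin θ a * θ p = lc θ a p + θ p * spin θ a :=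
      sub_eq_iff_eq_add.1 (h.spin_theta ha p)
    have e2 : spin θ a * θ r = lc θ a r + θ r * spin θ a :=
      sub_eq_iff_eq_add.1 (h.spin_theta ha r)
    rw [← mul_assoc, e1, add_mul, mul_assoc (θ p), e2]
    noncomm_ring
  have h2 : spin θ a * spin θ b - spin θ b * spin θ a =
      (1 / 2 : ℂ) • ∑ p, ∑ r, b p r • (lc θ a p * θ r + θ p * lc θ a r) := by
    simp only [← h1]
    generalize spin θ a = S
    unfold spin
    simp only [smul_mul_assoc, mul_smul_comm, Finset.sum_mul, Finset.mul_sum, smul_sub,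
      Finset.sum_sub_distrib]
  have h3 : ∑ p, ∑ r, b p r • (lc θ a p * θ r) = ∑ s, ∑ r, (a * b) s r • (θ s * θ r) := by
    have e : ∀ p r, b p r • (lc θ a p * θ r) = ∑ s, (a s p * b p r) • (θ s * θ r) :=
      fun p r => by
        unfold lc
        rw [Finset.sum_mul, Finset.smul_sum]
        refine Finset.sum_congr rfl fun s _ => ?_
        rw [smul_mul_assoc, smul_smul, mul_comm]
    simp only [e, Matrix.mul_apply, Finset.sum_smul]
    calc ∑ p, ∑ r, ∑ s, (a s p * b p r) • (θ s * θ r)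
        = ∑ p, ∑ s, ∑ r, (a s p * b p r) • (θ s * θ r) := by
          refine Finset.sum_congr rfl fun p _ => Finset.sum_comm
      _ = ∑ s, ∑ p, ∑ r, (a s p * b p r) • (θ s * θ r) := Finset.sum_comm
      _ = ∑ s, ∑ r, ∑ p, (a s p * b p r) • (θ s * θ r) := by
          refine Finset.sum_congr rfl fun p _ => Finset.sum_comm
  have hs : ∀ p r, a p r = -a r p := fun p r => by
    have := congrFun (congrFun ha r) p
    rw [Matrix.transpose_apply, Matrix.neg_apply] at this
    exact this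
  have h4 : ∑ p, ∑ r, b p r • (θ p * lc θ a r) = -∑ s, ∑ r, (b * a) s r • (θ s * θ r) := by
    have e : ∀ p r, b p r • (θ p * lc θ a r) = ∑ s, (-(b p r * a r s)) • (θ p * θ s) :=
      fun p r => by
        unfold lc
        rw [Finset.mul_sum, Finset.smul_sum]
        refine Finset.sum_congr rfl fun s _ => ?_
        rw [mul_smul_comm, smul_smul, hs s r, mul_neg]
    simp only [e, Matrix.mul_apply, Finset.sum_smul, neg_smul, Finset.sum_neg_distrib]
    congr 1
    refine Finset.sum_congr rfl fun p _ => Finset.sum_comm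
  rw [h2]
  simp only [smul_add, Finset.sum_add_distrib]
  rw [h3, h4, spin_sub]
  unfold spin
  module

/-- **Derivative of the quarter turn** along a path of skew `Q` with constant `Q²`. -/
theorem CF.hasDerivAt_W (h : CF θ) {Q : ℝ → Matrix I I ℂ} {P : Matrix I I ℂ} {t : ℝ}
    (hd : ∀ p q, HasDerivAt (fun s => Q s p q) (P p q) t) (hQ : (Q t)ᵀ = -Q t) (hP : Pᵀ = -P)
    (hQ3 : Q t * Q t * Q t = -Q t) (hPQ : P * Q t = -(Q t * P)) (hQQP : Q t * Q t * P = -P) :
    HasDerivAt (fun s => W θ (Q s)) (W θ (Q t) * spin θ (P * Q t)) t := by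
  set z : Matrix I I ℂ := (1 / 2 : ℂ) • (Q t * P) with hz
  have hzT : zᵀ = -z := by
    rw [hz, Matrix.transpose_smul, Matrix.transpose_mul, hP, hQ, neg_mul_neg, hPQ, smul_neg]
  have hzQ : z * Q t - Q t * z = P := by
    have h1 : Q t * P * Q t = P := by
      rw [mul_assoc, hPQ, mul_neg, ← mul_assoc, hQQP, neg_neg]
    have h2 : Q t * (Q t * P) = -P := by rw [← mul_assoc, hQQP]
    rw [hz, smul_mul_assoc, mul_smul_comm, h1, h2]
    module
  have hX : HasDerivAt (fun s => ((Real.pi / 2 : ℝ) : ℂ) • spin θ (Q s))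
      (spin θ z * (((Real.pi / 2 : ℝ) : ℂ) • spin θ (Q t)) -
        (((Real.pi / 2 : ℝ) : ℂ) • spin θ (Q t)) * spin θ z) t := by
    have e1 : spin θ z * (((Real.pi / 2 : ℝ) : ℂ) • spin θ (Q t)) -
        (((Real.pi / 2 : ℝ) : ℂ) • spin θ (Q t)) * spin θ z =
        ((Real.pi / 2 : ℝ) : ℂ) • spin θ P := by
      rw [mul_smul_comm, smul_mul_assoc, ← smul_sub, h.spin_spin hzT, hzQ]
    rw [e1]
    have e3 : HasDerivAt (fun s => ∑ p, ∑ q, Q s p q • (θ p * θ q))
        (∑ p, ∑ q, P p q • (θ p * θ q)) t :=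
      HasDerivAt.fun_sum fun p _ => HasDerivAt.fun_sum fun q _ => (hd p q).smul_const _
    have e2 : HasDerivAt (fun s => spin θ (Q s)) (spin θ P) t := e3.const_smul (1 / 2 : ℂ)
    exact e2.const_smul ((Real.pi / 2 : ℝ) : ℂ)
  have h1 := hasDerivAt_exp_comm hX
  have hR : rt (-Q t) * rt (Q t) = 1 := rt_neg_mul_rt hQ3
  have hR' : rt (Q t) * rt (-Q t) = 1 := rt_mul_rt_neg hQ3
  have hRT : (rt (Q t))ᵀ = rt (-Q t) := by
    unfold rt
    rw [Matrix.transpose_add, Matrix.transpose_add, Matrix.transpose_one, Matrix.transpose_mul,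
      hQ]
  have h2 : spin θ z * W θ (Q t) = W θ (Q t) * spin θ (rt (-Q t) * z * rt (Q t)) := by
    have h3 := spin_through (h.W_theta hQ hQ3) (rt (-Q t) * z * rt (Q t))
    rw [hRT] at h3
    rw [h3]
    congr 2
    calc z = (rt (Q t) * rt (-Q t)) * z * (rt (Q t) * rt (-Q t)) := by
          rw [hR', one_mul, mul_one]
      _ = _ := by noncomm_ring
  have h4 : rt (-Q t) * z * rt (Q t) - z = P * Q t := by
    have e1 : Q t * Q t * z = -z := by
      rw [hz, mul_smul_comm, ← mul_assoc, hQ3, neg_mul, smul_neg]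
    have e2 : z * (Q t * Q t) = -z := by
      have : Q t * P * (Q t * Q t) = -(Q t * P) := by
        calc Q t * P * (Q t * Q t) = Q t * (P * Q t) * Q t := by noncomm_ring
          _ = Q t * (-(Q t * P)) * Q t := by rw [hPQ]
          _ = -(Q t * Q t * (P * Q t)) := by noncomm_ring
          _ = -(Q t * Q t * (-(Q t * P))) := by rw [hPQ]
          _ = Q t * Q t * Q t * P := by noncomm_ring
          _ = -(Q t * P) := by rw [hQ3, neg_mul]
      rw [hz, smul_mul_assoc, this, smul_neg]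
    have e3 : rt (-Q t) * z = -(Q t * z) := by
      unfold rt
      rw [neg_mul_neg, add_mul, add_mul, one_mul, e1, add_neg_cancel, zero_add, neg_mul]
    have e4 : z * rt (Q t) = z * Q t := by
      unfold rt
      rw [mul_add, mul_add, mul_one, e2, add_neg_cancel, zero_add]
    rw [e3, neg_mul, mul_assoc, e4]
    have e5 : Q t * (z * Q t) = (1 / 2 : ℂ) • (-(P * Q t)) := by
      rw [hz, smul_mul_assoc, mul_smul_comm]
      congr 1
      calc Q t * (Q t * P * Q t) = Q t * Q t * P * Q t := by noncomm_ring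
        _ = -(P * Q t) := by rw [hQQP, neg_mul]
    rw [e5, hz]
    have e6 : Q t * P = -(P * Q t) := by rw [hPQ, neg_neg]
    rw [e6]
    module
  have h5 : spin θ z * W θ (Q t) - W θ (Q t) * spin θ z = W θ (Q t) * spin θ (P * Q t) := by
    rw [h2, ← mul_sub, ← spin_sub, h4]
  exact h1.congr_deriv h5

/-! ### Unitarity -/

/-- A matrix with real entries. -/
def IsReal (a : Matrix I I ℂ) : Prop := ∀ p q, (starRingEnd ℂ) (a p q) = a p q

theorem IsReal.mul {a b : Matrix I I ℂ} (ha : IsReal a) (hb : IsReal b) : IsReal (a * b) := by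
  intro p q
  rw [Matrix.mul_apply, map_sum]
  refine Finset.sum_congr rfl fun r _ => ?_
  rw [map_mul, ha, hb]

theorem IsReal.add {a b : Matrix I I ℂ} (ha : IsReal a) (hb : IsReal b) : IsReal (a + b) := by
  intro p q
  rw [Matrix.add_apply, map_add, ha, hb]

theorem IsReal.neg {a : Matrix I I ℂ} (ha : IsReal a) : IsReal (-a) := by
  intro p q
  rw [Matrix.neg_apply, map_neg, ha]

theorem isReal_one : IsReal (1 : Matrix I I ℂ) := by
  intro p q
  rw [Matrix.one_apply]
  split_ifs <;> simp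

theorem IsReal.rt {Q : Matrix I I ℂ} (hQ : IsReal Q) : IsReal (VacSec255.rt Q) :=
  (isReal_one.add (hQ.mul hQ)).add hQ

theorem CF.star_theta (h : CF θ) (p : I) : star (θ p) = θ p := by
  rw [ContinuousLinearMap.star_eq_adjoint]
  refine (ContinuousLinearMap.eq_adjoint_iff (θ p) (θ p)).2 ?_ |>.symm
  intro x y
  exact h.symm p x y

theorem CF.star_spin (h : CF θ) {a : Matrix I I ℂ} (ha : aᵀ = -a) (hr : IsReal a) :
    star (spin θ a) = -spin θ a := by
  have hs : ∀ p r, a p r = -a r p := fun p r => by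
    have := congrFun (congrFun ha r) p
    rw [Matrix.transpose_apply, Matrix.neg_apply] at this
    exact this
  unfold spin
  rw [star_smul, star_sum]
  have h1 : ∑ p, star (∑ q, a p q • (θ p * θ q)) = -∑ p, ∑ q, a p q • (θ p * θ q) := by
    calc ∑ p, star (∑ q, a p q • (θ p * θ q)) = ∑ p, ∑ q, a p q • (θ q * θ p) := by
          refine Finset.sum_congr rfl fun p _ => ?_
          rw [star_sum]
          refine Finset.sum_congr rfl fun q _ => ?_
          rw [star_smul, star_mul, h.star_theta, h.star_theta, ← starRingEnd_apply, hr p q]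
      _ = ∑ q, ∑ p, a p q • (θ q * θ p) := Finset.sum_comm
      _ = -∑ p, ∑ q, a p q • (θ p * θ q) := by
          rw [← Finset.sum_neg_distrib]
          refine Finset.sum_congr rfl fun p _ => ?_
          rw [← Finset.sum_neg_distrib]
          refine Finset.sum_congr rfl fun q _ => ?_
          rw [hs q p, neg_smul]
  rw [h1, smul_neg]
  congr 2
  rw [← starRingEnd_apply, map_div₀, map_one, map_ofNat]

theorem CF.W_unitary (h : CF θ) {Q : Matrix I I ℂ} (hQ : Qᵀ = -Q) (hr : IsReal Q) :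
    W θ Q ∈ unitary (F →L[ℂ] F) := by
  let _ : NormedAlgebra ℚ (F →L[ℂ] F) := NormedAlgebra.restrictScalars ℚ ℂ (F →L[ℂ] F)
  refine NormedSpace.exp_mem_unitary_of_mem_skewAdjoint ?_
  rw [skewAdjoint.mem_iff, star_smul, h.star_spin hQ hr, smul_neg, ← starRingEnd_apply,
    Complex.conj_ofReal]

/-! ### Partial vacua -/

/-- `f` is a vacuum for `J` on the range of `J` : `θ(J² u) f = i θ(J u) f`. -/
def PVac (θ : I → (F →L[ℂ] F)) (J : Matrix I I ℂ) (f : F) : Prop :=
  ∀ q, lc θ (J * J) q f = Complex.I • lc θ J q f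

theorem lc_apply (A : Matrix I I ℂ) (q : I) (f : F) : lc θ A q f = ∑ p, A p q • θ p f := by
  unfold lc
  rw [_root_.sum_apply]
  rfl

theorem lc_mul_apply (A B : Matrix I I ℂ) (q : I) (f : F) :
    lc θ (A * B) q f = ∑ r, B r q • lc θ A r f := by
  rw [lc_mul, _root_.sum_apply]
  rfl

theorem PVac.lc {J : Matrix I I ℂ} {f : F} (hv : PVac θ J f) (A : Matrix I I ℂ) (q : I) :
    VacSec255.lc θ (J * J * A) q f = Complex.I • VacSec255.lc θ (J * A) q f := by
  rw [lc_mul_apply, lc_mul_apply, Finset.smul_sum]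
  refine Finset.sum_congr rfl fun r _ => ?_
  rw [hv r, smul_comm]

theorem Vac.pvac {J : Matrix I I ℂ} {f : F} (hv : Vac θ J f) (A : Matrix I I ℂ)
    (hA : J * A = A * J) (hAA : A * A = A) : PVac θ (J * A) f := by
  intro q
  have e1 : J * A * (J * A) = J * (J * A) := by
    calc J * A * (J * A) = J * (A * J) * A := by noncomm_ring
      _ = J * (J * A) * A := by rw [← hA]
      _ = J * (J * (A * A)) := by noncomm_ring
      _ = J * (J * A) := by rw [hAA]
  rw [e1, hv.lc]

theorem PVac.map {J : Matrix I I ℂ} {f : F} (hv : PVac θ J f) {E : F →L[ℂ] F}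
    {R R' : Matrix I I ℂ} (hE : ∀ q, E * θ q = VacSec255.lc θ R q * E) (hR : R' * R = 1) :
    PVac θ (R * J * R') (E f) := by
  intro q
  have e1 : R * J * R' * (R * J * R') = R * (J * J * R') := by
    calc R * J * R' * (R * J * R') = R * J * (R' * R) * J * R' := by noncomm_ring
      _ = R * (J * J * R') := by rw [hR]; noncomm_ring
  have h1 : ∀ A, VacSec255.lc θ (R * A) q (E f) = E (VacSec255.lc θ A q f) := fun A =>
    (congrArg (fun T : F →L[ℂ] F => T f) (lc_through hE A q)).symm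
  rw [e1, h1, hv.lc, map_smul, ← h1, mul_assoc]

theorem PVac.smul {J : Matrix I I ℂ} {f : F} (hv : PVac θ J f) (c : ℂ) : PVac θ J (c • f) := by
  intro q
  rw [map_smul, map_smul, hv q, smul_comm]

theorem PVac.add {J : Matrix I I ℂ} {f g : F} (hf : PVac θ J f) (hg : PVac θ J g) :
    PVac θ J (f + g) := by
  intro q
  rw [map_add, map_add, hf q, hg q, smul_add]

/-- **Expectation of a bilinear in partial vacua.** -/
theorem PVac.inner_spin (h : CF θ) {J y : Matrix I I ℂ} {f f' : F} (hf : PVac θ J f)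
    (hf' : PVac θ J f') (hJ : Jᵀ = -J) (hJr : IsReal J) (hy : yᵀ = -y)
    (hJy : J * J * y = -y) (hyJ : y * (J * J) = -y) :
    ⟪f', spin θ y f⟫_ℂ = (Complex.I / 4) * (y * J).trace * ⟪f', f⟫_ℂ := by
  set c := ⟪f', f⟫_ℂ with hc
  set G : Matrix I I ℂ := Matrix.of fun p q => ⟪f', θ p (θ q f)⟫_ℂ with hG
  have hGa : ∀ p q, G p q = ⟪f', θ p (θ q f)⟫_ℂ := fun p q => rfl
  -- symmetric part
  have g1 : G + Gᵀ = c • (1 : Matrix I I ℂ) := by
    ext p q
    rw [Matrix.add_apply, Matrix.transpose_apply, hGa, hGa, Matrix.smul_apply,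
      Matrix.one_apply, ← inner_add_right]
    have := congrArg (fun T : F →L[ℂ] F => T f) (h.anti p q)
    change θ p (θ q f) + θ q (θ p f) = _ at this
    rw [this]
    split_ifs with hpq
    · change ⟪f', f⟫_ℂ = c • (1 : ℂ)
      rw [smul_eq_mul, mul_one]
    · change ⟪f', (0 : F)⟫_ℂ = c • (0 : ℂ)
      rw [inner_zero_right, smul_zero]
  -- right action
  have g2 : ∀ B : Matrix I I ℂ, ∀ p q, (G * B) p q = ⟪f', θ p (VacSec255.lc θ B q f)⟫_ℂ := by
    intro B p q
    rw [Matrix.mul_apply, lc_apply, map_sum, inner_sum]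
    refine Finset.sum_congr rfl fun r _ => ?_
    rw [map_smul, inner_smul_right, hGa, mul_comm]
  have g3 : G * (J * J) = Complex.I • (G * J) := by
    ext p q
    rw [g2, hf q, map_smul, inner_smul_right, Matrix.smul_apply, g2, smul_eq_mul]
  -- left action
  have g4 : ∀ B : Matrix I I ℂ, IsReal B → ∀ p q,
      (Bᵀ * G) p q = ⟪VacSec255.lc θ B p f', θ q f⟫_ℂ := by
    intro B hB p q
    rw [Matrix.mul_apply, lc_apply, sum_inner]
    refine Finset.sum_congr rfl fun r _ => ?_
    rw [inner_smul_left, hB r p, Matrix.transpose_apply, hGa, h.symm]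
  have g5 : J * J * G = Complex.I • (J * G) := by
    have e1 : (J * J)ᵀ = J * J := by rw [Matrix.transpose_mul, hJ, neg_mul_neg]
    have e2 : (J * J)ᵀ * G = -(Complex.I • (Jᵀ * G)) := by
      ext p q
      rw [g4 _ (hJr.mul hJr), hf' p, inner_smul_left, Matrix.neg_apply, Matrix.smul_apply,
        g4 _ hJr, Complex.conj_I, smul_eq_mul, neg_mul]
    rw [e1, hJ, neg_mul, smul_neg, neg_neg] at e2
    exact e2
  set t := (y * G).trace with ht
  have t1 : t = -(Complex.I * (y * J * G).trace) := by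
    have e : y * G = -(Complex.I • (y * J * G)) := by
      calc y * G = -(y * (J * J)) * G := by rw [hyJ, neg_neg]
        _ = -(y * (J * J * G)) := by noncomm_ring
        _ = -(Complex.I • (y * J * G)) := by rw [g5, mul_smul_comm, mul_assoc]
    rw [ht, e, Matrix.trace_neg, Matrix.trace_smul, smul_eq_mul]
  have t2 : t = -(Complex.I * (G * J * y).trace) := by
    have e : G * y = -(Complex.I • (G * J * y)) := by
      calc G * y = -(G * (J * J * y)) := by rw [hJy, mul_neg, neg_neg]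
        _ = -((G * (J * J)) * y) := by noncomm_ring
        _ = -(Complex.I • (G * J * y)) := by rw [g3, smul_mul_assoc]
    rw [ht, Matrix.trace_mul_comm, e, Matrix.trace_neg, Matrix.trace_smul, smul_eq_mul]
  have t3 : (y * J * G).trace + (G * J * y).trace = c * (y * J).trace := by
    have e1 : (G * J * y).trace = (y * J * Gᵀ).trace := by
      rw [← Matrix.trace_transpose (G * J * y), Matrix.transpose_mul, Matrix.transpose_mul, hJ,
        hy]
      congr 1
      noncomm_ring
    rw [e1, ← Matrix.trace_add, ← mul_add, g1, mul_smul_comm, mul_one, Matrix.trace_smul,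
      smul_eq_mul]
  have t4 : t = -(Complex.I / 2) * c * (y * J).trace := by
    have : 2 * t = -(Complex.I * (c * (y * J).trace)) := by
      rw [← t3, mul_add]
      linear_combination t1 + t2
    linear_combination this / 2
  -- the expectation
  have hfin : ⟪f', spin θ y f⟫_ℂ = -(1 / 2) * t := by
    have e1 : ⟪f', spin θ y f⟫_ℂ = (1 / 2) * ∑ p, ∑ q, y p q * G p q := by
      unfold spin
      rw [_root_.smul_apply, inner_smul_right, _root_.sum_apply, inner_sum]
      congr 1
      refine Finset.sum_congr rfl fun p _ => ?_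
      rw [_root_.sum_apply, inner_sum]
      refine Finset.sum_congr rfl fun q _ => ?_
      rw [_root_.smul_apply, inner_smul_right, hGa]
      rfl
    have e2 : ∑ p, ∑ q, y p q * G p q = -t := by
      have e3 : (yᵀ * G).trace = ∑ p, ∑ q, y p q * G p q := by
        rw [Matrix.trace, Finset.sum_comm]
        refine Finset.sum_congr rfl fun q _ => ?_
        rw [Matrix.diag_apply, Matrix.mul_apply]
        rfl
      rw [← e3, hy, neg_mul, Matrix.trace_neg, ht]
    rw [e1, e2]
    ring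
  rw [hfin, t4]
  ring

end Crest.Agent.R330.VacSec255
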