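import Crest.Agent.R330.VacSec1_255
import Crest.Agent.R330.Col_962
import Crest.Agent.R330.Gam_962
import Crest.Agent.R330.Defs_478

/-!
# Row 330 (helper255): pair operators on spinor ⊗ colour

For an array `c : Fin N → Fin N → Matrix (Fin 16) (Fin 16) ℂ` (`c a d` acts on the `(a,d)` matrix
entry) `Op b c` is the matrix of `X ↦ (c a d X_ad)` in the basis `T_A`.

* `Op_mul` (if the right factor has a constant diagonal), `Op_add`, `Op_smul`, `Op_one`,
  `Op_transpose`, `Op_isReal`, `Op_trace`.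
* `adI b g` : the adjoint action on the colour index, `adI_Op : adI g * Op c = Op c' * adI g`,
  `adI_mul_transpose`.
* `th θ u = Σ_p u_p θ_p`, `lc_eq_th`, `lightVec`, `Op_mulVec_light`.
* `thC M` : the Clifford family of a `FermionRep`, `cf_thC : CF (thC M)`, `rho_thC`.
-/

set_option autoImplicit false
set_option linter.unusedSectionVars false

noncomputable section

open scoped InnerProductSpace Matrix
open Crest.MathPhysics.MatrixQM

namespace Crest.Agent.R330.VacSec255

variable {N : ℕ}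

/-- Index set: spinor index, colour index. -/
abbrev IX (N : ℕ) := Fin 16 × Fin (N ^ 2 - 1)

/-- Arrays of spinor matrices, one for every pair. -/
abbrev PA (N : ℕ) := Fin N → Fin N → Matrix (Fin 16) (Fin 16) ℂ

/-- The pair operator of an array. -/
def Op (b : ColorBasis N) (c : PA N) : Matrix (IX N) (IX N) ℂ :=
  Matrix.of fun p q => ∑ a, ∑ d, b.T p.2 d a * c a d p.1 q.1 * b.T q.2 a d

theorem Op_apply (b : ColorBasis N) (c : PA N) (p q : IX N) :
    Op b c p q = ∑ a, ∑ d, b.T p.2 d a * c a d p.1 q.1 * b.T q.2 a d := rfl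

/-- Constant diagonal. -/
def DC (c : PA N) : Prop := ∀ a d, c a a = c d d

theorem DC.add {c c' : PA N} (h : DC c) (h' : DC c') : DC (c + c') := fun a d => by
  simp only [Pi.add_apply, h a d, h' a d]

theorem DC.mul {c c' : PA N} (h : DC c) (h' : DC c') : DC (c * c') := fun a d => by
  simp only [Pi.mul_apply, h a d, h' a d]

theorem DC.neg {c : PA N} (h : DC c) : DC (-c) := fun a d => by
  simp only [Pi.neg_apply, h a d]

theorem DC.smul {c : PA N} (h : DC c) (z : ℂ) : DC (z • c) := fun a d => by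
  simp only [Pi.smul_apply, h a d]

theorem DC.one : DC (1 : PA N) := fun _ _ => rfl

variable (b : ColorBasis N)

theorem Op_add (c c' : PA N) : Op b (c + c') = Op b c + Op b c' := by
  ext p q
  simp only [Op_apply, Pi.add_apply, Matrix.add_apply, mul_add, add_mul, Finset.sum_add_distrib]

theorem Op_smul (z : ℂ) (c : PA N) : Op b (z • c) = z • Op b c := by
  ext p q
  simp only [Op_apply, Pi.smul_apply, Matrix.smul_apply, smul_eq_mul, Finset.mul_sum]
  refine Finset.sum_congr rfl fun a _ => Finset.sum_congr rfl fun d _ => ?_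
  ring

theorem Op_neg (c : PA N) : Op b (-c) = -Op b c := by
  rw [← neg_one_smul ℂ c, Op_smul, neg_one_smul]

theorem Op_sub (c c' : PA N) : Op b (c - c') = Op b c - Op b c' := by
  rw [sub_eq_add_neg, Op_add, Op_neg, ← sub_eq_add_neg]

theorem Op_zero : Op b (0 : PA N) = 0 := by
  rw [← zero_smul ℂ (0 : PA N), Op_smul, zero_smul]

theorem Op_one : Op b (1 : PA N) = 1 := by
  ext ⟨α, A⟩ ⟨β, B⟩
  have h1 : Op b (1 : PA N) (α, A) (β, B) =
      (1 : Matrix (Fin 16) (Fin 16) ℂ) α β * (b.T A * b.T B).trace := by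
    rw [Op_apply, Matrix.trace, Finset.mul_sum]
    rw [Finset.sum_comm]
    refine Finset.sum_congr rfl fun d _ => ?_
    rw [Matrix.diag_apply, Matrix.mul_apply, Finset.mul_sum]
    refine Finset.sum_congr rfl fun a _ => ?_
    simp only [Pi.one_apply]
    ring
  rw [h1, b.orthonormal, Matrix.one_apply, Matrix.one_apply]
  by_cases h : α = β
  · by_cases h' : A = B
    · simp [h, h']
    · simp [h, h']
  · simp [h]

/-- completeness, entrywise -/
theorem sum_T {Y : Matrix (Fin N) (Fin N) ℂ} (hY : Y.trace = 0) (a d : Fin N) :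
    ∑ B, b.T B a d * ∑ e, ∑ f, b.T B f e * Y e f = Y a d := by
  have h := congrFun (congrFun (Col962.expand b hY) a) d
  rw [Matrix.sum_apply] at h
  rw [h]
  refine Finset.sum_congr rfl fun B _ => ?_
  rw [Matrix.smul_apply, smul_eq_mul, mul_comm]
  congr 1
  rw [Matrix.trace, Finset.sum_comm]
  refine Finset.sum_congr rfl fun f _ => ?_
  rw [Matrix.diag_apply, Matrix.mul_apply]

/-- **Products of pair operators.** -/
theorem Op_mul (c c' : PA N) (h : DC c') : Op b (c * c') = Op b c * Op b c' := by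
  ext ⟨α, A⟩ ⟨γ, C⟩
  rw [Matrix.mul_apply, Fintype.sum_prod_type]
  -- Y_β
  set Y : Fin 16 → Matrix (Fin N) (Fin N) ℂ := fun β =>
    Matrix.of fun e f => c' e f β γ * b.T C e f with hY
  have hYt : ∀ β, (Y β).trace = 0 := by
    intro β
    rcases isEmpty_or_nonempty (Fin N) with h0 | ⟨⟨e0⟩⟩
    · simp [Matrix.trace]
    · have h1 : (Y β).trace = c' e0 e0 β γ * (b.T C).trace := by
        rw [Matrix.trace, Matrix.trace, Finset.mul_sum]
        refine Finset.sum_congr rfl fun e _ => ?_
        rw [Matrix.diag_apply, Matrix.diag_apply, hY]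
        simp only [Matrix.of_apply]
        rw [h e e0]
      rw [h1, b.traceless, mul_zero]
  have h2 : ∀ β, ∑ B, Op b c (α, A) (β, B) * Op b c' (β, B) (γ, C) =
      ∑ a, ∑ d, b.T A d a * c a d α β * (c' a d β γ * b.T C a d) := by
    intro β
    have e1 : ∀ B, Op b c' (β, B) (γ, C) = ∑ e, ∑ f, b.T B f e * Y β e f := by
      intro B
      rw [Op_apply]
      refine Finset.sum_congr rfl fun e _ => Finset.sum_congr rfl fun f _ => ?_
      rw [mul_assoc]
      rfl
    calc ∑ B, Op b c (α, A) (β, B) * Op b c' (β, B) (γ, C)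
        = ∑ B, ∑ a, ∑ d, b.T A d a * c a d α β * (b.T B a d * ∑ e, ∑ f, b.T B f e * Y β e f) := by
          refine Finset.sum_congr rfl fun B _ => ?_
          rw [Op_apply, e1, Finset.sum_mul]
          refine Finset.sum_congr rfl fun a _ => ?_
          rw [Finset.sum_mul]
          refine Finset.sum_congr rfl fun d _ => ?_
          rw [mul_assoc]
      _ = ∑ a, ∑ d, b.T A d a * c a d α β * ∑ B, (b.T B a d * ∑ e, ∑ f, b.T B f e * Y β e f) := by
          rw [Finset.sum_comm]
          refine Finset.sum_congr rfl fun a _ => ?_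
          rw [Finset.sum_comm]
          refine Finset.sum_congr rfl fun d _ => ?_
          rw [Finset.mul_sum]
      _ = _ := by
          refine Finset.sum_congr rfl fun a _ => Finset.sum_congr rfl fun d _ => ?_
          rw [sum_T b (hYt β)]
          rfl
  rw [Op_apply]
  have h3 : ∑ β, ∑ B, Op b c (α, A) (β, B) * Op b c' (β, B) (γ, C) =
      ∑ a, ∑ d, ∑ β, b.T A d a * c a d α β * (c' a d β γ * b.T C a d) := by
    rw [Finset.sum_congr rfl fun β (_ : β ∈ Finset.univ) => h2 β, Finset.sum_comm]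
    refine Finset.sum_congr rfl fun a _ => ?_
    rw [Finset.sum_comm]
  rw [h3]
  refine Finset.sum_congr rfl fun a _ => ?_
  refine Finset.sum_congr rfl fun d _ => ?_
  simp only [Pi.mul_apply, Matrix.mul_apply, Finset.mul_sum, Finset.sum_mul]
  refine Finset.sum_congr rfl fun β _ => ?_
  ring

theorem Op_transpose (c : PA N) : (Op b c)ᵀ = Op b fun a d => (c d a)ᵀ := by
  ext p q
  rw [Matrix.transpose_apply, Op_apply, Op_apply, Finset.sum_comm]
  refine Finset.sum_congr rfl fun a _ => Finset.sum_congr rfl fun d _ => ?_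
  rw [Matrix.transpose_apply]
  ring

theorem T_conj (A : Fin (N ^ 2 - 1)) (a d : Fin N) :
    (starRingEnd ℂ) (b.T A a d) = b.T A d a := by
  have h := congrFun (congrFun (b.herm A) d) a
  rw [Matrix.conjTranspose_apply] at h
  rw [starRingEnd_apply]
  exact h

/-- antisymmetric operators -/
theorem Op_skew {c : PA N} (h : ∀ a d, (c d a)ᵀ = -c a d) : (Op b c)ᵀ = -Op b c := by
  rw [Op_transpose, ← Op_neg]
  congr 1
  funext a d
  exact h a d

theorem Op_isReal {c : PA N} (h : ∀ a d α β, (starRingEnd ℂ) (c a d α β) = c d a α β) :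
    IsReal (Op b c) := by
  intro p q
  rw [Op_apply, map_sum, Finset.sum_comm]
  simp only [map_sum, map_mul, T_conj, h]

theorem Op_trace {c : PA N} (h : ∀ a d, (c a d).trace = 0) : (Op b c).trace = 0 := by
  rw [Matrix.trace, Fintype.sum_prod_type, Finset.sum_comm]
  refine Finset.sum_eq_zero fun A _ => ?_
  have h1 : ∑ α, Matrix.diag (Op b c) (α, A) =
      ∑ a, ∑ d, b.T A d a * (c a d).trace * b.T A a d := by
    simp only [Matrix.diag_apply, Op_apply, Matrix.trace, Finset.mul_sum, Finset.sum_mul]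
    rw [Finset.sum_comm]
    refine Finset.sum_congr rfl fun a _ => ?_
    rw [Finset.sum_comm]
  rw [h1]
  refine Finset.sum_eq_zero fun a _ => Finset.sum_eq_zero fun d _ => ?_
  rw [h, mul_zero, zero_mul]

/-! ### The adjoint action -/

local notation "SU" => Matrix.specialUnitaryGroup (Fin N) ℂ

/-- The adjoint action on the colour index. -/
def adI (g : SU) : Matrix (IX N) (IX N) ℂ :=
  Matrix.of fun p q => if p.1 = q.1 then (b.adjMat g p.2 q.2 : ℂ) else 0

theorem adI_apply (g : SU) (p q : IX N) :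
    adI b g p q = if p.1 = q.1 then (b.adjMat g p.2 q.2 : ℂ) else 0 := rfl

theorem adI_mul_transpose (g : SU) : adI b g * (adI b g)ᵀ = 1 := by
  ext ⟨α, A⟩ ⟨β, B⟩
  rw [Matrix.mul_apply, Fintype.sum_prod_type]
  simp only [Matrix.transpose_apply, adI_apply]
  have h1 : ∀ γ, ∑ C, (if α = γ then (b.adjMat g A C : ℂ) else 0) *
      (if β = γ then (b.adjMat g B C : ℂ) else 0) =
      if α = γ then (if β = γ then (if A = B then (1 : ℂ) else 0) else 0) else 0 := by
    intro γ
    by_cases h : α = γ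
    · by_cases h' : β = γ
      · simp only [if_pos h, if_pos h']
        have := Col962.adjMat_orth' b g A B
        rw [← Complex.ofReal_one, ← Complex.ofReal_zero, ← apply_ite Complex.ofReal, ← this]
        push_cast
        rfl
      · simp [h']
    · simp [h]
  rw [Finset.sum_congr rfl fun γ _ => h1 γ, Finset.sum_ite_eq, Matrix.one_apply]
  simp only [Finset.mem_univ, if_true, Prod.mk.injEq]
  by_cases h : β = α
  · by_cases h' : A = B
    · simp [h, h']
    · simp [h, h']
  · simp [h, Ne.symm h]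

theorem adI_transpose_mul (g : SU) : (adI b g)ᵀ * adI b g = 1 :=
  mul_eq_one_comm.1 (adI_mul_transpose b g)

/-- `g* T_A g`, entrywise. -/
theorem conj_T' (g : SU) (A : Fin (N ^ 2 - 1)) (d a : Fin N) :
    ∑ B, (b.adjMat g A B : ℂ) * b.T B d a =
      ∑ f, ∑ e, (starRingEnd ℂ) ((g : Matrix (Fin N) (Fin N) ℂ) f d) * b.T A f e *
        (g : Matrix (Fin N) (Fin N) ℂ) e a := by
  have h := congrFun (congrFun (Col962.conj_T b g⁻¹ A) d) a
  have hinv : ((g⁻¹ : SU) : Matrix (Fin N) (Fin N) ℂ) = star (g : Matrix (Fin N) (Fin N) ℂ) := rfl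
  rw [hinv, star_star, Matrix.sum_apply] at h
  simp only [Matrix.smul_apply, smul_eq_mul, Col962.adjMat_inv] at h
  rw [← h, Matrix.mul_apply]
  simp only [Matrix.mul_apply, Finset.sum_mul]
  rw [Finset.sum_comm]
  refine Finset.sum_congr rfl fun f _ => Finset.sum_congr rfl fun e _ => ?_
  rw [Matrix.star_apply]
  rfl

/-- `g T_B g*`, entrywise. -/
theorem conj_T'' (g : SU) (B : Fin (N ^ 2 - 1)) (e f : Fin N) :
    ∑ A, b.T A e f * (b.adjMat g A B : ℂ) =
      ∑ a, ∑ d, (g : Matrix (Fin N) (Fin N) ℂ) e a * b.T B a d *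
        (starRingEnd ℂ) ((g : Matrix (Fin N) (Fin N) ℂ) f d) := by
  have h := congrFun (congrFun (Col962.conj_T b g B) e) f
  rw [Matrix.sum_apply] at h
  simp only [Matrix.smul_apply, smul_eq_mul] at h
  have e1 : ∑ A, b.T A e f * (b.adjMat g A B : ℂ) = ∑ A, (b.adjMat g A B : ℂ) * b.T A e f :=
    Finset.sum_congr rfl fun A _ => mul_comm _ _
  rw [e1, ← h, Matrix.mul_apply]
  simp only [Matrix.mul_apply, Finset.sum_mul]
  rw [Finset.sum_comm]
  refine Finset.sum_congr rfl fun a _ => Finset.sum_congr rfl fun d _ => ?_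
  rw [Matrix.star_apply]
  rfl

/-- **Covariance of pair operators.** -/
theorem adI_Op (g : SU) {c c' : PA N}
    (h : ∀ a d e f, (g : Matrix (Fin N) (Fin N) ℂ) e a ≠ 0 →
      (g : Matrix (Fin N) (Fin N) ℂ) f d ≠ 0 → c a d = c' e f) :
    adI b g * Op b c = Op b c' * adI b g := by
  ext ⟨α, A⟩ ⟨β, B⟩
  rw [Matrix.mul_apply, Matrix.mul_apply, Fintype.sum_prod_type, Fintype.sum_prod_type]
  -- left side
  have hl : ∑ γ, ∑ C, adI b g (α, A) (γ, C) * Op b c (γ, C) (β, B) =
      ∑ a, ∑ d, (∑ C, (b.adjMat g A C : ℂ) * b.T C d a) * c a d α β * b.T B a d := by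
    rw [Finset.sum_eq_single α]
    · simp only [adI_apply, if_true, Op_apply, Finset.mul_sum]
      rw [Finset.sum_comm]
      refine Finset.sum_congr rfl fun a _ => ?_
      rw [Finset.sum_comm]
      refine Finset.sum_congr rfl fun d _ => ?_
      rw [Finset.sum_mul, Finset.sum_mul]
      refine Finset.sum_congr rfl fun C _ => ?_
      ring
    · intro γ _ hγ
      refine Finset.sum_eq_zero fun C _ => ?_
      rw [adI_apply, if_neg (Ne.symm hγ), zero_mul]
    · intro h; exact absurd (Finset.mem_univ _) h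
  have hr : ∑ γ, ∑ C, Op b c' (α, A) (γ, C) * adI b g (γ, C) (β, B) =
      ∑ e, ∑ f, b.T A f e * c' e f α β * (∑ C, b.T C e f * (b.adjMat g C B : ℂ)) := by
    rw [Finset.sum_eq_single β]
    · simp only [adI_apply, if_true, Op_apply, Finset.sum_mul]
      rw [Finset.sum_comm]
      refine Finset.sum_congr rfl fun a _ => ?_
      rw [Finset.sum_comm]
      refine Finset.sum_congr rfl fun d _ => ?_
      rw [Finset.mul_sum]
      refine Finset.sum_congr rfl fun C _ => ?_
      ring
    · intro γ _ hγ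
      refine Finset.sum_eq_zero fun C _ => ?_
      rw [adI_apply, if_neg hγ, mul_zero]
    · intro h; exact absurd (Finset.mem_univ _) h
  rw [hl, hr]
  simp only [conj_T', conj_T'', Finset.sum_mul, Finset.mul_sum]
  -- sums over a d f e  versus  e f a d
  calc ∑ a, ∑ d, ∑ f, ∑ e, (starRingEnd ℂ) ((g : Matrix (Fin N) (Fin N) ℂ) f d) * b.T A f e *
        (g : Matrix (Fin N) (Fin N) ℂ) e a * c a d α β * b.T B a d
      = ∑ a, ∑ d, ∑ f, ∑ e, b.T A f e * c' e f α β * ((g : Matrix (Fin N) (Fin N) ℂ) e a *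
        b.T B a d * (starRingEnd ℂ) ((g : Matrix (Fin N) (Fin N) ℂ) f d)) := by
        refine Finset.sum_congr rfl fun a _ => Finset.sum_congr rfl fun d _ =>
          Finset.sum_congr rfl fun f _ => Finset.sum_congr rfl fun e _ => ?_
        by_cases h1 : (g : Matrix (Fin N) (Fin N) ℂ) e a = 0
        · simp [h1]
        · by_cases h2 : (g : Matrix (Fin N) (Fin N) ℂ) f d = 0
          · simp [h2]
          · rw [h a d e f h1 h2]
            ring
    _ = ∑ a, ∑ f, ∑ d, ∑ e, b.T A f e * c' e f α β * ((g : Matrix (Fin N) (Fin N) ℂ) e a *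
        b.T B a d * (starRingEnd ℂ) ((g : Matrix (Fin N) (Fin N) ℂ) f d)) := by
        refine Finset.sum_congr rfl fun a _ => Finset.sum_comm
    _ = ∑ f, ∑ a, ∑ d, ∑ e, b.T A f e * c' e f α β * ((g : Matrix (Fin N) (Fin N) ℂ) e a *
        b.T B a d * (starRingEnd ℂ) ((g : Matrix (Fin N) (Fin N) ℂ) f d)) := Finset.sum_comm
    _ = ∑ f, ∑ a, ∑ e, ∑ d, b.T A f e * c' e f α β * ((g : Matrix (Fin N) (Fin N) ℂ) e a *
        b.T B a d * (starRingEnd ℂ) ((g : Matrix (Fin N) (Fin N) ℂ) f d)) := by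
        refine Finset.sum_congr rfl fun f _ => Finset.sum_congr rfl fun a _ => Finset.sum_comm
    _ = ∑ f, ∑ e, ∑ a, ∑ d, b.T A f e * c' e f α β * ((g : Matrix (Fin N) (Fin N) ℂ) e a *
        b.T B a d * (starRingEnd ℂ) ((g : Matrix (Fin N) (Fin N) ℂ) f d)) := by
        refine Finset.sum_congr rfl fun f _ => Finset.sum_comm
    _ = _ := Finset.sum_comm

/-- The conjugated pair operator. -/
theorem adI_Op_conj (g : SU) {c c' : PA N}
    (h : ∀ a d e f, (g : Matrix (Fin N) (Fin N) ℂ) e a ≠ 0 →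
      (g : Matrix (Fin N) (Fin N) ℂ) f d ≠ 0 → c a d = c' e f) :
    adI b g * Op b c * (adI b g)ᵀ = Op b c' := by
  rw [adI_Op b g h, mul_assoc, adI_mul_transpose, mul_one]

/-! ### Light vectors -/

/-- The colour matrix of a vector with a fixed spinor index. -/
def cm (u : IX N → ℂ) (β : Fin 16) : Matrix (Fin N) (Fin N) ℂ := ∑ B, u (β, B) • b.T B

/-- A vector whose colour matrices vanish at the entries where the array does not. -/
theorem Op_mulVec_light {c : PA N} {u : IX N → ℂ}
    (h : ∀ a d, c a d = 0 ∨ ∀ β, cm b u β a d = 0) : Op b c *ᵥ u = 0 := by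
  funext ⟨α, A⟩
  rw [Matrix.mulVec, dotProduct, Fintype.sum_prod_type]
  have h1 : ∑ β, ∑ B, Op b c (α, A) (β, B) * u (β, B) =
      ∑ β, ∑ a, ∑ d, b.T A d a * c a d α β * cm b u β a d := by
    refine Finset.sum_congr rfl fun β _ => ?_
    simp only [Op_apply, Finset.sum_mul, cm, Matrix.sum_apply, Matrix.smul_apply, smul_eq_mul,
      Finset.mul_sum]
    rw [Finset.sum_comm]
    refine Finset.sum_congr rfl fun a _ => ?_
    rw [Finset.sum_comm]
    refine Finset.sum_congr rfl fun d _ => Finset.sum_congr rfl fun B _ => ?_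
    ring
  rw [h1, Pi.zero_apply]
  refine Finset.sum_eq_zero fun β _ => Finset.sum_eq_zero fun a _ =>
    Finset.sum_eq_zero fun d _ => ?_
  rcases h a d with h2 | h2
  · rw [h2]; simp
  · rw [h2, mul_zero]

/-! ### `θ(u)` -/

section th

variable {I : Type*} [Fintype I] [DecidableEq I] {F : Type*} [NormedAddCommGroup F]
  [InnerProductSpace ℂ F]

/-- `Σ_p u_p θ_p`. -/
def th (θ : I → (F →L[ℂ] F)) (u : I → ℂ) : F →L[ℂ] F := ∑ p, u p • θ p

theorem th_mulVec (θ : I → (F →L[ℂ] F)) (A : Matrix I I ℂ) (u : I → ℂ) :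
    th θ (A *ᵥ u) = ∑ q, u q • lc θ A q := by
  simp only [th, lc, Matrix.mulVec, dotProduct, Finset.sum_smul, Finset.smul_sum]
  rw [Finset.sum_comm]
  refine Finset.sum_congr rfl fun q _ => Finset.sum_congr rfl fun p _ => ?_
  rw [smul_smul, mul_comm]

theorem th_through {θ : I → (F →L[ℂ] F)} {E : F →L[ℂ] F} {R : Matrix I I ℂ}
    (hE : ∀ q, E * θ q = lc θ R q * E) (u : I → ℂ) : E * th θ u = th θ (R *ᵥ u) * E := by
  rw [th_mulVec]
  unfold th
  rw [Finset.mul_sum, Finset.sum_mul]
  refine Finset.sum_congr rfl fun q _ => ?_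
  rw [mul_smul_comm, hE, smul_mul_assoc]

theorem rt_mulVec {Q : Matrix I I ℂ} {u : I → ℂ} (h : Q *ᵥ u = 0) : rt Q *ᵥ u = u := by
  rw [rt, Matrix.add_mulVec, Matrix.add_mulVec, Matrix.one_mulVec, ← Matrix.mulVec_mulVec, h,
    Matrix.mulVec_zero, add_zero, add_zero]

end th

/-! ### The Clifford family of a `FermionRep` -/

section rep

variable {F : Type*} [NormedAddCommGroup F] [InnerProductSpace ℂ F] [FiniteDimensional ℂ F]

/-- The generators as continuous maps. -/
def thC (M : FermionRep N F) (p : IX N) : F →L[ℂ] F :=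
  LinearMap.toContinuousLinearMap (M.θ p.1 p.2)

theorem thC_apply (M : FermionRep N F) (p : IX N) (v : F) : thC M p v = M.θ p.1 p.2 v := rfl

theorem cf_thC (M : FermionRep N F) : CF (thC M) where
  anti := fun p q => by
    have h := M.anticomm p.1 p.2 q.1 q.2
    ext v
    have h1 := LinearMap.congr_fun h v
    change M.θ p.1 p.2 (M.θ q.1 q.2 v) + M.θ q.1 q.2 (M.θ p.1 p.2 v) = _
    rw [LinearMap.add_apply, LinearMap.comp_apply, LinearMap.comp_apply] at h1
    rw [h1]
    by_cases hpq : p = q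
    · rw [if_pos hpq, if_pos ⟨congrArg Prod.fst hpq, congrArg Prod.snd hpq⟩]
      rfl
    · rw [if_neg hpq, if_neg fun h' => hpq (Prod.ext h'.1 h'.2)]
      rfl
  symm := fun p v w => M.selfAdjoint p.1 p.2 v w

variable {b} {M : FermionRep N F}

/-- `ρ(g)` as a continuous map. -/
def rhoC (R : GaugeAction b M) (g : SU) : F →L[ℂ] F := LinearMap.toContinuousLinearMap (R.ρ g)

theorem rhoC_apply (R : GaugeAction b M) (g : SU) (v : F) : rhoC R g v = R.ρ g v := rfl

theorem rhoC_thC (R : GaugeAction b M) (g : SU) (q : IX N) :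
    rhoC R g * thC M q = lc (thC M) (adI b g) q * rhoC R g := by
  ext v
  have h := LinearMap.congr_fun (R.intertwine g q.1 q.2) v
  rw [LinearMap.comp_apply, LinearMap.comp_apply, LinearMap.sum_apply] at h
  change R.ρ g (M.θ q.1 q.2 v) = lc (thC M) (adI b g) q (R.ρ g v)
  rw [h, lc_apply, Fintype.sum_prod_type, Finset.sum_eq_single q.1]
  · refine Finset.sum_congr rfl fun B _ => ?_
    rw [adI_apply, if_pos rfl]
    rfl
  · intro γ _ hγ
    refine Finset.sum_eq_zero fun B _ => ?_
    rw [adI_apply, if_neg hγ, zero_smul]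
  · intro h; exact absurd (Finset.mem_univ _) h

end rep

end Crest.Agent.R330.VacSec255
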