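import Crest.Agent.R330.VacSec2_255

/-!
# Row 330 (helper255): the explicit section of heavy vacua, algebra

* `gc`, `Gc`, `gv v = Σ v_i γ^i` (complexified), anticommutators, transposes, reality, traces.
* `un v = v/|v|`, `bp v` = the last six components.
* `K0 v = -Γ` (`v ≠ 0`), `Kn v = -i γ·v/|v|`, `Km v = -i γ·bp v/|bp v|`,
  `K1 = (K0 + Km)/√2`, `K2 = -i γ·q`, `q` the midpoint of `v/|v|` and `bp v/|bp v|`.
* `pa K r a d = K (r a - r d)`.
-/

set_option autoImplicit false
set_option linter.unusedSectionVars false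

noncomputable section

open scoped InnerProductSpace Matrix
open Crest.MathPhysics.MatrixQM

namespace Crest.Agent.R330.VacSec255

variable {N : ℕ}

/-- positions -/
abbrev E9 := EuclideanSpace ℝ (Fin 9)

/-- spinor matrices -/
abbrev M16 := Matrix (Fin 16) (Fin 16) ℂ

/-- complexification -/
def cM : Matrix (Fin 16) (Fin 16) ℝ →+* M16 := (algebraMap ℝ ℂ).mapMatrix

theorem cM_apply (A : Matrix (Fin 16) (Fin 16) ℝ) (α β : Fin 16) : cM A α β = (A α β : ℂ) := rfl

theorem cM_transpose (A : Matrix (Fin 16) (Fin 16) ℝ) : (cM A)ᵀ = cM Aᵀ := rfl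

theorem cM_trace (A : Matrix (Fin 16) (Fin 16) ℝ) : (cM A).trace = (A.trace : ℂ) := by
  simp only [Matrix.trace, Matrix.diag_apply, cM_apply, Complex.ofReal_sum]

variable (G : GammaNine)

/-- `γ^i` -/
def gc (i : Fin 9) : M16 := cM (G.γ i)

/-- `Γ` -/
def Gc : M16 := cM (Defs478.Gam G)

/-- `Σ v_i γ^i` -/
def gv (v : E9) : M16 := ∑ i, (v i : ℂ) • gc G i

theorem gc_sq (i : Fin 9) : gc G i * gc G i = 1 := by
  rw [gc, ← map_mul, Gam962.sq_one, map_one]

theorem gc_anti {i j : Fin 9} (h : i ≠ j) : gc G i * gc G j = -(gc G j * gc G i) := by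
  rw [gc, gc, ← map_mul, ← map_mul, Gam962.anti G h, map_neg]

theorem gc_transpose (i : Fin 9) : (gc G i)ᵀ = gc G i := by
  rw [gc, cM_transpose, G.symm]

theorem Gc_eq : Gc G = gc G 0 * gc G 1 * gc G 2 := by
  rw [Gc, Defs478.Gam, map_mul, map_mul]
  rfl

theorem gv_apply (v : E9) (α β : Fin 16) : gv G v α β = ∑ i, (v i : ℂ) * gc G i α β := by
  rw [gv, Matrix.sum_apply]
  rfl

theorem gv_add (v w : E9) : gv G (v + w) = gv G v + gv G w := by
  simp only [gv, PiLp.add_apply, Complex.ofReal_add, add_smul, Finset.sum_add_distrib]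

theorem gv_smul (t : ℝ) (v : E9) : gv G (t • v) = (t : ℂ) • gv G v := by
  simp only [gv, PiLp.smul_apply, smul_eq_mul, Complex.ofReal_mul, mul_smul, Finset.smul_sum]

theorem gv_neg (v : E9) : gv G (-v) = -gv G v := by
  rw [← neg_one_smul ℝ v, gv_smul, Complex.ofReal_neg, Complex.ofReal_one, neg_one_smul]

theorem gv_sub (v w : E9) : gv G (v - w) = gv G v - gv G w := by
  rw [sub_eq_add_neg, gv_add, gv_neg, ← sub_eq_add_neg]

theorem gv_zero : gv G 0 = 0 := by
  simp [gv]

theorem gv_transpose (v : E9) : (gv G v)ᵀ = gv G v := by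
  rw [gv, Matrix.transpose_sum]
  refine Finset.sum_congr rfl fun i _ => ?_
  rw [Matrix.transpose_smul, gc_transpose]

theorem gv_conj (v : E9) (α β : Fin 16) : (starRingEnd ℂ) (gv G v α β) = gv G v α β := by
  rw [gv_apply, map_sum]
  refine Finset.sum_congr rfl fun i _ => ?_
  rw [map_mul, Complex.conj_ofReal, gc, cM_apply, Complex.conj_ofReal]

/-- `{γ·v, γ·w} = 2 v·w`. -/
theorem gv_anti (v w : E9) :
    gv G v * gv G w + gv G w * gv G v = ((2 * ⟪v, w⟫_ℝ : ℝ) : ℂ) • (1 : M16) := by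
  have h1 : ∀ v w : E9, gv G v * gv G w = ∑ i, ∑ j, ((v i : ℂ) * (w j : ℂ)) • (gc G i * gc G j) := by
    intro v w
    rw [gv, gv, Finset.sum_mul_sum]
    refine Finset.sum_congr rfl fun i _ => Finset.sum_congr rfl fun j _ => ?_
    rw [smul_mul_smul_comm]
  have h2 : gv G w * gv G v = ∑ i, ∑ j, ((v i : ℂ) * (w j : ℂ)) • (gc G j * gc G i) := by
    rw [h1, Finset.sum_comm]
    refine Finset.sum_congr rfl fun i _ => Finset.sum_congr rfl fun j _ => ?_
    rw [mul_comm]
  rw [h1 v w, h2, ← Finset.sum_add_distrib]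
  have h3 : ∀ i, (∑ j, ((v i : ℂ) * (w j : ℂ)) • (gc G i * gc G j)) +
      ∑ j, ((v i : ℂ) * (w j : ℂ)) • (gc G j * gc G i) =
      ((2 * (v i * w i) : ℝ) : ℂ) • (1 : M16) := by
    intro i
    rw [← Finset.sum_add_distrib, Finset.sum_eq_single i]
    · rw [gc_sq, ← add_smul]
      congr 1
      push_cast
      ring
    · intro j _ hj
      rw [gc_anti G hj, smul_neg, add_neg_cancel]
    · intro h; exact absurd (Finset.mem_univ _) h
  rw [Finset.sum_congr rfl fun i _ => h3 i, ← Finset.sum_smul, ← Complex.ofReal_sum]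
  congr 2
  rw [← Finset.mul_sum, PiLp.inner_apply]
  congr 1
  refine Finset.sum_congr rfl fun i _ => ?_
  simp [mul_comm]

theorem gv_sq (v : E9) : gv G v * gv G v = ((‖v‖ ^ 2 : ℝ) : ℂ) • (1 : M16) := by
  have h := gv_anti G v v
  rw [← two_smul ℂ, real_inner_self_eq_norm_sq] at h
  have h2 : gv G v * gv G v = (1 / 2 : ℂ) • ((2 : ℂ) • (gv G v * gv G v)) := by
    rw [smul_smul]
    norm_num
  rw [h2, h, smul_smul]
  congr 1
  push_cast
  ring

/-! ### `Γ` -/

theorem Gc_sq : Gc G * Gc G = -1 := by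
  have a01 := gc_anti G (show (0 : Fin 9) ≠ 1 by decide)
  have a02 := gc_anti G (show (0 : Fin 9) ≠ 2 by decide)
  have a12 := gc_anti G (show (1 : Fin 9) ≠ 2 by decide)
  have s0 := gc_sq G 0
  have s1 := gc_sq G 1
  have s2 := gc_sq G 2
  rw [Gc_eq]
  set x := gc G 0
  set y := gc G 1
  set z := gc G 2
  calc x * y * z * (x * y * z) = x * y * (z * x) * y * z := by noncomm_ring
    _ = x * y * (-(x * z)) * y * z := by rw [a02, neg_neg]
    _ = -(x * (y * x) * (z * y) * z) := by noncomm_ring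
    _ = -(x * (-(x * y)) * (-(y * z)) * z) := by rw [a01, a12, neg_neg, neg_neg]
    _ = -(x * x * (y * y) * (z * z)) := by noncomm_ring
    _ = -1 := by rw [s0, s1, s2, one_mul, one_mul]

theorem Gc_transpose : (Gc G)ᵀ = -Gc G := by
  have a01 := gc_anti G (show (0 : Fin 9) ≠ 1 by decide)
  have a02 := gc_anti G (show (0 : Fin 9) ≠ 2 by decide)
  have a12 := gc_anti G (show (1 : Fin 9) ≠ 2 by decide)
  rw [Gc_eq, Matrix.transpose_mul, Matrix.transpose_mul, gc_transpose, gc_transpose, gc_transpose]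
  set x := gc G 0
  set y := gc G 1
  set z := gc G 2
  calc z * (y * x) = z * (-(x * y)) := by rw [a01, neg_neg]
    _ = -(z * x) * y := by noncomm_ring
    _ = -(-(x * z)) * y := by rw [a02, neg_neg]
    _ = x * (z * y) := by noncomm_ring
    _ = x * (-(y * z)) := by rw [a12, neg_neg]
    _ = -(x * y * z) := by noncomm_ring

theorem Gc_conj (α β : Fin 16) : (starRingEnd ℂ) (Gc G α β) = Gc G α β := by
  rw [Gc, cM_apply, Complex.conj_ofReal]

theorem gc_Gc {i : Fin 9} (h : 3 ≤ (i : ℕ)) : gc G i * Gc G = -(Gc G * gc G i) := by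
  have h0 : i ≠ 0 := fun h' => by rw [h'] at h; simp at h
  have h1 : i ≠ 1 := fun h' => by rw [h'] at h; simp at h
  have h2 : i ≠ 2 := fun h' => by
    rw [h'] at h
    have : ((2 : Fin 9) : ℕ) = 2 := rfl
    omega
  have a0 := gc_anti G h0
  have a1 := gc_anti G h1
  have a2 := gc_anti G h2
  rw [Gc_eq]
  set x := gc G 0
  set y := gc G 1
  set z := gc G 2
  set w := gc G i
  calc w * (x * y * z) = w * x * y * z := by noncomm_ring
    _ = -(x * (w * y) * z) := by rw [a0]; noncomm_ring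
    _ = x * y * (w * z) := by rw [a1]; noncomm_ring
    _ = -(x * y * z * w) := by rw [a2]; noncomm_ring

/-- The last six components. -/
def bp : E9 →L[ℝ] E9 := LinearMap.toContinuousLinearMap
  { toFun := fun v => WithLp.toLp 2 fun i => if (i : ℕ) < 3 then 0 else v i
    map_add' := fun v w => by
      ext i
      simp only [PiLp.add_apply]
      split_ifs <;> simp
    map_smul' := fun t v => by
      ext i
      simp only [PiLp.smul_apply, RingHom.id_apply, smul_eq_mul]
      split_ifs <;> simp }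

theorem bp_apply (v : E9) (i : Fin 9) : bp v i = if (i : ℕ) < 3 then 0 else v i := rfl

theorem bp_bp (v : E9) : bp (bp v) = bp v := by
  ext i
  rw [bp_apply, bp_apply]
  split_ifs <;> rfl

theorem inner_bp (v : E9) : ⟪bp v, v⟫_ℝ = ‖bp v‖ ^ 2 := by
  rw [← real_inner_self_eq_norm_sq, PiLp.inner_apply, PiLp.inner_apply]
  refine Finset.sum_congr rfl fun i _ => ?_
  rw [bp_apply]
  split_ifs <;> simp

/-- `Γ` anticommutes with `γ·bp v`. -/
theorem gv_Gc {v : E9} (h : bp v = v) : gv G v * Gc G = -(Gc G * gv G v) := by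
  rw [gv, Finset.sum_mul, Finset.mul_sum, ← Finset.sum_neg_distrib]
  refine Finset.sum_congr rfl fun i _ => ?_
  rw [smul_mul_assoc, mul_smul_comm, ← smul_neg]
  by_cases hi : (i : ℕ) < 3
  · have h0 : v i = 0 := by rw [← h, bp_apply, if_pos hi]
    rw [h0, Complex.ofReal_zero, zero_smul, zero_smul]
  · rw [gc_Gc G (not_lt.1 hi)]

/-! ### Traces -/

theorem trace_zero_of_anti {X : M16} (l : Fin 9) (h : gc G l * X = -(X * gc G l)) :
    X.trace = 0 := by
  have h1 : X.trace = (gc G l * (gc G l * X)).trace := by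
    rw [← mul_assoc, gc_sq, one_mul]
  have h2 : (gc G l * (gc G l * X)).trace = -X.trace := by
    rw [h, mul_neg, Matrix.trace_neg, Matrix.trace_mul_comm, mul_assoc, gc_sq, mul_one]
  have h3 := h1.trans h2
  have : X.trace + X.trace = 0 := by
    nth_rewrite 1 [h3]
    ring
  have h4 : (2 : ℂ) * X.trace = 0 := by rw [two_mul, this]
  exact (mul_eq_zero.1 h4).resolve_left two_ne_zero

theorem exists_not_mem3 (i j k : Fin 9) : ∃ l : Fin 9, l ≠ i ∧ l ≠ j ∧ l ≠ k := by
  revert i j k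
  decide

theorem trace_gc (i : Fin 9) : (gc G i).trace = 0 := by
  rw [gc, cM_trace, Gam962.trace_gam, Complex.ofReal_zero]

theorem trace_gc3 (i j k : Fin 9) : (gc G i * gc G j * gc G k).trace = 0 := by
  obtain ⟨l, h1, h2, h3⟩ := exists_not_mem3 i j k
  refine trace_zero_of_anti G l ?_
  have a0 := gc_anti G h1
  have a1 := gc_anti G h2
  have a2 := gc_anti G h3
  calc gc G l * (gc G i * gc G j * gc G k) = (gc G l * gc G i) * gc G j * gc G k := by
        noncomm_ring
    _ = -(gc G i * (gc G l * gc G j) * gc G k) := by rw [a0]; noncomm_ring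
    _ = gc G i * gc G j * (gc G l * gc G k) := by rw [a1]; noncomm_ring
    _ = -(gc G i * gc G j * gc G k * gc G l) := by rw [a2]; noncomm_ring

theorem trace_gv (v : E9) : (gv G v).trace = 0 := by
  rw [gv, Matrix.trace_sum]
  refine Finset.sum_eq_zero fun i _ => ?_
  rw [Matrix.trace_smul, trace_gc, smul_zero]

/-- **Three gammas have trace zero.** -/
theorem trace_gv3 (u v w : E9) : (gv G u * gv G v * gv G w).trace = 0 := by
  simp only [gv, Finset.sum_mul, Finset.mul_sum, Matrix.trace_sum, smul_mul_assoc,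
    mul_smul_comm, Matrix.trace_smul, trace_gc3, smul_zero, Finset.sum_const_zero]

theorem exists_not_mem_b (i j : Fin 9) : ∃ l : Fin 9, 3 ≤ (l : ℕ) ∧ l ≠ i ∧ l ≠ j := by
  revert i j
  decide

/-- **Two gammas of the last six and `Γ`.** -/
theorem trace_gv2_Gc {u v : E9} : (gv G u * gv G v * Gc G).trace = 0 := by
  have h1 : ∀ i j : Fin 9, (gc G i * gc G j * Gc G).trace = 0 := by
    intro i j
    obtain ⟨l, h0, h1, h2⟩ := exists_not_mem_b i j
    refine trace_zero_of_anti G l ?_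
    have a0 := gc_anti G h1
    have a1 := gc_anti G h2
    have a2 := gc_Gc G h0
    calc gc G l * (gc G i * gc G j * Gc G) = (gc G l * gc G i) * gc G j * Gc G := by
          noncomm_ring
      _ = -(gc G i * (gc G l * gc G j) * Gc G) := by rw [a0]; noncomm_ring
      _ = gc G i * gc G j * (gc G l * Gc G) := by rw [a1]; noncomm_ring
      _ = -(gc G i * gc G j * Gc G * gc G l) := by rw [a2]; noncomm_ring
  simp only [gv, Finset.sum_mul, Finset.mul_sum, Matrix.trace_sum, smul_mul_assoc,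
    mul_smul_comm, Matrix.trace_smul, h1, smul_zero, Finset.sum_const_zero]

theorem trace_Gc : (Gc G).trace = 0 := by
  have h := congrArg Matrix.trace (Gc_transpose G)
  rw [Matrix.trace_transpose, Matrix.trace_neg] at h
  have h2 : (2 : ℂ) * (Gc G).trace = 0 := by
    rw [two_mul]
    nth_rewrite 1 [h]
    ring
  exact (mul_eq_zero.1 h2).resolve_left two_ne_zero

/-! ### Normalised vectors -/

/-- `v/|v|`. -/
def un (v : E9) : E9 := ‖v‖⁻¹ • v

theorem un_zero : un 0 = 0 := by simp [un]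

theorem un_neg (v : E9) : un (-v) = -un v := by simp [un]

theorem norm_un {v : E9} (h : v ≠ 0) : ‖un v‖ = 1 := by
  rw [un, norm_smul, norm_inv, norm_norm, inv_mul_cancel₀ (norm_ne_zero_iff.2 h)]

theorem bp_un {v : E9} (h : bp v = v) : bp (un v) = un v := by
  rw [un, map_smul, h]

/-- the midpoint -/
def qv (v : E9) : E9 := un (un (bp v) + un v)

theorem qv_neg (v : E9) : qv (-v) = -qv v := by
  rw [qv, map_neg, un_neg, un_neg, ← neg_add, un_neg, qv]

theorem qv_zero : qv 0 = 0 := by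
  rw [qv, map_zero, un_zero, add_zero, un_zero]

theorem inner_un_pos {v : E9} (h : bp v ≠ 0) : 0 < ⟪un (bp v), un v⟫_ℝ := by
  have hv : v ≠ 0 := fun h' => h (by rw [h', map_zero])
  rw [un, un, real_inner_smul_left, real_inner_smul_right, inner_bp]
  have h1 : 0 < ‖v‖ := norm_pos_iff.2 hv
  have h2 : 0 < ‖bp v‖ := norm_pos_iff.2 h
  positivity

theorem mid_ne_zero {v : E9} (h : bp v ≠ 0) : un (bp v) + un v ≠ 0 := by
  intro h0
  have hv : v ≠ 0 := fun h' => h (by rw [h', map_zero])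
  have h1 : un (bp v) = -un v := eq_neg_of_add_eq_zero_left h0
  have h2 := inner_un_pos h
  rw [h1, inner_neg_left, real_inner_self_eq_norm_sq] at h2
  have := sq_nonneg ‖un v‖
  linarith

/-- `2 (q·p) q = p + n` for the midpoint. -/
theorem qv_refl {v : E9} (h : bp v ≠ 0) :
    (2 * ⟪qv v, un (bp v)⟫_ℝ) • qv v = un (bp v) + un v := by
  have hv : v ≠ 0 := fun h' => h (by rw [h', map_zero])
  have hp := norm_un h
  have hn := norm_un hv
  have hm := mid_ne_zero h
  set p := un (bp v) with hpd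
  set n := un v with hnd
  have h1 : ‖p + n‖ ^ 2 = 2 * ⟪p + n, p⟫_ℝ := by
    rw [norm_add_sq_real, inner_add_left, real_inner_self_eq_norm_sq, hp, hn, real_inner_comm p n]
    ring
  have h2 : qv v = ‖p + n‖⁻¹ • (p + n) := rfl
  have h3 : ‖p + n‖ ≠ 0 := norm_ne_zero_iff.2 hm
  rw [h2, real_inner_smul_left, smul_smul]
  have h4 : 2 * (‖p + n‖⁻¹ * ⟪p + n, p⟫_ℝ) * ‖p + n‖⁻¹ = 1 := by
    have : 2 * (‖p + n‖⁻¹ * ⟪p + n, p⟫_ℝ) * ‖p + n‖⁻¹ =
        (2 * ⟪p + n, p⟫_ℝ) * (‖p + n‖⁻¹ * ‖p + n‖⁻¹) := by ring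
    rw [this, ← h1]
    field_simp
  rw [h4, one_smul]

/-! ### The pair functions -/

/-- reference structure -/
def K0 (v : E9) : M16 := if v = 0 then 0 else -Gc G

/-- the structure of a direction -/
def Kv (v : E9) : M16 := (-Complex.I) • gv G v

/-- `-i γ·v/|v|` -/
def Kn (v : E9) : M16 := Kv G (un v)

/-- `-i γ·bp v/|bp v|` -/
def Km (v : E9) : M16 := Kv G (un (bp v))

/-- `(K0 + Km)/√2` -/
def K1 (v : E9) : M16 := ((Real.sqrt 2)⁻¹ : ℂ) • (K0 G v + Km G v)

/-- `-i γ·q` -/
def K2 (v : E9) : M16 := Kv G (qv v)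

theorem Kv_neg (v : E9) : Kv G (-v) = -Kv G v := by
  rw [Kv, gv_neg, smul_neg, Kv]

theorem Kv_zero : Kv G 0 = 0 := by rw [Kv, gv_zero, smul_zero]

theorem Kv_transpose (v : E9) : (Kv G v)ᵀ = Kv G v := by
  rw [Kv, Matrix.transpose_smul, gv_transpose]

theorem Kv_conj (v : E9) (α β : Fin 16) :
    (starRingEnd ℂ) (Kv G v α β) = -Kv G v α β := by
  rw [Kv, Matrix.smul_apply, smul_eq_mul, map_mul, gv_conj, map_neg, Complex.conj_I]
  ring

theorem Kv_sq {v : E9} (h : ‖v‖ = 1) : Kv G v * Kv G v = -1 := by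
  rw [Kv, smul_mul_smul_comm, gv_sq, h, neg_mul_neg, Complex.I_mul_I]
  simp

/-- An odd pair function with the right symmetry. -/
structure Good (K : E9 → M16) : Prop where
  zero : K 0 = 0
  skew : ∀ v, (K (-v))ᵀ = -K v
  real : ∀ v α β, (starRingEnd ℂ) (K v α β) = K (-v) α β

theorem good_K0 : Good (K0 G) where
  zero := by simp [K0]
  skew := fun v => by
    unfold K0
    by_cases h : v = 0
    · simp [h]
    · rw [if_neg h, if_neg (neg_ne_zero.2 h), Matrix.transpose_neg, Gc_transpose]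
  real := fun v α β => by
    unfold K0
    by_cases h : v = 0
    · simp [h]
    · rw [if_neg h, if_neg (neg_ne_zero.2 h), Matrix.neg_apply, map_neg, Gc_conj]

theorem good_Kv {w : E9 → E9} (h0 : w 0 = 0) (hn : ∀ v, w (-v) = -w v) :
    Good fun v => Kv G (w v) where
  zero := by rw [h0, Kv_zero]
  skew := fun v => by rw [hn, Kv_neg, Matrix.transpose_neg, Kv_transpose]
  real := fun v α β => by rw [Kv_conj, hn, Kv_neg, Matrix.neg_apply]

theorem good_Kn : Good (Kn G) := good_Kv G un_zero un_neg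

theorem good_Km : Good (Km G) :=
  good_Kv G (w := fun v => un (bp v)) (by rw [map_zero, un_zero]) fun v => by
    rw [map_neg, un_neg]

theorem good_K2 : Good (K2 G) := good_Kv G qv_zero qv_neg

theorem good_K1 : Good (K1 G) where
  zero := by
    rw [K1, (good_K0 G).zero, (good_Km G).zero, add_zero, smul_zero]
  skew := fun v => by
    rw [K1, Matrix.transpose_smul, Matrix.transpose_add, (good_K0 G).skew, (good_Km G).skew, K1]
    module
  real := fun v α β => by
    rw [K1, K1, Matrix.smul_apply, Matrix.smul_apply, smul_eq_mul, smul_eq_mul, map_mul,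
      Matrix.add_apply, Matrix.add_apply, map_add, (good_K0 G).real, (good_Km G).real, map_inv₀,
      Complex.conj_ofReal]

/-! ### Pointwise relations -/

variable {v : E9}

theorem K0_sq (h : bp v ≠ 0) : K0 G v * K0 G v = -1 := by
  have hv : v ≠ 0 := fun h' => h (by rw [h', map_zero])
  rw [K0, if_neg hv, neg_mul_neg, Gc_sq]

theorem Kn_sq (h : bp v ≠ 0) : Kn G v * Kn G v = -1 := by
  have hv : v ≠ 0 := fun h' => h (by rw [h', map_zero])
  exact Kv_sq G (norm_un hv)

theorem Km_sq (h : bp v ≠ 0) : Km G v * Km G v = -1 := Kv_sq G (norm_un h)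

theorem K2_sq (h : bp v ≠ 0) : K2 G v * K2 G v = -1 := Kv_sq G (norm_un (mid_ne_zero h))

theorem K0_Km (h : bp v ≠ 0) : Km G v * K0 G v = -(K0 G v * Km G v) := by
  have hv : v ≠ 0 := fun h' => h (by rw [h', map_zero])
  rw [K0, if_neg hv, Km, Kv, smul_mul_assoc, mul_smul_comm, mul_neg, neg_mul, gv_Gc G]
  · rw [smul_neg, smul_neg]
  · exact bp_un (bp_bp v)

theorem sqrt_two_sq : ((Real.sqrt 2)⁻¹ : ℂ) * ((Real.sqrt 2)⁻¹ : ℂ) = 1 / 2 := by
  rw [← mul_inv, ← Complex.ofReal_mul, Real.mul_self_sqrt (by norm_num)]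
  norm_num

theorem K1_sq (h : bp v ≠ 0) : K1 G v * K1 G v = -1 := by
  have h1 := K0_sq G h
  have h2 := Km_sq G h
  have h3 := K0_Km G h
  rw [K1, smul_mul_smul_comm, sqrt_two_sq]
  have : (K0 G v + Km G v) * (K0 G v + Km G v) =
      K0 G v * K0 G v + K0 G v * Km G v + Km G v * K0 G v + Km G v * Km G v := by noncomm_ring
  rw [this, h1, h2, h3]
  have h4 : -1 + K0 G v * Km G v + -(K0 G v * Km G v) + -1 = (-2 : ℂ) • (1 : M16) := by
    module
  rw [h4, smul_smul]
  norm_num

/-- the first quarter turn -/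
theorem K1_conj (h : bp v ≠ 0) : K1 G v * K0 G v * -K1 G v = Km G v := by
  have h1 := K0_sq G h
  have h2 := Km_sq G h
  have h3 := K0_Km G h
  rw [K1, smul_mul_assoc, mul_neg, smul_mul_smul_comm, sqrt_two_sq]
  have h5 : (K0 G v + Km G v) * K0 G v * (K0 G v + Km G v) =
      K0 G v * K0 G v * K0 G v + K0 G v * K0 G v * Km G v + Km G v * (K0 G v * K0 G v) +
      (Km G v * K0 G v) * Km G v := by noncomm_ring
  have h6 : Km G v * K0 G v * Km G v = K0 G v := by
    rw [h3, neg_mul, mul_assoc, h2, mul_neg, mul_one, neg_neg]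
  rw [h5, h6, h1]
  rw [neg_one_mul, neg_one_mul, mul_neg, mul_one]
  module

/-- the second quarter turn -/
theorem K2_conj (h : bp v ≠ 0) : K2 G v * Km G v * -K2 G v = Kn G v := by
  have hq : ‖qv v‖ = 1 := norm_un (mid_ne_zero h)
  have h1 : gv G (qv v) * gv G (un (bp v)) * gv G (qv v) = gv G (un v) := by
    have e1 := gv_anti G (qv v) (un (bp v))
    have e2 : gv G (qv v) * gv G (un (bp v)) =
        ((2 * ⟪qv v, un (bp v)⟫_ℝ : ℝ) : ℂ) • (1 : M16) - gv G (un (bp v)) * gv G (qv v) :=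
      eq_sub_of_add_eq e1
    rw [e2, sub_mul, mul_assoc, gv_sq, hq, smul_mul_assoc, one_mul, ← gv_smul, qv_refl h, gv_add]
    simp
  rw [K2, Km, Kn, Kv, Kv, Kv, smul_mul_smul_comm, mul_neg, smul_mul_smul_comm, h1, ← neg_smul]
  congr 1
  rw [neg_mul_neg, Complex.I_mul_I]
  ring

end Crest.Agent.R330.VacSec255
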