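import Crest.Agent.R330.VacSec3_255

/-!
# Row 330 (helper255): the explicit section of heavy vacua

For positions with multiplicity `r : Fin N → E9`:

* `Jref b G r` reference structure (`-Γ` on the heavy pairs), `Jop b G r` = `-i γ·(r_a-r_d)/|r_a-r_d|`.
* `UU r` : heavy pairs have a non zero component among the last six directions.
* `Wop b G M r : F →L[ℂ] F`.
* `Wop_inner`, `Wop_bijective`; `pvac_Wop_iff`; `Wop_light`; `rho_Wop` (gauge covariance, contains
  the exchange sign `+`).
-/

set_option autoImplicit false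
set_option linter.unusedSectionVars false
set_option linter.style.haveILetI false

noncomputable section

open scoped InnerProductSpace Matrix
open Crest.MathPhysics.MatrixQM

namespace Crest.Agent.R330.VacSec255

variable {N : ℕ}

/-- The array of a pair function. -/
def pa (K : E9 → M16) (r : Fin N → E9) : PA N := fun a d => K (r a - r d)

/-- Heavy pairs have a component among the last six directions. -/
def UU (r : Fin N → E9) : Prop := ∀ a d, r a ≠ r d → bp (r a - r d) ≠ 0

theorem dc_pa {K : E9 → M16} (r : Fin N → E9) : DC (pa K r) := fun a d => by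
  simp only [pa, sub_self]

/-- Pointwise verification: light pairs and heavy pairs. -/
theorem pa_cases {r : Fin N → E9} (hr : UU r) (P : E9 → Prop) (h0 : P 0)
    (h1 : ∀ v, bp v ≠ 0 → P v) (a d : Fin N) : P (r a - r d) := by
  by_cases h : r a = r d
  · rw [h, sub_self]
    exact h0
  · exact h1 _ (hr a d h)

variable (b : ColorBasis N) (G : GammaNine)

theorem pa_skew {K : E9 → M16} (h : Good K) (r : Fin N → E9) :
    (Op b (pa K r))ᵀ = -Op b (pa K r) := by
  refine Op_skew b fun a d => ?_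
  change (K (r d - r a))ᵀ = -K (r a - r d)
  rw [← neg_sub (r a) (r d), h.skew]

theorem pa_real {K : E9 → M16} (h : Good K) (r : Fin N → E9) : IsReal (Op b (pa K r)) := by
  refine Op_isReal b fun a d α β => ?_
  change (starRingEnd ℂ) (K (r a - r d) α β) = K (r d - r a) α β
  rw [← neg_sub (r a) (r d), h.real]

theorem pa_cube {K : E9 → M16} (h : Good K) (h2 : ∀ v, bp v ≠ 0 → K v * K v = -1)
    {r : Fin N → E9} (hr : UU r) :
    Op b (pa K r) * Op b (pa K r) * Op b (pa K r) = -Op b (pa K r) := by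
  rw [← Op_mul b _ _ (dc_pa r), ← Op_mul b _ _ (dc_pa r), ← Op_neg]
  congr 1
  funext a d
  refine pa_cases hr (fun v => K v * K v * K v = -K v) ?_ ?_ a d
  · rw [h.zero]; simp
  · intro v hv
    rw [h2 v hv, neg_one_mul]

/-- `rt` of a pair operator. -/
theorem rt_Op {c : PA N} (h : DC c) : rt (Op b c) = Op b (1 + c * c + c) := by
  rw [rt, Op_add, Op_add, Op_one, Op_mul b _ _ h]

/-- Conjugation by the quarter turn. -/
theorem rt_conj {K J J' : E9 → M16} (hJ : Good J) (hJ' : Good J')
    (h2 : ∀ v, bp v ≠ 0 → K v * K v = -1) (h3 : ∀ v, bp v ≠ 0 → K v * J v * -K v = J' v)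
    {r : Fin N → E9} (hr : UU r) :
    rt (Op b (pa K r)) * Op b (pa J r) * rt (-Op b (pa K r)) = Op b (pa J' r) := by
  have d1 : DC (1 + -pa K r * -pa K r + -pa K r) :=
    (DC.one.add ((dc_pa r).neg.mul (dc_pa r).neg)).add (dc_pa r).neg
  rw [← Op_neg, rt_Op b (dc_pa r), rt_Op b (dc_pa r).neg, ← Op_mul b _ _ (dc_pa r),
    ← Op_mul b _ _ d1]
  congr 1
  funext a d
  refine pa_cases hr (fun v => (1 + K v * K v + K v) * J v * (1 + -K v * -K v + -K v) = J' v)
    ?_ ?_ a d
  · rw [hJ.zero, hJ'.zero]; simp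
  · intro v hv
    rw [neg_mul_neg, h2 v hv, add_neg_cancel, zero_add, zero_add, h3 v hv]

/-! ### The section -/

/-- The reference complex structure on the heavy pairs. -/
def Jref (r : Fin N → E9) : Matrix (IX N) (IX N) ℂ := Op b (pa (K0 G) r)

/-- The complex structure of the configuration. -/
def Jop (r : Fin N → E9) : Matrix (IX N) (IX N) ℂ := Op b (pa (Kn G) r)

/-- the intermediate one -/
def Jmid (r : Fin N → E9) : Matrix (IX N) (IX N) ℂ := Op b (pa (Km G) r)

/-- `Jref` depends only on the coincidences. -/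
theorem Jref_congr {r r' : Fin N → E9} (h : ∀ a d, r a = r d ↔ r' a = r' d) :
    Jref b G r = Jref b G r' := by
  unfold Jref
  congr 1
  funext a d
  simp only [pa, K0, sub_eq_zero, h a d]

variable {F : Type*} [NormedAddCommGroup F] [InnerProductSpace ℂ F] [FiniteDimensional ℂ F]

/-- The first quarter turn. -/
def W1 (M : FermionRep N F) (r : Fin N → E9) : F →L[ℂ] F :=
  haveI : CompleteSpace F := FiniteDimensional.complete ℂ F
  W (thC M) (Op b (pa (K1 G) r))

/-- The second quarter turn. -/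
def W2 (M : FermionRep N F) (r : Fin N → E9) : F →L[ℂ] F :=
  haveI : CompleteSpace F := FiniteDimensional.complete ℂ F
  W (thC M) (Op b (pa (K2 G) r))

/-- **The section of heavy vacua.** -/
def Wop (M : FermionRep N F) (r : Fin N → E9) : F →L[ℂ] F := W2 b G M r * W1 b G M r

theorem Wop_apply (M : FermionRep N F) (r : Fin N → E9) (v : F) :
    Wop b G M r v = W2 b G M r (W1 b G M r v) := rfl

theorem W_neg_mul [CompleteSpace F] {I : Type*} [Fintype I] [DecidableEq I]
    (θ : I → (F →L[ℂ] F)) (Q : Matrix I I ℂ) : W θ (-Q) * W θ Q = 1 := by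
  let _ : NormedAlgebra ℚ (F →L[ℂ] F) := NormedAlgebra.restrictScalars ℚ ℂ (F →L[ℂ] F)
  unfold W
  rw [spin_neg, smul_neg, ← NormedSpace.exp_add_of_commute, neg_add_cancel, NormedSpace.exp_zero]
  exact (Commute.refl _).neg_left

theorem W_inner [CompleteSpace F] {I : Type*} [Fintype I] [DecidableEq I]
    {θ : I → (F →L[ℂ] F)} (h : CF θ) {Q : Matrix I I ℂ} (hQ : Qᵀ = -Q) (hr : IsReal Q)
    (v w : F) : ⟪W θ Q v, W θ Q w⟫_ℂ = ⟪v, w⟫_ℂ := by
  have h1 := h.W_unitary hQ hr
  have h2 : star (W θ Q) * W θ Q = 1 := (Unitary.mem_iff.1 h1).1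
  have h3 : ⟪W θ Q v, W θ Q w⟫_ℂ = ⟪v, (star (W θ Q)) (W θ Q w)⟫_ℂ := by
    rw [ContinuousLinearMap.star_eq_adjoint, ContinuousLinearMap.adjoint_inner_right]
  rw [h3]
  have h4 : (star (W θ Q)) (W θ Q w) = w := congrArg (fun T : F →L[ℂ] F => T w) h2
  rw [h4]

variable {M : FermionRep N F}

/-- **The section is isometric.** -/
theorem W1_inner (r : Fin N → E9) (v w : F) :
    ⟪W1 b G M r v, W1 b G M r w⟫_ℂ = ⟪v, w⟫_ℂ := by
  haveI : CompleteSpace F := FiniteDimensional.complete ℂ F
  exact W_inner (cf_thC M) (pa_skew b (good_K1 G) r) (pa_real b (good_K1 G) r) v w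

theorem W2_inner (r : Fin N → E9) (v w : F) :
    ⟪W2 b G M r v, W2 b G M r w⟫_ℂ = ⟪v, w⟫_ℂ := by
  haveI : CompleteSpace F := FiniteDimensional.complete ℂ F
  exact W_inner (cf_thC M) (pa_skew b (good_K2 G) r) (pa_real b (good_K2 G) r) v w

theorem Wop_inner (r : Fin N → E9) (v w : F) :
    ⟪Wop b G M r v, Wop b G M r w⟫_ℂ = ⟪v, w⟫_ℂ := by
  rw [Wop_apply, Wop_apply, W2_inner, W1_inner]

theorem Wop_norm (r : Fin N → E9) (v : F) : ‖Wop b G M r v‖ = ‖v‖ := by
  have h := Wop_inner b G (M := M) r v v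
  rw [inner_self_eq_norm_sq_to_K, inner_self_eq_norm_sq_to_K] at h
  have h2 : ‖Wop b G M r v‖ ^ 2 = ‖v‖ ^ 2 := by exact_mod_cast h
  exact (sq_eq_sq₀ (norm_nonneg _) (norm_nonneg _)).1 h2

theorem Wop_bijective (r : Fin N → E9) : Function.Bijective (Wop b G M r) := by
  have hinj : Function.Injective (Wop b G M r : F →ₗ[ℂ] F) := by
    intro v w h
    have h1 : Wop b G M r (v - w) = 0 := by
      rw [map_sub]
      exact sub_eq_zero.2 h
    have h2 := Wop_norm b G (M := M) r (v - w)
    rw [h1, norm_zero] at h2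
    exact sub_eq_zero.1 (norm_eq_zero.1 h2.symm)
  exact ⟨hinj, LinearMap.injective_iff_surjective.1 hinj⟩

/-- **(B) light generators commute with the section.** `u` is light if its colour matrices vanish
at the heavy pairs. -/
theorem Wop_light {r : Fin N → E9} (hr : UU r) {u : IX N → ℂ}
    (hu : ∀ a d, r a ≠ r d → ∀ β, cm b u β a d = 0) :
    Wop b G M r * th (thC M) u = th (thC M) u * Wop b G M r := by
  haveI : CompleteSpace F := FiniteDimensional.complete ℂ F
  have h0 : ∀ K : E9 → M16, Good K → Op b (pa K r) *ᵥ u = 0 := fun K hK => by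
    refine Op_mulVec_light b fun a d => ?_
    by_cases h : r a = r d
    · left
      change K (r a - r d) = 0
      rw [h, sub_self, hK.zero]
    · exact Or.inr (hu a d h)
  have h1 : W1 b G M r * th (thC M) u = th (thC M) u * W1 b G M r := by
    have := th_through ((cf_thC M).W_theta (pa_skew b (good_K1 G) r)
      (pa_cube b (good_K1 G) (fun v hv => K1_sq G hv) hr)) u
    rwa [rt_mulVec (h0 _ (good_K1 G))] at this
  have h2 : W2 b G M r * th (thC M) u = th (thC M) u * W2 b G M r := by
    have := th_through ((cf_thC M).W_theta (pa_skew b (good_K2 G) r)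
      (pa_cube b (good_K2 G) (fun v hv => K2_sq G hv) hr)) u
    rwa [rt_mulVec (h0 _ (good_K2 G))] at this
  rw [Wop, mul_assoc, h1, ← mul_assoc, h2, mul_assoc]

/-- general transport with inverse -/
theorem pvac_step [CompleteSpace F] {K J J' : E9 → M16} (hK : Good K) (hJ : Good J)
    (hJ' : Good J') (h2 : ∀ v, bp v ≠ 0 → K v * K v = -1)
    (h3 : ∀ v, bp v ≠ 0 → K v * J v * -K v = J' v) {r : Fin N → E9} (hr : UU r) (f : F) :
    PVac (thC M) (Op b (pa J r)) f ↔
      PVac (thC M) (Op b (pa J' r)) (W (thC M) (Op b (pa K r)) f) := by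
  have hsk := pa_skew b hK r
  have hcu := pa_cube b hK h2 hr
  have hcv := rt_conj b hJ hJ' h2 h3 hr
  constructor
  · intro hf
    have h4 := hf.map ((cf_thC M).W_theta hsk hcu) (rt_neg_mul_rt hcu)
    rwa [hcv] at h4
  · intro hf
    have hsk' : (-Op b (pa K r))ᵀ = - -Op b (pa K r) := by
      rw [Matrix.transpose_neg, hsk]
    have h4 := hf.map ((cf_thC M).W_theta hsk' (neg_cube hcu)) (rt_mul_rt_neg hcu)
    have h5 : W (thC M) (-Op b (pa K r)) (W (thC M) (Op b (pa K r)) f) = f :=
      congrArg (fun T : F →L[ℂ] F => T f) (W_neg_mul (thC M) (Op b (pa K r)))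
    have h6 : rt (-Op b (pa K r)) * Op b (pa J' r) * rt (Op b (pa K r)) = Op b (pa J r) := by
      rw [← hcv]
      calc rt (-Op b (pa K r)) * (rt (Op b (pa K r)) * Op b (pa J r) * rt (-Op b (pa K r))) *
            rt (Op b (pa K r))
          = (rt (-Op b (pa K r)) * rt (Op b (pa K r))) * Op b (pa J r) *
            (rt (-Op b (pa K r)) * rt (Op b (pa K r))) := by noncomm_ring
        _ = Op b (pa J r) := by rw [rt_neg_mul_rt hcu, one_mul, mul_one]
    rwa [h5, h6] at h4

theorem pvac_W1_iff {r : Fin N → E9} (hr : UU r) (f : F) :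
    PVac (thC M) (Jref b G r) f ↔ PVac (thC M) (Jmid b G r) (W1 b G M r f) := by
  haveI : CompleteSpace F := FiniteDimensional.complete ℂ F
  exact pvac_step b (good_K1 G) (good_K0 G) (good_Km G) (fun v hv => K1_sq G hv)
    (fun v hv => K1_conj G hv) hr f

theorem pvac_W2_iff {r : Fin N → E9} (hr : UU r) (f : F) :
    PVac (thC M) (Jmid b G r) f ↔ PVac (thC M) (Jop b G r) (W2 b G M r f) := by
  haveI : CompleteSpace F := FiniteDimensional.complete ℂ F
  exact pvac_step b (good_K2 G) (good_Km G) (good_Kn G) (fun v hv => K2_sq G hv)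
    (fun v hv => K2_conj G hv) hr f

/-- **(A) the section maps reference vacua onto the heavy vacua of the configuration.** -/
theorem pvac_Wop_iff {r : Fin N → E9} (hr : UU r) (f : F) :
    PVac (thC M) (Jref b G r) f ↔ PVac (thC M) (Jop b G r) (Wop b G M r f) := by
  rw [pvac_W1_iff b G hr, pvac_W2_iff b G hr]
  rfl

theorem exists_of_pvac {r : Fin N → E9} (hr : UU r) {f : F}
    (hf : PVac (thC M) (Jop b G r) f) :
    ∃ f₀, PVac (thC M) (Jref b G r) f₀ ∧ Wop b G M r f₀ = f := by
  obtain ⟨f₀, h0⟩ := (Wop_bijective b G (M := M) r).2 f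
  refine ⟨f₀, ?_, h0⟩
  rw [pvac_Wop_iff b G hr, h0]
  exact hf

/-! ### Gauge covariance -/

local notation "SU" => Matrix.specialUnitaryGroup (Fin N) ℂ

variable {b}

/-- **(D) gauge covariance.** If `g_ea ≠ 0` only for `r a = r' e` then `ρ(g) W(r) = W(r') ρ(g)`.
In particular the stabiliser of `r` and the permutations of equal clusters act without any sign. -/
theorem rho_Wop (R : GaugeAction b M) (g : SU) {r r' : Fin N → E9}
    (h : ∀ a e, (g : Matrix (Fin N) (Fin N) ℂ) e a ≠ 0 → r a = r' e) :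
    rhoC R g * Wop b G M r = Wop b G M r' * rhoC R g := by
  haveI : CompleteSpace F := FiniteDimensional.complete ℂ F
  have hK : ∀ K : E9 → M16, adI b g * Op b (pa K r) * (adI b g)ᵀ = Op b (pa K r') := fun K =>
    adI_Op_conj b g fun a d e f h1 h2 => by
      change K (r a - r d) = K (r' e - r' f)
      rw [h a e h1, h d f h2]
  have h1 : rhoC R g * W1 b G M r = W1 b G M r' * rhoC R g := by
    have := W_through (rhoC_thC R g) (Op b (pa (K1 G) r))
    rwa [hK] at this
  have h2 : rhoC R g * W2 b G M r = W2 b G M r' * rhoC R g := by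
    have := W_through (rhoC_thC R g) (Op b (pa (K2 G) r))
    rwa [hK] at this
  rw [Wop, ← mul_assoc, h2, mul_assoc, h1, ← mul_assoc, Wop]

theorem rho_Wop_apply (R : GaugeAction b M) (g : SU) {r r' : Fin N → E9}
    (h : ∀ a e, (g : Matrix (Fin N) (Fin N) ℂ) e a ≠ 0 → r a = r' e) (f : F) :
    R.ρ g (Wop b G M r f) = Wop b G M r' (R.ρ g f) :=
  congrArg (fun T : F →L[ℂ] F => T f) (rho_Wop G R g h)

end Crest.Agent.R330.VacSec255
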