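import Crest.Agent.R330.VacSec4_255

/-!
# Row 330 (helper255): smoothness of the section and vanishing of its connection

* `contDiffAt_Wop` : `x ↦ Wop (X x)` is smooth where heavy pairs have a component among the last
  six directions and the light pairs stay light.
* `berry` : `⟪Wop f', (∂_e Wop) f⟫ = 0` for reference vacua `f, f'`.
-/

set_option autoImplicit false
set_option linter.unusedSectionVars false
set_option linter.style.haveILetI false

noncomputable section

open Filter Topology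
open scoped InnerProductSpace Matrix ContDiff
open Crest.MathPhysics.MatrixQM

namespace Crest.Agent.R330.VacSec255

variable {N : ℕ} (b : ColorBasis N) (G : GammaNine)

/-! ### Smoothness of the pair functions -/

/-- entries of `Kv` as continuous linear functionals -/
def KvL (α β : Fin 16) : E9 →L[ℝ] ℂ := LinearMap.toContinuousLinearMap
  { toFun := fun v => Kv G v α β
    map_add' := fun v w => by
      rw [Kv, Kv, Kv, gv_add, smul_add, Matrix.add_apply]
    map_smul' := fun t v => by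
      rw [Kv, Kv, gv_smul, smul_comm, Matrix.smul_apply, RingHom.id_apply]
      rfl }

theorem KvL_apply (α β : Fin 16) (v : E9) : KvL G α β v = Kv G v α β := rfl

theorem contDiffAt_un {v : E9} (h : v ≠ 0) {n : WithTop ℕ∞} : ContDiffAt ℝ n un v :=
  ((contDiffAt_norm ℝ h).inv (norm_ne_zero_iff.2 h)).smul contDiffAt_id

theorem contDiffAt_unbp {v : E9} (h : bp v ≠ 0) {n : WithTop ℕ∞} :
    ContDiffAt ℝ n (fun v => un (bp v)) v :=
  ContDiffAt.comp (g := un) (f := fun v => bp v) v (contDiffAt_un h) bp.contDiff.contDiffAt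

theorem contDiffAt_qv {v : E9} (h : bp v ≠ 0) {n : WithTop ℕ∞} : ContDiffAt ℝ n qv v := by
  have hv : v ≠ 0 := fun h' => h (by rw [h', map_zero])
  exact ContDiffAt.comp v (contDiffAt_un (mid_ne_zero h))
    ((contDiffAt_unbp h).add (contDiffAt_un hv))

/-- A pair function with smooth entries at the heavy vectors. -/
def Smo (K : E9 → M16) : Prop :=
  ∀ v, bp v ≠ 0 → ∀ α β, ∀ n : WithTop ℕ∞, ContDiffAt ℝ n (fun v => K v α β) v

theorem smo_Kv {w : E9 → E9} (h : ∀ v, bp v ≠ 0 → ∀ n : WithTop ℕ∞, ContDiffAt ℝ n w v) :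
    Smo fun v => Kv G (w v) := fun v hv α β n =>
  ContDiffAt.comp v (KvL G α β).contDiff.contDiffAt (h v hv n)

theorem smo_K2 : Smo (K2 G) := smo_Kv G fun _ hv _ => contDiffAt_qv hv

theorem smo_Km : Smo (Km G) := smo_Kv G fun _ hv _ => contDiffAt_unbp hv

theorem smo_Kn : Smo (Kn G) := smo_Kv G fun v hv _ => contDiffAt_un fun h' => hv (by
  rw [h', map_zero])

theorem smo_K0 : Smo (K0 G) := fun v hv α β n => by
  have hv' : v ≠ 0 := fun h' => hv (by rw [h', map_zero])
  have h1 : (fun v => K0 G v α β) =ᶠ[𝓝 v] fun _ => (-Gc G) α β := by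
    filter_upwards [isOpen_ne.mem_nhds hv'] with w hw
    rw [K0, if_neg hw]
  exact contDiffAt_const.congr_of_eventuallyEq h1

theorem smo_K1 : Smo (K1 G) := fun v hv α β n => by
  have h1 : (fun v => K1 G v α β) = fun v =>
      ((Real.sqrt 2)⁻¹ : ℂ) * (K0 G v α β + Km G v α β) := by
    funext w
    rw [K1, Matrix.smul_apply, Matrix.add_apply, smul_eq_mul]
  rw [h1]
  exact contDiffAt_const.mul ((smo_K0 G v hv α β n).add (smo_Km G v hv α β n))

variable {V : Type*} [NormedAddCommGroup V] [NormedSpace ℝ V]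

/-- Entries of a pair array along a smooth family. -/
theorem contDiffAt_pa {K : E9 → M16} (hK : Good K) (hS : Smo K) {X : V → Fin N → E9} {x₀ : V}
    {n : WithTop ℕ∞} (hX : ∀ a, ContDiffAt ℝ n (fun x => X x a) x₀)
    (hp : ∀ᶠ x in 𝓝 x₀, ∀ a d, X x₀ a = X x₀ d → X x a = X x d) (hU : UU (X x₀))
    (a d : Fin N) (α β : Fin 16) : ContDiffAt ℝ n (fun x => pa K (X x) a d α β) x₀ := by
  by_cases h : X x₀ a = X x₀ d
  · have h1 : (fun x => pa K (X x) a d α β) =ᶠ[𝓝 x₀] fun _ => (0 : ℂ) := by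
      filter_upwards [hp] with x hx
      change K (X x a - X x d) α β = 0
      rw [hx a d h, sub_self, hK.zero]
      rfl
    exact contDiffAt_const.congr_of_eventuallyEq h1
  · exact ContDiffAt.comp x₀ (hS _ (hU a d h) α β n) ((hX a).sub (hX d))

theorem contDiffAt_Op {c : V → PA N} {x₀ : V} {n : WithTop ℕ∞}
    (hc : ∀ a d α β, ContDiffAt ℝ n (fun x => c x a d α β) x₀) (p q : IX N) :
    ContDiffAt ℝ n (fun x => Op b (c x) p q) x₀ := by
  simp only [Op_apply]
  refine ContDiffAt.sum fun a _ => ContDiffAt.sum fun d _ => ?_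
  exact (contDiffAt_const.mul (hc a d p.1 q.1)).mul contDiffAt_const

variable {F : Type*} [NormedAddCommGroup F] [InnerProductSpace ℂ F] [FiniteDimensional ℂ F]

theorem contDiffAt_W [CompleteSpace F] {I : Type*} [Fintype I] [DecidableEq I]
    (θ : I → (F →L[ℂ] F)) {Q : V → Matrix I I ℂ} {x₀ : V} {n : WithTop ℕ∞}
    (hQ : ∀ p q, ContDiffAt ℝ n (fun x => Q x p q) x₀) :
    ContDiffAt ℝ n (fun x => W θ (Q x)) x₀ := by
  let _ : NormedAlgebra ℝ (F →L[ℂ] F) := NormedAlgebra.restrictScalars ℝ ℂ (F →L[ℂ] F)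
  have h1 : ContDiffAt ℝ n (fun x => ((Real.pi / 2 : ℝ) : ℂ) • spin θ (Q x)) x₀ := by
    unfold spin
    refine ContDiffAt.const_smul _ (ContDiffAt.const_smul _ ?_)
    exact ContDiffAt.sum fun p _ => ContDiffAt.sum fun q _ => (hQ p q).smul contDiffAt_const
  exact ContDiffAt.comp x₀ (NormedSpace.exp_analytic (𝕂 := ℝ) _).contDiffAt h1

variable {M : FermionRep N F}

theorem contDiffAt_W1 {X : V → Fin N → E9} {x₀ : V}
    {n : WithTop ℕ∞} (hX : ∀ a, ContDiffAt ℝ n (fun x => X x a) x₀)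
    (hp : ∀ᶠ x in 𝓝 x₀, ∀ a d, X x₀ a = X x₀ d → X x a = X x d) (hU : UU (X x₀)) :
    ContDiffAt ℝ n (fun x => W1 b G M (X x)) x₀ := by
  haveI : CompleteSpace F := FiniteDimensional.complete ℂ F
  exact contDiffAt_W (thC M) (contDiffAt_Op b (contDiffAt_pa (good_K1 G) (smo_K1 G) hX hp hU))

theorem contDiffAt_W2 {X : V → Fin N → E9} {x₀ : V}
    {n : WithTop ℕ∞} (hX : ∀ a, ContDiffAt ℝ n (fun x => X x a) x₀)
    (hp : ∀ᶠ x in 𝓝 x₀, ∀ a d, X x₀ a = X x₀ d → X x a = X x d) (hU : UU (X x₀)) :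
    ContDiffAt ℝ n (fun x => W2 b G M (X x)) x₀ := by
  haveI : CompleteSpace F := FiniteDimensional.complete ℂ F
  exact contDiffAt_W (thC M) (contDiffAt_Op b (contDiffAt_pa (good_K2 G) (smo_K2 G) hX hp hU))

/-- **(E) the section is smooth.** -/
theorem contDiffAt_Wop {X : V → Fin N → E9} {x₀ : V}
    {n : WithTop ℕ∞} (hX : ∀ a, ContDiffAt ℝ n (fun x => X x a) x₀)
    (hp : ∀ᶠ x in 𝓝 x₀, ∀ a d, X x₀ a = X x₀ d → X x a = X x d) (hU : UU (X x₀)) :
    ContDiffAt ℝ n (fun x => Wop b G M (X x)) x₀ := by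
  let _ : NormedAlgebra ℝ (F →L[ℂ] F) := NormedAlgebra.restrictScalars ℝ ℂ (F →L[ℂ] F)
  exact (contDiffAt_W2 b G hX hp hU).mul (contDiffAt_W1 b G hX hp hU)

/-! ### The connection -/

/-- derivative of a unit vector is orthogonal to it -/
theorem inner_deriv_unit {w : ℝ → E9} {w' : E9} {t : ℝ} (hw : HasDerivAt w w' t)
    (h1 : ∀ᶠ s in 𝓝 t, ‖w s‖ = 1) : ⟪w', w t⟫_ℝ = 0 := by
  have h2 := hw.norm_sq
  have h3 : (fun s => ‖w s‖ ^ 2) =ᶠ[𝓝 t] fun _ => (1 : ℝ) := by
    filter_upwards [h1] with s hs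
    rw [hs, one_pow]
  have h4 := (h2.congr_of_eventuallyEq h3.symm).unique (hasDerivAt_const t (1 : ℝ))
  rw [real_inner_comm]
  linarith

theorem Kv_anti (u w : E9) : Kv G u * Kv G w + Kv G w * Kv G u =
    -((2 * ⟪u, w⟫_ℝ : ℝ) : ℂ) • (1 : M16) := by
  rw [Kv, Kv, smul_mul_smul_comm, smul_mul_smul_comm, neg_mul_neg, Complex.I_mul_I, ← smul_add,
    gv_anti, smul_smul]
  congr 1
  ring

theorem Kv_anti_zero {u w : E9} (h : ⟪u, w⟫_ℝ = 0) : Kv G u * Kv G w = -(Kv G w * Kv G u) := by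
  have h1 := Kv_anti G u w
  rw [h, mul_zero, Complex.ofReal_zero, neg_zero, zero_smul] at h1
  exact eq_neg_of_add_eq_zero_left h1

/-- The data of one quarter turn along a curve. -/
structure Path (K : E9 → M16) (r : ℝ → Fin N → E9) (t : ℝ) (P : PA N) : Prop where
  deriv : ∀ a d α β, HasDerivAt (fun s => pa K (r s) a d α β) (P a d α β) t
  dc : DC P
  skew : ∀ a d, (P d a)ᵀ = -P a d
  anti : P * pa K (r t) = -(pa K (r t) * P)
  sq : pa K (r t) * pa K (r t) * P = -P

theorem hasDerivAt_Op {c : ℝ → PA N} {P : PA N} {t : ℝ}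
    (hc : ∀ a d α β, HasDerivAt (fun s => c s a d α β) (P a d α β) t) (p q : IX N) :
    HasDerivAt (fun s => Op b (c s) p q) (Op b P p q) t := by
  simp only [Op_apply]
  refine HasDerivAt.fun_sum fun a _ => HasDerivAt.fun_sum fun d _ => ?_
  exact ((hc a d p.1 q.1).const_mul _).mul_const _

/-- `y = P Q` of a path. -/
def yy (P : PA N) (K : E9 → M16) (r : Fin N → E9) : Matrix (IX N) (IX N) ℂ :=
  Op b P * Op b (pa K r)

theorem Path.hasDerivAt_W [CompleteSpace F] {K : E9 → M16} {r : ℝ → Fin N → E9} {t : ℝ}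
    {P : PA N} (h : Path K r t P) (hK : Good K) (h2 : ∀ v, bp v ≠ 0 → K v * K v = -1)
    (hr : UU (r t)) :
    HasDerivAt (fun s => W (thC M) (Op b (pa K (r s))))
      (W (thC M) (Op b (pa K (r t))) * spin (thC M) (yy b P K (r t))) t := by
  refine (cf_thC M).hasDerivAt_W (hasDerivAt_Op b h.deriv) (pa_skew b hK _) (Op_skew b h.skew)
    (pa_cube b hK h2 hr) ?_ ?_
  · rw [← Op_mul b _ _ (dc_pa _), ← Op_mul b _ _ h.dc, ← Op_neg, h.anti]
  · rw [← Op_mul b _ _ (dc_pa _), ← Op_mul b _ _ h.dc, ← Op_neg, h.sq]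

/-- The bilinear of a path in a partial vacuum. -/
theorem Path.inner_spin [CompleteSpace F] {K J : E9 → M16} {r : ℝ → Fin N → E9} {t : ℝ}
    {P : PA N} (h : Path K r t P) (hK : Good K) (hJ : Good J)
    (h2 : ∀ v, bp v ≠ 0 → K v * K v = -1) (h3 : ∀ v, bp v ≠ 0 → J v * J v = -1)
    (hr : UU (r t)) (htr : ∀ a d, (P a d * K (r t a - r t d) * J (r t a - r t d)).trace = 0)
    {f f' : F} (hf : PVac (thC M) (Op b (pa J (r t))) f)
    (hf' : PVac (thC M) (Op b (pa J (r t))) f') :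
    ⟪f', spin (thC M) (yy b P K (r t)) f⟫_ℂ = 0 := by
  have hkd := dc_pa (K := K) (r t)
  have hjd := dc_pa (K := J) (r t)
  -- pointwise
  have hJK : pa J (r t) * pa J (r t) * pa K (r t) = -pa K (r t) := by
    funext a d
    refine pa_cases hr (fun v => J v * J v * K v = -K v) ?_ ?_ a d
    · rw [hK.zero]; simp
    · intro v hv
      rw [h3 v hv, neg_one_mul]
  have hKJ : pa K (r t) * (pa J (r t) * pa J (r t)) = -pa K (r t) := by
    funext a d
    refine pa_cases hr (fun v => K v * (J v * J v) = -K v) ?_ ?_ a d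
    · rw [hK.zero]; simp
    · intro v hv
      rw [h3 v hv, mul_neg, mul_one]
  have hy : yy b P K (r t) = Op b (P * pa K (r t)) := by rw [yy, Op_mul b _ _ hkd]
  have hy2 : yy b P K (r t) = -Op b (pa K (r t) * P) := by rw [hy, h.anti, Op_neg]
  have hskew : (yy b P K (r t))ᵀ = -yy b P K (r t) := by
    rw [yy, Matrix.transpose_mul, pa_skew b hK, Op_skew b h.skew, neg_mul_neg,
      ← Op_mul b _ _ h.dc]
    rw [← yy, hy2, neg_neg]
  have h5 : Op b (pa J (r t)) * Op b (pa J (r t)) * yy b P K (r t) = -yy b P K (r t) := by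
    rw [hy2, mul_neg, ← Op_mul b _ _ hjd, ← Op_mul b _ _ (hkd.mul h.dc), ← mul_assoc, hJK,
      neg_mul, Op_neg]
  have h6 : yy b P K (r t) * (Op b (pa J (r t)) * Op b (pa J (r t))) = -yy b P K (r t) := by
    rw [hy, ← Op_mul b _ _ hjd, ← Op_mul b _ _ (hjd.mul hjd), mul_assoc, hKJ, mul_neg, Op_neg]
  rw [hf.inner_spin (cf_thC M) hf' (pa_skew b hJ _) (pa_real b hJ _) hskew h5 h6]
  have h7 : (yy b P K (r t) * Op b (pa J (r t))).trace = 0 := by
    rw [hy, ← Op_mul b _ _ hjd]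
    exact Op_trace b htr
  rw [h7, mul_zero, zero_mul]

/-- differences along a curve -/
def dd (r : ℝ → Fin N → E9) (a d : Fin N) (s : ℝ) : E9 := r s a - r s d

variable {r : ℝ → Fin N → E9} {t : ℝ}

/-- a vector valued pair function along a curve -/
theorem hasDerivAt_pair {w : E9 → E9} (h0 : w 0 = 0)
    (hw : ∀ v, bp v ≠ 0 → DifferentiableAt ℝ w v)
    (hr : ∀ a, DifferentiableAt ℝ (fun s => r s a) t)
    (hp : ∀ᶠ s in 𝓝 t, ∀ a d, r t a = r t d → r s a = r s d) (hU : UU (r t)) (a d : Fin N) :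
    HasDerivAt (fun s => w (r s a - r s d)) (deriv (fun s => w (r s a - r s d)) t) t := by
  by_cases h : r t a = r t d
  · have h1 : (fun s => w (r s a - r s d)) =ᶠ[𝓝 t] fun _ => (0 : E9) := by
      filter_upwards [hp] with s hs
      rw [hs a d h, sub_self, h0]
    exact ((hasDerivAt_const t (0 : E9)).congr_of_eventuallyEq h1).differentiableAt.hasDerivAt
  · have h1 : DifferentiableAt ℝ (fun s => w (r s a - r s d)) t :=
      DifferentiableAt.comp (f := fun s => r s a - r s d) t (hw _ (hU a d h))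
        ((hr a).sub (hr d))
    exact h1.hasDerivAt

theorem deriv_pair_light {w : E9 → E9} (h0 : w 0 = 0)
    (hp : ∀ᶠ s in 𝓝 t, ∀ a d, r t a = r t d → r s a = r s d) {a d : Fin N}
    (h : r t a = r t d) : deriv (fun s => w (r s a - r s d)) t = 0 := by
  have h1 : (fun s => w (r s a - r s d)) =ᶠ[𝓝 t] fun _ => (0 : E9) := by
    filter_upwards [hp] with s hs
    rw [hs a d h, sub_self, h0]
  rw [h1.deriv_eq, deriv_const]

theorem deriv_pair_odd {w : E9 → E9} (hn : ∀ v, w (-v) = -w v) (a d : Fin N) :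
    deriv (fun s => w (r s d - r s a)) t = -deriv (fun s => w (r s a - r s d)) t := by
  rw [← deriv.fun_neg]
  congr 1
  funext s
  rw [← neg_sub, hn]

/-- near `t` the heavy pairs stay in `bp ≠ 0` -/
theorem eventually_bp (hr : ∀ a, DifferentiableAt ℝ (fun s => r s a) t) (hU : UU (r t))
    {a d : Fin N} (h : r t a ≠ r t d) : ∀ᶠ s in 𝓝 t, bp (r s a - r s d) ≠ 0 := by
  have h1 : ContinuousAt (fun s => bp (r s a - r s d)) t :=
    bp.continuous.continuousAt.comp ((hr a).sub (hr d)).continuousAt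
  exact h1.eventually_ne (hU a d h)

theorem norm_deriv_pair {w : E9 → E9} (h0 : w 0 = 0)
    (hw : ∀ v, bp v ≠ 0 → DifferentiableAt ℝ w v) (h1 : ∀ v, bp v ≠ 0 → ‖w v‖ = 1)
    (hr : ∀ a, DifferentiableAt ℝ (fun s => r s a) t)
    (hp : ∀ᶠ s in 𝓝 t, ∀ a d, r t a = r t d → r s a = r s d) (hU : UU (r t)) (a d : Fin N) :
    ⟪deriv (fun s => w (r s a - r s d)) t, w (r t a - r t d)⟫_ℝ = 0 := by
  by_cases h : r t a = r t d
  · rw [deriv_pair_light h0 hp h, inner_zero_left]
  · refine inner_deriv_unit (w := fun s => w (r s a - r s d))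
      (hasDerivAt_pair h0 hw hr hp hU a d) ?_
    filter_upwards [eventually_bp hr hU h] with s hs
    exact h1 _ hs

/-- **A curve of Clifford directions.** -/
theorem path_Kv {w : E9 → E9} (h0 : w 0 = 0) (hn : ∀ v, w (-v) = -w v)
    (hw : ∀ v, bp v ≠ 0 → DifferentiableAt ℝ w v) (h1 : ∀ v, bp v ≠ 0 → ‖w v‖ = 1)
    (hr : ∀ a, DifferentiableAt ℝ (fun s => r s a) t)
    (hp : ∀ᶠ s in 𝓝 t, ∀ a d, r t a = r t d → r s a = r s d) (hU : UU (r t)) :
    Path (fun v => Kv G (w v)) r t fun a d => Kv G (deriv (fun s => w (r s a - r s d)) t) where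
  deriv := fun a d α β =>
    (KvL G α β).hasFDerivAt.comp_hasDerivAt t (hasDerivAt_pair h0 hw hr hp hU a d)
  dc := fun a d => by simp only [sub_self]
  skew := fun a d => by
    rw [Kv_transpose, deriv_pair_odd hn, Kv_neg]
  anti := by
    funext a d
    exact Kv_anti_zero G (norm_deriv_pair h0 hw h1 hr hp hU a d)
  sq := by
    funext a d
    by_cases h : r t a = r t d
    · change Kv G (w (r t a - r t d)) * Kv G (w (r t a - r t d)) *
        Kv G (deriv (fun s => w (r s a - r s d)) t) = -Kv G (deriv (fun s => w (r s a - r s d)) t)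
      rw [deriv_pair_light h0 hp h, Kv_zero, mul_zero, neg_zero]
    · change Kv G (w (r t a - r t d)) * Kv G (w (r t a - r t d)) *
        Kv G (deriv (fun s => w (r s a - r s d)) t) = -Kv G (deriv (fun s => w (r s a - r s d)) t)
      rw [Kv_sq G (h1 _ (hU a d h)), neg_one_mul]

theorem norm_qv {v : E9} (h : bp v ≠ 0) : ‖qv v‖ = 1 := norm_un (mid_ne_zero h)

theorem unbp_neg (v : E9) : un (bp (-v)) = -un (bp v) := by rw [map_neg, un_neg]

theorem unbp_zero : un (bp 0) = 0 := by rw [map_zero, un_zero]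

/-- derivative array of the second turn -/
def P2 (r : ℝ → Fin N → E9) (t : ℝ) : PA N := fun a d =>
  Kv G (deriv (fun s => qv (r s a - r s d)) t)

/-- derivative array of the middle structure -/
def Pm (r : ℝ → Fin N → E9) (t : ℝ) : PA N := fun a d =>
  Kv G (deriv (fun s => un (bp (r s a - r s d))) t)

/-- derivative array of the first turn -/
def P1 (r : ℝ → Fin N → E9) (t : ℝ) : PA N := ((Real.sqrt 2)⁻¹ : ℂ) • Pm G r t

theorem path_K2 (hr : ∀ a, DifferentiableAt ℝ (fun s => r s a) t)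
    (hp : ∀ᶠ s in 𝓝 t, ∀ a d, r t a = r t d → r s a = r s d) (hU : UU (r t)) :
    Path (K2 G) r t (P2 G r t) :=
  path_Kv G qv_zero qv_neg (fun _ hv => (contDiffAt_qv hv).differentiableAt one_ne_zero)
    (fun _ hv => norm_qv hv) hr hp hU

theorem path_Km (hr : ∀ a, DifferentiableAt ℝ (fun s => r s a) t)
    (hp : ∀ᶠ s in 𝓝 t, ∀ a d, r t a = r t d → r s a = r s d) (hU : UU (r t)) :
    Path (Km G) r t (Pm G r t) :=
  path_Kv G (w := fun v => un (bp v)) unbp_zero unbp_neg
    (fun _ hv => (contDiffAt_unbp hv).differentiableAt one_ne_zero)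
    (fun _ hv => norm_un hv) hr hp hU

/-- the derivative of the b-direction is a b-direction -/
theorem bp_deriv (hr : ∀ a, DifferentiableAt ℝ (fun s => r s a) t)
    (hp : ∀ᶠ s in 𝓝 t, ∀ a d, r t a = r t d → r s a = r s d) (hU : UU (r t)) (a d : Fin N) :
    bp (deriv (fun s => un (bp (r s a - r s d))) t) =
      deriv (fun s => un (bp (r s a - r s d))) t := by
  have h1 := hasDerivAt_pair (w := fun v => un (bp v)) unbp_zero
    (fun _ hv => (contDiffAt_unbp hv).differentiableAt one_ne_zero) hr hp hU a d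
  have h2 := bp.hasFDerivAt.comp_hasDerivAt t h1
  have h3 : (bp ∘ fun s => un (bp (r s a - r s d))) = fun s => un (bp (r s a - r s d)) := by
    funext s
    exact bp_un (bp_bp _)
  rw [h3] at h2
  exact h2.unique h1

theorem K0_mul_Kv {v w : E9} (h : bp w = w) : K0 G v * Kv G w = -(Kv G w * K0 G v) := by
  unfold K0
  split_ifs
  · rw [zero_mul, mul_zero, neg_zero]
  · rw [Kv, mul_smul_comm, smul_mul_assoc, mul_neg, neg_mul, gv_Gc G h, neg_neg, smul_neg]

theorem path_K1 (hr : ∀ a, DifferentiableAt ℝ (fun s => r s a) t)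
    (hp : ∀ᶠ s in 𝓝 t, ∀ a d, r t a = r t d → r s a = r s d) (hU : UU (r t)) :
    Path (K1 G) r t (P1 G r t) where
  deriv := fun a d α β => by
    have h1 := (path_Km G hr hp hU).deriv a d α β
    have h2 : HasDerivAt (fun s => pa (K0 G) (r s) a d α β) 0 t := by
      by_cases h : r t a = r t d
      · have h3 : (fun s => pa (K0 G) (r s) a d α β) =ᶠ[𝓝 t] fun _ => (0 : ℂ) := by
          filter_upwards [hp] with s hs
          change K0 G (r s a - r s d) α β = 0
          rw [hs a d h, sub_self, (good_K0 G).zero]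
          rfl
        exact (hasDerivAt_const t (0 : ℂ)).congr_of_eventuallyEq h3
      · have h3 : (fun s => pa (K0 G) (r s) a d α β) =ᶠ[𝓝 t] fun _ => (-Gc G) α β := by
          filter_upwards [eventually_bp hr hU h] with s hs
          change K0 G (r s a - r s d) α β = _
          rw [K0, if_neg fun h' => hs (by rw [h', map_zero])]
        exact (hasDerivAt_const t _).congr_of_eventuallyEq h3
    have h4 := (h2.add h1).const_mul ((Real.sqrt 2)⁻¹ : ℂ)
    rw [zero_add] at h4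
    exact h4
  dc := (path_Km G hr hp hU).dc.smul _
  skew := fun a d => by
    change (((Real.sqrt 2)⁻¹ : ℂ) • Pm G r t d a)ᵀ = -(((Real.sqrt 2)⁻¹ : ℂ) • Pm G r t a d)
    rw [Matrix.transpose_smul, (path_Km G hr hp hU).skew, smul_neg]
  anti := by
    have h1 := (path_Km G hr hp hU).anti
    funext a d
    have h2 := congrFun (congrFun h1 a) d
    have h3 : K0 G (r t a - r t d) * Pm G r t a d = -(Pm G r t a d * K0 G (r t a - r t d)) :=
      K0_mul_Kv G (bp_deriv hr hp hU a d)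
    change Pm G r t a d * Km G (r t a - r t d) = -(Km G (r t a - r t d) * Pm G r t a d) at h2
    change (((Real.sqrt 2)⁻¹ : ℂ) • Pm G r t a d) *
      (((Real.sqrt 2)⁻¹ : ℂ) • (K0 G (r t a - r t d) + Km G (r t a - r t d))) =
      -((((Real.sqrt 2)⁻¹ : ℂ) • (K0 G (r t a - r t d) + Km G (r t a - r t d))) *
        (((Real.sqrt 2)⁻¹ : ℂ) • Pm G r t a d))
    rw [smul_mul_smul_comm, smul_mul_smul_comm, mul_add, add_mul, h2, h3, ← smul_neg]
    congr 1
    abel
  sq := by
    funext a d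
    by_cases h : r t a = r t d
    · have h2 : P1 G r t a d = 0 := by
        change ((Real.sqrt 2)⁻¹ : ℂ) • Kv G (deriv (fun s => un (bp (r s a - r s d))) t) = 0
        have := deriv_pair_light (w := fun v => un (bp v)) unbp_zero hp h
        rw [this, Kv_zero, smul_zero]
      change K1 G (r t a - r t d) * K1 G (r t a - r t d) * P1 G r t a d = -P1 G r t a d
      rw [h2, mul_zero, neg_zero]
    · change K1 G (r t a - r t d) * K1 G (r t a - r t d) * P1 G r t a d = -P1 G r t a d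
      rw [K1_sq G (hU a d h), neg_one_mul]

/-- **The derivative of the section along a curve has no component between the heavy vacua.** -/
theorem exists_hasDerivAt_Wop (hr : ∀ a, DifferentiableAt ℝ (fun s => r s a) t)
    (hp : ∀ᶠ s in 𝓝 t, ∀ a d, r t a = r t d → r s a = r s d) (hU : UU (r t)) :
    ∃ D : F →L[ℂ] F, HasDerivAt (fun s => Wop b G M (r s)) D t ∧
      ∀ f f', PVac (thC M) (Jref b G (r t)) f → PVac (thC M) (Jref b G (r t)) f' →
        ⟪Wop b G M (r t) f', D f⟫_ℂ = 0 := by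
  haveI : CompleteSpace F := FiniteDimensional.complete ℂ F
  have d2 : HasDerivAt (fun s => W2 b G M (r s))
      (W2 b G M (r t) * spin (thC M) (yy b (P2 G r t) (K2 G) (r t))) t :=
    (path_K2 G hr hp hU).hasDerivAt_W b (good_K2 G) (fun v hv => K2_sq G hv) hU
  have d1 : HasDerivAt (fun s => W1 b G M (r s))
      (W1 b G M (r t) * spin (thC M) (yy b (P1 G r t) (K1 G) (r t))) t :=
    (path_K1 G hr hp hU).hasDerivAt_W b (good_K1 G) (fun v hv => K1_sq G hv) hU
  let _ : NormedAlgebra ℝ (F →L[ℂ] F) := NormedAlgebra.restrictScalars ℝ ℂ (F →L[ℂ] F)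
  refine ⟨_, d2.mul d1, fun f f' hf hf' => ?_⟩
  set S2 := spin (thC M) (yy b (P2 G r t) (K2 G) (r t)) with hS2
  set S1 := spin (thC M) (yy b (P1 G r t) (K1 G) (r t)) with hS1
  have e1 : (W2 b G M (r t) * S2 * W1 b G M (r t) + W2 b G M (r t) * (W1 b G M (r t) * S1)) f =
      W2 b G M (r t) (S2 (W1 b G M (r t) f)) + W2 b G M (r t) (W1 b G M (r t) (S1 f)) := rfl
  have t2 : ⟪W1 b G M (r t) f', S2 (W1 b G M (r t) f)⟫_ℂ = 0 := by
    refine (path_K2 G hr hp hU).inner_spin b (good_K2 G) (good_Km G) (fun v hv => K2_sq G hv)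
      (fun v hv => Km_sq G hv) hU ?_ ((pvac_W1_iff b G hU f).1 hf) ((pvac_W1_iff b G hU f').1 hf')
    intro a d
    change (Kv G _ * Kv G _ * Kv G _).trace = 0
    simp only [Kv, smul_mul_smul_comm, Matrix.trace_smul, trace_gv3, smul_zero]
  have t1 : ⟪f', S1 f⟫_ℂ = 0 := by
    refine (path_K1 G hr hp hU).inner_spin b (good_K1 G) (good_K0 G) (fun v hv => K1_sq G hv)
      (fun v hv => K0_sq G hv) hU ?_ hf hf'
    intro a d
    set v := r t a - r t d with hv
    change ((((Real.sqrt 2)⁻¹ : ℂ) • Kv G (deriv (fun s => un (bp (r s a - r s d))) t)) *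
      (((Real.sqrt 2)⁻¹ : ℂ) • (K0 G v + Kv G (un (bp v)))) * K0 G v).trace = 0
    set u := deriv (fun s => un (bp (r s a - r s d))) t
    rw [smul_mul_smul_comm, smul_mul_assoc, Matrix.trace_smul]
    have h1 : (Kv G u * (K0 G v + Kv G (un (bp v))) * K0 G v).trace = 0 := by
      unfold K0
      split_ifs
      · rw [mul_zero, Matrix.trace_zero]
      · have h2 : Kv G u * (-Gc G + Kv G (un (bp v))) * -Gc G =
            Kv G u * (Gc G * Gc G) - Kv G u * Kv G (un (bp v)) * Gc G := by noncomm_ring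
        rw [h2, Gc_sq, Matrix.trace_sub, mul_neg, mul_one, Matrix.trace_neg]
        simp only [Kv, mul_smul_comm, smul_mul_assoc, Matrix.trace_smul, trace_gv,
          trace_gv2_Gc, smul_zero, neg_zero, sub_zero]
    rw [h1, smul_zero]
  change ⟪Wop b G M (r t) f', (W2 b G M (r t) * S2 * W1 b G M (r t) +
    W2 b G M (r t) * (W1 b G M (r t) * S1)) f⟫_ℂ = 0
  rw [e1, inner_add_right, Wop_apply, W2_inner, W2_inner, W1_inner, t2, t1, add_zero]

/-- **(F) the connection of the section vanishes.** -/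
theorem berry {X : V → Fin N → E9} {x₀ : V} (hX : ∀ a, ContDiffAt ℝ 1 (fun x => X x a) x₀)
    (hp : ∀ᶠ x in 𝓝 x₀, ∀ a d, X x₀ a = X x₀ d → X x a = X x d) (hU : UU (X x₀)) (e : V)
    {f f' : F} (hf : PVac (thC M) (Jref b G (X x₀)) f)
    (hf' : PVac (thC M) (Jref b G (X x₀)) f') :
    ⟪Wop b G M (X x₀) f', fderiv ℝ (fun x => Wop b G M (X x)) x₀ e f⟫_ℂ = 0 := by
  have hl : HasDerivAt (fun s : ℝ => x₀ + s • e) e 0 := by
    simpa using ((hasDerivAt_id (0 : ℝ)).smul_const e).const_add x₀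
  have h0 : x₀ + (0 : ℝ) • e = x₀ := by rw [zero_smul, add_zero]
  have hr : ∀ a, DifferentiableAt ℝ (fun s : ℝ => X (x₀ + s • e) a) 0 := fun a => by
    have h1 : DifferentiableAt ℝ (fun x => X x a) (x₀ + (0 : ℝ) • e) := by
      rw [h0]
      exact (hX a).differentiableAt one_ne_zero
    exact DifferentiableAt.comp (f := fun s : ℝ => x₀ + s • e) 0 h1 hl.differentiableAt
  have hp' : ∀ᶠ s : ℝ in 𝓝 0, ∀ a d, X (x₀ + (0 : ℝ) • e) a = X (x₀ + (0 : ℝ) • e) d →
      X (x₀ + s • e) a = X (x₀ + s • e) d := by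
    rw [h0]
    have h1 : Tendsto (fun s : ℝ => x₀ + s • e) (𝓝 0) (𝓝 x₀) := by
      have := hl.continuousAt.tendsto
      rwa [h0] at this
    exact h1.eventually hp
  obtain ⟨D, hD, hi⟩ := exists_hasDerivAt_Wop b G (M := M) (r := fun s : ℝ => X (x₀ + s • e))
    (t := 0) hr hp' (by rw [h0]; exact hU)
  have h2 : HasDerivAt (fun s : ℝ => Wop b G M (X (x₀ + s • e)))
      (fderiv ℝ (fun x => Wop b G M (X x)) x₀ e) 0 := by
    have h3 : HasFDerivAt (fun x => Wop b G M (X x)) (fderiv ℝ (fun x => Wop b G M (X x)) x₀)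
        (x₀ + (0 : ℝ) • e) := by
      rw [h0]
      exact ((contDiffAt_Wop b G hX hp hU).differentiableAt one_ne_zero).hasFDerivAt
    exact h3.comp_hasDerivAt 0 hl
  have h4 := hi f f' (by rw [h0]; exact hf) (by rw [h0]; exact hf')
  rw [h0] at h4
  rw [h2.unique hD]
  exact h4

/-- the same, against every heavy vacuum of the configuration -/
theorem berry' {X : V → Fin N → E9} {x₀ : V} (hX : ∀ a, ContDiffAt ℝ 1 (fun x => X x a) x₀)
    (hp : ∀ᶠ x in 𝓝 x₀, ∀ a d, X x₀ a = X x₀ d → X x a = X x d) (hU : UU (X x₀)) (e : V)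
    {f h : F} (hf : PVac (thC M) (Jref b G (X x₀)) f)
    (hh : PVac (thC M) (Jop b G (X x₀)) h) :
    ⟪h, fderiv ℝ (fun x => Wop b G M (X x)) x₀ e f⟫_ℂ = 0 := by
  obtain ⟨f', hf', rfl⟩ := exists_of_pvac b G hU hh
  exact berry b G hX hp hU e hf hf'

end Crest.Agent.R330.VacSec255
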