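import Crest.Agent.R330.VacC_288
import Crest.Agent.R330.Cliff7_442
import Crest.Agent.R330.AEq_288
import Crest.Agent.R330.Kill_942
import Crest.Agent.R330.IrrX_566
import Crest.Agent.R330.SlU_692
import Crest.Agent.R330.Contr_973

/-!
# Row 330, S8-PAIR (V*) in the names of `TDef_414` (helper288)

* `act_frame`, `frame_centre`, `grad_blk` : the frame vector `Σ_a [om_p t_a, t_a]` commutes with the
  stabiliser algebra; the gradient of `log |det J|` at a centre position has no block component.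
* `A_eq'`, `range_U`, `star_proj` : `P.A X = AXc`, `P.U X '' Fl = vacJ (Jc ..)`, its orthogonal
  projection is `proj`.
* `ctr` : the contraction rules for `proj (Jc ..)`.
* `vstar` : (V*), `vstar_j` : with the density of a chart, over the centre directions.
-/

set_option autoImplicit false
set_option linter.unusedSectionVars false

open scoped InnerProductSpace ContDiff

noncomputable section

namespace Crest.Agent.R330.VacT288

open Crest.MathPhysics.MatrixQM
open Crest.Agent.R330.AX984 Crest.Agent.R330.GBind984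
open Crest.Agent.R330.FactI161 Crest.Agent.R330.HMain942 Crest.Agent.R330.Cliff442
open Crest.Agent.R330.Bind6839 Crest.Agent.R330.LS839 Crest.Agent.R330.Frame839
open Crest.Agent.R330.Defs478 Crest.Agent.R330.TDef414 Crest.Agent.R330.VacC288
open Crest.Agent.R330.Kill942 Crest.Agent.R330.AEq288 Crest.Agent.R330.Clus839
open Crest.Agent.R330.Lift406 (Bop)
open Crest.Agent.R330.SlB314 (Nor)

variable {N : ℕ} {b : ColorBasis N}

/-! ## The frame vector is centralised -/

section frame

variable {c q : Cfg N} {r B : ℝ}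

theorem act_act (T η : Colg N) (x : Cfg N) :
    actB b T (actB b η x) = actB b ((colAlg b).br T η) x + actB b η (actB b T x) := by
  refine ext_comp fun i => ?_
  rw [comp_add, comp_act, comp_act, comp_act, comp_act, comp_act, (colAlg b).jac]

theorem act_cen (hq : Cen b c q) {T : Colg N} (hT : T ∈ kc (actB b) c) : actB b T q = 0 := by
  refine ext_comp fun i => ?_
  rw [comp_act, hq i T hT, comp_zero]

theorem act_Tn {T : Colg N} (hT : T ∈ kc (actB b) c) {t : Cfg N} (ht : t ∈ Tn (actB b) c) :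
    actB b T t ∈ Tn (actB b) c := by
  obtain ⟨η, rfl⟩ := ht
  have h1 : actB b T (actB b η c) = actB b ((colAlg b).br T η) c := by
    rw [act_act]
    have : actB b T c = 0 := hT
    rw [this, map_zero, add_zero]
  exact ⟨(colAlg b).br T η, h1.symm⟩

theorem act_Tn_orth {T : Colg N} (hT : T ∈ kc (actB b) c) {t : Cfg N}
    (ht : t ∈ (Tn (actB b) c)ᗮ) : actB b T t ∈ (Tn (actB b) c)ᗮ := by
  rw [Submodule.mem_orthogonal]
  intro u hu
  have h1 : ⟪actB b T u, t⟫_ℝ = 0 := (Submodule.mem_orthogonal _ _).1 ht _ (act_Tn hT hu)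
  rw [VacJ288.actB_skew] at h1
  linarith

/-- `[T, ·]` on the tangent space -/
def tT (T : kc (actB b) c) : Tn (actB b) c →ₗ[ℝ] Tn (actB b) c :=
  ((actB b T).toLinearMap).restrict fun _ ht => act_Tn T.2 ht

theorem tT_coe (T : kc (actB b) c) (t : Tn (actB b) c) :
    ((tT T t : Tn (actB b) c) : Cfg N) = actB b T t := rfl

/-- `om_q` is equivariant under the stabiliser algebra. -/
theorem om_tT (hr0 : 0 < r) (hr : GapAt (actB b) c r) (hB : ActBound (actB b) B)
    (hq : Cen b c q) (hx : B * ‖q - c‖ ≤ r / 2) (T : kc (actB b) c) (t : Tn (actB b) c) :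
    (om (actB b) c q (tT T t) : Colg N) = (colAlg b).br T (om (actB b) c q t : Colg N) := by
  set w : (kc (actB b) c)ᗮ := om (actB b) c q t with hw
  have hmem : (colAlg b).br (T : Colg N) (w : Colg N) ∈ (kc (actB b) c)ᗮ :=
    br_mem_kc_orth T.2 w.2
  have h1 : S (actB b) c q ⟨_, hmem⟩ = tT T t := by
    apply Subtype.ext
    rw [tT_coe]
    have h2 : ((S (actB b) c q ⟨_, hmem⟩ : Tn (actB b) c) : Cfg N) =
        (Tn (actB b) c).starProjection (actB b ((colAlg b).br (T : Colg N) (w : Colg N)) q) := rfl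
    have h3 : actB b ((colAlg b).br (T : Colg N) (w : Colg N)) q =
        actB b T (actB b (w : Colg N) q) := by
      rw [act_act, act_cen hq T.2, map_zero, add_zero]
    have h4 : (Tn (actB b) c).starProjection (actB b T (actB b (w : Colg N) q)) =
        actB b T ((Tn (actB b) c).starProjection (actB b (w : Colg N) q)) :=
      (proj_comm (Tn (actB b) c) (actB b T).toLinearMap (fun u hu => act_Tn T.2 hu)
        (fun u hu => act_Tn_orth T.2 hu) _).symm
    have h5 : (Tn (actB b) c).starProjection (actB b (w : Colg N) q) = t := by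
      have h6 := congrArg (fun t : Tn (actB b) c => (t : Cfg N)) (S_om hr0 hr hB hx t)
      exact h6
    rw [h2, h3, h4, h5]
  have h2 := om_S hr0 hr hB hx ⟨_, hmem⟩
  rw [h1] at h2
  rw [h2]

/-- **The frame vector commutes with the stabiliser algebra.** -/
theorem act_frame (hr0 : 0 < r) (hr : GapAt (actB b) c r) (hB : ActBound (actB b) B)
    (hq : Cen b c q) (hx : B * ‖q - c‖ ≤ r / 2) (T : kc (actB b) c) {κ : Type*} [Fintype κ]
    (t : OrthonormalBasis κ ℝ (Tn (actB b) c)) :
    actB b T (∑ a, actB b (om (actB b) c q (t a)) (t a)) = 0 := by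
  have h1 : ∀ a, actB b T (actB b (om (actB b) c q (t a)) (t a)) =
      actB b (om (actB b) c q (tT T (t a))) (t a) +
        actB b (om (actB b) c q (t a)) (tT T (t a)) := by
    intro a
    rw [act_act, om_tT hr0 hr hB hq hx T, tT_coe]
  rw [map_sum, Finset.sum_congr rfl fun a _ => h1 a, Finset.sum_add_distrib]
  set f : Tn (actB b) c →ₗ[ℝ] Tn (actB b) c →ₗ[ℝ] Cfg N :=
    LinearMap.mk₂ ℝ (fun u v => actB b (om (actB b) c q u) (v : Cfg N))
      (fun u u' v => by
        rw [map_add, Submodule.coe_add, map_add, add_apply])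
      (fun r u v => by
        rw [map_smul, Submodule.coe_smul, map_smul, smul_apply])
      (fun u v v' => by rw [Submodule.coe_add, map_add])
      (fun r u v => by rw [Submodule.coe_smul, map_smul]) with hf
  have h2 := sum_adj f t (tT T) (-tT T) fun u v => by
    rw [LinearMap.neg_apply, inner_neg_right]
    exact VacJ288.actB_skew b _ _ _
  have h3 : ∑ a, f (tT T (t a)) (t a) = ∑ a, actB b (om (actB b) c q (tT T (t a))) (t a) := rfl
  have h4 : ∑ a, f (t a) ((-tT T) (t a)) =
      -∑ a, actB b (om (actB b) c q (t a)) (tT T (t a)) := by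
    rw [← Finset.sum_neg_distrib]
    refine Finset.sum_congr rfl fun a _ => ?_
    rw [LinearMap.neg_apply, map_neg]
    rfl
  rw [← h3, h2, h4, neg_add_cancel]

/-- components of the light part of the frame vector commute with the stabiliser algebra -/
theorem frame_centre (hr0 : 0 < r) (hr : GapAt (actB b) c r)
    (hB : ActBound (actB b) B) (hq : Cen b c q) (hx : B * ‖q - c‖ ≤ r / 2)
    {κ : Type*} [Fintype κ] (t : OrthonormalBasis κ ℝ (Tn (actB b) c)) {T : Colg N}
    (hT : T ∈ kc (actB b) c) (i : Fin 9) :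
    (colAlg b).br T (comp ((Uk b c).starProjection
      (∑ a, actB b (om (actB b) c q (t a)) (t a))) i) = 0 := by
  rw [comp_proj]
  have h1 := proj_comm (kc (actB b) c) ((colAlg b).br T) (fun u hu => br_mem_kc hT hu)
    (fun u hu => br_mem_kc_orth hT hu) (comp (∑ a, actB b (om (actB b) c q (t a)) (t a)) i)
  rw [h1, ← comp_act]
  have h2 : actB b T (∑ a, actB b (om (actB b) c q (t a)) (t a)) = 0 :=
    act_frame hr0 hr hB hq hx ⟨T, hT⟩ t
  rw [h2, comp_zero, map_zero]

end frame

section chn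

variable {p : ℕ} {S : Type} [Group S] [Fintype S] {C : Chn b p S}

theorem cen_cf {X0 : Pos p} (h0 : C.Reg X0) (X : Pos p) : Cen b (C.cf X0) (C.cf X) := by
  intro i T hT
  have hT' : T ∈ C.kk := h0 ▸ hT
  rw [(colAlg b).anti, C.comp_cf, C.cen_comm _ T hT', neg_zero]

theorem Uk_eq {X0 : Pos p} (h0 : C.Reg X0) : Uk b (C.cf X0) = Tup C.kk := by
  have h : kc (actB b) (C.cf X0) = C.kk := h0
  unfold Uk
  rw [h]

/-- a light configuration with central components is in `Cen` -/
theorem mem_Cen {x : Cfg N} (hx : x ∈ Tup C.kk)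
    (h : ∀ T ∈ C.kk, ∀ i, (colAlg b).br T (comp x i) = 0) : x ∈ C.Cen := by
  have h1 : ∀ i, ∃ t, C.cen t = comp x i := fun i =>
    C.cen_all _ (hx i) fun v hv => by rw [(colAlg b).anti, h v hv i, neg_zero]
  choose t ht using h1
  refine ⟨mkp t, ext_comp fun i => ?_⟩
  exact ht i

/-- **The gradient of the density at a centre position has no block component.** -/
theorem grad_blk {X0 X : Pos p} (h0 : C.Reg X0) {r B : ℝ} (hr0 : 0 < r)
    (hr : GapAt (actB b) (C.cf X0) r) (hB : ActBound (actB b) B)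
    (hx : B * ‖C.cf X - C.cf X0‖ ≤ r / 2) {y : Cfg N} (hy : y ∈ C.Blk) :
    fderiv ℝ (fun x : Cfg N => Real.log |LinearMap.det (VacJ288.J (actB b) (C.cf X0) x)|)
      (C.cf X) y = 0 := by
  set t := stdOrthonormalBasis ℝ (Tn (actB b) (C.cf X0)) with ht
  rw [VacJ288.fderiv_log_detJ_skew hr0 hr hB (fun w u v => VacJ288.actB_skew b w u v) hx y t]
  set W := ∑ a, actB b (om (actB b) (C.cf X0) (C.cf X) (t a)) (t a) with hW
  have hyU : y ∈ Uk b (C.cf X0) := by
    rw [Uk_eq h0]
    exact hy.1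
  have h1 : ⟪W, y⟫_ℝ = ⟪(Uk b (C.cf X0)).starProjection W, y⟫_ℝ := by
    have h2 : ⟪W - (Uk b (C.cf X0)).starProjection W, y⟫_ℝ = 0 := by
      rw [real_inner_comm]
      exact (Submodule.mem_orthogonal _ _).1 (Submodule.sub_starProjection_mem_orthogonal W) y hyU
    rw [inner_sub_left] at h2
    linarith
  have h3 : (Uk b (C.cf X0)).starProjection W ∈ C.Cen := by
    refine mem_Cen ?_ fun T hT i => ?_
    · rw [← Uk_eq h0]
      exact Submodule.starProjection_apply_mem _ _
    · have hT' : T ∈ kc (actB b) (C.cf X0) := h0.symm ▸ hT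
      exact frame_centre hr0 hr hB (cen_cf h0 X) hx t hT' i
  rw [h1, (Submodule.mem_orthogonal _ _).1 hy.2 _ h3, neg_zero]

end chn

/-! ## The heavy vacuum at `X` -/

section vac

variable {F : Type*} [NormedAddCommGroup F] [InnerProductSpace ℂ F] [FiniteDimensional ℂ F]
  {M : FermionRep N F} {G : GammaNine} {K : Submodule ℝ (Colg N)} {X : Cfg N}

/-- `E_k = - ad X_k |ad X|⁻¹`. -/
def Ek (b : ColorBasis N) (K : Submodule ℝ (Colg N)) (X : Cfg N) (k : Fin 9) :
    Colg N →ₗ[ℝ] Colg N :=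
  -((adX b X k).toLinearMap ∘ₗ (li K (adX b X)).toLinearMap)

theorem Ek_apply (k : Fin 9) (u : Colg N) :
    Ek b K X k u = -adX b X k (li K (adX b X) u) := rfl

theorem row_Jc_ins (β γ : Fin 16) (u : Colg N) :
    row β (Jc b G K X (ins γ u)) = ∑ k, G.γ k β γ • Ek b K X k u := by
  rw [row_Jc, ← Finset.sum_neg_distrib]
  refine Finset.sum_congr rfl fun k _ => ?_
  rw [Finset.sum_eq_single γ]
  · rw [row_ins_self, Ek_apply, smul_neg]
  · intro β' _ hβ
    rw [row_ins, if_neg hβ, map_zero, map_zero, smul_zero]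
  · intro h
    exact absurd (Finset.mem_univ _) h

theorem mem_range_of {V : Type*} [NormedAddCommGroup V] [InnerProductSpace ℝ V] {J : V →ₗ[ℝ] V}
    {y : V} (h : J (J y) + y = 0) : y ∈ LinearMap.range J :=
  ⟨-J y, by rw [map_neg, eq_neg_of_add_eq_zero_left h, neg_neg]⟩

/-- **The contraction rules of the projection on the heavy vacuum.** -/
theorem ctr (hX : Comc b X) (hK : kc (actB b) X = K) {f : F}
    (hf : f ∈ (cr M).vacJ (Jc b G K X)) :
    Ctr M G K (fun k => Ek b K X k) ((cr M).proj (Jc b G K X)) f := by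
  obtain ⟨s, hs, hF⟩ := fam_of_eq (b := b) hX hK
  have hJ := pcs_Jc (G := G) hX hK
  have hlight : ∀ β, ∀ u ∈ K, Jc b G K X (ins β u) = 0 := by
    intro β u hu
    refine ext_row fun β' => ?_
    rw [row_Jc_ins, map_zero]
    refine Finset.sum_eq_zero fun k _ => ?_
    rw [Ek_apply, hF.D_li hs, hF.ker k u hu, map_zero, neg_zero, smul_zero]
  have hrange : ∀ β, ∀ u ∈ Kᗮ, ins β u ∈ LinearMap.range (Jc b G K X) := by
    intro β u hu
    refine mem_range_of ?_
    have h1 : ∀ (x : W16 N) (β : Fin 16), row β (Jc b G K X x) =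
      -∑ i, ∑ β', G.γ i β β' • adX b X i (li K (adX b X) (row β' x)) := row_Jc
    have h2 := J_J h1 hF hs (x := ins β u) fun β' => by
      rw [row_ins]
      split_ifs
      · exact hu
      · exact Kᗮ.zero_mem
    rw [h2]
    exact neg_add_cancel _
  refine ⟨fun β u hu h => ?_, fun β γ u hu v hv => ?_, fun β γ δ u hu v hv w hw => ?_⟩
  · rw [← cr_ins, (cr M).proj_comm_th hJ.skew (hlight β u hu)]
  · rw [← cr_ins, ← cr_ins, (cr M).proj_theta_theta hJ hf (hrange β u hu)]
    unfold CRep.cst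
    rw [hJ.skew]
    congr 2
    have e1 : ⟪ins β u, ins γ v⟫_ℝ = if β = γ then ⟪u, v⟫_ℝ else 0 := by
      rw [inner_ins, row_ins]
      split_ifs
      · rfl
      · exact inner_zero_right _
    have e2 : ⟪ins β u, Jc b G K X (ins γ v)⟫_ℝ = ∑ k, G.γ k β γ * ⟪u, Ek b K X k v⟫_ℝ := by
      rw [inner_ins, row_Jc_ins, inner_sum]
      exact Finset.sum_congr rfl fun k _ => by rw [real_inner_smul_right]
    rw [e1, e2]
    push_cast
    split_ifs <;> simp
  · rw [← cr_ins, ← cr_ins, ← cr_ins]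
    exact (cr M).proj_three hJ hf (hrange β u hu) (hrange γ v hv) (hrange δ w hw)

theorem Ek_skew (hX : Comc b X) (hK : kc (actB b) X = K) (k : Fin 9) (u v : Colg N) :
    ⟪Ek b K X k u, v⟫_ℝ = -⟪u, Ek b K X k v⟫_ℝ := by
  obtain ⟨s, hs, hF⟩ := fam_of_eq (b := b) hX hK
  rw [Ek_apply, Ek_apply, inner_neg_left, inner_neg_right, hF.skew, (hF.li_pd hs).1,
    ← hF.D_li hs]

theorem Ek_ker (hX : Comc b X) (hK : kc (actB b) X = K) (k : Fin 9) {u : Colg N} (hu : u ∈ K) :
    Ek b K X k u = 0 := by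
  obtain ⟨s, hs, hF⟩ := fam_of_eq (b := b) hX hK
  rw [Ek_apply, hF.D_li hs, hF.ker k u hu, map_zero, neg_zero]

theorem Ek_comm (hX : Comc b X) (hK : kc (actB b) X = K) {T : Colg N} (hT : T ∈ K)
    (hc : ∀ i, (colAlg b).br T (comp X i) = 0) (k : Fin 9) (u : Colg N) :
    Ek b K X k ((colAlg b).br T u) = (colAlg b).br T (Ek b K X k u) := by
  obtain ⟨s, hs, hF⟩ := fam_of_eq (b := b) hX hK
  have h1 : ∀ j v, (colAlg b).br T (adX b X j v) = adX b X j ((colAlg b).br T v) := fun j v =>
    br_comm_of (hc j) v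
  have h3 : ∀ u ∈ K, (colAlg b).br T u ∈ K := by
    intro u hu
    rw [← hK] at hT hu ⊢
    exact br_mem_kc hT hu
  have h4 : ∀ u ∈ Kᗮ, (colAlg b).br T u ∈ Kᗮ := by
    intro u hu
    rw [← hK] at hT hu ⊢
    exact br_mem_kc_orth hT hu
  have h2 : ∀ v, (colAlg b).br T (li K (adX b X) v) = li K (adX b X) ((colAlg b).br T v) := by
    intro v
    refine hF.comm_li_of hs (T := LinearMap.toContinuousLinearMap ((colAlg b).br T))
      (fun v => ?_) v
    change (colAlg b).br T _ = ll _ _ ((colAlg b).br T v)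
    rw [ll_apply, ll_apply, map_sub, map_sum]
    congr 1
    · exact proj_comm _ ((colAlg b).br T) h3 h4 v
    · refine Finset.sum_congr rfl fun j _ => ?_
      rw [h1, h1]
  rw [Ek_apply, Ek_apply, map_neg, h1, h2]

/-- the orthogonal projection on the heavy vacuum is `proj` -/
theorem star_proj {J : W16 N →ₗ[ℝ] W16 N} (hJ : PCS J) (f : F) :
    ((cr M).vacJ J).starProjection f = (cr M).proj J f := by
  refine Submodule.eq_starProjection_of_mem_of_inner_eq_zero (CRep.proj_mem hJ f)
    fun g hg => ?_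
  rw [inner_sub_left, (cr M).proj_symm hJ, (cr M).proj_of_mem hJ hg, sub_self]

end vac

/-! ## (V*) -/

section tpack

variable {p : ℕ} {S : Type} [Group S] [Fintype S] {C : Chn b p S}
  {F : Type*} [NormedAddCommGroup F] [InnerProductSpace ℂ F] [FiniteDimensional ℂ F]
  {M : FermionRep N F} {R : GaugeAction b M} {G : GammaNine}

/-- The heavy vacuum space at the positions `X`. -/
def VX (C : Chn b p S) (M : FermionRep N F) (G : GammaNine) (X : Pos p) : Submodule ℂ F :=
  (cr M).vacJ (Jc b G C.kk (C.cf X))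

/-- Its orthogonal projection. -/
def PV (C : Chn b p S) (M : FermionRep N F) (G : GammaNine) (X : Pos p) : F →ₗ[ℂ] F :=
  (cr M).proj (Jc b G C.kk (C.cf X))

theorem pcs_cf {X : Pos p} (hX : C.Reg X) : PCS (Jc b G C.kk (C.cf X)) :=
  pcs_Jc (comc_cf X) hX

theorem starProjection_VX {X : Pos p} (hX : C.Reg X) (f : F) :
    (VX C M G X).starProjection f = PV C M G X f := star_proj (pcs_cf hX) f

theorem A_eq' [Nontrivial F] (P : TPack C M R G) {X : Pos p} (hX : C.BReg X) :
    P.A X = AXc b C.kk (C.cf X) := by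
  obtain ⟨f, hf, hf0⟩ := (Submodule.ne_bot_iff _).1 (IrrX566.vacOf_ne_bot M G C.kkᗮ)
  exact A_eq P hX hf hf0

theorem U_mem [Nontrivial F] (P : TPack C M R G) {X : Pos p} (hX : C.BReg X) {f : F}
    (hf : f ∈ C.Fl M G) : P.U X f ∈ VX C M G X := by
  have h1 := P.U_kill X hX f hf
  rw [A_eq' P hX] at h1
  exact (kill_iff_Jc M (comc_cf X) hX.reg (P.U X f)).1 h1

/-- **The range of `U X` is the heavy vacuum space.** -/
theorem mem_VX_iff [Nontrivial F] (P : TPack C M R G) {X : Pos p} (hX : C.BReg X) {f : F} :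
    f ∈ VX C M G X ↔ ∃ f' ∈ C.Fl M G, P.U X f' = f := by
  constructor
  · intro h
    refine P.U_full X hX f ?_
    rw [A_eq' P hX]
    exact (kill_iff_Jc M (comc_cf X) hX.reg f).2 h
  · rintro ⟨f', hf', rfl⟩
    exact U_mem P hX hf'

theorem map_U [Nontrivial F] (P : TPack C M R G) {X : Pos p} (hX : C.BReg X) :
    (C.Fl M G).map (P.U X : F →ₗ[ℂ] F) = VX C M G X := by
  ext f
  rw [mem_VX_iff P hX]
  rfl

/-- **(V*)**, vector form. -/
theorem vstar_W {X0 X : Pos p} (h0 : C.Reg X0) (hX : C.Reg X) {r B : ℝ} (hr0 : 0 < r)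
    (hr : GapAt (actB b) (C.cf X0) r) (hB : ActBound (actB b) B)
    (hx : B * ‖C.cf X - C.cf X0‖ ≤ r / 2) {f : F} (hf : f ∈ VX C M G X) (α : Fin 16)
    {κ : Type*} [Fintype κ] (t : OrthonormalBasis κ ℝ (Tn (actB b) (C.cf X0))) :
    PV C M G X (∑ a, Bop b M (om (actB b) (C.cf X0) (C.cf X) (t a) : Colg N).ofLp
        (Theta M G α (t a) f)) =
      (1 / 2 : ℂ) • Theta M G α ((Uk b (C.cf X0)).starProjection
        (∑ a, actB b (om (actB b) (C.cf X0) (C.cf X) (t a)) (t a))) f := by
  have hc := ctr (comc_cf X) hX hf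
  have hK : kc (actB b) (C.cf X0) = C.kk := h0
  rw [← hK] at hc
  refine frame_vac (comc_cf X0) hr0 hr hB (cen_cf h0 X) hx (M := M) (G := G)
    (E := Ek b (kc (actB b) (C.cf X0)) (C.cf X)) ?_ ?_ ?_ ?_ α t
  · intro k u v
    exact Ek_skew (comc_cf X) (hX.trans hK.symm) k u v
  · intro k T hT u
    exact Ek_comm (comc_cf X) (hX.trans hK.symm) hT (fun i => cen_cf h0 X i T hT) k u
  · intro k u hu
    exact Ek_ker (comc_cf X) (hX.trans hK.symm) k hu
  · unfold PV
    rw [← hK]
    exact hc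

/-- **(V*)**: the vacuum component of the frame term is the gradient of the density. -/
theorem vstar {X0 X : Pos p} (h0 : C.Reg X0) (hX : C.Reg X) {r B : ℝ} (hr0 : 0 < r)
    (hr : GapAt (actB b) (C.cf X0) r) (hB : ActBound (actB b) B)
    (hx : B * ‖C.cf X - C.cf X0‖ ≤ r / 2) {f : F} (hf : f ∈ VX C M G X) (α : Fin 16)
    {κ ι : Type*} [Fintype κ] [Fintype ι]
    (t : OrthonormalBasis κ ℝ (Tn (actB b) (C.cf X0)))
    (n : OrthonormalBasis ι ℝ (Uk b (C.cf X0))) :
    PV C M G X (∑ a, (-Complex.I) • Bop b M (om (actB b) (C.cf X0) (C.cf X) (t a) : Colg N).ofLp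
        (Theta M G α (t a) f)) =
      (Complex.I / 2) • ∑ s, ((fderiv ℝ (fun y : Cfg N =>
        Real.log |LinearMap.det (VacJ288.J (actB b) (C.cf X0) y)|) (C.cf X) (n s) : ℝ) : ℂ) •
          Theta M G α (n s) f := by
  have hc := ctr (comc_cf X) hX hf
  have hK : kc (actB b) (C.cf X0) = C.kk := h0
  rw [← hK] at hc
  refine frame_vac_grad (comc_cf X0) hr0 hr hB (cen_cf h0 X) hx (M := M) (G := G)
    (E := Ek b (kc (actB b) (C.cf X0)) (C.cf X)) ?_ ?_ ?_ ?_ α t n
  · intro k u v
    exact Ek_skew (comc_cf X) (hX.trans hK.symm) k u v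
  · intro k T hT u
    exact Ek_comm (comc_cf X) (hX.trans hK.symm) hT (fun i => cen_cf h0 X i T hT) k u
  · intro k u hu
    exact Ek_ker (comc_cf X) (hX.trans hK.symm) k hu
  · unfold PV
    rw [← hK]
    exact hc

end tpack

end Crest.Agent.R330.VacT288
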