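import Crest.Agent.R330.Su2e_303

/-!
# Row 330, section 5a: the vacua on `Cfg N` (helper303)

`IsVac b g x` : `x_i / 3 = g [x_{i+1}, x_{i+2}]` for the first three directions, `x_j = 0` for the
other six; equivalently the mass deformed potential vanishes at `x`.  The vacua form exactly
`p(N)` orbits of `SU(N)`.
-/

set_option autoImplicit false

open Matrix hiding comp
open Crest.MathPhysics.MatrixQM

namespace Crest.Agent.R330.Vacua303

open Crest.Agent.R330.CoerCfg87 Crest.Agent.R330.Su2a303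

variable {N : ℕ} (b : ColorBasis N)

local notation "SU" => Matrix.specialUnitaryGroup (Fin N) ℂ

/-- zero-energy configurations of the mass deformed potential with coupling `g` -/
def IsVac (g : ℝ) (x : Cfg N) : Prop :=
  (∀ (i : Fin 3) (A : Fin (N ^ 2 - 1)),
    comp x (lo i) A / 3 = g * br b (comp x (lo (i + 1))) (comp x (lo (i + 2))) A) ∧
  ∀ (j : Fin 9), 3 ≤ (j : ℕ) → ∀ A : Fin (N ^ 2 - 1), x (j, A) = 0

theorem isVac_iff (g : ℝ) (x : Cfg N) :
    IsVac b g x ↔ 1 / 2 * Vcyc b g 1 x + 1 / 72 * Vhi x = 0 := by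
  have h1 : 0 ≤ Vcyc b g 1 x := Finset.sum_nonneg fun _ _ => Finset.sum_nonneg fun _ _ => sq_nonneg _
  have h2 : 0 ≤ Vhi x := Finset.sum_nonneg fun _ _ => Finset.sum_nonneg fun _ _ => sq_nonneg _
  constructor
  · rintro ⟨h3, h4⟩
    have e1 : Vcyc b g 1 x = 0 := by
      unfold Vcyc
      refine Finset.sum_eq_zero fun i _ => Finset.sum_eq_zero fun A _ => ?_
      rw [one_mul, h3 i A, sub_self]
      ring
    have e2 : Vhi x = 0 := by
      unfold Vhi
      refine Finset.sum_eq_zero fun i _ => Finset.sum_eq_zero fun A _ => ?_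
      have := h4 ⟨(i : ℕ) + 3, by omega⟩ (by simp) A
      unfold CoerCfg87.comp
      rw [this]
      ring
    rw [e1, e2]
    ring
  · intro h
    have e1 : Vcyc b g 1 x = 0 := by nlinarith
    have e2 : Vhi x = 0 := by nlinarith
    constructor
    · intro i A
      have h5 := (Finset.sum_eq_zero_iff_of_nonneg fun i _ => Finset.sum_nonneg fun A _ =>
        sq_nonneg (1 * comp x (lo i) A / 3
          - g * br b (comp x (lo (i + 1))) (comp x (lo (i + 2))) A)).1 e1 i (Finset.mem_univ i)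
      have h6 := (Finset.sum_eq_zero_iff_of_nonneg fun A _ =>
        sq_nonneg (1 * comp x (lo i) A / 3
          - g * br b (comp x (lo (i + 1))) (comp x (lo (i + 2))) A)).1 h5 A (Finset.mem_univ A)
      have h7 := pow_eq_zero_iff (two_ne_zero) |>.1 h6
      linarith
    · intro j hj A
      have hj2 := j.2
      have h5 := (Finset.sum_eq_zero_iff_of_nonneg fun (i : Fin 6) _ =>
        Finset.sum_nonneg fun (A : Fin (N ^ 2 - 1)) _ =>
        sq_nonneg (comp x ⟨(i : ℕ) + 3, by omega⟩ A)).1 e2 ⟨(j : ℕ) - 3, by omega⟩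
          (Finset.mem_univ _)
      have h6 := (Finset.sum_eq_zero_iff_of_nonneg fun (A : Fin (N ^ 2 - 1)) _ =>
        sq_nonneg (comp x ⟨((⟨(j : ℕ) - 3, by omega⟩ : Fin 6) : ℕ) + 3, by simp; omega⟩ A)).1 h5 A
          (Finset.mem_univ A)
      have h7 := pow_eq_zero_iff (two_ne_zero) |>.1 h6
      unfold CoerCfg87.comp at h7
      have hj3 : (⟨((⟨(j : ℕ) - 3, by omega⟩ : Fin 6) : ℕ) + 3, by simp; omega⟩ : Fin 9) = j := by
        apply Fin.ext
        simp only
        omega
      rw [hj3] at h7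
      exact h7

theorem comp_smul (r : ℝ) (x : Cfg N) (j : Fin 9) : comp (r • x) j = fun A => r * comp x j A := by
  funext A
  rfl

theorem isVac_smul {g : ℝ} (hg : g ≠ 0) (x : Cfg N) : IsVac b g x ↔ IsVac b 1 (g • x) := by
  unfold IsVac
  constructor
  · rintro ⟨h1, h2⟩
    refine ⟨fun i A => ?_, fun j hj A => ?_⟩
    · rw [comp_smul, comp_smul, comp_smul, br_smul_smul]
      have := h1 i A
      simp only
      rw [mul_div_assoc, this]
      ring
    · have := h2 j hj A
      change g * x (j, A) = 0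
      rw [this, mul_zero]
  · rintro ⟨h1, h2⟩
    refine ⟨fun i A => ?_, fun j hj A => ?_⟩
    · have := h1 i A
      rw [comp_smul, comp_smul, comp_smul, br_smul_smul] at this
      simp only at this
      apply mul_left_cancel₀ hg
      rw [← mul_div_assoc, this]
      ring
    · have h3 : g * x (j, A) = 0 := h2 j hj A
      exact (mul_eq_zero.1 h3).resolve_left hg

/-- conjugation in colour coordinates -/
theorem cmat_act (h : SU) (x : Cfg N) (j : Fin 9) :
    cmat b (comp (b.act h x) j) = (h : Matrix (Fin N) (Fin N) ℂ) * cmat b (comp x j) *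
      star (h : Matrix (Fin N) (Fin N) ℂ) := by
  unfold cmat
  rw [Col962.conj_sum b h (fun A => (comp x j A : ℂ))]
  refine Finset.sum_congr rfl fun A _ => ?_
  congr 1
  unfold CoerCfg87.comp
  rw [Col962.act_apply]
  push_cast
  rfl

theorem cmat_inj {u v : Fin (N ^ 2 - 1) → ℝ} (h : cmat b u = cmat b v) : u = v := by
  have h1 := Col962.T_ext b h
  funext A
  exact_mod_cast congrFun h1 A

theorem cfg_ext {x y : Cfg N} (h : ∀ j, comp x j = comp y j) : x = y := by
  ext ⟨j, A⟩
  exact congrFun (h j) A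

/-- the spin matrices of a vacuum of coupling one -/
noncomputable def Lm (x : Cfg N) (i : Fin 3) : Matrix (Fin N) (Fin N) ℂ :=
  (3 : ℂ) • cmat b (comp x (lo i))

theorem isSu2_Lm (hN : 0 < N) {x : Cfg N} (hx : IsVac b 1 x) : IsSu2 (Lm b x) := by
  constructor
  · intro i
    unfold Lm Matrix.IsHermitian
    rw [conjTranspose_smul, (cmat_herm b _).eq]
    congr 1
    exact map_ofNat (starRingEnd ℂ) 3
  · intro i
    unfold Lm
    rw [smul_mul_smul_comm, smul_mul_smul_comm, ← smul_sub, comm_cmat b hN]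
    have h1 : cmat b (br b (comp x (lo (i + 1))) (comp x (lo (i + 2)))) =
        ((1 / 3 : ℝ) : ℂ) • cmat b (comp x (lo i)) := by
      rw [← cmat_smul]
      congr 1
      funext A
      have := hx.1 i A
      rw [one_mul] at this
      rw [← this]
      ring
    rw [h1, smul_smul, smul_smul, smul_smul]
    congr 1
    push_cast
    ring

theorem isSu2_trace {L : Fin 3 → Matrix (Fin N) (Fin N) ℂ} (hL : IsSu2 L) (i : Fin 3) :
    (L i).trace = 0 := by
  have h := congrArg Matrix.trace (hL.comm i)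
  rw [trace_sub, trace_mul_comm, sub_self, trace_smul, smul_eq_mul] at h
  exact (mul_eq_zero.1 h.symm).resolve_left Complex.I_ne_zero

/-- the configuration of a triple of matrices -/
noncomputable def cfgOf (L : Fin 3 → Matrix (Fin N) (Fin N) ℂ) : Cfg N :=
  WithLp.toLp 2 fun jA => if h : (jA.1 : ℕ) < 3 then
    (1 / 3 : ℝ) * (b.T jA.2 * L ⟨(jA.1 : ℕ), h⟩).trace.re else 0

theorem comp_cfgOf_lo (L : Fin 3 → Matrix (Fin N) (Fin N) ℂ) (i : Fin 3) :
    comp (cfgOf b L) (lo i) = fun A => (1 / 3 : ℝ) * (b.T A * L i).trace.re := by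
  funext A
  unfold CoerCfg87.comp cfgOf lo
  simp only
  rw [dif_pos i.2]

theorem cmat_cfgOf {L : Fin 3 → Matrix (Fin N) (Fin N) ℂ} (hL : IsSu2 L) (i : Fin 3) :
    cmat b (comp (cfgOf b L) (lo i)) = ((1 / 3 : ℝ) : ℂ) • L i := by
  rw [comp_cfgOf_lo, cmat_smul]
  congr 1
  exact (Col962.expand_herm b (isSu2_trace hL i) (hL.herm i)).symm

theorem comp_cfgOf_hi (L : Fin 3 → Matrix (Fin N) (Fin N) ℂ) (j : Fin 9) (hj : 3 ≤ (j : ℕ)) :
    comp (cfgOf b L) j = 0 := by
  funext A
  unfold CoerCfg87.comp cfgOf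
  simp only
  rw [dif_neg (by omega)]
  rfl

theorem isVac_cfgOf (hN : 0 < N) {L : Fin 3 → Matrix (Fin N) (Fin N) ℂ} (hL : IsSu2 L) :
    IsVac b 1 (cfgOf b L) := by
  constructor
  · intro i A
    have h1 : cmat b (fun A => (1 / 3 : ℝ) * comp (cfgOf b L) (lo i) A) =
        cmat b (br b (comp (cfgOf b L) (lo (i + 1))) (comp (cfgOf b L) (lo (i + 2)))) := by
      have h2 := comm_cmat b hN (comp (cfgOf b L) (lo (i + 1))) (comp (cfgOf b L) (lo (i + 2)))
      rw [cmat_cfgOf b hL, cmat_cfgOf b hL, smul_mul_smul_comm, smul_mul_smul_comm, ← smul_sub,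
        hL.comm i] at h2
      have h3 : Complex.I • cmat b (br b (comp (cfgOf b L) (lo (i + 1)))
          (comp (cfgOf b L) (lo (i + 2)))) =
          Complex.I • cmat b (fun A => (1 / 3 : ℝ) * comp (cfgOf b L) (lo i) A) := by
        rw [← h2, cmat_smul, cmat_cfgOf b hL, smul_smul, smul_smul, smul_smul]
        congr 1
        push_cast
        ring
      exact (smul_right_injective _ Complex.I_ne_zero h3).symm
    have h4 := congrFun (cmat_inj b h1) A
    rw [one_mul, ← h4]
    ring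
  · intro j hj A
    exact congrFun (comp_cfgOf_hi b L j hj) A

theorem Lm_cfgOf {L : Fin 3 → Matrix (Fin N) (Fin N) ℂ} (hL : IsSu2 L) (i : Fin 3) :
    Lm b (cfgOf b L) i = L i := by
  unfold Lm
  rw [cmat_cfgOf b hL, smul_smul]
  push_cast
  norm_num

/-- conjugacy of the matrices is the same as lying on one orbit -/
theorem act_eq_iff {x y : Cfg N} (hx : IsVac b 1 x) (hy : IsVac b 1 y) (h : SU) :
    b.act h x = y ↔ ∀ i, (h : Matrix (Fin N) (Fin N) ℂ) * Lm b x i *
      star (h : Matrix (Fin N) (Fin N) ℂ) = Lm b y i := by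
  constructor
  · rintro rfl i
    unfold Lm
    rw [cmat_act, mul_smul_comm, smul_mul_assoc]
  · intro hL
    refine cfg_ext fun j => ?_
    by_cases hj : (j : ℕ) < 3
    · have hj' : j = lo ⟨(j : ℕ), hj⟩ := rfl
      rw [hj']
      apply cmat_inj b
      have h1 := hL ⟨(j : ℕ), hj⟩
      unfold Lm at h1
      rw [mul_smul_comm, smul_mul_assoc] at h1
      rw [cmat_act]
      exact smul_right_injective _ (by norm_num : (3 : ℂ) ≠ 0) h1
    · have hj' : 3 ≤ (j : ℕ) := by omega
      apply cmat_inj b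
      rw [cmat_act]
      have h1 : comp x j = 0 := funext fun A => hx.2 j hj' A
      have h2 : comp y j = 0 := funext fun A => hy.2 j hj' A
      rw [h1, h2]
      have h3 : cmat b (0 : Fin (N ^ 2 - 1) → ℝ) = 0 := by
        unfold cmat
        simp
      rw [h3, mul_zero, zero_mul]

theorem isVac_act (hN : 0 < N) {x : Cfg N} (hx : IsVac b 1 x) (h : SU) :
    IsVac b 1 (b.act h x) := by
  constructor
  · intro i A
    have e1 : ∀ j, cmat b (comp (b.act h x) j) = (h : Matrix (Fin N) (Fin N) ℂ) *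
      cmat b (comp x j) * star (h : Matrix (Fin N) (Fin N) ℂ) := cmat_act b h x
    have hs : star (h : Matrix (Fin N) (Fin N) ℂ) * (h : Matrix (Fin N) (Fin N) ℂ) = 1 :=
      Col962.star_mul_self' h
    have e2 : ∀ A B : Matrix (Fin N) (Fin N) ℂ,
        ((h : Matrix (Fin N) (Fin N) ℂ) * A * star (h : Matrix (Fin N) (Fin N) ℂ)) *
        ((h : Matrix (Fin N) (Fin N) ℂ) * B * star (h : Matrix (Fin N) (Fin N) ℂ)) =
        (h : Matrix (Fin N) (Fin N) ℂ) * (A * B) * star (h : Matrix (Fin N) (Fin N) ℂ) := by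
      intro A B
      calc ((h : Matrix (Fin N) (Fin N) ℂ) * A * star (h : Matrix (Fin N) (Fin N) ℂ)) *
          ((h : Matrix (Fin N) (Fin N) ℂ) * B * star (h : Matrix (Fin N) (Fin N) ℂ))
          = (h : Matrix (Fin N) (Fin N) ℂ) * A * (star (h : Matrix (Fin N) (Fin N) ℂ) *
            (h : Matrix (Fin N) (Fin N) ℂ)) * B * star (h : Matrix (Fin N) (Fin N) ℂ) := by
            simp only [mul_assoc]
        _ = _ := by rw [hs, mul_one, mul_assoc, mul_assoc, mul_assoc]; simp only [mul_assoc]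
    have h2 := comm_cmat b hN (comp (b.act h x) (lo (i + 1))) (comp (b.act h x) (lo (i + 2)))
    rw [e1, e1, e2, e2, ← sub_mul, ← mul_sub, comm_cmat b hN, mul_smul_comm, smul_mul_assoc] at h2
    have h3 := smul_right_injective _ Complex.I_ne_zero h2
    have h4 : cmat b (br b (comp x (lo (i + 1))) (comp x (lo (i + 2)))) =
        ((1 / 3 : ℝ) : ℂ) • cmat b (comp x (lo i)) := by
      rw [← cmat_smul]
      congr 1
      funext A
      have := hx.1 i A
      rw [one_mul] at this
      rw [← this]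
      ring
    rw [h4, mul_smul_comm, smul_mul_assoc, ← e1, ← cmat_smul] at h3
    have h5 := congrFun (cmat_inj b h3) A
    rw [one_mul, ← h5]
    ring
  · intro j hj A
    have h1 : comp x j = 0 := funext fun A => hx.2 j hj A
    have h2 := cmat_act b h x j
    rw [h1] at h2
    have h3 : cmat b (0 : Fin (N ^ 2 - 1) → ℝ) = 0 := by
      unfold cmat
      simp
    rw [h3, mul_zero, zero_mul, ← h3] at h2
    exact congrFun (cmat_inj b h2) A

/-- **the vacua of coupling one are exactly `p(N)` orbits** -/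
theorem exists_vacua_one (hN : 0 < N) :
    ∃ c : Nat.Partition N → Cfg N, (∀ p, IsVac b 1 (c p)) ∧
      (∀ x, IsVac b 1 x → ∃ (p : Nat.Partition N) (h : SU), b.act h (c p) = x) ∧
      (∀ (p q : Nat.Partition N) (h : SU), b.act h (c p) = c q → p = q) := by
  obtain ⟨L, hL, hsurj, hinj⟩ := classification (N := N) hN
  have hv : ∀ p, IsVac b 1 (cfgOf b (L p)) := fun p => isVac_cfgOf b hN (hL p)
  refine ⟨fun p => cfgOf b (L p), hv, ?_, ?_⟩
  · intro x hx
    obtain ⟨p, g, hg⟩ := hsurj (Lm b x) (isSu2_Lm b hN hx)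
    refine ⟨p, g, (act_eq_iff b (hv p) hx g).2 fun i => ?_⟩
    rw [Lm_cfgOf b (hL p)]
    exact hg i
  · intro p q h hh
    refine hinj p q h fun i => ?_
    have := (act_eq_iff b (hv p) (hv q) h).1 hh i
    rwa [Lm_cfgOf b (hL p), Lm_cfgOf b (hL q)] at this

/-- **the vacua of coupling `g` are exactly the `p(N)` orbits of `g⁻¹ c_p`**, with one family
`c_p` for all `g ≠ 0` -/
theorem exists_vacua (hN : 0 < N) :
    ∃ c : Nat.Partition N → Cfg N, ∀ g : ℝ, g ≠ 0 → (∀ p, IsVac b g (g⁻¹ • c p)) ∧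
      (∀ x, IsVac b g x → ∃ (p : Nat.Partition N) (h : SU), b.act h (g⁻¹ • c p) = x) ∧
      (∀ (p q : Nat.Partition N) (h : SU), b.act h (g⁻¹ • c p) = g⁻¹ • c q → p = q) := by
  obtain ⟨c, h1, h2, h3⟩ := exists_vacua_one b hN
  refine ⟨c, fun g hg => ⟨fun p => ?_, fun x hx => ?_, fun p q h hh => ?_⟩⟩
  · rw [isVac_smul b hg, smul_smul, mul_inv_cancel₀ hg, one_smul]
    exact h1 p
  · obtain ⟨p, h, hp⟩ := h2 (g • x) ((isVac_smul b hg x).1 hx)
    refine ⟨p, h, ?_⟩
    rw [Col962.act_smul, hp, smul_smul, inv_mul_cancel₀ hg, one_smul]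
  · refine h3 p q h ?_
    rw [Col962.act_smul] at hh
    exact smul_right_injective _ (inv_ne_zero hg) hh

end Crest.Agent.R330.Vacua303
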