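import Crest.Agent.R330.WS_596
import Crest.Agent.R330.Hardy_151
import Crest.Agent.R330.IBP_837

/-!
# R330/WDH_245 (leaf S9-WDH)

Hardy inequality for square integrable functions with a weak constant coefficient Dirac equation:
`cD e a ψ = Σ_k (-i) a_k ∂_{e_k} ψ`, `a_k` symmetric, `a_k a_l + a_l a_k = δ_kl`, `e` orthonormal.
If `∫ ⟪u, cD ψ⟫ = ∫ ⟪h, ψ⟫` for all test functions then
`((n-2)/2)² ∫ ‖u‖²/r² ≤ 2 ∫ ‖h‖²`.
-/

set_option autoImplicit false
set_option linter.unusedSectionVars false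

open MeasureTheory Set Filter Topology ENNReal
open scoped ContDiff InnerProductSpace

noncomputable section

namespace Crest.Agent.R330.WDH245

open Crest.Agent.R330.IBP837 Crest.Agent.R330.WS596

variable {E : Type*} [NormedAddCommGroup E] [InnerProductSpace ℝ E] [FiniteDimensional ℝ E]
  [MeasurableSpace E] [BorelSpace E]
variable {F : Type*} [NormedAddCommGroup F] [InnerProductSpace ℂ F] [FiniteDimensional ℂ F]
variable {ι : Type*} [Fintype ι] [DecidableEq ι]

/-- constant coefficient Dirac operator -/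
def cD (e : ι → E) (a : ι → F →ₗ[ℂ] F) (ψ : E → F) (x : E) : F :=
  ∑ k, (-Complex.I) • a k (fderiv ℝ ψ x (e k))

/-- Clifford relations of the symbol -/
structure Cliff (a : ι → F →ₗ[ℂ] F) : Prop where
  symm : ∀ k, (a k).IsSymmetric
  anti : ∀ k l, a k ∘ₗ a l + a l ∘ₗ a k = if k = l then (LinearMap.id : F →ₗ[ℂ] F) else 0

variable {e : ι → E} {a : ι → F →ₗ[ℂ] F}

theorem cont_lin (L : F →ₗ[ℂ] F) : Continuous L := LinearMap.continuous_of_finiteDimensional _

theorem contDiff_lin (L : F →ₗ[ℂ] F) {n : WithTop ℕ∞} {f : E → F} (hf : ContDiff ℝ n f) :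
    ContDiff ℝ n fun x => L (f x) := by
  have h : ContDiff ℝ n (fun v : F => L v) :=
    ((LinearMap.toContinuousLinearMap L).restrictScalars ℝ).contDiff
  exact h.comp hf

theorem fderiv_lin (L : F →ₗ[ℂ] F) {f : E → F} {x : E} (hf : DifferentiableAt ℝ f x) (v : E) :
    fderiv ℝ (fun y => L (f y)) x v = L (fderiv ℝ f x v) := by
  have h := (((LinearMap.toContinuousLinearMap L).restrictScalars ℝ).hasFDerivAt.comp x
    hf.hasFDerivAt)
  have h2 : fderiv ℝ (fun y => L (f y)) x = (((LinearMap.toContinuousLinearMap L).restrictScalars ℝ)).comp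
      (fderiv ℝ f x) := h.fderiv
  rw [h2]
  rfl

/-- exchange of derivatives -/
theorem swap {φ : E → F} (hφ : ContDiff ℝ 2 φ) (hc : HasCompactSupport φ) (B : F →ₗ[ℂ] F)
    (u v : E) :
    ∫ x, ⟪fderiv ℝ φ x u, B (fderiv ℝ φ x v)⟫_ℂ = ∫ x, ⟪fderiv ℝ φ x v, B (fderiv ℝ φ x u)⟫_ℂ := by
  have h1 : ContDiff ℝ 1 φ := hφ.of_le (by norm_num)
  have hd : ∀ w : E, ContDiff ℝ 1 fun x => fderiv ℝ φ x w := fun w =>
    (hφ.fderiv_right (m := 1) (by norm_num)).clm_apply contDiff_const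
  have hB : ∀ w : E, ContDiff ℝ 1 fun x => B (fderiv ℝ φ x w) := fun w => contDiff_lin B (hd w)
  have h2 : ∀ w z : E, ∀ x, fderiv ℝ (fun y => B (fderiv ℝ φ y w)) x z =
      B (fderiv ℝ (fderiv ℝ φ) x z w) := by
    intro w z x
    rw [fderiv_lin B ((hd w).differentiable one_ne_zero x)]
    congr 1
    have h3 : DifferentiableAt ℝ (fderiv ℝ φ) x :=
      (hφ.fderiv_right (m := 1) (by norm_num)).differentiable one_ne_zero x
    rw [fderiv_clm_apply h3 (differentiableAt_const w)]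
    simp
  rw [ibp h1 (hB v) (Or.inl hc) u, ibp h1 (hB u) (Or.inl hc) v]
  congr 1
  refine integral_congr_ae (Eventually.of_forall fun x => ?_)
  show ⟪φ x, fderiv ℝ (fun y => B (fderiv ℝ φ y v)) x u⟫_ℂ =
    ⟪φ x, fderiv ℝ (fun y => B (fderiv ℝ φ y u)) x v⟫_ℂ
  rw [h2, h2]
  have hsym : IsSymmSndFDerivAt ℝ φ x := hφ.contDiffAt.isSymmSndFDerivAt (by simp)
  rw [hsym.eq]

/-- `∫ ‖D φ‖² = ½ Σ ∫ ‖∂_k φ‖²` -/
theorem integral_cD_sq (ha : Cliff a) {φ : E → F} (hφ : ContDiff ℝ 2 φ)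
    (hc : HasCompactSupport φ) :
    ∫ x, ‖cD e a φ x‖ ^ 2 = 1 / 2 * ∫ x, ∑ k, ‖fderiv ℝ φ x (e k)‖ ^ 2 := by
  have h1 : ContDiff ℝ 1 φ := hφ.of_le (by norm_num)
  have hdc : ∀ w : E, Continuous fun x => fderiv ℝ φ x w := fun w => fderiv_apply_continuous h1 w
  have hds : ∀ w : E, HasCompactSupport fun x => fderiv ℝ φ x w := fun w =>
    hasCompactSupport_fderiv_apply hc w
  have hint : ∀ (B : F →ₗ[ℂ] F) (u v : E), Integrable fun x =>
      ⟪fderiv ℝ φ x u, B (fderiv ℝ φ x v)⟫_ℂ := fun B u v =>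
    integrable_inner_of_cont (hdc u) ((cont_lin B).comp (hdc v)) (Or.inl (hds u))
  have hpt : ∀ x, ((‖cD e a φ x‖ ^ 2 : ℝ) : ℂ) = ∑ k, ∑ l,
      ⟪fderiv ℝ φ x (e k), (a k ∘ₗ a l) (fderiv ℝ φ x (e l))⟫_ℂ := by
    intro x
    have h2 : ((‖cD e a φ x‖ ^ 2 : ℝ) : ℂ) = ⟪cD e a φ x, cD e a φ x⟫_ℂ := by
      rw [inner_self_eq_norm_sq_to_K]; push_cast; rfl
    rw [h2]
    unfold cD
    rw [sum_inner]
    refine Finset.sum_congr rfl fun k _ => ?_
    rw [inner_sum]
    refine Finset.sum_congr rfl fun l _ => ?_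
    rw [inner_smul_left, inner_smul_right, LinearMap.comp_apply, ha.symm k]
    rw [← mul_assoc]
    have : (starRingEnd ℂ) (-Complex.I) * -Complex.I = 1 := by
      simp
    rw [this, one_mul]
  have hC : ((∫ x, ‖cD e a φ x‖ ^ 2 : ℝ) : ℂ) =
      ((1 / 2 * ∫ x, ∑ k, ‖fderiv ℝ φ x (e k)‖ ^ 2 : ℝ) : ℂ) := by
    rw [← integral_complex_ofReal]
    simp only [hpt]
    rw [integral_finsetSum _ fun k _ => integrable_finsetSum _ fun l _ => hint _ _ _]
    have h3 : ∀ k, ∫ x, ∑ l, ⟪fderiv ℝ φ x (e k), (a k ∘ₗ a l) (fderiv ℝ φ x (e l))⟫_ℂ =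
        ∑ l, ∫ x, ⟪fderiv ℝ φ x (e k), (a k ∘ₗ a l) (fderiv ℝ φ x (e l))⟫_ℂ := fun k =>
      integral_finsetSum _ fun l _ => hint _ _ _
    simp only [h3]
    set S : ι → ι → (F →ₗ[ℂ] F) → ℂ := fun k l B =>
      ∫ x, ⟪fderiv ℝ φ x (e k), B (fderiv ℝ φ x (e l))⟫_ℂ with hS
    have hSadd : ∀ k l (B C : F →ₗ[ℂ] F), S k l B + S k l C = S k l (B + C) := by
      intro k l B C
      simp only [hS]
      rw [← integral_add (hint _ _ _) (hint _ _ _)]
      refine integral_congr_ae (Eventually.of_forall fun x => ?_)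
      simp only [LinearMap.add_apply, inner_add_right]
    have hswap : ∀ k l B, S k l B = S l k B := fun k l B => swap hφ hc B (e k) (e l)
    have h4 : (2 : ℂ) * ∑ k, ∑ l, S k l (a k ∘ₗ a l) = ∑ k, ∑ l, S k l (a k ∘ₗ a l + a l ∘ₗ a k) := by
      rw [two_mul]
      nth_rewrite 2 [Finset.sum_comm]
      rw [← Finset.sum_add_distrib]
      refine Finset.sum_congr rfl fun k _ => ?_
      rw [← Finset.sum_add_distrib]
      refine Finset.sum_congr rfl fun l _ => ?_
      rw [hswap l k, hSadd]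
    have h5 : ∑ k, ∑ l, S k l (a k ∘ₗ a l + a l ∘ₗ a k) =
        ((∫ x, ∑ k, ‖fderiv ℝ φ x (e k)‖ ^ 2 : ℝ) : ℂ) := by
      have h6 : ∀ k l, S k l (a k ∘ₗ a l + a l ∘ₗ a k) =
          if k = l then ((∫ x, ‖fderiv ℝ φ x (e k)‖ ^ 2 : ℝ) : ℂ) else 0 := by
        intro k l
        simp only [hS, ha.anti]
        by_cases hkl : k = l
        · subst hkl
          rw [if_pos rfl, if_pos rfl, ← integral_complex_ofReal]
          refine integral_congr_ae (Eventually.of_forall fun x => ?_)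
          simp only [LinearMap.id_apply]
          rw [inner_self_eq_norm_sq_to_K]; push_cast; rfl
        · simp [if_neg hkl]
      simp only [h6]
      have h7 : ∀ k, ∑ l, (if k = l then ((∫ x, ‖fderiv ℝ φ x (e k)‖ ^ 2 : ℝ) : ℂ) else 0) =
          ((∫ x, ‖fderiv ℝ φ x (e k)‖ ^ 2 : ℝ) : ℂ) := fun k => by simp
      simp only [h7]
      rw [integral_finsetSum]
      · push_cast; rfl
      · intro k _
        refine ((hdc (e k)).norm.pow 2).integrable_of_hasCompactSupport ?_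
        exact HasCompactSupport.intro (hds (e k)) fun x hx => by
          simp only [Pi.pow_apply]
          have : fderiv ℝ φ x (e k) = 0 :=
            image_eq_zero_of_notMem_tsupport (f := fun x => fderiv ℝ φ x (e k)) hx
          rw [this]; simp
    rw [h5] at h4
    have h8 : ∑ k, ∑ l, S k l (a k ∘ₗ a l) =
        (1 / 2 : ℂ) * ((∫ x, ∑ k, ‖fderiv ℝ φ x (e k)‖ ^ 2 : ℝ) : ℂ) := by
      rw [← h4]; ring
    rw [h8]
    push_cast
    ring
  exact_mod_cast hC

/-- the operator as a first order differential expression of 596 -/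
def fop (e : ι → E) (a : ι → F →ₗ[ℂ] F) : FOp E F where
  A := ∑ k, (((-Complex.I) • (LinearMap.toContinuousLinearMap (a k))).restrictScalars ℝ).comp
    (ContinuousLinearMap.apply ℝ F (e k))
  B := 0
  contB := continuous_zero

theorem fop_A (e : ι → E) (a : ι → F →ₗ[ℂ] F) (T : E →L[ℝ] F) :
    (fop e a).A T = ∑ k, (-Complex.I) • a k (T (e k)) := by
  simp [fop]

theorem fop_op (e : ι → E) (a : ι → F →ₗ[ℂ] F) (ψ : E → F) (x : E) :
    (fop e a).op ψ x = cD e a ψ x := by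
  unfold FOp.op
  rw [fop_A]
  simp [fop, cD]

theorem fop_adj (ha : ∀ k, (a k).IsSymmetric) : Adj (fop e a) (fop e a) := by
  refine ⟨fun ℓ u v => ?_, fun x u v => by simp [fop]⟩
  rw [fop_A, fop_A, inner_sum, sum_inner, ← Finset.sum_neg_distrib]
  refine Finset.sum_congr rfl fun k _ => ?_
  simp only [ContinuousLinearMap.smulRight_apply]
  rw [inner_smul_right, inner_smul_left]
  have h1 : a k (ℓ (e k) • u) = (ℓ (e k)) • a k u := by
    rw [← Complex.coe_smul, map_smul, Complex.coe_smul]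
  have h2 : a k (ℓ (e k) • v) = (ℓ (e k)) • a k v := by
    rw [← Complex.coe_smul, map_smul, Complex.coe_smul]
  rw [h1, h2, inner_rsmul_right, inner_rsmul_left, ha k]
  simp

/-- smooth compactly supported approximation of a weak solution -/
theorem exists_approx (ha : ∀ k, (a k).IsSymmetric) {u h : E → F} (hu : MemLp u 2 volume)
    (hh : MemLp h 2 volume)
    (hw : ∀ ψ : E → F, ContDiff ℝ ∞ ψ → HasCompactSupport ψ →
      ∫ x, ⟪u x, cD e a ψ x⟫_ℂ = ∫ x, ⟪h x, ψ x⟫_ℂ) :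
    ∃ φ : ℕ → E → F, (∀ n, ContDiff ℝ ∞ (φ n)) ∧ (∀ n, HasCompactSupport (φ n)) ∧
      Tendsto (fun n => eLpNorm (fun x => φ n x - u x) 2 volume) atTop (𝓝 0) ∧
      Tendsto (fun n => eLpNorm (fun x => cD e a (φ n) x - h x) 2 volume) atTop (𝓝 0) := by
  have hwk : Wk (fop e a) u h := by
    intro ψ hψ hψc
    have h1 := hw ψ hψ hψc
    have h2 := congrArg (starRingEnd ℂ) h1
    rw [← integral_conj, ← integral_conj] at h2
    simp only [inner_conj_symm] at h2
    simp only [fop_op]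
    exact h2
  obtain ⟨φ, h1, h2, _, h4, h5⟩ := weak_strong (κ := Unit) (Q := fun _ => fop e a)
    (Qd := fun _ => fop e a) (fun _ => fop_adj ha) hu (χ := fun _ => h) (fun _ => hh)
    (fun _ => hwk)
  refine ⟨φ, h1, h2, h4, ?_⟩
  have h6 := h5 ()
  simpa only [fop_op] using h6

/-- **Hardy's inequality for weak Dirac equations** -/
theorem wdh (ha : Cliff a) (he : Orthonormal ℝ e) (hn : 3 ≤ Fintype.card ι) (c : ι → ℝ)
    {u h : E → F} (hu : MemLp u 2 volume) (hh : MemLp h 2 volume)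
    (hw : ∀ ψ : E → F, ContDiff ℝ ∞ ψ → HasCompactSupport ψ →
      ∫ x, ⟪u x, cD e a ψ x⟫_ℂ = ∫ x, ⟪h x, ψ x⟫_ℂ) :
    Integrable (fun x => ‖u x‖ ^ 2 / Hardy151.r2 e c x) volume ∧
    (((Fintype.card ι : ℝ) - 2) / 2) ^ 2 * ∫ x, ‖u x‖ ^ 2 / Hardy151.r2 e c x ≤
      2 * ∫ x, ‖h x‖ ^ 2 := by
  let _ : InnerProductSpace ℝ F := InnerProductSpace.complexToReal
  set A : ℝ := (((Fintype.card ι : ℝ) - 2) / 2) ^ 2 with hA
  have hA0 : 0 < A := by
    have : (3 : ℝ) ≤ Fintype.card ι := by exact_mod_cast hn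
    rw [hA]
    have : 0 < ((Fintype.card ι : ℝ) - 2) / 2 := by linarith
    positivity
  obtain ⟨φ, hφ, hφc, h1, h2⟩ := exists_approx ha.symm hu hh hw
  -- a subsequence converges almost everywhere
  have hmφ : ∀ n, AEStronglyMeasurable (φ n) volume := fun n =>
    (hφ n).continuous.aestronglyMeasurable
  have hTM : TendstoInMeasure volume φ atTop u :=
    tendstoInMeasure_of_tendsto_eLpNorm (p := 2) (by norm_num) hmφ hu.1 h1
  obtain ⟨ns, hns, hae⟩ := hTM.exists_seq_tendsto_ae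
  -- the bound for the approximations
  have hcont : ∀ n, Continuous (cD e a (φ n)) := by
    intro n
    unfold cD
    refine continuous_finsetSum _ fun k _ => Continuous.const_smul ?_ _
    exact (cont_lin (a k)).comp (fderiv_apply_continuous ((hφ n).of_le (by simp)) _)
  have hcs : ∀ n, HasCompactSupport (cD e a (φ n)) := by
    intro n
    refine HasCompactSupport.intro (hφc n) fun x hx => ?_
    unfold cD
    have : fderiv ℝ (φ n) x = 0 := by
      by_contra h'
      exact hx (support_fderiv_subset ℝ h')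
    simp [this]
  have hr0 : ∀ x, 0 ≤ Hardy151.r2 e c x := fun x => Hardy151.r2_nonneg x
  have hb : ∀ n, ENNReal.ofReal A * ∫⁻ x, ENNReal.ofReal (‖φ n x‖ ^ 2 / Hardy151.r2 e c x) ≤
      2 * (eLpNorm (fun x => cD e a (φ n) x - h x) 2 volume + eLpNorm h 2 volume) ^ 2 := by
    intro n
    obtain ⟨hi, hle⟩ := Hardy151.hardy (μ := (volume : Measure E)) (v := e) (c := c)
      ((hφ n).of_le (by simp)) (hφc n) he hn
    have h3 := integral_cD_sq (e := e) ha ((hφ n).of_le
      (show ((2 : ℕ∞) : WithTop ℕ∞) ≤ ((⊤ : ℕ∞) : WithTop ℕ∞) from WithTop.coe_le_coe.2 le_top))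
      (hφc n)
    have h4 : A * ∫ x, ‖φ n x‖ ^ 2 / Hardy151.r2 e c x ≤ 2 * ∫ x, ‖cD e a (φ n) x‖ ^ 2 := by
      rw [h3]; rw [← hA] at hle; linarith
    have h5 : ENNReal.ofReal (∫ x, ‖φ n x‖ ^ 2 / Hardy151.r2 e c x) =
        ∫⁻ x, ENNReal.ofReal (‖φ n x‖ ^ 2 / Hardy151.r2 e c x) :=
      ofReal_integral_eq_lintegral_ofReal hi
        (Eventually.of_forall fun x => div_nonneg (sq_nonneg _) (hr0 x))
    rw [← h5, ← ENNReal.ofReal_mul hA0.le]
    refine (ENNReal.ofReal_le_ofReal h4).trans ?_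
    rw [ENNReal.ofReal_mul (by norm_num), ENNReal.ofReal_ofNat]
    gcongr
    have h6 : ENNReal.ofReal (∫ x, ‖cD e a (φ n) x‖ ^ 2) =
        eLpNorm (cD e a (φ n)) 2 volume ^ 2 := by
      rw [Moll596.sq_eLpNorm, ofReal_integral_eq_lintegral_ofReal]
      · refine lintegral_congr fun x => ?_
        rw [← ofReal_norm_eq_enorm, ENNReal.ofReal_pow (norm_nonneg _)]
      · refine ((hcont n).norm.pow 2).integrable_of_hasCompactSupport ?_
        exact HasCompactSupport.intro (hcs n) fun x hx => by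
          simp only [Pi.pow_apply, image_eq_zero_of_notMem_tsupport hx]; simp
      · exact Eventually.of_forall fun x => sq_nonneg _
    rw [h6]
    gcongr
    have h7 : cD e a (φ n) = (fun x => cD e a (φ n) x - h x) + h := by
      funext x; simp
    calc eLpNorm (cD e a (φ n)) 2 volume
        = eLpNorm ((fun x => cD e a (φ n) x - h x) + h) 2 volume := by rw [← h7]
      _ ≤ _ := eLpNorm_add_le ((hcont n).aestronglyMeasurable.sub hh.1) hh.1 (by norm_num)
  have hlim : Tendsto (fun n => 2 * (eLpNorm (fun x => cD e a (φ n) x - h x) 2 volume +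
      eLpNorm h 2 volume) ^ 2) atTop (𝓝 (2 * eLpNorm h 2 volume ^ 2)) := by
    have h3 : Tendsto (fun n => (eLpNorm (fun x => cD e a (φ n) x - h x) 2 volume +
        eLpNorm h 2 volume)) atTop (𝓝 (0 + eLpNorm h 2 volume)) := h2.add tendsto_const_nhds
    rw [zero_add] at h3
    exact ENNReal.Tendsto.const_mul (ENNReal.Tendsto.pow h3) (Or.inr (by norm_num))
  have hr2m : Measurable (Hardy151.r2 e c) :=
    (Hardy151.contDiff_r2 (n := 1)).continuous.measurable
  have hfat : ∫⁻ x, ENNReal.ofReal (‖u x‖ ^ 2 / Hardy151.r2 e c x) ≤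
      liminf (fun n => ∫⁻ x, ENNReal.ofReal (‖φ (ns n) x‖ ^ 2 / Hardy151.r2 e c x)) atTop := by
    have h3 : ∀ᵐ x, ENNReal.ofReal (‖u x‖ ^ 2 / Hardy151.r2 e c x) ≤
        liminf (fun n => ENNReal.ofReal (‖φ (ns n) x‖ ^ 2 / Hardy151.r2 e c x)) atTop := by
      filter_upwards [hae] with x hx
      have h4 : Tendsto (fun n => ENNReal.ofReal (‖φ (ns n) x‖ ^ 2 / Hardy151.r2 e c x)) atTop
          (𝓝 (ENNReal.ofReal (‖u x‖ ^ 2 / Hardy151.r2 e c x))) :=
        ENNReal.tendsto_ofReal ((hx.norm.pow 2).div_const _)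
      exact h4.liminf_eq.ge
    refine (lintegral_mono_ae h3).trans (lintegral_liminf_le' fun n => ?_)
    refine (ENNReal.measurable_ofReal.comp ?_).aemeasurable
    exact ((hφ (ns n)).continuous.norm.pow 2).measurable.div hr2m
  have hmain : ENNReal.ofReal A * ∫⁻ x, ENNReal.ofReal (‖u x‖ ^ 2 / Hardy151.r2 e c x) ≤
      2 * eLpNorm h 2 volume ^ 2 := by
    have h3 : ENNReal.ofReal A * ∫⁻ x, ENNReal.ofReal (‖u x‖ ^ 2 / Hardy151.r2 e c x) ≤
        liminf (fun n => ENNReal.ofReal A *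
          ∫⁻ x, ENNReal.ofReal (‖φ (ns n) x‖ ^ 2 / Hardy151.r2 e c x)) atTop := by
      refine (mul_le_mul' le_rfl hfat).trans ?_
      have hm : Monotone fun y : ℝ≥0∞ => ENNReal.ofReal A * y := fun y z hyz => by
        simp only
        gcongr
      have hc' : ContinuousAt (fun y : ℝ≥0∞ => ENNReal.ofReal A * y)
          (liminf (fun n => ∫⁻ x, ENNReal.ofReal (‖φ (ns n) x‖ ^ 2 / Hardy151.r2 e c x)) atTop) :=
        (ENNReal.continuous_const_mul ENNReal.ofReal_ne_top).continuousAt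
      exact (hm.map_liminf_of_continuousAt _ hc').le
    refine h3.trans ?_
    have h4 : liminf (fun n => ENNReal.ofReal A *
          ∫⁻ x, ENNReal.ofReal (‖φ (ns n) x‖ ^ 2 / Hardy151.r2 e c x)) atTop ≤
        liminf (fun n => 2 * (eLpNorm (fun x => cD e a (φ (ns n)) x - h x) 2 volume +
          eLpNorm h 2 volume) ^ 2) atTop :=
      liminf_le_liminf (Eventually.of_forall fun n => hb (ns n))
    exact h4.trans_eq ((hlim.comp hns.tendsto_atTop).liminf_eq)
  have hfin : ∫⁻ x, ENNReal.ofReal (‖u x‖ ^ 2 / Hardy151.r2 e c x) < ⊤ := by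
    have h3 : 2 * eLpNorm h 2 volume ^ 2 < ⊤ :=
      ENNReal.mul_lt_top (by norm_num) (ENNReal.pow_lt_top hh.2)
    have h4 := hmain.trans_lt h3
    by_contra hcon
    rw [not_lt, top_le_iff] at hcon
    rw [hcon, ENNReal.mul_top (by simpa using hA0)] at h4
    exact lt_irrefl _ h4
  have hae0 : 0 ≤ᵐ[volume] fun x => ‖u x‖ ^ 2 / Hardy151.r2 e c x :=
    Eventually.of_forall fun x => div_nonneg (sq_nonneg _) (hr0 x)
  have hum : AEStronglyMeasurable (fun x => ‖u x‖ ^ 2 / Hardy151.r2 e c x) volume :=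
    ((hu.1.norm.aemeasurable.pow_const 2).div hr2m.aemeasurable).aestronglyMeasurable
  have hint : Integrable (fun x => ‖u x‖ ^ 2 / Hardy151.r2 e c x) volume :=
    ⟨hum, (hasFiniteIntegral_iff_ofReal hae0).2 hfin⟩
  refine ⟨hint, ?_⟩
  have hhi : Integrable (fun x => ‖h x‖ ^ 2) volume := hh.integrable_norm_pow (by norm_num)
  have h8 : ENNReal.ofReal (A * ∫ x, ‖u x‖ ^ 2 / Hardy151.r2 e c x) ≤
      ENNReal.ofReal (2 * ∫ x, ‖h x‖ ^ 2) := by
    rw [ENNReal.ofReal_mul hA0.le, ENNReal.ofReal_mul (by norm_num), ENNReal.ofReal_ofNat,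
      ofReal_integral_eq_lintegral_ofReal hint hae0,
      ofReal_integral_eq_lintegral_ofReal hhi (Eventually.of_forall fun x => sq_nonneg _)]
    refine hmain.trans_eq ?_
    rw [Moll596.sq_eLpNorm]
    congr 1
    refine lintegral_congr fun x => ?_
    rw [← ofReal_norm_eq_enorm, ENNReal.ofReal_pow (norm_nonneg _)]
  exact (ENNReal.ofReal_le_ofReal_iff (mul_nonneg (by norm_num)
    (integral_nonneg fun x => sq_nonneg _))).1 h8

end Crest.Agent.R330.WDH245

end
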