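import Crest.Agent.R330.WeitzI_726

/-!
# Row 330, (1.1): the energy identity of a general charge (helper726)
-/

set_option autoImplicit false
set_option linter.unusedSectionVars false

open MeasureTheory Filter Topology
open scoped ContDiff InnerProductSpace ENNReal
open Crest.MathPhysics.MatrixQM
open Crest.Agent.R330.IBP837

noncomputable section

namespace Crest.Agent.R330.Weitz726

variable {N : ℕ} {F : Type*} [NormedAddCommGroup F] [InnerProductSpace ℂ F]
  [FiniteDimensional ℂ F]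

/-- the zero order (Yukawa) operator of a general charge family:
`Z(x) = -i ∑_{α,k} Θ(u_{α,k}) Θ(∂_k W_α(x))` -/
def Zop (M : FermionRep N F) (G : GammaNine)
    (W : Fin 16 → Fin 16 → Fin (N ^ 2 - 1) → Cfg N → ℝ) (x : Cfg N) : F →ₗ[ℂ] F :=
  ∑ α, ∑ k : Fin 9 × Fin (N ^ 2 - 1), (-Complex.I) • (dco M G α k ∘ₗ Th M (dW W α k x))

theorem Zop_apply (M : FermionRep N F) (G : GammaNine)
    (W : Fin 16 → Fin 16 → Fin (N ^ 2 - 1) → Cfg N → ℝ) (x : Cfg N) (v : F) :
    Zop M G W x v = ∑ α, ∑ k : Fin 9 × Fin (N ^ 2 - 1),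
      (-Complex.I) • dco M G α k (Th M (dW W α k x) v) := by
  simp [Zop, LinearMap.sum_apply]

/-- the sum of squares potential `∑_{α,β,A} W_{αβA}(x)²` -/
def Wsq (W : Fin 16 → Fin 16 → Fin (N ^ 2 - 1) → Cfg N → ℝ) (x : Cfg N) : ℝ :=
  ∑ α, dp (fun β A => W α β A x) (fun β A => W α β A x)

/-- the trace condition -/
def TrZ (G : GammaNine) (W : Fin 16 → Fin 16 → Fin (N ^ 2 - 1) → Cfg N → ℝ) : Prop :=
  ∀ (k : Fin 9 × Fin (N ^ 2 - 1)) (x : Cfg N), ∑ α, ∑ β, G.γ k.1 α β * W α β k.2 x = 0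

section

variable {M : FermionRep N F} {G : GammaNine}
  {W : Fin 16 → Fin 16 → Fin (N ^ 2 - 1) → Cfg N → ℝ} {φ : Cfg N → F}

theorem continuous_Th {c : Cfg N → Fin 16 → Fin (N ^ 2 - 1) → ℝ} {f : Cfg N → F}
    (hcc : ∀ β A, Continuous fun x => c x β A) (hf : Continuous f) :
    Continuous fun x => Th M (c x) (f x) := by
  simp only [Th_apply]
  refine continuous_finsetSum _ fun β _ => continuous_finsetSum _ fun A _ => ?_
  exact (Complex.continuous_ofReal.comp (hcc β A)).smul ((cont_lin _).comp hf)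

theorem continuous_dW {α : Fin 16} (hW : ∀ β A, ContDiff ℝ 1 (W α β A))
    (k : Fin 9 × Fin (N ^ 2 - 1)) (β : Fin 16) (A : Fin (N ^ 2 - 1)) :
    Continuous fun x => dW W α k x β A :=
  ((hW β A).continuous_fderiv one_ne_zero).clm_apply continuous_const

theorem continuous_kp {α : Fin 16} (hφ : ContDiff ℝ 1 φ) : Continuous (kp M G α φ) := by
  unfold kp
  exact continuous_finsetSum _ fun k _ => Continuous.const_smul
    ((cont_lin _).comp (fderiv_apply_continuous hφ _)) _

theorem cs_kp {α : Fin 16} (hc : HasCompactSupport φ) : HasCompactSupport (kp M G α φ) := by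
  refine (hc.fderiv (𝕜 := ℝ)).mono' fun x hx => subset_tsupport _ fun h0 => hx ?_
  simp [kp, h0]

theorem continuous_wp {α : Fin 16} (hW : ∀ β A, ContDiff ℝ 1 (W α β A)) (hφ : Continuous φ) :
    Continuous (wp M W α φ) := by
  have h : wp M W α φ = fun x => Th M (fun β A => W α β A x) (φ x) := by
    funext x; rw [wp, vco_eq]
  rw [h]
  exact continuous_Th (fun β A => (hW β A).continuous) hφ

theorem cs_wp {α : Fin 16} (hc : HasCompactSupport φ) : HasCompactSupport (wp M W α φ) :=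
  hc.mono fun x hx h0 => hx (by simp only [wp, h0, map_zero])

/-- **The energy identity, complex form.** -/
theorem weitz_complex (hW : ∀ α β A, ContDiff ℝ 1 (W α β A)) (hT : TrZ G W)
    (hφ : ContDiff ℝ 2 φ) (hc : HasCompactSupport φ) :
    ∑ α, ∫ x, ⟪chargeW M G W α φ x, chargeW M G W α φ x⟫_ℂ =
      8 * (∑ k : Fin 9 × Fin (N ^ 2 - 1), ∫ x, ⟪fderiv ℝ φ x (EuclideanSpace.single k 1),
        fderiv ℝ φ x (EuclideanSpace.single k 1)⟫_ℂ) +
      (∫ x, ((Wsq W x / 2 : ℝ) : ℂ) * ⟪φ x, φ x⟫_ℂ) + ∫ x, ⟪φ x, Zop M G W x (φ x)⟫_ℂ := by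
  have h1 : ContDiff ℝ 1 φ := hφ.of_le (by norm_num)
  have ck : ∀ α, Continuous (kp M G α φ) := fun α => continuous_kp h1
  have sk : ∀ α, HasCompactSupport (kp M G α φ) := fun α => cs_kp hc
  have cw : ∀ α, Continuous (wp M W α φ) := fun α => continuous_wp (hW α) h1.continuous
  have sw : ∀ α, HasCompactSupport (wp M W α φ) := fun α => cs_wp hc
  -- split
  have e1 : ∀ α, ∫ x, ⟪chargeW M G W α φ x, chargeW M G W α φ x⟫_ℂ =
      (∫ x, ⟪kp M G α φ x, kp M G α φ x⟫_ℂ) + (∫ x, ⟪wp M W α φ x, wp M W α φ x⟫_ℂ) +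
        ((∫ x, ⟪kp M G α φ x, wp M W α φ x⟫_ℂ) + ∫ x, ⟪wp M W α φ x, kp M G α φ x⟫_ℂ) := by
    intro α
    have i1 := integrable_inner_of_cont (μ := (volume : Measure (Cfg N))) (ck α) (ck α)
      (Or.inl (sk α))
    have i2 := integrable_inner_of_cont (μ := (volume : Measure (Cfg N))) (cw α) (cw α)
      (Or.inl (sw α))
    have i3 := integrable_inner_of_cont (μ := (volume : Measure (Cfg N))) (ck α) (cw α)
      (Or.inl (sk α))
    have i4 := integrable_inner_of_cont (μ := (volume : Measure (Cfg N))) (cw α) (ck α)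
      (Or.inl (sw α))
    have e6 := integral_add (i1.add i2) (i3.add i4)
    simp only [Pi.add_apply] at e6
    rw [← integral_add i1 i2, ← integral_add i3 i4, ← e6]
    refine integral_congr_ae (Eventually.of_forall fun x => ?_)
    simp only [chargeW_eq, inner_add_left, inner_add_right]
    ring
  -- the cross terms
  have e2 : ∀ α, (∫ x, ⟪kp M G α φ x, wp M W α φ x⟫_ℂ) + (∫ x, ⟪wp M W α φ x, kp M G α φ x⟫_ℂ) =
      (∑ k, ∫ x, ⟪φ x, (-Complex.I) • dco M G α k (Th M (dW W α k x) (φ x))⟫_ℂ) +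
      ∑ k : Fin 9 × Fin (N ^ 2 - 1), ∫ x, ((dp (ug G α k.1 k.2) (fun β A => W α β A x) : ℝ) : ℂ) *
        ⟪φ x, (-Complex.I) • fderiv ℝ φ x (EuclideanSpace.single k 1)⟫_ℂ := by
    intro α
    have j1 : ∀ k : Fin 9 × Fin (N ^ 2 - 1), Integrable fun x =>
        ⟪(-Complex.I) • dco M G α k (fderiv ℝ φ x (EuclideanSpace.single k 1)),
          wp M W α φ x⟫_ℂ := fun k =>
      integrable_inner_of_cont (Continuous.const_smul
        ((cont_lin _).comp (fderiv_apply_continuous h1 _)) _) (cw α) (Or.inr (sw α))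
    have j2 : ∀ k : Fin 9 × Fin (N ^ 2 - 1), Integrable fun x => ⟪wp M W α φ x,
        (-Complex.I) • dco M G α k (fderiv ℝ φ x (EuclideanSpace.single k 1))⟫_ℂ := fun k =>
      integrable_inner_of_cont (cw α) (Continuous.const_smul
        ((cont_lin _).comp (fderiv_apply_continuous h1 _)) _) (Or.inl (sw α))
    have a1 : ∫ x, ⟪kp M G α φ x, wp M W α φ x⟫_ℂ = ∑ k, ∫ x,
        ⟪(-Complex.I) • dco M G α k (fderiv ℝ φ x (EuclideanSpace.single k 1)),
          wp M W α φ x⟫_ℂ := by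
      rw [← integral_finsetSum _ fun k _ => j1 k]
      refine integral_congr_ae (Eventually.of_forall fun x => ?_)
      simp only [kp, sum_inner]
    have a2 : ∫ x, ⟪wp M W α φ x, kp M G α φ x⟫_ℂ = ∑ k, ∫ x, ⟪wp M W α φ x,
        (-Complex.I) • dco M G α k (fderiv ℝ φ x (EuclideanSpace.single k 1))⟫_ℂ := by
      rw [← integral_finsetSum _ fun k _ => j2 k]
      refine integral_congr_ae (Eventually.of_forall fun x => ?_)
      simp only [kp, inner_sum]
    rw [a1, a2, ← Finset.sum_add_distrib, ← Finset.sum_add_distrib]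
    exact Finset.sum_congr rfl fun k _ => cross_one (hW α) hφ hc k
  -- the trace term vanishes
  have e3 : ∑ α, ∑ k : Fin 9 × Fin (N ^ 2 - 1), ∫ x,
      ((dp (ug G α k.1 k.2) (fun β A => W α β A x) : ℝ) : ℂ) *
        ⟪φ x, (-Complex.I) • fderiv ℝ φ x (EuclideanSpace.single k 1)⟫_ℂ = 0 := by
    rw [Finset.sum_comm]
    refine Finset.sum_eq_zero fun k _ => ?_
    rw [← integral_finsetSum]
    · have : ∀ x, ∑ α, ((dp (ug G α k.1 k.2) (fun β A => W α β A x) : ℝ) : ℂ) *
          ⟪φ x, (-Complex.I) • fderiv ℝ φ x (EuclideanSpace.single k 1)⟫_ℂ = 0 := by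
        intro x
        rw [← Finset.sum_mul, ← Complex.ofReal_sum]
        simp only [dp_ug]
        rw [hT k x]
        simp
      simp only [this, integral_zero]
    · intro α _
      have hcont : Continuous fun x => ((dp (ug G α k.1 k.2) (fun β A => W α β A x) : ℝ) : ℂ) := by
        refine Complex.continuous_ofReal.comp ?_
        simp only [dp_ug]
        exact continuous_finsetSum _ fun β _ => continuous_const.mul (hW α β k.2).continuous
      refine (hcont.mul (h1.continuous.inner (Continuous.const_smul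
        (fderiv_apply_continuous h1 _) _))).integrable_of_hasCompactSupport ?_
      refine hc.mono fun x hx h0 => hx ?_
      have h00 : φ x = 0 := h0
      simp [h00]
  -- the Yukawa term
  have e4 : ∑ α, ∑ k, ∫ x, ⟪φ x, (-Complex.I) • dco M G α k (Th M (dW W α k x) (φ x))⟫_ℂ =
      ∫ x, ⟪φ x, Zop M G W x (φ x)⟫_ℂ := by
    have j : ∀ α k, Integrable fun x =>
        ⟪φ x, (-Complex.I) • dco M G α k (Th M (dW W α k x) (φ x))⟫_ℂ := fun α k =>
      integrable_inner_of_cont h1.continuous (Continuous.const_smul ((cont_lin _).comp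
        (continuous_Th (continuous_dW (hW α) k) h1.continuous)) _) (Or.inl hc)
    simp only [Zop_apply, inner_sum]
    rw [integral_finsetSum _ fun α _ => integrable_finsetSum _ fun k _ => j α k]
    exact Finset.sum_congr rfl fun α _ => (integral_finsetSum _ fun k _ => j α k).symm
  -- the potential term
  have e5 : ∑ α, ∫ x, ⟪wp M W α φ x, wp M W α φ x⟫_ℂ =
      ∫ x, ((Wsq W x / 2 : ℝ) : ℂ) * ⟪φ x, φ x⟫_ℂ := by
    rw [← integral_finsetSum _ fun α _ => integrable_inner_of_cont (cw α) (cw α) (Or.inl (sw α))]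
    refine integral_congr_ae (Eventually.of_forall fun x => ?_)
    simp only [wp_inner]
    rw [← Finset.sum_mul, ← Complex.ofReal_sum, ← Finset.sum_div, Wsq]
  simp only [e1, e2, Finset.sum_add_distrib, e3, e4, e5, add_zero, kin_int hφ hc]

/-- **The energy identity.** -/
theorem weitz (hW : ∀ α β A, ContDiff ℝ 1 (W α β A)) (hT : TrZ G W)
    (hφ : ContDiff ℝ 2 φ) (hc : HasCompactSupport φ) :
    ∑ α, ∫ x, ‖chargeW M G W α φ x‖ ^ 2 =
      8 * (∑ k : Fin 9 × Fin (N ^ 2 - 1), ∫ x, ‖fderiv ℝ φ x (EuclideanSpace.single k 1)‖ ^ 2) +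
      (∫ x, Wsq W x / 2 * ‖φ x‖ ^ 2) + (∫ x, (⟪φ x, Zop M G W x (φ x)⟫_ℂ).re) := by
  have h := congrArg Complex.re (weitz_complex (M := M) hW hT hφ hc)
  have h1 : ContDiff ℝ 1 φ := hφ.of_le (by norm_num)
  have n2 : ∀ v : F, ⟪v, v⟫_ℂ = ((‖v‖ ^ 2 : ℝ) : ℂ) := fun v => by
    rw [inner_self_eq_norm_sq_to_K]; norm_cast
  have hZ : Integrable fun x => ⟪φ x, Zop M G W x (φ x)⟫_ℂ := by
    simp only [Zop_apply]
    refine integrable_inner_of_cont h1.continuous ?_ (Or.inl hc)
    exact continuous_finsetSum _ fun α _ => continuous_finsetSum _ fun k _ =>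
      Continuous.const_smul ((cont_lin _).comp
        (continuous_Th (continuous_dW (hW α) k) h1.continuous)) _
  simp only [n2, ← Complex.ofReal_mul] at h
  simp only [integral_complex_ofReal, Complex.add_re, ← Complex.ofReal_sum] at h
  rw [show (8 : ℂ) = ((8 : ℝ) : ℂ) by norm_num, ← Complex.ofReal_mul] at h
  simp only [Complex.ofReal_re] at h
  rw [h]
  congr 1
  exact (integral_re hZ).symm

end

end Crest.Agent.R330.Weitz726

end
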