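import Crest.Agent.R330.Weitz_726
import Crest.Agent.R330.IBP_837

/-!
# Row 330, (1.1): integrated energy identity of a general charge (helper726)

`weitz` : for every `W : Fin 16 → Fin 16 → Fin (N²-1) → Cfg N → ℝ` of class `C¹` with
`∑_{α,β} γ^i_{αβ} W_{αβA} = 0` and every `φ ∈ C_c²`,
`∑_α ∫ ‖Q_α^W φ‖² = 8 ∑_k ∫ ‖∂_k φ‖² + ½ ∫ (∑ W²) ‖φ‖² + ∫ ⟪φ, Z φ⟫`,
`Z(x) = -i ∑_{α,k} Θ(u_{α,k}) Θ(∂_k W_α(x))`.
-/

set_option autoImplicit false
set_option linter.unusedSectionVars false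

open MeasureTheory Filter Topology
open scoped ContDiff InnerProductSpace ENNReal
open Crest.MathPhysics.MatrixQM
open Crest.Agent.R330.IBP837

noncomputable section

namespace Crest.Agent.R330.Weitz726

variable {N : ℕ} {F : Type*} [NormedAddCommGroup F] [InnerProductSpace ℂ F]
  [FiniteDimensional ℂ F]

theorem vco_eq (M : FermionRep N F) (c : Fin 16 → Fin (N ^ 2 - 1) → ℝ) : vco M c = Th M c := by
  unfold vco Th
  rw [Finset.sum_comm]

theorem dco_eq (M : FermionRep N F) (G : GammaNine) (α : Fin 16)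
    (k : Fin 9 × Fin (N ^ 2 - 1)) : dco M G α k = Th M (ug G α k.1 k.2) := by
  ext v
  rw [dco_apply, Th_ug]

/-- the first order part of the charge -/
def kp (M : FermionRep N F) (G : GammaNine) (α : Fin 16) (φ : Cfg N → F) (x : Cfg N) : F :=
  ∑ k : Fin 9 × Fin (N ^ 2 - 1),
    (-Complex.I) • dco M G α k (fderiv ℝ φ x (EuclideanSpace.single k 1))

/-- the zero order part of the charge -/
def wp (M : FermionRep N F) (W : Fin 16 → Fin 16 → Fin (N ^ 2 - 1) → Cfg N → ℝ) (α : Fin 16)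
    (φ : Cfg N → F) (x : Cfg N) : F := vco M (fun β A => W α β A x) (φ x)

theorem chargeW_eq (M : FermionRep N F) (G : GammaNine)
    (W : Fin 16 → Fin 16 → Fin (N ^ 2 - 1) → Cfg N → ℝ) (α : Fin 16) (φ : Cfg N → F)
    (x : Cfg N) : chargeW M G W α φ x = kp M G α φ x + wp M W α φ x := rfl

section

variable {M : FermionRep N F} {G : GammaNine}
  {W : Fin 16 → Fin 16 → Fin (N ^ 2 - 1) → Cfg N → ℝ} {φ : Cfg N → F}

theorem cont_lin (L : F →ₗ[ℂ] F) : Continuous L := LinearMap.continuous_of_finiteDimensional _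

theorem cs_lin (L : F →ₗ[ℂ] F) {f : Cfg N → F} (hf : HasCompactSupport f) :
    HasCompactSupport fun x => L (f x) :=
  hf.comp_left (g := L) (map_zero L)

/-- derivatives commute with a constant linear map -/
theorem fderiv_lin (L : F →ₗ[ℂ] F) {f : Cfg N → F} (hf : Differentiable ℝ f) (x v : Cfg N) :
    fderiv ℝ (fun y => L (f y)) x v = L (fderiv ℝ f x v) := by
  have h : HasFDerivAt (fun y => L (f y))
      (((LinearMap.toContinuousLinearMap L).restrictScalars ℝ).comp (fderiv ℝ f x)) x :=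
    ((LinearMap.toContinuousLinearMap L).restrictScalars ℝ).hasFDerivAt.comp x (hf x).hasFDerivAt
  rw [h.fderiv]
  rfl

theorem contDiff_lin (L : F →ₗ[ℂ] F) {n : WithTop ℕ∞} {f : Cfg N → F} (hf : ContDiff ℝ n f) :
    ContDiff ℝ n fun y => L (f y) :=
  (((LinearMap.toContinuousLinearMap L).restrictScalars ℝ).contDiff).comp hf

theorem contDiff_pd (hφ : ContDiff ℝ 2 φ) (v : Cfg N) :
    ContDiff ℝ 1 fun x => fderiv ℝ φ x v :=
  (hφ.fderiv_right (m := 1) (by norm_num)).clm_apply contDiff_const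

/-- the swap `∫ ⟪∂_v φ, L ∂_w φ⟫ = ∫ ⟪∂_w φ, L ∂_v φ⟫`. -/
theorem swap (L : F →ₗ[ℂ] F) (hφ : ContDiff ℝ 2 φ) (hc : HasCompactSupport φ) (v w : Cfg N) :
    ∫ x, ⟪fderiv ℝ φ x v, L (fderiv ℝ φ x w)⟫_ℂ =
      ∫ x, ⟪fderiv ℝ φ x w, L (fderiv ℝ φ x v)⟫_ℂ := by
  have h1 : ContDiff ℝ 1 φ := hφ.of_le (by norm_num)
  have hd : ∀ u : Cfg N, ContDiff ℝ 1 fun x => fderiv ℝ φ x u := contDiff_pd hφ
  rw [ibp h1 (contDiff_lin L (hd w)) (Or.inl hc) v, ibp h1 (contDiff_lin L (hd v)) (Or.inl hc) w]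
  congr 1
  refine integral_congr_ae (Eventually.of_forall fun x => ?_)
  have hs : fderiv ℝ (fun y => fderiv ℝ φ y w) x v = fderiv ℝ (fun y => fderiv ℝ φ y v) x w := by
    have hsym : IsSymmSndFDerivAt ℝ φ x := hφ.contDiffAt.isSymmSndFDerivAt (by simp)
    have hdd : DifferentiableAt ℝ (fderiv ℝ φ) x :=
      (hφ.fderiv_right (m := 1) (by norm_num)).differentiable (by norm_num) x
    have e : ∀ a c : Cfg N, fderiv ℝ (fun y => fderiv ℝ φ y a) x c =
        fderiv ℝ (fderiv ℝ φ) x c a := fun a c => by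
      rw [fderiv_clm_apply hdd (differentiableAt_const a)]
      simp
    rw [e, e]
    exact hsym v w
  simp only
  rw [fderiv_lin L ((hd w).differentiable (by norm_num)),
    fderiv_lin L ((hd v).differentiable (by norm_num)), hs]

/-- `∑_α ⟨u_{α,k}, u_{α,l}⟩ = 16 δ_{kl}`. -/
theorem sum_dp_ug (G : GammaNine) (k l : Fin 9 × Fin (N ^ 2 - 1)) :
    ∑ α, dp (ug G α k.1 k.2) (ug G α l.1 l.2) = if k = l then (16 : ℝ) else 0 := by
  simp only [dp_ug_ug]
  have h := trace_two G k.1 l.1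
  rw [Matrix.trace] at h
  simp only [Matrix.diag_apply] at h
  by_cases h2 : k.2 = l.2
  · simp only [h2, if_true, h]
    by_cases h1 : k.1 = l.1
    · rw [if_pos h1, if_pos (Prod.ext h1 h2)]
    · rw [if_neg h1, if_neg fun h => h1 (congrArg Prod.fst h)]
  · simp only [h2, if_false, Finset.sum_const_zero]
    rw [if_neg fun h => h2 (congrArg Prod.snd h)]

/-- the kinetic term -/
theorem kin_int (hφ : ContDiff ℝ 2 φ) (hc : HasCompactSupport φ) :
    ∑ α, ∫ x, ⟪kp M G α φ x, kp M G α φ x⟫_ℂ =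
      8 * ∑ k : Fin 9 × Fin (N ^ 2 - 1), ∫ x, ⟪fderiv ℝ φ x (EuclideanSpace.single k 1),
        fderiv ℝ φ x (EuclideanSpace.single k 1)⟫_ℂ := by
  set P : Fin 9 × Fin (N ^ 2 - 1) → Cfg N → F := fun k x =>
    fderiv ℝ φ x (EuclideanSpace.single k 1) with hP
  have h1 : ContDiff ℝ 1 φ := hφ.of_le (by norm_num)
  have hPc : ∀ k, Continuous (P k) := fun k => fderiv_apply_continuous h1 _
  have hPs : ∀ k, HasCompactSupport (P k) := fun k => hasCompactSupport_fderiv_apply hc _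
  have hint : ∀ (L : F →ₗ[ℂ] F) (k l), Integrable fun x => ⟪P k x, L (P l x)⟫_ℂ := fun L k l =>
    integrable_inner_of_cont (hPc k) ((cont_lin L).comp (hPc l)) (Or.inl (hPs k))
  have e1 : ∀ α, ∫ x, ⟪kp M G α φ x, kp M G α φ x⟫_ℂ =
      ∑ k, ∑ l, ∫ x, ⟪P k x, dco M G α k (dco M G α l (P l x))⟫_ℂ := by
    intro α
    have e : ∀ x, ⟪kp M G α φ x, kp M G α φ x⟫_ℂ =
        ∑ k, ∑ l, ⟪P k x, dco M G α k (dco M G α l (P l x))⟫_ℂ := by
      intro x
      have e0 : kp M G α φ x = (-Complex.I) • ∑ k, dco M G α k (P k x) := by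
        simp only [kp, Finset.smul_sum, hP]
      rw [e0, inner_smul_left, inner_smul_right, ← mul_assoc]
      have e00 : (starRingEnd ℂ) (-Complex.I) * (-Complex.I) = 1 := by
        simp
      rw [e00, one_mul, sum_inner]
      refine Finset.sum_congr rfl fun k _ => ?_
      rw [inner_sum]
      exact Finset.sum_congr rfl fun l _ => dco_symm M G α k _ _
    simp only [e]
    rw [integral_finsetSum]
    · refine Finset.sum_congr rfl fun k _ => ?_
      rw [integral_finsetSum]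
      intro l _
      exact hint (dco M G α k ∘ₗ dco M G α l) k l
    · intro k _
      exact integrable_finsetSum _ fun l _ => hint (dco M G α k ∘ₗ dco M G α l) k l
  have e2 : ∀ α, (2 : ℂ) * ∫ x, ⟪kp M G α φ x, kp M G α φ x⟫_ℂ =
      ∑ k, ∑ l, ((dp (ug G α k.1 k.2) (ug G α l.1 l.2) : ℝ) : ℂ) * ∫ x, ⟪P k x, P l x⟫_ℂ := by
    intro α
    rw [two_mul]
    nth_rewrite 2 [e1 α]
    rw [e1 α]
    have e3 : ∑ k, ∑ l, ∫ x, ⟪P k x, dco M G α k (dco M G α l (P l x))⟫_ℂ =
        ∑ k, ∑ l, ∫ x, ⟪P k x, dco M G α l (dco M G α k (P l x))⟫_ℂ := by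
      rw [Finset.sum_comm]
      refine Finset.sum_congr rfl fun l _ => Finset.sum_congr rfl fun k _ => ?_
      exact swap (dco M G α k ∘ₗ dco M G α l) hφ hc _ _
    nth_rewrite 2 [e3]
    rw [← Finset.sum_add_distrib]
    refine Finset.sum_congr rfl fun k _ => ?_
    rw [← Finset.sum_add_distrib]
    refine Finset.sum_congr rfl fun l _ => ?_
    have e6 := integral_add (hint (dco M G α k ∘ₗ dco M G α l) k l)
      (hint (dco M G α l ∘ₗ dco M G α k) k l)
    simp only [LinearMap.comp_apply] at e6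
    rw [← e6, ← integral_const_mul]
    refine integral_congr_ae (Eventually.of_forall fun x => ?_)
    simp only
    rw [← inner_add_right, dco_eq, dco_eq, Th_anti, inner_smul_right]
  have e4 : (2 : ℂ) * ∑ α, ∫ x, ⟪kp M G α φ x, kp M G α φ x⟫_ℂ =
      16 * ∑ k, ∫ x, ⟪P k x, P k x⟫_ℂ := by
    rw [Finset.mul_sum, Finset.sum_congr rfl fun α _ => e2 α, Finset.sum_comm, Finset.mul_sum]
    refine Finset.sum_congr rfl fun k _ => ?_
    rw [Finset.sum_comm, Finset.sum_eq_single k]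
    · rw [← Finset.sum_mul, ← Complex.ofReal_sum, sum_dp_ug, if_pos rfl]
      norm_num
    · intro l _ hl
      rw [← Finset.sum_mul, ← Complex.ofReal_sum, sum_dp_ug, if_neg (Ne.symm hl)]
      simp
    · intro h; exact absurd (Finset.mem_univ _) h
  have e5 : ∑ α, ∫ x, ⟪kp M G α φ x, kp M G α φ x⟫_ℂ =
      (1 / 2 : ℂ) * ((2 : ℂ) * ∑ α, ∫ x, ⟪kp M G α φ x, kp M G α φ x⟫_ℂ) := by ring
  rw [e5, e4]
  ring

/-- the potential term -/
theorem wp_inner (α : Fin 16) (x : Cfg N) : ⟪wp M W α φ x, wp M W α φ x⟫_ℂ =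
    ((dp (fun β A => W α β A x) (fun β A => W α β A x) / 2 : ℝ) : ℂ) * ⟪φ x, φ x⟫_ℂ := by
  unfold wp
  rw [vco_symm M _ (φ x), vco_eq, Th_sq, inner_smul_right]

/-- the derivative of the coefficient vector `W_α` in the direction `k` -/
def dW (W : Fin 16 → Fin 16 → Fin (N ^ 2 - 1) → Cfg N → ℝ) (α : Fin 16)
    (k : Fin 9 × Fin (N ^ 2 - 1)) (x : Cfg N) : Fin 16 → Fin (N ^ 2 - 1) → ℝ :=
  fun β A => fderiv ℝ (W α β A) x (EuclideanSpace.single k 1)

theorem fderiv_wp {α : Fin 16} (hW : ∀ β A, ContDiff ℝ 1 (W α β A)) (hφ : Differentiable ℝ φ)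
    (x : Cfg N) (k : Fin 9 × Fin (N ^ 2 - 1)) :
    fderiv ℝ (wp M W α φ) x (EuclideanSpace.single k 1) =
      Th M (dW W α k x) (φ x) +
        Th M (fun β A => W α β A x) (fderiv ℝ φ x (EuclideanSpace.single k 1)) := by
  have h : ∀ β A, HasFDerivAt (fun y => ((W α β A y : ℝ) : ℂ) • M.θ β A (φ y))
      ((W α β A x) • (((LinearMap.toContinuousLinearMap (M.θ β A)).restrictScalars ℝ).comp
        (fderiv ℝ φ x)) + (fderiv ℝ (W α β A) x).smulRight (M.θ β A (φ x))) x := by
    intro β A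
    have h1 : (fun y => ((W α β A y : ℝ) : ℂ) • M.θ β A (φ y)) =
        fun y => W α β A y • M.θ β A (φ y) := by
      funext y; exact Complex.coe_smul _ _
    rw [h1]
    exact HasFDerivAt.smul (((hW β A).differentiable one_ne_zero) x).hasFDerivAt
      (((LinearMap.toContinuousLinearMap (M.θ β A)).restrictScalars ℝ).hasFDerivAt.comp x
        (hφ x).hasFDerivAt)
  have h2 : HasFDerivAt (wp M W α φ) (∑ β, ∑ A, ((W α β A x) •
      (((LinearMap.toContinuousLinearMap (M.θ β A)).restrictScalars ℝ).comp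
        (fderiv ℝ φ x)) + (fderiv ℝ (W α β A) x).smulRight (M.θ β A (φ x)))) x := by
    have h3 : wp M W α φ = fun y => ∑ β, ∑ A, ((W α β A y : ℝ) : ℂ) • M.θ β A (φ y) := by
      funext y
      rw [wp, vco_eq, Th_apply]
    rw [h3]
    exact HasFDerivAt.fun_sum fun β _ => HasFDerivAt.fun_sum fun A _ => h β A
  rw [h2.fderiv, Th_apply, Th_apply, ← Finset.sum_add_distrib]
  simp only [ContinuousLinearMap.sum_apply]
  refine Finset.sum_congr rfl fun β _ => ?_
  rw [← Finset.sum_add_distrib]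
  refine Finset.sum_congr rfl fun A _ => ?_
  simp only [ContinuousLinearMap.add_apply, ContinuousLinearMap.smul_apply,
    ContinuousLinearMap.smulRight_apply, ContinuousLinearMap.comp_apply, dW]
  rw [add_comm]
  congr 1

/-- the cross term of one component, one direction -/
theorem cross_one {α : Fin 16} (hW : ∀ β A, ContDiff ℝ 1 (W α β A)) (hφ : ContDiff ℝ 2 φ)
    (hc : HasCompactSupport φ) (k : Fin 9 × Fin (N ^ 2 - 1)) :
    (∫ x, ⟪(-Complex.I) • dco M G α k (fderiv ℝ φ x (EuclideanSpace.single k 1)),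
        wp M W α φ x⟫_ℂ) +
      ∫ x, ⟪wp M W α φ x, (-Complex.I) • dco M G α k
        (fderiv ℝ φ x (EuclideanSpace.single k 1))⟫_ℂ =
    (∫ x, ⟪φ x, (-Complex.I) • dco M G α k (Th M (dW W α k x) (φ x))⟫_ℂ) +
      ∫ x, ((dp (ug G α k.1 k.2) (fun β A => W α β A x) : ℝ) : ℂ) *
        ⟪φ x, (-Complex.I) • fderiv ℝ φ x (EuclideanSpace.single k 1)⟫_ℂ := by
  set P : Cfg N → F := fun x => fderiv ℝ φ x (EuclideanSpace.single k 1) with hP
  have h1 : ContDiff ℝ 1 φ := hφ.of_le (by norm_num)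
  have hPc : Continuous P := fderiv_apply_continuous h1 _
  have hPs : HasCompactSupport P := hasCompactSupport_fderiv_apply hc _
  have hWd : ContDiff ℝ 1 (wp M W α φ) := by
    have h3 : wp M W α φ = fun y => ∑ β, ∑ A, W α β A y • M.θ β A (φ y) := by
      funext y
      rw [wp, vco_eq, Th_apply]
      exact Finset.sum_congr rfl fun β _ => Finset.sum_congr rfl fun A _ => Complex.coe_smul _ _
    rw [h3]
    exact ContDiff.sum fun β _ => ContDiff.sum fun A _ => (hW β A).smul (contDiff_lin _ h1)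
  have hWs : HasCompactSupport (wp M W α φ) := by
    refine hc.mono fun x hx h0 => hx ?_
    simp only [wp, h0, map_zero]
  have cT : ∀ (c : Cfg N → Fin 16 → Fin (N ^ 2 - 1) → ℝ) (f : Cfg N → F),
      (∀ β A, Continuous fun x => c x β A) → Continuous f →
      Continuous fun x => Th M (c x) (f x) := by
    intro c f hcc hf
    simp only [Th_apply]
    refine continuous_finsetSum _ fun β _ => continuous_finsetSum _ fun A _ => ?_
    exact (Complex.continuous_ofReal.comp (hcc β A)).smul ((cont_lin _).comp hf)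
  have cW : ∀ β A, Continuous fun x => (fun β A => W α β A x) β A := fun β A =>
    (hW β A).continuous
  have cdW : ∀ β A, Continuous fun x => dW W α k x β A := fun β A =>
    ((hW β A).continuous_fderiv one_ne_zero).clm_apply continuous_const
  have eA : ∫ x, ⟪(-Complex.I) • dco M G α k (P x), wp M W α φ x⟫_ℂ =
      Complex.I * ∫ x, ⟪P x, dco M G α k (wp M W α φ x)⟫_ℂ := by
    rw [← integral_const_mul]
    refine integral_congr_ae (Eventually.of_forall fun x => ?_)
    simp only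
    rw [inner_smul_left, dco_symm M G α k]
    simp
  have eI : ∫ x, ⟪P x, dco M G α k (wp M W α φ x)⟫_ℂ =
      -((∫ x, ⟪φ x, dco M G α k (Th M (dW W α k x) (φ x))⟫_ℂ) +
        ∫ x, ⟪φ x, dco M G α k (Th M (fun β A => W α β A x) (P x))⟫_ℂ) := by
    rw [hP]
    simp only
    rw [ibp h1 (contDiff_lin _ hWd) (Or.inl hc)]
    congr 1
    have i1 : Integrable fun x => ⟪φ x, dco M G α k (Th M (dW W α k x) (φ x))⟫_ℂ :=
      integrable_inner_of_cont hφ.continuous ((cont_lin _).comp (cT _ _ cdW hφ.continuous))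
        (Or.inl hc)
    have i2 : Integrable fun x => ⟪φ x, dco M G α k (Th M (fun β A => W α β A x)
        (fderiv ℝ φ x (EuclideanSpace.single k 1)))⟫_ℂ :=
      integrable_inner_of_cont hφ.continuous ((cont_lin _).comp (cT _ _ cW hPc)) (Or.inl hc)
    rw [← integral_add i1 i2]
    refine integral_congr_ae (Eventually.of_forall fun x => ?_)
    simp only
    rw [fderiv_lin _ (hWd.differentiable one_ne_zero), fderiv_wp hW (h1.differentiable one_ne_zero),
      map_add, inner_add_right]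
  have eB : ∫ x, ⟪wp M W α φ x, (-Complex.I) • dco M G α k (P x)⟫_ℂ =
      (-Complex.I) * ∫ x, ⟪φ x, Th M (fun β A => W α β A x) (dco M G α k (P x))⟫_ℂ := by
    rw [← integral_const_mul]
    refine integral_congr_ae (Eventually.of_forall fun x => ?_)
    simp only [wp]
    rw [inner_smul_right, vco_symm M _ (φ x), vco_eq]
  have eC : ∫ x, ⟪φ x, (-Complex.I) • dco M G α k (Th M (dW W α k x) (φ x))⟫_ℂ =
      (-Complex.I) * ∫ x, ⟪φ x, dco M G α k (Th M (dW W α k x) (φ x))⟫_ℂ := by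
    rw [← integral_const_mul]
    refine integral_congr_ae (Eventually.of_forall fun x => ?_)
    simp only
    rw [inner_smul_right]
  have eD : ∫ x, ((dp (ug G α k.1 k.2) (fun β A => W α β A x) : ℝ) : ℂ) *
        ⟪φ x, (-Complex.I) • P x⟫_ℂ =
      (-Complex.I) * ((∫ x, ⟪φ x, dco M G α k (Th M (fun β A => W α β A x) (P x))⟫_ℂ) +
        ∫ x, ⟪φ x, Th M (fun β A => W α β A x) (dco M G α k (P x))⟫_ℂ) := by
    have i1 : Integrable fun x => ⟪φ x, dco M G α k (Th M (fun β A => W α β A x) (P x))⟫_ℂ :=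
      integrable_inner_of_cont hφ.continuous ((cont_lin _).comp (cT _ _ cW hPc)) (Or.inl hc)
    have i2 : Integrable fun x => ⟪φ x, Th M (fun β A => W α β A x) (dco M G α k (P x))⟫_ℂ :=
      integrable_inner_of_cont hφ.continuous (cT _ _ cW ((cont_lin _).comp hPc)) (Or.inl hc)
    rw [← integral_add i1 i2, ← integral_const_mul]
    refine integral_congr_ae (Eventually.of_forall fun x => ?_)
    simp only
    rw [← inner_add_right, dco_eq, Th_anti, inner_smul_right, inner_smul_right]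
    ring
  change (∫ x, ⟪(-Complex.I) • dco M G α k (P x), wp M W α φ x⟫_ℂ) +
      (∫ x, ⟪wp M W α φ x, (-Complex.I) • dco M G α k (P x)⟫_ℂ) =
    (∫ x, ⟪φ x, (-Complex.I) • dco M G α k (Th M (dW W α k x) (φ x))⟫_ℂ) +
      ∫ x, ((dp (ug G α k.1 k.2) (fun β A => W α β A x) : ℝ) : ℂ) *
        ⟪φ x, (-Complex.I) • P x⟫_ℂ
  rw [eA, eI, eB, eC, eD]
  ring

end

end Crest.Agent.R330.Weitz726

end
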