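import Mathlib
import Crest.Prelude.Def_MatrixModel

/-!
# Row 330, (1.1): the energy identity of a general Dirac-type family (helper726)

`Th M u = ∑ u β A θ_β^A` is the Clifford map, `dchg M G w α φ` the charge
`-i ∑ γ^i_{αβ} θ_β^A ∂_{iA} φ + ∑ w_{αβ}^A(x) θ_β^A φ`.
-/

set_option autoImplicit false

open MeasureTheory Filter Topology
open scoped ContDiff InnerProductSpace ENNReal
open Crest.MathPhysics.MatrixQM

noncomputable section

namespace Crest.Agent.R330.Weitz726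

variable {N : ℕ} {F : Type*} [NormedAddCommGroup F] [InnerProductSpace ℂ F]

/-! ## The Clifford map -/

/-- `Θ(u) = ∑ u_{βA} θ_β^A`. -/
def Th (M : FermionRep N F) (u : Fin 16 → Fin (N ^ 2 - 1) → ℝ) : F →ₗ[ℂ] F :=
  ∑ β, ∑ A, ((u β A : ℝ) : ℂ) • M.θ β A

theorem Th_apply (M : FermionRep N F) (u : Fin 16 → Fin (N ^ 2 - 1) → ℝ) (v : F) :
    Th M u v = ∑ β, ∑ A, ((u β A : ℝ) : ℂ) • M.θ β A v := by
  simp [Th, LinearMap.sum_apply, LinearMap.smul_apply]

theorem Th_add (M : FermionRep N F) (u u' : Fin 16 → Fin (N ^ 2 - 1) → ℝ) :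
    Th M (u + u') = Th M u + Th M u' := by
  simp [Th, add_smul, Finset.sum_add_distrib]

theorem Th_smul (M : FermionRep N F) (c : ℝ) (u : Fin 16 → Fin (N ^ 2 - 1) → ℝ) :
    Th M (c • u) = (c : ℂ) • Th M u := by
  simp [Th, Finset.smul_sum, mul_smul]

theorem Th_zero (M : FermionRep N F) : Th M 0 = 0 := by
  simp [Th]

theorem Th_sum (M : FermionRep N F) {ι : Type*} (s : Finset ι)
    (u : ι → Fin 16 → Fin (N ^ 2 - 1) → ℝ) :
    Th M (∑ i ∈ s, u i) = ∑ i ∈ s, Th M (u i) := by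
  classical
  induction s using Finset.induction_on with
  | empty => simp [Th_zero]
  | insert a s ha ih => rw [Finset.sum_insert ha, Finset.sum_insert ha, Th_add, ih]

/-- `Θ(u)` is self-adjoint. -/
theorem Th_symm (M : FermionRep N F) (u : Fin 16 → Fin (N ^ 2 - 1) → ℝ) (v w : F) :
    ⟪Th M u v, w⟫_ℂ = ⟪v, Th M u w⟫_ℂ := by
  simp only [Th_apply, sum_inner, inner_sum, inner_smul_left, inner_smul_right,
    Complex.conj_ofReal]
  exact Finset.sum_congr rfl fun β _ => Finset.sum_congr rfl fun A _ => by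
    rw [M.selfAdjoint β A v w]

/-- The scalar product of two coefficient vectors. -/
def dp (u v : Fin 16 → Fin (N ^ 2 - 1) → ℝ) : ℝ := ∑ β, ∑ A, u β A * v β A

theorem dp_comm (u v : Fin 16 → Fin (N ^ 2 - 1) → ℝ) : dp u v = dp v u := by
  simp only [dp, mul_comm]

theorem Th_apply' (M : FermionRep N F) (u : Fin 16 → Fin (N ^ 2 - 1) → ℝ) (v : F) :
    Th M u v = ∑ p : Fin 16 × Fin (N ^ 2 - 1), ((u p.1 p.2 : ℝ) : ℂ) • M.θ p.1 p.2 v := by
  rw [Th_apply, Fintype.sum_prod_type]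

theorem dp_eq (u v : Fin 16 → Fin (N ^ 2 - 1) → ℝ) :
    dp u v = ∑ p : Fin 16 × Fin (N ^ 2 - 1), u p.1 p.2 * v p.1 p.2 := by
  rw [dp, Fintype.sum_prod_type]

theorem anti_apply (M : FermionRep N F) (p q : Fin 16 × Fin (N ^ 2 - 1)) (a : F) :
    M.θ p.1 p.2 (M.θ q.1 q.2 a) + M.θ q.1 q.2 (M.θ p.1 p.2 a) = if p = q then a else 0 := by
  have h := congrArg (fun T : F →ₗ[ℂ] F => T a) (M.anticomm p.1 p.2 q.1 q.2)
  simp only [LinearMap.add_apply, LinearMap.comp_apply] at h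
  rw [h]
  by_cases hpq : p = q
  · subst hpq; simp
  · rw [if_neg hpq, if_neg]
    · rfl
    · rintro ⟨h1, h2⟩; exact hpq (Prod.ext h1 h2)

/-- `{Θ(u), Θ(v)} = ⟨u, v⟩`. -/
theorem Th_anti (M : FermionRep N F) (u v : Fin 16 → Fin (N ^ 2 - 1) → ℝ) (a : F) :
    Th M u (Th M v a) + Th M v (Th M u a) = ((dp u v : ℝ) : ℂ) • a := by
  have h1 : Th M u (Th M v a) = ∑ p : Fin 16 × Fin (N ^ 2 - 1), ∑ q : Fin 16 × Fin (N ^ 2 - 1),
      (((u p.1 p.2 : ℝ) : ℂ) * ((v q.1 q.2 : ℝ) : ℂ)) • M.θ p.1 p.2 (M.θ q.1 q.2 a) := by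
    simp only [Th_apply', map_sum, map_smul, Finset.smul_sum, smul_smul]
    rw [Finset.sum_comm]
    exact Finset.sum_congr rfl fun p _ => Finset.sum_congr rfl fun q _ => by rw [mul_comm]
  have h2 : Th M v (Th M u a) = ∑ p : Fin 16 × Fin (N ^ 2 - 1), ∑ q : Fin 16 × Fin (N ^ 2 - 1),
      (((u p.1 p.2 : ℝ) : ℂ) * ((v q.1 q.2 : ℝ) : ℂ)) • M.θ q.1 q.2 (M.θ p.1 p.2 a) := by
    simp only [Th_apply', map_sum, map_smul, Finset.smul_sum, smul_smul]
  rw [h1, h2, ← Finset.sum_add_distrib, dp_eq, Complex.ofReal_sum, Finset.sum_smul]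
  refine Finset.sum_congr rfl fun p _ => ?_
  rw [← Finset.sum_add_distrib, Finset.sum_eq_single p]
  · rw [← smul_add, anti_apply, if_pos rfl, Complex.ofReal_mul]
  · intro q _ hq
    rw [← smul_add, anti_apply, if_neg (Ne.symm hq), smul_zero]
  · intro h; exact absurd (Finset.mem_univ _) h

/-- `Θ(u)² = ½ ⟨u, u⟩`. -/
theorem Th_sq (M : FermionRep N F) (u : Fin 16 → Fin (N ^ 2 - 1) → ℝ) (a : F) :
    Th M u (Th M u a) = ((dp u u / 2 : ℝ) : ℂ) • a := by
  have h := Th_anti M u u a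
  rw [← two_smul ℂ] at h
  have h2 : Th M u (Th M u a) = (1 / 2 : ℂ) • ((2 : ℂ) • Th M u (Th M u a)) := by
    rw [smul_smul]; norm_num
  rw [h2, h, smul_smul]
  congr 1
  push_cast; ring

/-! ## The charges -/

/-- The coefficient vector of `∂_{jA}` in `Q_α`: `u_{βB} = γ^j_{αβ} δ_{AB}`. -/
def ug (G : GammaNine) (α : Fin 16) (j : Fin 9) (A : Fin (N ^ 2 - 1)) :
    Fin 16 → Fin (N ^ 2 - 1) → ℝ := fun β B => if B = A then G.γ j α β else 0

/-- Coefficients of the zero order part. -/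
abbrev Pot (N : ℕ) := Cfg N → Fin 16 → Fin 16 → Fin (N ^ 2 - 1) → ℝ

/-- `∂_{jA} φ`. -/
abbrev pd (φ : Cfg N → F) (j : Fin 9) (A : Fin (N ^ 2 - 1)) (x : Cfg N) : F :=
  fderiv ℝ φ x (EuclideanSpace.single (j, A) 1)

/-- The general Dirac-type charge. -/
def dchg (M : FermionRep N F) (G : GammaNine) (w : Pot N) (α : Fin 16) (φ : Cfg N → F)
    (x : Cfg N) : F :=
  (∑ i : Fin 9, ∑ A : Fin (N ^ 2 - 1), ∑ β : Fin 16,
      (-Complex.I * (G.γ i α β : ℂ)) • M.θ β A (fderiv ℝ φ x (EuclideanSpace.single (i, A) 1))) +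
  ∑ A : Fin (N ^ 2 - 1), ∑ β : Fin 16, ((w x α β A : ℝ) : ℂ) • M.θ β A (φ x)

theorem Th_ug (M : FermionRep N F) (G : GammaNine) (α : Fin 16) (j : Fin 9)
    (A : Fin (N ^ 2 - 1)) (v : F) :
    Th M (ug G α j A) v = ∑ β, ((G.γ j α β : ℝ) : ℂ) • M.θ β A v := by
  rw [Th_apply]
  refine Finset.sum_congr rfl fun β _ => ?_
  rw [Finset.sum_eq_single A]
  · simp [ug]
  · intro B _ hB; simp [ug, hB]
  · intro h; exact absurd (Finset.mem_univ _) h

/-- The charge through the Clifford map. -/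
theorem dchg_eq (M : FermionRep N F) (G : GammaNine) (w : Pot N) (α : Fin 16) (φ : Cfg N → F)
    (x : Cfg N) :
    dchg M G w α φ x = (-Complex.I) • (∑ j, ∑ A, Th M (ug G α j A) (pd φ j A x)) +
      Th M (w x α) (φ x) := by
  unfold dchg
  congr 1
  · simp only [Th_ug, Finset.smul_sum, smul_smul]
  · rw [Th_apply, Finset.sum_comm]

/-- `⟨u_{α,j,A}, u_{α,k,B}⟩`. -/
theorem dp_ug_ug (G : GammaNine) (α : Fin 16) (j k : Fin 9) (A B : Fin (N ^ 2 - 1)) :
    dp (ug G α j A) (ug G α k B) = if A = B then (G.γ j * G.γ k) α α else 0 := by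
  have hs : ∀ β, G.γ k α β = G.γ k β α := fun β => by
    conv_lhs => rw [← G.symm k]
    rfl
  unfold dp
  by_cases hAB : A = B
  · subst hAB
    rw [if_pos rfl, Matrix.mul_apply]
    refine Finset.sum_congr rfl fun β _ => ?_
    rw [Finset.sum_eq_single A]
    · simp [ug, hs β]
    · intro C _ hC; simp [ug, hC]
    · intro h; exact absurd (Finset.mem_univ _) h
  · rw [if_neg hAB]
    refine Finset.sum_eq_zero fun β _ => Finset.sum_eq_zero fun C _ => ?_
    by_cases hC : C = A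
    · subst hC; simp [ug, hAB]
    · simp [ug, hC]

/-- `⟨u_{α,j,A}, v⟩`. -/
theorem dp_ug (G : GammaNine) (α : Fin 16) (j : Fin 9) (A : Fin (N ^ 2 - 1))
    (v : Fin 16 → Fin (N ^ 2 - 1) → ℝ) :
    dp (ug G α j A) v = ∑ β, G.γ j α β * v β A := by
  unfold dp
  refine Finset.sum_congr rfl fun β _ => ?_
  rw [Finset.sum_eq_single A]
  · simp [ug]
  · intro C _ hC; simp [ug, hC]
  · intro h; exact absurd (Finset.mem_univ _) h

theorem gamma_sq (G : GammaNine) (j : Fin 9) : G.γ j * G.γ j = 1 := by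
  have h := G.clifford j j
  rw [if_pos rfl, ← two_smul ℝ] at h
  have h1 : (2 : Matrix (Fin 16) (Fin 16) ℝ) = (2 : ℝ) • 1 := by
    rw [two_smul, one_add_one_eq_two]
  rw [h1] at h
  exact smul_right_injective _ (two_ne_zero : (2 : ℝ) ≠ 0) h

theorem gamma_anti (G : GammaNine) {j k : Fin 9} (h : j ≠ k) :
    G.γ j * G.γ k = -(G.γ k * G.γ j) := by
  have h1 := G.clifford j k
  rw [if_neg h] at h1
  exact eq_neg_of_add_eq_zero_left h1

/-- `tr (γ^j γ^k) = 16 δ_{jk}`. -/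
theorem trace_two (G : GammaNine) (j k : Fin 9) :
    (G.γ j * G.γ k).trace = if j = k then 16 else 0 := by
  by_cases h : j = k
  · subst h
    rw [if_pos rfl, gamma_sq, Matrix.trace_one]
    simp
  · rw [if_neg h]
    have h1 : (G.γ j * G.γ k).trace = -(G.γ j * G.γ k).trace := by
      conv_lhs => rw [gamma_anti G h, Matrix.trace_neg, Matrix.trace_mul_comm]
    linarith

end Crest.Agent.R330.Weitz726

end
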