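import Crest.Agent.R330.LocB_8
import Crest.Agent.R330.FlatTail_924
import Crest.Agent.R330.MCut_365
import Crest.Agent.R330.PairT_245

/-!
# Row 330, S9-XCUT (helper924): the cut-off of the positions near the flats of a channel

* `cfU h0` : the positions inside `Uk b (C.cf X0)`; `cfW` its range, `cfB` the orthonormal basis
  `cf (single q 1)`.
* `exists_theta` : smooth cut-offs of the positions with support in `BReg`, and the mass of
  `(1 - θ) Φ` is at most `K δ²` times the energy of `Φ` along the centre.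
-/

set_option autoImplicit false
set_option linter.unusedSectionVars false

open MeasureTheory Filter Topology Set Crest.MathPhysics.MatrixQM
open scoped ContDiff InnerProductSpace ENNReal

noncomputable section

namespace Crest.Agent.R330.XCut924

open Crest.Agent.R330.Defs478 Crest.Agent.R330.LS839 Crest.Agent.R330.Frame839
  Crest.Agent.R330.Clus839 Crest.Agent.R330.Bind6839 Crest.Agent.R330.TDef414
  Crest.Agent.R330.LemA342 Crest.Agent.R330.MCut365 Crest.Agent.R330.LocB8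

variable {N p : ℕ} {b : ColorBasis N} {S : Type} [Group S] [Fintype S] {C : Chn b p S}
  {F : Type*} [NormedAddCommGroup F] [InnerProductSpace ℂ F] [FiniteDimensional ℂ F]

/-! ## The positions inside the slice -/

section cfU

variable {X0 : Pos p} (h0 : C.Reg X0)

theorem cf_mem_Uk (h0 : C.Reg X0) (X : Pos p) : C.cf X ∈ Uk b (C.cf X0) := by
  rw [PairT245.Uk_eq h0]
  exact PairT245.cf_mem_Tup X

/-- the positions inside `Uk b (C.cf X0)` -/
def cfU : Pos p →ₗᵢ[ℝ] Uk b (C.cf X0) where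
  toFun X := ⟨C.cf X, cf_mem_Uk h0 X⟩
  map_add' X Y := Subtype.ext (map_add C.cf X Y)
  map_smul' r X := Subtype.ext (map_smul C.cf r X)
  norm_map' X := C.cf.norm_map X

theorem coe_cfU (X : Pos p) : ((cfU h0 X : Uk b (C.cf X0)) : Cfg N) = C.cf X := rfl

/-- its range -/
def cfW : Submodule ℝ (Uk b (C.cf X0)) := LinearMap.range (cfU h0).toLinearMap

/-- the orthonormal basis `cf (single q 1)` of the centre directions -/
def cfB : OrthonormalBasis (Fin 9 × Fin p) ℝ (cfW h0) :=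
  (EuclideanSpace.basisFun (Fin 9 × Fin p) ℝ).map (cfU h0).equivRange

theorem coe_cfB (q : Fin 9 × Fin p) :
    ((cfB h0 q : cfW h0) : Uk b (C.cf X0)) = cfU h0 (EuclideanSpace.single q 1) := by
  have h1 : ((cfB h0 q : cfW h0) : Uk b (C.cf X0)) =
      cfU h0 (EuclideanSpace.basisFun (Fin 9 × Fin p) ℝ q) := rfl
  rw [h1, EuclideanSpace.basisFun_apply]

/-- a position function on the slice -/
def cfL (X0 : Pos p) (C : Chn b p S) (a : C.J) : Uk b (C.cf X0) →L[ℝ] EuclideanSpace ℝ (Fin 6) :=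
  (C.Lf a).comp (C.cfT.comp (Uk b (C.cf X0)).subtypeL)

theorem cfL_apply (a : C.J) (u : Uk b (C.cf X0)) : cfL X0 C a u = C.Lf a (C.cfT u) := rfl

theorem cfL_surj (h0 : C.Reg X0) (a : C.J) : Function.Surjective (cfL X0 C a) := fun y => by
  obtain ⟨X, hX⟩ := C.Lf_surj a y
  refine ⟨cfU h0 X, ?_⟩
  rw [cfL_apply, coe_cfU, C.cfT_cf, hX]

theorem inner_cfU (X : Pos p) (u : Uk b (C.cf X0)) : ⟪cfU h0 X, u⟫_ℝ = ⟪X, C.cfT u⟫_ℝ := by
  unfold Chn.cfT
  rw [ContinuousLinearMap.adjoint_inner_right]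
  rfl

theorem ker_le (a : C.J) : (LinearMap.ker (cfL X0 C a).toLinearMap)ᗮ ≤ cfW h0 := by
  have h1 : (cfW h0)ᗮ ≤ LinearMap.ker (cfL X0 C a).toLinearMap := by
    intro u hu
    have h2 : C.cfT u = 0 := by
      refine ext_inner_left ℝ fun X => ?_
      rw [← inner_cfU h0, inner_zero_right]
      exact (Submodule.mem_orthogonal _ _).1 hu _ ⟨X, rfl⟩
    rw [LinearMap.mem_ker]
    show C.Lf a (C.cfT u) = 0
    rw [h2, map_zero]
  have h3 := Submodule.orthogonal_le h1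
  rwa [Submodule.orthogonal_orthogonal] at h3

end cfU

/-! ## The cut-off -/

/-- the cut-off of the positions near the flats -/
def thc (C : Chn b p S) (δ : ℝ) (X : Pos p) : ℝ :=
  letI := C.hJ
  mcut (Finset.univ : Finset C.J) C.Lf (fun _ => 0) δ X

theorem thc_smooth (δ : ℝ) : ContDiff ℝ ∞ (thc C δ) := by
  let _ := C.hJ
  exact mcut_smooth _ _ _ δ

theorem thc_nonneg (δ : ℝ) (X : Pos p) : 0 ≤ thc C δ X := by
  let _ := C.hJ
  exact mcut_nonneg _ _ _ δ X

theorem thc_le_one (δ : ℝ) (X : Pos p) : thc C δ X ≤ 1 := by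
  let _ := C.hJ
  exact mcut_le_one _ _ _ δ X

theorem thc_one {δ : ℝ} (hδ : 0 < δ) {X : Pos p} (h : thc C δ X ≠ 1) :
    ∃ a, ‖C.Lf a X‖ ≤ 2 * δ := by
  let _ := C.hJ
  by_contra hn
  push Not at hn
  refine h (mcut_one hδ ?_)
  rintro ⟨a, -, ha⟩
  rw [sub_zero] at ha
  exact absurd ha (not_le.2 (hn a))

theorem thc_zero {δ : ℝ} (hδ : 0 < δ) {X : Pos p} {a : C.J} (h : ‖C.Lf a X‖ ≤ δ) :
    thc C δ X = 0 := by
  let _ := C.hJ
  exact mcut_zero hδ ⟨a, Finset.mem_univ a, by rwa [sub_zero]⟩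

theorem tsupport_thc {δ : ℝ} (hδ : 0 < δ) : tsupport (thc C δ) ⊆ {X | C.BReg X} := by
  have h1 : tsupport (thc C δ) ⊆ {X | ∀ a, δ ≤ ‖C.Lf a X‖} := by
    refine closure_minimal (fun X hX a => ?_) ?_
    · by_contra hn
      exact hX (thc_zero hδ (not_le.1 hn).le)
    · rw [Set.ofPred_forall]
      exact isClosed_iInter fun a => isClosed_le continuous_const (C.Lf a).continuous.norm
  intro X hX a ha
  have h2 := h1 hX a
  rw [ha, norm_zero] at h2
  linarith

/-! ## The tail -/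

theorem integrable_sq_cs {E : Type*} [NormedAddCommGroup E] [NormedSpace ℝ E]
    [FiniteDimensional ℝ E] [MeasurableSpace E] [BorelSpace E] {μ : Measure E}
    [IsFiniteMeasureOnCompacts μ] {f : E → F} (hf : Continuous f) (hc : HasCompactSupport f) :
    Integrable (fun x => ‖f x‖ ^ 2) μ := by
  have h1 : Continuous fun x => ‖f x‖ ^ 2 := hf.norm.pow 2
  have h2 : HasCompactSupport fun x => ‖f x‖ ^ 2 :=
    hc.norm.comp_left (g := fun t : ℝ => t ^ 2) (by norm_num)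
  exact h1.integrable_of_hasCompactSupport h2

/-- **The tail near the flats.** -/
theorem exists_tail (C : Chn b p S) {X0 : Pos p} (h0 : C.Reg X0) : ∃ K : ℝ, 0 ≤ K ∧
    ∀ δ : ℝ, 0 < δ → ∀ Φ : Sc b (C.cf X0) → F, ContDiff ℝ 1 Φ → HasCompactSupport Φ →
      ∫ x, ‖(1 - thc C δ (X0 + C.cfT (x.1 : Cfg N))) • Φ x‖ ^ 2 ≤
        K * δ ^ 2 * ∑ q : Fin 9 × Fin p,
          ∫ x, ‖fderiv ℝ Φ x (cfU h0 (EuclideanSpace.single q 1), 0)‖ ^ 2 := by
  classical
  let _ := C.hJ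
  letI : InnerProductSpace ℝ F := InnerProductSpace.complexToReal
  have hflat : ∀ a : C.J, ∃ K : ℝ, 0 ≤ K ∧ ∀ δ : ℝ, 0 < δ → ∀ Φ : Sc b (C.cf X0) → F,
      ContDiff ℝ 1 Φ → HasCompactSupport Φ →
      ∫ x in {x : Sc b (C.cf X0) | ‖C.Lf a (X0 + C.cfT (x.1 : Cfg N))‖ ≤ 2 * δ}, ‖Φ x‖ ^ 2 ≤
        K * δ ^ 2 * ∑ q : Fin 9 × Fin p,
          ∫ x, ‖fderiv ℝ Φ x (cfU h0 (EuclideanSpace.single q 1), 0)‖ ^ 2 := by
    intro a
    obtain ⟨K, hK, h⟩ := CapSl924.flat_tail (F := F) (μ := (volume : Measure (Uk b (C.cf X0))))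
      (ν := (volume : Measure (Zs b (C.cf X0)))) (cfL X0 C a) (cfL_surj h0 a)
      (by rw [finrank_euclideanSpace_fin]; norm_num) (cfW h0) (ker_le h0 a)
    refine ⟨4 * K, by positivity, fun δ hδ Φ hΦ hc => ?_⟩
    have h1 := h (cfB h0) (-(C.Lf a X0)) (2 * δ) (by positivity) Φ hΦ hc
    have e1 : {x : Sc b (C.cf X0) | ‖C.Lf a (X0 + C.cfT (x.1 : Cfg N))‖ ≤ 2 * δ} =
        {x : Sc b (C.cf X0) | ‖cfL X0 C a x.1 - -(C.Lf a X0)‖ ≤ 2 * δ} := by
      ext x
      rw [mem_ofPred_eq, mem_ofPred_eq, cfL_apply, map_add, sub_neg_eq_add, add_comm]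
    rw [e1]
    simp only [coe_cfB] at h1
    refine h1.trans (le_of_eq ?_)
    rw [← Measure.volume_eq_prod]
    ring
  choose K hK hflat using hflat
  refine ⟨∑ a, K a, Finset.sum_nonneg fun a _ => hK a, fun δ hδ Φ hΦ hc => ?_⟩
  set D : ℝ := ∑ q : Fin 9 × Fin p,
    ∫ x, ‖fderiv ℝ Φ x (cfU h0 (EuclideanSpace.single q 1), 0)‖ ^ 2 with hD
  set T : C.J → Set (Sc b (C.cf X0)) := fun a =>
    {x | ‖C.Lf a (X0 + C.cfT (x.1 : Cfg N))‖ ≤ 2 * δ} with hT
  have hTm : ∀ a, MeasurableSet (T a) := fun a => by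
    refine (isClosed_le ?_ continuous_const).measurableSet
    exact ((C.Lf a).continuous.comp (continuous_const.add
      (C.cfT.continuous.comp (continuous_subtype_val.comp continuous_fst)))).norm
  have iΦ : Integrable (fun x => ‖Φ x‖ ^ 2) (volume : Measure (Sc b (C.cf X0))) :=
    integrable_sq_cs hΦ.continuous hc
  have h1 : ∫ x, ‖(1 - thc C δ (X0 + C.cfT (x.1 : Cfg N))) • Φ x‖ ^ 2 ≤
      ∫ x, ∑ a, (T a).indicator (fun x => ‖Φ x‖ ^ 2) x := by
    refine integral_mono_of_nonneg (Eventually.of_forall fun x => sq_nonneg _)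
      (integrable_finsetSum _ fun a _ => iΦ.indicator (hTm a)) (Eventually.of_forall fun x => ?_)
    simp only
    set X := X0 + C.cfT (x.1 : Cfg N) with hX
    have hle : ‖(1 - thc C δ X) • Φ x‖ ^ 2 ≤ ‖Φ x‖ ^ 2 := by
      rw [norm_smul, mul_pow]
      have h2 : ‖1 - thc C δ X‖ ^ 2 ≤ 1 := by
        rw [Real.norm_eq_abs, sq_abs]
        have := thc_nonneg (C := C) δ X
        have := thc_le_one (C := C) δ X
        nlinarith
      calc _ ≤ 1 * ‖Φ x‖ ^ 2 := mul_le_mul_of_nonneg_right h2 (sq_nonneg _)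
        _ = _ := one_mul _
    have hnn : ∀ a ∈ (Finset.univ : Finset C.J), 0 ≤ (T a).indicator (fun x => ‖Φ x‖ ^ 2) x :=
      fun a _ => indicator_nonneg (fun x _ => sq_nonneg _) x
    by_cases h3 : thc C δ X = 1
    · rw [h3, sub_self, zero_smul, norm_zero]
      rw [zero_pow two_ne_zero]
      exact Finset.sum_nonneg hnn
    · obtain ⟨a, ha⟩ := thc_one hδ h3
      refine hle.trans ?_
      refine le_trans (le_of_eq ?_) (Finset.single_le_sum hnn (Finset.mem_univ a))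
      exact (indicator_of_mem (f := fun x => ‖Φ x‖ ^ 2) (show x ∈ T a from ha)).symm
  refine h1.trans ?_
  rw [integral_finsetSum _ fun a _ => iΦ.indicator (hTm a)]
  simp only [integral_indicator (hTm _)]
  calc ∑ a, ∫ x in T a, ‖Φ x‖ ^ 2 ≤ ∑ a, K a * δ ^ 2 * D :=
        Finset.sum_le_sum fun a _ => hflat a δ hδ Φ hΦ hc
    _ = (∑ a, K a) * δ ^ 2 * D := by rw [← Finset.sum_mul, ← Finset.sum_mul]

end Crest.Agent.R330.XCut924

end
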